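import Vale.Agent.Lib.P154.PChain.BQ.R7_0

set_option linter.all false

namespace Vale.Agent.Lib.P154.PChain.BQ.S8

open Vale.Agent.Lib.P154.Chain

noncomputable def pc0 : PT := (PT.nd (nat_lit 6725238) (PT.nd (nat_lit 6487962) (PT.nd (nat_lit 6310044) (PT.nd (nat_lit 6250686) (PT.nd (nat_lit 5776134) (PT.nd (nat_lit 5716854) PT.nil (PT.lf (nat_lit 76) (nat_lit 3) (nat_lit 1) (nat_lit 1) (nat_lit 237) (nat_lit 96) (nat_lit 237))) (PT.nd (nat_lit 78) (PT.lf (nat_lit 152) (nat_lit 6) (nat_lit 2) (nat_lit 3) (nat_lit 236) (nat_lit 97) (nat_lit 237)) (PT.lf (nat_lit 152) (nat_lit 6) (nat_lit 2) (nat_lit 1) (nat_lit 237) (nat_lit 97) (nat_lit 236)))) (PT.nd (nat_lit 78) (PT.lf (nat_lit 380) (nat_lit 6) (nat_lit 5) (nat_lit 3) (nat_lit 232) (nat_lit 105) (nat_lit 233)) (PT.nd (nat_lit 59202) (PT.lf (nat_lit 380) (nat_lit 6) (nat_lit 5) (nat_lit 1) (nat_lit 233) (nat_lit 105) (nat_lit 232)) (PT.lf (nat_lit 456)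 (nat_lit 6) (nat_lit 6) (nat_lit 3) (nat_lit 231) (nat_lit 106) (nat_lit 233))))) (PT.nd (nat_lit 59358) (PT.nd (nat_lit 78) (PT.lf (nat_lit 532) (nat_lit 3) (nat_lit 7) (nat_lit 1) (nat_lit 232) (nat_lit 106) (nat_lit 232)) (PT.nd (nat_lit 59202) (PT.lf (nat_lit 456) (nat_lit 6) (nat_lit 6) (nat_lit 1) (nat_lit 233) (nat_lit 106) (nat_lit 231)) (PT.lf (nat_lit 608) (nat_lit 6) (nat_lit 8) (nat_lit 3) (nat_lit 231) (nat_lit 107) (nat_lit 232)))) (PT.nd (nat_lit 59280) (PT.nd (nat_lit 59202) (PT.lf (nat_lit 608) (nat_lit 6) (nat_lit 8) (nat_lit 1) (nat_lit 232) (nat_lit 107) (nat_lit 231)) (PT.lf (nat_lit 684) (nat_lit 6) (nat_lit 9) (nat_lit 3) (nat_lit 230) (nat_lit 108) (nat_lit 232))) (PT.nd (nat_lit 78) (PT.lf (nat_lit 760) (nat_lit 3) (nat_lit 10) (nat_lit 1) (nat_lit 231) (nat_lit 108) (nat_lit 231)) (PT.lf (nat_lit 684) (nat_lit 6) (nat_lit 9) (nat_lit 1) (nat_lit 232) (nat_lit 108) (nat_lit 230))))))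 (PT.nd (nat_lit 118638) (PT.nd (nat_lit 59358) (PT.nd (nat_lit 78) (PT.lf (nat_lit 912) (nat_lit 6) (nat_lit 12) (nat_lit 3) (nat_lit 230) (nat_lit 109) (nat_lit 231)) (PT.nd (nat_lit 59202) (PT.lf (nat_lit 912) (nat_lit 6) (nat_lit 12) (nat_lit 1) (nat_lit 231) (nat_lit 109) (nat_lit 230)) (PT.lf (nat_lit 988) (nat_lit 6) (nat_lit 13) (nat_lit 3) (nat_lit 229) (nat_lit 110) (nat_lit 231)))) (PT.nd (nat_lit 78) (PT.lf (nat_lit 1064) (nat_lit 3) (nat_lit 14) (nat_lit 1) (nat_lit 230) (nat_lit 110) (nat_lit 230)) (PT.nd (nat_lit 59124) (PT.lf (nat_lit 988) (nat_lit 6) (nat_lit 13) (nat_lit 1) (nat_lit 231) (nat_lit 110) (nat_lit 229)) (PT.lf (nat_lit 1140) (nat_lit 6) (nat_lit 15) (nat_lit 3) (nat_lit 228) (nat_lit 111) (nat_lit 231))))) (PT.nd (nat_lit 59280) (PT.nd (nat_lit 78) (PT.lf (nat_lit 1216) (nat_lit 6) (nat_lit 16) (nat_lit 3) (nat_lit 229) (nat_lit 111) (nat_lit 230)) (PT.nd (nat_lit 78) (PT.lf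 (nat_lit 1216) (nat_lit 6) (nat_lit 16) (nat_lit 1) (nat_lit 230) (nat_lit 111) (nat_lit 229)) (PT.lf (nat_lit 1140) (nat_lit 6) (nat_lit 15) (nat_lit 1) (nat_lit 231) (nat_lit 111) (nat_lit 228)))) (PT.nd (nat_lit 156) (PT.nd (nat_lit 78) (PT.lf (nat_lit 1292) (nat_lit 6) (nat_lit 17) (nat_lit 3) (nat_lit 228) (nat_lit 112) (nat_lit 230)) (PT.lf (nat_lit 1368) (nat_lit 3) (nat_lit 18) (nat_lit 1) (nat_lit 229) (nat_lit 112) (nat_lit 229))) (PT.nd (nat_lit 59124) (PT.lf (nat_lit 1292) (nat_lit 6) (nat_lit 17) (nat_lit 1) (nat_lit 230) (nat_lit 112) (nat_lit 228)) (PT.lf (nat_lit 1444) (nat_lit 6) (nat_lit 19) (nat_lit 3) (nat_lit 227) (nat_lit 113) (nat_lit 230))))))) (PT.nd (nat_lit 178074) (PT.nd (nat_lit 118560) (PT.nd (nat_lit 59280) (PT.nd (nat_lit 78) (PT.lf (nat_lit 1520) (nat_lit 6) (nat_lit 20) (nat_lit 3) (nat_lit 228) (nat_lit 113) (nat_lit 229)) (PT.nd (nat_lit 78) (PT.lf (nat_lit 1520) (nat_lit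 6) (nat_lit 20) (nat_lit 1) (nat_lit 229) (nat_lit 113) (nat_lit 228)) (PT.lf (nat_lit 1444) (nat_lit 6) (nat_lit 19) (nat_lit 1) (nat_lit 230) (nat_lit 113) (nat_lit 227)))) (PT.nd (nat_lit 78) (PT.lf (nat_lit 1596) (nat_lit 6) (nat_lit 21) (nat_lit 3) (nat_lit 227) (nat_lit 114) (nat_lit 229)) (PT.nd (nat_lit 78) (PT.lf (nat_lit 1672) (nat_lit 3) (nat_lit 22) (nat_lit 1) (nat_lit 228) (nat_lit 114) (nat_lit 228)) (PT.lf (nat_lit 1596) (nat_lit 6) (nat_lit 21) (nat_lit 1) (nat_lit 229) (nat_lit 114) (nat_lit 227))))) (PT.nd (nat_lit 234) (PT.nd (nat_lit 78) (PT.lf (nat_lit 1748) (nat_lit 6) (nat_lit 23) (nat_lit 3) (nat_lit 226) (nat_lit 115) (nat_lit 229)) (PT.nd (nat_lit 78) (PT.lf (nat_lit 1824) (nat_lit 6) (nat_lit 24) (nat_lit 3) (nat_lit 227) (nat_lit 115) (nat_lit 228)) (PT.lf (nat_lit 1824) (nat_lit 6) (nat_lit 24) (nat_lit 1) (nat_lit 228) (nat_lit 115) (nat_lit 227)))) (PT.nd (nat_lit 59124)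 (PT.nd (nat_lit 59046) (PT.lf (nat_lit 1748) (nat_lit 6) (nat_lit 23) (nat_lit 1) (nat_lit 229) (nat_lit 115) (nat_lit 226)) (PT.lf (nat_lit 1900) (nat_lit 6) (nat_lit 25) (nat_lit 3) (nat_lit 225) (nat_lit 116) (nat_lit 229))) (PT.nd (nat_lit 78) (PT.lf (nat_lit 1976) (nat_lit 6) (nat_lit 26) (nat_lit 3) (nat_lit 226) (nat_lit 116) (nat_lit 228)) (PT.lf (nat_lit 2052) (nat_lit 3) (nat_lit 27) (nat_lit 1) (nat_lit 227) (nat_lit 116) (nat_lit 227)))))) (PT.nd (nat_lit 118482) (PT.nd (nat_lit 59202) (PT.nd (nat_lit 78) (PT.lf (nat_lit 1976) (nat_lit 6) (nat_lit 26) (nat_lit 1) (nat_lit 228) (nat_lit 116) (nat_lit 226)) (PT.nd (nat_lit 59046) (PT.lf (nat_lit 1900) (nat_lit 6) (nat_lit 25) (nat_lit 1) (nat_lit 229) (nat_lit 116) (nat_lit 225)) (PT.lf (nat_lit 2128) (nat_lit 6) (nat_lit 28) (nat_lit 3) (nat_lit 225) (nat_lit 117) (nat_lit 228)))) (PT.nd (nat_lit 156) (PT.nd (nat_lit 78) (PT.lf (nat_lit 2204)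 (nat_lit 6) (nat_lit 29) (nat_lit 3) (nat_lit 226) (nat_lit 117) (nat_lit 227)) (PT.lf (nat_lit 2204) (nat_lit 6) (nat_lit 29) (nat_lit 1) (nat_lit 227) (nat_lit 117) (nat_lit 226))) (PT.nd (nat_lit 59046) (PT.lf (nat_lit 2128) (nat_lit 6) (nat_lit 28) (nat_lit 1) (nat_lit 228) (nat_lit 117) (nat_lit 225)) (PT.lf (nat_lit 2280) (nat_lit 6) (nat_lit 30) (nat_lit 3) (nat_lit 224) (nat_lit 118) (nat_lit 228))))) (PT.nd (nat_lit 234) (PT.nd (nat_lit 78) (PT.lf (nat_lit 2356) (nat_lit 6) (nat_lit 31) (nat_lit 3) (nat_lit 225) (nat_lit 118) (nat_lit 227)) (PT.nd (nat_lit 78) (PT.lf (nat_lit 2432) (nat_lit 3) (nat_lit 32) (nat_lit 1) (nat_lit 226) (nat_lit 118) (nat_lit 226)) (PT.lf (nat_lit 2356) (nat_lit 6) (nat_lit 31) (nat_lit 1) (nat_lit 227) (nat_lit 118) (nat_lit 225)))) (PT.nd (nat_lit 59124) (PT.nd (nat_lit 59046) (PT.lf (nat_lit 2280) (nat_lit 6) (nat_lit 30) (nat_lit 1) (nat_lit 228) (nat_lit 118)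 (nat_lit 224)) (PT.lf (nat_lit 2508) (nat_lit 6) (nat_lit 33) (nat_lit 3) (nat_lit 224) (nat_lit 119) (nat_lit 227))) (PT.nd (nat_lit 78) (PT.lf (nat_lit 2584) (nat_lit 6) (nat_lit 34) (nat_lit 3) (nat_lit 225) (nat_lit 119) (nat_lit 226)) (PT.lf (nat_lit 2584) (nat_lit 6) (nat_lit 34) (nat_lit 1) (nat_lit 226) (nat_lit 119) (nat_lit 225))))))))
noncomputable def pc1 : PT := (PT.nd (nat_lit 355602) (PT.nd (nat_lit 177918) (PT.nd (nat_lit 118404) (PT.nd (nat_lit 59202) (PT.nd (nat_lit 59046) (PT.lf (nat_lit 2508) (nat_lit 6) (nat_lit 33) (nat_lit 1) (nat_lit 227) (nat_lit 119) (nat_lit 224)) (PT.nd (nat_lit 78) (PT.lf (nat_lit 2660) (nat_lit 6) (nat_lit 35) (nat_lit 3) (nat_lit 223) (nat_lit 120) (nat_lit 227)) (PT.lf (nat_lit 2736) (nat_lit 6) (nat_lit 36) (nat_lit 3) (nat_lit 224) (nat_lit 120) (nat_lit 226)))) (PT.nd (nat_lit 78) (PT.lf (nat_lit 2812) (nat_lit 3) (nat_lit 37) (nat_lit 1) (nat_lit 225)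 (nat_lit 120) (nat_lit 225)) (PT.nd (nat_lit 78) (PT.lf (nat_lit 2736) (nat_lit 6) (nat_lit 36) (nat_lit 1) (nat_lit 226) (nat_lit 120) (nat_lit 224)) (PT.lf (nat_lit 2660) (nat_lit 6) (nat_lit 35) (nat_lit 1) (nat_lit 227) (nat_lit 120) (nat_lit 223))))) (PT.nd (nat_lit 234) (PT.nd (nat_lit 78) (PT.lf (nat_lit 2964) (nat_lit 6) (nat_lit 39) (nat_lit 3) (nat_lit 223) (nat_lit 121) (nat_lit 226)) (PT.nd (nat_lit 78) (PT.lf (nat_lit 3040) (nat_lit 6) (nat_lit 40) (nat_lit 3) (nat_lit 224) (nat_lit 121) (nat_lit 225)) (PT.lf (nat_lit 3040) (nat_lit 6) (nat_lit 40) (nat_lit 1) (nat_lit 225) (nat_lit 121) (nat_lit 224)))) (PT.nd (nat_lit 59124) (PT.nd (nat_lit 59046) (PT.lf (nat_lit 2964) (nat_lit 6) (nat_lit 39) (nat_lit 1) (nat_lit 226) (nat_lit 121) (nat_lit 223)) (PT.lf (nat_lit 3116) (nat_lit 6) (nat_lit 41) (nat_lit 3) (nat_lit 222) (nat_lit 122) (nat_lit 226))) (PT.nd (nat_lit 78) (PT.lf (nat_lit 3192)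 (nat_lit 6) (nat_lit 42) (nat_lit 3) (nat_lit 223) (nat_lit 122) (nat_lit 225)) (PT.lf (nat_lit 3268) (nat_lit 3) (nat_lit 43) (nat_lit 1) (nat_lit 224) (nat_lit 122) (nat_lit 224)))))) (PT.nd (nat_lit 59358) (PT.nd (nat_lit 59124) (PT.nd (nat_lit 78) (PT.lf (nat_lit 3192) (nat_lit 6) (nat_lit 42) (nat_lit 1) (nat_lit 225) (nat_lit 122) (nat_lit 223)) (PT.nd (nat_lit 58968) (PT.lf (nat_lit 3116) (nat_lit 6) (nat_lit 41) (nat_lit 1) (nat_lit 226) (nat_lit 122) (nat_lit 222)) (PT.lf (nat_lit 3344) (nat_lit 6) (nat_lit 44) (nat_lit 3) (nat_lit 221) (nat_lit 123) (nat_lit 226)))) (PT.nd (nat_lit 78) (PT.lf (nat_lit 3420) (nat_lit 6) (nat_lit 45) (nat_lit 3) (nat_lit 222) (nat_lit 123) (nat_lit 225)) (PT.nd (nat_lit 78) (PT.lf (nat_lit 3496) (nat_lit 6) (nat_lit 46) (nat_lit 3) (nat_lit 223) (nat_lit 123) (nat_lit 224)) (PT.lf (nat_lit 3496) (nat_lit 6) (nat_lit 46) (nat_lit 1) (nat_lit 224) (nat_lit 123)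 (nat_lit 223))))) (PT.nd (nat_lit 59124) (PT.nd (nat_lit 78) (PT.lf (nat_lit 3420) (nat_lit 6) (nat_lit 45) (nat_lit 1) (nat_lit 225) (nat_lit 123) (nat_lit 222)) (PT.nd (nat_lit 58968) (PT.lf (nat_lit 3344) (nat_lit 6) (nat_lit 44) (nat_lit 1) (nat_lit 226) (nat_lit 123) (nat_lit 221)) (PT.lf (nat_lit 3572) (nat_lit 6) (nat_lit 47) (nat_lit 3) (nat_lit 221) (nat_lit 124) (nat_lit 225)))) (PT.nd (nat_lit 156) (PT.nd (nat_lit 78) (PT.lf (nat_lit 3648) (nat_lit 6) (nat_lit 48) (nat_lit 3) (nat_lit 222) (nat_lit 124) (nat_lit 224)) (PT.lf (nat_lit 3724) (nat_lit 3) (nat_lit 49) (nat_lit 1) (nat_lit 223) (nat_lit 124) (nat_lit 223))) (PT.nd (nat_lit 78) (PT.lf (nat_lit 3648) (nat_lit 6) (nat_lit 48) (nat_lit 1) (nat_lit 224) (nat_lit 124) (nat_lit 222)) (PT.lf (nat_lit 3572) (nat_lit 6) (nat_lit 47) (nat_lit 1) (nat_lit 225) (nat_lit 124) (nat_lit 221))))))) (PT.nd (nat_lit 118794) (PT.nd (nat_lit 59358)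 (PT.nd (nat_lit 234) (PT.nd (nat_lit 78) (PT.lf (nat_lit 3800) (nat_lit 6) (nat_lit 50) (nat_lit 3) (nat_lit 220) (nat_lit 125) (nat_lit 225)) (PT.nd (nat_lit 78) (PT.lf (nat_lit 3876) (nat_lit 6) (nat_lit 51) (nat_lit 3) (nat_lit 221) (nat_lit 125) (nat_lit 224)) (PT.lf (nat_lit 3952) (nat_lit 6) (nat_lit 52) (nat_lit 3) (nat_lit 222) (nat_lit 125) (nat_lit 223)))) (PT.nd (nat_lit 78) (PT.lf (nat_lit 3952) (nat_lit 6) (nat_lit 52) (nat_lit 1) (nat_lit 223) (nat_lit 125) (nat_lit 222)) (PT.nd (nat_lit 78) (PT.lf (nat_lit 3876) (nat_lit 6) (nat_lit 51) (nat_lit 1) (nat_lit 224) (nat_lit 125) (nat_lit 221)) (PT.lf (nat_lit 3800) (nat_lit 6) (nat_lit 50) (nat_lit 1) (nat_lit 225) (nat_lit 125) (nat_lit 220))))) (PT.nd (nat_lit 234) (PT.nd (nat_lit 78) (PT.lf (nat_lit 4104) (nat_lit 6) (nat_lit 54) (nat_lit 3) (nat_lit 220) (nat_lit 126) (nat_lit 224)) (PT.nd (nat_lit 78) (PT.lf (nat_lit 4180) (nat_lit 6)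 (nat_lit 55) (nat_lit 3) (nat_lit 221) (nat_lit 126) (nat_lit 223)) (PT.lf (nat_lit 4256) (nat_lit 3) (nat_lit 56) (nat_lit 1) (nat_lit 222) (nat_lit 126) (nat_lit 222)))) (PT.nd (nat_lit 59046) (PT.nd (nat_lit 78) (PT.lf (nat_lit 4180) (nat_lit 6) (nat_lit 55) (nat_lit 1) (nat_lit 223) (nat_lit 126) (nat_lit 221)) (PT.lf (nat_lit 4104) (nat_lit 6) (nat_lit 54) (nat_lit 1) (nat_lit 224) (nat_lit 126) (nat_lit 220))) (PT.nd (nat_lit 78) (PT.lf (nat_lit 4332) (nat_lit 6) (nat_lit 57) (nat_lit 3) (nat_lit 219) (nat_lit 127) (nat_lit 224)) (PT.lf (nat_lit 4408) (nat_lit 6) (nat_lit 58) (nat_lit 3) (nat_lit 220) (nat_lit 127) (nat_lit 223)))))) (PT.nd (nat_lit 59358) (PT.nd (nat_lit 234) (PT.nd (nat_lit 78) (PT.lf (nat_lit 4484) (nat_lit 6) (nat_lit 59) (nat_lit 3) (nat_lit 221) (nat_lit 127) (nat_lit 222)) (PT.nd (nat_lit 78) (PT.lf (nat_lit 4484) (nat_lit 6) (nat_lit 59) (nat_lit 1) (nat_lit 222) (nat_lit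 127) (nat_lit 221)) (PT.lf (nat_lit 4408) (nat_lit 6) (nat_lit 58) (nat_lit 1) (nat_lit 223) (nat_lit 127) (nat_lit 220)))) (PT.nd (nat_lit 58968) (PT.nd (nat_lit 58890) (PT.lf (nat_lit 4332) (nat_lit 6) (nat_lit 57) (nat_lit 1) (nat_lit 224) (nat_lit 127) (nat_lit 219)) (PT.lf (nat_lit 4560) (nat_lit 6) (nat_lit 60) (nat_lit 3) (nat_lit 218) (nat_lit 128) (nat_lit 224))) (PT.nd (nat_lit 78) (PT.lf (nat_lit 4636) (nat_lit 6) (nat_lit 61) (nat_lit 3) (nat_lit 219) (nat_lit 128) (nat_lit 223)) (PT.lf (nat_lit 4712) (nat_lit 6) (nat_lit 62) (nat_lit 3) (nat_lit 220) (nat_lit 128) (nat_lit 222))))) (PT.nd (nat_lit 234) (PT.nd (nat_lit 78) (PT.lf (nat_lit 4788) (nat_lit 3) (nat_lit 63) (nat_lit 1) (nat_lit 221) (nat_lit 128) (nat_lit 221)) (PT.nd (nat_lit 78) (PT.lf (nat_lit 4712) (nat_lit 6) (nat_lit 62) (nat_lit 1) (nat_lit 222) (nat_lit 128) (nat_lit 220)) (PT.lf (nat_lit 4636) (nat_lit 6) (nat_lit 61)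 (nat_lit 1) (nat_lit 223) (nat_lit 128) (nat_lit 219)))) (PT.nd (nat_lit 58968) (PT.nd (nat_lit 58890) (PT.lf (nat_lit 4560) (nat_lit 6) (nat_lit 60) (nat_lit 1) (nat_lit 224) (nat_lit 128) (nat_lit 218)) (PT.lf (nat_lit 4864) (nat_lit 6) (nat_lit 64) (nat_lit 3) (nat_lit 218) (nat_lit 129) (nat_lit 223))) (PT.nd (nat_lit 78) (PT.lf (nat_lit 4940) (nat_lit 6) (nat_lit 65) (nat_lit 3) (nat_lit 219) (nat_lit 129) (nat_lit 222)) (PT.lf (nat_lit 5016) (nat_lit 6) (nat_lit 66) (nat_lit 3) (nat_lit 220) (nat_lit 129) (nat_lit 221))))))))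
noncomputable def pc2 : PT := (PT.nd (nat_lit 237042) (PT.nd (nat_lit 118560) (PT.nd (nat_lit 59280) (PT.nd (nat_lit 59046) (PT.nd (nat_lit 78) (PT.lf (nat_lit 5016) (nat_lit 6) (nat_lit 66) (nat_lit 1) (nat_lit 221) (nat_lit 129) (nat_lit 220)) (PT.nd (nat_lit 78) (PT.lf (nat_lit 4940) (nat_lit 6) (nat_lit 65) (nat_lit 1) (nat_lit 222) (nat_lit 129) (nat_lit 219)) (PT.lf (nat_lit 4864) (nat_lit 6) (nat_lit 64) (nat_lit 1) (nat_lit 223) (nat_lit 129) (nat_lit 218)))) (PT.nd (nat_lit 78) (PT.lf (nat_lit 5092) (nat_lit 6) (nat_lit 67) (nat_lit 3) (nat_lit 217) (nat_lit 130) (nat_lit 223)) (PT.nd (nat_lit 78) (PT.lf (nat_lit 5168) (nat_lit 6) (nat_lit 68) (nat_lit 3) (nat_lit 218) (nat_lit 130) (nat_lit 222)) (PT.lf (nat_lit 5244) (nat_lit 6) (nat_lit 69) (nat_lit 3) (nat_lit 219) (nat_lit 130) (nat_lit 221))))) (PT.nd (nat_lit 234) (PT.nd (nat_lit 78) (PT.lf (nat_lit 5320) (nat_lit 3) (nat_lit 70) (nat_lit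 1) (nat_lit 220) (nat_lit 130) (nat_lit 220)) (PT.nd (nat_lit 78) (PT.lf (nat_lit 5244) (nat_lit 6) (nat_lit 69) (nat_lit 1) (nat_lit 221) (nat_lit 130) (nat_lit 219)) (PT.lf (nat_lit 5168) (nat_lit 6) (nat_lit 68) (nat_lit 1) (nat_lit 222) (nat_lit 130) (nat_lit 218)))) (PT.nd (nat_lit 58890) (PT.nd (nat_lit 58812) (PT.lf (nat_lit 5092) (nat_lit 6) (nat_lit 67) (nat_lit 1) (nat_lit 223) (nat_lit 130) (nat_lit 217)) (PT.lf (nat_lit 5396) (nat_lit 6) (nat_lit 71) (nat_lit 3) (nat_lit 216) (nat_lit 131) (nat_lit 223))) (PT.nd (nat_lit 78) (PT.lf (nat_lit 5472) (nat_lit 6) (nat_lit 72) (nat_lit 3) (nat_lit 217) (nat_lit 131) (nat_lit 222)) (PT.lf (nat_lit 5548) (nat_lit 6) (nat_lit 73) (nat_lit 3) (nat_lit 218) (nat_lit 131) (nat_lit 221)))))) (PT.nd (nat_lit 59202) (PT.nd (nat_lit 234) (PT.nd (nat_lit 78) (PT.lf (nat_lit 5624) (nat_lit 6) (nat_lit 74) (nat_lit 3) (nat_lit 219) (nat_lit 131) (nat_lit 220))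 (PT.nd (nat_lit 78) (PT.lf (nat_lit 5624) (nat_lit 6) (nat_lit 74) (nat_lit 1) (nat_lit 220) (nat_lit 131) (nat_lit 219)) (PT.lf (nat_lit 5548) (nat_lit 6) (nat_lit 73) (nat_lit 1) (nat_lit 221) (nat_lit 131) (nat_lit 218)))) (PT.nd (nat_lit 78) (PT.lf (nat_lit 5472) (nat_lit 6) (nat_lit 72) (nat_lit 1) (nat_lit 222) (nat_lit 131) (nat_lit 217)) (PT.nd (nat_lit 58812) (PT.lf (nat_lit 5396) (nat_lit 6) (nat_lit 71) (nat_lit 1) (nat_lit 223) (nat_lit 131) (nat_lit 216)) (PT.lf (nat_lit 5700) (nat_lit 6) (nat_lit 75) (nat_lit 3) (nat_lit 216) (nat_lit 132) (nat_lit 222))))) (PT.nd (nat_lit 234) (PT.nd (nat_lit 78) (PT.lf (nat_lit 5776) (nat_lit 6) (nat_lit 76) (nat_lit 3) (nat_lit 217) (nat_lit 132) (nat_lit 221)) (PT.nd (nat_lit 78) (PT.lf (nat_lit 5852) (nat_lit 6) (nat_lit 77) (nat_lit 3) (nat_lit 218) (nat_lit 132) (nat_lit 220)) (PT.lf (nat_lit 5928) (nat_lit 3) (nat_lit 78) (nat_lit 1) (nat_lit 219)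 (nat_lit 132) (nat_lit 219)))) (PT.nd (nat_lit 156) (PT.nd (nat_lit 78) (PT.lf (nat_lit 5852) (nat_lit 6) (nat_lit 77) (nat_lit 1) (nat_lit 220) (nat_lit 132) (nat_lit 218)) (PT.lf (nat_lit 5776) (nat_lit 6) (nat_lit 76) (nat_lit 1) (nat_lit 221) (nat_lit 132) (nat_lit 217))) (PT.nd (nat_lit 58812) (PT.lf (nat_lit 5700) (nat_lit 6) (nat_lit 75) (nat_lit 1) (nat_lit 222) (nat_lit 132) (nat_lit 216)) (PT.lf (nat_lit 6004) (nat_lit 6) (nat_lit 79) (nat_lit 3) (nat_lit 215) (nat_lit 133) (nat_lit 222))))))) (PT.nd (nat_lit 59748) (PT.nd (nat_lit 468) (PT.nd (nat_lit 234) (PT.nd (nat_lit 78) (PT.lf (nat_lit 6080) (nat_lit 6) (nat_lit 80) (nat_lit 3) (nat_lit 216) (nat_lit 133) (nat_lit 221)) (PT.nd (nat_lit 78) (PT.lf (nat_lit 6156) (nat_lit 6) (nat_lit 81) (nat_lit 3) (nat_lit 217) (nat_lit 133) (nat_lit 220)) (PT.lf (nat_lit 6232) (nat_lit 6) (nat_lit 82) (nat_lit 3) (nat_lit 218) (nat_lit 133) (nat_lit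 219)))) (PT.nd (nat_lit 78) (PT.lf (nat_lit 6232) (nat_lit 6) (nat_lit 82) (nat_lit 1) (nat_lit 219) (nat_lit 133) (nat_lit 218)) (PT.nd (nat_lit 78) (PT.lf (nat_lit 6156) (nat_lit 6) (nat_lit 81) (nat_lit 1) (nat_lit 220) (nat_lit 133) (nat_lit 217)) (PT.lf (nat_lit 6080) (nat_lit 6) (nat_lit 80) (nat_lit 1) (nat_lit 221) (nat_lit 133) (nat_lit 216))))) (PT.nd (nat_lit 58968) (PT.nd (nat_lit 58812) (PT.lf (nat_lit 6004) (nat_lit 6) (nat_lit 79) (nat_lit 1) (nat_lit 222) (nat_lit 133) (nat_lit 215)) (PT.nd (nat_lit 78) (PT.lf (nat_lit 6308) (nat_lit 6) (nat_lit 83) (nat_lit 3) (nat_lit 215) (nat_lit 134) (nat_lit 221)) (PT.lf (nat_lit 6384) (nat_lit 6) (nat_lit 84) (nat_lit 3) (nat_lit 216) (nat_lit 134) (nat_lit 220)))) (PT.nd (nat_lit 156) (PT.nd (nat_lit 78) (PT.lf (nat_lit 6460) (nat_lit 6) (nat_lit 85) (nat_lit 3) (nat_lit 217) (nat_lit 134) (nat_lit 219)) (PT.lf (nat_lit 6536) (nat_lit 3) (nat_lit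 86) (nat_lit 1) (nat_lit 218) (nat_lit 134) (nat_lit 218))) (PT.nd (nat_lit 78) (PT.lf (nat_lit 6460) (nat_lit 6) (nat_lit 85) (nat_lit 1) (nat_lit 219) (nat_lit 134) (nat_lit 217)) (PT.lf (nat_lit 6384) (nat_lit 6) (nat_lit 84) (nat_lit 1) (nat_lit 220) (nat_lit 134) (nat_lit 216)))))) (PT.nd (nat_lit 59280) (PT.nd (nat_lit 58968) (PT.nd (nat_lit 58812) (PT.lf (nat_lit 6308) (nat_lit 6) (nat_lit 83) (nat_lit 1) (nat_lit 221) (nat_lit 134) (nat_lit 215)) (PT.nd (nat_lit 78) (PT.lf (nat_lit 6612) (nat_lit 6) (nat_lit 87) (nat_lit 3) (nat_lit 214) (nat_lit 135) (nat_lit 221)) (PT.lf (nat_lit 6688) (nat_lit 6) (nat_lit 88) (nat_lit 3) (nat_lit 215) (nat_lit 135) (nat_lit 220)))) (PT.nd (nat_lit 156) (PT.nd (nat_lit 78) (PT.lf (nat_lit 6764) (nat_lit 6) (nat_lit 89) (nat_lit 3) (nat_lit 216) (nat_lit 135) (nat_lit 219)) (PT.lf (nat_lit 6840) (nat_lit 6) (nat_lit 90) (nat_lit 3) (nat_lit 217) (nat_lit 135)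 (nat_lit 218))) (PT.nd (nat_lit 78) (PT.lf (nat_lit 6840) (nat_lit 6) (nat_lit 90) (nat_lit 1) (nat_lit 218) (nat_lit 135) (nat_lit 217)) (PT.lf (nat_lit 6764) (nat_lit 6) (nat_lit 89) (nat_lit 1) (nat_lit 219) (nat_lit 135) (nat_lit 216))))) (PT.nd (nat_lit 58890) (PT.nd (nat_lit 78) (PT.lf (nat_lit 6688) (nat_lit 6) (nat_lit 88) (nat_lit 1) (nat_lit 220) (nat_lit 135) (nat_lit 215)) (PT.nd (nat_lit 58734) (PT.lf (nat_lit 6612) (nat_lit 6) (nat_lit 87) (nat_lit 1) (nat_lit 221) (nat_lit 135) (nat_lit 214)) (PT.lf (nat_lit 6916) (nat_lit 6) (nat_lit 91) (nat_lit 3) (nat_lit 213) (nat_lit 136) (nat_lit 221)))) (PT.nd (nat_lit 156) (PT.nd (nat_lit 78) (PT.lf (nat_lit 6992) (nat_lit 6) (nat_lit 92) (nat_lit 3) (nat_lit 214) (nat_lit 136) (nat_lit 220)) (PT.lf (nat_lit 7068) (nat_lit 6) (nat_lit 93) (nat_lit 3) (nat_lit 215) (nat_lit 136) (nat_lit 219))) (PT.nd (nat_lit 78) (PT.lf (nat_lit 7144) (nat_lit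 6) (nat_lit 94) (nat_lit 3) (nat_lit 216) (nat_lit 136) (nat_lit 218)) (PT.lf (nat_lit 7220) (nat_lit 3) (nat_lit 95) (nat_lit 1) (nat_lit 217) (nat_lit 136) (nat_lit 217))))))))
noncomputable def pc3 : PT := (PT.nd (nat_lit 177996) (PT.nd (nat_lit 118326) (PT.nd (nat_lit 59124) (PT.nd (nat_lit 234) (PT.nd (nat_lit 78) (PT.lf (nat_lit 7144) (nat_lit 6) (nat_lit 94) (nat_lit 1) (nat_lit 218) (nat_lit 136) (nat_lit 216)) (PT.nd (nat_lit 78) (PT.lf (nat_lit 7068) (nat_lit 6) (nat_lit 93) (nat_lit 1) (nat_lit 219) (nat_lit 136) (nat_lit 215)) (PT.lf (nat_lit 6992) (nat_lit 6) (nat_lit 92) (nat_lit 1) (nat_lit 220) (nat_lit 136) (nat_lit 214)))) (PT.nd (nat_lit 58734) (PT.lf (nat_lit 6916) (nat_lit 6) (nat_lit 91) (nat_lit 1) (nat_lit 221) (nat_lit 136) (nat_lit 213)) (PT.nd (nat_lit 78) (PT.lf (nat_lit 7296) (nat_lit 6) (nat_lit 96) (nat_lit 3) (nat_lit 213) (nat_lit 137) (nat_lit 220)) (PT.lf (nat_lit 7372)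 (nat_lit 6) (nat_lit 97) (nat_lit 3) (nat_lit 214) (nat_lit 137) (nat_lit 219))))) (PT.nd (nat_lit 234) (PT.nd (nat_lit 78) (PT.lf (nat_lit 7448) (nat_lit 6) (nat_lit 98) (nat_lit 3) (nat_lit 215) (nat_lit 137) (nat_lit 218)) (PT.nd (nat_lit 78) (PT.lf (nat_lit 7524) (nat_lit 6) (nat_lit 99) (nat_lit 3) (nat_lit 216) (nat_lit 137) (nat_lit 217)) (PT.lf (nat_lit 7524) (nat_lit 6) (nat_lit 99) (nat_lit 1) (nat_lit 217) (nat_lit 137) (nat_lit 216)))) (PT.nd (nat_lit 156) (PT.nd (nat_lit 78) (PT.lf (nat_lit 7448) (nat_lit 6) (nat_lit 98) (nat_lit 1) (nat_lit 218) (nat_lit 137) (nat_lit 215)) (PT.lf (nat_lit 7372) (nat_lit 6) (nat_lit 97) (nat_lit 1) (nat_lit 219) (nat_lit 137) (nat_lit 214))) (PT.nd (nat_lit 58734) (PT.lf (nat_lit 7296) (nat_lit 6) (nat_lit 96) (nat_lit 1) (nat_lit 220) (nat_lit 137) (nat_lit 213)) (PT.lf (nat_lit 7600) (nat_lit 6) (nat_lit 100) (nat_lit 3) (nat_lit 212) (nat_lit 138) (nat_lit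 220)))))) (PT.nd (nat_lit 546) (PT.nd (nat_lit 234) (PT.nd (nat_lit 78) (PT.lf (nat_lit 7676) (nat_lit 6) (nat_lit 101) (nat_lit 3) (nat_lit 213) (nat_lit 138) (nat_lit 219)) (PT.nd (nat_lit 78) (PT.lf (nat_lit 7752) (nat_lit 6) (nat_lit 102) (nat_lit 3) (nat_lit 214) (nat_lit 138) (nat_lit 218)) (PT.lf (nat_lit 7828) (nat_lit 6) (nat_lit 103) (nat_lit 3) (nat_lit 215) (nat_lit 138) (nat_lit 217)))) (PT.nd (nat_lit 156) (PT.nd (nat_lit 78) (PT.lf (nat_lit 7904) (nat_lit 3) (nat_lit 104) (nat_lit 1) (nat_lit 216) (nat_lit 138) (nat_lit 216)) (PT.lf (nat_lit 7828) (nat_lit 6) (nat_lit 103) (nat_lit 1) (nat_lit 217) (nat_lit 138) (nat_lit 215))) (PT.nd (nat_lit 78) (PT.lf (nat_lit 7752) (nat_lit 6) (nat_lit 102) (nat_lit 1) (nat_lit 218) (nat_lit 138) (nat_lit 214)) (PT.lf (nat_lit 7676) (nat_lit 6) (nat_lit 101) (nat_lit 1) (nat_lit 219) (nat_lit 138) (nat_lit 213))))) (PT.nd (nat_lit 58812) (PT.nd (nat_lit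 58656) (PT.lf (nat_lit 7600) (nat_lit 6) (nat_lit 100) (nat_lit 1) (nat_lit 220) (nat_lit 138) (nat_lit 212)) (PT.nd (nat_lit 78) (PT.lf (nat_lit 7980) (nat_lit 6) (nat_lit 105) (nat_lit 3) (nat_lit 211) (nat_lit 139) (nat_lit 220)) (PT.lf (nat_lit 8056) (nat_lit 6) (nat_lit 106) (nat_lit 3) (nat_lit 212) (nat_lit 139) (nat_lit 219)))) (PT.nd (nat_lit 156) (PT.nd (nat_lit 78) (PT.lf (nat_lit 8132) (nat_lit 6) (nat_lit 107) (nat_lit 3) (nat_lit 213) (nat_lit 139) (nat_lit 218)) (PT.lf (nat_lit 8208) (nat_lit 6) (nat_lit 108) (nat_lit 3) (nat_lit 214) (nat_lit 139) (nat_lit 217))) (PT.nd (nat_lit 78) (PT.lf (nat_lit 8284) (nat_lit 6) (nat_lit 109) (nat_lit 3) (nat_lit 215) (nat_lit 139) (nat_lit 216)) (PT.lf (nat_lit 8284) (nat_lit 6) (nat_lit 109) (nat_lit 1) (nat_lit 216) (nat_lit 139) (nat_lit 215))))))) (PT.nd (nat_lit 118170) (PT.nd (nat_lit 59046) (PT.nd (nat_lit 234) (PT.nd (nat_lit 78) (PT.lf (nat_lit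 8208) (nat_lit 6) (nat_lit 108) (nat_lit 1) (nat_lit 217) (nat_lit 139) (nat_lit 214)) (PT.nd (nat_lit 78) (PT.lf (nat_lit 8132) (nat_lit 6) (nat_lit 107) (nat_lit 1) (nat_lit 218) (nat_lit 139) (nat_lit 213)) (PT.lf (nat_lit 8056) (nat_lit 6) (nat_lit 106) (nat_lit 1) (nat_lit 219) (nat_lit 139) (nat_lit 212)))) (PT.nd (nat_lit 58656) (PT.lf (nat_lit 7980) (nat_lit 6) (nat_lit 105) (nat_lit 1) (nat_lit 220) (nat_lit 139) (nat_lit 211)) (PT.nd (nat_lit 78) (PT.lf (nat_lit 8360) (nat_lit 6) (nat_lit 110) (nat_lit 3) (nat_lit 211) (nat_lit 140) (nat_lit 219)) (PT.lf (nat_lit 8436) (nat_lit 6) (nat_lit 111) (nat_lit 3) (nat_lit 212) (nat_lit 140) (nat_lit 218))))) (PT.nd (nat_lit 234) (PT.nd (nat_lit 78) (PT.lf (nat_lit 8512) (nat_lit 6) (nat_lit 112) (nat_lit 3) (nat_lit 213) (nat_lit 140) (nat_lit 217)) (PT.nd (nat_lit 78) (PT.lf (nat_lit 8588) (nat_lit 6) (nat_lit 113) (nat_lit 3) (nat_lit 214) (nat_lit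 140) (nat_lit 216)) (PT.lf (nat_lit 8664) (nat_lit 3) (nat_lit 114) (nat_lit 1) (nat_lit 215) (nat_lit 140) (nat_lit 215)))) (PT.nd (nat_lit 156) (PT.nd (nat_lit 78) (PT.lf (nat_lit 8588) (nat_lit 6) (nat_lit 113) (nat_lit 1) (nat_lit 216) (nat_lit 140) (nat_lit 214)) (PT.lf (nat_lit 8512) (nat_lit 6) (nat_lit 112) (nat_lit 1) (nat_lit 217) (nat_lit 140) (nat_lit 213))) (PT.nd (nat_lit 78) (PT.lf (nat_lit 8436) (nat_lit 6) (nat_lit 111) (nat_lit 1) (nat_lit 218) (nat_lit 140) (nat_lit 212)) (PT.lf (nat_lit 8360) (nat_lit 6) (nat_lit 110) (nat_lit 1) (nat_lit 219) (nat_lit 140) (nat_lit 211)))))) (PT.nd (nat_lit 546) (PT.nd (nat_lit 234) (PT.nd (nat_lit 78) (PT.lf (nat_lit 8740) (nat_lit 6) (nat_lit 115) (nat_lit 3) (nat_lit 210) (nat_lit 141) (nat_lit 219)) (PT.nd (nat_lit 78) (PT.lf (nat_lit 8816) (nat_lit 6) (nat_lit 116) (nat_lit 3) (nat_lit 211) (nat_lit 141) (nat_lit 218)) (PT.lf (nat_lit 8892) (nat_lit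 6) (nat_lit 117) (nat_lit 3) (nat_lit 212) (nat_lit 141) (nat_lit 217)))) (PT.nd (nat_lit 156) (PT.nd (nat_lit 78) (PT.lf (nat_lit 8968) (nat_lit 6) (nat_lit 118) (nat_lit 3) (nat_lit 213) (nat_lit 141) (nat_lit 216)) (PT.lf (nat_lit 9044) (nat_lit 6) (nat_lit 119) (nat_lit 3) (nat_lit 214) (nat_lit 141) (nat_lit 215))) (PT.nd (nat_lit 78) (PT.lf (nat_lit 9044) (nat_lit 6) (nat_lit 119) (nat_lit 1) (nat_lit 215) (nat_lit 141) (nat_lit 214)) (PT.lf (nat_lit 8968) (nat_lit 6) (nat_lit 118) (nat_lit 1) (nat_lit 216) (nat_lit 141) (nat_lit 213))))) (PT.nd (nat_lit 58734) (PT.nd (nat_lit 78) (PT.lf (nat_lit 8892) (nat_lit 6) (nat_lit 117) (nat_lit 1) (nat_lit 217) (nat_lit 141) (nat_lit 212)) (PT.nd (nat_lit 78) (PT.lf (nat_lit 8816) (nat_lit 6) (nat_lit 116) (nat_lit 1) (nat_lit 218) (nat_lit 141) (nat_lit 211)) (PT.lf (nat_lit 8740) (nat_lit 6) (nat_lit 115) (nat_lit 1) (nat_lit 219) (nat_lit 141) (nat_lit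 210)))) (PT.nd (nat_lit 156) (PT.nd (nat_lit 78) (PT.lf (nat_lit 9120) (nat_lit 6) (nat_lit 120) (nat_lit 3) (nat_lit 209) (nat_lit 142) (nat_lit 219)) (PT.lf (nat_lit 9196) (nat_lit 6) (nat_lit 121) (nat_lit 3) (nat_lit 210) (nat_lit 142) (nat_lit 218))) (PT.nd (nat_lit 78) (PT.lf (nat_lit 9272) (nat_lit 6) (nat_lit 122) (nat_lit 3) (nat_lit 211) (nat_lit 142) (nat_lit 217)) (PT.lf (nat_lit 9348) (nat_lit 6) (nat_lit 123) (nat_lit 3) (nat_lit 212) (nat_lit 142) (nat_lit 216))))))))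
noncomputable def pc4 : PT := (PT.nd (nat_lit 119028) (PT.nd (nat_lit 59514) (PT.nd (nat_lit 468) (PT.nd (nat_lit 234) (PT.nd (nat_lit 78) (PT.lf (nat_lit 9424) (nat_lit 6) (nat_lit 124) (nat_lit 3) (nat_lit 213) (nat_lit 142) (nat_lit 215)) (PT.nd (nat_lit 78) (PT.lf (nat_lit 9500) (nat_lit 3) (nat_lit 125) (nat_lit 1) (nat_lit 214) (nat_lit 142) (nat_lit 214)) (PT.lf (nat_lit 9424) (nat_lit 6) (nat_lit 124) (nat_lit 1) (nat_lit 215) (nat_lit 142) (nat_lit 213)))) (PT.nd (nat_lit 78) (PT.lf (nat_lit 9348) (nat_lit 6) (nat_lit 123) (nat_lit 1) (nat_lit 216) (nat_lit 142) (nat_lit 212)) (PT.nd (nat_lit 78) (PT.lf (nat_lit 9272) (nat_lit 6) (nat_lit 122) (nat_lit 1) (nat_lit 217) (nat_lit 142) (nat_lit 211)) (PT.lf (nat_lit 9196) (nat_lit 6) (nat_lit 121) (nat_lit 1) (nat_lit 218) (nat_lit 142) (nat_lit 210))))) (PT.nd (nat_lit 58734) (PT.nd (nat_lit 58578) (PT.lf (nat_lit 9120) (nat_lit 6) (nat_lit 120)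 (nat_lit 1) (nat_lit 219) (nat_lit 142) (nat_lit 209)) (PT.nd (nat_lit 78) (PT.lf (nat_lit 9576) (nat_lit 6) (nat_lit 126) (nat_lit 3) (nat_lit 209) (nat_lit 143) (nat_lit 218)) (PT.lf (nat_lit 9652) (nat_lit 6) (nat_lit 127) (nat_lit 3) (nat_lit 210) (nat_lit 143) (nat_lit 217)))) (PT.nd (nat_lit 156) (PT.nd (nat_lit 78) (PT.lf (nat_lit 9728) (nat_lit 6) (nat_lit 128) (nat_lit 3) (nat_lit 211) (nat_lit 143) (nat_lit 216)) (PT.lf (nat_lit 9804) (nat_lit 6) (nat_lit 129) (nat_lit 3) (nat_lit 212) (nat_lit 143) (nat_lit 215))) (PT.nd (nat_lit 78) (PT.lf (nat_lit 9880) (nat_lit 6) (nat_lit 130) (nat_lit 3) (nat_lit 213) (nat_lit 143) (nat_lit 214)) (PT.lf (nat_lit 9880) (nat_lit 6) (nat_lit 130) (nat_lit 1) (nat_lit 214) (nat_lit 143) (nat_lit 213)))))) (PT.nd (nat_lit 58968) (PT.nd (nat_lit 234) (PT.nd (nat_lit 78) (PT.lf (nat_lit 9804) (nat_lit 6) (nat_lit 129) (nat_lit 1) (nat_lit 215) (nat_lit 143) (nat_lit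 212)) (PT.nd (nat_lit 78) (PT.lf (nat_lit 9728) (nat_lit 6) (nat_lit 128) (nat_lit 1) (nat_lit 216) (nat_lit 143) (nat_lit 211)) (PT.lf (nat_lit 9652) (nat_lit 6) (nat_lit 127) (nat_lit 1) (nat_lit 217) (nat_lit 143) (nat_lit 210)))) (PT.nd (nat_lit 58578) (PT.lf (nat_lit 9576) (nat_lit 6) (nat_lit 126) (nat_lit 1) (nat_lit 218) (nat_lit 143) (nat_lit 209)) (PT.nd (nat_lit 78) (PT.lf (nat_lit 9956) (nat_lit 6) (nat_lit 131) (nat_lit 3) (nat_lit 208) (nat_lit 144) (nat_lit 218)) (PT.lf (nat_lit 10032) (nat_lit 6) (nat_lit 132) (nat_lit 3) (nat_lit 209) (nat_lit 144) (nat_lit 217))))) (PT.nd (nat_lit 234) (PT.nd (nat_lit 78) (PT.lf (nat_lit 10108) (nat_lit 6) (nat_lit 133) (nat_lit 3) (nat_lit 210) (nat_lit 144) (nat_lit 216)) (PT.nd (nat_lit 78) (PT.lf (nat_lit 10184) (nat_lit 6) (nat_lit 134) (nat_lit 3) (nat_lit 211) (nat_lit 144) (nat_lit 215)) (PT.lf (nat_lit 10260) (nat_lit 6) (nat_lit 135) (nat_lit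 3) (nat_lit 212) (nat_lit 144) (nat_lit 214)))) (PT.nd (nat_lit 156) (PT.nd (nat_lit 78) (PT.lf (nat_lit 10336) (nat_lit 3) (nat_lit 136) (nat_lit 1) (nat_lit 213) (nat_lit 144) (nat_lit 213)) (PT.lf (nat_lit 10260) (nat_lit 6) (nat_lit 135) (nat_lit 1) (nat_lit 214) (nat_lit 144) (nat_lit 212))) (PT.nd (nat_lit 78) (PT.lf (nat_lit 10184) (nat_lit 6) (nat_lit 134) (nat_lit 1) (nat_lit 215) (nat_lit 144) (nat_lit 211)) (PT.lf (nat_lit 10108) (nat_lit 6) (nat_lit 133) (nat_lit 1) (nat_lit 216) (nat_lit 144) (nat_lit 210))))))) (PT.nd (nat_lit 59436) (PT.nd (nat_lit 58890) (PT.nd (nat_lit 58656) (PT.nd (nat_lit 78) (PT.lf (nat_lit 10032) (nat_lit 6) (nat_lit 132) (nat_lit 1) (nat_lit 217) (nat_lit 144) (nat_lit 209)) (PT.nd (nat_lit 58500) (PT.lf (nat_lit 9956) (nat_lit 6) (nat_lit 131) (nat_lit 1) (nat_lit 218) (nat_lit 144) (nat_lit 208)) (PT.lf (nat_lit 10412) (nat_lit 6) (nat_lit 137) (nat_lit 3) (nat_lit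 207) (nat_lit 145) (nat_lit 218)))) (PT.nd (nat_lit 78) (PT.lf (nat_lit 10488) (nat_lit 6) (nat_lit 138) (nat_lit 3) (nat_lit 208) (nat_lit 145) (nat_lit 217)) (PT.nd (nat_lit 78) (PT.lf (nat_lit 10564) (nat_lit 6) (nat_lit 139) (nat_lit 3) (nat_lit 209) (nat_lit 145) (nat_lit 216)) (PT.lf (nat_lit 10640) (nat_lit 6) (nat_lit 140) (nat_lit 3) (nat_lit 210) (nat_lit 145) (nat_lit 215))))) (PT.nd (nat_lit 234) (PT.nd (nat_lit 78) (PT.lf (nat_lit 10716) (nat_lit 6) (nat_lit 141) (nat_lit 3) (nat_lit 211) (nat_lit 145) (nat_lit 214)) (PT.nd (nat_lit 78) (PT.lf (nat_lit 10792) (nat_lit 6) (nat_lit 142) (nat_lit 3) (nat_lit 212) (nat_lit 145) (nat_lit 213)) (PT.lf (nat_lit 10792) (nat_lit 6) (nat_lit 142) (nat_lit 1) (nat_lit 213) (nat_lit 145) (nat_lit 212)))) (PT.nd (nat_lit 156) (PT.nd (nat_lit 78) (PT.lf (nat_lit 10716) (nat_lit 6) (nat_lit 141) (nat_lit 1) (nat_lit 214) (nat_lit 145) (nat_lit 211)) (PT.lf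 (nat_lit 10640) (nat_lit 6) (nat_lit 140) (nat_lit 1) (nat_lit 215) (nat_lit 145) (nat_lit 210))) (PT.nd (nat_lit 78) (PT.lf (nat_lit 10564) (nat_lit 6) (nat_lit 139) (nat_lit 1) (nat_lit 216) (nat_lit 145) (nat_lit 209)) (PT.lf (nat_lit 10488) (nat_lit 6) (nat_lit 138) (nat_lit 1) (nat_lit 217) (nat_lit 145) (nat_lit 208)))))) (PT.nd (nat_lit 58968) (PT.nd (nat_lit 58656) (PT.nd (nat_lit 58500) (PT.lf (nat_lit 10412) (nat_lit 6) (nat_lit 137) (nat_lit 1) (nat_lit 218) (nat_lit 145) (nat_lit 207)) (PT.nd (nat_lit 78) (PT.lf (nat_lit 10944) (nat_lit 6) (nat_lit 144) (nat_lit 3) (nat_lit 207) (nat_lit 146) (nat_lit 217)) (PT.lf (nat_lit 11020) (nat_lit 6) (nat_lit 145) (nat_lit 3) (nat_lit 208) (nat_lit 146) (nat_lit 216)))) (PT.nd (nat_lit 156) (PT.nd (nat_lit 78) (PT.lf (nat_lit 11096) (nat_lit 6) (nat_lit 146) (nat_lit 3) (nat_lit 209) (nat_lit 146) (nat_lit 215)) (PT.lf (nat_lit 11172) (nat_lit 6) (nat_lit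 147) (nat_lit 3) (nat_lit 210) (nat_lit 146) (nat_lit 214))) (PT.nd (nat_lit 78) (PT.lf (nat_lit 11248) (nat_lit 6) (nat_lit 148) (nat_lit 3) (nat_lit 211) (nat_lit 146) (nat_lit 213)) (PT.lf (nat_lit 11324) (nat_lit 3) (nat_lit 149) (nat_lit 1) (nat_lit 212) (nat_lit 146) (nat_lit 212))))) (PT.nd (nat_lit 234) (PT.nd (nat_lit 78) (PT.lf (nat_lit 11248) (nat_lit 6) (nat_lit 148) (nat_lit 1) (nat_lit 213) (nat_lit 146) (nat_lit 211)) (PT.nd (nat_lit 78) (PT.lf (nat_lit 11172) (nat_lit 6) (nat_lit 147) (nat_lit 1) (nat_lit 214) (nat_lit 146) (nat_lit 210)) (PT.lf (nat_lit 11096) (nat_lit 6) (nat_lit 146) (nat_lit 1) (nat_lit 215) (nat_lit 146) (nat_lit 209)))) (PT.nd (nat_lit 58578) (PT.nd (nat_lit 78) (PT.lf (nat_lit 11020) (nat_lit 6) (nat_lit 145) (nat_lit 1) (nat_lit 216) (nat_lit 146) (nat_lit 208)) (PT.lf (nat_lit 10944) (nat_lit 6) (nat_lit 144) (nat_lit 1) (nat_lit 217) (nat_lit 146) (nat_lit 207)))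 (PT.nd (nat_lit 78) (PT.lf (nat_lit 11400) (nat_lit 6) (nat_lit 150) (nat_lit 3) (nat_lit 206) (nat_lit 147) (nat_lit 217)) (PT.lf (nat_lit 11476) (nat_lit 6) (nat_lit 151) (nat_lit 3) (nat_lit 207) (nat_lit 147) (nat_lit 216))))))))
noncomputable def pc5 : PT := (PT.nd (nat_lit 118638) (PT.nd (nat_lit 59358) (PT.nd (nat_lit 468) (PT.nd (nat_lit 234) (PT.nd (nat_lit 78) (PT.lf (nat_lit 11552) (nat_lit 6) (nat_lit 152) (nat_lit 3) (nat_lit 208) (nat_lit 147) (nat_lit 215)) (PT.nd (nat_lit 78) (PT.lf (nat_lit 11628) (nat_lit 6) (nat_lit 153) (nat_lit 3) (nat_lit 209) (nat_lit 147) (nat_lit 214)) (PT.lf (nat_lit 11704) (nat_lit 6) (nat_lit 154) (nat_lit 3) (nat_lit 210) (nat_lit 147) (nat_lit 213)))) (PT.nd (nat_lit 78) (PT.lf (nat_lit 11780) (nat_lit 6) (nat_lit 155) (nat_lit 3) (nat_lit 211) (nat_lit 147) (nat_lit 212)) (PT.nd (nat_lit 78) (PT.lf (nat_lit 11780) (nat_lit 6) (nat_lit 155) (nat_lit 1) (nat_lit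 212) (nat_lit 147) (nat_lit 211)) (PT.lf (nat_lit 11704) (nat_lit 6) (nat_lit 154) (nat_lit 1) (nat_lit 213) (nat_lit 147) (nat_lit 210))))) (PT.nd (nat_lit 234) (PT.nd (nat_lit 78) (PT.lf (nat_lit 11628) (nat_lit 6) (nat_lit 153) (nat_lit 1) (nat_lit 214) (nat_lit 147) (nat_lit 209)) (PT.nd (nat_lit 78) (PT.lf (nat_lit 11552) (nat_lit 6) (nat_lit 152) (nat_lit 1) (nat_lit 215) (nat_lit 147) (nat_lit 208)) (PT.lf (nat_lit 11476) (nat_lit 6) (nat_lit 151) (nat_lit 1) (nat_lit 216) (nat_lit 147) (nat_lit 207)))) (PT.nd (nat_lit 58500) (PT.nd (nat_lit 58422) (PT.lf (nat_lit 11400) (nat_lit 6) (nat_lit 150) (nat_lit 1) (nat_lit 217) (nat_lit 147) (nat_lit 206)) (PT.lf (nat_lit 11856) (nat_lit 6) (nat_lit 156) (nat_lit 3) (nat_lit 205) (nat_lit 148) (nat_lit 217))) (PT.nd (nat_lit 78) (PT.lf (nat_lit 11932) (nat_lit 6) (nat_lit 157) (nat_lit 3) (nat_lit 206) (nat_lit 148) (nat_lit 216)) (PT.lf (nat_lit 12008)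 (nat_lit 6) (nat_lit 158) (nat_lit 3) (nat_lit 207) (nat_lit 148) (nat_lit 215)))))) (PT.nd (nat_lit 468) (PT.nd (nat_lit 234) (PT.nd (nat_lit 78) (PT.lf (nat_lit 12084) (nat_lit 6) (nat_lit 159) (nat_lit 3) (nat_lit 208) (nat_lit 148) (nat_lit 214)) (PT.nd (nat_lit 78) (PT.lf (nat_lit 12160) (nat_lit 6) (nat_lit 160) (nat_lit 3) (nat_lit 209) (nat_lit 148) (nat_lit 213)) (PT.lf (nat_lit 12236) (nat_lit 6) (nat_lit 161) (nat_lit 3) (nat_lit 210) (nat_lit 148) (nat_lit 212)))) (PT.nd (nat_lit 78) (PT.lf (nat_lit 12312) (nat_lit 3) (nat_lit 162) (nat_lit 1) (nat_lit 211) (nat_lit 148) (nat_lit 211)) (PT.nd (nat_lit 78) (PT.lf (nat_lit 12236) (nat_lit 6) (nat_lit 161) (nat_lit 1) (nat_lit 212) (nat_lit 148) (nat_lit 210)) (PT.lf (nat_lit 12160) (nat_lit 6) (nat_lit 160) (nat_lit 1) (nat_lit 213) (nat_lit 148) (nat_lit 209))))) (PT.nd (nat_lit 234) (PT.nd (nat_lit 78) (PT.lf (nat_lit 12084) (nat_lit 6) (nat_lit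 159) (nat_lit 1) (nat_lit 214) (nat_lit 148) (nat_lit 208)) (PT.nd (nat_lit 78) (PT.lf (nat_lit 12008) (nat_lit 6) (nat_lit 158) (nat_lit 1) (nat_lit 215) (nat_lit 148) (nat_lit 207)) (PT.lf (nat_lit 11932) (nat_lit 6) (nat_lit 157) (nat_lit 1) (nat_lit 216) (nat_lit 148) (nat_lit 206)))) (PT.nd (nat_lit 58422) (PT.nd (nat_lit 58344) (PT.lf (nat_lit 11856) (nat_lit 6) (nat_lit 156) (nat_lit 1) (nat_lit 217) (nat_lit 148) (nat_lit 205)) (PT.lf (nat_lit 12388) (nat_lit 6) (nat_lit 163) (nat_lit 3) (nat_lit 204) (nat_lit 149) (nat_lit 217))) (PT.nd (nat_lit 78) (PT.lf (nat_lit 12464) (nat_lit 6) (nat_lit 164) (nat_lit 3) (nat_lit 205) (nat_lit 149) (nat_lit 216)) (PT.lf (nat_lit 12540) (nat_lit 6) (nat_lit 165) (nat_lit 3) (nat_lit 206) (nat_lit 149) (nat_lit 215))))))) (PT.nd (nat_lit 59280) (PT.nd (nat_lit 468) (PT.nd (nat_lit 234) (PT.nd (nat_lit 78) (PT.lf (nat_lit 12616) (nat_lit 6) (nat_lit 166) (nat_lit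 3) (nat_lit 207) (nat_lit 149) (nat_lit 214)) (PT.nd (nat_lit 78) (PT.lf (nat_lit 12692) (nat_lit 6) (nat_lit 167) (nat_lit 3) (nat_lit 208) (nat_lit 149) (nat_lit 213)) (PT.lf (nat_lit 12768) (nat_lit 6) (nat_lit 168) (nat_lit 3) (nat_lit 209) (nat_lit 149) (nat_lit 212)))) (PT.nd (nat_lit 78) (PT.lf (nat_lit 12844) (nat_lit 6) (nat_lit 169) (nat_lit 3) (nat_lit 210) (nat_lit 149) (nat_lit 211)) (PT.nd (nat_lit 78) (PT.lf (nat_lit 12844) (nat_lit 6) (nat_lit 169) (nat_lit 1) (nat_lit 211) (nat_lit 149) (nat_lit 210)) (PT.lf (nat_lit 12768) (nat_lit 6) (nat_lit 168) (nat_lit 1) (nat_lit 212) (nat_lit 149) (nat_lit 209))))) (PT.nd (nat_lit 234) (PT.nd (nat_lit 78) (PT.lf (nat_lit 12692) (nat_lit 6) (nat_lit 167) (nat_lit 1) (nat_lit 213) (nat_lit 149) (nat_lit 208)) (PT.nd (nat_lit 78) (PT.lf (nat_lit 12616) (nat_lit 6) (nat_lit 166) (nat_lit 1) (nat_lit 214) (nat_lit 149) (nat_lit 207)) (PT.lf (nat_lit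 12540) (nat_lit 6) (nat_lit 165) (nat_lit 1) (nat_lit 215) (nat_lit 149) (nat_lit 206)))) (PT.nd (nat_lit 58422) (PT.nd (nat_lit 78) (PT.lf (nat_lit 12464) (nat_lit 6) (nat_lit 164) (nat_lit 1) (nat_lit 216) (nat_lit 149) (nat_lit 205)) (PT.lf (nat_lit 12388) (nat_lit 6) (nat_lit 163) (nat_lit 1) (nat_lit 217) (nat_lit 149) (nat_lit 204))) (PT.nd (nat_lit 78) (PT.lf (nat_lit 12920) (nat_lit 6) (nat_lit 170) (nat_lit 3) (nat_lit 204) (nat_lit 150) (nat_lit 216)) (PT.lf (nat_lit 12996) (nat_lit 6) (nat_lit 171) (nat_lit 3) (nat_lit 205) (nat_lit 150) (nat_lit 215)))))) (PT.nd (nat_lit 546) (PT.nd (nat_lit 234) (PT.nd (nat_lit 78) (PT.lf (nat_lit 13072) (nat_lit 6) (nat_lit 172) (nat_lit 3) (nat_lit 206) (nat_lit 150) (nat_lit 214)) (PT.nd (nat_lit 78) (PT.lf (nat_lit 13148) (nat_lit 6) (nat_lit 173) (nat_lit 3) (nat_lit 207) (nat_lit 150) (nat_lit 213)) (PT.lf (nat_lit 13224) (nat_lit 6) (nat_lit 174) (nat_lit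 3) (nat_lit 208) (nat_lit 150) (nat_lit 212)))) (PT.nd (nat_lit 156) (PT.nd (nat_lit 78) (PT.lf (nat_lit 13300) (nat_lit 6) (nat_lit 175) (nat_lit 3) (nat_lit 209) (nat_lit 150) (nat_lit 211)) (PT.lf (nat_lit 13376) (nat_lit 3) (nat_lit 176) (nat_lit 1) (nat_lit 210) (nat_lit 150) (nat_lit 210))) (PT.nd (nat_lit 78) (PT.lf (nat_lit 13300) (nat_lit 6) (nat_lit 175) (nat_lit 1) (nat_lit 211) (nat_lit 150) (nat_lit 209)) (PT.lf (nat_lit 13224) (nat_lit 6) (nat_lit 174) (nat_lit 1) (nat_lit 212) (nat_lit 150) (nat_lit 208))))) (PT.nd (nat_lit 234) (PT.nd (nat_lit 78) (PT.lf (nat_lit 13148) (nat_lit 6) (nat_lit 173) (nat_lit 1) (nat_lit 213) (nat_lit 150) (nat_lit 207)) (PT.nd (nat_lit 78) (PT.lf (nat_lit 13072) (nat_lit 6) (nat_lit 172) (nat_lit 1) (nat_lit 214) (nat_lit 150) (nat_lit 206)) (PT.lf (nat_lit 12996) (nat_lit 6) (nat_lit 171) (nat_lit 1) (nat_lit 215) (nat_lit 150) (nat_lit 205)))) (PT.nd (nat_lit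 58422) (PT.nd (nat_lit 58344) (PT.lf (nat_lit 12920) (nat_lit 6) (nat_lit 170) (nat_lit 1) (nat_lit 216) (nat_lit 150) (nat_lit 204)) (PT.lf (nat_lit 13452) (nat_lit 6) (nat_lit 177) (nat_lit 3) (nat_lit 203) (nat_lit 151) (nat_lit 216))) (PT.nd (nat_lit 78) (PT.lf (nat_lit 13528) (nat_lit 6) (nat_lit 178) (nat_lit 3) (nat_lit 204) (nat_lit 151) (nat_lit 215)) (PT.lf (nat_lit 13604) (nat_lit 6) (nat_lit 179) (nat_lit 3) (nat_lit 205) (nat_lit 151) (nat_lit 214))))))))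
noncomputable def pc6 : PT := (PT.nd (nat_lit 118326) (PT.nd (nat_lit 59202) (PT.nd (nat_lit 468) (PT.nd (nat_lit 234) (PT.nd (nat_lit 78) (PT.lf (nat_lit 13680) (nat_lit 6) (nat_lit 180) (nat_lit 3) (nat_lit 206) (nat_lit 151) (nat_lit 213)) (PT.nd (nat_lit 78) (PT.lf (nat_lit 13756) (nat_lit 6) (nat_lit 181) (nat_lit 3) (nat_lit 207) (nat_lit 151) (nat_lit 212)) (PT.lf (nat_lit 13832) (nat_lit 6) (nat_lit 182) (nat_lit 3) (nat_lit 208) (nat_lit 151) (nat_lit 211)))) (PT.nd (nat_lit 78) (PT.lf (nat_lit 13908) (nat_lit 6) (nat_lit 183) (nat_lit 3) (nat_lit 209) (nat_lit 151) (nat_lit 210)) (PT.nd (nat_lit 78) (PT.lf (nat_lit 13908) (nat_lit 6) (nat_lit 183) (nat_lit 1) (nat_lit 210) (nat_lit 151) (nat_lit 209)) (PT.lf (nat_lit 13832) (nat_lit 6) (nat_lit 182) (nat_lit 1) (nat_lit 211) (nat_lit 151) (nat_lit 208))))) (PT.nd (nat_lit 234) (PT.nd (nat_lit 78) (PT.lf (nat_lit 13756) (nat_lit 6) (nat_lit 181)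 (nat_lit 1) (nat_lit 212) (nat_lit 151) (nat_lit 207)) (PT.nd (nat_lit 78) (PT.lf (nat_lit 13680) (nat_lit 6) (nat_lit 180) (nat_lit 1) (nat_lit 213) (nat_lit 151) (nat_lit 206)) (PT.lf (nat_lit 13604) (nat_lit 6) (nat_lit 179) (nat_lit 1) (nat_lit 214) (nat_lit 151) (nat_lit 205)))) (PT.nd (nat_lit 58344) (PT.nd (nat_lit 78) (PT.lf (nat_lit 13528) (nat_lit 6) (nat_lit 178) (nat_lit 1) (nat_lit 215) (nat_lit 151) (nat_lit 204)) (PT.lf (nat_lit 13452) (nat_lit 6) (nat_lit 177) (nat_lit 1) (nat_lit 216) (nat_lit 151) (nat_lit 203))) (PT.nd (nat_lit 78) (PT.lf (nat_lit 13984) (nat_lit 6) (nat_lit 184) (nat_lit 3) (nat_lit 202) (nat_lit 152) (nat_lit 216)) (PT.lf (nat_lit 14060) (nat_lit 6) (nat_lit 185) (nat_lit 3) (nat_lit 203) (nat_lit 152) (nat_lit 215)))))) (PT.nd (nat_lit 468) (PT.nd (nat_lit 234) (PT.nd (nat_lit 78) (PT.lf (nat_lit 14136) (nat_lit 6) (nat_lit 186) (nat_lit 3) (nat_lit 204) (nat_lit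 152) (nat_lit 214)) (PT.nd (nat_lit 78) (PT.lf (nat_lit 14212) (nat_lit 6) (nat_lit 187) (nat_lit 3) (nat_lit 205) (nat_lit 152) (nat_lit 213)) (PT.lf (nat_lit 14288) (nat_lit 6) (nat_lit 188) (nat_lit 3) (nat_lit 206) (nat_lit 152) (nat_lit 212)))) (PT.nd (nat_lit 78) (PT.lf (nat_lit 14364) (nat_lit 6) (nat_lit 189) (nat_lit 3) (nat_lit 207) (nat_lit 152) (nat_lit 211)) (PT.nd (nat_lit 78) (PT.lf (nat_lit 14440) (nat_lit 6) (nat_lit 190) (nat_lit 3) (nat_lit 208) (nat_lit 152) (nat_lit 210)) (PT.lf (nat_lit 14516) (nat_lit 3) (nat_lit 191) (nat_lit 1) (nat_lit 209) (nat_lit 152) (nat_lit 209))))) (PT.nd (nat_lit 234) (PT.nd (nat_lit 78) (PT.lf (nat_lit 14440) (nat_lit 6) (nat_lit 190) (nat_lit 1) (nat_lit 210) (nat_lit 152) (nat_lit 208)) (PT.nd (nat_lit 78) (PT.lf (nat_lit 14364) (nat_lit 6) (nat_lit 189) (nat_lit 1) (nat_lit 211) (nat_lit 152) (nat_lit 207)) (PT.lf (nat_lit 14288) (nat_lit 6) (nat_lit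 188) (nat_lit 1) (nat_lit 212) (nat_lit 152) (nat_lit 206)))) (PT.nd (nat_lit 156) (PT.nd (nat_lit 78) (PT.lf (nat_lit 14212) (nat_lit 6) (nat_lit 187) (nat_lit 1) (nat_lit 213) (nat_lit 152) (nat_lit 205)) (PT.lf (nat_lit 14136) (nat_lit 6) (nat_lit 186) (nat_lit 1) (nat_lit 214) (nat_lit 152) (nat_lit 204))) (PT.nd (nat_lit 78) (PT.lf (nat_lit 14060) (nat_lit 6) (nat_lit 185) (nat_lit 1) (nat_lit 215) (nat_lit 152) (nat_lit 203)) (PT.lf (nat_lit 13984) (nat_lit 6) (nat_lit 184) (nat_lit 1) (nat_lit 216) (nat_lit 152) (nat_lit 202))))))) (PT.nd (nat_lit 1014) (PT.nd (nat_lit 468) (PT.nd (nat_lit 234) (PT.nd (nat_lit 78) (PT.lf (nat_lit 14592) (nat_lit 6) (nat_lit 192) (nat_lit 3) (nat_lit 201) (nat_lit 153) (nat_lit 216)) (PT.nd (nat_lit 78) (PT.lf (nat_lit 14668) (nat_lit 6) (nat_lit 193) (nat_lit 3) (nat_lit 202) (nat_lit 153) (nat_lit 215)) (PT.lf (nat_lit 14744) (nat_lit 6) (nat_lit 194) (nat_lit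 3) (nat_lit 203) (nat_lit 153) (nat_lit 214)))) (PT.nd (nat_lit 78) (PT.lf (nat_lit 14820) (nat_lit 6) (nat_lit 195) (nat_lit 3) (nat_lit 204) (nat_lit 153) (nat_lit 213)) (PT.nd (nat_lit 78) (PT.lf (nat_lit 14896) (nat_lit 6) (nat_lit 196) (nat_lit 3) (nat_lit 205) (nat_lit 153) (nat_lit 212)) (PT.lf (nat_lit 14972) (nat_lit 6) (nat_lit 197) (nat_lit 3) (nat_lit 206) (nat_lit 153) (nat_lit 211))))) (PT.nd (nat_lit 234) (PT.nd (nat_lit 78) (PT.lf (nat_lit 15048) (nat_lit 6) (nat_lit 198) (nat_lit 3) (nat_lit 207) (nat_lit 153) (nat_lit 210)) (PT.nd (nat_lit 78) (PT.lf (nat_lit 15124) (nat_lit 6) (nat_lit 199) (nat_lit 3) (nat_lit 208) (nat_lit 153) (nat_lit 209)) (PT.lf (nat_lit 15124) (nat_lit 6) (nat_lit 199) (nat_lit 1) (nat_lit 209) (nat_lit 153) (nat_lit 208)))) (PT.nd (nat_lit 156) (PT.nd (nat_lit 78) (PT.lf (nat_lit 15048) (nat_lit 6) (nat_lit 198) (nat_lit 1) (nat_lit 210) (nat_lit 153) (nat_lit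 207)) (PT.lf (nat_lit 14972) (nat_lit 6) (nat_lit 197) (nat_lit 1) (nat_lit 211) (nat_lit 153) (nat_lit 206))) (PT.nd (nat_lit 78) (PT.lf (nat_lit 14896) (nat_lit 6) (nat_lit 196) (nat_lit 1) (nat_lit 212) (nat_lit 153) (nat_lit 205)) (PT.lf (nat_lit 14820) (nat_lit 6) (nat_lit 195) (nat_lit 1) (nat_lit 213) (nat_lit 153) (nat_lit 204)))))) (PT.nd (nat_lit 58656) (PT.nd (nat_lit 58344) (PT.nd (nat_lit 78) (PT.lf (nat_lit 14744) (nat_lit 6) (nat_lit 194) (nat_lit 1) (nat_lit 214) (nat_lit 153) (nat_lit 203)) (PT.nd (nat_lit 78) (PT.lf (nat_lit 14668) (nat_lit 6) (nat_lit 193) (nat_lit 1) (nat_lit 215) (nat_lit 153) (nat_lit 202)) (PT.lf (nat_lit 14592) (nat_lit 6) (nat_lit 192) (nat_lit 1) (nat_lit 216) (nat_lit 153) (nat_lit 201)))) (PT.nd (nat_lit 156) (PT.nd (nat_lit 78) (PT.lf (nat_lit 15200) (nat_lit 6) (nat_lit 200) (nat_lit 3) (nat_lit 201) (nat_lit 154) (nat_lit 215)) (PT.lf (nat_lit 15276) (nat_lit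 6) (nat_lit 201) (nat_lit 3) (nat_lit 202) (nat_lit 154) (nat_lit 214))) (PT.nd (nat_lit 78) (PT.lf (nat_lit 15352) (nat_lit 6) (nat_lit 202) (nat_lit 3) (nat_lit 203) (nat_lit 154) (nat_lit 213)) (PT.lf (nat_lit 15428) (nat_lit 6) (nat_lit 203) (nat_lit 3) (nat_lit 204) (nat_lit 154) (nat_lit 212))))) (PT.nd (nat_lit 234) (PT.nd (nat_lit 78) (PT.lf (nat_lit 15504) (nat_lit 6) (nat_lit 204) (nat_lit 3) (nat_lit 205) (nat_lit 154) (nat_lit 211)) (PT.nd (nat_lit 78) (PT.lf (nat_lit 15580) (nat_lit 6) (nat_lit 205) (nat_lit 3) (nat_lit 206) (nat_lit 154) (nat_lit 210)) (PT.lf (nat_lit 15656) (nat_lit 6) (nat_lit 206) (nat_lit 3) (nat_lit 207) (nat_lit 154) (nat_lit 209)))) (PT.nd (nat_lit 156) (PT.nd (nat_lit 78) (PT.lf (nat_lit 15732) (nat_lit 3) (nat_lit 207) (nat_lit 1) (nat_lit 208) (nat_lit 154) (nat_lit 208)) (PT.lf (nat_lit 15656) (nat_lit 6) (nat_lit 206) (nat_lit 1) (nat_lit 209) (nat_lit 154) (nat_lit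 207))) (PT.nd (nat_lit 78) (PT.lf (nat_lit 15580) (nat_lit 6) (nat_lit 205) (nat_lit 1) (nat_lit 210) (nat_lit 154) (nat_lit 206)) (PT.lf (nat_lit 15504) (nat_lit 6) (nat_lit 204) (nat_lit 1) (nat_lit 211) (nat_lit 154) (nat_lit 205))))))))
noncomputable def pc7 : PT := (PT.nd (nat_lit 118248) (PT.nd (nat_lit 59124) (PT.nd (nat_lit 58578) (PT.nd (nat_lit 234) (PT.nd (nat_lit 78) (PT.lf (nat_lit 15428) (nat_lit 6) (nat_lit 203) (nat_lit 1) (nat_lit 212) (nat_lit 154) (nat_lit 204)) (PT.nd (nat_lit 78) (PT.lf (nat_lit 15352) (nat_lit 6) (nat_lit 202) (nat_lit 1) (nat_lit 213) (nat_lit 154) (nat_lit 203)) (PT.lf (nat_lit 15276) (nat_lit 6) (nat_lit 201) (nat_lit 1) (nat_lit 214) (nat_lit 154) (nat_lit 202)))) (PT.nd (nat_lit 58188) (PT.lf (nat_lit 15200) (nat_lit 6) (nat_lit 200) (nat_lit 1) (nat_lit 215) (nat_lit 154) (nat_lit 201)) (PT.nd (nat_lit 78) (PT.lf (nat_lit 15808) (nat_lit 6) (nat_lit 208) (nat_lit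 3) (nat_lit 200) (nat_lit 155) (nat_lit 215)) (PT.lf (nat_lit 15884) (nat_lit 6) (nat_lit 209) (nat_lit 3) (nat_lit 201) (nat_lit 155) (nat_lit 214))))) (PT.nd (nat_lit 234) (PT.nd (nat_lit 78) (PT.lf (nat_lit 15960) (nat_lit 6) (nat_lit 210) (nat_lit 3) (nat_lit 202) (nat_lit 155) (nat_lit 213)) (PT.nd (nat_lit 78) (PT.lf (nat_lit 16036) (nat_lit 6) (nat_lit 211) (nat_lit 3) (nat_lit 203) (nat_lit 155) (nat_lit 212)) (PT.lf (nat_lit 16112) (nat_lit 6) (nat_lit 212) (nat_lit 3) (nat_lit 204) (nat_lit 155) (nat_lit 211)))) (PT.nd (nat_lit 156) (PT.nd (nat_lit 78) (PT.lf (nat_lit 16188) (nat_lit 6) (nat_lit 213) (nat_lit 3) (nat_lit 205) (nat_lit 155) (nat_lit 210)) (PT.lf (nat_lit 16264) (nat_lit 6) (nat_lit 214) (nat_lit 3) (nat_lit 206) (nat_lit 155) (nat_lit 209))) (PT.nd (nat_lit 78) (PT.lf (nat_lit 16340) (nat_lit 6) (nat_lit 215) (nat_lit 3) (nat_lit 207) (nat_lit 155) (nat_lit 208)) (PT.lf (nat_lit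 16340) (nat_lit 6) (nat_lit 215) (nat_lit 1) (nat_lit 208) (nat_lit 155) (nat_lit 207)))))) (PT.nd (nat_lit 58578) (PT.nd (nat_lit 234) (PT.nd (nat_lit 78) (PT.lf (nat_lit 16264) (nat_lit 6) (nat_lit 214) (nat_lit 1) (nat_lit 209) (nat_lit 155) (nat_lit 206)) (PT.nd (nat_lit 78) (PT.lf (nat_lit 16188) (nat_lit 6) (nat_lit 213) (nat_lit 1) (nat_lit 210) (nat_lit 155) (nat_lit 205)) (PT.lf (nat_lit 16112) (nat_lit 6) (nat_lit 212) (nat_lit 1) (nat_lit 211) (nat_lit 155) (nat_lit 204)))) (PT.nd (nat_lit 156) (PT.nd (nat_lit 78) (PT.lf (nat_lit 16036) (nat_lit 6) (nat_lit 211) (nat_lit 1) (nat_lit 212) (nat_lit 155) (nat_lit 203)) (PT.lf (nat_lit 15960) (nat_lit 6) (nat_lit 210) (nat_lit 1) (nat_lit 213) (nat_lit 155) (nat_lit 202))) (PT.nd (nat_lit 78) (PT.lf (nat_lit 15884) (nat_lit 6) (nat_lit 209) (nat_lit 1) (nat_lit 214) (nat_lit 155) (nat_lit 201)) (PT.lf (nat_lit 15808) (nat_lit 6) (nat_lit 208) (nat_lit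 1) (nat_lit 215) (nat_lit 155) (nat_lit 200))))) (PT.nd (nat_lit 234) (PT.nd (nat_lit 78) (PT.lf (nat_lit 16416) (nat_lit 6) (nat_lit 216) (nat_lit 3) (nat_lit 199) (nat_lit 156) (nat_lit 215)) (PT.nd (nat_lit 78) (PT.lf (nat_lit 16492) (nat_lit 6) (nat_lit 217) (nat_lit 3) (nat_lit 200) (nat_lit 156) (nat_lit 214)) (PT.lf (nat_lit 16568) (nat_lit 6) (nat_lit 218) (nat_lit 3) (nat_lit 201) (nat_lit 156) (nat_lit 213)))) (PT.nd (nat_lit 156) (PT.nd (nat_lit 78) (PT.lf (nat_lit 16644) (nat_lit 6) (nat_lit 219) (nat_lit 3) (nat_lit 202) (nat_lit 156) (nat_lit 212)) (PT.lf (nat_lit 16720) (nat_lit 6) (nat_lit 220) (nat_lit 3) (nat_lit 203) (nat_lit 156) (nat_lit 211))) (PT.nd (nat_lit 78) (PT.lf (nat_lit 16796) (nat_lit 6) (nat_lit 221) (nat_lit 3) (nat_lit 204) (nat_lit 156) (nat_lit 210)) (PT.lf (nat_lit 16872) (nat_lit 6) (nat_lit 222) (nat_lit 3) (nat_lit 205) (nat_lit 156) (nat_lit 209))))))) (PT.nd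 (nat_lit 59046) (PT.nd (nat_lit 468) (PT.nd (nat_lit 234) (PT.nd (nat_lit 78) (PT.lf (nat_lit 16948) (nat_lit 6) (nat_lit 223) (nat_lit 3) (nat_lit 206) (nat_lit 156) (nat_lit 208)) (PT.nd (nat_lit 78) (PT.lf (nat_lit 17024) (nat_lit 3) (nat_lit 224) (nat_lit 1) (nat_lit 207) (nat_lit 156) (nat_lit 207)) (PT.lf (nat_lit 16948) (nat_lit 6) (nat_lit 223) (nat_lit 1) (nat_lit 208) (nat_lit 156) (nat_lit 206)))) (PT.nd (nat_lit 78) (PT.lf (nat_lit 16872) (nat_lit 6) (nat_lit 222) (nat_lit 1) (nat_lit 209) (nat_lit 156) (nat_lit 205)) (PT.nd (nat_lit 78) (PT.lf (nat_lit 16796) (nat_lit 6) (nat_lit 221) (nat_lit 1) (nat_lit 210) (nat_lit 156) (nat_lit 204)) (PT.lf (nat_lit 16720) (nat_lit 6) (nat_lit 220) (nat_lit 1) (nat_lit 211) (nat_lit 156) (nat_lit 203))))) (PT.nd (nat_lit 234) (PT.nd (nat_lit 78) (PT.lf (nat_lit 16644) (nat_lit 6) (nat_lit 219) (nat_lit 1) (nat_lit 212) (nat_lit 156) (nat_lit 202)) (PT.nd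 (nat_lit 78) (PT.lf (nat_lit 16568) (nat_lit 6) (nat_lit 218) (nat_lit 1) (nat_lit 213) (nat_lit 156) (nat_lit 201)) (PT.lf (nat_lit 16492) (nat_lit 6) (nat_lit 217) (nat_lit 1) (nat_lit 214) (nat_lit 156) (nat_lit 200)))) (PT.nd (nat_lit 58188) (PT.nd (nat_lit 58110) (PT.lf (nat_lit 16416) (nat_lit 6) (nat_lit 216) (nat_lit 1) (nat_lit 215) (nat_lit 156) (nat_lit 199)) (PT.lf (nat_lit 17176) (nat_lit 6) (nat_lit 226) (nat_lit 3) (nat_lit 199) (nat_lit 157) (nat_lit 214))) (PT.nd (nat_lit 78) (PT.lf (nat_lit 17252) (nat_lit 6) (nat_lit 227) (nat_lit 3) (nat_lit 200) (nat_lit 157) (nat_lit 213)) (PT.lf (nat_lit 17328) (nat_lit 6) (nat_lit 228) (nat_lit 3) (nat_lit 201) (nat_lit 157) (nat_lit 212)))))) (PT.nd (nat_lit 546) (PT.nd (nat_lit 234) (PT.nd (nat_lit 78) (PT.lf (nat_lit 17404) (nat_lit 6) (nat_lit 229) (nat_lit 3) (nat_lit 202) (nat_lit 157) (nat_lit 211)) (PT.nd (nat_lit 78) (PT.lf (nat_lit 17480)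 (nat_lit 6) (nat_lit 230) (nat_lit 3) (nat_lit 203) (nat_lit 157) (nat_lit 210)) (PT.lf (nat_lit 17556) (nat_lit 6) (nat_lit 231) (nat_lit 3) (nat_lit 204) (nat_lit 157) (nat_lit 209)))) (PT.nd (nat_lit 156) (PT.nd (nat_lit 78) (PT.lf (nat_lit 17632) (nat_lit 6) (nat_lit 232) (nat_lit 3) (nat_lit 205) (nat_lit 157) (nat_lit 208)) (PT.lf (nat_lit 17708) (nat_lit 6) (nat_lit 233) (nat_lit 3) (nat_lit 206) (nat_lit 157) (nat_lit 207))) (PT.nd (nat_lit 78) (PT.lf (nat_lit 17708) (nat_lit 6) (nat_lit 233) (nat_lit 1) (nat_lit 207) (nat_lit 157) (nat_lit 206)) (PT.lf (nat_lit 17632) (nat_lit 6) (nat_lit 232) (nat_lit 1) (nat_lit 208) (nat_lit 157) (nat_lit 205))))) (PT.nd (nat_lit 234) (PT.nd (nat_lit 78) (PT.lf (nat_lit 17556) (nat_lit 6) (nat_lit 231) (nat_lit 1) (nat_lit 209) (nat_lit 157) (nat_lit 204)) (PT.nd (nat_lit 78) (PT.lf (nat_lit 17480) (nat_lit 6) (nat_lit 230) (nat_lit 1) (nat_lit 210) (nat_lit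 157) (nat_lit 203)) (PT.lf (nat_lit 17404) (nat_lit 6) (nat_lit 229) (nat_lit 1) (nat_lit 211) (nat_lit 157) (nat_lit 202)))) (PT.nd (nat_lit 156) (PT.nd (nat_lit 78) (PT.lf (nat_lit 17328) (nat_lit 6) (nat_lit 228) (nat_lit 1) (nat_lit 212) (nat_lit 157) (nat_lit 201)) (PT.lf (nat_lit 17252) (nat_lit 6) (nat_lit 227) (nat_lit 1) (nat_lit 213) (nat_lit 157) (nat_lit 200))) (PT.nd (nat_lit 58110) (PT.lf (nat_lit 17176) (nat_lit 6) (nat_lit 226) (nat_lit 1) (nat_lit 214) (nat_lit 157) (nat_lit 199)) (PT.lf (nat_lit 17784) (nat_lit 6) (nat_lit 234) (nat_lit 3) (nat_lit 198) (nat_lit 158) (nat_lit 214))))))))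
noncomputable def pc8 : PT := (PT.nd (nat_lit 59982) (PT.nd (nat_lit 1014) (PT.nd (nat_lit 468) (PT.nd (nat_lit 234) (PT.nd (nat_lit 78) (PT.lf (nat_lit 17860) (nat_lit 6) (nat_lit 235) (nat_lit 3) (nat_lit 199) (nat_lit 158) (nat_lit 213)) (PT.nd (nat_lit 78) (PT.lf (nat_lit 17936) (nat_lit 6) (nat_lit 236) (nat_lit 3) (nat_lit 200) (nat_lit 158) (nat_lit 212)) (PT.lf (nat_lit 18012) (nat_lit 6) (nat_lit 237) (nat_lit 3) (nat_lit 201) (nat_lit 158) (nat_lit 211)))) (PT.nd (nat_lit 78) (PT.lf (nat_lit 18088) (nat_lit 6) (nat_lit 238) (nat_lit 3) (nat_lit 202) (nat_lit 158) (nat_lit 210)) (PT.nd (nat_lit 78) (PT.lf (nat_lit 18164) (nat_lit 6) (nat_lit 239) (nat_lit 3) (nat_lit 203) (nat_lit 158) (nat_lit 209)) (PT.lf (nat_lit 18240) (nat_lit 6) (nat_lit 240) (nat_lit 3) (nat_lit 204) (nat_lit 158) (nat_lit 208))))) (PT.nd (nat_lit 234) (PT.nd (nat_lit 78) (PT.lf (nat_lit 18316) (nat_lit 6) (nat_lit 241)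 (nat_lit 3) (nat_lit 205) (nat_lit 158) (nat_lit 207)) (PT.nd (nat_lit 78) (PT.lf (nat_lit 18392) (nat_lit 3) (nat_lit 242) (nat_lit 1) (nat_lit 206) (nat_lit 158) (nat_lit 206)) (PT.lf (nat_lit 18316) (nat_lit 6) (nat_lit 241) (nat_lit 1) (nat_lit 207) (nat_lit 158) (nat_lit 205)))) (PT.nd (nat_lit 156) (PT.nd (nat_lit 78) (PT.lf (nat_lit 18240) (nat_lit 6) (nat_lit 240) (nat_lit 1) (nat_lit 208) (nat_lit 158) (nat_lit 204)) (PT.lf (nat_lit 18164) (nat_lit 6) (nat_lit 239) (nat_lit 1) (nat_lit 209) (nat_lit 158) (nat_lit 203))) (PT.nd (nat_lit 78) (PT.lf (nat_lit 18088) (nat_lit 6) (nat_lit 238) (nat_lit 1) (nat_lit 210) (nat_lit 158) (nat_lit 202)) (PT.lf (nat_lit 18012) (nat_lit 6) (nat_lit 237) (nat_lit 1) (nat_lit 211) (nat_lit 158) (nat_lit 201)))))) (PT.nd (nat_lit 58422) (PT.nd (nat_lit 58188) (PT.nd (nat_lit 78) (PT.lf (nat_lit 17936) (nat_lit 6) (nat_lit 236) (nat_lit 1) (nat_lit 212) (nat_lit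 158) (nat_lit 200)) (PT.nd (nat_lit 78) (PT.lf (nat_lit 17860) (nat_lit 6) (nat_lit 235) (nat_lit 1) (nat_lit 213) (nat_lit 158) (nat_lit 199)) (PT.lf (nat_lit 17784) (nat_lit 6) (nat_lit 234) (nat_lit 1) (nat_lit 214) (nat_lit 158) (nat_lit 198)))) (PT.nd (nat_lit 78) (PT.lf (nat_lit 18468) (nat_lit 6) (nat_lit 243) (nat_lit 3) (nat_lit 197) (nat_lit 159) (nat_lit 214)) (PT.nd (nat_lit 78) (PT.lf (nat_lit 18544) (nat_lit 6) (nat_lit 244) (nat_lit 3) (nat_lit 198) (nat_lit 159) (nat_lit 213)) (PT.lf (nat_lit 18620) (nat_lit 6) (nat_lit 245) (nat_lit 3) (nat_lit 199) (nat_lit 159) (nat_lit 212))))) (PT.nd (nat_lit 234) (PT.nd (nat_lit 78) (PT.lf (nat_lit 18696) (nat_lit 6) (nat_lit 246) (nat_lit 3) (nat_lit 200) (nat_lit 159) (nat_lit 211)) (PT.nd (nat_lit 78) (PT.lf (nat_lit 18772) (nat_lit 6) (nat_lit 247) (nat_lit 3) (nat_lit 201) (nat_lit 159) (nat_lit 210)) (PT.lf (nat_lit 18848) (nat_lit 6) (nat_lit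 248) (nat_lit 3) (nat_lit 202) (nat_lit 159) (nat_lit 209)))) (PT.nd (nat_lit 156) (PT.nd (nat_lit 78) (PT.lf (nat_lit 18924) (nat_lit 6) (nat_lit 249) (nat_lit 3) (nat_lit 203) (nat_lit 159) (nat_lit 208)) (PT.lf (nat_lit 19000) (nat_lit 6) (nat_lit 250) (nat_lit 3) (nat_lit 204) (nat_lit 159) (nat_lit 207))) (PT.nd (nat_lit 78) (PT.lf (nat_lit 19076) (nat_lit 6) (nat_lit 251) (nat_lit 3) (nat_lit 205) (nat_lit 159) (nat_lit 206)) (PT.lf (nat_lit 19076) (nat_lit 6) (nat_lit 251) (nat_lit 1) (nat_lit 206) (nat_lit 159) (nat_lit 205))))))) (PT.nd (nat_lit 58890) (PT.nd (nat_lit 468) (PT.nd (nat_lit 234) (PT.nd (nat_lit 78) (PT.lf (nat_lit 19000) (nat_lit 6) (nat_lit 250) (nat_lit 1) (nat_lit 207) (nat_lit 159) (nat_lit 204)) (PT.nd (nat_lit 78) (PT.lf (nat_lit 18924) (nat_lit 6) (nat_lit 249) (nat_lit 1) (nat_lit 208) (nat_lit 159) (nat_lit 203)) (PT.lf (nat_lit 18848) (nat_lit 6) (nat_lit 248) (nat_lit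 1) (nat_lit 209) (nat_lit 159) (nat_lit 202)))) (PT.nd (nat_lit 78) (PT.lf (nat_lit 18772) (nat_lit 6) (nat_lit 247) (nat_lit 1) (nat_lit 210) (nat_lit 159) (nat_lit 201)) (PT.nd (nat_lit 78) (PT.lf (nat_lit 18696) (nat_lit 6) (nat_lit 246) (nat_lit 1) (nat_lit 211) (nat_lit 159) (nat_lit 200)) (PT.lf (nat_lit 18620) (nat_lit 6) (nat_lit 245) (nat_lit 1) (nat_lit 212) (nat_lit 159) (nat_lit 199))))) (PT.nd (nat_lit 58110) (PT.nd (nat_lit 78) (PT.lf (nat_lit 18544) (nat_lit 6) (nat_lit 244) (nat_lit 1) (nat_lit 213) (nat_lit 159) (nat_lit 198)) (PT.nd (nat_lit 57954) (PT.lf (nat_lit 18468) (nat_lit 6) (nat_lit 243) (nat_lit 1) (nat_lit 214) (nat_lit 159) (nat_lit 197)) (PT.lf (nat_lit 19152) (nat_lit 6) (nat_lit 252) (nat_lit 3) (nat_lit 196) (nat_lit 160) (nat_lit 214)))) (PT.nd (nat_lit 156) (PT.nd (nat_lit 78) (PT.lf (nat_lit 19228) (nat_lit 6) (nat_lit 253) (nat_lit 3) (nat_lit 197) (nat_lit 160) (nat_lit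 213)) (PT.lf (nat_lit 19304) (nat_lit 6) (nat_lit 254) (nat_lit 3) (nat_lit 198) (nat_lit 160) (nat_lit 212))) (PT.nd (nat_lit 78) (PT.lf (nat_lit 19380) (nat_lit 6) (nat_lit 255) (nat_lit 3) (nat_lit 199) (nat_lit 160) (nat_lit 211)) (PT.lf (nat_lit 19456) (nat_lit 6) (nat_lit 256) (nat_lit 3) (nat_lit 200) (nat_lit 160) (nat_lit 210)))))) (PT.nd (nat_lit 546) (PT.nd (nat_lit 234) (PT.nd (nat_lit 78) (PT.lf (nat_lit 19532) (nat_lit 6) (nat_lit 257) (nat_lit 3) (nat_lit 201) (nat_lit 160) (nat_lit 209)) (PT.nd (nat_lit 78) (PT.lf (nat_lit 19608) (nat_lit 6) (nat_lit 258) (nat_lit 3) (nat_lit 202) (nat_lit 160) (nat_lit 208)) (PT.lf (nat_lit 19684) (nat_lit 6) (nat_lit 259) (nat_lit 3) (nat_lit 203) (nat_lit 160) (nat_lit 207)))) (PT.nd (nat_lit 156) (PT.nd (nat_lit 78) (PT.lf (nat_lit 19760) (nat_lit 6) (nat_lit 260) (nat_lit 3) (nat_lit 204) (nat_lit 160) (nat_lit 206)) (PT.lf (nat_lit 19836) (nat_lit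 3) (nat_lit 261) (nat_lit 1) (nat_lit 205) (nat_lit 160) (nat_lit 205))) (PT.nd (nat_lit 78) (PT.lf (nat_lit 19760) (nat_lit 6) (nat_lit 260) (nat_lit 1) (nat_lit 206) (nat_lit 160) (nat_lit 204)) (PT.lf (nat_lit 19684) (nat_lit 6) (nat_lit 259) (nat_lit 1) (nat_lit 207) (nat_lit 160) (nat_lit 203))))) (PT.nd (nat_lit 234) (PT.nd (nat_lit 78) (PT.lf (nat_lit 19608) (nat_lit 6) (nat_lit 258) (nat_lit 1) (nat_lit 208) (nat_lit 160) (nat_lit 202)) (PT.nd (nat_lit 78) (PT.lf (nat_lit 19532) (nat_lit 6) (nat_lit 257) (nat_lit 1) (nat_lit 209) (nat_lit 160) (nat_lit 201)) (PT.lf (nat_lit 19456) (nat_lit 6) (nat_lit 256) (nat_lit 1) (nat_lit 210) (nat_lit 160) (nat_lit 200)))) (PT.nd (nat_lit 156) (PT.nd (nat_lit 78) (PT.lf (nat_lit 19380) (nat_lit 6) (nat_lit 255) (nat_lit 1) (nat_lit 211) (nat_lit 160) (nat_lit 199)) (PT.lf (nat_lit 19304) (nat_lit 6) (nat_lit 254) (nat_lit 1) (nat_lit 212) (nat_lit 160) (nat_lit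 198))) (PT.nd (nat_lit 78) (PT.lf (nat_lit 19228) (nat_lit 6) (nat_lit 253) (nat_lit 1) (nat_lit 213) (nat_lit 160) (nat_lit 197)) (PT.lf (nat_lit 19152) (nat_lit 6) (nat_lit 252) (nat_lit 1) (nat_lit 214) (nat_lit 160) (nat_lit 196))))))))
noncomputable def pc9 : PT := (PT.nd (nat_lit 59826) (PT.nd (nat_lit 1014) (PT.nd (nat_lit 468) (PT.nd (nat_lit 234) (PT.nd (nat_lit 78) (PT.lf (nat_lit 19912) (nat_lit 6) (nat_lit 262) (nat_lit 3) (nat_lit 195) (nat_lit 161) (nat_lit 214)) (PT.nd (nat_lit 78) (PT.lf (nat_lit 19988) (nat_lit 6) (nat_lit 263) (nat_lit 3) (nat_lit 196) (nat_lit 161) (nat_lit 213)) (PT.lf (nat_lit 20064) (nat_lit 6) (nat_lit 264) (nat_lit 3) (nat_lit 197) (nat_lit 161) (nat_lit 212)))) (PT.nd (nat_lit 78) (PT.lf (nat_lit 20140) (nat_lit 6) (nat_lit 265) (nat_lit 3) (nat_lit 198) (nat_lit 161) (nat_lit 211)) (PT.nd (nat_lit 78) (PT.lf (nat_lit 20216) (nat_lit 6) (nat_lit 266) (nat_lit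 3) (nat_lit 199) (nat_lit 161) (nat_lit 210)) (PT.lf (nat_lit 20292) (nat_lit 6) (nat_lit 267) (nat_lit 3) (nat_lit 200) (nat_lit 161) (nat_lit 209))))) (PT.nd (nat_lit 234) (PT.nd (nat_lit 78) (PT.lf (nat_lit 20368) (nat_lit 6) (nat_lit 268) (nat_lit 3) (nat_lit 201) (nat_lit 161) (nat_lit 208)) (PT.nd (nat_lit 78) (PT.lf (nat_lit 20444) (nat_lit 6) (nat_lit 269) (nat_lit 3) (nat_lit 202) (nat_lit 161) (nat_lit 207)) (PT.lf (nat_lit 20520) (nat_lit 6) (nat_lit 270) (nat_lit 3) (nat_lit 203) (nat_lit 161) (nat_lit 206)))) (PT.nd (nat_lit 156) (PT.nd (nat_lit 78) (PT.lf (nat_lit 20596) (nat_lit 6) (nat_lit 271) (nat_lit 3) (nat_lit 204) (nat_lit 161) (nat_lit 205)) (PT.lf (nat_lit 20596) (nat_lit 6) (nat_lit 271) (nat_lit 1) (nat_lit 205) (nat_lit 161) (nat_lit 204))) (PT.nd (nat_lit 78) (PT.lf (nat_lit 20520) (nat_lit 6) (nat_lit 270) (nat_lit 1) (nat_lit 206) (nat_lit 161) (nat_lit 203)) (PT.lf (nat_lit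 20444) (nat_lit 6) (nat_lit 269) (nat_lit 1) (nat_lit 207) (nat_lit 161) (nat_lit 202)))))) (PT.nd (nat_lit 468) (PT.nd (nat_lit 234) (PT.nd (nat_lit 78) (PT.lf (nat_lit 20368) (nat_lit 6) (nat_lit 268) (nat_lit 1) (nat_lit 208) (nat_lit 161) (nat_lit 201)) (PT.nd (nat_lit 78) (PT.lf (nat_lit 20292) (nat_lit 6) (nat_lit 267) (nat_lit 1) (nat_lit 209) (nat_lit 161) (nat_lit 200)) (PT.lf (nat_lit 20216) (nat_lit 6) (nat_lit 266) (nat_lit 1) (nat_lit 210) (nat_lit 161) (nat_lit 199)))) (PT.nd (nat_lit 78) (PT.lf (nat_lit 20140) (nat_lit 6) (nat_lit 265) (nat_lit 1) (nat_lit 211) (nat_lit 161) (nat_lit 198)) (PT.nd (nat_lit 78) (PT.lf (nat_lit 20064) (nat_lit 6) (nat_lit 264) (nat_lit 1) (nat_lit 212) (nat_lit 161) (nat_lit 197)) (PT.lf (nat_lit 19988) (nat_lit 6) (nat_lit 263) (nat_lit 1) (nat_lit 213) (nat_lit 161) (nat_lit 196))))) (PT.nd (nat_lit 58032) (PT.nd (nat_lit 57876) (PT.lf (nat_lit 19912) (nat_lit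 6) (nat_lit 262) (nat_lit 1) (nat_lit 214) (nat_lit 161) (nat_lit 195)) (PT.nd (nat_lit 78) (PT.lf (nat_lit 20672) (nat_lit 6) (nat_lit 272) (nat_lit 3) (nat_lit 195) (nat_lit 162) (nat_lit 213)) (PT.lf (nat_lit 20748) (nat_lit 6) (nat_lit 273) (nat_lit 3) (nat_lit 196) (nat_lit 162) (nat_lit 212)))) (PT.nd (nat_lit 156) (PT.nd (nat_lit 78) (PT.lf (nat_lit 20824) (nat_lit 6) (nat_lit 274) (nat_lit 3) (nat_lit 197) (nat_lit 162) (nat_lit 211)) (PT.lf (nat_lit 20900) (nat_lit 6) (nat_lit 275) (nat_lit 3) (nat_lit 198) (nat_lit 162) (nat_lit 210))) (PT.nd (nat_lit 78) (PT.lf (nat_lit 20976) (nat_lit 6) (nat_lit 276) (nat_lit 3) (nat_lit 199) (nat_lit 162) (nat_lit 209)) (PT.lf (nat_lit 21052) (nat_lit 6) (nat_lit 277) (nat_lit 3) (nat_lit 200) (nat_lit 162) (nat_lit 208))))))) (PT.nd (nat_lit 58812) (PT.nd (nat_lit 468) (PT.nd (nat_lit 234) (PT.nd (nat_lit 78) (PT.lf (nat_lit 21128) (nat_lit 6) (nat_lit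 278) (nat_lit 3) (nat_lit 201) (nat_lit 162) (nat_lit 207)) (PT.nd (nat_lit 78) (PT.lf (nat_lit 21204) (nat_lit 6) (nat_lit 279) (nat_lit 3) (nat_lit 202) (nat_lit 162) (nat_lit 206)) (PT.lf (nat_lit 21280) (nat_lit 6) (nat_lit 280) (nat_lit 3) (nat_lit 203) (nat_lit 162) (nat_lit 205)))) (PT.nd (nat_lit 78) (PT.lf (nat_lit 21356) (nat_lit 3) (nat_lit 281) (nat_lit 1) (nat_lit 204) (nat_lit 162) (nat_lit 204)) (PT.nd (nat_lit 78) (PT.lf (nat_lit 21280) (nat_lit 6) (nat_lit 280) (nat_lit 1) (nat_lit 205) (nat_lit 162) (nat_lit 203)) (PT.lf (nat_lit 21204) (nat_lit 6) (nat_lit 279) (nat_lit 1) (nat_lit 206) (nat_lit 162) (nat_lit 202))))) (PT.nd (nat_lit 234) (PT.nd (nat_lit 78) (PT.lf (nat_lit 21128) (nat_lit 6) (nat_lit 278) (nat_lit 1) (nat_lit 207) (nat_lit 162) (nat_lit 201)) (PT.nd (nat_lit 78) (PT.lf (nat_lit 21052) (nat_lit 6) (nat_lit 277) (nat_lit 1) (nat_lit 208) (nat_lit 162) (nat_lit 200))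 (PT.lf (nat_lit 20976) (nat_lit 6) (nat_lit 276) (nat_lit 1) (nat_lit 209) (nat_lit 162) (nat_lit 199)))) (PT.nd (nat_lit 156) (PT.nd (nat_lit 78) (PT.lf (nat_lit 20900) (nat_lit 6) (nat_lit 275) (nat_lit 1) (nat_lit 210) (nat_lit 162) (nat_lit 198)) (PT.lf (nat_lit 20824) (nat_lit 6) (nat_lit 274) (nat_lit 1) (nat_lit 211) (nat_lit 162) (nat_lit 197))) (PT.nd (nat_lit 78) (PT.lf (nat_lit 20748) (nat_lit 6) (nat_lit 273) (nat_lit 1) (nat_lit 212) (nat_lit 162) (nat_lit 196)) (PT.lf (nat_lit 20672) (nat_lit 6) (nat_lit 272) (nat_lit 1) (nat_lit 213) (nat_lit 162) (nat_lit 195)))))) (PT.nd (nat_lit 546) (PT.nd (nat_lit 234) (PT.nd (nat_lit 78) (PT.lf (nat_lit 21432) (nat_lit 6) (nat_lit 282) (nat_lit 3) (nat_lit 194) (nat_lit 163) (nat_lit 213)) (PT.nd (nat_lit 78) (PT.lf (nat_lit 21508) (nat_lit 6) (nat_lit 283) (nat_lit 3) (nat_lit 195) (nat_lit 163) (nat_lit 212)) (PT.lf (nat_lit 21584) (nat_lit 6) (nat_lit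 284) (nat_lit 3) (nat_lit 196) (nat_lit 163) (nat_lit 211)))) (PT.nd (nat_lit 156) (PT.nd (nat_lit 78) (PT.lf (nat_lit 21660) (nat_lit 6) (nat_lit 285) (nat_lit 3) (nat_lit 197) (nat_lit 163) (nat_lit 210)) (PT.lf (nat_lit 21736) (nat_lit 6) (nat_lit 286) (nat_lit 3) (nat_lit 198) (nat_lit 163) (nat_lit 209))) (PT.nd (nat_lit 78) (PT.lf (nat_lit 21812) (nat_lit 6) (nat_lit 287) (nat_lit 3) (nat_lit 199) (nat_lit 163) (nat_lit 208)) (PT.lf (nat_lit 21888) (nat_lit 6) (nat_lit 288) (nat_lit 3) (nat_lit 200) (nat_lit 163) (nat_lit 207))))) (PT.nd (nat_lit 234) (PT.nd (nat_lit 78) (PT.lf (nat_lit 21964) (nat_lit 6) (nat_lit 289) (nat_lit 3) (nat_lit 201) (nat_lit 163) (nat_lit 206)) (PT.nd (nat_lit 78) (PT.lf (nat_lit 22040) (nat_lit 6) (nat_lit 290) (nat_lit 3) (nat_lit 202) (nat_lit 163) (nat_lit 205)) (PT.lf (nat_lit 22116) (nat_lit 6) (nat_lit 291) (nat_lit 3) (nat_lit 203) (nat_lit 163) (nat_lit 204))))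 (PT.nd (nat_lit 156) (PT.nd (nat_lit 78) (PT.lf (nat_lit 22116) (nat_lit 6) (nat_lit 291) (nat_lit 1) (nat_lit 204) (nat_lit 163) (nat_lit 203)) (PT.lf (nat_lit 22040) (nat_lit 6) (nat_lit 290) (nat_lit 1) (nat_lit 205) (nat_lit 163) (nat_lit 202))) (PT.nd (nat_lit 78) (PT.lf (nat_lit 21964) (nat_lit 6) (nat_lit 289) (nat_lit 1) (nat_lit 206) (nat_lit 163) (nat_lit 201)) (PT.lf (nat_lit 21888) (nat_lit 6) (nat_lit 288) (nat_lit 1) (nat_lit 207) (nat_lit 163) (nat_lit 200))))))))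
noncomputable def pc10 : PT := (PT.nd (nat_lit 59748) (PT.nd (nat_lit 58734) (PT.nd (nat_lit 58188) (PT.nd (nat_lit 234) (PT.nd (nat_lit 78) (PT.lf (nat_lit 21812) (nat_lit 6) (nat_lit 287) (nat_lit 1) (nat_lit 208) (nat_lit 163) (nat_lit 199)) (PT.nd (nat_lit 78) (PT.lf (nat_lit 21736) (nat_lit 6) (nat_lit 286) (nat_lit 1) (nat_lit 209) (nat_lit 163) (nat_lit 198)) (PT.lf (nat_lit 21660) (nat_lit 6) (nat_lit 285) (nat_lit 1) (nat_lit 210) (nat_lit 163) (nat_lit 197)))) (PT.nd (nat_lit 78) (PT.lf (nat_lit 21584) (nat_lit 6) (nat_lit 284) (nat_lit 1) (nat_lit 211) (nat_lit 163) (nat_lit 196)) (PT.nd (nat_lit 78) (PT.lf (nat_lit 21508) (nat_lit 6) (nat_lit 283) (nat_lit 1) (nat_lit 212) (nat_lit 163) (nat_lit 195)) (PT.lf (nat_lit 21432) (nat_lit 6) (nat_lit 282) (nat_lit 1) (nat_lit 213) (nat_lit 163) (nat_lit 194))))) (PT.nd (nat_lit 234) (PT.nd (nat_lit 78) (PT.lf (nat_lit 22192) (nat_lit 6) (nat_lit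 292) (nat_lit 3) (nat_lit 193) (nat_lit 164) (nat_lit 213)) (PT.nd (nat_lit 78) (PT.lf (nat_lit 22268) (nat_lit 6) (nat_lit 293) (nat_lit 3) (nat_lit 194) (nat_lit 164) (nat_lit 212)) (PT.lf (nat_lit 22344) (nat_lit 6) (nat_lit 294) (nat_lit 3) (nat_lit 195) (nat_lit 164) (nat_lit 211)))) (PT.nd (nat_lit 156) (PT.nd (nat_lit 78) (PT.lf (nat_lit 22420) (nat_lit 6) (nat_lit 295) (nat_lit 3) (nat_lit 196) (nat_lit 164) (nat_lit 210)) (PT.lf (nat_lit 22496) (nat_lit 6) (nat_lit 296) (nat_lit 3) (nat_lit 197) (nat_lit 164) (nat_lit 209))) (PT.nd (nat_lit 78) (PT.lf (nat_lit 22572) (nat_lit 6) (nat_lit 297) (nat_lit 3) (nat_lit 198) (nat_lit 164) (nat_lit 208)) (PT.lf (nat_lit 22648) (nat_lit 6) (nat_lit 298) (nat_lit 3) (nat_lit 199) (nat_lit 164) (nat_lit 207)))))) (PT.nd (nat_lit 468) (PT.nd (nat_lit 234) (PT.nd (nat_lit 78) (PT.lf (nat_lit 22724) (nat_lit 6) (nat_lit 299) (nat_lit 3) (nat_lit 200) (nat_lit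 164) (nat_lit 206)) (PT.nd (nat_lit 78) (PT.lf (nat_lit 22800) (nat_lit 6) (nat_lit 300) (nat_lit 3) (nat_lit 201) (nat_lit 164) (nat_lit 205)) (PT.lf (nat_lit 22876) (nat_lit 6) (nat_lit 301) (nat_lit 3) (nat_lit 202) (nat_lit 164) (nat_lit 204)))) (PT.nd (nat_lit 78) (PT.lf (nat_lit 22952) (nat_lit 3) (nat_lit 302) (nat_lit 1) (nat_lit 203) (nat_lit 164) (nat_lit 203)) (PT.nd (nat_lit 78) (PT.lf (nat_lit 22876) (nat_lit 6) (nat_lit 301) (nat_lit 1) (nat_lit 204) (nat_lit 164) (nat_lit 202)) (PT.lf (nat_lit 22800) (nat_lit 6) (nat_lit 300) (nat_lit 1) (nat_lit 205) (nat_lit 164) (nat_lit 201))))) (PT.nd (nat_lit 234) (PT.nd (nat_lit 78) (PT.lf (nat_lit 22724) (nat_lit 6) (nat_lit 299) (nat_lit 1) (nat_lit 206) (nat_lit 164) (nat_lit 200)) (PT.nd (nat_lit 78) (PT.lf (nat_lit 22648) (nat_lit 6) (nat_lit 298) (nat_lit 1) (nat_lit 207) (nat_lit 164) (nat_lit 199)) (PT.lf (nat_lit 22572) (nat_lit 6) (nat_lit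 297) (nat_lit 1) (nat_lit 208) (nat_lit 164) (nat_lit 198)))) (PT.nd (nat_lit 156) (PT.nd (nat_lit 78) (PT.lf (nat_lit 22496) (nat_lit 6) (nat_lit 296) (nat_lit 1) (nat_lit 209) (nat_lit 164) (nat_lit 197)) (PT.lf (nat_lit 22420) (nat_lit 6) (nat_lit 295) (nat_lit 1) (nat_lit 210) (nat_lit 164) (nat_lit 196))) (PT.nd (nat_lit 78) (PT.lf (nat_lit 22344) (nat_lit 6) (nat_lit 294) (nat_lit 1) (nat_lit 211) (nat_lit 164) (nat_lit 195)) (PT.lf (nat_lit 22268) (nat_lit 6) (nat_lit 293) (nat_lit 1) (nat_lit 212) (nat_lit 164) (nat_lit 194))))))) (PT.nd (nat_lit 58656) (PT.nd (nat_lit 58110) (PT.nd (nat_lit 57876) (PT.nd (nat_lit 57720) (PT.lf (nat_lit 22192) (nat_lit 6) (nat_lit 292) (nat_lit 1) (nat_lit 213) (nat_lit 164) (nat_lit 193)) (PT.nd (nat_lit 78) (PT.lf (nat_lit 23028) (nat_lit 6) (nat_lit 303) (nat_lit 3) (nat_lit 192) (nat_lit 165) (nat_lit 213)) (PT.lf (nat_lit 23104) (nat_lit 6) (nat_lit 304)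 (nat_lit 3) (nat_lit 193) (nat_lit 165) (nat_lit 212)))) (PT.nd (nat_lit 78) (PT.lf (nat_lit 23180) (nat_lit 6) (nat_lit 305) (nat_lit 3) (nat_lit 194) (nat_lit 165) (nat_lit 211)) (PT.nd (nat_lit 78) (PT.lf (nat_lit 23256) (nat_lit 6) (nat_lit 306) (nat_lit 3) (nat_lit 195) (nat_lit 165) (nat_lit 210)) (PT.lf (nat_lit 23332) (nat_lit 6) (nat_lit 307) (nat_lit 3) (nat_lit 196) (nat_lit 165) (nat_lit 209))))) (PT.nd (nat_lit 234) (PT.nd (nat_lit 78) (PT.lf (nat_lit 23408) (nat_lit 6) (nat_lit 308) (nat_lit 3) (nat_lit 197) (nat_lit 165) (nat_lit 208)) (PT.nd (nat_lit 78) (PT.lf (nat_lit 23484) (nat_lit 6) (nat_lit 309) (nat_lit 3) (nat_lit 198) (nat_lit 165) (nat_lit 207)) (PT.lf (nat_lit 23560) (nat_lit 6) (nat_lit 310) (nat_lit 3) (nat_lit 199) (nat_lit 165) (nat_lit 206)))) (PT.nd (nat_lit 156) (PT.nd (nat_lit 78) (PT.lf (nat_lit 23636) (nat_lit 6) (nat_lit 311) (nat_lit 3) (nat_lit 200) (nat_lit 165)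 (nat_lit 205)) (PT.lf (nat_lit 23712) (nat_lit 6) (nat_lit 312) (nat_lit 3) (nat_lit 201) (nat_lit 165) (nat_lit 204))) (PT.nd (nat_lit 78) (PT.lf (nat_lit 23788) (nat_lit 6) (nat_lit 313) (nat_lit 3) (nat_lit 202) (nat_lit 165) (nat_lit 203)) (PT.lf (nat_lit 23788) (nat_lit 6) (nat_lit 313) (nat_lit 1) (nat_lit 203) (nat_lit 165) (nat_lit 202)))))) (PT.nd (nat_lit 546) (PT.nd (nat_lit 234) (PT.nd (nat_lit 78) (PT.lf (nat_lit 23712) (nat_lit 6) (nat_lit 312) (nat_lit 1) (nat_lit 204) (nat_lit 165) (nat_lit 201)) (PT.nd (nat_lit 78) (PT.lf (nat_lit 23636) (nat_lit 6) (nat_lit 311) (nat_lit 1) (nat_lit 205) (nat_lit 165) (nat_lit 200)) (PT.lf (nat_lit 23560) (nat_lit 6) (nat_lit 310) (nat_lit 1) (nat_lit 206) (nat_lit 165) (nat_lit 199)))) (PT.nd (nat_lit 156) (PT.nd (nat_lit 78) (PT.lf (nat_lit 23484) (nat_lit 6) (nat_lit 309) (nat_lit 1) (nat_lit 207) (nat_lit 165) (nat_lit 198)) (PT.lf (nat_lit 23408)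 (nat_lit 6) (nat_lit 308) (nat_lit 1) (nat_lit 208) (nat_lit 165) (nat_lit 197))) (PT.nd (nat_lit 78) (PT.lf (nat_lit 23332) (nat_lit 6) (nat_lit 307) (nat_lit 1) (nat_lit 209) (nat_lit 165) (nat_lit 196)) (PT.lf (nat_lit 23256) (nat_lit 6) (nat_lit 306) (nat_lit 1) (nat_lit 210) (nat_lit 165) (nat_lit 195))))) (PT.nd (nat_lit 57798) (PT.nd (nat_lit 78) (PT.lf (nat_lit 23180) (nat_lit 6) (nat_lit 305) (nat_lit 1) (nat_lit 211) (nat_lit 165) (nat_lit 194)) (PT.nd (nat_lit 78) (PT.lf (nat_lit 23104) (nat_lit 6) (nat_lit 304) (nat_lit 1) (nat_lit 212) (nat_lit 165) (nat_lit 193)) (PT.lf (nat_lit 23028) (nat_lit 6) (nat_lit 303) (nat_lit 1) (nat_lit 213) (nat_lit 165) (nat_lit 192)))) (PT.nd (nat_lit 156) (PT.nd (nat_lit 78) (PT.lf (nat_lit 23864) (nat_lit 6) (nat_lit 314) (nat_lit 3) (nat_lit 191) (nat_lit 166) (nat_lit 213)) (PT.lf (nat_lit 23940) (nat_lit 6) (nat_lit 315) (nat_lit 3) (nat_lit 192) (nat_lit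 166) (nat_lit 212))) (PT.nd (nat_lit 78) (PT.lf (nat_lit 24016) (nat_lit 6) (nat_lit 316) (nat_lit 3) (nat_lit 193) (nat_lit 166) (nat_lit 211)) (PT.lf (nat_lit 24092) (nat_lit 6) (nat_lit 317) (nat_lit 3) (nat_lit 194) (nat_lit 166) (nat_lit 210))))))))
noncomputable def pc11 : PT := (PT.nd (nat_lit 59592) (PT.nd (nat_lit 1014) (PT.nd (nat_lit 468) (PT.nd (nat_lit 234) (PT.nd (nat_lit 78) (PT.lf (nat_lit 24168) (nat_lit 6) (nat_lit 318) (nat_lit 3) (nat_lit 195) (nat_lit 166) (nat_lit 209)) (PT.nd (nat_lit 78) (PT.lf (nat_lit 24244) (nat_lit 6) (nat_lit 319) (nat_lit 3) (nat_lit 196) (nat_lit 166) (nat_lit 208)) (PT.lf (nat_lit 24320) (nat_lit 6) (nat_lit 320) (nat_lit 3) (nat_lit 197) (nat_lit 166) (nat_lit 207)))) (PT.nd (nat_lit 78) (PT.lf (nat_lit 24396) (nat_lit 6) (nat_lit 321) (nat_lit 3) (nat_lit 198) (nat_lit 166) (nat_lit 206)) (PT.nd (nat_lit 78) (PT.lf (nat_lit 24472) (nat_lit 6) (nat_lit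 322) (nat_lit 3) (nat_lit 199) (nat_lit 166) (nat_lit 205)) (PT.lf (nat_lit 24548) (nat_lit 6) (nat_lit 323) (nat_lit 3) (nat_lit 200) (nat_lit 166) (nat_lit 204))))) (PT.nd (nat_lit 234) (PT.nd (nat_lit 78) (PT.lf (nat_lit 24624) (nat_lit 6) (nat_lit 324) (nat_lit 3) (nat_lit 201) (nat_lit 166) (nat_lit 203)) (PT.nd (nat_lit 78) (PT.lf (nat_lit 24700) (nat_lit 3) (nat_lit 325) (nat_lit 1) (nat_lit 202) (nat_lit 166) (nat_lit 202)) (PT.lf (nat_lit 24624) (nat_lit 6) (nat_lit 324) (nat_lit 1) (nat_lit 203) (nat_lit 166) (nat_lit 201)))) (PT.nd (nat_lit 156) (PT.nd (nat_lit 78) (PT.lf (nat_lit 24548) (nat_lit 6) (nat_lit 323) (nat_lit 1) (nat_lit 204) (nat_lit 166) (nat_lit 200)) (PT.lf (nat_lit 24472) (nat_lit 6) (nat_lit 322) (nat_lit 1) (nat_lit 205) (nat_lit 166) (nat_lit 199))) (PT.nd (nat_lit 78) (PT.lf (nat_lit 24396) (nat_lit 6) (nat_lit 321) (nat_lit 1) (nat_lit 206) (nat_lit 166) (nat_lit 198))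 (PT.lf (nat_lit 24320) (nat_lit 6) (nat_lit 320) (nat_lit 1) (nat_lit 207) (nat_lit 166) (nat_lit 197)))))) (PT.nd (nat_lit 58032) (PT.nd (nat_lit 234) (PT.nd (nat_lit 78) (PT.lf (nat_lit 24244) (nat_lit 6) (nat_lit 319) (nat_lit 1) (nat_lit 208) (nat_lit 166) (nat_lit 196)) (PT.nd (nat_lit 78) (PT.lf (nat_lit 24168) (nat_lit 6) (nat_lit 318) (nat_lit 1) (nat_lit 209) (nat_lit 166) (nat_lit 195)) (PT.lf (nat_lit 24092) (nat_lit 6) (nat_lit 317) (nat_lit 1) (nat_lit 210) (nat_lit 166) (nat_lit 194)))) (PT.nd (nat_lit 156) (PT.nd (nat_lit 78) (PT.lf (nat_lit 24016) (nat_lit 6) (nat_lit 316) (nat_lit 1) (nat_lit 211) (nat_lit 166) (nat_lit 193)) (PT.lf (nat_lit 23940) (nat_lit 6) (nat_lit 315) (nat_lit 1) (nat_lit 212) (nat_lit 166) (nat_lit 192))) (PT.nd (nat_lit 57564) (PT.lf (nat_lit 23864) (nat_lit 6) (nat_lit 314) (nat_lit 1) (nat_lit 213) (nat_lit 166) (nat_lit 191)) (PT.lf (nat_lit 24852) (nat_lit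 6) (nat_lit 327) (nat_lit 3) (nat_lit 190) (nat_lit 167) (nat_lit 213))))) (PT.nd (nat_lit 234) (PT.nd (nat_lit 78) (PT.lf (nat_lit 24928) (nat_lit 6) (nat_lit 328) (nat_lit 3) (nat_lit 191) (nat_lit 167) (nat_lit 212)) (PT.nd (nat_lit 78) (PT.lf (nat_lit 25004) (nat_lit 6) (nat_lit 329) (nat_lit 3) (nat_lit 192) (nat_lit 167) (nat_lit 211)) (PT.lf (nat_lit 25080) (nat_lit 6) (nat_lit 330) (nat_lit 3) (nat_lit 193) (nat_lit 167) (nat_lit 210)))) (PT.nd (nat_lit 156) (PT.nd (nat_lit 78) (PT.lf (nat_lit 25156) (nat_lit 6) (nat_lit 331) (nat_lit 3) (nat_lit 194) (nat_lit 167) (nat_lit 209)) (PT.lf (nat_lit 25232) (nat_lit 6) (nat_lit 332) (nat_lit 3) (nat_lit 195) (nat_lit 167) (nat_lit 208))) (PT.nd (nat_lit 78) (PT.lf (nat_lit 25308) (nat_lit 6) (nat_lit 333) (nat_lit 3) (nat_lit 196) (nat_lit 167) (nat_lit 207)) (PT.lf (nat_lit 25384) (nat_lit 6) (nat_lit 334) (nat_lit 3) (nat_lit 197) (nat_lit 167) (nat_lit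 206))))))) (PT.nd (nat_lit 1014) (PT.nd (nat_lit 468) (PT.nd (nat_lit 234) (PT.nd (nat_lit 78) (PT.lf (nat_lit 25460) (nat_lit 6) (nat_lit 335) (nat_lit 3) (nat_lit 198) (nat_lit 167) (nat_lit 205)) (PT.nd (nat_lit 78) (PT.lf (nat_lit 25536) (nat_lit 6) (nat_lit 336) (nat_lit 3) (nat_lit 199) (nat_lit 167) (nat_lit 204)) (PT.lf (nat_lit 25612) (nat_lit 6) (nat_lit 337) (nat_lit 3) (nat_lit 200) (nat_lit 167) (nat_lit 203)))) (PT.nd (nat_lit 78) (PT.lf (nat_lit 25688) (nat_lit 6) (nat_lit 338) (nat_lit 3) (nat_lit 201) (nat_lit 167) (nat_lit 202)) (PT.nd (nat_lit 78) (PT.lf (nat_lit 25688) (nat_lit 6) (nat_lit 338) (nat_lit 1) (nat_lit 202) (nat_lit 167) (nat_lit 201)) (PT.lf (nat_lit 25612) (nat_lit 6) (nat_lit 337) (nat_lit 1) (nat_lit 203) (nat_lit 167) (nat_lit 200))))) (PT.nd (nat_lit 234) (PT.nd (nat_lit 78) (PT.lf (nat_lit 25536) (nat_lit 6) (nat_lit 336) (nat_lit 1) (nat_lit 204) (nat_lit 167)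 (nat_lit 199)) (PT.nd (nat_lit 78) (PT.lf (nat_lit 25460) (nat_lit 6) (nat_lit 335) (nat_lit 1) (nat_lit 205) (nat_lit 167) (nat_lit 198)) (PT.lf (nat_lit 25384) (nat_lit 6) (nat_lit 334) (nat_lit 1) (nat_lit 206) (nat_lit 167) (nat_lit 197)))) (PT.nd (nat_lit 156) (PT.nd (nat_lit 78) (PT.lf (nat_lit 25308) (nat_lit 6) (nat_lit 333) (nat_lit 1) (nat_lit 207) (nat_lit 167) (nat_lit 196)) (PT.lf (nat_lit 25232) (nat_lit 6) (nat_lit 332) (nat_lit 1) (nat_lit 208) (nat_lit 167) (nat_lit 195))) (PT.nd (nat_lit 78) (PT.lf (nat_lit 25156) (nat_lit 6) (nat_lit 331) (nat_lit 1) (nat_lit 209) (nat_lit 167) (nat_lit 194)) (PT.lf (nat_lit 25080) (nat_lit 6) (nat_lit 330) (nat_lit 1) (nat_lit 210) (nat_lit 167) (nat_lit 193)))))) (PT.nd (nat_lit 57954) (PT.nd (nat_lit 57642) (PT.nd (nat_lit 78) (PT.lf (nat_lit 25004) (nat_lit 6) (nat_lit 329) (nat_lit 1) (nat_lit 211) (nat_lit 167) (nat_lit 192)) (PT.nd (nat_lit 78)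 (PT.lf (nat_lit 24928) (nat_lit 6) (nat_lit 328) (nat_lit 1) (nat_lit 212) (nat_lit 167) (nat_lit 191)) (PT.lf (nat_lit 24852) (nat_lit 6) (nat_lit 327) (nat_lit 1) (nat_lit 213) (nat_lit 167) (nat_lit 190)))) (PT.nd (nat_lit 156) (PT.nd (nat_lit 78) (PT.lf (nat_lit 24776) (nat_lit 6) (nat_lit 326) (nat_lit 3) (nat_lit 189) (nat_lit 168) (nat_lit 213)) (PT.lf (nat_lit 26600) (nat_lit 6) (nat_lit 350) (nat_lit 3) (nat_lit 190) (nat_lit 168) (nat_lit 212))) (PT.nd (nat_lit 78) (PT.lf (nat_lit 26676) (nat_lit 6) (nat_lit 351) (nat_lit 3) (nat_lit 191) (nat_lit 168) (nat_lit 211)) (PT.lf (nat_lit 26752) (nat_lit 6) (nat_lit 352) (nat_lit 3) (nat_lit 192) (nat_lit 168) (nat_lit 210))))) (PT.nd (nat_lit 234) (PT.nd (nat_lit 78) (PT.lf (nat_lit 26828) (nat_lit 6) (nat_lit 353) (nat_lit 3) (nat_lit 193) (nat_lit 168) (nat_lit 209)) (PT.nd (nat_lit 78) (PT.lf (nat_lit 26904) (nat_lit 6) (nat_lit 354) (nat_lit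 3) (nat_lit 194) (nat_lit 168) (nat_lit 208)) (PT.lf (nat_lit 26980) (nat_lit 6) (nat_lit 355) (nat_lit 3) (nat_lit 195) (nat_lit 168) (nat_lit 207)))) (PT.nd (nat_lit 156) (PT.nd (nat_lit 78) (PT.lf (nat_lit 27056) (nat_lit 6) (nat_lit 356) (nat_lit 3) (nat_lit 196) (nat_lit 168) (nat_lit 206)) (PT.lf (nat_lit 27132) (nat_lit 6) (nat_lit 357) (nat_lit 3) (nat_lit 197) (nat_lit 168) (nat_lit 205))) (PT.nd (nat_lit 78) (PT.lf (nat_lit 27208) (nat_lit 6) (nat_lit 358) (nat_lit 3) (nat_lit 198) (nat_lit 168) (nat_lit 204)) (PT.lf (nat_lit 27284) (nat_lit 6) (nat_lit 359) (nat_lit 3) (nat_lit 199) (nat_lit 168) (nat_lit 203))))))))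
noncomputable def pc12 : PT := (PT.nd (nat_lit 59436) (PT.nd (nat_lit 1014) (PT.nd (nat_lit 468) (PT.nd (nat_lit 234) (PT.nd (nat_lit 78) (PT.lf (nat_lit 27360) (nat_lit 6) (nat_lit 360) (nat_lit 3) (nat_lit 200) (nat_lit 168) (nat_lit 202)) (PT.nd (nat_lit 78) (PT.lf (nat_lit 27436) (nat_lit 3) (nat_lit 361) (nat_lit 1) (nat_lit 201) (nat_lit 168) (nat_lit 201)) (PT.lf (nat_lit 27360) (nat_lit 6) (nat_lit 360) (nat_lit 1) (nat_lit 202) (nat_lit 168) (nat_lit 200)))) (PT.nd (nat_lit 78) (PT.lf (nat_lit 27284) (nat_lit 6) (nat_lit 359) (nat_lit 1) (nat_lit 203) (nat_lit 168) (nat_lit 199)) (PT.nd (nat_lit 78) (PT.lf (nat_lit 27208) (nat_lit 6) (nat_lit 358) (nat_lit 1) (nat_lit 204) (nat_lit 168) (nat_lit 198)) (PT.lf (nat_lit 27132) (nat_lit 6) (nat_lit 357) (nat_lit 1) (nat_lit 205) (nat_lit 168) (nat_lit 197))))) (PT.nd (nat_lit 234) (PT.nd (nat_lit 78) (PT.lf (nat_lit 27056) (nat_lit 6) (nat_lit 356)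 (nat_lit 1) (nat_lit 206) (nat_lit 168) (nat_lit 196)) (PT.nd (nat_lit 78) (PT.lf (nat_lit 26980) (nat_lit 6) (nat_lit 355) (nat_lit 1) (nat_lit 207) (nat_lit 168) (nat_lit 195)) (PT.lf (nat_lit 26904) (nat_lit 6) (nat_lit 354) (nat_lit 1) (nat_lit 208) (nat_lit 168) (nat_lit 194)))) (PT.nd (nat_lit 156) (PT.nd (nat_lit 78) (PT.lf (nat_lit 26828) (nat_lit 6) (nat_lit 353) (nat_lit 1) (nat_lit 209) (nat_lit 168) (nat_lit 193)) (PT.lf (nat_lit 26752) (nat_lit 6) (nat_lit 352) (nat_lit 1) (nat_lit 210) (nat_lit 168) (nat_lit 192))) (PT.nd (nat_lit 78) (PT.lf (nat_lit 26676) (nat_lit 6) (nat_lit 351) (nat_lit 1) (nat_lit 211) (nat_lit 168) (nat_lit 191)) (PT.lf (nat_lit 26600) (nat_lit 6) (nat_lit 350) (nat_lit 1) (nat_lit 212) (nat_lit 168) (nat_lit 190)))))) (PT.nd (nat_lit 57876) (PT.nd (nat_lit 57642) (PT.nd (nat_lit 57486) (PT.lf (nat_lit 24776) (nat_lit 6) (nat_lit 326) (nat_lit 1) (nat_lit 213) (nat_lit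 168) (nat_lit 189)) (PT.nd (nat_lit 78) (PT.lf (nat_lit 26524) (nat_lit 6) (nat_lit 349) (nat_lit 3) (nat_lit 189) (nat_lit 169) (nat_lit 212)) (PT.lf (nat_lit 28272) (nat_lit 6) (nat_lit 372) (nat_lit 3) (nat_lit 190) (nat_lit 169) (nat_lit 211)))) (PT.nd (nat_lit 78) (PT.lf (nat_lit 28348) (nat_lit 6) (nat_lit 373) (nat_lit 3) (nat_lit 191) (nat_lit 169) (nat_lit 210)) (PT.nd (nat_lit 78) (PT.lf (nat_lit 28424) (nat_lit 6) (nat_lit 374) (nat_lit 3) (nat_lit 192) (nat_lit 169) (nat_lit 209)) (PT.lf (nat_lit 28500) (nat_lit 6) (nat_lit 375) (nat_lit 3) (nat_lit 193) (nat_lit 169) (nat_lit 208))))) (PT.nd (nat_lit 234) (PT.nd (nat_lit 78) (PT.lf (nat_lit 28576) (nat_lit 6) (nat_lit 376) (nat_lit 3) (nat_lit 194) (nat_lit 169) (nat_lit 207)) (PT.nd (nat_lit 78) (PT.lf (nat_lit 28652) (nat_lit 6) (nat_lit 377) (nat_lit 3) (nat_lit 195) (nat_lit 169) (nat_lit 206)) (PT.lf (nat_lit 28728) (nat_lit 6) (nat_lit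 378) (nat_lit 3) (nat_lit 196) (nat_lit 169) (nat_lit 205)))) (PT.nd (nat_lit 156) (PT.nd (nat_lit 78) (PT.lf (nat_lit 28804) (nat_lit 6) (nat_lit 379) (nat_lit 3) (nat_lit 197) (nat_lit 169) (nat_lit 204)) (PT.lf (nat_lit 28880) (nat_lit 6) (nat_lit 380) (nat_lit 3) (nat_lit 198) (nat_lit 169) (nat_lit 203))) (PT.nd (nat_lit 78) (PT.lf (nat_lit 28956) (nat_lit 6) (nat_lit 381) (nat_lit 3) (nat_lit 199) (nat_lit 169) (nat_lit 202)) (PT.lf (nat_lit 29032) (nat_lit 6) (nat_lit 382) (nat_lit 3) (nat_lit 200) (nat_lit 169) (nat_lit 201))))))) (PT.nd (nat_lit 58422) (PT.nd (nat_lit 468) (PT.nd (nat_lit 234) (PT.nd (nat_lit 78) (PT.lf (nat_lit 29032) (nat_lit 6) (nat_lit 382) (nat_lit 1) (nat_lit 201) (nat_lit 169) (nat_lit 200)) (PT.nd (nat_lit 78) (PT.lf (nat_lit 28956) (nat_lit 6) (nat_lit 381) (nat_lit 1) (nat_lit 202) (nat_lit 169) (nat_lit 199)) (PT.lf (nat_lit 28880) (nat_lit 6) (nat_lit 380) (nat_lit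 1) (nat_lit 203) (nat_lit 169) (nat_lit 198)))) (PT.nd (nat_lit 78) (PT.lf (nat_lit 28804) (nat_lit 6) (nat_lit 379) (nat_lit 1) (nat_lit 204) (nat_lit 169) (nat_lit 197)) (PT.nd (nat_lit 78) (PT.lf (nat_lit 28728) (nat_lit 6) (nat_lit 378) (nat_lit 1) (nat_lit 205) (nat_lit 169) (nat_lit 196)) (PT.lf (nat_lit 28652) (nat_lit 6) (nat_lit 377) (nat_lit 1) (nat_lit 206) (nat_lit 169) (nat_lit 195))))) (PT.nd (nat_lit 234) (PT.nd (nat_lit 78) (PT.lf (nat_lit 28576) (nat_lit 6) (nat_lit 376) (nat_lit 1) (nat_lit 207) (nat_lit 169) (nat_lit 194)) (PT.nd (nat_lit 78) (PT.lf (nat_lit 28500) (nat_lit 6) (nat_lit 375) (nat_lit 1) (nat_lit 208) (nat_lit 169) (nat_lit 193)) (PT.lf (nat_lit 28424) (nat_lit 6) (nat_lit 374) (nat_lit 1) (nat_lit 209) (nat_lit 169) (nat_lit 192)))) (PT.nd (nat_lit 156) (PT.nd (nat_lit 78) (PT.lf (nat_lit 28348) (nat_lit 6) (nat_lit 373) (nat_lit 1) (nat_lit 210) (nat_lit 169) (nat_lit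 191)) (PT.lf (nat_lit 28272) (nat_lit 6) (nat_lit 372) (nat_lit 1) (nat_lit 211) (nat_lit 169) (nat_lit 190))) (PT.nd (nat_lit 57486) (PT.lf (nat_lit 26524) (nat_lit 6) (nat_lit 349) (nat_lit 1) (nat_lit 212) (nat_lit 169) (nat_lit 189)) (PT.lf (nat_lit 26448) (nat_lit 6) (nat_lit 348) (nat_lit 3) (nat_lit 188) (nat_lit 170) (nat_lit 212)))))) (PT.nd (nat_lit 546) (PT.nd (nat_lit 234) (PT.nd (nat_lit 78) (PT.lf (nat_lit 28196) (nat_lit 6) (nat_lit 371) (nat_lit 3) (nat_lit 189) (nat_lit 170) (nat_lit 211)) (PT.nd (nat_lit 78) (PT.lf (nat_lit 29868) (nat_lit 6) (nat_lit 393) (nat_lit 3) (nat_lit 190) (nat_lit 170) (nat_lit 210)) (PT.lf (nat_lit 29944) (nat_lit 6) (nat_lit 394) (nat_lit 3) (nat_lit 191) (nat_lit 170) (nat_lit 209)))) (PT.nd (nat_lit 156) (PT.nd (nat_lit 78) (PT.lf (nat_lit 30020) (nat_lit 6) (nat_lit 395) (nat_lit 3) (nat_lit 192) (nat_lit 170) (nat_lit 208)) (PT.lf (nat_lit 30096) (nat_lit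 6) (nat_lit 396) (nat_lit 3) (nat_lit 193) (nat_lit 170) (nat_lit 207))) (PT.nd (nat_lit 78) (PT.lf (nat_lit 30172) (nat_lit 6) (nat_lit 397) (nat_lit 3) (nat_lit 194) (nat_lit 170) (nat_lit 206)) (PT.lf (nat_lit 30248) (nat_lit 6) (nat_lit 398) (nat_lit 3) (nat_lit 195) (nat_lit 170) (nat_lit 205))))) (PT.nd (nat_lit 234) (PT.nd (nat_lit 78) (PT.lf (nat_lit 30324) (nat_lit 6) (nat_lit 399) (nat_lit 3) (nat_lit 196) (nat_lit 170) (nat_lit 204)) (PT.nd (nat_lit 78) (PT.lf (nat_lit 30400) (nat_lit 6) (nat_lit 400) (nat_lit 3) (nat_lit 197) (nat_lit 170) (nat_lit 203)) (PT.lf (nat_lit 30476) (nat_lit 6) (nat_lit 401) (nat_lit 3) (nat_lit 198) (nat_lit 170) (nat_lit 202)))) (PT.nd (nat_lit 156) (PT.nd (nat_lit 78) (PT.lf (nat_lit 30552) (nat_lit 6) (nat_lit 402) (nat_lit 3) (nat_lit 199) (nat_lit 170) (nat_lit 201)) (PT.lf (nat_lit 30628) (nat_lit 3) (nat_lit 403) (nat_lit 1) (nat_lit 200) (nat_lit 170) (nat_lit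 200))) (PT.nd (nat_lit 78) (PT.lf (nat_lit 30552) (nat_lit 6) (nat_lit 402) (nat_lit 1) (nat_lit 201) (nat_lit 170) (nat_lit 199)) (PT.lf (nat_lit 30476) (nat_lit 6) (nat_lit 401) (nat_lit 1) (nat_lit 202) (nat_lit 170) (nat_lit 198))))))))
noncomputable def pc13 : PT := (PT.nd (nat_lit 59358) (PT.nd (nat_lit 58344) (PT.nd (nat_lit 468) (PT.nd (nat_lit 234) (PT.nd (nat_lit 78) (PT.lf (nat_lit 30400) (nat_lit 6) (nat_lit 400) (nat_lit 1) (nat_lit 203) (nat_lit 170) (nat_lit 197)) (PT.nd (nat_lit 78) (PT.lf (nat_lit 30324) (nat_lit 6) (nat_lit 399) (nat_lit 1) (nat_lit 204) (nat_lit 170) (nat_lit 196)) (PT.lf (nat_lit 30248) (nat_lit 6) (nat_lit 398) (nat_lit 1) (nat_lit 205) (nat_lit 170) (nat_lit 195)))) (PT.nd (nat_lit 78) (PT.lf (nat_lit 30172) (nat_lit 6) (nat_lit 397) (nat_lit 1) (nat_lit 206) (nat_lit 170) (nat_lit 194)) (PT.nd (nat_lit 78) (PT.lf (nat_lit 30096) (nat_lit 6) (nat_lit 396) (nat_lit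 1) (nat_lit 207) (nat_lit 170) (nat_lit 193)) (PT.lf (nat_lit 30020) (nat_lit 6) (nat_lit 395) (nat_lit 1) (nat_lit 208) (nat_lit 170) (nat_lit 192))))) (PT.nd (nat_lit 234) (PT.nd (nat_lit 78) (PT.lf (nat_lit 29944) (nat_lit 6) (nat_lit 394) (nat_lit 1) (nat_lit 209) (nat_lit 170) (nat_lit 191)) (PT.nd (nat_lit 78) (PT.lf (nat_lit 29868) (nat_lit 6) (nat_lit 393) (nat_lit 1) (nat_lit 210) (nat_lit 170) (nat_lit 190)) (PT.lf (nat_lit 28196) (nat_lit 6) (nat_lit 371) (nat_lit 1) (nat_lit 211) (nat_lit 170) (nat_lit 189)))) (PT.nd (nat_lit 57486) (PT.nd (nat_lit 57408) (PT.lf (nat_lit 26448) (nat_lit 6) (nat_lit 348) (nat_lit 1) (nat_lit 212) (nat_lit 170) (nat_lit 188)) (PT.lf (nat_lit 26372) (nat_lit 6) (nat_lit 347) (nat_lit 3) (nat_lit 187) (nat_lit 171) (nat_lit 212))) (PT.nd (nat_lit 78) (PT.lf (nat_lit 28120) (nat_lit 6) (nat_lit 370) (nat_lit 3) (nat_lit 188) (nat_lit 171) (nat_lit 211)) (PT.lf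 (nat_lit 29792) (nat_lit 6) (nat_lit 392) (nat_lit 3) (nat_lit 189) (nat_lit 171) (nat_lit 210)))))) (PT.nd (nat_lit 468) (PT.nd (nat_lit 234) (PT.nd (nat_lit 78) (PT.lf (nat_lit 31388) (nat_lit 6) (nat_lit 413) (nat_lit 3) (nat_lit 190) (nat_lit 171) (nat_lit 209)) (PT.nd (nat_lit 78) (PT.lf (nat_lit 31464) (nat_lit 6) (nat_lit 414) (nat_lit 3) (nat_lit 191) (nat_lit 171) (nat_lit 208)) (PT.lf (nat_lit 31540) (nat_lit 6) (nat_lit 415) (nat_lit 3) (nat_lit 192) (nat_lit 171) (nat_lit 207)))) (PT.nd (nat_lit 78) (PT.lf (nat_lit 31616) (nat_lit 6) (nat_lit 416) (nat_lit 3) (nat_lit 193) (nat_lit 171) (nat_lit 206)) (PT.nd (nat_lit 78) (PT.lf (nat_lit 31692) (nat_lit 6) (nat_lit 417) (nat_lit 3) (nat_lit 194) (nat_lit 171) (nat_lit 205)) (PT.lf (nat_lit 31768) (nat_lit 6) (nat_lit 418) (nat_lit 3) (nat_lit 195) (nat_lit 171) (nat_lit 204))))) (PT.nd (nat_lit 234) (PT.nd (nat_lit 78) (PT.lf (nat_lit 31844)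 (nat_lit 6) (nat_lit 419) (nat_lit 3) (nat_lit 196) (nat_lit 171) (nat_lit 203)) (PT.nd (nat_lit 78) (PT.lf (nat_lit 31920) (nat_lit 6) (nat_lit 420) (nat_lit 3) (nat_lit 197) (nat_lit 171) (nat_lit 202)) (PT.lf (nat_lit 31996) (nat_lit 6) (nat_lit 421) (nat_lit 3) (nat_lit 198) (nat_lit 171) (nat_lit 201)))) (PT.nd (nat_lit 156) (PT.nd (nat_lit 78) (PT.lf (nat_lit 32072) (nat_lit 6) (nat_lit 422) (nat_lit 3) (nat_lit 199) (nat_lit 171) (nat_lit 200)) (PT.lf (nat_lit 32072) (nat_lit 6) (nat_lit 422) (nat_lit 1) (nat_lit 200) (nat_lit 171) (nat_lit 199))) (PT.nd (nat_lit 78) (PT.lf (nat_lit 31996) (nat_lit 6) (nat_lit 421) (nat_lit 1) (nat_lit 201) (nat_lit 171) (nat_lit 198)) (PT.lf (nat_lit 31920) (nat_lit 6) (nat_lit 420) (nat_lit 1) (nat_lit 202) (nat_lit 171) (nat_lit 197))))))) (PT.nd (nat_lit 58266) (PT.nd (nat_lit 468) (PT.nd (nat_lit 234) (PT.nd (nat_lit 78) (PT.lf (nat_lit 31844) (nat_lit 6)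 (nat_lit 419) (nat_lit 1) (nat_lit 203) (nat_lit 171) (nat_lit 196)) (PT.nd (nat_lit 78) (PT.lf (nat_lit 31768) (nat_lit 6) (nat_lit 418) (nat_lit 1) (nat_lit 204) (nat_lit 171) (nat_lit 195)) (PT.lf (nat_lit 31692) (nat_lit 6) (nat_lit 417) (nat_lit 1) (nat_lit 205) (nat_lit 171) (nat_lit 194)))) (PT.nd (nat_lit 78) (PT.lf (nat_lit 31616) (nat_lit 6) (nat_lit 416) (nat_lit 1) (nat_lit 206) (nat_lit 171) (nat_lit 193)) (PT.nd (nat_lit 78) (PT.lf (nat_lit 31540) (nat_lit 6) (nat_lit 415) (nat_lit 1) (nat_lit 207) (nat_lit 171) (nat_lit 192)) (PT.lf (nat_lit 31464) (nat_lit 6) (nat_lit 414) (nat_lit 1) (nat_lit 208) (nat_lit 171) (nat_lit 191))))) (PT.nd (nat_lit 234) (PT.nd (nat_lit 78) (PT.lf (nat_lit 31388) (nat_lit 6) (nat_lit 413) (nat_lit 1) (nat_lit 209) (nat_lit 171) (nat_lit 190)) (PT.nd (nat_lit 78) (PT.lf (nat_lit 29792) (nat_lit 6) (nat_lit 392) (nat_lit 1) (nat_lit 210) (nat_lit 171) (nat_lit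 189)) (PT.lf (nat_lit 28120) (nat_lit 6) (nat_lit 370) (nat_lit 1) (nat_lit 211) (nat_lit 171) (nat_lit 188)))) (PT.nd (nat_lit 57408) (PT.nd (nat_lit 57330) (PT.lf (nat_lit 26372) (nat_lit 6) (nat_lit 347) (nat_lit 1) (nat_lit 212) (nat_lit 171) (nat_lit 187)) (PT.lf (nat_lit 26296) (nat_lit 6) (nat_lit 346) (nat_lit 3) (nat_lit 186) (nat_lit 172) (nat_lit 212))) (PT.nd (nat_lit 78) (PT.lf (nat_lit 28044) (nat_lit 6) (nat_lit 369) (nat_lit 3) (nat_lit 187) (nat_lit 172) (nat_lit 211)) (PT.lf (nat_lit 29716) (nat_lit 6) (nat_lit 391) (nat_lit 3) (nat_lit 188) (nat_lit 172) (nat_lit 210)))))) (PT.nd (nat_lit 546) (PT.nd (nat_lit 234) (PT.nd (nat_lit 78) (PT.lf (nat_lit 31312) (nat_lit 6) (nat_lit 412) (nat_lit 3) (nat_lit 189) (nat_lit 172) (nat_lit 209)) (PT.nd (nat_lit 78) (PT.lf (nat_lit 32832) (nat_lit 6) (nat_lit 432) (nat_lit 3) (nat_lit 190) (nat_lit 172) (nat_lit 208)) (PT.lf (nat_lit 32908) (nat_lit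 6) (nat_lit 433) (nat_lit 3) (nat_lit 191) (nat_lit 172) (nat_lit 207)))) (PT.nd (nat_lit 156) (PT.nd (nat_lit 78) (PT.lf (nat_lit 32984) (nat_lit 6) (nat_lit 434) (nat_lit 3) (nat_lit 192) (nat_lit 172) (nat_lit 206)) (PT.lf (nat_lit 33060) (nat_lit 6) (nat_lit 435) (nat_lit 3) (nat_lit 193) (nat_lit 172) (nat_lit 205))) (PT.nd (nat_lit 78) (PT.lf (nat_lit 33136) (nat_lit 6) (nat_lit 436) (nat_lit 3) (nat_lit 194) (nat_lit 172) (nat_lit 204)) (PT.lf (nat_lit 33212) (nat_lit 6) (nat_lit 437) (nat_lit 3) (nat_lit 195) (nat_lit 172) (nat_lit 203))))) (PT.nd (nat_lit 234) (PT.nd (nat_lit 78) (PT.lf (nat_lit 33288) (nat_lit 6) (nat_lit 438) (nat_lit 3) (nat_lit 196) (nat_lit 172) (nat_lit 202)) (PT.nd (nat_lit 78) (PT.lf (nat_lit 33364) (nat_lit 6) (nat_lit 439) (nat_lit 3) (nat_lit 197) (nat_lit 172) (nat_lit 201)) (PT.lf (nat_lit 33440) (nat_lit 6) (nat_lit 440) (nat_lit 3) (nat_lit 198) (nat_lit 172) (nat_lit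 200)))) (PT.nd (nat_lit 156) (PT.nd (nat_lit 78) (PT.lf (nat_lit 33516) (nat_lit 3) (nat_lit 441) (nat_lit 1) (nat_lit 199) (nat_lit 172) (nat_lit 199)) (PT.lf (nat_lit 33440) (nat_lit 6) (nat_lit 440) (nat_lit 1) (nat_lit 200) (nat_lit 172) (nat_lit 198))) (PT.nd (nat_lit 78) (PT.lf (nat_lit 33364) (nat_lit 6) (nat_lit 439) (nat_lit 1) (nat_lit 201) (nat_lit 172) (nat_lit 197)) (PT.lf (nat_lit 33288) (nat_lit 6) (nat_lit 438) (nat_lit 1) (nat_lit 202) (nat_lit 172) (nat_lit 196))))))))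
noncomputable def pc14 : PT := (PT.nd (nat_lit 59202) (PT.nd (nat_lit 58188) (PT.nd (nat_lit 468) (PT.nd (nat_lit 234) (PT.nd (nat_lit 78) (PT.lf (nat_lit 33212) (nat_lit 6) (nat_lit 437) (nat_lit 1) (nat_lit 203) (nat_lit 172) (nat_lit 195)) (PT.nd (nat_lit 78) (PT.lf (nat_lit 33136) (nat_lit 6) (nat_lit 436) (nat_lit 1) (nat_lit 204) (nat_lit 172) (nat_lit 194)) (PT.lf (nat_lit 33060) (nat_lit 6) (nat_lit 435) (nat_lit 1) (nat_lit 205) (nat_lit 172) (nat_lit 193)))) (PT.nd (nat_lit 78) (PT.lf (nat_lit 32984) (nat_lit 6) (nat_lit 434) (nat_lit 1) (nat_lit 206) (nat_lit 172) (nat_lit 192)) (PT.nd (nat_lit 78) (PT.lf (nat_lit 32908) (nat_lit 6) (nat_lit 433) (nat_lit 1) (nat_lit 207) (nat_lit 172) (nat_lit 191)) (PT.lf (nat_lit 32832) (nat_lit 6) (nat_lit 432) (nat_lit 1) (nat_lit 208) (nat_lit 172) (nat_lit 190))))) (PT.nd (nat_lit 234) (PT.nd (nat_lit 78) (PT.lf (nat_lit 31312) (nat_lit 6) (nat_lit 412)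 (nat_lit 1) (nat_lit 209) (nat_lit 172) (nat_lit 189)) (PT.nd (nat_lit 78) (PT.lf (nat_lit 29716) (nat_lit 6) (nat_lit 391) (nat_lit 1) (nat_lit 210) (nat_lit 172) (nat_lit 188)) (PT.lf (nat_lit 28044) (nat_lit 6) (nat_lit 369) (nat_lit 1) (nat_lit 211) (nat_lit 172) (nat_lit 187)))) (PT.nd (nat_lit 57330) (PT.nd (nat_lit 57252) (PT.lf (nat_lit 26296) (nat_lit 6) (nat_lit 346) (nat_lit 1) (nat_lit 212) (nat_lit 172) (nat_lit 186)) (PT.lf (nat_lit 26220) (nat_lit 6) (nat_lit 345) (nat_lit 3) (nat_lit 185) (nat_lit 173) (nat_lit 212))) (PT.nd (nat_lit 78) (PT.lf (nat_lit 27968) (nat_lit 6) (nat_lit 368) (nat_lit 3) (nat_lit 186) (nat_lit 173) (nat_lit 211)) (PT.lf (nat_lit 29640) (nat_lit 6) (nat_lit 390) (nat_lit 3) (nat_lit 187) (nat_lit 173) (nat_lit 210)))))) (PT.nd (nat_lit 468) (PT.nd (nat_lit 234) (PT.nd (nat_lit 78) (PT.lf (nat_lit 31236) (nat_lit 6) (nat_lit 411) (nat_lit 3) (nat_lit 188) (nat_lit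 173) (nat_lit 209)) (PT.nd (nat_lit 78) (PT.lf (nat_lit 32756) (nat_lit 6) (nat_lit 431) (nat_lit 3) (nat_lit 189) (nat_lit 173) (nat_lit 208)) (PT.lf (nat_lit 34200) (nat_lit 6) (nat_lit 450) (nat_lit 3) (nat_lit 190) (nat_lit 173) (nat_lit 207)))) (PT.nd (nat_lit 78) (PT.lf (nat_lit 34276) (nat_lit 6) (nat_lit 451) (nat_lit 3) (nat_lit 191) (nat_lit 173) (nat_lit 206)) (PT.nd (nat_lit 78) (PT.lf (nat_lit 34352) (nat_lit 6) (nat_lit 452) (nat_lit 3) (nat_lit 192) (nat_lit 173) (nat_lit 205)) (PT.lf (nat_lit 34428) (nat_lit 6) (nat_lit 453) (nat_lit 3) (nat_lit 193) (nat_lit 173) (nat_lit 204))))) (PT.nd (nat_lit 234) (PT.nd (nat_lit 78) (PT.lf (nat_lit 34504) (nat_lit 6) (nat_lit 454) (nat_lit 3) (nat_lit 194) (nat_lit 173) (nat_lit 203)) (PT.nd (nat_lit 78) (PT.lf (nat_lit 34580) (nat_lit 6) (nat_lit 455) (nat_lit 3) (nat_lit 195) (nat_lit 173) (nat_lit 202)) (PT.lf (nat_lit 34656) (nat_lit 6) (nat_lit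 456) (nat_lit 3) (nat_lit 196) (nat_lit 173) (nat_lit 201)))) (PT.nd (nat_lit 156) (PT.nd (nat_lit 78) (PT.lf (nat_lit 34732) (nat_lit 6) (nat_lit 457) (nat_lit 3) (nat_lit 197) (nat_lit 173) (nat_lit 200)) (PT.lf (nat_lit 34808) (nat_lit 6) (nat_lit 458) (nat_lit 3) (nat_lit 198) (nat_lit 173) (nat_lit 199))) (PT.nd (nat_lit 78) (PT.lf (nat_lit 34808) (nat_lit 6) (nat_lit 458) (nat_lit 1) (nat_lit 199) (nat_lit 173) (nat_lit 198)) (PT.lf (nat_lit 34732) (nat_lit 6) (nat_lit 457) (nat_lit 1) (nat_lit 200) (nat_lit 173) (nat_lit 197))))))) (PT.nd (nat_lit 58110) (PT.nd (nat_lit 468) (PT.nd (nat_lit 234) (PT.nd (nat_lit 78) (PT.lf (nat_lit 34656) (nat_lit 6) (nat_lit 456) (nat_lit 1) (nat_lit 201) (nat_lit 173) (nat_lit 196)) (PT.nd (nat_lit 78) (PT.lf (nat_lit 34580) (nat_lit 6) (nat_lit 455) (nat_lit 1) (nat_lit 202) (nat_lit 173) (nat_lit 195)) (PT.lf (nat_lit 34504) (nat_lit 6) (nat_lit 454) (nat_lit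 1) (nat_lit 203) (nat_lit 173) (nat_lit 194)))) (PT.nd (nat_lit 78) (PT.lf (nat_lit 34428) (nat_lit 6) (nat_lit 453) (nat_lit 1) (nat_lit 204) (nat_lit 173) (nat_lit 193)) (PT.nd (nat_lit 78) (PT.lf (nat_lit 34352) (nat_lit 6) (nat_lit 452) (nat_lit 1) (nat_lit 205) (nat_lit 173) (nat_lit 192)) (PT.lf (nat_lit 34276) (nat_lit 6) (nat_lit 451) (nat_lit 1) (nat_lit 206) (nat_lit 173) (nat_lit 191))))) (PT.nd (nat_lit 234) (PT.nd (nat_lit 78) (PT.lf (nat_lit 34200) (nat_lit 6) (nat_lit 450) (nat_lit 1) (nat_lit 207) (nat_lit 173) (nat_lit 190)) (PT.nd (nat_lit 78) (PT.lf (nat_lit 32756) (nat_lit 6) (nat_lit 431) (nat_lit 1) (nat_lit 208) (nat_lit 173) (nat_lit 189)) (PT.lf (nat_lit 31236) (nat_lit 6) (nat_lit 411) (nat_lit 1) (nat_lit 209) (nat_lit 173) (nat_lit 188)))) (PT.nd (nat_lit 156) (PT.nd (nat_lit 78) (PT.lf (nat_lit 29640) (nat_lit 6) (nat_lit 390) (nat_lit 1) (nat_lit 210) (nat_lit 173) (nat_lit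 187)) (PT.lf (nat_lit 27968) (nat_lit 6) (nat_lit 368) (nat_lit 1) (nat_lit 211) (nat_lit 173) (nat_lit 186))) (PT.nd (nat_lit 57174) (PT.lf (nat_lit 26220) (nat_lit 6) (nat_lit 345) (nat_lit 1) (nat_lit 212) (nat_lit 173) (nat_lit 185)) (PT.lf (nat_lit 26144) (nat_lit 6) (nat_lit 344) (nat_lit 3) (nat_lit 184) (nat_lit 174) (nat_lit 212)))))) (PT.nd (nat_lit 546) (PT.nd (nat_lit 234) (PT.nd (nat_lit 78) (PT.lf (nat_lit 27892) (nat_lit 6) (nat_lit 367) (nat_lit 3) (nat_lit 185) (nat_lit 174) (nat_lit 211)) (PT.nd (nat_lit 78) (PT.lf (nat_lit 29564) (nat_lit 6) (nat_lit 389) (nat_lit 3) (nat_lit 186) (nat_lit 174) (nat_lit 210)) (PT.lf (nat_lit 31160) (nat_lit 6) (nat_lit 410) (nat_lit 3) (nat_lit 187) (nat_lit 174) (nat_lit 209)))) (PT.nd (nat_lit 156) (PT.nd (nat_lit 78) (PT.lf (nat_lit 32680) (nat_lit 6) (nat_lit 430) (nat_lit 3) (nat_lit 188) (nat_lit 174) (nat_lit 208)) (PT.lf (nat_lit 34124) (nat_lit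 6) (nat_lit 449) (nat_lit 3) (nat_lit 189) (nat_lit 174) (nat_lit 207))) (PT.nd (nat_lit 78) (PT.lf (nat_lit 35492) (nat_lit 6) (nat_lit 467) (nat_lit 3) (nat_lit 190) (nat_lit 174) (nat_lit 206)) (PT.lf (nat_lit 35568) (nat_lit 6) (nat_lit 468) (nat_lit 3) (nat_lit 191) (nat_lit 174) (nat_lit 205))))) (PT.nd (nat_lit 234) (PT.nd (nat_lit 78) (PT.lf (nat_lit 35644) (nat_lit 6) (nat_lit 469) (nat_lit 3) (nat_lit 192) (nat_lit 174) (nat_lit 204)) (PT.nd (nat_lit 78) (PT.lf (nat_lit 35720) (nat_lit 6) (nat_lit 470) (nat_lit 3) (nat_lit 193) (nat_lit 174) (nat_lit 203)) (PT.lf (nat_lit 35796) (nat_lit 6) (nat_lit 471) (nat_lit 3) (nat_lit 194) (nat_lit 174) (nat_lit 202)))) (PT.nd (nat_lit 156) (PT.nd (nat_lit 78) (PT.lf (nat_lit 35872) (nat_lit 6) (nat_lit 472) (nat_lit 3) (nat_lit 195) (nat_lit 174) (nat_lit 201)) (PT.lf (nat_lit 35948) (nat_lit 6) (nat_lit 473) (nat_lit 3) (nat_lit 196) (nat_lit 174) (nat_lit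 200))) (PT.nd (nat_lit 78) (PT.lf (nat_lit 36024) (nat_lit 6) (nat_lit 474) (nat_lit 3) (nat_lit 197) (nat_lit 174) (nat_lit 199)) (PT.lf (nat_lit 36100) (nat_lit 3) (nat_lit 475) (nat_lit 1) (nat_lit 198) (nat_lit 174) (nat_lit 198))))))))
noncomputable def pc15 : PT := (PT.nd (nat_lit 59124) (PT.nd (nat_lit 1014) (PT.nd (nat_lit 468) (PT.nd (nat_lit 234) (PT.nd (nat_lit 78) (PT.lf (nat_lit 36024) (nat_lit 6) (nat_lit 474) (nat_lit 1) (nat_lit 199) (nat_lit 174) (nat_lit 197)) (PT.nd (nat_lit 78) (PT.lf (nat_lit 35948) (nat_lit 6) (nat_lit 473) (nat_lit 1) (nat_lit 200) (nat_lit 174) (nat_lit 196)) (PT.lf (nat_lit 35872) (nat_lit 6) (nat_lit 472) (nat_lit 1) (nat_lit 201) (nat_lit 174) (nat_lit 195)))) (PT.nd (nat_lit 78) (PT.lf (nat_lit 35796) (nat_lit 6) (nat_lit 471) (nat_lit 1) (nat_lit 202) (nat_lit 174) (nat_lit 194)) (PT.nd (nat_lit 78) (PT.lf (nat_lit 35720) (nat_lit 6) (nat_lit 470) (nat_lit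 1) (nat_lit 203) (nat_lit 174) (nat_lit 193)) (PT.lf (nat_lit 35644) (nat_lit 6) (nat_lit 469) (nat_lit 1) (nat_lit 204) (nat_lit 174) (nat_lit 192))))) (PT.nd (nat_lit 234) (PT.nd (nat_lit 78) (PT.lf (nat_lit 35568) (nat_lit 6) (nat_lit 468) (nat_lit 1) (nat_lit 205) (nat_lit 174) (nat_lit 191)) (PT.nd (nat_lit 78) (PT.lf (nat_lit 35492) (nat_lit 6) (nat_lit 467) (nat_lit 1) (nat_lit 206) (nat_lit 174) (nat_lit 190)) (PT.lf (nat_lit 34124) (nat_lit 6) (nat_lit 449) (nat_lit 1) (nat_lit 207) (nat_lit 174) (nat_lit 189)))) (PT.nd (nat_lit 156) (PT.nd (nat_lit 78) (PT.lf (nat_lit 32680) (nat_lit 6) (nat_lit 430) (nat_lit 1) (nat_lit 208) (nat_lit 174) (nat_lit 188)) (PT.lf (nat_lit 31160) (nat_lit 6) (nat_lit 410) (nat_lit 1) (nat_lit 209) (nat_lit 174) (nat_lit 187))) (PT.nd (nat_lit 78) (PT.lf (nat_lit 29564) (nat_lit 6) (nat_lit 389) (nat_lit 1) (nat_lit 210) (nat_lit 174) (nat_lit 186)) (PT.lf (nat_lit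 27892) (nat_lit 6) (nat_lit 367) (nat_lit 1) (nat_lit 211) (nat_lit 174) (nat_lit 185)))))) (PT.nd (nat_lit 57564) (PT.nd (nat_lit 57252) (PT.nd (nat_lit 57096) (PT.lf (nat_lit 26144) (nat_lit 6) (nat_lit 344) (nat_lit 1) (nat_lit 212) (nat_lit 174) (nat_lit 184)) (PT.nd (nat_lit 78) (PT.lf (nat_lit 26068) (nat_lit 6) (nat_lit 343) (nat_lit 3) (nat_lit 183) (nat_lit 175) (nat_lit 212)) (PT.lf (nat_lit 27816) (nat_lit 6) (nat_lit 366) (nat_lit 3) (nat_lit 184) (nat_lit 175) (nat_lit 211)))) (PT.nd (nat_lit 156) (PT.nd (nat_lit 78) (PT.lf (nat_lit 29488) (nat_lit 6) (nat_lit 388) (nat_lit 3) (nat_lit 185) (nat_lit 175) (nat_lit 210)) (PT.lf (nat_lit 31084) (nat_lit 6) (nat_lit 409) (nat_lit 3) (nat_lit 186) (nat_lit 175) (nat_lit 209))) (PT.nd (nat_lit 78) (PT.lf (nat_lit 32604) (nat_lit 6) (nat_lit 429) (nat_lit 3) (nat_lit 187) (nat_lit 175) (nat_lit 208)) (PT.lf (nat_lit 34048) (nat_lit 6) (nat_lit 448)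 (nat_lit 3) (nat_lit 188) (nat_lit 175) (nat_lit 207))))) (PT.nd (nat_lit 234) (PT.nd (nat_lit 78) (PT.lf (nat_lit 35416) (nat_lit 6) (nat_lit 466) (nat_lit 3) (nat_lit 189) (nat_lit 175) (nat_lit 206)) (PT.nd (nat_lit 78) (PT.lf (nat_lit 36708) (nat_lit 6) (nat_lit 483) (nat_lit 3) (nat_lit 190) (nat_lit 175) (nat_lit 205)) (PT.lf (nat_lit 36784) (nat_lit 6) (nat_lit 484) (nat_lit 3) (nat_lit 191) (nat_lit 175) (nat_lit 204)))) (PT.nd (nat_lit 156) (PT.nd (nat_lit 78) (PT.lf (nat_lit 36860) (nat_lit 6) (nat_lit 485) (nat_lit 3) (nat_lit 192) (nat_lit 175) (nat_lit 203)) (PT.lf (nat_lit 36936) (nat_lit 6) (nat_lit 486) (nat_lit 3) (nat_lit 193) (nat_lit 175) (nat_lit 202))) (PT.nd (nat_lit 78) (PT.lf (nat_lit 37012) (nat_lit 6) (nat_lit 487) (nat_lit 3) (nat_lit 194) (nat_lit 175) (nat_lit 201)) (PT.lf (nat_lit 37088) (nat_lit 6) (nat_lit 488) (nat_lit 3) (nat_lit 195) (nat_lit 175) (nat_lit 200)))))))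 (PT.nd (nat_lit 1014) (PT.nd (nat_lit 468) (PT.nd (nat_lit 234) (PT.nd (nat_lit 78) (PT.lf (nat_lit 37164) (nat_lit 6) (nat_lit 489) (nat_lit 3) (nat_lit 196) (nat_lit 175) (nat_lit 199)) (PT.nd (nat_lit 78) (PT.lf (nat_lit 37240) (nat_lit 6) (nat_lit 490) (nat_lit 3) (nat_lit 197) (nat_lit 175) (nat_lit 198)) (PT.lf (nat_lit 37240) (nat_lit 6) (nat_lit 490) (nat_lit 1) (nat_lit 198) (nat_lit 175) (nat_lit 197)))) (PT.nd (nat_lit 78) (PT.lf (nat_lit 37164) (nat_lit 6) (nat_lit 489) (nat_lit 1) (nat_lit 199) (nat_lit 175) (nat_lit 196)) (PT.nd (nat_lit 78) (PT.lf (nat_lit 37088) (nat_lit 6) (nat_lit 488) (nat_lit 1) (nat_lit 200) (nat_lit 175) (nat_lit 195)) (PT.lf (nat_lit 37012) (nat_lit 6) (nat_lit 487) (nat_lit 1) (nat_lit 201) (nat_lit 175) (nat_lit 194))))) (PT.nd (nat_lit 234) (PT.nd (nat_lit 78) (PT.lf (nat_lit 36936) (nat_lit 6) (nat_lit 486) (nat_lit 1) (nat_lit 202) (nat_lit 175) (nat_lit 193))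 (PT.nd (nat_lit 78) (PT.lf (nat_lit 36860) (nat_lit 6) (nat_lit 485) (nat_lit 1) (nat_lit 203) (nat_lit 175) (nat_lit 192)) (PT.lf (nat_lit 36784) (nat_lit 6) (nat_lit 484) (nat_lit 1) (nat_lit 204) (nat_lit 175) (nat_lit 191)))) (PT.nd (nat_lit 156) (PT.nd (nat_lit 78) (PT.lf (nat_lit 36708) (nat_lit 6) (nat_lit 483) (nat_lit 1) (nat_lit 205) (nat_lit 175) (nat_lit 190)) (PT.lf (nat_lit 35416) (nat_lit 6) (nat_lit 466) (nat_lit 1) (nat_lit 206) (nat_lit 175) (nat_lit 189))) (PT.nd (nat_lit 78) (PT.lf (nat_lit 34048) (nat_lit 6) (nat_lit 448) (nat_lit 1) (nat_lit 207) (nat_lit 175) (nat_lit 188)) (PT.lf (nat_lit 32604) (nat_lit 6) (nat_lit 429) (nat_lit 1) (nat_lit 208) (nat_lit 175) (nat_lit 187)))))) (PT.nd (nat_lit 57486) (PT.nd (nat_lit 234) (PT.nd (nat_lit 78) (PT.lf (nat_lit 31084) (nat_lit 6) (nat_lit 409) (nat_lit 1) (nat_lit 209) (nat_lit 175) (nat_lit 186)) (PT.nd (nat_lit 78) (PT.lf (nat_lit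 29488) (nat_lit 6) (nat_lit 388) (nat_lit 1) (nat_lit 210) (nat_lit 175) (nat_lit 185)) (PT.lf (nat_lit 27816) (nat_lit 6) (nat_lit 366) (nat_lit 1) (nat_lit 211) (nat_lit 175) (nat_lit 184)))) (PT.nd (nat_lit 57096) (PT.nd (nat_lit 57018) (PT.lf (nat_lit 26068) (nat_lit 6) (nat_lit 343) (nat_lit 1) (nat_lit 212) (nat_lit 175) (nat_lit 183)) (PT.lf (nat_lit 25992) (nat_lit 6) (nat_lit 342) (nat_lit 3) (nat_lit 182) (nat_lit 176) (nat_lit 212))) (PT.nd (nat_lit 78) (PT.lf (nat_lit 27740) (nat_lit 6) (nat_lit 365) (nat_lit 3) (nat_lit 183) (nat_lit 176) (nat_lit 211)) (PT.lf (nat_lit 29412) (nat_lit 6) (nat_lit 387) (nat_lit 3) (nat_lit 184) (nat_lit 176) (nat_lit 210))))) (PT.nd (nat_lit 234) (PT.nd (nat_lit 78) (PT.lf (nat_lit 31008) (nat_lit 6) (nat_lit 408) (nat_lit 3) (nat_lit 185) (nat_lit 176) (nat_lit 209)) (PT.nd (nat_lit 78) (PT.lf (nat_lit 32528) (nat_lit 6) (nat_lit 428) (nat_lit 3) (nat_lit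 186) (nat_lit 176) (nat_lit 208)) (PT.lf (nat_lit 33972) (nat_lit 6) (nat_lit 447) (nat_lit 3) (nat_lit 187) (nat_lit 176) (nat_lit 207)))) (PT.nd (nat_lit 156) (PT.nd (nat_lit 78) (PT.lf (nat_lit 35340) (nat_lit 6) (nat_lit 465) (nat_lit 3) (nat_lit 188) (nat_lit 176) (nat_lit 206)) (PT.lf (nat_lit 36632) (nat_lit 6) (nat_lit 482) (nat_lit 3) (nat_lit 189) (nat_lit 176) (nat_lit 205))) (PT.nd (nat_lit 78) (PT.lf (nat_lit 37848) (nat_lit 6) (nat_lit 498) (nat_lit 3) (nat_lit 190) (nat_lit 176) (nat_lit 204)) (PT.lf (nat_lit 37924) (nat_lit 6) (nat_lit 499) (nat_lit 3) (nat_lit 191) (nat_lit 176) (nat_lit 203))))))))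
noncomputable def pc16 : PT := (PT.nd (nat_lit 58890) (PT.nd (nat_lit 1014) (PT.nd (nat_lit 468) (PT.nd (nat_lit 234) (PT.nd (nat_lit 78) (PT.lf (nat_lit 38000) (nat_lit 6) (nat_lit 500) (nat_lit 3) (nat_lit 192) (nat_lit 176) (nat_lit 202)) (PT.nd (nat_lit 78) (PT.lf (nat_lit 38076) (nat_lit 6) (nat_lit 501) (nat_lit 3) (nat_lit 193) (nat_lit 176) (nat_lit 201)) (PT.lf (nat_lit 38152) (nat_lit 6) (nat_lit 502) (nat_lit 3) (nat_lit 194) (nat_lit 176) (nat_lit 200)))) (PT.nd (nat_lit 78) (PT.lf (nat_lit 38228) (nat_lit 6) (nat_lit 503) (nat_lit 3) (nat_lit 195) (nat_lit 176) (nat_lit 199)) (PT.nd (nat_lit 78) (PT.lf (nat_lit 38304) (nat_lit 6) (nat_lit 504) (nat_lit 3) (nat_lit 196) (nat_lit 176) (nat_lit 198)) (PT.lf (nat_lit 38380) (nat_lit 3) (nat_lit 505) (nat_lit 1) (nat_lit 197) (nat_lit 176) (nat_lit 197))))) (PT.nd (nat_lit 234) (PT.nd (nat_lit 78) (PT.lf (nat_lit 38304) (nat_lit 6) (nat_lit 504)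 (nat_lit 1) (nat_lit 198) (nat_lit 176) (nat_lit 196)) (PT.nd (nat_lit 78) (PT.lf (nat_lit 38228) (nat_lit 6) (nat_lit 503) (nat_lit 1) (nat_lit 199) (nat_lit 176) (nat_lit 195)) (PT.lf (nat_lit 38152) (nat_lit 6) (nat_lit 502) (nat_lit 1) (nat_lit 200) (nat_lit 176) (nat_lit 194)))) (PT.nd (nat_lit 156) (PT.nd (nat_lit 78) (PT.lf (nat_lit 38076) (nat_lit 6) (nat_lit 501) (nat_lit 1) (nat_lit 201) (nat_lit 176) (nat_lit 193)) (PT.lf (nat_lit 38000) (nat_lit 6) (nat_lit 500) (nat_lit 1) (nat_lit 202) (nat_lit 176) (nat_lit 192))) (PT.nd (nat_lit 78) (PT.lf (nat_lit 37924) (nat_lit 6) (nat_lit 499) (nat_lit 1) (nat_lit 203) (nat_lit 176) (nat_lit 191)) (PT.lf (nat_lit 37848) (nat_lit 6) (nat_lit 498) (nat_lit 1) (nat_lit 204) (nat_lit 176) (nat_lit 190)))))) (PT.nd (nat_lit 468) (PT.nd (nat_lit 234) (PT.nd (nat_lit 78) (PT.lf (nat_lit 36632) (nat_lit 6) (nat_lit 482) (nat_lit 1) (nat_lit 205) (nat_lit 176)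 (nat_lit 189)) (PT.nd (nat_lit 78) (PT.lf (nat_lit 35340) (nat_lit 6) (nat_lit 465) (nat_lit 1) (nat_lit 206) (nat_lit 176) (nat_lit 188)) (PT.lf (nat_lit 33972) (nat_lit 6) (nat_lit 447) (nat_lit 1) (nat_lit 207) (nat_lit 176) (nat_lit 187)))) (PT.nd (nat_lit 78) (PT.lf (nat_lit 32528) (nat_lit 6) (nat_lit 428) (nat_lit 1) (nat_lit 208) (nat_lit 176) (nat_lit 186)) (PT.nd (nat_lit 78) (PT.lf (nat_lit 31008) (nat_lit 6) (nat_lit 408) (nat_lit 1) (nat_lit 209) (nat_lit 176) (nat_lit 185)) (PT.lf (nat_lit 29412) (nat_lit 6) (nat_lit 387) (nat_lit 1) (nat_lit 210) (nat_lit 176) (nat_lit 184))))) (PT.nd (nat_lit 57096) (PT.nd (nat_lit 78) (PT.lf (nat_lit 27740) (nat_lit 6) (nat_lit 365) (nat_lit 1) (nat_lit 211) (nat_lit 176) (nat_lit 183)) (PT.nd (nat_lit 56940) (PT.lf (nat_lit 25992) (nat_lit 6) (nat_lit 342) (nat_lit 1) (nat_lit 212) (nat_lit 176) (nat_lit 182)) (PT.lf (nat_lit 25916) (nat_lit 6) (nat_lit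 341) (nat_lit 3) (nat_lit 181) (nat_lit 177) (nat_lit 212)))) (PT.nd (nat_lit 156) (PT.nd (nat_lit 78) (PT.lf (nat_lit 27664) (nat_lit 6) (nat_lit 364) (nat_lit 3) (nat_lit 182) (nat_lit 177) (nat_lit 211)) (PT.lf (nat_lit 29336) (nat_lit 6) (nat_lit 386) (nat_lit 3) (nat_lit 183) (nat_lit 177) (nat_lit 210))) (PT.nd (nat_lit 78) (PT.lf (nat_lit 30932) (nat_lit 6) (nat_lit 407) (nat_lit 3) (nat_lit 184) (nat_lit 177) (nat_lit 209)) (PT.lf (nat_lit 32452) (nat_lit 6) (nat_lit 427) (nat_lit 3) (nat_lit 185) (nat_lit 177) (nat_lit 208))))))) (PT.nd (nat_lit 1014) (PT.nd (nat_lit 468) (PT.nd (nat_lit 234) (PT.nd (nat_lit 78) (PT.lf (nat_lit 33896) (nat_lit 6) (nat_lit 446) (nat_lit 3) (nat_lit 186) (nat_lit 177) (nat_lit 207)) (PT.nd (nat_lit 78) (PT.lf (nat_lit 35264) (nat_lit 6) (nat_lit 464) (nat_lit 3) (nat_lit 187) (nat_lit 177) (nat_lit 206)) (PT.lf (nat_lit 36556) (nat_lit 6) (nat_lit 481) (nat_lit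 3) (nat_lit 188) (nat_lit 177) (nat_lit 205)))) (PT.nd (nat_lit 78) (PT.lf (nat_lit 37772) (nat_lit 6) (nat_lit 497) (nat_lit 3) (nat_lit 189) (nat_lit 177) (nat_lit 204)) (PT.nd (nat_lit 78) (PT.lf (nat_lit 38912) (nat_lit 6) (nat_lit 512) (nat_lit 3) (nat_lit 190) (nat_lit 177) (nat_lit 203)) (PT.lf (nat_lit 38988) (nat_lit 6) (nat_lit 513) (nat_lit 3) (nat_lit 191) (nat_lit 177) (nat_lit 202))))) (PT.nd (nat_lit 234) (PT.nd (nat_lit 78) (PT.lf (nat_lit 39064) (nat_lit 6) (nat_lit 514) (nat_lit 3) (nat_lit 192) (nat_lit 177) (nat_lit 201)) (PT.nd (nat_lit 78) (PT.lf (nat_lit 39140) (nat_lit 6) (nat_lit 515) (nat_lit 3) (nat_lit 193) (nat_lit 177) (nat_lit 200)) (PT.lf (nat_lit 39216) (nat_lit 6) (nat_lit 516) (nat_lit 3) (nat_lit 194) (nat_lit 177) (nat_lit 199)))) (PT.nd (nat_lit 156) (PT.nd (nat_lit 78) (PT.lf (nat_lit 39292) (nat_lit 6) (nat_lit 517) (nat_lit 3) (nat_lit 195) (nat_lit 177) (nat_lit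 198)) (PT.lf (nat_lit 39368) (nat_lit 6) (nat_lit 518) (nat_lit 3) (nat_lit 196) (nat_lit 177) (nat_lit 197))) (PT.nd (nat_lit 78) (PT.lf (nat_lit 39368) (nat_lit 6) (nat_lit 518) (nat_lit 1) (nat_lit 197) (nat_lit 177) (nat_lit 196)) (PT.lf (nat_lit 39292) (nat_lit 6) (nat_lit 517) (nat_lit 1) (nat_lit 198) (nat_lit 177) (nat_lit 195)))))) (PT.nd (nat_lit 546) (PT.nd (nat_lit 234) (PT.nd (nat_lit 78) (PT.lf (nat_lit 39216) (nat_lit 6) (nat_lit 516) (nat_lit 1) (nat_lit 199) (nat_lit 177) (nat_lit 194)) (PT.nd (nat_lit 78) (PT.lf (nat_lit 39140) (nat_lit 6) (nat_lit 515) (nat_lit 1) (nat_lit 200) (nat_lit 177) (nat_lit 193)) (PT.lf (nat_lit 39064) (nat_lit 6) (nat_lit 514) (nat_lit 1) (nat_lit 201) (nat_lit 177) (nat_lit 192)))) (PT.nd (nat_lit 156) (PT.nd (nat_lit 78) (PT.lf (nat_lit 38988) (nat_lit 6) (nat_lit 513) (nat_lit 1) (nat_lit 202) (nat_lit 177) (nat_lit 191)) (PT.lf (nat_lit 38912) (nat_lit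 6) (nat_lit 512) (nat_lit 1) (nat_lit 203) (nat_lit 177) (nat_lit 190))) (PT.nd (nat_lit 78) (PT.lf (nat_lit 37772) (nat_lit 6) (nat_lit 497) (nat_lit 1) (nat_lit 204) (nat_lit 177) (nat_lit 189)) (PT.lf (nat_lit 36556) (nat_lit 6) (nat_lit 481) (nat_lit 1) (nat_lit 205) (nat_lit 177) (nat_lit 188))))) (PT.nd (nat_lit 234) (PT.nd (nat_lit 78) (PT.lf (nat_lit 35264) (nat_lit 6) (nat_lit 464) (nat_lit 1) (nat_lit 206) (nat_lit 177) (nat_lit 187)) (PT.nd (nat_lit 78) (PT.lf (nat_lit 33896) (nat_lit 6) (nat_lit 446) (nat_lit 1) (nat_lit 207) (nat_lit 177) (nat_lit 186)) (PT.lf (nat_lit 32452) (nat_lit 6) (nat_lit 427) (nat_lit 1) (nat_lit 208) (nat_lit 177) (nat_lit 185)))) (PT.nd (nat_lit 156) (PT.nd (nat_lit 78) (PT.lf (nat_lit 30932) (nat_lit 6) (nat_lit 407) (nat_lit 1) (nat_lit 209) (nat_lit 177) (nat_lit 184)) (PT.lf (nat_lit 29336) (nat_lit 6) (nat_lit 386) (nat_lit 1) (nat_lit 210) (nat_lit 177) (nat_lit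 183))) (PT.nd (nat_lit 78) (PT.lf (nat_lit 27664) (nat_lit 6) (nat_lit 364) (nat_lit 1) (nat_lit 211) (nat_lit 177) (nat_lit 182)) (PT.lf (nat_lit 25916) (nat_lit 6) (nat_lit 341) (nat_lit 1) (nat_lit 212) (nat_lit 177) (nat_lit 181))))))))
noncomputable def pc17 : PT := (PT.nd (nat_lit 2028) (PT.nd (nat_lit 1014) (PT.nd (nat_lit 468) (PT.nd (nat_lit 234) (PT.nd (nat_lit 78) (PT.lf (nat_lit 25840) (nat_lit 6) (nat_lit 340) (nat_lit 3) (nat_lit 180) (nat_lit 178) (nat_lit 212)) (PT.nd (nat_lit 78) (PT.lf (nat_lit 27588) (nat_lit 6) (nat_lit 363) (nat_lit 3) (nat_lit 181) (nat_lit 178) (nat_lit 211)) (PT.lf (nat_lit 29260) (nat_lit 6) (nat_lit 385) (nat_lit 3) (nat_lit 182) (nat_lit 178) (nat_lit 210)))) (PT.nd (nat_lit 78) (PT.lf (nat_lit 30856) (nat_lit 6) (nat_lit 406) (nat_lit 3) (nat_lit 183) (nat_lit 178) (nat_lit 209)) (PT.nd (nat_lit 78) (PT.lf (nat_lit 32376) (nat_lit 6) (nat_lit 426) (nat_lit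 3) (nat_lit 184) (nat_lit 178) (nat_lit 208)) (PT.lf (nat_lit 33820) (nat_lit 6) (nat_lit 445) (nat_lit 3) (nat_lit 185) (nat_lit 178) (nat_lit 207))))) (PT.nd (nat_lit 234) (PT.nd (nat_lit 78) (PT.lf (nat_lit 35188) (nat_lit 6) (nat_lit 463) (nat_lit 3) (nat_lit 186) (nat_lit 178) (nat_lit 206)) (PT.nd (nat_lit 78) (PT.lf (nat_lit 36480) (nat_lit 6) (nat_lit 480) (nat_lit 3) (nat_lit 187) (nat_lit 178) (nat_lit 205)) (PT.lf (nat_lit 37696) (nat_lit 6) (nat_lit 496) (nat_lit 3) (nat_lit 188) (nat_lit 178) (nat_lit 204)))) (PT.nd (nat_lit 156) (PT.nd (nat_lit 78) (PT.lf (nat_lit 38836) (nat_lit 6) (nat_lit 511) (nat_lit 3) (nat_lit 189) (nat_lit 178) (nat_lit 203)) (PT.lf (nat_lit 39900) (nat_lit 6) (nat_lit 525) (nat_lit 3) (nat_lit 190) (nat_lit 178) (nat_lit 202))) (PT.nd (nat_lit 78) (PT.lf (nat_lit 39976) (nat_lit 6) (nat_lit 526) (nat_lit 3) (nat_lit 191) (nat_lit 178) (nat_lit 201)) (PT.lf (nat_lit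 40052) (nat_lit 6) (nat_lit 527) (nat_lit 3) (nat_lit 192) (nat_lit 178) (nat_lit 200)))))) (PT.nd (nat_lit 468) (PT.nd (nat_lit 234) (PT.nd (nat_lit 78) (PT.lf (nat_lit 40128) (nat_lit 6) (nat_lit 528) (nat_lit 3) (nat_lit 193) (nat_lit 178) (nat_lit 199)) (PT.nd (nat_lit 78) (PT.lf (nat_lit 40204) (nat_lit 6) (nat_lit 529) (nat_lit 3) (nat_lit 194) (nat_lit 178) (nat_lit 198)) (PT.lf (nat_lit 40280) (nat_lit 6) (nat_lit 530) (nat_lit 3) (nat_lit 195) (nat_lit 178) (nat_lit 197)))) (PT.nd (nat_lit 78) (PT.lf (nat_lit 40356) (nat_lit 3) (nat_lit 531) (nat_lit 1) (nat_lit 196) (nat_lit 178) (nat_lit 196)) (PT.nd (nat_lit 78) (PT.lf (nat_lit 40280) (nat_lit 6) (nat_lit 530) (nat_lit 1) (nat_lit 197) (nat_lit 178) (nat_lit 195)) (PT.lf (nat_lit 40204) (nat_lit 6) (nat_lit 529) (nat_lit 1) (nat_lit 198) (nat_lit 178) (nat_lit 194))))) (PT.nd (nat_lit 234) (PT.nd (nat_lit 78) (PT.lf (nat_lit 40128) (nat_lit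 6) (nat_lit 528) (nat_lit 1) (nat_lit 199) (nat_lit 178) (nat_lit 193)) (PT.nd (nat_lit 78) (PT.lf (nat_lit 40052) (nat_lit 6) (nat_lit 527) (nat_lit 1) (nat_lit 200) (nat_lit 178) (nat_lit 192)) (PT.lf (nat_lit 39976) (nat_lit 6) (nat_lit 526) (nat_lit 1) (nat_lit 201) (nat_lit 178) (nat_lit 191)))) (PT.nd (nat_lit 156) (PT.nd (nat_lit 78) (PT.lf (nat_lit 39900) (nat_lit 6) (nat_lit 525) (nat_lit 1) (nat_lit 202) (nat_lit 178) (nat_lit 190)) (PT.lf (nat_lit 38836) (nat_lit 6) (nat_lit 511) (nat_lit 1) (nat_lit 203) (nat_lit 178) (nat_lit 189))) (PT.nd (nat_lit 78) (PT.lf (nat_lit 37696) (nat_lit 6) (nat_lit 496) (nat_lit 1) (nat_lit 204) (nat_lit 178) (nat_lit 188)) (PT.lf (nat_lit 36480) (nat_lit 6) (nat_lit 480) (nat_lit 1) (nat_lit 205) (nat_lit 178) (nat_lit 187))))))) (PT.nd (nat_lit 57720) (PT.nd (nat_lit 468) (PT.nd (nat_lit 234) (PT.nd (nat_lit 78) (PT.lf (nat_lit 35188) (nat_lit 6) (nat_lit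 463) (nat_lit 1) (nat_lit 206) (nat_lit 178) (nat_lit 186)) (PT.nd (nat_lit 78) (PT.lf (nat_lit 33820) (nat_lit 6) (nat_lit 445) (nat_lit 1) (nat_lit 207) (nat_lit 178) (nat_lit 185)) (PT.lf (nat_lit 32376) (nat_lit 6) (nat_lit 426) (nat_lit 1) (nat_lit 208) (nat_lit 178) (nat_lit 184)))) (PT.nd (nat_lit 78) (PT.lf (nat_lit 30856) (nat_lit 6) (nat_lit 406) (nat_lit 1) (nat_lit 209) (nat_lit 178) (nat_lit 183)) (PT.nd (nat_lit 78) (PT.lf (nat_lit 29260) (nat_lit 6) (nat_lit 385) (nat_lit 1) (nat_lit 210) (nat_lit 178) (nat_lit 182)) (PT.lf (nat_lit 27588) (nat_lit 6) (nat_lit 363) (nat_lit 1) (nat_lit 211) (nat_lit 178) (nat_lit 181))))) (PT.nd (nat_lit 56940) (PT.nd (nat_lit 56784) (PT.lf (nat_lit 25840) (nat_lit 6) (nat_lit 340) (nat_lit 1) (nat_lit 212) (nat_lit 178) (nat_lit 180)) (PT.nd (nat_lit 78) (PT.lf (nat_lit 25764) (nat_lit 3) (nat_lit 339) (nat_lit 3) (nat_lit 179) (nat_lit 179) (nat_lit 212))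 (PT.lf (nat_lit 27512) (nat_lit 6) (nat_lit 362) (nat_lit 3) (nat_lit 180) (nat_lit 179) (nat_lit 211)))) (PT.nd (nat_lit 156) (PT.nd (nat_lit 78) (PT.lf (nat_lit 29184) (nat_lit 6) (nat_lit 384) (nat_lit 3) (nat_lit 181) (nat_lit 179) (nat_lit 210)) (PT.lf (nat_lit 30780) (nat_lit 6) (nat_lit 405) (nat_lit 3) (nat_lit 182) (nat_lit 179) (nat_lit 209))) (PT.nd (nat_lit 78) (PT.lf (nat_lit 32300) (nat_lit 6) (nat_lit 425) (nat_lit 3) (nat_lit 183) (nat_lit 179) (nat_lit 208)) (PT.lf (nat_lit 33744) (nat_lit 6) (nat_lit 444) (nat_lit 3) (nat_lit 184) (nat_lit 179) (nat_lit 207)))))) (PT.nd (nat_lit 546) (PT.nd (nat_lit 234) (PT.nd (nat_lit 78) (PT.lf (nat_lit 35112) (nat_lit 6) (nat_lit 462) (nat_lit 3) (nat_lit 185) (nat_lit 179) (nat_lit 206)) (PT.nd (nat_lit 78) (PT.lf (nat_lit 36404) (nat_lit 6) (nat_lit 479) (nat_lit 3) (nat_lit 186) (nat_lit 179) (nat_lit 205)) (PT.lf (nat_lit 37620) (nat_lit 6) (nat_lit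 495) (nat_lit 3) (nat_lit 187) (nat_lit 179) (nat_lit 204)))) (PT.nd (nat_lit 156) (PT.nd (nat_lit 78) (PT.lf (nat_lit 38760) (nat_lit 6) (nat_lit 510) (nat_lit 3) (nat_lit 188) (nat_lit 179) (nat_lit 203)) (PT.lf (nat_lit 39824) (nat_lit 6) (nat_lit 524) (nat_lit 3) (nat_lit 189) (nat_lit 179) (nat_lit 202))) (PT.nd (nat_lit 78) (PT.lf (nat_lit 40812) (nat_lit 6) (nat_lit 537) (nat_lit 3) (nat_lit 190) (nat_lit 179) (nat_lit 201)) (PT.lf (nat_lit 40888) (nat_lit 6) (nat_lit 538) (nat_lit 3) (nat_lit 191) (nat_lit 179) (nat_lit 200))))) (PT.nd (nat_lit 234) (PT.nd (nat_lit 78) (PT.lf (nat_lit 40964) (nat_lit 6) (nat_lit 539) (nat_lit 3) (nat_lit 192) (nat_lit 179) (nat_lit 199)) (PT.nd (nat_lit 78) (PT.lf (nat_lit 41040) (nat_lit 6) (nat_lit 540) (nat_lit 3) (nat_lit 193) (nat_lit 179) (nat_lit 198)) (PT.lf (nat_lit 41116) (nat_lit 6) (nat_lit 541) (nat_lit 3) (nat_lit 194) (nat_lit 179) (nat_lit 197))))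 (PT.nd (nat_lit 156) (PT.nd (nat_lit 78) (PT.lf (nat_lit 41192) (nat_lit 6) (nat_lit 542) (nat_lit 3) (nat_lit 195) (nat_lit 179) (nat_lit 196)) (PT.lf (nat_lit 41192) (nat_lit 6) (nat_lit 542) (nat_lit 1) (nat_lit 196) (nat_lit 179) (nat_lit 195))) (PT.nd (nat_lit 78) (PT.lf (nat_lit 41116) (nat_lit 6) (nat_lit 541) (nat_lit 1) (nat_lit 197) (nat_lit 179) (nat_lit 194)) (PT.lf (nat_lit 41040) (nat_lit 6) (nat_lit 540) (nat_lit 1) (nat_lit 198) (nat_lit 179) (nat_lit 193))))))))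
noncomputable def pc18 : PT := (PT.nd (nat_lit 58656) (PT.nd (nat_lit 1014) (PT.nd (nat_lit 468) (PT.nd (nat_lit 234) (PT.nd (nat_lit 78) (PT.lf (nat_lit 40964) (nat_lit 6) (nat_lit 539) (nat_lit 1) (nat_lit 199) (nat_lit 179) (nat_lit 192)) (PT.nd (nat_lit 78) (PT.lf (nat_lit 40888) (nat_lit 6) (nat_lit 538) (nat_lit 1) (nat_lit 200) (nat_lit 179) (nat_lit 191)) (PT.lf (nat_lit 40812) (nat_lit 6) (nat_lit 537) (nat_lit 1) (nat_lit 201) (nat_lit 179) (nat_lit 190)))) (PT.nd (nat_lit 78) (PT.lf (nat_lit 39824) (nat_lit 6) (nat_lit 524) (nat_lit 1) (nat_lit 202) (nat_lit 179) (nat_lit 189)) (PT.nd (nat_lit 78) (PT.lf (nat_lit 38760) (nat_lit 6) (nat_lit 510) (nat_lit 1) (nat_lit 203) (nat_lit 179) (nat_lit 188)) (PT.lf (nat_lit 37620) (nat_lit 6) (nat_lit 495) (nat_lit 1) (nat_lit 204) (nat_lit 179) (nat_lit 187))))) (PT.nd (nat_lit 234) (PT.nd (nat_lit 78) (PT.lf (nat_lit 36404) (nat_lit 6) (nat_lit 479)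 (nat_lit 1) (nat_lit 205) (nat_lit 179) (nat_lit 186)) (PT.nd (nat_lit 78) (PT.lf (nat_lit 35112) (nat_lit 6) (nat_lit 462) (nat_lit 1) (nat_lit 206) (nat_lit 179) (nat_lit 185)) (PT.lf (nat_lit 33744) (nat_lit 6) (nat_lit 444) (nat_lit 1) (nat_lit 207) (nat_lit 179) (nat_lit 184)))) (PT.nd (nat_lit 156) (PT.nd (nat_lit 78) (PT.lf (nat_lit 32300) (nat_lit 6) (nat_lit 425) (nat_lit 1) (nat_lit 208) (nat_lit 179) (nat_lit 183)) (PT.lf (nat_lit 30780) (nat_lit 6) (nat_lit 405) (nat_lit 1) (nat_lit 209) (nat_lit 179) (nat_lit 182))) (PT.nd (nat_lit 78) (PT.lf (nat_lit 29184) (nat_lit 6) (nat_lit 384) (nat_lit 1) (nat_lit 210) (nat_lit 179) (nat_lit 181)) (PT.lf (nat_lit 27512) (nat_lit 6) (nat_lit 362) (nat_lit 1) (nat_lit 211) (nat_lit 179) (nat_lit 180)))))) (PT.nd (nat_lit 57096) (PT.nd (nat_lit 56862) (PT.nd (nat_lit 56706) (PT.lf (nat_lit 25764) (nat_lit 3) (nat_lit 339) (nat_lit 0) (nat_lit 212) (nat_lit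 179) (nat_lit 179)) (PT.nd (nat_lit 78) (PT.lf (nat_lit 25840) (nat_lit 6) (nat_lit 340) (nat_lit 5) (nat_lit 178) (nat_lit 180) (nat_lit 212)) (PT.lf (nat_lit 27512) (nat_lit 6) (nat_lit 362) (nat_lit 5) (nat_lit 179) (nat_lit 180) (nat_lit 211)))) (PT.nd (nat_lit 78) (PT.lf (nat_lit 29108) (nat_lit 3) (nat_lit 383) (nat_lit 3) (nat_lit 180) (nat_lit 180) (nat_lit 210)) (PT.nd (nat_lit 78) (PT.lf (nat_lit 30704) (nat_lit 6) (nat_lit 404) (nat_lit 3) (nat_lit 181) (nat_lit 180) (nat_lit 209)) (PT.lf (nat_lit 32224) (nat_lit 6) (nat_lit 424) (nat_lit 3) (nat_lit 182) (nat_lit 180) (nat_lit 208))))) (PT.nd (nat_lit 234) (PT.nd (nat_lit 78) (PT.lf (nat_lit 33668) (nat_lit 6) (nat_lit 443) (nat_lit 3) (nat_lit 183) (nat_lit 180) (nat_lit 207)) (PT.nd (nat_lit 78) (PT.lf (nat_lit 35036) (nat_lit 6) (nat_lit 461) (nat_lit 3) (nat_lit 184) (nat_lit 180) (nat_lit 206)) (PT.lf (nat_lit 36328) (nat_lit 6) (nat_lit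 478) (nat_lit 3) (nat_lit 185) (nat_lit 180) (nat_lit 205)))) (PT.nd (nat_lit 156) (PT.nd (nat_lit 78) (PT.lf (nat_lit 37544) (nat_lit 6) (nat_lit 494) (nat_lit 3) (nat_lit 186) (nat_lit 180) (nat_lit 204)) (PT.lf (nat_lit 38684) (nat_lit 6) (nat_lit 509) (nat_lit 3) (nat_lit 187) (nat_lit 180) (nat_lit 203))) (PT.nd (nat_lit 78) (PT.lf (nat_lit 39748) (nat_lit 6) (nat_lit 523) (nat_lit 3) (nat_lit 188) (nat_lit 180) (nat_lit 202)) (PT.lf (nat_lit 40736) (nat_lit 6) (nat_lit 536) (nat_lit 3) (nat_lit 189) (nat_lit 180) (nat_lit 201))))))) (PT.nd (nat_lit 1014) (PT.nd (nat_lit 468) (PT.nd (nat_lit 234) (PT.nd (nat_lit 78) (PT.lf (nat_lit 41648) (nat_lit 6) (nat_lit 548) (nat_lit 3) (nat_lit 190) (nat_lit 180) (nat_lit 200)) (PT.nd (nat_lit 78) (PT.lf (nat_lit 41724) (nat_lit 6) (nat_lit 549) (nat_lit 3) (nat_lit 191) (nat_lit 180) (nat_lit 199)) (PT.lf (nat_lit 41800) (nat_lit 6) (nat_lit 550) (nat_lit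 3) (nat_lit 192) (nat_lit 180) (nat_lit 198)))) (PT.nd (nat_lit 78) (PT.lf (nat_lit 41876) (nat_lit 6) (nat_lit 551) (nat_lit 3) (nat_lit 193) (nat_lit 180) (nat_lit 197)) (PT.nd (nat_lit 78) (PT.lf (nat_lit 41952) (nat_lit 6) (nat_lit 552) (nat_lit 3) (nat_lit 194) (nat_lit 180) (nat_lit 196)) (PT.lf (nat_lit 42028) (nat_lit 3) (nat_lit 553) (nat_lit 1) (nat_lit 195) (nat_lit 180) (nat_lit 195))))) (PT.nd (nat_lit 234) (PT.nd (nat_lit 78) (PT.lf (nat_lit 41952) (nat_lit 6) (nat_lit 552) (nat_lit 1) (nat_lit 196) (nat_lit 180) (nat_lit 194)) (PT.nd (nat_lit 78) (PT.lf (nat_lit 41876) (nat_lit 6) (nat_lit 551) (nat_lit 1) (nat_lit 197) (nat_lit 180) (nat_lit 193)) (PT.lf (nat_lit 41800) (nat_lit 6) (nat_lit 550) (nat_lit 1) (nat_lit 198) (nat_lit 180) (nat_lit 192)))) (PT.nd (nat_lit 156) (PT.nd (nat_lit 78) (PT.lf (nat_lit 41724) (nat_lit 6) (nat_lit 549) (nat_lit 1) (nat_lit 199) (nat_lit 180) (nat_lit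 191)) (PT.lf (nat_lit 41648) (nat_lit 6) (nat_lit 548) (nat_lit 1) (nat_lit 200) (nat_lit 180) (nat_lit 190))) (PT.nd (nat_lit 78) (PT.lf (nat_lit 40736) (nat_lit 6) (nat_lit 536) (nat_lit 1) (nat_lit 201) (nat_lit 180) (nat_lit 189)) (PT.lf (nat_lit 39748) (nat_lit 6) (nat_lit 523) (nat_lit 1) (nat_lit 202) (nat_lit 180) (nat_lit 188)))))) (PT.nd (nat_lit 546) (PT.nd (nat_lit 234) (PT.nd (nat_lit 78) (PT.lf (nat_lit 38684) (nat_lit 6) (nat_lit 509) (nat_lit 1) (nat_lit 203) (nat_lit 180) (nat_lit 187)) (PT.nd (nat_lit 78) (PT.lf (nat_lit 37544) (nat_lit 6) (nat_lit 494) (nat_lit 1) (nat_lit 204) (nat_lit 180) (nat_lit 186)) (PT.lf (nat_lit 36328) (nat_lit 6) (nat_lit 478) (nat_lit 1) (nat_lit 205) (nat_lit 180) (nat_lit 185)))) (PT.nd (nat_lit 156) (PT.nd (nat_lit 78) (PT.lf (nat_lit 35036) (nat_lit 6) (nat_lit 461) (nat_lit 1) (nat_lit 206) (nat_lit 180) (nat_lit 184)) (PT.lf (nat_lit 33668) (nat_lit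 6) (nat_lit 443) (nat_lit 1) (nat_lit 207) (nat_lit 180) (nat_lit 183))) (PT.nd (nat_lit 78) (PT.lf (nat_lit 32224) (nat_lit 6) (nat_lit 424) (nat_lit 1) (nat_lit 208) (nat_lit 180) (nat_lit 182)) (PT.lf (nat_lit 30704) (nat_lit 6) (nat_lit 404) (nat_lit 1) (nat_lit 209) (nat_lit 180) (nat_lit 181))))) (PT.nd (nat_lit 56784) (PT.nd (nat_lit 78) (PT.lf (nat_lit 29108) (nat_lit 3) (nat_lit 383) (nat_lit 0) (nat_lit 210) (nat_lit 180) (nat_lit 180)) (PT.nd (nat_lit 78) (PT.lf (nat_lit 27512) (nat_lit 6) (nat_lit 362) (nat_lit 0) (nat_lit 211) (nat_lit 180) (nat_lit 179)) (PT.lf (nat_lit 25840) (nat_lit 6) (nat_lit 340) (nat_lit 0) (nat_lit 212) (nat_lit 180) (nat_lit 178)))) (PT.nd (nat_lit 156) (PT.nd (nat_lit 78) (PT.lf (nat_lit 25916) (nat_lit 6) (nat_lit 341) (nat_lit 5) (nat_lit 177) (nat_lit 181) (nat_lit 212)) (PT.lf (nat_lit 27588) (nat_lit 6) (nat_lit 363) (nat_lit 5) (nat_lit 178) (nat_lit 181)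 (nat_lit 211))) (PT.nd (nat_lit 78) (PT.lf (nat_lit 29184) (nat_lit 6) (nat_lit 384) (nat_lit 5) (nat_lit 179) (nat_lit 181) (nat_lit 210)) (PT.lf (nat_lit 30704) (nat_lit 6) (nat_lit 404) (nat_lit 5) (nat_lit 180) (nat_lit 181) (nat_lit 209))))))))
noncomputable def pc19 : PT := (PT.nd (nat_lit 2106) (PT.nd (nat_lit 1014) (PT.nd (nat_lit 468) (PT.nd (nat_lit 234) (PT.nd (nat_lit 78) (PT.lf (nat_lit 32148) (nat_lit 3) (nat_lit 423) (nat_lit 3) (nat_lit 181) (nat_lit 181) (nat_lit 208)) (PT.nd (nat_lit 78) (PT.lf (nat_lit 33592) (nat_lit 6) (nat_lit 442) (nat_lit 3) (nat_lit 182) (nat_lit 181) (nat_lit 207)) (PT.lf (nat_lit 34960) (nat_lit 6) (nat_lit 460) (nat_lit 3) (nat_lit 183) (nat_lit 181) (nat_lit 206)))) (PT.nd (nat_lit 78) (PT.lf (nat_lit 36252) (nat_lit 6) (nat_lit 477) (nat_lit 3) (nat_lit 184) (nat_lit 181) (nat_lit 205)) (PT.nd (nat_lit 78) (PT.lf (nat_lit 37468) (nat_lit 6) (nat_lit 493)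 (nat_lit 3) (nat_lit 185) (nat_lit 181) (nat_lit 204)) (PT.lf (nat_lit 38608) (nat_lit 6) (nat_lit 508) (nat_lit 3) (nat_lit 186) (nat_lit 181) (nat_lit 203))))) (PT.nd (nat_lit 234) (PT.nd (nat_lit 78) (PT.lf (nat_lit 39672) (nat_lit 6) (nat_lit 522) (nat_lit 3) (nat_lit 187) (nat_lit 181) (nat_lit 202)) (PT.nd (nat_lit 78) (PT.lf (nat_lit 40660) (nat_lit 6) (nat_lit 535) (nat_lit 3) (nat_lit 188) (nat_lit 181) (nat_lit 201)) (PT.lf (nat_lit 41572) (nat_lit 6) (nat_lit 547) (nat_lit 3) (nat_lit 189) (nat_lit 181) (nat_lit 200)))) (PT.nd (nat_lit 156) (PT.nd (nat_lit 78) (PT.lf (nat_lit 42408) (nat_lit 6) (nat_lit 558) (nat_lit 3) (nat_lit 190) (nat_lit 181) (nat_lit 199)) (PT.lf (nat_lit 42484) (nat_lit 6) (nat_lit 559) (nat_lit 3) (nat_lit 191) (nat_lit 181) (nat_lit 198))) (PT.nd (nat_lit 78) (PT.lf (nat_lit 42560) (nat_lit 6) (nat_lit 560) (nat_lit 3) (nat_lit 192) (nat_lit 181) (nat_lit 197)) (PT.lf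 (nat_lit 42636) (nat_lit 6) (nat_lit 561) (nat_lit 3) (nat_lit 193) (nat_lit 181) (nat_lit 196)))))) (PT.nd (nat_lit 546) (PT.nd (nat_lit 234) (PT.nd (nat_lit 78) (PT.lf (nat_lit 42712) (nat_lit 6) (nat_lit 562) (nat_lit 3) (nat_lit 194) (nat_lit 181) (nat_lit 195)) (PT.nd (nat_lit 78) (PT.lf (nat_lit 42712) (nat_lit 6) (nat_lit 562) (nat_lit 1) (nat_lit 195) (nat_lit 181) (nat_lit 194)) (PT.lf (nat_lit 42636) (nat_lit 6) (nat_lit 561) (nat_lit 1) (nat_lit 196) (nat_lit 181) (nat_lit 193)))) (PT.nd (nat_lit 156) (PT.nd (nat_lit 78) (PT.lf (nat_lit 42560) (nat_lit 6) (nat_lit 560) (nat_lit 1) (nat_lit 197) (nat_lit 181) (nat_lit 192)) (PT.lf (nat_lit 42484) (nat_lit 6) (nat_lit 559) (nat_lit 1) (nat_lit 198) (nat_lit 181) (nat_lit 191))) (PT.nd (nat_lit 78) (PT.lf (nat_lit 42408) (nat_lit 6) (nat_lit 558) (nat_lit 1) (nat_lit 199) (nat_lit 181) (nat_lit 190)) (PT.lf (nat_lit 41572) (nat_lit 6) (nat_lit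 547) (nat_lit 1) (nat_lit 200) (nat_lit 181) (nat_lit 189))))) (PT.nd (nat_lit 234) (PT.nd (nat_lit 78) (PT.lf (nat_lit 40660) (nat_lit 6) (nat_lit 535) (nat_lit 1) (nat_lit 201) (nat_lit 181) (nat_lit 188)) (PT.nd (nat_lit 78) (PT.lf (nat_lit 39672) (nat_lit 6) (nat_lit 522) (nat_lit 1) (nat_lit 202) (nat_lit 181) (nat_lit 187)) (PT.lf (nat_lit 38608) (nat_lit 6) (nat_lit 508) (nat_lit 1) (nat_lit 203) (nat_lit 181) (nat_lit 186)))) (PT.nd (nat_lit 156) (PT.nd (nat_lit 78) (PT.lf (nat_lit 37468) (nat_lit 6) (nat_lit 493) (nat_lit 1) (nat_lit 204) (nat_lit 181) (nat_lit 185)) (PT.lf (nat_lit 36252) (nat_lit 6) (nat_lit 477) (nat_lit 1) (nat_lit 205) (nat_lit 181) (nat_lit 184))) (PT.nd (nat_lit 78) (PT.lf (nat_lit 34960) (nat_lit 6) (nat_lit 460) (nat_lit 1) (nat_lit 206) (nat_lit 181) (nat_lit 183)) (PT.lf (nat_lit 33592) (nat_lit 6) (nat_lit 442) (nat_lit 1) (nat_lit 207) (nat_lit 181) (nat_lit 182)))))))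 (PT.nd (nat_lit 57486) (PT.nd (nat_lit 56940) (PT.nd (nat_lit 234) (PT.nd (nat_lit 78) (PT.lf (nat_lit 32148) (nat_lit 3) (nat_lit 423) (nat_lit 0) (nat_lit 208) (nat_lit 181) (nat_lit 181)) (PT.nd (nat_lit 78) (PT.lf (nat_lit 30704) (nat_lit 6) (nat_lit 404) (nat_lit 0) (nat_lit 209) (nat_lit 181) (nat_lit 180)) (PT.lf (nat_lit 29184) (nat_lit 6) (nat_lit 384) (nat_lit 0) (nat_lit 210) (nat_lit 181) (nat_lit 179)))) (PT.nd (nat_lit 78) (PT.lf (nat_lit 27588) (nat_lit 6) (nat_lit 363) (nat_lit 0) (nat_lit 211) (nat_lit 181) (nat_lit 178)) (PT.nd (nat_lit 56550) (PT.lf (nat_lit 25916) (nat_lit 6) (nat_lit 341) (nat_lit 0) (nat_lit 212) (nat_lit 181) (nat_lit 177)) (PT.lf (nat_lit 25992) (nat_lit 6) (nat_lit 342) (nat_lit 5) (nat_lit 176) (nat_lit 182) (nat_lit 212))))) (PT.nd (nat_lit 234) (PT.nd (nat_lit 78) (PT.lf (nat_lit 27664) (nat_lit 6) (nat_lit 364) (nat_lit 5) (nat_lit 177) (nat_lit 182) (nat_lit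 211)) (PT.nd (nat_lit 78) (PT.lf (nat_lit 29260) (nat_lit 6) (nat_lit 385) (nat_lit 5) (nat_lit 178) (nat_lit 182) (nat_lit 210)) (PT.lf (nat_lit 30780) (nat_lit 6) (nat_lit 405) (nat_lit 5) (nat_lit 179) (nat_lit 182) (nat_lit 209)))) (PT.nd (nat_lit 156) (PT.nd (nat_lit 78) (PT.lf (nat_lit 32224) (nat_lit 6) (nat_lit 424) (nat_lit 5) (nat_lit 180) (nat_lit 182) (nat_lit 208)) (PT.lf (nat_lit 33592) (nat_lit 6) (nat_lit 442) (nat_lit 5) (nat_lit 181) (nat_lit 182) (nat_lit 207))) (PT.nd (nat_lit 78) (PT.lf (nat_lit 34884) (nat_lit 3) (nat_lit 459) (nat_lit 3) (nat_lit 182) (nat_lit 182) (nat_lit 206)) (PT.lf (nat_lit 36176) (nat_lit 6) (nat_lit 476) (nat_lit 3) (nat_lit 183) (nat_lit 182) (nat_lit 205)))))) (PT.nd (nat_lit 546) (PT.nd (nat_lit 234) (PT.nd (nat_lit 78) (PT.lf (nat_lit 37392) (nat_lit 6) (nat_lit 492) (nat_lit 3) (nat_lit 184) (nat_lit 182) (nat_lit 204)) (PT.nd (nat_lit 78) (PT.lf (nat_lit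 38532) (nat_lit 6) (nat_lit 507) (nat_lit 3) (nat_lit 185) (nat_lit 182) (nat_lit 203)) (PT.lf (nat_lit 39596) (nat_lit 6) (nat_lit 521) (nat_lit 3) (nat_lit 186) (nat_lit 182) (nat_lit 202)))) (PT.nd (nat_lit 156) (PT.nd (nat_lit 78) (PT.lf (nat_lit 40584) (nat_lit 6) (nat_lit 534) (nat_lit 3) (nat_lit 187) (nat_lit 182) (nat_lit 201)) (PT.lf (nat_lit 41496) (nat_lit 6) (nat_lit 546) (nat_lit 3) (nat_lit 188) (nat_lit 182) (nat_lit 200))) (PT.nd (nat_lit 78) (PT.lf (nat_lit 42332) (nat_lit 6) (nat_lit 557) (nat_lit 3) (nat_lit 189) (nat_lit 182) (nat_lit 199)) (PT.lf (nat_lit 43092) (nat_lit 6) (nat_lit 567) (nat_lit 3) (nat_lit 190) (nat_lit 182) (nat_lit 198))))) (PT.nd (nat_lit 234) (PT.nd (nat_lit 78) (PT.lf (nat_lit 43168) (nat_lit 6) (nat_lit 568) (nat_lit 3) (nat_lit 191) (nat_lit 182) (nat_lit 197)) (PT.nd (nat_lit 78) (PT.lf (nat_lit 43244) (nat_lit 6) (nat_lit 569) (nat_lit 3) (nat_lit 192)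 (nat_lit 182) (nat_lit 196)) (PT.lf (nat_lit 43320) (nat_lit 6) (nat_lit 570) (nat_lit 3) (nat_lit 193) (nat_lit 182) (nat_lit 195)))) (PT.nd (nat_lit 156) (PT.nd (nat_lit 78) (PT.lf (nat_lit 43396) (nat_lit 3) (nat_lit 571) (nat_lit 1) (nat_lit 194) (nat_lit 182) (nat_lit 194)) (PT.lf (nat_lit 43320) (nat_lit 6) (nat_lit 570) (nat_lit 1) (nat_lit 195) (nat_lit 182) (nat_lit 193))) (PT.nd (nat_lit 78) (PT.lf (nat_lit 43244) (nat_lit 6) (nat_lit 569) (nat_lit 1) (nat_lit 196) (nat_lit 182) (nat_lit 192)) (PT.lf (nat_lit 43168) (nat_lit 6) (nat_lit 568) (nat_lit 1) (nat_lit 197) (nat_lit 182) (nat_lit 191))))))))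
noncomputable def pc20 : PT := (PT.nd (nat_lit 58422) (PT.nd (nat_lit 1014) (PT.nd (nat_lit 468) (PT.nd (nat_lit 234) (PT.nd (nat_lit 78) (PT.lf (nat_lit 43092) (nat_lit 6) (nat_lit 567) (nat_lit 1) (nat_lit 198) (nat_lit 182) (nat_lit 190)) (PT.nd (nat_lit 78) (PT.lf (nat_lit 42332) (nat_lit 6) (nat_lit 557) (nat_lit 1) (nat_lit 199) (nat_lit 182) (nat_lit 189)) (PT.lf (nat_lit 41496) (nat_lit 6) (nat_lit 546) (nat_lit 1) (nat_lit 200) (nat_lit 182) (nat_lit 188)))) (PT.nd (nat_lit 78) (PT.lf (nat_lit 40584) (nat_lit 6) (nat_lit 534) (nat_lit 1) (nat_lit 201) (nat_lit 182) (nat_lit 187)) (PT.nd (nat_lit 78) (PT.lf (nat_lit 39596) (nat_lit 6) (nat_lit 521) (nat_lit 1) (nat_lit 202) (nat_lit 182) (nat_lit 186)) (PT.lf (nat_lit 38532) (nat_lit 6) (nat_lit 507) (nat_lit 1) (nat_lit 203) (nat_lit 182) (nat_lit 185))))) (PT.nd (nat_lit 234) (PT.nd (nat_lit 78) (PT.lf (nat_lit 37392) (nat_lit 6) (nat_lit 492)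 (nat_lit 1) (nat_lit 204) (nat_lit 182) (nat_lit 184)) (PT.nd (nat_lit 78) (PT.lf (nat_lit 36176) (nat_lit 6) (nat_lit 476) (nat_lit 1) (nat_lit 205) (nat_lit 182) (nat_lit 183)) (PT.lf (nat_lit 34884) (nat_lit 3) (nat_lit 459) (nat_lit 0) (nat_lit 206) (nat_lit 182) (nat_lit 182)))) (PT.nd (nat_lit 156) (PT.nd (nat_lit 78) (PT.lf (nat_lit 33592) (nat_lit 6) (nat_lit 442) (nat_lit 0) (nat_lit 207) (nat_lit 182) (nat_lit 181)) (PT.lf (nat_lit 32224) (nat_lit 6) (nat_lit 424) (nat_lit 0) (nat_lit 208) (nat_lit 182) (nat_lit 180))) (PT.nd (nat_lit 78) (PT.lf (nat_lit 30780) (nat_lit 6) (nat_lit 405) (nat_lit 0) (nat_lit 209) (nat_lit 182) (nat_lit 179)) (PT.lf (nat_lit 29260) (nat_lit 6) (nat_lit 385) (nat_lit 0) (nat_lit 210) (nat_lit 182) (nat_lit 178)))))) (PT.nd (nat_lit 56862) (PT.nd (nat_lit 56628) (PT.nd (nat_lit 78) (PT.lf (nat_lit 27664) (nat_lit 6) (nat_lit 364) (nat_lit 0) (nat_lit 211) (nat_lit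 182) (nat_lit 177)) (PT.nd (nat_lit 56472) (PT.lf (nat_lit 25992) (nat_lit 6) (nat_lit 342) (nat_lit 0) (nat_lit 212) (nat_lit 182) (nat_lit 176)) (PT.lf (nat_lit 26068) (nat_lit 6) (nat_lit 343) (nat_lit 5) (nat_lit 175) (nat_lit 183) (nat_lit 212)))) (PT.nd (nat_lit 78) (PT.lf (nat_lit 27740) (nat_lit 6) (nat_lit 365) (nat_lit 5) (nat_lit 176) (nat_lit 183) (nat_lit 211)) (PT.nd (nat_lit 78) (PT.lf (nat_lit 29336) (nat_lit 6) (nat_lit 386) (nat_lit 5) (nat_lit 177) (nat_lit 183) (nat_lit 210)) (PT.lf (nat_lit 30856) (nat_lit 6) (nat_lit 406) (nat_lit 5) (nat_lit 178) (nat_lit 183) (nat_lit 209))))) (PT.nd (nat_lit 234) (PT.nd (nat_lit 78) (PT.lf (nat_lit 32300) (nat_lit 6) (nat_lit 425) (nat_lit 5) (nat_lit 179) (nat_lit 183) (nat_lit 208)) (PT.nd (nat_lit 78) (PT.lf (nat_lit 33668) (nat_lit 6) (nat_lit 443) (nat_lit 5) (nat_lit 180) (nat_lit 183) (nat_lit 207)) (PT.lf (nat_lit 34960) (nat_lit 6) (nat_lit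 460) (nat_lit 5) (nat_lit 181) (nat_lit 183) (nat_lit 206)))) (PT.nd (nat_lit 156) (PT.nd (nat_lit 78) (PT.lf (nat_lit 36176) (nat_lit 6) (nat_lit 476) (nat_lit 5) (nat_lit 182) (nat_lit 183) (nat_lit 205)) (PT.lf (nat_lit 37316) (nat_lit 3) (nat_lit 491) (nat_lit 3) (nat_lit 183) (nat_lit 183) (nat_lit 204))) (PT.nd (nat_lit 78) (PT.lf (nat_lit 38456) (nat_lit 6) (nat_lit 506) (nat_lit 3) (nat_lit 184) (nat_lit 183) (nat_lit 203)) (PT.lf (nat_lit 39520) (nat_lit 6) (nat_lit 520) (nat_lit 3) (nat_lit 185) (nat_lit 183) (nat_lit 202))))))) (PT.nd (nat_lit 1014) (PT.nd (nat_lit 468) (PT.nd (nat_lit 234) (PT.nd (nat_lit 78) (PT.lf (nat_lit 40508) (nat_lit 6) (nat_lit 533) (nat_lit 3) (nat_lit 186) (nat_lit 183) (nat_lit 201)) (PT.nd (nat_lit 78) (PT.lf (nat_lit 41420) (nat_lit 6) (nat_lit 545) (nat_lit 3) (nat_lit 187) (nat_lit 183) (nat_lit 200)) (PT.lf (nat_lit 42256) (nat_lit 6) (nat_lit 556) (nat_lit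 3) (nat_lit 188) (nat_lit 183) (nat_lit 199)))) (PT.nd (nat_lit 78) (PT.lf (nat_lit 43016) (nat_lit 6) (nat_lit 566) (nat_lit 3) (nat_lit 189) (nat_lit 183) (nat_lit 198)) (PT.nd (nat_lit 78) (PT.lf (nat_lit 43700) (nat_lit 6) (nat_lit 575) (nat_lit 3) (nat_lit 190) (nat_lit 183) (nat_lit 197)) (PT.lf (nat_lit 43776) (nat_lit 6) (nat_lit 576) (nat_lit 3) (nat_lit 191) (nat_lit 183) (nat_lit 196))))) (PT.nd (nat_lit 234) (PT.nd (nat_lit 78) (PT.lf (nat_lit 43852) (nat_lit 6) (nat_lit 577) (nat_lit 3) (nat_lit 192) (nat_lit 183) (nat_lit 195)) (PT.nd (nat_lit 78) (PT.lf (nat_lit 43928) (nat_lit 6) (nat_lit 578) (nat_lit 3) (nat_lit 193) (nat_lit 183) (nat_lit 194)) (PT.lf (nat_lit 43928) (nat_lit 6) (nat_lit 578) (nat_lit 1) (nat_lit 194) (nat_lit 183) (nat_lit 193)))) (PT.nd (nat_lit 156) (PT.nd (nat_lit 78) (PT.lf (nat_lit 43852) (nat_lit 6) (nat_lit 577) (nat_lit 1) (nat_lit 195) (nat_lit 183) (nat_lit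 192)) (PT.lf (nat_lit 43776) (nat_lit 6) (nat_lit 576) (nat_lit 1) (nat_lit 196) (nat_lit 183) (nat_lit 191))) (PT.nd (nat_lit 78) (PT.lf (nat_lit 43700) (nat_lit 6) (nat_lit 575) (nat_lit 1) (nat_lit 197) (nat_lit 183) (nat_lit 190)) (PT.lf (nat_lit 43016) (nat_lit 6) (nat_lit 566) (nat_lit 1) (nat_lit 198) (nat_lit 183) (nat_lit 189)))))) (PT.nd (nat_lit 546) (PT.nd (nat_lit 234) (PT.nd (nat_lit 78) (PT.lf (nat_lit 42256) (nat_lit 6) (nat_lit 556) (nat_lit 1) (nat_lit 199) (nat_lit 183) (nat_lit 188)) (PT.nd (nat_lit 78) (PT.lf (nat_lit 41420) (nat_lit 6) (nat_lit 545) (nat_lit 1) (nat_lit 200) (nat_lit 183) (nat_lit 187)) (PT.lf (nat_lit 40508) (nat_lit 6) (nat_lit 533) (nat_lit 1) (nat_lit 201) (nat_lit 183) (nat_lit 186)))) (PT.nd (nat_lit 156) (PT.nd (nat_lit 78) (PT.lf (nat_lit 39520) (nat_lit 6) (nat_lit 520) (nat_lit 1) (nat_lit 202) (nat_lit 183) (nat_lit 185)) (PT.lf (nat_lit 38456) (nat_lit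 6) (nat_lit 506) (nat_lit 1) (nat_lit 203) (nat_lit 183) (nat_lit 184))) (PT.nd (nat_lit 78) (PT.lf (nat_lit 37316) (nat_lit 3) (nat_lit 491) (nat_lit 0) (nat_lit 204) (nat_lit 183) (nat_lit 183)) (PT.lf (nat_lit 36176) (nat_lit 6) (nat_lit 476) (nat_lit 0) (nat_lit 205) (nat_lit 183) (nat_lit 182))))) (PT.nd (nat_lit 234) (PT.nd (nat_lit 78) (PT.lf (nat_lit 34960) (nat_lit 6) (nat_lit 460) (nat_lit 0) (nat_lit 206) (nat_lit 183) (nat_lit 181)) (PT.nd (nat_lit 78) (PT.lf (nat_lit 33668) (nat_lit 6) (nat_lit 443) (nat_lit 0) (nat_lit 207) (nat_lit 183) (nat_lit 180)) (PT.lf (nat_lit 32300) (nat_lit 6) (nat_lit 425) (nat_lit 0) (nat_lit 208) (nat_lit 183) (nat_lit 179)))) (PT.nd (nat_lit 156) (PT.nd (nat_lit 78) (PT.lf (nat_lit 30856) (nat_lit 6) (nat_lit 406) (nat_lit 0) (nat_lit 209) (nat_lit 183) (nat_lit 178)) (PT.lf (nat_lit 29336) (nat_lit 6) (nat_lit 386) (nat_lit 0) (nat_lit 210) (nat_lit 183) (nat_lit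 177))) (PT.nd (nat_lit 78) (PT.lf (nat_lit 27740) (nat_lit 6) (nat_lit 365) (nat_lit 0) (nat_lit 211) (nat_lit 183) (nat_lit 176)) (PT.lf (nat_lit 26068) (nat_lit 6) (nat_lit 343) (nat_lit 0) (nat_lit 212) (nat_lit 183) (nat_lit 175))))))))
noncomputable def pc21 : PT := (PT.nd (nat_lit 2028) (PT.nd (nat_lit 1014) (PT.nd (nat_lit 468) (PT.nd (nat_lit 234) (PT.nd (nat_lit 78) (PT.lf (nat_lit 26144) (nat_lit 6) (nat_lit 344) (nat_lit 5) (nat_lit 174) (nat_lit 184) (nat_lit 212)) (PT.nd (nat_lit 78) (PT.lf (nat_lit 27816) (nat_lit 6) (nat_lit 366) (nat_lit 5) (nat_lit 175) (nat_lit 184) (nat_lit 211)) (PT.lf (nat_lit 29412) (nat_lit 6) (nat_lit 387) (nat_lit 5) (nat_lit 176) (nat_lit 184) (nat_lit 210)))) (PT.nd (nat_lit 78) (PT.lf (nat_lit 30932) (nat_lit 6) (nat_lit 407) (nat_lit 5) (nat_lit 177) (nat_lit 184) (nat_lit 209)) (PT.nd (nat_lit 78) (PT.lf (nat_lit 32376) (nat_lit 6) (nat_lit 426) (nat_lit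 5) (nat_lit 178) (nat_lit 184) (nat_lit 208)) (PT.lf (nat_lit 33744) (nat_lit 6) (nat_lit 444) (nat_lit 5) (nat_lit 179) (nat_lit 184) (nat_lit 207))))) (PT.nd (nat_lit 234) (PT.nd (nat_lit 78) (PT.lf (nat_lit 35036) (nat_lit 6) (nat_lit 461) (nat_lit 5) (nat_lit 180) (nat_lit 184) (nat_lit 206)) (PT.nd (nat_lit 78) (PT.lf (nat_lit 36252) (nat_lit 6) (nat_lit 477) (nat_lit 5) (nat_lit 181) (nat_lit 184) (nat_lit 205)) (PT.lf (nat_lit 37392) (nat_lit 6) (nat_lit 492) (nat_lit 5) (nat_lit 182) (nat_lit 184) (nat_lit 204)))) (PT.nd (nat_lit 156) (PT.nd (nat_lit 78) (PT.lf (nat_lit 38456) (nat_lit 6) (nat_lit 506) (nat_lit 5) (nat_lit 183) (nat_lit 184) (nat_lit 203)) (PT.lf (nat_lit 39444) (nat_lit 3) (nat_lit 519) (nat_lit 3) (nat_lit 184) (nat_lit 184) (nat_lit 202))) (PT.nd (nat_lit 78) (PT.lf (nat_lit 40432) (nat_lit 6) (nat_lit 532) (nat_lit 3) (nat_lit 185) (nat_lit 184) (nat_lit 201)) (PT.lf (nat_lit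 41344) (nat_lit 6) (nat_lit 544) (nat_lit 3) (nat_lit 186) (nat_lit 184) (nat_lit 200)))))) (PT.nd (nat_lit 468) (PT.nd (nat_lit 234) (PT.nd (nat_lit 78) (PT.lf (nat_lit 42180) (nat_lit 6) (nat_lit 555) (nat_lit 3) (nat_lit 187) (nat_lit 184) (nat_lit 199)) (PT.nd (nat_lit 78) (PT.lf (nat_lit 42940) (nat_lit 6) (nat_lit 565) (nat_lit 3) (nat_lit 188) (nat_lit 184) (nat_lit 198)) (PT.lf (nat_lit 43624) (nat_lit 6) (nat_lit 574) (nat_lit 3) (nat_lit 189) (nat_lit 184) (nat_lit 197)))) (PT.nd (nat_lit 78) (PT.lf (nat_lit 44232) (nat_lit 6) (nat_lit 582) (nat_lit 3) (nat_lit 190) (nat_lit 184) (nat_lit 196)) (PT.nd (nat_lit 78) (PT.lf (nat_lit 44308) (nat_lit 6) (nat_lit 583) (nat_lit 3) (nat_lit 191) (nat_lit 184) (nat_lit 195)) (PT.lf (nat_lit 44384) (nat_lit 6) (nat_lit 584) (nat_lit 3) (nat_lit 192) (nat_lit 184) (nat_lit 194))))) (PT.nd (nat_lit 234) (PT.nd (nat_lit 78) (PT.lf (nat_lit 44460) (nat_lit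 3) (nat_lit 585) (nat_lit 1) (nat_lit 193) (nat_lit 184) (nat_lit 193)) (PT.nd (nat_lit 78) (PT.lf (nat_lit 44384) (nat_lit 6) (nat_lit 584) (nat_lit 1) (nat_lit 194) (nat_lit 184) (nat_lit 192)) (PT.lf (nat_lit 44308) (nat_lit 6) (nat_lit 583) (nat_lit 1) (nat_lit 195) (nat_lit 184) (nat_lit 191)))) (PT.nd (nat_lit 156) (PT.nd (nat_lit 78) (PT.lf (nat_lit 44232) (nat_lit 6) (nat_lit 582) (nat_lit 1) (nat_lit 196) (nat_lit 184) (nat_lit 190)) (PT.lf (nat_lit 43624) (nat_lit 6) (nat_lit 574) (nat_lit 1) (nat_lit 197) (nat_lit 184) (nat_lit 189))) (PT.nd (nat_lit 78) (PT.lf (nat_lit 42940) (nat_lit 6) (nat_lit 565) (nat_lit 1) (nat_lit 198) (nat_lit 184) (nat_lit 188)) (PT.lf (nat_lit 42180) (nat_lit 6) (nat_lit 555) (nat_lit 1) (nat_lit 199) (nat_lit 184) (nat_lit 187))))))) (PT.nd (nat_lit 57252) (PT.nd (nat_lit 468) (PT.nd (nat_lit 234) (PT.nd (nat_lit 78) (PT.lf (nat_lit 41344) (nat_lit 6) (nat_lit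 544) (nat_lit 1) (nat_lit 200) (nat_lit 184) (nat_lit 186)) (PT.nd (nat_lit 78) (PT.lf (nat_lit 40432) (nat_lit 6) (nat_lit 532) (nat_lit 1) (nat_lit 201) (nat_lit 184) (nat_lit 185)) (PT.lf (nat_lit 39444) (nat_lit 3) (nat_lit 519) (nat_lit 0) (nat_lit 202) (nat_lit 184) (nat_lit 184)))) (PT.nd (nat_lit 78) (PT.lf (nat_lit 38456) (nat_lit 6) (nat_lit 506) (nat_lit 0) (nat_lit 203) (nat_lit 184) (nat_lit 183)) (PT.nd (nat_lit 78) (PT.lf (nat_lit 37392) (nat_lit 6) (nat_lit 492) (nat_lit 0) (nat_lit 204) (nat_lit 184) (nat_lit 182)) (PT.lf (nat_lit 36252) (nat_lit 6) (nat_lit 477) (nat_lit 0) (nat_lit 205) (nat_lit 184) (nat_lit 181))))) (PT.nd (nat_lit 234) (PT.nd (nat_lit 78) (PT.lf (nat_lit 35036) (nat_lit 6) (nat_lit 461) (nat_lit 0) (nat_lit 206) (nat_lit 184) (nat_lit 180)) (PT.nd (nat_lit 78) (PT.lf (nat_lit 33744) (nat_lit 6) (nat_lit 444) (nat_lit 0) (nat_lit 207) (nat_lit 184) (nat_lit 179))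 (PT.lf (nat_lit 32376) (nat_lit 6) (nat_lit 426) (nat_lit 0) (nat_lit 208) (nat_lit 184) (nat_lit 178)))) (PT.nd (nat_lit 156) (PT.nd (nat_lit 78) (PT.lf (nat_lit 30932) (nat_lit 6) (nat_lit 407) (nat_lit 0) (nat_lit 209) (nat_lit 184) (nat_lit 177)) (PT.lf (nat_lit 29412) (nat_lit 6) (nat_lit 387) (nat_lit 0) (nat_lit 210) (nat_lit 184) (nat_lit 176))) (PT.nd (nat_lit 78) (PT.lf (nat_lit 27816) (nat_lit 6) (nat_lit 366) (nat_lit 0) (nat_lit 211) (nat_lit 184) (nat_lit 175)) (PT.lf (nat_lit 26144) (nat_lit 6) (nat_lit 344) (nat_lit 0) (nat_lit 212) (nat_lit 184) (nat_lit 174)))))) (PT.nd (nat_lit 546) (PT.nd (nat_lit 234) (PT.nd (nat_lit 78) (PT.lf (nat_lit 26220) (nat_lit 6) (nat_lit 345) (nat_lit 5) (nat_lit 173) (nat_lit 185) (nat_lit 212)) (PT.nd (nat_lit 78) (PT.lf (nat_lit 27892) (nat_lit 6) (nat_lit 367) (nat_lit 5) (nat_lit 174) (nat_lit 185) (nat_lit 211)) (PT.lf (nat_lit 29488) (nat_lit 6) (nat_lit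 388) (nat_lit 5) (nat_lit 175) (nat_lit 185) (nat_lit 210)))) (PT.nd (nat_lit 156) (PT.nd (nat_lit 78) (PT.lf (nat_lit 31008) (nat_lit 6) (nat_lit 408) (nat_lit 5) (nat_lit 176) (nat_lit 185) (nat_lit 209)) (PT.lf (nat_lit 32452) (nat_lit 6) (nat_lit 427) (nat_lit 5) (nat_lit 177) (nat_lit 185) (nat_lit 208))) (PT.nd (nat_lit 78) (PT.lf (nat_lit 33820) (nat_lit 6) (nat_lit 445) (nat_lit 5) (nat_lit 178) (nat_lit 185) (nat_lit 207)) (PT.lf (nat_lit 35112) (nat_lit 6) (nat_lit 462) (nat_lit 5) (nat_lit 179) (nat_lit 185) (nat_lit 206))))) (PT.nd (nat_lit 234) (PT.nd (nat_lit 78) (PT.lf (nat_lit 36328) (nat_lit 6) (nat_lit 478) (nat_lit 5) (nat_lit 180) (nat_lit 185) (nat_lit 205)) (PT.nd (nat_lit 78) (PT.lf (nat_lit 37468) (nat_lit 6) (nat_lit 493) (nat_lit 5) (nat_lit 181) (nat_lit 185) (nat_lit 204)) (PT.lf (nat_lit 38532) (nat_lit 6) (nat_lit 507) (nat_lit 5) (nat_lit 182) (nat_lit 185) (nat_lit 203))))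 (PT.nd (nat_lit 156) (PT.nd (nat_lit 78) (PT.lf (nat_lit 39520) (nat_lit 6) (nat_lit 520) (nat_lit 5) (nat_lit 183) (nat_lit 185) (nat_lit 202)) (PT.lf (nat_lit 40432) (nat_lit 6) (nat_lit 532) (nat_lit 5) (nat_lit 184) (nat_lit 185) (nat_lit 201))) (PT.nd (nat_lit 78) (PT.lf (nat_lit 41268) (nat_lit 3) (nat_lit 543) (nat_lit 3) (nat_lit 185) (nat_lit 185) (nat_lit 200)) (PT.lf (nat_lit 42104) (nat_lit 6) (nat_lit 554) (nat_lit 3) (nat_lit 186) (nat_lit 185) (nat_lit 199))))))))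
noncomputable def pc22 : PT := (PT.nd (nat_lit 58188) (PT.nd (nat_lit 1014) (PT.nd (nat_lit 468) (PT.nd (nat_lit 234) (PT.nd (nat_lit 78) (PT.lf (nat_lit 42864) (nat_lit 6) (nat_lit 564) (nat_lit 3) (nat_lit 187) (nat_lit 185) (nat_lit 198)) (PT.nd (nat_lit 78) (PT.lf (nat_lit 43548) (nat_lit 6) (nat_lit 573) (nat_lit 3) (nat_lit 188) (nat_lit 185) (nat_lit 197)) (PT.lf (nat_lit 44156) (nat_lit 6) (nat_lit 581) (nat_lit 3) (nat_lit 189) (nat_lit 185) (nat_lit 196)))) (PT.nd (nat_lit 78) (PT.lf (nat_lit 44688) (nat_lit 6) (nat_lit 588) (nat_lit 3) (nat_lit 190) (nat_lit 185) (nat_lit 195)) (PT.nd (nat_lit 78) (PT.lf (nat_lit 44764) (nat_lit 6) (nat_lit 589) (nat_lit 3) (nat_lit 191) (nat_lit 185) (nat_lit 194)) (PT.lf (nat_lit 44840) (nat_lit 6) (nat_lit 590) (nat_lit 3) (nat_lit 192) (nat_lit 185) (nat_lit 193))))) (PT.nd (nat_lit 234) (PT.nd (nat_lit 78) (PT.lf (nat_lit 44840) (nat_lit 6) (nat_lit 590)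 (nat_lit 1) (nat_lit 193) (nat_lit 185) (nat_lit 192)) (PT.nd (nat_lit 78) (PT.lf (nat_lit 44764) (nat_lit 6) (nat_lit 589) (nat_lit 1) (nat_lit 194) (nat_lit 185) (nat_lit 191)) (PT.lf (nat_lit 44688) (nat_lit 6) (nat_lit 588) (nat_lit 1) (nat_lit 195) (nat_lit 185) (nat_lit 190)))) (PT.nd (nat_lit 156) (PT.nd (nat_lit 78) (PT.lf (nat_lit 44156) (nat_lit 6) (nat_lit 581) (nat_lit 1) (nat_lit 196) (nat_lit 185) (nat_lit 189)) (PT.lf (nat_lit 43548) (nat_lit 6) (nat_lit 573) (nat_lit 1) (nat_lit 197) (nat_lit 185) (nat_lit 188))) (PT.nd (nat_lit 78) (PT.lf (nat_lit 42864) (nat_lit 6) (nat_lit 564) (nat_lit 1) (nat_lit 198) (nat_lit 185) (nat_lit 187)) (PT.lf (nat_lit 42104) (nat_lit 6) (nat_lit 554) (nat_lit 1) (nat_lit 199) (nat_lit 185) (nat_lit 186)))))) (PT.nd (nat_lit 468) (PT.nd (nat_lit 234) (PT.nd (nat_lit 78) (PT.lf (nat_lit 41268) (nat_lit 3) (nat_lit 543) (nat_lit 0) (nat_lit 200) (nat_lit 185)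 (nat_lit 185)) (PT.nd (nat_lit 78) (PT.lf (nat_lit 40432) (nat_lit 6) (nat_lit 532) (nat_lit 0) (nat_lit 201) (nat_lit 185) (nat_lit 184)) (PT.lf (nat_lit 39520) (nat_lit 6) (nat_lit 520) (nat_lit 0) (nat_lit 202) (nat_lit 185) (nat_lit 183)))) (PT.nd (nat_lit 78) (PT.lf (nat_lit 38532) (nat_lit 6) (nat_lit 507) (nat_lit 0) (nat_lit 203) (nat_lit 185) (nat_lit 182)) (PT.nd (nat_lit 78) (PT.lf (nat_lit 37468) (nat_lit 6) (nat_lit 493) (nat_lit 0) (nat_lit 204) (nat_lit 185) (nat_lit 181)) (PT.lf (nat_lit 36328) (nat_lit 6) (nat_lit 478) (nat_lit 0) (nat_lit 205) (nat_lit 185) (nat_lit 180))))) (PT.nd (nat_lit 234) (PT.nd (nat_lit 78) (PT.lf (nat_lit 35112) (nat_lit 6) (nat_lit 462) (nat_lit 0) (nat_lit 206) (nat_lit 185) (nat_lit 179)) (PT.nd (nat_lit 78) (PT.lf (nat_lit 33820) (nat_lit 6) (nat_lit 445) (nat_lit 0) (nat_lit 207) (nat_lit 185) (nat_lit 178)) (PT.lf (nat_lit 32452) (nat_lit 6) (nat_lit 427)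 (nat_lit 0) (nat_lit 208) (nat_lit 185) (nat_lit 177)))) (PT.nd (nat_lit 156) (PT.nd (nat_lit 78) (PT.lf (nat_lit 31008) (nat_lit 6) (nat_lit 408) (nat_lit 0) (nat_lit 209) (nat_lit 185) (nat_lit 176)) (PT.lf (nat_lit 29488) (nat_lit 6) (nat_lit 388) (nat_lit 0) (nat_lit 210) (nat_lit 185) (nat_lit 175))) (PT.nd (nat_lit 78) (PT.lf (nat_lit 27892) (nat_lit 6) (nat_lit 367) (nat_lit 0) (nat_lit 211) (nat_lit 185) (nat_lit 174)) (PT.lf (nat_lit 26220) (nat_lit 6) (nat_lit 345) (nat_lit 0) (nat_lit 212) (nat_lit 185) (nat_lit 173))))))) (PT.nd (nat_lit 1014) (PT.nd (nat_lit 468) (PT.nd (nat_lit 234) (PT.nd (nat_lit 78) (PT.lf (nat_lit 26296) (nat_lit 6) (nat_lit 346) (nat_lit 5) (nat_lit 172) (nat_lit 186) (nat_lit 212)) (PT.nd (nat_lit 78) (PT.lf (nat_lit 27968) (nat_lit 6) (nat_lit 368) (nat_lit 5) (nat_lit 173) (nat_lit 186) (nat_lit 211)) (PT.lf (nat_lit 29564) (nat_lit 6) (nat_lit 389) (nat_lit 5) (nat_lit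 174) (nat_lit 186) (nat_lit 210)))) (PT.nd (nat_lit 78) (PT.lf (nat_lit 31084) (nat_lit 6) (nat_lit 409) (nat_lit 5) (nat_lit 175) (nat_lit 186) (nat_lit 209)) (PT.nd (nat_lit 78) (PT.lf (nat_lit 32528) (nat_lit 6) (nat_lit 428) (nat_lit 5) (nat_lit 176) (nat_lit 186) (nat_lit 208)) (PT.lf (nat_lit 33896) (nat_lit 6) (nat_lit 446) (nat_lit 5) (nat_lit 177) (nat_lit 186) (nat_lit 207))))) (PT.nd (nat_lit 234) (PT.nd (nat_lit 78) (PT.lf (nat_lit 35188) (nat_lit 6) (nat_lit 463) (nat_lit 5) (nat_lit 178) (nat_lit 186) (nat_lit 206)) (PT.nd (nat_lit 78) (PT.lf (nat_lit 36404) (nat_lit 6) (nat_lit 479) (nat_lit 5) (nat_lit 179) (nat_lit 186) (nat_lit 205)) (PT.lf (nat_lit 37544) (nat_lit 6) (nat_lit 494) (nat_lit 5) (nat_lit 180) (nat_lit 186) (nat_lit 204)))) (PT.nd (nat_lit 156) (PT.nd (nat_lit 78) (PT.lf (nat_lit 38608) (nat_lit 6) (nat_lit 508) (nat_lit 5) (nat_lit 181) (nat_lit 186) (nat_lit 203)) (PT.lf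 (nat_lit 39596) (nat_lit 6) (nat_lit 521) (nat_lit 5) (nat_lit 182) (nat_lit 186) (nat_lit 202))) (PT.nd (nat_lit 78) (PT.lf (nat_lit 40508) (nat_lit 6) (nat_lit 533) (nat_lit 5) (nat_lit 183) (nat_lit 186) (nat_lit 201)) (PT.lf (nat_lit 41344) (nat_lit 6) (nat_lit 544) (nat_lit 5) (nat_lit 184) (nat_lit 186) (nat_lit 200)))))) (PT.nd (nat_lit 546) (PT.nd (nat_lit 234) (PT.nd (nat_lit 78) (PT.lf (nat_lit 42104) (nat_lit 6) (nat_lit 554) (nat_lit 5) (nat_lit 185) (nat_lit 186) (nat_lit 199)) (PT.nd (nat_lit 78) (PT.lf (nat_lit 42788) (nat_lit 3) (nat_lit 563) (nat_lit 3) (nat_lit 186) (nat_lit 186) (nat_lit 198)) (PT.lf (nat_lit 43472) (nat_lit 6) (nat_lit 572) (nat_lit 3) (nat_lit 187) (nat_lit 186) (nat_lit 197)))) (PT.nd (nat_lit 156) (PT.nd (nat_lit 78) (PT.lf (nat_lit 44080) (nat_lit 6) (nat_lit 580) (nat_lit 3) (nat_lit 188) (nat_lit 186) (nat_lit 196)) (PT.lf (nat_lit 44612) (nat_lit 6) (nat_lit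 587) (nat_lit 3) (nat_lit 189) (nat_lit 186) (nat_lit 195))) (PT.nd (nat_lit 78) (PT.lf (nat_lit 45068) (nat_lit 6) (nat_lit 593) (nat_lit 3) (nat_lit 190) (nat_lit 186) (nat_lit 194)) (PT.lf (nat_lit 45144) (nat_lit 6) (nat_lit 594) (nat_lit 3) (nat_lit 191) (nat_lit 186) (nat_lit 193))))) (PT.nd (nat_lit 234) (PT.nd (nat_lit 78) (PT.lf (nat_lit 45220) (nat_lit 3) (nat_lit 595) (nat_lit 1) (nat_lit 192) (nat_lit 186) (nat_lit 192)) (PT.nd (nat_lit 78) (PT.lf (nat_lit 45144) (nat_lit 6) (nat_lit 594) (nat_lit 1) (nat_lit 193) (nat_lit 186) (nat_lit 191)) (PT.lf (nat_lit 45068) (nat_lit 6) (nat_lit 593) (nat_lit 1) (nat_lit 194) (nat_lit 186) (nat_lit 190)))) (PT.nd (nat_lit 156) (PT.nd (nat_lit 78) (PT.lf (nat_lit 44612) (nat_lit 6) (nat_lit 587) (nat_lit 1) (nat_lit 195) (nat_lit 186) (nat_lit 189)) (PT.lf (nat_lit 44080) (nat_lit 6) (nat_lit 580) (nat_lit 1) (nat_lit 196) (nat_lit 186) (nat_lit 188)))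 (PT.nd (nat_lit 78) (PT.lf (nat_lit 43472) (nat_lit 6) (nat_lit 572) (nat_lit 1) (nat_lit 197) (nat_lit 186) (nat_lit 187)) (PT.lf (nat_lit 42788) (nat_lit 3) (nat_lit 563) (nat_lit 0) (nat_lit 198) (nat_lit 186) (nat_lit 186))))))))
noncomputable def pc23 : PT := (PT.nd (nat_lit 58188) (PT.nd (nat_lit 1014) (PT.nd (nat_lit 468) (PT.nd (nat_lit 234) (PT.nd (nat_lit 78) (PT.lf (nat_lit 42104) (nat_lit 6) (nat_lit 554) (nat_lit 0) (nat_lit 199) (nat_lit 186) (nat_lit 185)) (PT.nd (nat_lit 78) (PT.lf (nat_lit 41344) (nat_lit 6) (nat_lit 544) (nat_lit 0) (nat_lit 200) (nat_lit 186) (nat_lit 184)) (PT.lf (nat_lit 40508) (nat_lit 6) (nat_lit 533) (nat_lit 0) (nat_lit 201) (nat_lit 186) (nat_lit 183)))) (PT.nd (nat_lit 78) (PT.lf (nat_lit 39596) (nat_lit 6) (nat_lit 521) (nat_lit 0) (nat_lit 202) (nat_lit 186) (nat_lit 182)) (PT.nd (nat_lit 78) (PT.lf (nat_lit 38608) (nat_lit 6) (nat_lit 508) (nat_lit 0) (nat_lit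 203) (nat_lit 186) (nat_lit 181)) (PT.lf (nat_lit 37544) (nat_lit 6) (nat_lit 494) (nat_lit 0) (nat_lit 204) (nat_lit 186) (nat_lit 180))))) (PT.nd (nat_lit 234) (PT.nd (nat_lit 78) (PT.lf (nat_lit 36404) (nat_lit 6) (nat_lit 479) (nat_lit 0) (nat_lit 205) (nat_lit 186) (nat_lit 179)) (PT.nd (nat_lit 78) (PT.lf (nat_lit 35188) (nat_lit 6) (nat_lit 463) (nat_lit 0) (nat_lit 206) (nat_lit 186) (nat_lit 178)) (PT.lf (nat_lit 33896) (nat_lit 6) (nat_lit 446) (nat_lit 0) (nat_lit 207) (nat_lit 186) (nat_lit 177)))) (PT.nd (nat_lit 156) (PT.nd (nat_lit 78) (PT.lf (nat_lit 32528) (nat_lit 6) (nat_lit 428) (nat_lit 0) (nat_lit 208) (nat_lit 186) (nat_lit 176)) (PT.lf (nat_lit 31084) (nat_lit 6) (nat_lit 409) (nat_lit 0) (nat_lit 209) (nat_lit 186) (nat_lit 175))) (PT.nd (nat_lit 78) (PT.lf (nat_lit 29564) (nat_lit 6) (nat_lit 389) (nat_lit 0) (nat_lit 210) (nat_lit 186) (nat_lit 174)) (PT.lf (nat_lit 27968) (nat_lit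 6) (nat_lit 368) (nat_lit 0) (nat_lit 211) (nat_lit 186) (nat_lit 173)))))) (PT.nd (nat_lit 56628) (PT.nd (nat_lit 56316) (PT.nd (nat_lit 56160) (PT.lf (nat_lit 26296) (nat_lit 6) (nat_lit 346) (nat_lit 0) (nat_lit 212) (nat_lit 186) (nat_lit 172)) (PT.nd (nat_lit 78) (PT.lf (nat_lit 26372) (nat_lit 6) (nat_lit 347) (nat_lit 5) (nat_lit 171) (nat_lit 187) (nat_lit 212)) (PT.lf (nat_lit 28044) (nat_lit 6) (nat_lit 369) (nat_lit 5) (nat_lit 172) (nat_lit 187) (nat_lit 211)))) (PT.nd (nat_lit 156) (PT.nd (nat_lit 78) (PT.lf (nat_lit 29640) (nat_lit 6) (nat_lit 390) (nat_lit 5) (nat_lit 173) (nat_lit 187) (nat_lit 210)) (PT.lf (nat_lit 31160) (nat_lit 6) (nat_lit 410) (nat_lit 5) (nat_lit 174) (nat_lit 187) (nat_lit 209))) (PT.nd (nat_lit 78) (PT.lf (nat_lit 32604) (nat_lit 6) (nat_lit 429) (nat_lit 5) (nat_lit 175) (nat_lit 187) (nat_lit 208)) (PT.lf (nat_lit 33972) (nat_lit 6) (nat_lit 447) (nat_lit 5)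 (nat_lit 176) (nat_lit 187) (nat_lit 207))))) (PT.nd (nat_lit 234) (PT.nd (nat_lit 78) (PT.lf (nat_lit 35264) (nat_lit 6) (nat_lit 464) (nat_lit 5) (nat_lit 177) (nat_lit 187) (nat_lit 206)) (PT.nd (nat_lit 78) (PT.lf (nat_lit 36480) (nat_lit 6) (nat_lit 480) (nat_lit 5) (nat_lit 178) (nat_lit 187) (nat_lit 205)) (PT.lf (nat_lit 37620) (nat_lit 6) (nat_lit 495) (nat_lit 5) (nat_lit 179) (nat_lit 187) (nat_lit 204)))) (PT.nd (nat_lit 156) (PT.nd (nat_lit 78) (PT.lf (nat_lit 38684) (nat_lit 6) (nat_lit 509) (nat_lit 5) (nat_lit 180) (nat_lit 187) (nat_lit 203)) (PT.lf (nat_lit 39672) (nat_lit 6) (nat_lit 522) (nat_lit 5) (nat_lit 181) (nat_lit 187) (nat_lit 202))) (PT.nd (nat_lit 78) (PT.lf (nat_lit 40584) (nat_lit 6) (nat_lit 534) (nat_lit 5) (nat_lit 182) (nat_lit 187) (nat_lit 201)) (PT.lf (nat_lit 41420) (nat_lit 6) (nat_lit 545) (nat_lit 5) (nat_lit 183) (nat_lit 187) (nat_lit 200))))))) (PT.nd (nat_lit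 1014) (PT.nd (nat_lit 468) (PT.nd (nat_lit 234) (PT.nd (nat_lit 78) (PT.lf (nat_lit 42180) (nat_lit 6) (nat_lit 555) (nat_lit 5) (nat_lit 184) (nat_lit 187) (nat_lit 199)) (PT.nd (nat_lit 78) (PT.lf (nat_lit 42864) (nat_lit 6) (nat_lit 564) (nat_lit 5) (nat_lit 185) (nat_lit 187) (nat_lit 198)) (PT.lf (nat_lit 43472) (nat_lit 6) (nat_lit 572) (nat_lit 5) (nat_lit 186) (nat_lit 187) (nat_lit 197)))) (PT.nd (nat_lit 78) (PT.lf (nat_lit 44004) (nat_lit 3) (nat_lit 579) (nat_lit 3) (nat_lit 187) (nat_lit 187) (nat_lit 196)) (PT.nd (nat_lit 78) (PT.lf (nat_lit 44536) (nat_lit 6) (nat_lit 586) (nat_lit 3) (nat_lit 188) (nat_lit 187) (nat_lit 195)) (PT.lf (nat_lit 44992) (nat_lit 6) (nat_lit 592) (nat_lit 3) (nat_lit 189) (nat_lit 187) (nat_lit 194))))) (PT.nd (nat_lit 234) (PT.nd (nat_lit 78) (PT.lf (nat_lit 45372) (nat_lit 6) (nat_lit 597) (nat_lit 3) (nat_lit 190) (nat_lit 187) (nat_lit 193)) (PT.nd (nat_lit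 78) (PT.lf (nat_lit 45448) (nat_lit 6) (nat_lit 598) (nat_lit 3) (nat_lit 191) (nat_lit 187) (nat_lit 192)) (PT.lf (nat_lit 45448) (nat_lit 6) (nat_lit 598) (nat_lit 1) (nat_lit 192) (nat_lit 187) (nat_lit 191)))) (PT.nd (nat_lit 156) (PT.nd (nat_lit 78) (PT.lf (nat_lit 45372) (nat_lit 6) (nat_lit 597) (nat_lit 1) (nat_lit 193) (nat_lit 187) (nat_lit 190)) (PT.lf (nat_lit 44992) (nat_lit 6) (nat_lit 592) (nat_lit 1) (nat_lit 194) (nat_lit 187) (nat_lit 189))) (PT.nd (nat_lit 78) (PT.lf (nat_lit 44536) (nat_lit 6) (nat_lit 586) (nat_lit 1) (nat_lit 195) (nat_lit 187) (nat_lit 188)) (PT.lf (nat_lit 44004) (nat_lit 3) (nat_lit 579) (nat_lit 0) (nat_lit 196) (nat_lit 187) (nat_lit 187)))))) (PT.nd (nat_lit 546) (PT.nd (nat_lit 234) (PT.nd (nat_lit 78) (PT.lf (nat_lit 43472) (nat_lit 6) (nat_lit 572) (nat_lit 0) (nat_lit 197) (nat_lit 187) (nat_lit 186)) (PT.nd (nat_lit 78) (PT.lf (nat_lit 42864) (nat_lit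 6) (nat_lit 564) (nat_lit 0) (nat_lit 198) (nat_lit 187) (nat_lit 185)) (PT.lf (nat_lit 42180) (nat_lit 6) (nat_lit 555) (nat_lit 0) (nat_lit 199) (nat_lit 187) (nat_lit 184)))) (PT.nd (nat_lit 156) (PT.nd (nat_lit 78) (PT.lf (nat_lit 41420) (nat_lit 6) (nat_lit 545) (nat_lit 0) (nat_lit 200) (nat_lit 187) (nat_lit 183)) (PT.lf (nat_lit 40584) (nat_lit 6) (nat_lit 534) (nat_lit 0) (nat_lit 201) (nat_lit 187) (nat_lit 182))) (PT.nd (nat_lit 78) (PT.lf (nat_lit 39672) (nat_lit 6) (nat_lit 522) (nat_lit 0) (nat_lit 202) (nat_lit 187) (nat_lit 181)) (PT.lf (nat_lit 38684) (nat_lit 6) (nat_lit 509) (nat_lit 0) (nat_lit 203) (nat_lit 187) (nat_lit 180))))) (PT.nd (nat_lit 234) (PT.nd (nat_lit 78) (PT.lf (nat_lit 37620) (nat_lit 6) (nat_lit 495) (nat_lit 0) (nat_lit 204) (nat_lit 187) (nat_lit 179)) (PT.nd (nat_lit 78) (PT.lf (nat_lit 36480) (nat_lit 6) (nat_lit 480) (nat_lit 0) (nat_lit 205) (nat_lit 187) (nat_lit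 178)) (PT.lf (nat_lit 35264) (nat_lit 6) (nat_lit 464) (nat_lit 0) (nat_lit 206) (nat_lit 187) (nat_lit 177)))) (PT.nd (nat_lit 156) (PT.nd (nat_lit 78) (PT.lf (nat_lit 33972) (nat_lit 6) (nat_lit 447) (nat_lit 0) (nat_lit 207) (nat_lit 187) (nat_lit 176)) (PT.lf (nat_lit 32604) (nat_lit 6) (nat_lit 429) (nat_lit 0) (nat_lit 208) (nat_lit 187) (nat_lit 175))) (PT.nd (nat_lit 78) (PT.lf (nat_lit 31160) (nat_lit 6) (nat_lit 410) (nat_lit 0) (nat_lit 209) (nat_lit 187) (nat_lit 174)) (PT.lf (nat_lit 29640) (nat_lit 6) (nat_lit 390) (nat_lit 0) (nat_lit 210) (nat_lit 187) (nat_lit 173))))))))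
noncomputable def pc24 : PT := (PT.nd (nat_lit 58032) (PT.nd (nat_lit 57018) (PT.nd (nat_lit 56472) (PT.nd (nat_lit 56238) (PT.nd (nat_lit 78) (PT.lf (nat_lit 28044) (nat_lit 6) (nat_lit 369) (nat_lit 0) (nat_lit 211) (nat_lit 187) (nat_lit 172)) (PT.nd (nat_lit 56082) (PT.lf (nat_lit 26372) (nat_lit 6) (nat_lit 347) (nat_lit 0) (nat_lit 212) (nat_lit 187) (nat_lit 171)) (PT.lf (nat_lit 26448) (nat_lit 6) (nat_lit 348) (nat_lit 5) (nat_lit 170) (nat_lit 188) (nat_lit 212)))) (PT.nd (nat_lit 78) (PT.lf (nat_lit 28120) (nat_lit 6) (nat_lit 370) (nat_lit 5) (nat_lit 171) (nat_lit 188) (nat_lit 211)) (PT.nd (nat_lit 78) (PT.lf (nat_lit 29716) (nat_lit 6) (nat_lit 391) (nat_lit 5) (nat_lit 172) (nat_lit 188) (nat_lit 210)) (PT.lf (nat_lit 31236) (nat_lit 6) (nat_lit 411) (nat_lit 5) (nat_lit 173) (nat_lit 188) (nat_lit 209))))) (PT.nd (nat_lit 234) (PT.nd (nat_lit 78) (PT.lf (nat_lit 32680) (nat_lit 6) (nat_lit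 430) (nat_lit 5) (nat_lit 174) (nat_lit 188) (nat_lit 208)) (PT.nd (nat_lit 78) (PT.lf (nat_lit 34048) (nat_lit 6) (nat_lit 448) (nat_lit 5) (nat_lit 175) (nat_lit 188) (nat_lit 207)) (PT.lf (nat_lit 35340) (nat_lit 6) (nat_lit 465) (nat_lit 5) (nat_lit 176) (nat_lit 188) (nat_lit 206)))) (PT.nd (nat_lit 156) (PT.nd (nat_lit 78) (PT.lf (nat_lit 36556) (nat_lit 6) (nat_lit 481) (nat_lit 5) (nat_lit 177) (nat_lit 188) (nat_lit 205)) (PT.lf (nat_lit 37696) (nat_lit 6) (nat_lit 496) (nat_lit 5) (nat_lit 178) (nat_lit 188) (nat_lit 204))) (PT.nd (nat_lit 78) (PT.lf (nat_lit 38760) (nat_lit 6) (nat_lit 510) (nat_lit 5) (nat_lit 179) (nat_lit 188) (nat_lit 203)) (PT.lf (nat_lit 39748) (nat_lit 6) (nat_lit 523) (nat_lit 5) (nat_lit 180) (nat_lit 188) (nat_lit 202)))))) (PT.nd (nat_lit 468) (PT.nd (nat_lit 234) (PT.nd (nat_lit 78) (PT.lf (nat_lit 40660) (nat_lit 6) (nat_lit 535) (nat_lit 5) (nat_lit 181) (nat_lit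 188) (nat_lit 201)) (PT.nd (nat_lit 78) (PT.lf (nat_lit 41496) (nat_lit 6) (nat_lit 546) (nat_lit 5) (nat_lit 182) (nat_lit 188) (nat_lit 200)) (PT.lf (nat_lit 42256) (nat_lit 6) (nat_lit 556) (nat_lit 5) (nat_lit 183) (nat_lit 188) (nat_lit 199)))) (PT.nd (nat_lit 78) (PT.lf (nat_lit 42940) (nat_lit 6) (nat_lit 565) (nat_lit 5) (nat_lit 184) (nat_lit 188) (nat_lit 198)) (PT.nd (nat_lit 78) (PT.lf (nat_lit 43548) (nat_lit 6) (nat_lit 573) (nat_lit 5) (nat_lit 185) (nat_lit 188) (nat_lit 197)) (PT.lf (nat_lit 44080) (nat_lit 6) (nat_lit 580) (nat_lit 5) (nat_lit 186) (nat_lit 188) (nat_lit 196))))) (PT.nd (nat_lit 234) (PT.nd (nat_lit 78) (PT.lf (nat_lit 44536) (nat_lit 6) (nat_lit 586) (nat_lit 5) (nat_lit 187) (nat_lit 188) (nat_lit 195)) (PT.nd (nat_lit 78) (PT.lf (nat_lit 44916) (nat_lit 3) (nat_lit 591) (nat_lit 3) (nat_lit 188) (nat_lit 188) (nat_lit 194)) (PT.lf (nat_lit 45296) (nat_lit 6) (nat_lit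 596) (nat_lit 3) (nat_lit 189) (nat_lit 188) (nat_lit 193)))) (PT.nd (nat_lit 156) (PT.nd (nat_lit 78) (PT.lf (nat_lit 45600) (nat_lit 6) (nat_lit 600) (nat_lit 3) (nat_lit 190) (nat_lit 188) (nat_lit 192)) (PT.lf (nat_lit 45676) (nat_lit 3) (nat_lit 601) (nat_lit 1) (nat_lit 191) (nat_lit 188) (nat_lit 191))) (PT.nd (nat_lit 78) (PT.lf (nat_lit 45600) (nat_lit 6) (nat_lit 600) (nat_lit 1) (nat_lit 192) (nat_lit 188) (nat_lit 190)) (PT.lf (nat_lit 45296) (nat_lit 6) (nat_lit 596) (nat_lit 1) (nat_lit 193) (nat_lit 188) (nat_lit 189))))))) (PT.nd (nat_lit 1014) (PT.nd (nat_lit 468) (PT.nd (nat_lit 234) (PT.nd (nat_lit 78) (PT.lf (nat_lit 44916) (nat_lit 3) (nat_lit 591) (nat_lit 0) (nat_lit 194) (nat_lit 188) (nat_lit 188)) (PT.nd (nat_lit 78) (PT.lf (nat_lit 44536) (nat_lit 6) (nat_lit 586) (nat_lit 0) (nat_lit 195) (nat_lit 188) (nat_lit 187)) (PT.lf (nat_lit 44080) (nat_lit 6) (nat_lit 580) (nat_lit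 0) (nat_lit 196) (nat_lit 188) (nat_lit 186)))) (PT.nd (nat_lit 78) (PT.lf (nat_lit 43548) (nat_lit 6) (nat_lit 573) (nat_lit 0) (nat_lit 197) (nat_lit 188) (nat_lit 185)) (PT.nd (nat_lit 78) (PT.lf (nat_lit 42940) (nat_lit 6) (nat_lit 565) (nat_lit 0) (nat_lit 198) (nat_lit 188) (nat_lit 184)) (PT.lf (nat_lit 42256) (nat_lit 6) (nat_lit 556) (nat_lit 0) (nat_lit 199) (nat_lit 188) (nat_lit 183))))) (PT.nd (nat_lit 234) (PT.nd (nat_lit 78) (PT.lf (nat_lit 41496) (nat_lit 6) (nat_lit 546) (nat_lit 0) (nat_lit 200) (nat_lit 188) (nat_lit 182)) (PT.nd (nat_lit 78) (PT.lf (nat_lit 40660) (nat_lit 6) (nat_lit 535) (nat_lit 0) (nat_lit 201) (nat_lit 188) (nat_lit 181)) (PT.lf (nat_lit 39748) (nat_lit 6) (nat_lit 523) (nat_lit 0) (nat_lit 202) (nat_lit 188) (nat_lit 180)))) (PT.nd (nat_lit 156) (PT.nd (nat_lit 78) (PT.lf (nat_lit 38760) (nat_lit 6) (nat_lit 510) (nat_lit 0) (nat_lit 203) (nat_lit 188) (nat_lit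 179)) (PT.lf (nat_lit 37696) (nat_lit 6) (nat_lit 496) (nat_lit 0) (nat_lit 204) (nat_lit 188) (nat_lit 178))) (PT.nd (nat_lit 78) (PT.lf (nat_lit 36556) (nat_lit 6) (nat_lit 481) (nat_lit 0) (nat_lit 205) (nat_lit 188) (nat_lit 177)) (PT.lf (nat_lit 35340) (nat_lit 6) (nat_lit 465) (nat_lit 0) (nat_lit 206) (nat_lit 188) (nat_lit 176)))))) (PT.nd (nat_lit 56394) (PT.nd (nat_lit 234) (PT.nd (nat_lit 78) (PT.lf (nat_lit 34048) (nat_lit 6) (nat_lit 448) (nat_lit 0) (nat_lit 207) (nat_lit 188) (nat_lit 175)) (PT.nd (nat_lit 78) (PT.lf (nat_lit 32680) (nat_lit 6) (nat_lit 430) (nat_lit 0) (nat_lit 208) (nat_lit 188) (nat_lit 174)) (PT.lf (nat_lit 31236) (nat_lit 6) (nat_lit 411) (nat_lit 0) (nat_lit 209) (nat_lit 188) (nat_lit 173)))) (PT.nd (nat_lit 156) (PT.nd (nat_lit 78) (PT.lf (nat_lit 29716) (nat_lit 6) (nat_lit 391) (nat_lit 0) (nat_lit 210) (nat_lit 188) (nat_lit 172)) (PT.lf (nat_lit 28120) (nat_lit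 6) (nat_lit 370) (nat_lit 0) (nat_lit 211) (nat_lit 188) (nat_lit 171))) (PT.nd (nat_lit 55926) (PT.lf (nat_lit 26448) (nat_lit 6) (nat_lit 348) (nat_lit 0) (nat_lit 212) (nat_lit 188) (nat_lit 170)) (PT.lf (nat_lit 24776) (nat_lit 6) (nat_lit 326) (nat_lit 5) (nat_lit 168) (nat_lit 189) (nat_lit 213))))) (PT.nd (nat_lit 234) (PT.nd (nat_lit 78) (PT.lf (nat_lit 26524) (nat_lit 6) (nat_lit 349) (nat_lit 5) (nat_lit 169) (nat_lit 189) (nat_lit 212)) (PT.nd (nat_lit 78) (PT.lf (nat_lit 28196) (nat_lit 6) (nat_lit 371) (nat_lit 5) (nat_lit 170) (nat_lit 189) (nat_lit 211)) (PT.lf (nat_lit 29792) (nat_lit 6) (nat_lit 392) (nat_lit 5) (nat_lit 171) (nat_lit 189) (nat_lit 210)))) (PT.nd (nat_lit 156) (PT.nd (nat_lit 78) (PT.lf (nat_lit 31312) (nat_lit 6) (nat_lit 412) (nat_lit 5) (nat_lit 172) (nat_lit 189) (nat_lit 209)) (PT.lf (nat_lit 32756) (nat_lit 6) (nat_lit 431) (nat_lit 5) (nat_lit 173) (nat_lit 189)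 (nat_lit 208))) (PT.nd (nat_lit 78) (PT.lf (nat_lit 34124) (nat_lit 6) (nat_lit 449) (nat_lit 5) (nat_lit 174) (nat_lit 189) (nat_lit 207)) (PT.lf (nat_lit 35416) (nat_lit 6) (nat_lit 466) (nat_lit 5) (nat_lit 175) (nat_lit 189) (nat_lit 206))))))))
noncomputable def pc25 : PT := (PT.nd (nat_lit 2028) (PT.nd (nat_lit 1014) (PT.nd (nat_lit 468) (PT.nd (nat_lit 234) (PT.nd (nat_lit 78) (PT.lf (nat_lit 36632) (nat_lit 6) (nat_lit 482) (nat_lit 5) (nat_lit 176) (nat_lit 189) (nat_lit 205)) (PT.nd (nat_lit 78) (PT.lf (nat_lit 37772) (nat_lit 6) (nat_lit 497) (nat_lit 5) (nat_lit 177) (nat_lit 189) (nat_lit 204)) (PT.lf (nat_lit 38836) (nat_lit 6) (nat_lit 511) (nat_lit 5) (nat_lit 178) (nat_lit 189) (nat_lit 203)))) (PT.nd (nat_lit 78) (PT.lf (nat_lit 39824) (nat_lit 6) (nat_lit 524) (nat_lit 5) (nat_lit 179) (nat_lit 189) (nat_lit 202)) (PT.nd (nat_lit 78) (PT.lf (nat_lit 40736) (nat_lit 6) (nat_lit 536)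 (nat_lit 5) (nat_lit 180) (nat_lit 189) (nat_lit 201)) (PT.lf (nat_lit 41572) (nat_lit 6) (nat_lit 547) (nat_lit 5) (nat_lit 181) (nat_lit 189) (nat_lit 200))))) (PT.nd (nat_lit 234) (PT.nd (nat_lit 78) (PT.lf (nat_lit 42332) (nat_lit 6) (nat_lit 557) (nat_lit 5) (nat_lit 182) (nat_lit 189) (nat_lit 199)) (PT.nd (nat_lit 78) (PT.lf (nat_lit 43016) (nat_lit 6) (nat_lit 566) (nat_lit 5) (nat_lit 183) (nat_lit 189) (nat_lit 198)) (PT.lf (nat_lit 43624) (nat_lit 6) (nat_lit 574) (nat_lit 5) (nat_lit 184) (nat_lit 189) (nat_lit 197)))) (PT.nd (nat_lit 156) (PT.nd (nat_lit 78) (PT.lf (nat_lit 44156) (nat_lit 6) (nat_lit 581) (nat_lit 5) (nat_lit 185) (nat_lit 189) (nat_lit 196)) (PT.lf (nat_lit 44612) (nat_lit 6) (nat_lit 587) (nat_lit 5) (nat_lit 186) (nat_lit 189) (nat_lit 195))) (PT.nd (nat_lit 78) (PT.lf (nat_lit 44992) (nat_lit 6) (nat_lit 592) (nat_lit 5) (nat_lit 187) (nat_lit 189) (nat_lit 194)) (PT.lf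 (nat_lit 45296) (nat_lit 6) (nat_lit 596) (nat_lit 5) (nat_lit 188) (nat_lit 189) (nat_lit 193)))))) (PT.nd (nat_lit 468) (PT.nd (nat_lit 234) (PT.nd (nat_lit 78) (PT.lf (nat_lit 45524) (nat_lit 3) (nat_lit 599) (nat_lit 3) (nat_lit 189) (nat_lit 189) (nat_lit 192)) (PT.nd (nat_lit 78) (PT.lf (nat_lit 45752) (nat_lit 6) (nat_lit 602) (nat_lit 3) (nat_lit 190) (nat_lit 189) (nat_lit 191)) (PT.lf (nat_lit 45752) (nat_lit 6) (nat_lit 602) (nat_lit 1) (nat_lit 191) (nat_lit 189) (nat_lit 190)))) (PT.nd (nat_lit 78) (PT.lf (nat_lit 45524) (nat_lit 3) (nat_lit 599) (nat_lit 0) (nat_lit 192) (nat_lit 189) (nat_lit 189)) (PT.nd (nat_lit 78) (PT.lf (nat_lit 45296) (nat_lit 6) (nat_lit 596) (nat_lit 0) (nat_lit 193) (nat_lit 189) (nat_lit 188)) (PT.lf (nat_lit 44992) (nat_lit 6) (nat_lit 592) (nat_lit 0) (nat_lit 194) (nat_lit 189) (nat_lit 187))))) (PT.nd (nat_lit 234) (PT.nd (nat_lit 78) (PT.lf (nat_lit 44612)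 (nat_lit 6) (nat_lit 587) (nat_lit 0) (nat_lit 195) (nat_lit 189) (nat_lit 186)) (PT.nd (nat_lit 78) (PT.lf (nat_lit 44156) (nat_lit 6) (nat_lit 581) (nat_lit 0) (nat_lit 196) (nat_lit 189) (nat_lit 185)) (PT.lf (nat_lit 43624) (nat_lit 6) (nat_lit 574) (nat_lit 0) (nat_lit 197) (nat_lit 189) (nat_lit 184)))) (PT.nd (nat_lit 156) (PT.nd (nat_lit 78) (PT.lf (nat_lit 43016) (nat_lit 6) (nat_lit 566) (nat_lit 0) (nat_lit 198) (nat_lit 189) (nat_lit 183)) (PT.lf (nat_lit 42332) (nat_lit 6) (nat_lit 557) (nat_lit 0) (nat_lit 199) (nat_lit 189) (nat_lit 182))) (PT.nd (nat_lit 78) (PT.lf (nat_lit 41572) (nat_lit 6) (nat_lit 547) (nat_lit 0) (nat_lit 200) (nat_lit 189) (nat_lit 181)) (PT.lf (nat_lit 40736) (nat_lit 6) (nat_lit 536) (nat_lit 0) (nat_lit 201) (nat_lit 189) (nat_lit 180))))))) (PT.nd (nat_lit 56706) (PT.nd (nat_lit 468) (PT.nd (nat_lit 234) (PT.nd (nat_lit 78) (PT.lf (nat_lit 39824) (nat_lit 6)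 (nat_lit 524) (nat_lit 0) (nat_lit 202) (nat_lit 189) (nat_lit 179)) (PT.nd (nat_lit 78) (PT.lf (nat_lit 38836) (nat_lit 6) (nat_lit 511) (nat_lit 0) (nat_lit 203) (nat_lit 189) (nat_lit 178)) (PT.lf (nat_lit 37772) (nat_lit 6) (nat_lit 497) (nat_lit 0) (nat_lit 204) (nat_lit 189) (nat_lit 177)))) (PT.nd (nat_lit 78) (PT.lf (nat_lit 36632) (nat_lit 6) (nat_lit 482) (nat_lit 0) (nat_lit 205) (nat_lit 189) (nat_lit 176)) (PT.nd (nat_lit 78) (PT.lf (nat_lit 35416) (nat_lit 6) (nat_lit 466) (nat_lit 0) (nat_lit 206) (nat_lit 189) (nat_lit 175)) (PT.lf (nat_lit 34124) (nat_lit 6) (nat_lit 449) (nat_lit 0) (nat_lit 207) (nat_lit 189) (nat_lit 174))))) (PT.nd (nat_lit 234) (PT.nd (nat_lit 78) (PT.lf (nat_lit 32756) (nat_lit 6) (nat_lit 431) (nat_lit 0) (nat_lit 208) (nat_lit 189) (nat_lit 173)) (PT.nd (nat_lit 78) (PT.lf (nat_lit 31312) (nat_lit 6) (nat_lit 412) (nat_lit 0) (nat_lit 209) (nat_lit 189) (nat_lit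 172)) (PT.lf (nat_lit 29792) (nat_lit 6) (nat_lit 392) (nat_lit 0) (nat_lit 210) (nat_lit 189) (nat_lit 171)))) (PT.nd (nat_lit 156) (PT.nd (nat_lit 78) (PT.lf (nat_lit 28196) (nat_lit 6) (nat_lit 371) (nat_lit 0) (nat_lit 211) (nat_lit 189) (nat_lit 170)) (PT.lf (nat_lit 26524) (nat_lit 6) (nat_lit 349) (nat_lit 0) (nat_lit 212) (nat_lit 189) (nat_lit 169))) (PT.nd (nat_lit 55770) (PT.lf (nat_lit 24776) (nat_lit 6) (nat_lit 326) (nat_lit 0) (nat_lit 213) (nat_lit 189) (nat_lit 168)) (PT.lf (nat_lit 24852) (nat_lit 6) (nat_lit 327) (nat_lit 5) (nat_lit 167) (nat_lit 190) (nat_lit 213)))))) (PT.nd (nat_lit 546) (PT.nd (nat_lit 234) (PT.nd (nat_lit 78) (PT.lf (nat_lit 26600) (nat_lit 6) (nat_lit 350) (nat_lit 5) (nat_lit 168) (nat_lit 190) (nat_lit 212)) (PT.nd (nat_lit 78) (PT.lf (nat_lit 28272) (nat_lit 6) (nat_lit 372) (nat_lit 5) (nat_lit 169) (nat_lit 190) (nat_lit 211)) (PT.lf (nat_lit 29868) (nat_lit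 6) (nat_lit 393) (nat_lit 5) (nat_lit 170) (nat_lit 190) (nat_lit 210)))) (PT.nd (nat_lit 156) (PT.nd (nat_lit 78) (PT.lf (nat_lit 31388) (nat_lit 6) (nat_lit 413) (nat_lit 5) (nat_lit 171) (nat_lit 190) (nat_lit 209)) (PT.lf (nat_lit 32832) (nat_lit 6) (nat_lit 432) (nat_lit 5) (nat_lit 172) (nat_lit 190) (nat_lit 208))) (PT.nd (nat_lit 78) (PT.lf (nat_lit 34200) (nat_lit 6) (nat_lit 450) (nat_lit 5) (nat_lit 173) (nat_lit 190) (nat_lit 207)) (PT.lf (nat_lit 35492) (nat_lit 6) (nat_lit 467) (nat_lit 5) (nat_lit 174) (nat_lit 190) (nat_lit 206))))) (PT.nd (nat_lit 234) (PT.nd (nat_lit 78) (PT.lf (nat_lit 36708) (nat_lit 6) (nat_lit 483) (nat_lit 5) (nat_lit 175) (nat_lit 190) (nat_lit 205)) (PT.nd (nat_lit 78) (PT.lf (nat_lit 37848) (nat_lit 6) (nat_lit 498) (nat_lit 5) (nat_lit 176) (nat_lit 190) (nat_lit 204)) (PT.lf (nat_lit 38912) (nat_lit 6) (nat_lit 512) (nat_lit 5) (nat_lit 177) (nat_lit 190) (nat_lit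 203)))) (PT.nd (nat_lit 156) (PT.nd (nat_lit 78) (PT.lf (nat_lit 39900) (nat_lit 6) (nat_lit 525) (nat_lit 5) (nat_lit 178) (nat_lit 190) (nat_lit 202)) (PT.lf (nat_lit 40812) (nat_lit 6) (nat_lit 537) (nat_lit 5) (nat_lit 179) (nat_lit 190) (nat_lit 201))) (PT.nd (nat_lit 78) (PT.lf (nat_lit 41648) (nat_lit 6) (nat_lit 548) (nat_lit 5) (nat_lit 180) (nat_lit 190) (nat_lit 200)) (PT.lf (nat_lit 42408) (nat_lit 6) (nat_lit 558) (nat_lit 5) (nat_lit 181) (nat_lit 190) (nat_lit 199))))))))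
noncomputable def pc26 : PT := (PT.nd (nat_lit 2028) (PT.nd (nat_lit 1014) (PT.nd (nat_lit 468) (PT.nd (nat_lit 234) (PT.nd (nat_lit 78) (PT.lf (nat_lit 43092) (nat_lit 6) (nat_lit 567) (nat_lit 5) (nat_lit 182) (nat_lit 190) (nat_lit 198)) (PT.nd (nat_lit 78) (PT.lf (nat_lit 43700) (nat_lit 6) (nat_lit 575) (nat_lit 5) (nat_lit 183) (nat_lit 190) (nat_lit 197)) (PT.lf (nat_lit 44232) (nat_lit 6) (nat_lit 582) (nat_lit 5) (nat_lit 184) (nat_lit 190) (nat_lit 196)))) (PT.nd (nat_lit 78) (PT.lf (nat_lit 44688) (nat_lit 6) (nat_lit 588) (nat_lit 5) (nat_lit 185) (nat_lit 190) (nat_lit 195)) (PT.nd (nat_lit 78) (PT.lf (nat_lit 45068) (nat_lit 6) (nat_lit 593) (nat_lit 5) (nat_lit 186) (nat_lit 190) (nat_lit 194)) (PT.lf (nat_lit 45372) (nat_lit 6) (nat_lit 597) (nat_lit 5) (nat_lit 187) (nat_lit 190) (nat_lit 193))))) (PT.nd (nat_lit 234) (PT.nd (nat_lit 78) (PT.lf (nat_lit 45600) (nat_lit 6) (nat_lit 600)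 (nat_lit 5) (nat_lit 188) (nat_lit 190) (nat_lit 192)) (PT.nd (nat_lit 78) (PT.lf (nat_lit 45752) (nat_lit 6) (nat_lit 602) (nat_lit 5) (nat_lit 189) (nat_lit 190) (nat_lit 191)) (PT.lf (nat_lit 45828) (nat_lit 1) (nat_lit 603) (nat_lit 0) (nat_lit 190) (nat_lit 190) (nat_lit 190)))) (PT.nd (nat_lit 156) (PT.nd (nat_lit 78) (PT.lf (nat_lit 45752) (nat_lit 6) (nat_lit 602) (nat_lit 0) (nat_lit 191) (nat_lit 190) (nat_lit 189)) (PT.lf (nat_lit 45600) (nat_lit 6) (nat_lit 600) (nat_lit 0) (nat_lit 192) (nat_lit 190) (nat_lit 188))) (PT.nd (nat_lit 78) (PT.lf (nat_lit 45372) (nat_lit 6) (nat_lit 597) (nat_lit 0) (nat_lit 193) (nat_lit 190) (nat_lit 187)) (PT.lf (nat_lit 45068) (nat_lit 6) (nat_lit 593) (nat_lit 0) (nat_lit 194) (nat_lit 190) (nat_lit 186)))))) (PT.nd (nat_lit 468) (PT.nd (nat_lit 234) (PT.nd (nat_lit 78) (PT.lf (nat_lit 44688) (nat_lit 6) (nat_lit 588) (nat_lit 0) (nat_lit 195) (nat_lit 190)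 (nat_lit 185)) (PT.nd (nat_lit 78) (PT.lf (nat_lit 44232) (nat_lit 6) (nat_lit 582) (nat_lit 0) (nat_lit 196) (nat_lit 190) (nat_lit 184)) (PT.lf (nat_lit 43700) (nat_lit 6) (nat_lit 575) (nat_lit 0) (nat_lit 197) (nat_lit 190) (nat_lit 183)))) (PT.nd (nat_lit 78) (PT.lf (nat_lit 43092) (nat_lit 6) (nat_lit 567) (nat_lit 0) (nat_lit 198) (nat_lit 190) (nat_lit 182)) (PT.nd (nat_lit 78) (PT.lf (nat_lit 42408) (nat_lit 6) (nat_lit 558) (nat_lit 0) (nat_lit 199) (nat_lit 190) (nat_lit 181)) (PT.lf (nat_lit 41648) (nat_lit 6) (nat_lit 548) (nat_lit 0) (nat_lit 200) (nat_lit 190) (nat_lit 180))))) (PT.nd (nat_lit 234) (PT.nd (nat_lit 78) (PT.lf (nat_lit 40812) (nat_lit 6) (nat_lit 537) (nat_lit 0) (nat_lit 201) (nat_lit 190) (nat_lit 179)) (PT.nd (nat_lit 78) (PT.lf (nat_lit 39900) (nat_lit 6) (nat_lit 525) (nat_lit 0) (nat_lit 202) (nat_lit 190) (nat_lit 178)) (PT.lf (nat_lit 38912) (nat_lit 6) (nat_lit 512)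 (nat_lit 0) (nat_lit 203) (nat_lit 190) (nat_lit 177)))) (PT.nd (nat_lit 156) (PT.nd (nat_lit 78) (PT.lf (nat_lit 37848) (nat_lit 6) (nat_lit 498) (nat_lit 0) (nat_lit 204) (nat_lit 190) (nat_lit 176)) (PT.lf (nat_lit 36708) (nat_lit 6) (nat_lit 483) (nat_lit 0) (nat_lit 205) (nat_lit 190) (nat_lit 175))) (PT.nd (nat_lit 78) (PT.lf (nat_lit 35492) (nat_lit 6) (nat_lit 467) (nat_lit 0) (nat_lit 206) (nat_lit 190) (nat_lit 174)) (PT.lf (nat_lit 34200) (nat_lit 6) (nat_lit 450) (nat_lit 0) (nat_lit 207) (nat_lit 190) (nat_lit 173))))))) (PT.nd (nat_lit 56628) (PT.nd (nat_lit 56082) (PT.nd (nat_lit 234) (PT.nd (nat_lit 78) (PT.lf (nat_lit 32832) (nat_lit 6) (nat_lit 432) (nat_lit 0) (nat_lit 208) (nat_lit 190) (nat_lit 172)) (PT.nd (nat_lit 78) (PT.lf (nat_lit 31388) (nat_lit 6) (nat_lit 413) (nat_lit 0) (nat_lit 209) (nat_lit 190) (nat_lit 171)) (PT.lf (nat_lit 29868) (nat_lit 6) (nat_lit 393) (nat_lit 0)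 (nat_lit 210) (nat_lit 190) (nat_lit 170)))) (PT.nd (nat_lit 78) (PT.lf (nat_lit 28272) (nat_lit 6) (nat_lit 372) (nat_lit 0) (nat_lit 211) (nat_lit 190) (nat_lit 169)) (PT.nd (nat_lit 78) (PT.lf (nat_lit 26600) (nat_lit 6) (nat_lit 350) (nat_lit 0) (nat_lit 212) (nat_lit 190) (nat_lit 168)) (PT.lf (nat_lit 24852) (nat_lit 6) (nat_lit 327) (nat_lit 0) (nat_lit 213) (nat_lit 190) (nat_lit 167))))) (PT.nd (nat_lit 234) (PT.nd (nat_lit 78) (PT.lf (nat_lit 23864) (nat_lit 6) (nat_lit 314) (nat_lit 5) (nat_lit 166) (nat_lit 191) (nat_lit 213)) (PT.nd (nat_lit 78) (PT.lf (nat_lit 24928) (nat_lit 6) (nat_lit 328) (nat_lit 5) (nat_lit 167) (nat_lit 191) (nat_lit 212)) (PT.lf (nat_lit 26676) (nat_lit 6) (nat_lit 351) (nat_lit 5) (nat_lit 168) (nat_lit 191) (nat_lit 211)))) (PT.nd (nat_lit 156) (PT.nd (nat_lit 78) (PT.lf (nat_lit 28348) (nat_lit 6) (nat_lit 373) (nat_lit 5) (nat_lit 169) (nat_lit 191) (nat_lit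 210)) (PT.lf (nat_lit 29944) (nat_lit 6) (nat_lit 394) (nat_lit 5) (nat_lit 170) (nat_lit 191) (nat_lit 209))) (PT.nd (nat_lit 78) (PT.lf (nat_lit 31464) (nat_lit 6) (nat_lit 414) (nat_lit 5) (nat_lit 171) (nat_lit 191) (nat_lit 208)) (PT.lf (nat_lit 32908) (nat_lit 6) (nat_lit 433) (nat_lit 5) (nat_lit 172) (nat_lit 191) (nat_lit 207)))))) (PT.nd (nat_lit 546) (PT.nd (nat_lit 234) (PT.nd (nat_lit 78) (PT.lf (nat_lit 34276) (nat_lit 6) (nat_lit 451) (nat_lit 5) (nat_lit 173) (nat_lit 191) (nat_lit 206)) (PT.nd (nat_lit 78) (PT.lf (nat_lit 35568) (nat_lit 6) (nat_lit 468) (nat_lit 5) (nat_lit 174) (nat_lit 191) (nat_lit 205)) (PT.lf (nat_lit 36784) (nat_lit 6) (nat_lit 484) (nat_lit 5) (nat_lit 175) (nat_lit 191) (nat_lit 204)))) (PT.nd (nat_lit 156) (PT.nd (nat_lit 78) (PT.lf (nat_lit 37924) (nat_lit 6) (nat_lit 499) (nat_lit 5) (nat_lit 176) (nat_lit 191) (nat_lit 203)) (PT.lf (nat_lit 38988) (nat_lit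 6) (nat_lit 513) (nat_lit 5) (nat_lit 177) (nat_lit 191) (nat_lit 202))) (PT.nd (nat_lit 78) (PT.lf (nat_lit 39976) (nat_lit 6) (nat_lit 526) (nat_lit 5) (nat_lit 178) (nat_lit 191) (nat_lit 201)) (PT.lf (nat_lit 40888) (nat_lit 6) (nat_lit 538) (nat_lit 5) (nat_lit 179) (nat_lit 191) (nat_lit 200))))) (PT.nd (nat_lit 234) (PT.nd (nat_lit 78) (PT.lf (nat_lit 41724) (nat_lit 6) (nat_lit 549) (nat_lit 5) (nat_lit 180) (nat_lit 191) (nat_lit 199)) (PT.nd (nat_lit 78) (PT.lf (nat_lit 42484) (nat_lit 6) (nat_lit 559) (nat_lit 5) (nat_lit 181) (nat_lit 191) (nat_lit 198)) (PT.lf (nat_lit 43168) (nat_lit 6) (nat_lit 568) (nat_lit 5) (nat_lit 182) (nat_lit 191) (nat_lit 197)))) (PT.nd (nat_lit 156) (PT.nd (nat_lit 78) (PT.lf (nat_lit 43776) (nat_lit 6) (nat_lit 576) (nat_lit 5) (nat_lit 183) (nat_lit 191) (nat_lit 196)) (PT.lf (nat_lit 44308) (nat_lit 6) (nat_lit 583) (nat_lit 5) (nat_lit 184) (nat_lit 191) (nat_lit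 195))) (PT.nd (nat_lit 78) (PT.lf (nat_lit 44764) (nat_lit 6) (nat_lit 589) (nat_lit 5) (nat_lit 185) (nat_lit 191) (nat_lit 194)) (PT.lf (nat_lit 45144) (nat_lit 6) (nat_lit 594) (nat_lit 5) (nat_lit 186) (nat_lit 191) (nat_lit 193))))))))
noncomputable def pc27 : PT := (PT.nd (nat_lit 57642) (PT.nd (nat_lit 1014) (PT.nd (nat_lit 468) (PT.nd (nat_lit 234) (PT.nd (nat_lit 78) (PT.lf (nat_lit 45448) (nat_lit 6) (nat_lit 598) (nat_lit 5) (nat_lit 187) (nat_lit 191) (nat_lit 192)) (PT.nd (nat_lit 78) (PT.lf (nat_lit 45676) (nat_lit 3) (nat_lit 601) (nat_lit 4) (nat_lit 188) (nat_lit 191) (nat_lit 191)) (PT.lf (nat_lit 45752) (nat_lit 6) (nat_lit 602) (nat_lit 4) (nat_lit 189) (nat_lit 191) (nat_lit 190)))) (PT.nd (nat_lit 78) (PT.lf (nat_lit 45752) (nat_lit 6) (nat_lit 602) (nat_lit 2) (nat_lit 190) (nat_lit 191) (nat_lit 189)) (PT.nd (nat_lit 78) (PT.lf (nat_lit 45676) (nat_lit 3) (nat_lit 601) (nat_lit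 0) (nat_lit 191) (nat_lit 191) (nat_lit 188)) (PT.lf (nat_lit 45448) (nat_lit 6) (nat_lit 598) (nat_lit 0) (nat_lit 192) (nat_lit 191) (nat_lit 187))))) (PT.nd (nat_lit 234) (PT.nd (nat_lit 78) (PT.lf (nat_lit 45144) (nat_lit 6) (nat_lit 594) (nat_lit 0) (nat_lit 193) (nat_lit 191) (nat_lit 186)) (PT.nd (nat_lit 78) (PT.lf (nat_lit 44764) (nat_lit 6) (nat_lit 589) (nat_lit 0) (nat_lit 194) (nat_lit 191) (nat_lit 185)) (PT.lf (nat_lit 44308) (nat_lit 6) (nat_lit 583) (nat_lit 0) (nat_lit 195) (nat_lit 191) (nat_lit 184)))) (PT.nd (nat_lit 156) (PT.nd (nat_lit 78) (PT.lf (nat_lit 43776) (nat_lit 6) (nat_lit 576) (nat_lit 0) (nat_lit 196) (nat_lit 191) (nat_lit 183)) (PT.lf (nat_lit 43168) (nat_lit 6) (nat_lit 568) (nat_lit 0) (nat_lit 197) (nat_lit 191) (nat_lit 182))) (PT.nd (nat_lit 78) (PT.lf (nat_lit 42484) (nat_lit 6) (nat_lit 559) (nat_lit 0) (nat_lit 198) (nat_lit 191) (nat_lit 181)) (PT.lf (nat_lit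 41724) (nat_lit 6) (nat_lit 549) (nat_lit 0) (nat_lit 199) (nat_lit 191) (nat_lit 180)))))) (PT.nd (nat_lit 546) (PT.nd (nat_lit 234) (PT.nd (nat_lit 78) (PT.lf (nat_lit 40888) (nat_lit 6) (nat_lit 538) (nat_lit 0) (nat_lit 200) (nat_lit 191) (nat_lit 179)) (PT.nd (nat_lit 78) (PT.lf (nat_lit 39976) (nat_lit 6) (nat_lit 526) (nat_lit 0) (nat_lit 201) (nat_lit 191) (nat_lit 178)) (PT.lf (nat_lit 38988) (nat_lit 6) (nat_lit 513) (nat_lit 0) (nat_lit 202) (nat_lit 191) (nat_lit 177)))) (PT.nd (nat_lit 156) (PT.nd (nat_lit 78) (PT.lf (nat_lit 37924) (nat_lit 6) (nat_lit 499) (nat_lit 0) (nat_lit 203) (nat_lit 191) (nat_lit 176)) (PT.lf (nat_lit 36784) (nat_lit 6) (nat_lit 484) (nat_lit 0) (nat_lit 204) (nat_lit 191) (nat_lit 175))) (PT.nd (nat_lit 78) (PT.lf (nat_lit 35568) (nat_lit 6) (nat_lit 468) (nat_lit 0) (nat_lit 205) (nat_lit 191) (nat_lit 174)) (PT.lf (nat_lit 34276) (nat_lit 6) (nat_lit 451) (nat_lit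 0) (nat_lit 206) (nat_lit 191) (nat_lit 173))))) (PT.nd (nat_lit 234) (PT.nd (nat_lit 78) (PT.lf (nat_lit 32908) (nat_lit 6) (nat_lit 433) (nat_lit 0) (nat_lit 207) (nat_lit 191) (nat_lit 172)) (PT.nd (nat_lit 78) (PT.lf (nat_lit 31464) (nat_lit 6) (nat_lit 414) (nat_lit 0) (nat_lit 208) (nat_lit 191) (nat_lit 171)) (PT.lf (nat_lit 29944) (nat_lit 6) (nat_lit 394) (nat_lit 0) (nat_lit 209) (nat_lit 191) (nat_lit 170)))) (PT.nd (nat_lit 156) (PT.nd (nat_lit 78) (PT.lf (nat_lit 28348) (nat_lit 6) (nat_lit 373) (nat_lit 0) (nat_lit 210) (nat_lit 191) (nat_lit 169)) (PT.lf (nat_lit 26676) (nat_lit 6) (nat_lit 351) (nat_lit 0) (nat_lit 211) (nat_lit 191) (nat_lit 168))) (PT.nd (nat_lit 78) (PT.lf (nat_lit 24928) (nat_lit 6) (nat_lit 328) (nat_lit 0) (nat_lit 212) (nat_lit 191) (nat_lit 167)) (PT.lf (nat_lit 23864) (nat_lit 6) (nat_lit 314) (nat_lit 0) (nat_lit 213) (nat_lit 191) (nat_lit 166))))))) (PT.nd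 (nat_lit 1014) (PT.nd (nat_lit 468) (PT.nd (nat_lit 234) (PT.nd (nat_lit 78) (PT.lf (nat_lit 23028) (nat_lit 6) (nat_lit 303) (nat_lit 5) (nat_lit 165) (nat_lit 192) (nat_lit 213)) (PT.nd (nat_lit 78) (PT.lf (nat_lit 23940) (nat_lit 6) (nat_lit 315) (nat_lit 5) (nat_lit 166) (nat_lit 192) (nat_lit 212)) (PT.lf (nat_lit 25004) (nat_lit 6) (nat_lit 329) (nat_lit 5) (nat_lit 167) (nat_lit 192) (nat_lit 211)))) (PT.nd (nat_lit 78) (PT.lf (nat_lit 26752) (nat_lit 6) (nat_lit 352) (nat_lit 5) (nat_lit 168) (nat_lit 192) (nat_lit 210)) (PT.nd (nat_lit 78) (PT.lf (nat_lit 28424) (nat_lit 6) (nat_lit 374) (nat_lit 5) (nat_lit 169) (nat_lit 192) (nat_lit 209)) (PT.lf (nat_lit 30020) (nat_lit 6) (nat_lit 395) (nat_lit 5) (nat_lit 170) (nat_lit 192) (nat_lit 208))))) (PT.nd (nat_lit 234) (PT.nd (nat_lit 78) (PT.lf (nat_lit 31540) (nat_lit 6) (nat_lit 415) (nat_lit 5) (nat_lit 171) (nat_lit 192) (nat_lit 207)) (PT.nd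 (nat_lit 78) (PT.lf (nat_lit 32984) (nat_lit 6) (nat_lit 434) (nat_lit 5) (nat_lit 172) (nat_lit 192) (nat_lit 206)) (PT.lf (nat_lit 34352) (nat_lit 6) (nat_lit 452) (nat_lit 5) (nat_lit 173) (nat_lit 192) (nat_lit 205)))) (PT.nd (nat_lit 156) (PT.nd (nat_lit 78) (PT.lf (nat_lit 35644) (nat_lit 6) (nat_lit 469) (nat_lit 5) (nat_lit 174) (nat_lit 192) (nat_lit 204)) (PT.lf (nat_lit 36860) (nat_lit 6) (nat_lit 485) (nat_lit 5) (nat_lit 175) (nat_lit 192) (nat_lit 203))) (PT.nd (nat_lit 78) (PT.lf (nat_lit 38000) (nat_lit 6) (nat_lit 500) (nat_lit 5) (nat_lit 176) (nat_lit 192) (nat_lit 202)) (PT.lf (nat_lit 39064) (nat_lit 6) (nat_lit 514) (nat_lit 5) (nat_lit 177) (nat_lit 192) (nat_lit 201)))))) (PT.nd (nat_lit 546) (PT.nd (nat_lit 234) (PT.nd (nat_lit 78) (PT.lf (nat_lit 40052) (nat_lit 6) (nat_lit 527) (nat_lit 5) (nat_lit 178) (nat_lit 192) (nat_lit 200)) (PT.nd (nat_lit 78) (PT.lf (nat_lit 40964)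 (nat_lit 6) (nat_lit 539) (nat_lit 5) (nat_lit 179) (nat_lit 192) (nat_lit 199)) (PT.lf (nat_lit 41800) (nat_lit 6) (nat_lit 550) (nat_lit 5) (nat_lit 180) (nat_lit 192) (nat_lit 198)))) (PT.nd (nat_lit 156) (PT.nd (nat_lit 78) (PT.lf (nat_lit 42560) (nat_lit 6) (nat_lit 560) (nat_lit 5) (nat_lit 181) (nat_lit 192) (nat_lit 197)) (PT.lf (nat_lit 43244) (nat_lit 6) (nat_lit 569) (nat_lit 5) (nat_lit 182) (nat_lit 192) (nat_lit 196))) (PT.nd (nat_lit 78) (PT.lf (nat_lit 43852) (nat_lit 6) (nat_lit 577) (nat_lit 5) (nat_lit 183) (nat_lit 192) (nat_lit 195)) (PT.lf (nat_lit 44384) (nat_lit 6) (nat_lit 584) (nat_lit 5) (nat_lit 184) (nat_lit 192) (nat_lit 194))))) (PT.nd (nat_lit 234) (PT.nd (nat_lit 78) (PT.lf (nat_lit 44840) (nat_lit 6) (nat_lit 590) (nat_lit 5) (nat_lit 185) (nat_lit 192) (nat_lit 193)) (PT.nd (nat_lit 78) (PT.lf (nat_lit 45220) (nat_lit 3) (nat_lit 595) (nat_lit 4) (nat_lit 186) (nat_lit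 192) (nat_lit 192)) (PT.lf (nat_lit 45448) (nat_lit 6) (nat_lit 598) (nat_lit 4) (nat_lit 187) (nat_lit 192) (nat_lit 191)))) (PT.nd (nat_lit 156) (PT.nd (nat_lit 78) (PT.lf (nat_lit 45600) (nat_lit 6) (nat_lit 600) (nat_lit 4) (nat_lit 188) (nat_lit 192) (nat_lit 190)) (PT.lf (nat_lit 45524) (nat_lit 3) (nat_lit 599) (nat_lit 2) (nat_lit 189) (nat_lit 192) (nat_lit 189))) (PT.nd (nat_lit 78) (PT.lf (nat_lit 45600) (nat_lit 6) (nat_lit 600) (nat_lit 2) (nat_lit 190) (nat_lit 192) (nat_lit 188)) (PT.lf (nat_lit 45448) (nat_lit 6) (nat_lit 598) (nat_lit 2) (nat_lit 191) (nat_lit 192) (nat_lit 187))))))))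
noncomputable def pc28 : PT := (PT.nd (nat_lit 57486) (PT.nd (nat_lit 1014) (PT.nd (nat_lit 468) (PT.nd (nat_lit 234) (PT.nd (nat_lit 78) (PT.lf (nat_lit 45220) (nat_lit 3) (nat_lit 595) (nat_lit 0) (nat_lit 192) (nat_lit 192) (nat_lit 186)) (PT.nd (nat_lit 78) (PT.lf (nat_lit 44840) (nat_lit 6) (nat_lit 590) (nat_lit 0) (nat_lit 193) (nat_lit 192) (nat_lit 185)) (PT.lf (nat_lit 44384) (nat_lit 6) (nat_lit 584) (nat_lit 0) (nat_lit 194) (nat_lit 192) (nat_lit 184)))) (PT.nd (nat_lit 78) (PT.lf (nat_lit 43852) (nat_lit 6) (nat_lit 577) (nat_lit 0) (nat_lit 195) (nat_lit 192) (nat_lit 183)) (PT.nd (nat_lit 78) (PT.lf (nat_lit 43244) (nat_lit 6) (nat_lit 569) (nat_lit 0) (nat_lit 196) (nat_lit 192) (nat_lit 182)) (PT.lf (nat_lit 42560) (nat_lit 6) (nat_lit 560) (nat_lit 0) (nat_lit 197) (nat_lit 192) (nat_lit 181))))) (PT.nd (nat_lit 234) (PT.nd (nat_lit 78) (PT.lf (nat_lit 41800) (nat_lit 6) (nat_lit 550)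 (nat_lit 0) (nat_lit 198) (nat_lit 192) (nat_lit 180)) (PT.nd (nat_lit 78) (PT.lf (nat_lit 40964) (nat_lit 6) (nat_lit 539) (nat_lit 0) (nat_lit 199) (nat_lit 192) (nat_lit 179)) (PT.lf (nat_lit 40052) (nat_lit 6) (nat_lit 527) (nat_lit 0) (nat_lit 200) (nat_lit 192) (nat_lit 178)))) (PT.nd (nat_lit 156) (PT.nd (nat_lit 78) (PT.lf (nat_lit 39064) (nat_lit 6) (nat_lit 514) (nat_lit 0) (nat_lit 201) (nat_lit 192) (nat_lit 177)) (PT.lf (nat_lit 38000) (nat_lit 6) (nat_lit 500) (nat_lit 0) (nat_lit 202) (nat_lit 192) (nat_lit 176))) (PT.nd (nat_lit 78) (PT.lf (nat_lit 36860) (nat_lit 6) (nat_lit 485) (nat_lit 0) (nat_lit 203) (nat_lit 192) (nat_lit 175)) (PT.lf (nat_lit 35644) (nat_lit 6) (nat_lit 469) (nat_lit 0) (nat_lit 204) (nat_lit 192) (nat_lit 174)))))) (PT.nd (nat_lit 468) (PT.nd (nat_lit 234) (PT.nd (nat_lit 78) (PT.lf (nat_lit 34352) (nat_lit 6) (nat_lit 452) (nat_lit 0) (nat_lit 205) (nat_lit 192)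 (nat_lit 173)) (PT.nd (nat_lit 78) (PT.lf (nat_lit 32984) (nat_lit 6) (nat_lit 434) (nat_lit 0) (nat_lit 206) (nat_lit 192) (nat_lit 172)) (PT.lf (nat_lit 31540) (nat_lit 6) (nat_lit 415) (nat_lit 0) (nat_lit 207) (nat_lit 192) (nat_lit 171)))) (PT.nd (nat_lit 78) (PT.lf (nat_lit 30020) (nat_lit 6) (nat_lit 395) (nat_lit 0) (nat_lit 208) (nat_lit 192) (nat_lit 170)) (PT.nd (nat_lit 78) (PT.lf (nat_lit 28424) (nat_lit 6) (nat_lit 374) (nat_lit 0) (nat_lit 209) (nat_lit 192) (nat_lit 169)) (PT.lf (nat_lit 26752) (nat_lit 6) (nat_lit 352) (nat_lit 0) (nat_lit 210) (nat_lit 192) (nat_lit 168))))) (PT.nd (nat_lit 55692) (PT.nd (nat_lit 78) (PT.lf (nat_lit 25004) (nat_lit 6) (nat_lit 329) (nat_lit 0) (nat_lit 211) (nat_lit 192) (nat_lit 167)) (PT.nd (nat_lit 78) (PT.lf (nat_lit 23940) (nat_lit 6) (nat_lit 315) (nat_lit 0) (nat_lit 212) (nat_lit 192) (nat_lit 166)) (PT.lf (nat_lit 23028) (nat_lit 6) (nat_lit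 303) (nat_lit 0) (nat_lit 213) (nat_lit 192) (nat_lit 165)))) (PT.nd (nat_lit 156) (PT.nd (nat_lit 78) (PT.lf (nat_lit 22192) (nat_lit 6) (nat_lit 292) (nat_lit 5) (nat_lit 164) (nat_lit 193) (nat_lit 213)) (PT.lf (nat_lit 23104) (nat_lit 6) (nat_lit 304) (nat_lit 5) (nat_lit 165) (nat_lit 193) (nat_lit 212))) (PT.nd (nat_lit 78) (PT.lf (nat_lit 24016) (nat_lit 6) (nat_lit 316) (nat_lit 5) (nat_lit 166) (nat_lit 193) (nat_lit 211)) (PT.lf (nat_lit 25080) (nat_lit 6) (nat_lit 330) (nat_lit 5) (nat_lit 167) (nat_lit 193) (nat_lit 210))))))) (PT.nd (nat_lit 1014) (PT.nd (nat_lit 468) (PT.nd (nat_lit 234) (PT.nd (nat_lit 78) (PT.lf (nat_lit 26828) (nat_lit 6) (nat_lit 353) (nat_lit 5) (nat_lit 168) (nat_lit 193) (nat_lit 209)) (PT.nd (nat_lit 78) (PT.lf (nat_lit 28500) (nat_lit 6) (nat_lit 375) (nat_lit 5) (nat_lit 169) (nat_lit 193) (nat_lit 208)) (PT.lf (nat_lit 30096) (nat_lit 6) (nat_lit 396) (nat_lit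 5) (nat_lit 170) (nat_lit 193) (nat_lit 207)))) (PT.nd (nat_lit 78) (PT.lf (nat_lit 31616) (nat_lit 6) (nat_lit 416) (nat_lit 5) (nat_lit 171) (nat_lit 193) (nat_lit 206)) (PT.nd (nat_lit 78) (PT.lf (nat_lit 33060) (nat_lit 6) (nat_lit 435) (nat_lit 5) (nat_lit 172) (nat_lit 193) (nat_lit 205)) (PT.lf (nat_lit 34428) (nat_lit 6) (nat_lit 453) (nat_lit 5) (nat_lit 173) (nat_lit 193) (nat_lit 204))))) (PT.nd (nat_lit 234) (PT.nd (nat_lit 78) (PT.lf (nat_lit 35720) (nat_lit 6) (nat_lit 470) (nat_lit 5) (nat_lit 174) (nat_lit 193) (nat_lit 203)) (PT.nd (nat_lit 78) (PT.lf (nat_lit 36936) (nat_lit 6) (nat_lit 486) (nat_lit 5) (nat_lit 175) (nat_lit 193) (nat_lit 202)) (PT.lf (nat_lit 38076) (nat_lit 6) (nat_lit 501) (nat_lit 5) (nat_lit 176) (nat_lit 193) (nat_lit 201)))) (PT.nd (nat_lit 156) (PT.nd (nat_lit 78) (PT.lf (nat_lit 39140) (nat_lit 6) (nat_lit 515) (nat_lit 5) (nat_lit 177) (nat_lit 193) (nat_lit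 200)) (PT.lf (nat_lit 40128) (nat_lit 6) (nat_lit 528) (nat_lit 5) (nat_lit 178) (nat_lit 193) (nat_lit 199))) (PT.nd (nat_lit 78) (PT.lf (nat_lit 41040) (nat_lit 6) (nat_lit 540) (nat_lit 5) (nat_lit 179) (nat_lit 193) (nat_lit 198)) (PT.lf (nat_lit 41876) (nat_lit 6) (nat_lit 551) (nat_lit 5) (nat_lit 180) (nat_lit 193) (nat_lit 197)))))) (PT.nd (nat_lit 546) (PT.nd (nat_lit 234) (PT.nd (nat_lit 78) (PT.lf (nat_lit 42636) (nat_lit 6) (nat_lit 561) (nat_lit 5) (nat_lit 181) (nat_lit 193) (nat_lit 196)) (PT.nd (nat_lit 78) (PT.lf (nat_lit 43320) (nat_lit 6) (nat_lit 570) (nat_lit 5) (nat_lit 182) (nat_lit 193) (nat_lit 195)) (PT.lf (nat_lit 43928) (nat_lit 6) (nat_lit 578) (nat_lit 5) (nat_lit 183) (nat_lit 193) (nat_lit 194)))) (PT.nd (nat_lit 156) (PT.nd (nat_lit 78) (PT.lf (nat_lit 44460) (nat_lit 3) (nat_lit 585) (nat_lit 4) (nat_lit 184) (nat_lit 193) (nat_lit 193)) (PT.lf (nat_lit 44840) (nat_lit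 6) (nat_lit 590) (nat_lit 4) (nat_lit 185) (nat_lit 193) (nat_lit 192))) (PT.nd (nat_lit 78) (PT.lf (nat_lit 45144) (nat_lit 6) (nat_lit 594) (nat_lit 4) (nat_lit 186) (nat_lit 193) (nat_lit 191)) (PT.lf (nat_lit 45372) (nat_lit 6) (nat_lit 597) (nat_lit 4) (nat_lit 187) (nat_lit 193) (nat_lit 190))))) (PT.nd (nat_lit 234) (PT.nd (nat_lit 78) (PT.lf (nat_lit 45296) (nat_lit 6) (nat_lit 596) (nat_lit 4) (nat_lit 188) (nat_lit 193) (nat_lit 189)) (PT.nd (nat_lit 78) (PT.lf (nat_lit 45296) (nat_lit 6) (nat_lit 596) (nat_lit 2) (nat_lit 189) (nat_lit 193) (nat_lit 188)) (PT.lf (nat_lit 45372) (nat_lit 6) (nat_lit 597) (nat_lit 2) (nat_lit 190) (nat_lit 193) (nat_lit 187)))) (PT.nd (nat_lit 156) (PT.nd (nat_lit 78) (PT.lf (nat_lit 45144) (nat_lit 6) (nat_lit 594) (nat_lit 2) (nat_lit 191) (nat_lit 193) (nat_lit 186)) (PT.lf (nat_lit 44840) (nat_lit 6) (nat_lit 590) (nat_lit 2) (nat_lit 192) (nat_lit 193) (nat_lit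 185))) (PT.nd (nat_lit 78) (PT.lf (nat_lit 44460) (nat_lit 3) (nat_lit 585) (nat_lit 0) (nat_lit 193) (nat_lit 193) (nat_lit 184)) (PT.lf (nat_lit 43928) (nat_lit 6) (nat_lit 578) (nat_lit 0) (nat_lit 194) (nat_lit 193) (nat_lit 183))))))))
noncomputable def pc29 : PT := (PT.nd (nat_lit 57408) (PT.nd (nat_lit 1014) (PT.nd (nat_lit 468) (PT.nd (nat_lit 234) (PT.nd (nat_lit 78) (PT.lf (nat_lit 43320) (nat_lit 6) (nat_lit 570) (nat_lit 0) (nat_lit 195) (nat_lit 193) (nat_lit 182)) (PT.nd (nat_lit 78) (PT.lf (nat_lit 42636) (nat_lit 6) (nat_lit 561) (nat_lit 0) (nat_lit 196) (nat_lit 193) (nat_lit 181)) (PT.lf (nat_lit 41876) (nat_lit 6) (nat_lit 551) (nat_lit 0) (nat_lit 197) (nat_lit 193) (nat_lit 180)))) (PT.nd (nat_lit 78) (PT.lf (nat_lit 41040) (nat_lit 6) (nat_lit 540) (nat_lit 0) (nat_lit 198) (nat_lit 193) (nat_lit 179)) (PT.nd (nat_lit 78) (PT.lf (nat_lit 40128) (nat_lit 6) (nat_lit 528) (nat_lit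 0) (nat_lit 199) (nat_lit 193) (nat_lit 178)) (PT.lf (nat_lit 39140) (nat_lit 6) (nat_lit 515) (nat_lit 0) (nat_lit 200) (nat_lit 193) (nat_lit 177))))) (PT.nd (nat_lit 234) (PT.nd (nat_lit 78) (PT.lf (nat_lit 38076) (nat_lit 6) (nat_lit 501) (nat_lit 0) (nat_lit 201) (nat_lit 193) (nat_lit 176)) (PT.nd (nat_lit 78) (PT.lf (nat_lit 36936) (nat_lit 6) (nat_lit 486) (nat_lit 0) (nat_lit 202) (nat_lit 193) (nat_lit 175)) (PT.lf (nat_lit 35720) (nat_lit 6) (nat_lit 470) (nat_lit 0) (nat_lit 203) (nat_lit 193) (nat_lit 174)))) (PT.nd (nat_lit 156) (PT.nd (nat_lit 78) (PT.lf (nat_lit 34428) (nat_lit 6) (nat_lit 453) (nat_lit 0) (nat_lit 204) (nat_lit 193) (nat_lit 173)) (PT.lf (nat_lit 33060) (nat_lit 6) (nat_lit 435) (nat_lit 0) (nat_lit 205) (nat_lit 193) (nat_lit 172))) (PT.nd (nat_lit 78) (PT.lf (nat_lit 31616) (nat_lit 6) (nat_lit 416) (nat_lit 0) (nat_lit 206) (nat_lit 193) (nat_lit 171)) (PT.lf (nat_lit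 30096) (nat_lit 6) (nat_lit 396) (nat_lit 0) (nat_lit 207) (nat_lit 193) (nat_lit 170)))))) (PT.nd (nat_lit 55848) (PT.nd (nat_lit 234) (PT.nd (nat_lit 78) (PT.lf (nat_lit 28500) (nat_lit 6) (nat_lit 375) (nat_lit 0) (nat_lit 208) (nat_lit 193) (nat_lit 169)) (PT.nd (nat_lit 78) (PT.lf (nat_lit 26828) (nat_lit 6) (nat_lit 353) (nat_lit 0) (nat_lit 209) (nat_lit 193) (nat_lit 168)) (PT.lf (nat_lit 25080) (nat_lit 6) (nat_lit 330) (nat_lit 0) (nat_lit 210) (nat_lit 193) (nat_lit 167)))) (PT.nd (nat_lit 78) (PT.lf (nat_lit 24016) (nat_lit 6) (nat_lit 316) (nat_lit 0) (nat_lit 211) (nat_lit 193) (nat_lit 166)) (PT.nd (nat_lit 78) (PT.lf (nat_lit 23104) (nat_lit 6) (nat_lit 304) (nat_lit 0) (nat_lit 212) (nat_lit 193) (nat_lit 165)) (PT.lf (nat_lit 22192) (nat_lit 6) (nat_lit 292) (nat_lit 0) (nat_lit 213) (nat_lit 193) (nat_lit 164))))) (PT.nd (nat_lit 234) (PT.nd (nat_lit 78) (PT.lf (nat_lit 21432) (nat_lit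 6) (nat_lit 282) (nat_lit 5) (nat_lit 163) (nat_lit 194) (nat_lit 213)) (PT.nd (nat_lit 78) (PT.lf (nat_lit 22268) (nat_lit 6) (nat_lit 293) (nat_lit 5) (nat_lit 164) (nat_lit 194) (nat_lit 212)) (PT.lf (nat_lit 23180) (nat_lit 6) (nat_lit 305) (nat_lit 5) (nat_lit 165) (nat_lit 194) (nat_lit 211)))) (PT.nd (nat_lit 156) (PT.nd (nat_lit 78) (PT.lf (nat_lit 24092) (nat_lit 6) (nat_lit 317) (nat_lit 5) (nat_lit 166) (nat_lit 194) (nat_lit 210)) (PT.lf (nat_lit 25156) (nat_lit 6) (nat_lit 331) (nat_lit 5) (nat_lit 167) (nat_lit 194) (nat_lit 209))) (PT.nd (nat_lit 78) (PT.lf (nat_lit 26904) (nat_lit 6) (nat_lit 354) (nat_lit 5) (nat_lit 168) (nat_lit 194) (nat_lit 208)) (PT.lf (nat_lit 28576) (nat_lit 6) (nat_lit 376) (nat_lit 5) (nat_lit 169) (nat_lit 194) (nat_lit 207))))))) (PT.nd (nat_lit 1014) (PT.nd (nat_lit 468) (PT.nd (nat_lit 234) (PT.nd (nat_lit 78) (PT.lf (nat_lit 30172) (nat_lit 6) (nat_lit 397)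 (nat_lit 5) (nat_lit 170) (nat_lit 194) (nat_lit 206)) (PT.nd (nat_lit 78) (PT.lf (nat_lit 31692) (nat_lit 6) (nat_lit 417) (nat_lit 5) (nat_lit 171) (nat_lit 194) (nat_lit 205)) (PT.lf (nat_lit 33136) (nat_lit 6) (nat_lit 436) (nat_lit 5) (nat_lit 172) (nat_lit 194) (nat_lit 204)))) (PT.nd (nat_lit 78) (PT.lf (nat_lit 34504) (nat_lit 6) (nat_lit 454) (nat_lit 5) (nat_lit 173) (nat_lit 194) (nat_lit 203)) (PT.nd (nat_lit 78) (PT.lf (nat_lit 35796) (nat_lit 6) (nat_lit 471) (nat_lit 5) (nat_lit 174) (nat_lit 194) (nat_lit 202)) (PT.lf (nat_lit 37012) (nat_lit 6) (nat_lit 487) (nat_lit 5) (nat_lit 175) (nat_lit 194) (nat_lit 201))))) (PT.nd (nat_lit 234) (PT.nd (nat_lit 78) (PT.lf (nat_lit 38152) (nat_lit 6) (nat_lit 502) (nat_lit 5) (nat_lit 176) (nat_lit 194) (nat_lit 200)) (PT.nd (nat_lit 78) (PT.lf (nat_lit 39216) (nat_lit 6) (nat_lit 516) (nat_lit 5) (nat_lit 177) (nat_lit 194) (nat_lit 199)) (PT.lf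 (nat_lit 40204) (nat_lit 6) (nat_lit 529) (nat_lit 5) (nat_lit 178) (nat_lit 194) (nat_lit 198)))) (PT.nd (nat_lit 156) (PT.nd (nat_lit 78) (PT.lf (nat_lit 41116) (nat_lit 6) (nat_lit 541) (nat_lit 5) (nat_lit 179) (nat_lit 194) (nat_lit 197)) (PT.lf (nat_lit 41952) (nat_lit 6) (nat_lit 552) (nat_lit 5) (nat_lit 180) (nat_lit 194) (nat_lit 196))) (PT.nd (nat_lit 78) (PT.lf (nat_lit 42712) (nat_lit 6) (nat_lit 562) (nat_lit 5) (nat_lit 181) (nat_lit 194) (nat_lit 195)) (PT.lf (nat_lit 43396) (nat_lit 3) (nat_lit 571) (nat_lit 4) (nat_lit 182) (nat_lit 194) (nat_lit 194)))))) (PT.nd (nat_lit 546) (PT.nd (nat_lit 234) (PT.nd (nat_lit 78) (PT.lf (nat_lit 43928) (nat_lit 6) (nat_lit 578) (nat_lit 4) (nat_lit 183) (nat_lit 194) (nat_lit 193)) (PT.nd (nat_lit 78) (PT.lf (nat_lit 44384) (nat_lit 6) (nat_lit 584) (nat_lit 4) (nat_lit 184) (nat_lit 194) (nat_lit 192)) (PT.lf (nat_lit 44764) (nat_lit 6) (nat_lit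 589) (nat_lit 4) (nat_lit 185) (nat_lit 194) (nat_lit 191)))) (PT.nd (nat_lit 156) (PT.nd (nat_lit 78) (PT.lf (nat_lit 45068) (nat_lit 6) (nat_lit 593) (nat_lit 4) (nat_lit 186) (nat_lit 194) (nat_lit 190)) (PT.lf (nat_lit 44992) (nat_lit 6) (nat_lit 592) (nat_lit 4) (nat_lit 187) (nat_lit 194) (nat_lit 189))) (PT.nd (nat_lit 78) (PT.lf (nat_lit 44916) (nat_lit 3) (nat_lit 591) (nat_lit 2) (nat_lit 188) (nat_lit 194) (nat_lit 188)) (PT.lf (nat_lit 44992) (nat_lit 6) (nat_lit 592) (nat_lit 2) (nat_lit 189) (nat_lit 194) (nat_lit 187))))) (PT.nd (nat_lit 234) (PT.nd (nat_lit 78) (PT.lf (nat_lit 45068) (nat_lit 6) (nat_lit 593) (nat_lit 2) (nat_lit 190) (nat_lit 194) (nat_lit 186)) (PT.nd (nat_lit 78) (PT.lf (nat_lit 44764) (nat_lit 6) (nat_lit 589) (nat_lit 2) (nat_lit 191) (nat_lit 194) (nat_lit 185)) (PT.lf (nat_lit 44384) (nat_lit 6) (nat_lit 584) (nat_lit 2) (nat_lit 192) (nat_lit 194) (nat_lit 184))))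 (PT.nd (nat_lit 156) (PT.nd (nat_lit 78) (PT.lf (nat_lit 43928) (nat_lit 6) (nat_lit 578) (nat_lit 2) (nat_lit 193) (nat_lit 194) (nat_lit 183)) (PT.lf (nat_lit 43396) (nat_lit 3) (nat_lit 571) (nat_lit 0) (nat_lit 194) (nat_lit 194) (nat_lit 182))) (PT.nd (nat_lit 78) (PT.lf (nat_lit 42712) (nat_lit 6) (nat_lit 562) (nat_lit 0) (nat_lit 195) (nat_lit 194) (nat_lit 181)) (PT.lf (nat_lit 41952) (nat_lit 6) (nat_lit 552) (nat_lit 0) (nat_lit 196) (nat_lit 194) (nat_lit 180))))))))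
noncomputable def pc30 : PT := (PT.nd (nat_lit 57252) (PT.nd (nat_lit 1014) (PT.nd (nat_lit 468) (PT.nd (nat_lit 234) (PT.nd (nat_lit 78) (PT.lf (nat_lit 41116) (nat_lit 6) (nat_lit 541) (nat_lit 0) (nat_lit 197) (nat_lit 194) (nat_lit 179)) (PT.nd (nat_lit 78) (PT.lf (nat_lit 40204) (nat_lit 6) (nat_lit 529) (nat_lit 0) (nat_lit 198) (nat_lit 194) (nat_lit 178)) (PT.lf (nat_lit 39216) (nat_lit 6) (nat_lit 516) (nat_lit 0) (nat_lit 199) (nat_lit 194) (nat_lit 177)))) (PT.nd (nat_lit 78) (PT.lf (nat_lit 38152) (nat_lit 6) (nat_lit 502) (nat_lit 0) (nat_lit 200) (nat_lit 194) (nat_lit 176)) (PT.nd (nat_lit 78) (PT.lf (nat_lit 37012) (nat_lit 6) (nat_lit 487) (nat_lit 0) (nat_lit 201) (nat_lit 194) (nat_lit 175)) (PT.lf (nat_lit 35796) (nat_lit 6) (nat_lit 471) (nat_lit 0) (nat_lit 202) (nat_lit 194) (nat_lit 174))))) (PT.nd (nat_lit 234) (PT.nd (nat_lit 78) (PT.lf (nat_lit 34504) (nat_lit 6) (nat_lit 454)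 (nat_lit 0) (nat_lit 203) (nat_lit 194) (nat_lit 173)) (PT.nd (nat_lit 78) (PT.lf (nat_lit 33136) (nat_lit 6) (nat_lit 436) (nat_lit 0) (nat_lit 204) (nat_lit 194) (nat_lit 172)) (PT.lf (nat_lit 31692) (nat_lit 6) (nat_lit 417) (nat_lit 0) (nat_lit 205) (nat_lit 194) (nat_lit 171)))) (PT.nd (nat_lit 156) (PT.nd (nat_lit 78) (PT.lf (nat_lit 30172) (nat_lit 6) (nat_lit 397) (nat_lit 0) (nat_lit 206) (nat_lit 194) (nat_lit 170)) (PT.lf (nat_lit 28576) (nat_lit 6) (nat_lit 376) (nat_lit 0) (nat_lit 207) (nat_lit 194) (nat_lit 169))) (PT.nd (nat_lit 78) (PT.lf (nat_lit 26904) (nat_lit 6) (nat_lit 354) (nat_lit 0) (nat_lit 208) (nat_lit 194) (nat_lit 168)) (PT.lf (nat_lit 25156) (nat_lit 6) (nat_lit 331) (nat_lit 0) (nat_lit 209) (nat_lit 194) (nat_lit 167)))))) (PT.nd (nat_lit 55692) (PT.nd (nat_lit 234) (PT.nd (nat_lit 78) (PT.lf (nat_lit 24092) (nat_lit 6) (nat_lit 317) (nat_lit 0) (nat_lit 210) (nat_lit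 194) (nat_lit 166)) (PT.nd (nat_lit 78) (PT.lf (nat_lit 23180) (nat_lit 6) (nat_lit 305) (nat_lit 0) (nat_lit 211) (nat_lit 194) (nat_lit 165)) (PT.lf (nat_lit 22268) (nat_lit 6) (nat_lit 293) (nat_lit 0) (nat_lit 212) (nat_lit 194) (nat_lit 164)))) (PT.nd (nat_lit 55302) (PT.lf (nat_lit 21432) (nat_lit 6) (nat_lit 282) (nat_lit 0) (nat_lit 213) (nat_lit 194) (nat_lit 163)) (PT.nd (nat_lit 78) (PT.lf (nat_lit 19912) (nat_lit 6) (nat_lit 262) (nat_lit 5) (nat_lit 161) (nat_lit 195) (nat_lit 214)) (PT.lf (nat_lit 20672) (nat_lit 6) (nat_lit 272) (nat_lit 5) (nat_lit 162) (nat_lit 195) (nat_lit 213))))) (PT.nd (nat_lit 234) (PT.nd (nat_lit 78) (PT.lf (nat_lit 21508) (nat_lit 6) (nat_lit 283) (nat_lit 5) (nat_lit 163) (nat_lit 195) (nat_lit 212)) (PT.nd (nat_lit 78) (PT.lf (nat_lit 22344) (nat_lit 6) (nat_lit 294) (nat_lit 5) (nat_lit 164) (nat_lit 195) (nat_lit 211)) (PT.lf (nat_lit 23256) (nat_lit 6) (nat_lit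 306) (nat_lit 5) (nat_lit 165) (nat_lit 195) (nat_lit 210)))) (PT.nd (nat_lit 156) (PT.nd (nat_lit 78) (PT.lf (nat_lit 24168) (nat_lit 6) (nat_lit 318) (nat_lit 5) (nat_lit 166) (nat_lit 195) (nat_lit 209)) (PT.lf (nat_lit 25232) (nat_lit 6) (nat_lit 332) (nat_lit 5) (nat_lit 167) (nat_lit 195) (nat_lit 208))) (PT.nd (nat_lit 78) (PT.lf (nat_lit 26980) (nat_lit 6) (nat_lit 355) (nat_lit 5) (nat_lit 168) (nat_lit 195) (nat_lit 207)) (PT.lf (nat_lit 28652) (nat_lit 6) (nat_lit 377) (nat_lit 5) (nat_lit 169) (nat_lit 195) (nat_lit 206))))))) (PT.nd (nat_lit 1014) (PT.nd (nat_lit 468) (PT.nd (nat_lit 234) (PT.nd (nat_lit 78) (PT.lf (nat_lit 30248) (nat_lit 6) (nat_lit 398) (nat_lit 5) (nat_lit 170) (nat_lit 195) (nat_lit 205)) (PT.nd (nat_lit 78) (PT.lf (nat_lit 31768) (nat_lit 6) (nat_lit 418) (nat_lit 5) (nat_lit 171) (nat_lit 195) (nat_lit 204)) (PT.lf (nat_lit 33212) (nat_lit 6) (nat_lit 437) (nat_lit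 5) (nat_lit 172) (nat_lit 195) (nat_lit 203)))) (PT.nd (nat_lit 78) (PT.lf (nat_lit 34580) (nat_lit 6) (nat_lit 455) (nat_lit 5) (nat_lit 173) (nat_lit 195) (nat_lit 202)) (PT.nd (nat_lit 78) (PT.lf (nat_lit 35872) (nat_lit 6) (nat_lit 472) (nat_lit 5) (nat_lit 174) (nat_lit 195) (nat_lit 201)) (PT.lf (nat_lit 37088) (nat_lit 6) (nat_lit 488) (nat_lit 5) (nat_lit 175) (nat_lit 195) (nat_lit 200))))) (PT.nd (nat_lit 234) (PT.nd (nat_lit 78) (PT.lf (nat_lit 38228) (nat_lit 6) (nat_lit 503) (nat_lit 5) (nat_lit 176) (nat_lit 195) (nat_lit 199)) (PT.nd (nat_lit 78) (PT.lf (nat_lit 39292) (nat_lit 6) (nat_lit 517) (nat_lit 5) (nat_lit 177) (nat_lit 195) (nat_lit 198)) (PT.lf (nat_lit 40280) (nat_lit 6) (nat_lit 530) (nat_lit 5) (nat_lit 178) (nat_lit 195) (nat_lit 197)))) (PT.nd (nat_lit 156) (PT.nd (nat_lit 78) (PT.lf (nat_lit 41192) (nat_lit 6) (nat_lit 542) (nat_lit 5) (nat_lit 179) (nat_lit 195) (nat_lit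 196)) (PT.lf (nat_lit 42028) (nat_lit 3) (nat_lit 553) (nat_lit 4) (nat_lit 180) (nat_lit 195) (nat_lit 195))) (PT.nd (nat_lit 78) (PT.lf (nat_lit 42712) (nat_lit 6) (nat_lit 562) (nat_lit 4) (nat_lit 181) (nat_lit 195) (nat_lit 194)) (PT.lf (nat_lit 43320) (nat_lit 6) (nat_lit 570) (nat_lit 4) (nat_lit 182) (nat_lit 195) (nat_lit 193)))))) (PT.nd (nat_lit 546) (PT.nd (nat_lit 234) (PT.nd (nat_lit 78) (PT.lf (nat_lit 43852) (nat_lit 6) (nat_lit 577) (nat_lit 4) (nat_lit 183) (nat_lit 195) (nat_lit 192)) (PT.nd (nat_lit 78) (PT.lf (nat_lit 44308) (nat_lit 6) (nat_lit 583) (nat_lit 4) (nat_lit 184) (nat_lit 195) (nat_lit 191)) (PT.lf (nat_lit 44688) (nat_lit 6) (nat_lit 588) (nat_lit 4) (nat_lit 185) (nat_lit 195) (nat_lit 190)))) (PT.nd (nat_lit 156) (PT.nd (nat_lit 78) (PT.lf (nat_lit 44612) (nat_lit 6) (nat_lit 587) (nat_lit 4) (nat_lit 186) (nat_lit 195) (nat_lit 189)) (PT.lf (nat_lit 44536) (nat_lit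 6) (nat_lit 586) (nat_lit 4) (nat_lit 187) (nat_lit 195) (nat_lit 188))) (PT.nd (nat_lit 78) (PT.lf (nat_lit 44536) (nat_lit 6) (nat_lit 586) (nat_lit 2) (nat_lit 188) (nat_lit 195) (nat_lit 187)) (PT.lf (nat_lit 44612) (nat_lit 6) (nat_lit 587) (nat_lit 2) (nat_lit 189) (nat_lit 195) (nat_lit 186))))) (PT.nd (nat_lit 234) (PT.nd (nat_lit 78) (PT.lf (nat_lit 44688) (nat_lit 6) (nat_lit 588) (nat_lit 2) (nat_lit 190) (nat_lit 195) (nat_lit 185)) (PT.nd (nat_lit 78) (PT.lf (nat_lit 44308) (nat_lit 6) (nat_lit 583) (nat_lit 2) (nat_lit 191) (nat_lit 195) (nat_lit 184)) (PT.lf (nat_lit 43852) (nat_lit 6) (nat_lit 577) (nat_lit 2) (nat_lit 192) (nat_lit 195) (nat_lit 183)))) (PT.nd (nat_lit 156) (PT.nd (nat_lit 78) (PT.lf (nat_lit 43320) (nat_lit 6) (nat_lit 570) (nat_lit 2) (nat_lit 193) (nat_lit 195) (nat_lit 182)) (PT.lf (nat_lit 42712) (nat_lit 6) (nat_lit 562) (nat_lit 2) (nat_lit 194) (nat_lit 195) (nat_lit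 181))) (PT.nd (nat_lit 78) (PT.lf (nat_lit 42028) (nat_lit 3) (nat_lit 553) (nat_lit 0) (nat_lit 195) (nat_lit 195) (nat_lit 180)) (PT.lf (nat_lit 41192) (nat_lit 6) (nat_lit 542) (nat_lit 0) (nat_lit 196) (nat_lit 195) (nat_lit 179))))))))
noncomputable def pc31 : PT := (PT.nd (nat_lit 57174) (PT.nd (nat_lit 1014) (PT.nd (nat_lit 468) (PT.nd (nat_lit 234) (PT.nd (nat_lit 78) (PT.lf (nat_lit 40280) (nat_lit 6) (nat_lit 530) (nat_lit 0) (nat_lit 197) (nat_lit 195) (nat_lit 178)) (PT.nd (nat_lit 78) (PT.lf (nat_lit 39292) (nat_lit 6) (nat_lit 517) (nat_lit 0) (nat_lit 198) (nat_lit 195) (nat_lit 177)) (PT.lf (nat_lit 38228) (nat_lit 6) (nat_lit 503) (nat_lit 0) (nat_lit 199) (nat_lit 195) (nat_lit 176)))) (PT.nd (nat_lit 78) (PT.lf (nat_lit 37088) (nat_lit 6) (nat_lit 488) (nat_lit 0) (nat_lit 200) (nat_lit 195) (nat_lit 175)) (PT.nd (nat_lit 78) (PT.lf (nat_lit 35872) (nat_lit 6) (nat_lit 472) (nat_lit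 0) (nat_lit 201) (nat_lit 195) (nat_lit 174)) (PT.lf (nat_lit 34580) (nat_lit 6) (nat_lit 455) (nat_lit 0) (nat_lit 202) (nat_lit 195) (nat_lit 173))))) (PT.nd (nat_lit 234) (PT.nd (nat_lit 78) (PT.lf (nat_lit 33212) (nat_lit 6) (nat_lit 437) (nat_lit 0) (nat_lit 203) (nat_lit 195) (nat_lit 172)) (PT.nd (nat_lit 78) (PT.lf (nat_lit 31768) (nat_lit 6) (nat_lit 418) (nat_lit 0) (nat_lit 204) (nat_lit 195) (nat_lit 171)) (PT.lf (nat_lit 30248) (nat_lit 6) (nat_lit 398) (nat_lit 0) (nat_lit 205) (nat_lit 195) (nat_lit 170)))) (PT.nd (nat_lit 156) (PT.nd (nat_lit 78) (PT.lf (nat_lit 28652) (nat_lit 6) (nat_lit 377) (nat_lit 0) (nat_lit 206) (nat_lit 195) (nat_lit 169)) (PT.lf (nat_lit 26980) (nat_lit 6) (nat_lit 355) (nat_lit 0) (nat_lit 207) (nat_lit 195) (nat_lit 168))) (PT.nd (nat_lit 78) (PT.lf (nat_lit 25232) (nat_lit 6) (nat_lit 332) (nat_lit 0) (nat_lit 208) (nat_lit 195) (nat_lit 167)) (PT.lf (nat_lit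 24168) (nat_lit 6) (nat_lit 318) (nat_lit 0) (nat_lit 209) (nat_lit 195) (nat_lit 166)))))) (PT.nd (nat_lit 55614) (PT.nd (nat_lit 234) (PT.nd (nat_lit 78) (PT.lf (nat_lit 23256) (nat_lit 6) (nat_lit 306) (nat_lit 0) (nat_lit 210) (nat_lit 195) (nat_lit 165)) (PT.nd (nat_lit 78) (PT.lf (nat_lit 22344) (nat_lit 6) (nat_lit 294) (nat_lit 0) (nat_lit 211) (nat_lit 195) (nat_lit 164)) (PT.lf (nat_lit 21508) (nat_lit 6) (nat_lit 283) (nat_lit 0) (nat_lit 212) (nat_lit 195) (nat_lit 163)))) (PT.nd (nat_lit 55224) (PT.nd (nat_lit 78) (PT.lf (nat_lit 20672) (nat_lit 6) (nat_lit 272) (nat_lit 0) (nat_lit 213) (nat_lit 195) (nat_lit 162)) (PT.lf (nat_lit 19912) (nat_lit 6) (nat_lit 262) (nat_lit 0) (nat_lit 214) (nat_lit 195) (nat_lit 161))) (PT.nd (nat_lit 78) (PT.lf (nat_lit 19152) (nat_lit 6) (nat_lit 252) (nat_lit 5) (nat_lit 160) (nat_lit 196) (nat_lit 214)) (PT.lf (nat_lit 19988) (nat_lit 6) (nat_lit 263)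 (nat_lit 5) (nat_lit 161) (nat_lit 196) (nat_lit 213))))) (PT.nd (nat_lit 234) (PT.nd (nat_lit 78) (PT.lf (nat_lit 20748) (nat_lit 6) (nat_lit 273) (nat_lit 5) (nat_lit 162) (nat_lit 196) (nat_lit 212)) (PT.nd (nat_lit 78) (PT.lf (nat_lit 21584) (nat_lit 6) (nat_lit 284) (nat_lit 5) (nat_lit 163) (nat_lit 196) (nat_lit 211)) (PT.lf (nat_lit 22420) (nat_lit 6) (nat_lit 295) (nat_lit 5) (nat_lit 164) (nat_lit 196) (nat_lit 210)))) (PT.nd (nat_lit 156) (PT.nd (nat_lit 78) (PT.lf (nat_lit 23332) (nat_lit 6) (nat_lit 307) (nat_lit 5) (nat_lit 165) (nat_lit 196) (nat_lit 209)) (PT.lf (nat_lit 24244) (nat_lit 6) (nat_lit 319) (nat_lit 5) (nat_lit 166) (nat_lit 196) (nat_lit 208))) (PT.nd (nat_lit 78) (PT.lf (nat_lit 25308) (nat_lit 6) (nat_lit 333) (nat_lit 5) (nat_lit 167) (nat_lit 196) (nat_lit 207)) (PT.lf (nat_lit 27056) (nat_lit 6) (nat_lit 356) (nat_lit 5) (nat_lit 168) (nat_lit 196) (nat_lit 206)))))))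 (PT.nd (nat_lit 1014) (PT.nd (nat_lit 468) (PT.nd (nat_lit 234) (PT.nd (nat_lit 78) (PT.lf (nat_lit 28728) (nat_lit 6) (nat_lit 378) (nat_lit 5) (nat_lit 169) (nat_lit 196) (nat_lit 205)) (PT.nd (nat_lit 78) (PT.lf (nat_lit 30324) (nat_lit 6) (nat_lit 399) (nat_lit 5) (nat_lit 170) (nat_lit 196) (nat_lit 204)) (PT.lf (nat_lit 31844) (nat_lit 6) (nat_lit 419) (nat_lit 5) (nat_lit 171) (nat_lit 196) (nat_lit 203)))) (PT.nd (nat_lit 78) (PT.lf (nat_lit 33288) (nat_lit 6) (nat_lit 438) (nat_lit 5) (nat_lit 172) (nat_lit 196) (nat_lit 202)) (PT.nd (nat_lit 78) (PT.lf (nat_lit 34656) (nat_lit 6) (nat_lit 456) (nat_lit 5) (nat_lit 173) (nat_lit 196) (nat_lit 201)) (PT.lf (nat_lit 35948) (nat_lit 6) (nat_lit 473) (nat_lit 5) (nat_lit 174) (nat_lit 196) (nat_lit 200))))) (PT.nd (nat_lit 234) (PT.nd (nat_lit 78) (PT.lf (nat_lit 37164) (nat_lit 6) (nat_lit 489) (nat_lit 5) (nat_lit 175) (nat_lit 196) (nat_lit 199))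 (PT.nd (nat_lit 78) (PT.lf (nat_lit 38304) (nat_lit 6) (nat_lit 504) (nat_lit 5) (nat_lit 176) (nat_lit 196) (nat_lit 198)) (PT.lf (nat_lit 39368) (nat_lit 6) (nat_lit 518) (nat_lit 5) (nat_lit 177) (nat_lit 196) (nat_lit 197)))) (PT.nd (nat_lit 156) (PT.nd (nat_lit 78) (PT.lf (nat_lit 40356) (nat_lit 3) (nat_lit 531) (nat_lit 4) (nat_lit 178) (nat_lit 196) (nat_lit 196)) (PT.lf (nat_lit 41192) (nat_lit 6) (nat_lit 542) (nat_lit 4) (nat_lit 179) (nat_lit 196) (nat_lit 195))) (PT.nd (nat_lit 78) (PT.lf (nat_lit 41952) (nat_lit 6) (nat_lit 552) (nat_lit 4) (nat_lit 180) (nat_lit 196) (nat_lit 194)) (PT.lf (nat_lit 42636) (nat_lit 6) (nat_lit 561) (nat_lit 4) (nat_lit 181) (nat_lit 196) (nat_lit 193)))))) (PT.nd (nat_lit 546) (PT.nd (nat_lit 234) (PT.nd (nat_lit 78) (PT.lf (nat_lit 43244) (nat_lit 6) (nat_lit 569) (nat_lit 4) (nat_lit 182) (nat_lit 196) (nat_lit 192)) (PT.nd (nat_lit 78) (PT.lf (nat_lit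 43776) (nat_lit 6) (nat_lit 576) (nat_lit 4) (nat_lit 183) (nat_lit 196) (nat_lit 191)) (PT.lf (nat_lit 44232) (nat_lit 6) (nat_lit 582) (nat_lit 4) (nat_lit 184) (nat_lit 196) (nat_lit 190)))) (PT.nd (nat_lit 156) (PT.nd (nat_lit 78) (PT.lf (nat_lit 44156) (nat_lit 6) (nat_lit 581) (nat_lit 4) (nat_lit 185) (nat_lit 196) (nat_lit 189)) (PT.lf (nat_lit 44080) (nat_lit 6) (nat_lit 580) (nat_lit 4) (nat_lit 186) (nat_lit 196) (nat_lit 188))) (PT.nd (nat_lit 78) (PT.lf (nat_lit 44004) (nat_lit 3) (nat_lit 579) (nat_lit 2) (nat_lit 187) (nat_lit 196) (nat_lit 187)) (PT.lf (nat_lit 44080) (nat_lit 6) (nat_lit 580) (nat_lit 2) (nat_lit 188) (nat_lit 196) (nat_lit 186))))) (PT.nd (nat_lit 234) (PT.nd (nat_lit 78) (PT.lf (nat_lit 44156) (nat_lit 6) (nat_lit 581) (nat_lit 2) (nat_lit 189) (nat_lit 196) (nat_lit 185)) (PT.nd (nat_lit 78) (PT.lf (nat_lit 44232) (nat_lit 6) (nat_lit 582) (nat_lit 2) (nat_lit 190)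 (nat_lit 196) (nat_lit 184)) (PT.lf (nat_lit 43776) (nat_lit 6) (nat_lit 576) (nat_lit 2) (nat_lit 191) (nat_lit 196) (nat_lit 183)))) (PT.nd (nat_lit 156) (PT.nd (nat_lit 78) (PT.lf (nat_lit 43244) (nat_lit 6) (nat_lit 569) (nat_lit 2) (nat_lit 192) (nat_lit 196) (nat_lit 182)) (PT.lf (nat_lit 42636) (nat_lit 6) (nat_lit 561) (nat_lit 2) (nat_lit 193) (nat_lit 196) (nat_lit 181))) (PT.nd (nat_lit 78) (PT.lf (nat_lit 41952) (nat_lit 6) (nat_lit 552) (nat_lit 2) (nat_lit 194) (nat_lit 196) (nat_lit 180)) (PT.lf (nat_lit 41192) (nat_lit 6) (nat_lit 542) (nat_lit 2) (nat_lit 195) (nat_lit 196) (nat_lit 179))))))))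
noncomputable def pc32 : PT := (PT.nd (nat_lit 57018) (PT.nd (nat_lit 1014) (PT.nd (nat_lit 468) (PT.nd (nat_lit 234) (PT.nd (nat_lit 78) (PT.lf (nat_lit 40356) (nat_lit 3) (nat_lit 531) (nat_lit 0) (nat_lit 196) (nat_lit 196) (nat_lit 178)) (PT.nd (nat_lit 78) (PT.lf (nat_lit 39368) (nat_lit 6) (nat_lit 518) (nat_lit 0) (nat_lit 197) (nat_lit 196) (nat_lit 177)) (PT.lf (nat_lit 38304) (nat_lit 6) (nat_lit 504) (nat_lit 0) (nat_lit 198) (nat_lit 196) (nat_lit 176)))) (PT.nd (nat_lit 78) (PT.lf (nat_lit 37164) (nat_lit 6) (nat_lit 489) (nat_lit 0) (nat_lit 199) (nat_lit 196) (nat_lit 175)) (PT.nd (nat_lit 78) (PT.lf (nat_lit 35948) (nat_lit 6) (nat_lit 473) (nat_lit 0) (nat_lit 200) (nat_lit 196) (nat_lit 174)) (PT.lf (nat_lit 34656) (nat_lit 6) (nat_lit 456) (nat_lit 0) (nat_lit 201) (nat_lit 196) (nat_lit 173))))) (PT.nd (nat_lit 234) (PT.nd (nat_lit 78) (PT.lf (nat_lit 33288) (nat_lit 6) (nat_lit 438)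 (nat_lit 0) (nat_lit 202) (nat_lit 196) (nat_lit 172)) (PT.nd (nat_lit 78) (PT.lf (nat_lit 31844) (nat_lit 6) (nat_lit 419) (nat_lit 0) (nat_lit 203) (nat_lit 196) (nat_lit 171)) (PT.lf (nat_lit 30324) (nat_lit 6) (nat_lit 399) (nat_lit 0) (nat_lit 204) (nat_lit 196) (nat_lit 170)))) (PT.nd (nat_lit 156) (PT.nd (nat_lit 78) (PT.lf (nat_lit 28728) (nat_lit 6) (nat_lit 378) (nat_lit 0) (nat_lit 205) (nat_lit 196) (nat_lit 169)) (PT.lf (nat_lit 27056) (nat_lit 6) (nat_lit 356) (nat_lit 0) (nat_lit 206) (nat_lit 196) (nat_lit 168))) (PT.nd (nat_lit 78) (PT.lf (nat_lit 25308) (nat_lit 6) (nat_lit 333) (nat_lit 0) (nat_lit 207) (nat_lit 196) (nat_lit 167)) (PT.lf (nat_lit 24244) (nat_lit 6) (nat_lit 319) (nat_lit 0) (nat_lit 208) (nat_lit 196) (nat_lit 166)))))) (PT.nd (nat_lit 55458) (PT.nd (nat_lit 234) (PT.nd (nat_lit 78) (PT.lf (nat_lit 23332) (nat_lit 6) (nat_lit 307) (nat_lit 0) (nat_lit 209) (nat_lit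 196) (nat_lit 165)) (PT.nd (nat_lit 78) (PT.lf (nat_lit 22420) (nat_lit 6) (nat_lit 295) (nat_lit 0) (nat_lit 210) (nat_lit 196) (nat_lit 164)) (PT.lf (nat_lit 21584) (nat_lit 6) (nat_lit 284) (nat_lit 0) (nat_lit 211) (nat_lit 196) (nat_lit 163)))) (PT.nd (nat_lit 78) (PT.lf (nat_lit 20748) (nat_lit 6) (nat_lit 273) (nat_lit 0) (nat_lit 212) (nat_lit 196) (nat_lit 162)) (PT.nd (nat_lit 78) (PT.lf (nat_lit 19988) (nat_lit 6) (nat_lit 263) (nat_lit 0) (nat_lit 213) (nat_lit 196) (nat_lit 161)) (PT.lf (nat_lit 19152) (nat_lit 6) (nat_lit 252) (nat_lit 0) (nat_lit 214) (nat_lit 196) (nat_lit 160))))) (PT.nd (nat_lit 234) (PT.nd (nat_lit 78) (PT.lf (nat_lit 18468) (nat_lit 6) (nat_lit 243) (nat_lit 5) (nat_lit 159) (nat_lit 197) (nat_lit 214)) (PT.nd (nat_lit 78) (PT.lf (nat_lit 19228) (nat_lit 6) (nat_lit 253) (nat_lit 5) (nat_lit 160) (nat_lit 197) (nat_lit 213)) (PT.lf (nat_lit 20064) (nat_lit 6) (nat_lit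 264) (nat_lit 5) (nat_lit 161) (nat_lit 197) (nat_lit 212)))) (PT.nd (nat_lit 156) (PT.nd (nat_lit 78) (PT.lf (nat_lit 20824) (nat_lit 6) (nat_lit 274) (nat_lit 5) (nat_lit 162) (nat_lit 197) (nat_lit 211)) (PT.lf (nat_lit 21660) (nat_lit 6) (nat_lit 285) (nat_lit 5) (nat_lit 163) (nat_lit 197) (nat_lit 210))) (PT.nd (nat_lit 78) (PT.lf (nat_lit 22496) (nat_lit 6) (nat_lit 296) (nat_lit 5) (nat_lit 164) (nat_lit 197) (nat_lit 209)) (PT.lf (nat_lit 23408) (nat_lit 6) (nat_lit 308) (nat_lit 5) (nat_lit 165) (nat_lit 197) (nat_lit 208))))))) (PT.nd (nat_lit 1014) (PT.nd (nat_lit 468) (PT.nd (nat_lit 234) (PT.nd (nat_lit 78) (PT.lf (nat_lit 24320) (nat_lit 6) (nat_lit 320) (nat_lit 5) (nat_lit 166) (nat_lit 197) (nat_lit 207)) (PT.nd (nat_lit 78) (PT.lf (nat_lit 25384) (nat_lit 6) (nat_lit 334) (nat_lit 5) (nat_lit 167) (nat_lit 197) (nat_lit 206)) (PT.lf (nat_lit 27132) (nat_lit 6) (nat_lit 357) (nat_lit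 5) (nat_lit 168) (nat_lit 197) (nat_lit 205)))) (PT.nd (nat_lit 78) (PT.lf (nat_lit 28804) (nat_lit 6) (nat_lit 379) (nat_lit 5) (nat_lit 169) (nat_lit 197) (nat_lit 204)) (PT.nd (nat_lit 78) (PT.lf (nat_lit 30400) (nat_lit 6) (nat_lit 400) (nat_lit 5) (nat_lit 170) (nat_lit 197) (nat_lit 203)) (PT.lf (nat_lit 31920) (nat_lit 6) (nat_lit 420) (nat_lit 5) (nat_lit 171) (nat_lit 197) (nat_lit 202))))) (PT.nd (nat_lit 234) (PT.nd (nat_lit 78) (PT.lf (nat_lit 33364) (nat_lit 6) (nat_lit 439) (nat_lit 5) (nat_lit 172) (nat_lit 197) (nat_lit 201)) (PT.nd (nat_lit 78) (PT.lf (nat_lit 34732) (nat_lit 6) (nat_lit 457) (nat_lit 5) (nat_lit 173) (nat_lit 197) (nat_lit 200)) (PT.lf (nat_lit 36024) (nat_lit 6) (nat_lit 474) (nat_lit 5) (nat_lit 174) (nat_lit 197) (nat_lit 199)))) (PT.nd (nat_lit 156) (PT.nd (nat_lit 78) (PT.lf (nat_lit 37240) (nat_lit 6) (nat_lit 490) (nat_lit 5) (nat_lit 175) (nat_lit 197) (nat_lit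 198)) (PT.lf (nat_lit 38380) (nat_lit 3) (nat_lit 505) (nat_lit 4) (nat_lit 176) (nat_lit 197) (nat_lit 197))) (PT.nd (nat_lit 78) (PT.lf (nat_lit 39368) (nat_lit 6) (nat_lit 518) (nat_lit 4) (nat_lit 177) (nat_lit 197) (nat_lit 196)) (PT.lf (nat_lit 40280) (nat_lit 6) (nat_lit 530) (nat_lit 4) (nat_lit 178) (nat_lit 197) (nat_lit 195)))))) (PT.nd (nat_lit 546) (PT.nd (nat_lit 234) (PT.nd (nat_lit 78) (PT.lf (nat_lit 41116) (nat_lit 6) (nat_lit 541) (nat_lit 4) (nat_lit 179) (nat_lit 197) (nat_lit 194)) (PT.nd (nat_lit 78) (PT.lf (nat_lit 41876) (nat_lit 6) (nat_lit 551) (nat_lit 4) (nat_lit 180) (nat_lit 197) (nat_lit 193)) (PT.lf (nat_lit 42560) (nat_lit 6) (nat_lit 560) (nat_lit 4) (nat_lit 181) (nat_lit 197) (nat_lit 192)))) (PT.nd (nat_lit 156) (PT.nd (nat_lit 78) (PT.lf (nat_lit 43168) (nat_lit 6) (nat_lit 568) (nat_lit 4) (nat_lit 182) (nat_lit 197) (nat_lit 191)) (PT.lf (nat_lit 43700) (nat_lit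 6) (nat_lit 575) (nat_lit 4) (nat_lit 183) (nat_lit 197) (nat_lit 190))) (PT.nd (nat_lit 78) (PT.lf (nat_lit 43624) (nat_lit 6) (nat_lit 574) (nat_lit 4) (nat_lit 184) (nat_lit 197) (nat_lit 189)) (PT.lf (nat_lit 43548) (nat_lit 6) (nat_lit 573) (nat_lit 4) (nat_lit 185) (nat_lit 197) (nat_lit 188))))) (PT.nd (nat_lit 234) (PT.nd (nat_lit 78) (PT.lf (nat_lit 43472) (nat_lit 6) (nat_lit 572) (nat_lit 4) (nat_lit 186) (nat_lit 197) (nat_lit 187)) (PT.nd (nat_lit 78) (PT.lf (nat_lit 43472) (nat_lit 6) (nat_lit 572) (nat_lit 2) (nat_lit 187) (nat_lit 197) (nat_lit 186)) (PT.lf (nat_lit 43548) (nat_lit 6) (nat_lit 573) (nat_lit 2) (nat_lit 188) (nat_lit 197) (nat_lit 185)))) (PT.nd (nat_lit 156) (PT.nd (nat_lit 78) (PT.lf (nat_lit 43624) (nat_lit 6) (nat_lit 574) (nat_lit 2) (nat_lit 189) (nat_lit 197) (nat_lit 184)) (PT.lf (nat_lit 43700) (nat_lit 6) (nat_lit 575) (nat_lit 2) (nat_lit 190) (nat_lit 197) (nat_lit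 183))) (PT.nd (nat_lit 78) (PT.lf (nat_lit 43168) (nat_lit 6) (nat_lit 568) (nat_lit 2) (nat_lit 191) (nat_lit 197) (nat_lit 182)) (PT.lf (nat_lit 42560) (nat_lit 6) (nat_lit 560) (nat_lit 2) (nat_lit 192) (nat_lit 197) (nat_lit 181))))))))
noncomputable def pc33 : PT := (PT.nd (nat_lit 56940) (PT.nd (nat_lit 1014) (PT.nd (nat_lit 468) (PT.nd (nat_lit 234) (PT.nd (nat_lit 78) (PT.lf (nat_lit 41876) (nat_lit 6) (nat_lit 551) (nat_lit 2) (nat_lit 193) (nat_lit 197) (nat_lit 180)) (PT.nd (nat_lit 78) (PT.lf (nat_lit 41116) (nat_lit 6) (nat_lit 541) (nat_lit 2) (nat_lit 194) (nat_lit 197) (nat_lit 179)) (PT.lf (nat_lit 40280) (nat_lit 6) (nat_lit 530) (nat_lit 2) (nat_lit 195) (nat_lit 197) (nat_lit 178)))) (PT.nd (nat_lit 78) (PT.lf (nat_lit 39368) (nat_lit 6) (nat_lit 518) (nat_lit 2) (nat_lit 196) (nat_lit 197) (nat_lit 177)) (PT.nd (nat_lit 78) (PT.lf (nat_lit 38380) (nat_lit 3) (nat_lit 505) (nat_lit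 0) (nat_lit 197) (nat_lit 197) (nat_lit 176)) (PT.lf (nat_lit 37240) (nat_lit 6) (nat_lit 490) (nat_lit 0) (nat_lit 198) (nat_lit 197) (nat_lit 175))))) (PT.nd (nat_lit 234) (PT.nd (nat_lit 78) (PT.lf (nat_lit 36024) (nat_lit 6) (nat_lit 474) (nat_lit 0) (nat_lit 199) (nat_lit 197) (nat_lit 174)) (PT.nd (nat_lit 78) (PT.lf (nat_lit 34732) (nat_lit 6) (nat_lit 457) (nat_lit 0) (nat_lit 200) (nat_lit 197) (nat_lit 173)) (PT.lf (nat_lit 33364) (nat_lit 6) (nat_lit 439) (nat_lit 0) (nat_lit 201) (nat_lit 197) (nat_lit 172)))) (PT.nd (nat_lit 156) (PT.nd (nat_lit 78) (PT.lf (nat_lit 31920) (nat_lit 6) (nat_lit 420) (nat_lit 0) (nat_lit 202) (nat_lit 197) (nat_lit 171)) (PT.lf (nat_lit 30400) (nat_lit 6) (nat_lit 400) (nat_lit 0) (nat_lit 203) (nat_lit 197) (nat_lit 170))) (PT.nd (nat_lit 78) (PT.lf (nat_lit 28804) (nat_lit 6) (nat_lit 379) (nat_lit 0) (nat_lit 204) (nat_lit 197) (nat_lit 169)) (PT.lf (nat_lit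 27132) (nat_lit 6) (nat_lit 357) (nat_lit 0) (nat_lit 205) (nat_lit 197) (nat_lit 168)))))) (PT.nd (nat_lit 468) (PT.nd (nat_lit 234) (PT.nd (nat_lit 78) (PT.lf (nat_lit 25384) (nat_lit 6) (nat_lit 334) (nat_lit 0) (nat_lit 206) (nat_lit 197) (nat_lit 167)) (PT.nd (nat_lit 78) (PT.lf (nat_lit 24320) (nat_lit 6) (nat_lit 320) (nat_lit 0) (nat_lit 207) (nat_lit 197) (nat_lit 166)) (PT.lf (nat_lit 23408) (nat_lit 6) (nat_lit 308) (nat_lit 0) (nat_lit 208) (nat_lit 197) (nat_lit 165)))) (PT.nd (nat_lit 78) (PT.lf (nat_lit 22496) (nat_lit 6) (nat_lit 296) (nat_lit 0) (nat_lit 209) (nat_lit 197) (nat_lit 164)) (PT.nd (nat_lit 78) (PT.lf (nat_lit 21660) (nat_lit 6) (nat_lit 285) (nat_lit 0) (nat_lit 210) (nat_lit 197) (nat_lit 163)) (PT.lf (nat_lit 20824) (nat_lit 6) (nat_lit 274) (nat_lit 0) (nat_lit 211) (nat_lit 197) (nat_lit 162))))) (PT.nd (nat_lit 55146) (PT.nd (nat_lit 78) (PT.lf (nat_lit 20064) (nat_lit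 6) (nat_lit 264) (nat_lit 0) (nat_lit 212) (nat_lit 197) (nat_lit 161)) (PT.nd (nat_lit 78) (PT.lf (nat_lit 19228) (nat_lit 6) (nat_lit 253) (nat_lit 0) (nat_lit 213) (nat_lit 197) (nat_lit 160)) (PT.lf (nat_lit 18468) (nat_lit 6) (nat_lit 243) (nat_lit 0) (nat_lit 214) (nat_lit 197) (nat_lit 159)))) (PT.nd (nat_lit 156) (PT.nd (nat_lit 78) (PT.lf (nat_lit 17784) (nat_lit 6) (nat_lit 234) (nat_lit 5) (nat_lit 158) (nat_lit 198) (nat_lit 214)) (PT.lf (nat_lit 18544) (nat_lit 6) (nat_lit 244) (nat_lit 5) (nat_lit 159) (nat_lit 198) (nat_lit 213))) (PT.nd (nat_lit 78) (PT.lf (nat_lit 19304) (nat_lit 6) (nat_lit 254) (nat_lit 5) (nat_lit 160) (nat_lit 198) (nat_lit 212)) (PT.lf (nat_lit 20140) (nat_lit 6) (nat_lit 265) (nat_lit 5) (nat_lit 161) (nat_lit 198) (nat_lit 211))))))) (PT.nd (nat_lit 1014) (PT.nd (nat_lit 468) (PT.nd (nat_lit 234) (PT.nd (nat_lit 78) (PT.lf (nat_lit 20900) (nat_lit 6) (nat_lit 275)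 (nat_lit 5) (nat_lit 162) (nat_lit 198) (nat_lit 210)) (PT.nd (nat_lit 78) (PT.lf (nat_lit 21736) (nat_lit 6) (nat_lit 286) (nat_lit 5) (nat_lit 163) (nat_lit 198) (nat_lit 209)) (PT.lf (nat_lit 22572) (nat_lit 6) (nat_lit 297) (nat_lit 5) (nat_lit 164) (nat_lit 198) (nat_lit 208)))) (PT.nd (nat_lit 78) (PT.lf (nat_lit 23484) (nat_lit 6) (nat_lit 309) (nat_lit 5) (nat_lit 165) (nat_lit 198) (nat_lit 207)) (PT.nd (nat_lit 78) (PT.lf (nat_lit 24396) (nat_lit 6) (nat_lit 321) (nat_lit 5) (nat_lit 166) (nat_lit 198) (nat_lit 206)) (PT.lf (nat_lit 25460) (nat_lit 6) (nat_lit 335) (nat_lit 5) (nat_lit 167) (nat_lit 198) (nat_lit 205))))) (PT.nd (nat_lit 234) (PT.nd (nat_lit 78) (PT.lf (nat_lit 27208) (nat_lit 6) (nat_lit 358) (nat_lit 5) (nat_lit 168) (nat_lit 198) (nat_lit 204)) (PT.nd (nat_lit 78) (PT.lf (nat_lit 28880) (nat_lit 6) (nat_lit 380) (nat_lit 5) (nat_lit 169) (nat_lit 198) (nat_lit 203)) (PT.lf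 (nat_lit 30476) (nat_lit 6) (nat_lit 401) (nat_lit 5) (nat_lit 170) (nat_lit 198) (nat_lit 202)))) (PT.nd (nat_lit 156) (PT.nd (nat_lit 78) (PT.lf (nat_lit 31996) (nat_lit 6) (nat_lit 421) (nat_lit 5) (nat_lit 171) (nat_lit 198) (nat_lit 201)) (PT.lf (nat_lit 33440) (nat_lit 6) (nat_lit 440) (nat_lit 5) (nat_lit 172) (nat_lit 198) (nat_lit 200))) (PT.nd (nat_lit 78) (PT.lf (nat_lit 34808) (nat_lit 6) (nat_lit 458) (nat_lit 5) (nat_lit 173) (nat_lit 198) (nat_lit 199)) (PT.lf (nat_lit 36100) (nat_lit 3) (nat_lit 475) (nat_lit 4) (nat_lit 174) (nat_lit 198) (nat_lit 198)))))) (PT.nd (nat_lit 546) (PT.nd (nat_lit 234) (PT.nd (nat_lit 78) (PT.lf (nat_lit 37240) (nat_lit 6) (nat_lit 490) (nat_lit 4) (nat_lit 175) (nat_lit 198) (nat_lit 197)) (PT.nd (nat_lit 78) (PT.lf (nat_lit 38304) (nat_lit 6) (nat_lit 504) (nat_lit 4) (nat_lit 176) (nat_lit 198) (nat_lit 196)) (PT.lf (nat_lit 39292) (nat_lit 6) (nat_lit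 517) (nat_lit 4) (nat_lit 177) (nat_lit 198) (nat_lit 195)))) (PT.nd (nat_lit 156) (PT.nd (nat_lit 78) (PT.lf (nat_lit 40204) (nat_lit 6) (nat_lit 529) (nat_lit 4) (nat_lit 178) (nat_lit 198) (nat_lit 194)) (PT.lf (nat_lit 41040) (nat_lit 6) (nat_lit 540) (nat_lit 4) (nat_lit 179) (nat_lit 198) (nat_lit 193))) (PT.nd (nat_lit 78) (PT.lf (nat_lit 41800) (nat_lit 6) (nat_lit 550) (nat_lit 4) (nat_lit 180) (nat_lit 198) (nat_lit 192)) (PT.lf (nat_lit 42484) (nat_lit 6) (nat_lit 559) (nat_lit 4) (nat_lit 181) (nat_lit 198) (nat_lit 191))))) (PT.nd (nat_lit 234) (PT.nd (nat_lit 78) (PT.lf (nat_lit 43092) (nat_lit 6) (nat_lit 567) (nat_lit 4) (nat_lit 182) (nat_lit 198) (nat_lit 190)) (PT.nd (nat_lit 78) (PT.lf (nat_lit 43016) (nat_lit 6) (nat_lit 566) (nat_lit 4) (nat_lit 183) (nat_lit 198) (nat_lit 189)) (PT.lf (nat_lit 42940) (nat_lit 6) (nat_lit 565) (nat_lit 4) (nat_lit 184) (nat_lit 198) (nat_lit 188))))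 (PT.nd (nat_lit 156) (PT.nd (nat_lit 78) (PT.lf (nat_lit 42864) (nat_lit 6) (nat_lit 564) (nat_lit 4) (nat_lit 185) (nat_lit 198) (nat_lit 187)) (PT.lf (nat_lit 42788) (nat_lit 3) (nat_lit 563) (nat_lit 2) (nat_lit 186) (nat_lit 198) (nat_lit 186))) (PT.nd (nat_lit 78) (PT.lf (nat_lit 42864) (nat_lit 6) (nat_lit 564) (nat_lit 2) (nat_lit 187) (nat_lit 198) (nat_lit 185)) (PT.lf (nat_lit 42940) (nat_lit 6) (nat_lit 565) (nat_lit 2) (nat_lit 188) (nat_lit 198) (nat_lit 184))))))))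
noncomputable def pc34 : PT := (PT.nd (nat_lit 56784) (PT.nd (nat_lit 1014) (PT.nd (nat_lit 468) (PT.nd (nat_lit 234) (PT.nd (nat_lit 78) (PT.lf (nat_lit 43016) (nat_lit 6) (nat_lit 566) (nat_lit 2) (nat_lit 189) (nat_lit 198) (nat_lit 183)) (PT.nd (nat_lit 78) (PT.lf (nat_lit 43092) (nat_lit 6) (nat_lit 567) (nat_lit 2) (nat_lit 190) (nat_lit 198) (nat_lit 182)) (PT.lf (nat_lit 42484) (nat_lit 6) (nat_lit 559) (nat_lit 2) (nat_lit 191) (nat_lit 198) (nat_lit 181)))) (PT.nd (nat_lit 78) (PT.lf (nat_lit 41800) (nat_lit 6) (nat_lit 550) (nat_lit 2) (nat_lit 192) (nat_lit 198) (nat_lit 180)) (PT.nd (nat_lit 78) (PT.lf (nat_lit 41040) (nat_lit 6) (nat_lit 540) (nat_lit 2) (nat_lit 193) (nat_lit 198) (nat_lit 179)) (PT.lf (nat_lit 40204) (nat_lit 6) (nat_lit 529) (nat_lit 2) (nat_lit 194) (nat_lit 198) (nat_lit 178))))) (PT.nd (nat_lit 234) (PT.nd (nat_lit 78) (PT.lf (nat_lit 39292) (nat_lit 6) (nat_lit 517)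 (nat_lit 2) (nat_lit 195) (nat_lit 198) (nat_lit 177)) (PT.nd (nat_lit 78) (PT.lf (nat_lit 38304) (nat_lit 6) (nat_lit 504) (nat_lit 2) (nat_lit 196) (nat_lit 198) (nat_lit 176)) (PT.lf (nat_lit 37240) (nat_lit 6) (nat_lit 490) (nat_lit 2) (nat_lit 197) (nat_lit 198) (nat_lit 175)))) (PT.nd (nat_lit 156) (PT.nd (nat_lit 78) (PT.lf (nat_lit 36100) (nat_lit 3) (nat_lit 475) (nat_lit 0) (nat_lit 198) (nat_lit 198) (nat_lit 174)) (PT.lf (nat_lit 34808) (nat_lit 6) (nat_lit 458) (nat_lit 0) (nat_lit 199) (nat_lit 198) (nat_lit 173))) (PT.nd (nat_lit 78) (PT.lf (nat_lit 33440) (nat_lit 6) (nat_lit 440) (nat_lit 0) (nat_lit 200) (nat_lit 198) (nat_lit 172)) (PT.lf (nat_lit 31996) (nat_lit 6) (nat_lit 421) (nat_lit 0) (nat_lit 201) (nat_lit 198) (nat_lit 171)))))) (PT.nd (nat_lit 468) (PT.nd (nat_lit 234) (PT.nd (nat_lit 78) (PT.lf (nat_lit 30476) (nat_lit 6) (nat_lit 401) (nat_lit 0) (nat_lit 202) (nat_lit 198)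 (nat_lit 170)) (PT.nd (nat_lit 78) (PT.lf (nat_lit 28880) (nat_lit 6) (nat_lit 380) (nat_lit 0) (nat_lit 203) (nat_lit 198) (nat_lit 169)) (PT.lf (nat_lit 27208) (nat_lit 6) (nat_lit 358) (nat_lit 0) (nat_lit 204) (nat_lit 198) (nat_lit 168)))) (PT.nd (nat_lit 78) (PT.lf (nat_lit 25460) (nat_lit 6) (nat_lit 335) (nat_lit 0) (nat_lit 205) (nat_lit 198) (nat_lit 167)) (PT.nd (nat_lit 78) (PT.lf (nat_lit 24396) (nat_lit 6) (nat_lit 321) (nat_lit 0) (nat_lit 206) (nat_lit 198) (nat_lit 166)) (PT.lf (nat_lit 23484) (nat_lit 6) (nat_lit 309) (nat_lit 0) (nat_lit 207) (nat_lit 198) (nat_lit 165))))) (PT.nd (nat_lit 234) (PT.nd (nat_lit 78) (PT.lf (nat_lit 22572) (nat_lit 6) (nat_lit 297) (nat_lit 0) (nat_lit 208) (nat_lit 198) (nat_lit 164)) (PT.nd (nat_lit 78) (PT.lf (nat_lit 21736) (nat_lit 6) (nat_lit 286) (nat_lit 0) (nat_lit 209) (nat_lit 198) (nat_lit 163)) (PT.lf (nat_lit 20900) (nat_lit 6) (nat_lit 275)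 (nat_lit 0) (nat_lit 210) (nat_lit 198) (nat_lit 162)))) (PT.nd (nat_lit 156) (PT.nd (nat_lit 78) (PT.lf (nat_lit 20140) (nat_lit 6) (nat_lit 265) (nat_lit 0) (nat_lit 211) (nat_lit 198) (nat_lit 161)) (PT.lf (nat_lit 19304) (nat_lit 6) (nat_lit 254) (nat_lit 0) (nat_lit 212) (nat_lit 198) (nat_lit 160))) (PT.nd (nat_lit 78) (PT.lf (nat_lit 18544) (nat_lit 6) (nat_lit 244) (nat_lit 0) (nat_lit 213) (nat_lit 198) (nat_lit 159)) (PT.lf (nat_lit 17784) (nat_lit 6) (nat_lit 234) (nat_lit 0) (nat_lit 214) (nat_lit 198) (nat_lit 158))))))) (PT.nd (nat_lit 1014) (PT.nd (nat_lit 468) (PT.nd (nat_lit 234) (PT.nd (nat_lit 78) (PT.lf (nat_lit 16416) (nat_lit 6) (nat_lit 216) (nat_lit 5) (nat_lit 156) (nat_lit 199) (nat_lit 215)) (PT.nd (nat_lit 78) (PT.lf (nat_lit 17176) (nat_lit 6) (nat_lit 226) (nat_lit 5) (nat_lit 157) (nat_lit 199) (nat_lit 214)) (PT.lf (nat_lit 17860) (nat_lit 6) (nat_lit 235) (nat_lit 5) (nat_lit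 158) (nat_lit 199) (nat_lit 213)))) (PT.nd (nat_lit 78) (PT.lf (nat_lit 18620) (nat_lit 6) (nat_lit 245) (nat_lit 5) (nat_lit 159) (nat_lit 199) (nat_lit 212)) (PT.nd (nat_lit 78) (PT.lf (nat_lit 19380) (nat_lit 6) (nat_lit 255) (nat_lit 5) (nat_lit 160) (nat_lit 199) (nat_lit 211)) (PT.lf (nat_lit 20216) (nat_lit 6) (nat_lit 266) (nat_lit 5) (nat_lit 161) (nat_lit 199) (nat_lit 210))))) (PT.nd (nat_lit 234) (PT.nd (nat_lit 78) (PT.lf (nat_lit 20976) (nat_lit 6) (nat_lit 276) (nat_lit 5) (nat_lit 162) (nat_lit 199) (nat_lit 209)) (PT.nd (nat_lit 78) (PT.lf (nat_lit 21812) (nat_lit 6) (nat_lit 287) (nat_lit 5) (nat_lit 163) (nat_lit 199) (nat_lit 208)) (PT.lf (nat_lit 22648) (nat_lit 6) (nat_lit 298) (nat_lit 5) (nat_lit 164) (nat_lit 199) (nat_lit 207)))) (PT.nd (nat_lit 156) (PT.nd (nat_lit 78) (PT.lf (nat_lit 23560) (nat_lit 6) (nat_lit 310) (nat_lit 5) (nat_lit 165) (nat_lit 199) (nat_lit 206)) (PT.lf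 (nat_lit 24472) (nat_lit 6) (nat_lit 322) (nat_lit 5) (nat_lit 166) (nat_lit 199) (nat_lit 205))) (PT.nd (nat_lit 78) (PT.lf (nat_lit 25536) (nat_lit 6) (nat_lit 336) (nat_lit 5) (nat_lit 167) (nat_lit 199) (nat_lit 204)) (PT.lf (nat_lit 27284) (nat_lit 6) (nat_lit 359) (nat_lit 5) (nat_lit 168) (nat_lit 199) (nat_lit 203)))))) (PT.nd (nat_lit 546) (PT.nd (nat_lit 234) (PT.nd (nat_lit 78) (PT.lf (nat_lit 28956) (nat_lit 6) (nat_lit 381) (nat_lit 5) (nat_lit 169) (nat_lit 199) (nat_lit 202)) (PT.nd (nat_lit 78) (PT.lf (nat_lit 30552) (nat_lit 6) (nat_lit 402) (nat_lit 5) (nat_lit 170) (nat_lit 199) (nat_lit 201)) (PT.lf (nat_lit 32072) (nat_lit 6) (nat_lit 422) (nat_lit 5) (nat_lit 171) (nat_lit 199) (nat_lit 200)))) (PT.nd (nat_lit 156) (PT.nd (nat_lit 78) (PT.lf (nat_lit 33516) (nat_lit 3) (nat_lit 441) (nat_lit 4) (nat_lit 172) (nat_lit 199) (nat_lit 199)) (PT.lf (nat_lit 34808) (nat_lit 6) (nat_lit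 458) (nat_lit 4) (nat_lit 173) (nat_lit 199) (nat_lit 198))) (PT.nd (nat_lit 78) (PT.lf (nat_lit 36024) (nat_lit 6) (nat_lit 474) (nat_lit 4) (nat_lit 174) (nat_lit 199) (nat_lit 197)) (PT.lf (nat_lit 37164) (nat_lit 6) (nat_lit 489) (nat_lit 4) (nat_lit 175) (nat_lit 199) (nat_lit 196))))) (PT.nd (nat_lit 234) (PT.nd (nat_lit 78) (PT.lf (nat_lit 38228) (nat_lit 6) (nat_lit 503) (nat_lit 4) (nat_lit 176) (nat_lit 199) (nat_lit 195)) (PT.nd (nat_lit 78) (PT.lf (nat_lit 39216) (nat_lit 6) (nat_lit 516) (nat_lit 4) (nat_lit 177) (nat_lit 199) (nat_lit 194)) (PT.lf (nat_lit 40128) (nat_lit 6) (nat_lit 528) (nat_lit 4) (nat_lit 178) (nat_lit 199) (nat_lit 193)))) (PT.nd (nat_lit 156) (PT.nd (nat_lit 78) (PT.lf (nat_lit 40964) (nat_lit 6) (nat_lit 539) (nat_lit 4) (nat_lit 179) (nat_lit 199) (nat_lit 192)) (PT.lf (nat_lit 41724) (nat_lit 6) (nat_lit 549) (nat_lit 4) (nat_lit 180) (nat_lit 199) (nat_lit 191)))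 (PT.nd (nat_lit 78) (PT.lf (nat_lit 42408) (nat_lit 6) (nat_lit 558) (nat_lit 4) (nat_lit 181) (nat_lit 199) (nat_lit 190)) (PT.lf (nat_lit 42332) (nat_lit 6) (nat_lit 557) (nat_lit 4) (nat_lit 182) (nat_lit 199) (nat_lit 189))))))))
noncomputable def pc35 : PT := (PT.nd (nat_lit 2106) (PT.nd (nat_lit 1014) (PT.nd (nat_lit 468) (PT.nd (nat_lit 234) (PT.nd (nat_lit 78) (PT.lf (nat_lit 42256) (nat_lit 6) (nat_lit 556) (nat_lit 4) (nat_lit 183) (nat_lit 199) (nat_lit 188)) (PT.nd (nat_lit 78) (PT.lf (nat_lit 42180) (nat_lit 6) (nat_lit 555) (nat_lit 4) (nat_lit 184) (nat_lit 199) (nat_lit 187)) (PT.lf (nat_lit 42104) (nat_lit 6) (nat_lit 554) (nat_lit 4) (nat_lit 185) (nat_lit 199) (nat_lit 186)))) (PT.nd (nat_lit 78) (PT.lf (nat_lit 42104) (nat_lit 6) (nat_lit 554) (nat_lit 2) (nat_lit 186) (nat_lit 199) (nat_lit 185)) (PT.nd (nat_lit 78) (PT.lf (nat_lit 42180) (nat_lit 6) (nat_lit 555) (nat_lit 2) (nat_lit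 187) (nat_lit 199) (nat_lit 184)) (PT.lf (nat_lit 42256) (nat_lit 6) (nat_lit 556) (nat_lit 2) (nat_lit 188) (nat_lit 199) (nat_lit 183))))) (PT.nd (nat_lit 234) (PT.nd (nat_lit 78) (PT.lf (nat_lit 42332) (nat_lit 6) (nat_lit 557) (nat_lit 2) (nat_lit 189) (nat_lit 199) (nat_lit 182)) (PT.nd (nat_lit 78) (PT.lf (nat_lit 42408) (nat_lit 6) (nat_lit 558) (nat_lit 2) (nat_lit 190) (nat_lit 199) (nat_lit 181)) (PT.lf (nat_lit 41724) (nat_lit 6) (nat_lit 549) (nat_lit 2) (nat_lit 191) (nat_lit 199) (nat_lit 180)))) (PT.nd (nat_lit 156) (PT.nd (nat_lit 78) (PT.lf (nat_lit 40964) (nat_lit 6) (nat_lit 539) (nat_lit 2) (nat_lit 192) (nat_lit 199) (nat_lit 179)) (PT.lf (nat_lit 40128) (nat_lit 6) (nat_lit 528) (nat_lit 2) (nat_lit 193) (nat_lit 199) (nat_lit 178))) (PT.nd (nat_lit 78) (PT.lf (nat_lit 39216) (nat_lit 6) (nat_lit 516) (nat_lit 2) (nat_lit 194) (nat_lit 199) (nat_lit 177)) (PT.lf (nat_lit 38228) (nat_lit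 6) (nat_lit 503) (nat_lit 2) (nat_lit 195) (nat_lit 199) (nat_lit 176)))))) (PT.nd (nat_lit 546) (PT.nd (nat_lit 234) (PT.nd (nat_lit 78) (PT.lf (nat_lit 37164) (nat_lit 6) (nat_lit 489) (nat_lit 2) (nat_lit 196) (nat_lit 199) (nat_lit 175)) (PT.nd (nat_lit 78) (PT.lf (nat_lit 36024) (nat_lit 6) (nat_lit 474) (nat_lit 2) (nat_lit 197) (nat_lit 199) (nat_lit 174)) (PT.lf (nat_lit 34808) (nat_lit 6) (nat_lit 458) (nat_lit 2) (nat_lit 198) (nat_lit 199) (nat_lit 173)))) (PT.nd (nat_lit 156) (PT.nd (nat_lit 78) (PT.lf (nat_lit 33516) (nat_lit 3) (nat_lit 441) (nat_lit 0) (nat_lit 199) (nat_lit 199) (nat_lit 172)) (PT.lf (nat_lit 32072) (nat_lit 6) (nat_lit 422) (nat_lit 0) (nat_lit 200) (nat_lit 199) (nat_lit 171))) (PT.nd (nat_lit 78) (PT.lf (nat_lit 30552) (nat_lit 6) (nat_lit 402) (nat_lit 0) (nat_lit 201) (nat_lit 199) (nat_lit 170)) (PT.lf (nat_lit 28956) (nat_lit 6) (nat_lit 381) (nat_lit 0) (nat_lit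 202) (nat_lit 199) (nat_lit 169))))) (PT.nd (nat_lit 234) (PT.nd (nat_lit 78) (PT.lf (nat_lit 27284) (nat_lit 6) (nat_lit 359) (nat_lit 0) (nat_lit 203) (nat_lit 199) (nat_lit 168)) (PT.nd (nat_lit 78) (PT.lf (nat_lit 25536) (nat_lit 6) (nat_lit 336) (nat_lit 0) (nat_lit 204) (nat_lit 199) (nat_lit 167)) (PT.lf (nat_lit 24472) (nat_lit 6) (nat_lit 322) (nat_lit 0) (nat_lit 205) (nat_lit 199) (nat_lit 166)))) (PT.nd (nat_lit 156) (PT.nd (nat_lit 78) (PT.lf (nat_lit 23560) (nat_lit 6) (nat_lit 310) (nat_lit 0) (nat_lit 206) (nat_lit 199) (nat_lit 165)) (PT.lf (nat_lit 22648) (nat_lit 6) (nat_lit 298) (nat_lit 0) (nat_lit 207) (nat_lit 199) (nat_lit 164))) (PT.nd (nat_lit 78) (PT.lf (nat_lit 21812) (nat_lit 6) (nat_lit 287) (nat_lit 0) (nat_lit 208) (nat_lit 199) (nat_lit 163)) (PT.lf (nat_lit 20976) (nat_lit 6) (nat_lit 276) (nat_lit 0) (nat_lit 209) (nat_lit 199) (nat_lit 162))))))) (PT.nd (nat_lit 55614)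 (PT.nd (nat_lit 55068) (PT.nd (nat_lit 234) (PT.nd (nat_lit 78) (PT.lf (nat_lit 20216) (nat_lit 6) (nat_lit 266) (nat_lit 0) (nat_lit 210) (nat_lit 199) (nat_lit 161)) (PT.nd (nat_lit 78) (PT.lf (nat_lit 19380) (nat_lit 6) (nat_lit 255) (nat_lit 0) (nat_lit 211) (nat_lit 199) (nat_lit 160)) (PT.lf (nat_lit 18620) (nat_lit 6) (nat_lit 245) (nat_lit 0) (nat_lit 212) (nat_lit 199) (nat_lit 159)))) (PT.nd (nat_lit 78) (PT.lf (nat_lit 17860) (nat_lit 6) (nat_lit 235) (nat_lit 0) (nat_lit 213) (nat_lit 199) (nat_lit 158)) (PT.nd (nat_lit 78) (PT.lf (nat_lit 17176) (nat_lit 6) (nat_lit 226) (nat_lit 0) (nat_lit 214) (nat_lit 199) (nat_lit 157)) (PT.lf (nat_lit 16416) (nat_lit 6) (nat_lit 216) (nat_lit 0) (nat_lit 215) (nat_lit 199) (nat_lit 156))))) (PT.nd (nat_lit 234) (PT.nd (nat_lit 78) (PT.lf (nat_lit 15808) (nat_lit 6) (nat_lit 208) (nat_lit 5) (nat_lit 155) (nat_lit 200) (nat_lit 215)) (PT.nd (nat_lit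 78) (PT.lf (nat_lit 16492) (nat_lit 6) (nat_lit 217) (nat_lit 5) (nat_lit 156) (nat_lit 200) (nat_lit 214)) (PT.lf (nat_lit 17252) (nat_lit 6) (nat_lit 227) (nat_lit 5) (nat_lit 157) (nat_lit 200) (nat_lit 213)))) (PT.nd (nat_lit 156) (PT.nd (nat_lit 78) (PT.lf (nat_lit 17936) (nat_lit 6) (nat_lit 236) (nat_lit 5) (nat_lit 158) (nat_lit 200) (nat_lit 212)) (PT.lf (nat_lit 18696) (nat_lit 6) (nat_lit 246) (nat_lit 5) (nat_lit 159) (nat_lit 200) (nat_lit 211))) (PT.nd (nat_lit 78) (PT.lf (nat_lit 19456) (nat_lit 6) (nat_lit 256) (nat_lit 5) (nat_lit 160) (nat_lit 200) (nat_lit 210)) (PT.lf (nat_lit 20292) (nat_lit 6) (nat_lit 267) (nat_lit 5) (nat_lit 161) (nat_lit 200) (nat_lit 209)))))) (PT.nd (nat_lit 546) (PT.nd (nat_lit 234) (PT.nd (nat_lit 78) (PT.lf (nat_lit 21052) (nat_lit 6) (nat_lit 277) (nat_lit 5) (nat_lit 162) (nat_lit 200) (nat_lit 208)) (PT.nd (nat_lit 78) (PT.lf (nat_lit 21888) (nat_lit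 6) (nat_lit 288) (nat_lit 5) (nat_lit 163) (nat_lit 200) (nat_lit 207)) (PT.lf (nat_lit 22724) (nat_lit 6) (nat_lit 299) (nat_lit 5) (nat_lit 164) (nat_lit 200) (nat_lit 206)))) (PT.nd (nat_lit 156) (PT.nd (nat_lit 78) (PT.lf (nat_lit 23636) (nat_lit 6) (nat_lit 311) (nat_lit 5) (nat_lit 165) (nat_lit 200) (nat_lit 205)) (PT.lf (nat_lit 24548) (nat_lit 6) (nat_lit 323) (nat_lit 5) (nat_lit 166) (nat_lit 200) (nat_lit 204))) (PT.nd (nat_lit 78) (PT.lf (nat_lit 25612) (nat_lit 6) (nat_lit 337) (nat_lit 5) (nat_lit 167) (nat_lit 200) (nat_lit 203)) (PT.lf (nat_lit 27360) (nat_lit 6) (nat_lit 360) (nat_lit 5) (nat_lit 168) (nat_lit 200) (nat_lit 202))))) (PT.nd (nat_lit 234) (PT.nd (nat_lit 78) (PT.lf (nat_lit 29032) (nat_lit 6) (nat_lit 382) (nat_lit 5) (nat_lit 169) (nat_lit 200) (nat_lit 201)) (PT.nd (nat_lit 78) (PT.lf (nat_lit 30628) (nat_lit 3) (nat_lit 403) (nat_lit 4) (nat_lit 170) (nat_lit 200) (nat_lit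 200)) (PT.lf (nat_lit 32072) (nat_lit 6) (nat_lit 422) (nat_lit 4) (nat_lit 171) (nat_lit 200) (nat_lit 199)))) (PT.nd (nat_lit 156) (PT.nd (nat_lit 78) (PT.lf (nat_lit 33440) (nat_lit 6) (nat_lit 440) (nat_lit 4) (nat_lit 172) (nat_lit 200) (nat_lit 198)) (PT.lf (nat_lit 34732) (nat_lit 6) (nat_lit 457) (nat_lit 4) (nat_lit 173) (nat_lit 200) (nat_lit 197))) (PT.nd (nat_lit 78) (PT.lf (nat_lit 35948) (nat_lit 6) (nat_lit 473) (nat_lit 4) (nat_lit 174) (nat_lit 200) (nat_lit 196)) (PT.lf (nat_lit 37088) (nat_lit 6) (nat_lit 488) (nat_lit 4) (nat_lit 175) (nat_lit 200) (nat_lit 195))))))))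
noncomputable def pc36 : PT := (PT.nd (nat_lit 2028) (PT.nd (nat_lit 1014) (PT.nd (nat_lit 468) (PT.nd (nat_lit 234) (PT.nd (nat_lit 78) (PT.lf (nat_lit 38152) (nat_lit 6) (nat_lit 502) (nat_lit 4) (nat_lit 176) (nat_lit 200) (nat_lit 194)) (PT.nd (nat_lit 78) (PT.lf (nat_lit 39140) (nat_lit 6) (nat_lit 515) (nat_lit 4) (nat_lit 177) (nat_lit 200) (nat_lit 193)) (PT.lf (nat_lit 40052) (nat_lit 6) (nat_lit 527) (nat_lit 4) (nat_lit 178) (nat_lit 200) (nat_lit 192)))) (PT.nd (nat_lit 78) (PT.lf (nat_lit 40888) (nat_lit 6) (nat_lit 538) (nat_lit 4) (nat_lit 179) (nat_lit 200) (nat_lit 191)) (PT.nd (nat_lit 78) (PT.lf (nat_lit 41648) (nat_lit 6) (nat_lit 548) (nat_lit 4) (nat_lit 180) (nat_lit 200) (nat_lit 190)) (PT.lf (nat_lit 41572) (nat_lit 6) (nat_lit 547) (nat_lit 4) (nat_lit 181) (nat_lit 200) (nat_lit 189))))) (PT.nd (nat_lit 234) (PT.nd (nat_lit 78) (PT.lf (nat_lit 41496) (nat_lit 6) (nat_lit 546)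 (nat_lit 4) (nat_lit 182) (nat_lit 200) (nat_lit 188)) (PT.nd (nat_lit 78) (PT.lf (nat_lit 41420) (nat_lit 6) (nat_lit 545) (nat_lit 4) (nat_lit 183) (nat_lit 200) (nat_lit 187)) (PT.lf (nat_lit 41344) (nat_lit 6) (nat_lit 544) (nat_lit 4) (nat_lit 184) (nat_lit 200) (nat_lit 186)))) (PT.nd (nat_lit 156) (PT.nd (nat_lit 78) (PT.lf (nat_lit 41268) (nat_lit 3) (nat_lit 543) (nat_lit 2) (nat_lit 185) (nat_lit 200) (nat_lit 185)) (PT.lf (nat_lit 41344) (nat_lit 6) (nat_lit 544) (nat_lit 2) (nat_lit 186) (nat_lit 200) (nat_lit 184))) (PT.nd (nat_lit 78) (PT.lf (nat_lit 41420) (nat_lit 6) (nat_lit 545) (nat_lit 2) (nat_lit 187) (nat_lit 200) (nat_lit 183)) (PT.lf (nat_lit 41496) (nat_lit 6) (nat_lit 546) (nat_lit 2) (nat_lit 188) (nat_lit 200) (nat_lit 182)))))) (PT.nd (nat_lit 468) (PT.nd (nat_lit 234) (PT.nd (nat_lit 78) (PT.lf (nat_lit 41572) (nat_lit 6) (nat_lit 547) (nat_lit 2) (nat_lit 189) (nat_lit 200)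 (nat_lit 181)) (PT.nd (nat_lit 78) (PT.lf (nat_lit 41648) (nat_lit 6) (nat_lit 548) (nat_lit 2) (nat_lit 190) (nat_lit 200) (nat_lit 180)) (PT.lf (nat_lit 40888) (nat_lit 6) (nat_lit 538) (nat_lit 2) (nat_lit 191) (nat_lit 200) (nat_lit 179)))) (PT.nd (nat_lit 78) (PT.lf (nat_lit 40052) (nat_lit 6) (nat_lit 527) (nat_lit 2) (nat_lit 192) (nat_lit 200) (nat_lit 178)) (PT.nd (nat_lit 78) (PT.lf (nat_lit 39140) (nat_lit 6) (nat_lit 515) (nat_lit 2) (nat_lit 193) (nat_lit 200) (nat_lit 177)) (PT.lf (nat_lit 38152) (nat_lit 6) (nat_lit 502) (nat_lit 2) (nat_lit 194) (nat_lit 200) (nat_lit 176))))) (PT.nd (nat_lit 234) (PT.nd (nat_lit 78) (PT.lf (nat_lit 37088) (nat_lit 6) (nat_lit 488) (nat_lit 2) (nat_lit 195) (nat_lit 200) (nat_lit 175)) (PT.nd (nat_lit 78) (PT.lf (nat_lit 35948) (nat_lit 6) (nat_lit 473) (nat_lit 2) (nat_lit 196) (nat_lit 200) (nat_lit 174)) (PT.lf (nat_lit 34732) (nat_lit 6) (nat_lit 457)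 (nat_lit 2) (nat_lit 197) (nat_lit 200) (nat_lit 173)))) (PT.nd (nat_lit 156) (PT.nd (nat_lit 78) (PT.lf (nat_lit 33440) (nat_lit 6) (nat_lit 440) (nat_lit 2) (nat_lit 198) (nat_lit 200) (nat_lit 172)) (PT.lf (nat_lit 32072) (nat_lit 6) (nat_lit 422) (nat_lit 2) (nat_lit 199) (nat_lit 200) (nat_lit 171))) (PT.nd (nat_lit 78) (PT.lf (nat_lit 30628) (nat_lit 3) (nat_lit 403) (nat_lit 0) (nat_lit 200) (nat_lit 200) (nat_lit 170)) (PT.lf (nat_lit 29032) (nat_lit 6) (nat_lit 382) (nat_lit 0) (nat_lit 201) (nat_lit 200) (nat_lit 169))))))) (PT.nd (nat_lit 1014) (PT.nd (nat_lit 468) (PT.nd (nat_lit 234) (PT.nd (nat_lit 78) (PT.lf (nat_lit 27360) (nat_lit 6) (nat_lit 360) (nat_lit 0) (nat_lit 202) (nat_lit 200) (nat_lit 168)) (PT.nd (nat_lit 78) (PT.lf (nat_lit 25612) (nat_lit 6) (nat_lit 337) (nat_lit 0) (nat_lit 203) (nat_lit 200) (nat_lit 167)) (PT.lf (nat_lit 24548) (nat_lit 6) (nat_lit 323) (nat_lit 0) (nat_lit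 204) (nat_lit 200) (nat_lit 166)))) (PT.nd (nat_lit 78) (PT.lf (nat_lit 23636) (nat_lit 6) (nat_lit 311) (nat_lit 0) (nat_lit 205) (nat_lit 200) (nat_lit 165)) (PT.nd (nat_lit 78) (PT.lf (nat_lit 22724) (nat_lit 6) (nat_lit 299) (nat_lit 0) (nat_lit 206) (nat_lit 200) (nat_lit 164)) (PT.lf (nat_lit 21888) (nat_lit 6) (nat_lit 288) (nat_lit 0) (nat_lit 207) (nat_lit 200) (nat_lit 163))))) (PT.nd (nat_lit 234) (PT.nd (nat_lit 78) (PT.lf (nat_lit 21052) (nat_lit 6) (nat_lit 277) (nat_lit 0) (nat_lit 208) (nat_lit 200) (nat_lit 162)) (PT.nd (nat_lit 78) (PT.lf (nat_lit 20292) (nat_lit 6) (nat_lit 267) (nat_lit 0) (nat_lit 209) (nat_lit 200) (nat_lit 161)) (PT.lf (nat_lit 19456) (nat_lit 6) (nat_lit 256) (nat_lit 0) (nat_lit 210) (nat_lit 200) (nat_lit 160)))) (PT.nd (nat_lit 156) (PT.nd (nat_lit 78) (PT.lf (nat_lit 18696) (nat_lit 6) (nat_lit 246) (nat_lit 0) (nat_lit 211) (nat_lit 200) (nat_lit 159)) (PT.lf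 (nat_lit 17936) (nat_lit 6) (nat_lit 236) (nat_lit 0) (nat_lit 212) (nat_lit 200) (nat_lit 158))) (PT.nd (nat_lit 78) (PT.lf (nat_lit 17252) (nat_lit 6) (nat_lit 227) (nat_lit 0) (nat_lit 213) (nat_lit 200) (nat_lit 157)) (PT.lf (nat_lit 16492) (nat_lit 6) (nat_lit 217) (nat_lit 0) (nat_lit 214) (nat_lit 200) (nat_lit 156)))))) (PT.nd (nat_lit 54990) (PT.nd (nat_lit 54678) (PT.nd (nat_lit 54522) (PT.lf (nat_lit 15808) (nat_lit 6) (nat_lit 208) (nat_lit 0) (nat_lit 215) (nat_lit 200) (nat_lit 155)) (PT.nd (nat_lit 78) (PT.lf (nat_lit 14592) (nat_lit 6) (nat_lit 192) (nat_lit 5) (nat_lit 153) (nat_lit 201) (nat_lit 216)) (PT.lf (nat_lit 15200) (nat_lit 6) (nat_lit 200) (nat_lit 5) (nat_lit 154) (nat_lit 201) (nat_lit 215)))) (PT.nd (nat_lit 156) (PT.nd (nat_lit 78) (PT.lf (nat_lit 15884) (nat_lit 6) (nat_lit 209) (nat_lit 5) (nat_lit 155) (nat_lit 201) (nat_lit 214)) (PT.lf (nat_lit 16568) (nat_lit 6) (nat_lit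 218) (nat_lit 5) (nat_lit 156) (nat_lit 201) (nat_lit 213))) (PT.nd (nat_lit 78) (PT.lf (nat_lit 17328) (nat_lit 6) (nat_lit 228) (nat_lit 5) (nat_lit 157) (nat_lit 201) (nat_lit 212)) (PT.lf (nat_lit 18012) (nat_lit 6) (nat_lit 237) (nat_lit 5) (nat_lit 158) (nat_lit 201) (nat_lit 211))))) (PT.nd (nat_lit 234) (PT.nd (nat_lit 78) (PT.lf (nat_lit 18772) (nat_lit 6) (nat_lit 247) (nat_lit 5) (nat_lit 159) (nat_lit 201) (nat_lit 210)) (PT.nd (nat_lit 78) (PT.lf (nat_lit 19532) (nat_lit 6) (nat_lit 257) (nat_lit 5) (nat_lit 160) (nat_lit 201) (nat_lit 209)) (PT.lf (nat_lit 20368) (nat_lit 6) (nat_lit 268) (nat_lit 5) (nat_lit 161) (nat_lit 201) (nat_lit 208)))) (PT.nd (nat_lit 156) (PT.nd (nat_lit 78) (PT.lf (nat_lit 21128) (nat_lit 6) (nat_lit 278) (nat_lit 5) (nat_lit 162) (nat_lit 201) (nat_lit 207)) (PT.lf (nat_lit 21964) (nat_lit 6) (nat_lit 289) (nat_lit 5) (nat_lit 163) (nat_lit 201) (nat_lit 206)))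 (PT.nd (nat_lit 78) (PT.lf (nat_lit 22800) (nat_lit 6) (nat_lit 300) (nat_lit 5) (nat_lit 164) (nat_lit 201) (nat_lit 205)) (PT.lf (nat_lit 23712) (nat_lit 6) (nat_lit 312) (nat_lit 5) (nat_lit 165) (nat_lit 201) (nat_lit 204))))))))
noncomputable def pc37 : PT := (PT.nd (nat_lit 2028) (PT.nd (nat_lit 1014) (PT.nd (nat_lit 468) (PT.nd (nat_lit 234) (PT.nd (nat_lit 78) (PT.lf (nat_lit 24624) (nat_lit 6) (nat_lit 324) (nat_lit 5) (nat_lit 166) (nat_lit 201) (nat_lit 203)) (PT.nd (nat_lit 78) (PT.lf (nat_lit 25688) (nat_lit 6) (nat_lit 338) (nat_lit 5) (nat_lit 167) (nat_lit 201) (nat_lit 202)) (PT.lf (nat_lit 27436) (nat_lit 3) (nat_lit 361) (nat_lit 4) (nat_lit 168) (nat_lit 201) (nat_lit 201)))) (PT.nd (nat_lit 78) (PT.lf (nat_lit 29032) (nat_lit 6) (nat_lit 382) (nat_lit 4) (nat_lit 169) (nat_lit 201) (nat_lit 200)) (PT.nd (nat_lit 78) (PT.lf (nat_lit 30552) (nat_lit 6) (nat_lit 402) (nat_lit 4) (nat_lit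 170) (nat_lit 201) (nat_lit 199)) (PT.lf (nat_lit 31996) (nat_lit 6) (nat_lit 421) (nat_lit 4) (nat_lit 171) (nat_lit 201) (nat_lit 198))))) (PT.nd (nat_lit 234) (PT.nd (nat_lit 78) (PT.lf (nat_lit 33364) (nat_lit 6) (nat_lit 439) (nat_lit 4) (nat_lit 172) (nat_lit 201) (nat_lit 197)) (PT.nd (nat_lit 78) (PT.lf (nat_lit 34656) (nat_lit 6) (nat_lit 456) (nat_lit 4) (nat_lit 173) (nat_lit 201) (nat_lit 196)) (PT.lf (nat_lit 35872) (nat_lit 6) (nat_lit 472) (nat_lit 4) (nat_lit 174) (nat_lit 201) (nat_lit 195)))) (PT.nd (nat_lit 156) (PT.nd (nat_lit 78) (PT.lf (nat_lit 37012) (nat_lit 6) (nat_lit 487) (nat_lit 4) (nat_lit 175) (nat_lit 201) (nat_lit 194)) (PT.lf (nat_lit 38076) (nat_lit 6) (nat_lit 501) (nat_lit 4) (nat_lit 176) (nat_lit 201) (nat_lit 193))) (PT.nd (nat_lit 78) (PT.lf (nat_lit 39064) (nat_lit 6) (nat_lit 514) (nat_lit 4) (nat_lit 177) (nat_lit 201) (nat_lit 192)) (PT.lf (nat_lit 39976) (nat_lit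 6) (nat_lit 526) (nat_lit 4) (nat_lit 178) (nat_lit 201) (nat_lit 191)))))) (PT.nd (nat_lit 468) (PT.nd (nat_lit 234) (PT.nd (nat_lit 78) (PT.lf (nat_lit 40812) (nat_lit 6) (nat_lit 537) (nat_lit 4) (nat_lit 179) (nat_lit 201) (nat_lit 190)) (PT.nd (nat_lit 78) (PT.lf (nat_lit 40736) (nat_lit 6) (nat_lit 536) (nat_lit 4) (nat_lit 180) (nat_lit 201) (nat_lit 189)) (PT.lf (nat_lit 40660) (nat_lit 6) (nat_lit 535) (nat_lit 4) (nat_lit 181) (nat_lit 201) (nat_lit 188)))) (PT.nd (nat_lit 78) (PT.lf (nat_lit 40584) (nat_lit 6) (nat_lit 534) (nat_lit 4) (nat_lit 182) (nat_lit 201) (nat_lit 187)) (PT.nd (nat_lit 78) (PT.lf (nat_lit 40508) (nat_lit 6) (nat_lit 533) (nat_lit 4) (nat_lit 183) (nat_lit 201) (nat_lit 186)) (PT.lf (nat_lit 40432) (nat_lit 6) (nat_lit 532) (nat_lit 4) (nat_lit 184) (nat_lit 201) (nat_lit 185))))) (PT.nd (nat_lit 234) (PT.nd (nat_lit 78) (PT.lf (nat_lit 40432) (nat_lit 6) (nat_lit 532)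 (nat_lit 2) (nat_lit 185) (nat_lit 201) (nat_lit 184)) (PT.nd (nat_lit 78) (PT.lf (nat_lit 40508) (nat_lit 6) (nat_lit 533) (nat_lit 2) (nat_lit 186) (nat_lit 201) (nat_lit 183)) (PT.lf (nat_lit 40584) (nat_lit 6) (nat_lit 534) (nat_lit 2) (nat_lit 187) (nat_lit 201) (nat_lit 182)))) (PT.nd (nat_lit 156) (PT.nd (nat_lit 78) (PT.lf (nat_lit 40660) (nat_lit 6) (nat_lit 535) (nat_lit 2) (nat_lit 188) (nat_lit 201) (nat_lit 181)) (PT.lf (nat_lit 40736) (nat_lit 6) (nat_lit 536) (nat_lit 2) (nat_lit 189) (nat_lit 201) (nat_lit 180))) (PT.nd (nat_lit 78) (PT.lf (nat_lit 40812) (nat_lit 6) (nat_lit 537) (nat_lit 2) (nat_lit 190) (nat_lit 201) (nat_lit 179)) (PT.lf (nat_lit 39976) (nat_lit 6) (nat_lit 526) (nat_lit 2) (nat_lit 191) (nat_lit 201) (nat_lit 178))))))) (PT.nd (nat_lit 1014) (PT.nd (nat_lit 468) (PT.nd (nat_lit 234) (PT.nd (nat_lit 78) (PT.lf (nat_lit 39064) (nat_lit 6) (nat_lit 514) (nat_lit 2) (nat_lit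 192) (nat_lit 201) (nat_lit 177)) (PT.nd (nat_lit 78) (PT.lf (nat_lit 38076) (nat_lit 6) (nat_lit 501) (nat_lit 2) (nat_lit 193) (nat_lit 201) (nat_lit 176)) (PT.lf (nat_lit 37012) (nat_lit 6) (nat_lit 487) (nat_lit 2) (nat_lit 194) (nat_lit 201) (nat_lit 175)))) (PT.nd (nat_lit 78) (PT.lf (nat_lit 35872) (nat_lit 6) (nat_lit 472) (nat_lit 2) (nat_lit 195) (nat_lit 201) (nat_lit 174)) (PT.nd (nat_lit 78) (PT.lf (nat_lit 34656) (nat_lit 6) (nat_lit 456) (nat_lit 2) (nat_lit 196) (nat_lit 201) (nat_lit 173)) (PT.lf (nat_lit 33364) (nat_lit 6) (nat_lit 439) (nat_lit 2) (nat_lit 197) (nat_lit 201) (nat_lit 172))))) (PT.nd (nat_lit 234) (PT.nd (nat_lit 78) (PT.lf (nat_lit 31996) (nat_lit 6) (nat_lit 421) (nat_lit 2) (nat_lit 198) (nat_lit 201) (nat_lit 171)) (PT.nd (nat_lit 78) (PT.lf (nat_lit 30552) (nat_lit 6) (nat_lit 402) (nat_lit 2) (nat_lit 199) (nat_lit 201) (nat_lit 170)) (PT.lf (nat_lit 29032) (nat_lit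 6) (nat_lit 382) (nat_lit 2) (nat_lit 200) (nat_lit 201) (nat_lit 169)))) (PT.nd (nat_lit 156) (PT.nd (nat_lit 78) (PT.lf (nat_lit 27436) (nat_lit 3) (nat_lit 361) (nat_lit 0) (nat_lit 201) (nat_lit 201) (nat_lit 168)) (PT.lf (nat_lit 25688) (nat_lit 6) (nat_lit 338) (nat_lit 0) (nat_lit 202) (nat_lit 201) (nat_lit 167))) (PT.nd (nat_lit 78) (PT.lf (nat_lit 24624) (nat_lit 6) (nat_lit 324) (nat_lit 0) (nat_lit 203) (nat_lit 201) (nat_lit 166)) (PT.lf (nat_lit 23712) (nat_lit 6) (nat_lit 312) (nat_lit 0) (nat_lit 204) (nat_lit 201) (nat_lit 165)))))) (PT.nd (nat_lit 546) (PT.nd (nat_lit 234) (PT.nd (nat_lit 78) (PT.lf (nat_lit 22800) (nat_lit 6) (nat_lit 300) (nat_lit 0) (nat_lit 205) (nat_lit 201) (nat_lit 164)) (PT.nd (nat_lit 78) (PT.lf (nat_lit 21964) (nat_lit 6) (nat_lit 289) (nat_lit 0) (nat_lit 206) (nat_lit 201) (nat_lit 163)) (PT.lf (nat_lit 21128) (nat_lit 6) (nat_lit 278) (nat_lit 0) (nat_lit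 207) (nat_lit 201) (nat_lit 162)))) (PT.nd (nat_lit 156) (PT.nd (nat_lit 78) (PT.lf (nat_lit 20368) (nat_lit 6) (nat_lit 268) (nat_lit 0) (nat_lit 208) (nat_lit 201) (nat_lit 161)) (PT.lf (nat_lit 19532) (nat_lit 6) (nat_lit 257) (nat_lit 0) (nat_lit 209) (nat_lit 201) (nat_lit 160))) (PT.nd (nat_lit 78) (PT.lf (nat_lit 18772) (nat_lit 6) (nat_lit 247) (nat_lit 0) (nat_lit 210) (nat_lit 201) (nat_lit 159)) (PT.lf (nat_lit 18012) (nat_lit 6) (nat_lit 237) (nat_lit 0) (nat_lit 211) (nat_lit 201) (nat_lit 158))))) (PT.nd (nat_lit 234) (PT.nd (nat_lit 78) (PT.lf (nat_lit 17328) (nat_lit 6) (nat_lit 228) (nat_lit 0) (nat_lit 212) (nat_lit 201) (nat_lit 157)) (PT.nd (nat_lit 78) (PT.lf (nat_lit 16568) (nat_lit 6) (nat_lit 218) (nat_lit 0) (nat_lit 213) (nat_lit 201) (nat_lit 156)) (PT.lf (nat_lit 15884) (nat_lit 6) (nat_lit 209) (nat_lit 0) (nat_lit 214) (nat_lit 201) (nat_lit 155)))) (PT.nd (nat_lit 54444)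 (PT.nd (nat_lit 78) (PT.lf (nat_lit 15200) (nat_lit 6) (nat_lit 200) (nat_lit 0) (nat_lit 215) (nat_lit 201) (nat_lit 154)) (PT.lf (nat_lit 14592) (nat_lit 6) (nat_lit 192) (nat_lit 0) (nat_lit 216) (nat_lit 201) (nat_lit 153))) (PT.nd (nat_lit 78) (PT.lf (nat_lit 13984) (nat_lit 6) (nat_lit 184) (nat_lit 5) (nat_lit 152) (nat_lit 202) (nat_lit 216)) (PT.lf (nat_lit 14668) (nat_lit 6) (nat_lit 193) (nat_lit 5) (nat_lit 153) (nat_lit 202) (nat_lit 215))))))))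
noncomputable def pc38 : PT := (PT.nd (nat_lit 2028) (PT.nd (nat_lit 1014) (PT.nd (nat_lit 468) (PT.nd (nat_lit 234) (PT.nd (nat_lit 78) (PT.lf (nat_lit 15276) (nat_lit 6) (nat_lit 201) (nat_lit 5) (nat_lit 154) (nat_lit 202) (nat_lit 214)) (PT.nd (nat_lit 78) (PT.lf (nat_lit 15960) (nat_lit 6) (nat_lit 210) (nat_lit 5) (nat_lit 155) (nat_lit 202) (nat_lit 213)) (PT.lf (nat_lit 16644) (nat_lit 6) (nat_lit 219) (nat_lit 5) (nat_lit 156) (nat_lit 202) (nat_lit 212)))) (PT.nd (nat_lit 78) (PT.lf (nat_lit 17404) (nat_lit 6) (nat_lit 229) (nat_lit 5) (nat_lit 157) (nat_lit 202) (nat_lit 211)) (PT.nd (nat_lit 78) (PT.lf (nat_lit 18088) (nat_lit 6) (nat_lit 238) (nat_lit 5) (nat_lit 158) (nat_lit 202) (nat_lit 210)) (PT.lf (nat_lit 18848) (nat_lit 6) (nat_lit 248) (nat_lit 5) (nat_lit 159) (nat_lit 202) (nat_lit 209))))) (PT.nd (nat_lit 234) (PT.nd (nat_lit 78) (PT.lf (nat_lit 19608) (nat_lit 6) (nat_lit 258)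 (nat_lit 5) (nat_lit 160) (nat_lit 202) (nat_lit 208)) (PT.nd (nat_lit 78) (PT.lf (nat_lit 20444) (nat_lit 6) (nat_lit 269) (nat_lit 5) (nat_lit 161) (nat_lit 202) (nat_lit 207)) (PT.lf (nat_lit 21204) (nat_lit 6) (nat_lit 279) (nat_lit 5) (nat_lit 162) (nat_lit 202) (nat_lit 206)))) (PT.nd (nat_lit 156) (PT.nd (nat_lit 78) (PT.lf (nat_lit 22040) (nat_lit 6) (nat_lit 290) (nat_lit 5) (nat_lit 163) (nat_lit 202) (nat_lit 205)) (PT.lf (nat_lit 22876) (nat_lit 6) (nat_lit 301) (nat_lit 5) (nat_lit 164) (nat_lit 202) (nat_lit 204))) (PT.nd (nat_lit 78) (PT.lf (nat_lit 23788) (nat_lit 6) (nat_lit 313) (nat_lit 5) (nat_lit 165) (nat_lit 202) (nat_lit 203)) (PT.lf (nat_lit 24700) (nat_lit 3) (nat_lit 325) (nat_lit 4) (nat_lit 166) (nat_lit 202) (nat_lit 202)))))) (PT.nd (nat_lit 468) (PT.nd (nat_lit 234) (PT.nd (nat_lit 78) (PT.lf (nat_lit 25688) (nat_lit 6) (nat_lit 338) (nat_lit 4) (nat_lit 167) (nat_lit 202)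 (nat_lit 201)) (PT.nd (nat_lit 78) (PT.lf (nat_lit 27360) (nat_lit 6) (nat_lit 360) (nat_lit 4) (nat_lit 168) (nat_lit 202) (nat_lit 200)) (PT.lf (nat_lit 28956) (nat_lit 6) (nat_lit 381) (nat_lit 4) (nat_lit 169) (nat_lit 202) (nat_lit 199)))) (PT.nd (nat_lit 78) (PT.lf (nat_lit 30476) (nat_lit 6) (nat_lit 401) (nat_lit 4) (nat_lit 170) (nat_lit 202) (nat_lit 198)) (PT.nd (nat_lit 78) (PT.lf (nat_lit 31920) (nat_lit 6) (nat_lit 420) (nat_lit 4) (nat_lit 171) (nat_lit 202) (nat_lit 197)) (PT.lf (nat_lit 33288) (nat_lit 6) (nat_lit 438) (nat_lit 4) (nat_lit 172) (nat_lit 202) (nat_lit 196))))) (PT.nd (nat_lit 234) (PT.nd (nat_lit 78) (PT.lf (nat_lit 34580) (nat_lit 6) (nat_lit 455) (nat_lit 4) (nat_lit 173) (nat_lit 202) (nat_lit 195)) (PT.nd (nat_lit 78) (PT.lf (nat_lit 35796) (nat_lit 6) (nat_lit 471) (nat_lit 4) (nat_lit 174) (nat_lit 202) (nat_lit 194)) (PT.lf (nat_lit 36936) (nat_lit 6) (nat_lit 486)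 (nat_lit 4) (nat_lit 175) (nat_lit 202) (nat_lit 193)))) (PT.nd (nat_lit 156) (PT.nd (nat_lit 78) (PT.lf (nat_lit 38000) (nat_lit 6) (nat_lit 500) (nat_lit 4) (nat_lit 176) (nat_lit 202) (nat_lit 192)) (PT.lf (nat_lit 38988) (nat_lit 6) (nat_lit 513) (nat_lit 4) (nat_lit 177) (nat_lit 202) (nat_lit 191))) (PT.nd (nat_lit 78) (PT.lf (nat_lit 39900) (nat_lit 6) (nat_lit 525) (nat_lit 4) (nat_lit 178) (nat_lit 202) (nat_lit 190)) (PT.lf (nat_lit 39824) (nat_lit 6) (nat_lit 524) (nat_lit 4) (nat_lit 179) (nat_lit 202) (nat_lit 189))))))) (PT.nd (nat_lit 1014) (PT.nd (nat_lit 468) (PT.nd (nat_lit 234) (PT.nd (nat_lit 78) (PT.lf (nat_lit 39748) (nat_lit 6) (nat_lit 523) (nat_lit 4) (nat_lit 180) (nat_lit 202) (nat_lit 188)) (PT.nd (nat_lit 78) (PT.lf (nat_lit 39672) (nat_lit 6) (nat_lit 522) (nat_lit 4) (nat_lit 181) (nat_lit 202) (nat_lit 187)) (PT.lf (nat_lit 39596) (nat_lit 6) (nat_lit 521) (nat_lit 4) (nat_lit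 182) (nat_lit 202) (nat_lit 186)))) (PT.nd (nat_lit 78) (PT.lf (nat_lit 39520) (nat_lit 6) (nat_lit 520) (nat_lit 4) (nat_lit 183) (nat_lit 202) (nat_lit 185)) (PT.nd (nat_lit 78) (PT.lf (nat_lit 39444) (nat_lit 3) (nat_lit 519) (nat_lit 2) (nat_lit 184) (nat_lit 202) (nat_lit 184)) (PT.lf (nat_lit 39520) (nat_lit 6) (nat_lit 520) (nat_lit 2) (nat_lit 185) (nat_lit 202) (nat_lit 183))))) (PT.nd (nat_lit 234) (PT.nd (nat_lit 78) (PT.lf (nat_lit 39596) (nat_lit 6) (nat_lit 521) (nat_lit 2) (nat_lit 186) (nat_lit 202) (nat_lit 182)) (PT.nd (nat_lit 78) (PT.lf (nat_lit 39672) (nat_lit 6) (nat_lit 522) (nat_lit 2) (nat_lit 187) (nat_lit 202) (nat_lit 181)) (PT.lf (nat_lit 39748) (nat_lit 6) (nat_lit 523) (nat_lit 2) (nat_lit 188) (nat_lit 202) (nat_lit 180)))) (PT.nd (nat_lit 156) (PT.nd (nat_lit 78) (PT.lf (nat_lit 39824) (nat_lit 6) (nat_lit 524) (nat_lit 2) (nat_lit 189) (nat_lit 202) (nat_lit 179)) (PT.lf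 (nat_lit 39900) (nat_lit 6) (nat_lit 525) (nat_lit 2) (nat_lit 190) (nat_lit 202) (nat_lit 178))) (PT.nd (nat_lit 78) (PT.lf (nat_lit 38988) (nat_lit 6) (nat_lit 513) (nat_lit 2) (nat_lit 191) (nat_lit 202) (nat_lit 177)) (PT.lf (nat_lit 38000) (nat_lit 6) (nat_lit 500) (nat_lit 2) (nat_lit 192) (nat_lit 202) (nat_lit 176)))))) (PT.nd (nat_lit 546) (PT.nd (nat_lit 234) (PT.nd (nat_lit 78) (PT.lf (nat_lit 36936) (nat_lit 6) (nat_lit 486) (nat_lit 2) (nat_lit 193) (nat_lit 202) (nat_lit 175)) (PT.nd (nat_lit 78) (PT.lf (nat_lit 35796) (nat_lit 6) (nat_lit 471) (nat_lit 2) (nat_lit 194) (nat_lit 202) (nat_lit 174)) (PT.lf (nat_lit 34580) (nat_lit 6) (nat_lit 455) (nat_lit 2) (nat_lit 195) (nat_lit 202) (nat_lit 173)))) (PT.nd (nat_lit 156) (PT.nd (nat_lit 78) (PT.lf (nat_lit 33288) (nat_lit 6) (nat_lit 438) (nat_lit 2) (nat_lit 196) (nat_lit 202) (nat_lit 172)) (PT.lf (nat_lit 31920) (nat_lit 6) (nat_lit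 420) (nat_lit 2) (nat_lit 197) (nat_lit 202) (nat_lit 171))) (PT.nd (nat_lit 78) (PT.lf (nat_lit 30476) (nat_lit 6) (nat_lit 401) (nat_lit 2) (nat_lit 198) (nat_lit 202) (nat_lit 170)) (PT.lf (nat_lit 28956) (nat_lit 6) (nat_lit 381) (nat_lit 2) (nat_lit 199) (nat_lit 202) (nat_lit 169))))) (PT.nd (nat_lit 234) (PT.nd (nat_lit 78) (PT.lf (nat_lit 27360) (nat_lit 6) (nat_lit 360) (nat_lit 2) (nat_lit 200) (nat_lit 202) (nat_lit 168)) (PT.nd (nat_lit 78) (PT.lf (nat_lit 25688) (nat_lit 6) (nat_lit 338) (nat_lit 2) (nat_lit 201) (nat_lit 202) (nat_lit 167)) (PT.lf (nat_lit 24700) (nat_lit 3) (nat_lit 325) (nat_lit 0) (nat_lit 202) (nat_lit 202) (nat_lit 166)))) (PT.nd (nat_lit 156) (PT.nd (nat_lit 78) (PT.lf (nat_lit 23788) (nat_lit 6) (nat_lit 313) (nat_lit 0) (nat_lit 203) (nat_lit 202) (nat_lit 165)) (PT.lf (nat_lit 22876) (nat_lit 6) (nat_lit 301) (nat_lit 0) (nat_lit 204) (nat_lit 202) (nat_lit 164)))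 (PT.nd (nat_lit 78) (PT.lf (nat_lit 22040) (nat_lit 6) (nat_lit 290) (nat_lit 0) (nat_lit 205) (nat_lit 202) (nat_lit 163)) (PT.lf (nat_lit 21204) (nat_lit 6) (nat_lit 279) (nat_lit 0) (nat_lit 206) (nat_lit 202) (nat_lit 162))))))))
noncomputable def pc39 : PT := (PT.nd (nat_lit 56316) (PT.nd (nat_lit 55224) (PT.nd (nat_lit 468) (PT.nd (nat_lit 234) (PT.nd (nat_lit 78) (PT.lf (nat_lit 20444) (nat_lit 6) (nat_lit 269) (nat_lit 0) (nat_lit 207) (nat_lit 202) (nat_lit 161)) (PT.nd (nat_lit 78) (PT.lf (nat_lit 19608) (nat_lit 6) (nat_lit 258) (nat_lit 0) (nat_lit 208) (nat_lit 202) (nat_lit 160)) (PT.lf (nat_lit 18848) (nat_lit 6) (nat_lit 248) (nat_lit 0) (nat_lit 209) (nat_lit 202) (nat_lit 159)))) (PT.nd (nat_lit 78) (PT.lf (nat_lit 18088) (nat_lit 6) (nat_lit 238) (nat_lit 0) (nat_lit 210) (nat_lit 202) (nat_lit 158)) (PT.nd (nat_lit 78) (PT.lf (nat_lit 17404) (nat_lit 6) (nat_lit 229) (nat_lit 0) (nat_lit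 211) (nat_lit 202) (nat_lit 157)) (PT.lf (nat_lit 16644) (nat_lit 6) (nat_lit 219) (nat_lit 0) (nat_lit 212) (nat_lit 202) (nat_lit 156))))) (PT.nd (nat_lit 234) (PT.nd (nat_lit 78) (PT.lf (nat_lit 15960) (nat_lit 6) (nat_lit 210) (nat_lit 0) (nat_lit 213) (nat_lit 202) (nat_lit 155)) (PT.nd (nat_lit 78) (PT.lf (nat_lit 15276) (nat_lit 6) (nat_lit 201) (nat_lit 0) (nat_lit 214) (nat_lit 202) (nat_lit 154)) (PT.lf (nat_lit 14668) (nat_lit 6) (nat_lit 193) (nat_lit 0) (nat_lit 215) (nat_lit 202) (nat_lit 153)))) (PT.nd (nat_lit 54366) (PT.nd (nat_lit 54288) (PT.lf (nat_lit 13984) (nat_lit 6) (nat_lit 184) (nat_lit 0) (nat_lit 216) (nat_lit 202) (nat_lit 152)) (PT.lf (nat_lit 13452) (nat_lit 6) (nat_lit 177) (nat_lit 5) (nat_lit 151) (nat_lit 203) (nat_lit 216))) (PT.nd (nat_lit 78) (PT.lf (nat_lit 14060) (nat_lit 6) (nat_lit 185) (nat_lit 5) (nat_lit 152) (nat_lit 203) (nat_lit 215)) (PT.lf (nat_lit 14744)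 (nat_lit 6) (nat_lit 194) (nat_lit 5) (nat_lit 153) (nat_lit 203) (nat_lit 214)))))) (PT.nd (nat_lit 546) (PT.nd (nat_lit 234) (PT.nd (nat_lit 78) (PT.lf (nat_lit 15352) (nat_lit 6) (nat_lit 202) (nat_lit 5) (nat_lit 154) (nat_lit 203) (nat_lit 213)) (PT.nd (nat_lit 78) (PT.lf (nat_lit 16036) (nat_lit 6) (nat_lit 211) (nat_lit 5) (nat_lit 155) (nat_lit 203) (nat_lit 212)) (PT.lf (nat_lit 16720) (nat_lit 6) (nat_lit 220) (nat_lit 5) (nat_lit 156) (nat_lit 203) (nat_lit 211)))) (PT.nd (nat_lit 156) (PT.nd (nat_lit 78) (PT.lf (nat_lit 17480) (nat_lit 6) (nat_lit 230) (nat_lit 5) (nat_lit 157) (nat_lit 203) (nat_lit 210)) (PT.lf (nat_lit 18164) (nat_lit 6) (nat_lit 239) (nat_lit 5) (nat_lit 158) (nat_lit 203) (nat_lit 209))) (PT.nd (nat_lit 78) (PT.lf (nat_lit 18924) (nat_lit 6) (nat_lit 249) (nat_lit 5) (nat_lit 159) (nat_lit 203) (nat_lit 208)) (PT.lf (nat_lit 19684) (nat_lit 6) (nat_lit 259) (nat_lit 5)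 (nat_lit 160) (nat_lit 203) (nat_lit 207))))) (PT.nd (nat_lit 234) (PT.nd (nat_lit 78) (PT.lf (nat_lit 20520) (nat_lit 6) (nat_lit 270) (nat_lit 5) (nat_lit 161) (nat_lit 203) (nat_lit 206)) (PT.nd (nat_lit 78) (PT.lf (nat_lit 21280) (nat_lit 6) (nat_lit 280) (nat_lit 5) (nat_lit 162) (nat_lit 203) (nat_lit 205)) (PT.lf (nat_lit 22116) (nat_lit 6) (nat_lit 291) (nat_lit 5) (nat_lit 163) (nat_lit 203) (nat_lit 204)))) (PT.nd (nat_lit 156) (PT.nd (nat_lit 78) (PT.lf (nat_lit 22952) (nat_lit 3) (nat_lit 302) (nat_lit 4) (nat_lit 164) (nat_lit 203) (nat_lit 203)) (PT.lf (nat_lit 23788) (nat_lit 6) (nat_lit 313) (nat_lit 4) (nat_lit 165) (nat_lit 203) (nat_lit 202))) (PT.nd (nat_lit 78) (PT.lf (nat_lit 24624) (nat_lit 6) (nat_lit 324) (nat_lit 4) (nat_lit 166) (nat_lit 203) (nat_lit 201)) (PT.lf (nat_lit 25612) (nat_lit 6) (nat_lit 337) (nat_lit 4) (nat_lit 167) (nat_lit 203) (nat_lit 200))))))) (PT.nd (nat_lit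 1014) (PT.nd (nat_lit 468) (PT.nd (nat_lit 234) (PT.nd (nat_lit 78) (PT.lf (nat_lit 27284) (nat_lit 6) (nat_lit 359) (nat_lit 4) (nat_lit 168) (nat_lit 203) (nat_lit 199)) (PT.nd (nat_lit 78) (PT.lf (nat_lit 28880) (nat_lit 6) (nat_lit 380) (nat_lit 4) (nat_lit 169) (nat_lit 203) (nat_lit 198)) (PT.lf (nat_lit 30400) (nat_lit 6) (nat_lit 400) (nat_lit 4) (nat_lit 170) (nat_lit 203) (nat_lit 197)))) (PT.nd (nat_lit 78) (PT.lf (nat_lit 31844) (nat_lit 6) (nat_lit 419) (nat_lit 4) (nat_lit 171) (nat_lit 203) (nat_lit 196)) (PT.nd (nat_lit 78) (PT.lf (nat_lit 33212) (nat_lit 6) (nat_lit 437) (nat_lit 4) (nat_lit 172) (nat_lit 203) (nat_lit 195)) (PT.lf (nat_lit 34504) (nat_lit 6) (nat_lit 454) (nat_lit 4) (nat_lit 173) (nat_lit 203) (nat_lit 194))))) (PT.nd (nat_lit 234) (PT.nd (nat_lit 78) (PT.lf (nat_lit 35720) (nat_lit 6) (nat_lit 470) (nat_lit 4) (nat_lit 174) (nat_lit 203) (nat_lit 193)) (PT.nd (nat_lit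 78) (PT.lf (nat_lit 36860) (nat_lit 6) (nat_lit 485) (nat_lit 4) (nat_lit 175) (nat_lit 203) (nat_lit 192)) (PT.lf (nat_lit 37924) (nat_lit 6) (nat_lit 499) (nat_lit 4) (nat_lit 176) (nat_lit 203) (nat_lit 191)))) (PT.nd (nat_lit 156) (PT.nd (nat_lit 78) (PT.lf (nat_lit 38912) (nat_lit 6) (nat_lit 512) (nat_lit 4) (nat_lit 177) (nat_lit 203) (nat_lit 190)) (PT.lf (nat_lit 38836) (nat_lit 6) (nat_lit 511) (nat_lit 4) (nat_lit 178) (nat_lit 203) (nat_lit 189))) (PT.nd (nat_lit 78) (PT.lf (nat_lit 38760) (nat_lit 6) (nat_lit 510) (nat_lit 4) (nat_lit 179) (nat_lit 203) (nat_lit 188)) (PT.lf (nat_lit 38684) (nat_lit 6) (nat_lit 509) (nat_lit 4) (nat_lit 180) (nat_lit 203) (nat_lit 187)))))) (PT.nd (nat_lit 546) (PT.nd (nat_lit 234) (PT.nd (nat_lit 78) (PT.lf (nat_lit 38608) (nat_lit 6) (nat_lit 508) (nat_lit 4) (nat_lit 181) (nat_lit 203) (nat_lit 186)) (PT.nd (nat_lit 78) (PT.lf (nat_lit 38532) (nat_lit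 6) (nat_lit 507) (nat_lit 4) (nat_lit 182) (nat_lit 203) (nat_lit 185)) (PT.lf (nat_lit 38456) (nat_lit 6) (nat_lit 506) (nat_lit 4) (nat_lit 183) (nat_lit 203) (nat_lit 184)))) (PT.nd (nat_lit 156) (PT.nd (nat_lit 78) (PT.lf (nat_lit 38456) (nat_lit 6) (nat_lit 506) (nat_lit 2) (nat_lit 184) (nat_lit 203) (nat_lit 183)) (PT.lf (nat_lit 38532) (nat_lit 6) (nat_lit 507) (nat_lit 2) (nat_lit 185) (nat_lit 203) (nat_lit 182))) (PT.nd (nat_lit 78) (PT.lf (nat_lit 38608) (nat_lit 6) (nat_lit 508) (nat_lit 2) (nat_lit 186) (nat_lit 203) (nat_lit 181)) (PT.lf (nat_lit 38684) (nat_lit 6) (nat_lit 509) (nat_lit 2) (nat_lit 187) (nat_lit 203) (nat_lit 180))))) (PT.nd (nat_lit 234) (PT.nd (nat_lit 78) (PT.lf (nat_lit 38760) (nat_lit 6) (nat_lit 510) (nat_lit 2) (nat_lit 188) (nat_lit 203) (nat_lit 179)) (PT.nd (nat_lit 78) (PT.lf (nat_lit 38836) (nat_lit 6) (nat_lit 511) (nat_lit 2) (nat_lit 189) (nat_lit 203) (nat_lit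 178)) (PT.lf (nat_lit 38912) (nat_lit 6) (nat_lit 512) (nat_lit 2) (nat_lit 190) (nat_lit 203) (nat_lit 177)))) (PT.nd (nat_lit 156) (PT.nd (nat_lit 78) (PT.lf (nat_lit 37924) (nat_lit 6) (nat_lit 499) (nat_lit 2) (nat_lit 191) (nat_lit 203) (nat_lit 176)) (PT.lf (nat_lit 36860) (nat_lit 6) (nat_lit 485) (nat_lit 2) (nat_lit 192) (nat_lit 203) (nat_lit 175))) (PT.nd (nat_lit 78) (PT.lf (nat_lit 35720) (nat_lit 6) (nat_lit 470) (nat_lit 2) (nat_lit 193) (nat_lit 203) (nat_lit 174)) (PT.lf (nat_lit 34504) (nat_lit 6) (nat_lit 454) (nat_lit 2) (nat_lit 194) (nat_lit 203) (nat_lit 173))))))))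
noncomputable def pc40 : PT := (PT.nd (nat_lit 56082) (PT.nd (nat_lit 1014) (PT.nd (nat_lit 468) (PT.nd (nat_lit 234) (PT.nd (nat_lit 78) (PT.lf (nat_lit 33212) (nat_lit 6) (nat_lit 437) (nat_lit 2) (nat_lit 195) (nat_lit 203) (nat_lit 172)) (PT.nd (nat_lit 78) (PT.lf (nat_lit 31844) (nat_lit 6) (nat_lit 419) (nat_lit 2) (nat_lit 196) (nat_lit 203) (nat_lit 171)) (PT.lf (nat_lit 30400) (nat_lit 6) (nat_lit 400) (nat_lit 2) (nat_lit 197) (nat_lit 203) (nat_lit 170)))) (PT.nd (nat_lit 78) (PT.lf (nat_lit 28880) (nat_lit 6) (nat_lit 380) (nat_lit 2) (nat_lit 198) (nat_lit 203) (nat_lit 169)) (PT.nd (nat_lit 78) (PT.lf (nat_lit 27284) (nat_lit 6) (nat_lit 359) (nat_lit 2) (nat_lit 199) (nat_lit 203) (nat_lit 168)) (PT.lf (nat_lit 25612) (nat_lit 6) (nat_lit 337) (nat_lit 2) (nat_lit 200) (nat_lit 203) (nat_lit 167))))) (PT.nd (nat_lit 234) (PT.nd (nat_lit 78) (PT.lf (nat_lit 24624) (nat_lit 6) (nat_lit 324)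 (nat_lit 2) (nat_lit 201) (nat_lit 203) (nat_lit 166)) (PT.nd (nat_lit 78) (PT.lf (nat_lit 23788) (nat_lit 6) (nat_lit 313) (nat_lit 2) (nat_lit 202) (nat_lit 203) (nat_lit 165)) (PT.lf (nat_lit 22952) (nat_lit 3) (nat_lit 302) (nat_lit 0) (nat_lit 203) (nat_lit 203) (nat_lit 164)))) (PT.nd (nat_lit 156) (PT.nd (nat_lit 78) (PT.lf (nat_lit 22116) (nat_lit 6) (nat_lit 291) (nat_lit 0) (nat_lit 204) (nat_lit 203) (nat_lit 163)) (PT.lf (nat_lit 21280) (nat_lit 6) (nat_lit 280) (nat_lit 0) (nat_lit 205) (nat_lit 203) (nat_lit 162))) (PT.nd (nat_lit 78) (PT.lf (nat_lit 20520) (nat_lit 6) (nat_lit 270) (nat_lit 0) (nat_lit 206) (nat_lit 203) (nat_lit 161)) (PT.lf (nat_lit 19684) (nat_lit 6) (nat_lit 259) (nat_lit 0) (nat_lit 207) (nat_lit 203) (nat_lit 160)))))) (PT.nd (nat_lit 468) (PT.nd (nat_lit 234) (PT.nd (nat_lit 78) (PT.lf (nat_lit 18924) (nat_lit 6) (nat_lit 249) (nat_lit 0) (nat_lit 208) (nat_lit 203)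 (nat_lit 159)) (PT.nd (nat_lit 78) (PT.lf (nat_lit 18164) (nat_lit 6) (nat_lit 239) (nat_lit 0) (nat_lit 209) (nat_lit 203) (nat_lit 158)) (PT.lf (nat_lit 17480) (nat_lit 6) (nat_lit 230) (nat_lit 0) (nat_lit 210) (nat_lit 203) (nat_lit 157)))) (PT.nd (nat_lit 78) (PT.lf (nat_lit 16720) (nat_lit 6) (nat_lit 220) (nat_lit 0) (nat_lit 211) (nat_lit 203) (nat_lit 156)) (PT.nd (nat_lit 78) (PT.lf (nat_lit 16036) (nat_lit 6) (nat_lit 211) (nat_lit 0) (nat_lit 212) (nat_lit 203) (nat_lit 155)) (PT.lf (nat_lit 15352) (nat_lit 6) (nat_lit 202) (nat_lit 0) (nat_lit 213) (nat_lit 203) (nat_lit 154))))) (PT.nd (nat_lit 54288) (PT.nd (nat_lit 78) (PT.lf (nat_lit 14744) (nat_lit 6) (nat_lit 194) (nat_lit 0) (nat_lit 214) (nat_lit 203) (nat_lit 153)) (PT.nd (nat_lit 78) (PT.lf (nat_lit 14060) (nat_lit 6) (nat_lit 185) (nat_lit 0) (nat_lit 215) (nat_lit 203) (nat_lit 152)) (PT.lf (nat_lit 13452) (nat_lit 6) (nat_lit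 177) (nat_lit 0) (nat_lit 216) (nat_lit 203) (nat_lit 151)))) (PT.nd (nat_lit 156) (PT.nd (nat_lit 78) (PT.lf (nat_lit 12388) (nat_lit 6) (nat_lit 163) (nat_lit 5) (nat_lit 149) (nat_lit 204) (nat_lit 217)) (PT.lf (nat_lit 12920) (nat_lit 6) (nat_lit 170) (nat_lit 5) (nat_lit 150) (nat_lit 204) (nat_lit 216))) (PT.nd (nat_lit 78) (PT.lf (nat_lit 13528) (nat_lit 6) (nat_lit 178) (nat_lit 5) (nat_lit 151) (nat_lit 204) (nat_lit 215)) (PT.lf (nat_lit 14136) (nat_lit 6) (nat_lit 186) (nat_lit 5) (nat_lit 152) (nat_lit 204) (nat_lit 214))))))) (PT.nd (nat_lit 1014) (PT.nd (nat_lit 468) (PT.nd (nat_lit 234) (PT.nd (nat_lit 78) (PT.lf (nat_lit 14820) (nat_lit 6) (nat_lit 195) (nat_lit 5) (nat_lit 153) (nat_lit 204) (nat_lit 213)) (PT.nd (nat_lit 78) (PT.lf (nat_lit 15428) (nat_lit 6) (nat_lit 203) (nat_lit 5) (nat_lit 154) (nat_lit 204) (nat_lit 212)) (PT.lf (nat_lit 16112) (nat_lit 6) (nat_lit 212) (nat_lit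 5) (nat_lit 155) (nat_lit 204) (nat_lit 211)))) (PT.nd (nat_lit 78) (PT.lf (nat_lit 16796) (nat_lit 6) (nat_lit 221) (nat_lit 5) (nat_lit 156) (nat_lit 204) (nat_lit 210)) (PT.nd (nat_lit 78) (PT.lf (nat_lit 17556) (nat_lit 6) (nat_lit 231) (nat_lit 5) (nat_lit 157) (nat_lit 204) (nat_lit 209)) (PT.lf (nat_lit 18240) (nat_lit 6) (nat_lit 240) (nat_lit 5) (nat_lit 158) (nat_lit 204) (nat_lit 208))))) (PT.nd (nat_lit 234) (PT.nd (nat_lit 78) (PT.lf (nat_lit 19000) (nat_lit 6) (nat_lit 250) (nat_lit 5) (nat_lit 159) (nat_lit 204) (nat_lit 207)) (PT.nd (nat_lit 78) (PT.lf (nat_lit 19760) (nat_lit 6) (nat_lit 260) (nat_lit 5) (nat_lit 160) (nat_lit 204) (nat_lit 206)) (PT.lf (nat_lit 20596) (nat_lit 6) (nat_lit 271) (nat_lit 5) (nat_lit 161) (nat_lit 204) (nat_lit 205)))) (PT.nd (nat_lit 156) (PT.nd (nat_lit 78) (PT.lf (nat_lit 21356) (nat_lit 3) (nat_lit 281) (nat_lit 4) (nat_lit 162) (nat_lit 204) (nat_lit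 204)) (PT.lf (nat_lit 22116) (nat_lit 6) (nat_lit 291) (nat_lit 4) (nat_lit 163) (nat_lit 204) (nat_lit 203))) (PT.nd (nat_lit 78) (PT.lf (nat_lit 22876) (nat_lit 6) (nat_lit 301) (nat_lit 4) (nat_lit 164) (nat_lit 204) (nat_lit 202)) (PT.lf (nat_lit 23712) (nat_lit 6) (nat_lit 312) (nat_lit 4) (nat_lit 165) (nat_lit 204) (nat_lit 201)))))) (PT.nd (nat_lit 546) (PT.nd (nat_lit 234) (PT.nd (nat_lit 78) (PT.lf (nat_lit 24548) (nat_lit 6) (nat_lit 323) (nat_lit 4) (nat_lit 166) (nat_lit 204) (nat_lit 200)) (PT.nd (nat_lit 78) (PT.lf (nat_lit 25536) (nat_lit 6) (nat_lit 336) (nat_lit 4) (nat_lit 167) (nat_lit 204) (nat_lit 199)) (PT.lf (nat_lit 27208) (nat_lit 6) (nat_lit 358) (nat_lit 4) (nat_lit 168) (nat_lit 204) (nat_lit 198)))) (PT.nd (nat_lit 156) (PT.nd (nat_lit 78) (PT.lf (nat_lit 28804) (nat_lit 6) (nat_lit 379) (nat_lit 4) (nat_lit 169) (nat_lit 204) (nat_lit 197)) (PT.lf (nat_lit 30324) (nat_lit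 6) (nat_lit 399) (nat_lit 4) (nat_lit 170) (nat_lit 204) (nat_lit 196))) (PT.nd (nat_lit 78) (PT.lf (nat_lit 31768) (nat_lit 6) (nat_lit 418) (nat_lit 4) (nat_lit 171) (nat_lit 204) (nat_lit 195)) (PT.lf (nat_lit 33136) (nat_lit 6) (nat_lit 436) (nat_lit 4) (nat_lit 172) (nat_lit 204) (nat_lit 194))))) (PT.nd (nat_lit 234) (PT.nd (nat_lit 78) (PT.lf (nat_lit 34428) (nat_lit 6) (nat_lit 453) (nat_lit 4) (nat_lit 173) (nat_lit 204) (nat_lit 193)) (PT.nd (nat_lit 78) (PT.lf (nat_lit 35644) (nat_lit 6) (nat_lit 469) (nat_lit 4) (nat_lit 174) (nat_lit 204) (nat_lit 192)) (PT.lf (nat_lit 36784) (nat_lit 6) (nat_lit 484) (nat_lit 4) (nat_lit 175) (nat_lit 204) (nat_lit 191)))) (PT.nd (nat_lit 156) (PT.nd (nat_lit 78) (PT.lf (nat_lit 37848) (nat_lit 6) (nat_lit 498) (nat_lit 4) (nat_lit 176) (nat_lit 204) (nat_lit 190)) (PT.lf (nat_lit 37772) (nat_lit 6) (nat_lit 497) (nat_lit 4) (nat_lit 177) (nat_lit 204) (nat_lit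 189))) (PT.nd (nat_lit 78) (PT.lf (nat_lit 37696) (nat_lit 6) (nat_lit 496) (nat_lit 4) (nat_lit 178) (nat_lit 204) (nat_lit 188)) (PT.lf (nat_lit 37620) (nat_lit 6) (nat_lit 495) (nat_lit 4) (nat_lit 179) (nat_lit 204) (nat_lit 187))))))))
noncomputable def pc41 : PT := (PT.nd (nat_lit 2028) (PT.nd (nat_lit 1014) (PT.nd (nat_lit 468) (PT.nd (nat_lit 234) (PT.nd (nat_lit 78) (PT.lf (nat_lit 37544) (nat_lit 6) (nat_lit 494) (nat_lit 4) (nat_lit 180) (nat_lit 204) (nat_lit 186)) (PT.nd (nat_lit 78) (PT.lf (nat_lit 37468) (nat_lit 6) (nat_lit 493) (nat_lit 4) (nat_lit 181) (nat_lit 204) (nat_lit 185)) (PT.lf (nat_lit 37392) (nat_lit 6) (nat_lit 492) (nat_lit 4) (nat_lit 182) (nat_lit 204) (nat_lit 184)))) (PT.nd (nat_lit 78) (PT.lf (nat_lit 37316) (nat_lit 3) (nat_lit 491) (nat_lit 2) (nat_lit 183) (nat_lit 204) (nat_lit 183)) (PT.nd (nat_lit 78) (PT.lf (nat_lit 37392) (nat_lit 6) (nat_lit 492) (nat_lit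 2) (nat_lit 184) (nat_lit 204) (nat_lit 182)) (PT.lf (nat_lit 37468) (nat_lit 6) (nat_lit 493) (nat_lit 2) (nat_lit 185) (nat_lit 204) (nat_lit 181))))) (PT.nd (nat_lit 234) (PT.nd (nat_lit 78) (PT.lf (nat_lit 37544) (nat_lit 6) (nat_lit 494) (nat_lit 2) (nat_lit 186) (nat_lit 204) (nat_lit 180)) (PT.nd (nat_lit 78) (PT.lf (nat_lit 37620) (nat_lit 6) (nat_lit 495) (nat_lit 2) (nat_lit 187) (nat_lit 204) (nat_lit 179)) (PT.lf (nat_lit 37696) (nat_lit 6) (nat_lit 496) (nat_lit 2) (nat_lit 188) (nat_lit 204) (nat_lit 178)))) (PT.nd (nat_lit 156) (PT.nd (nat_lit 78) (PT.lf (nat_lit 37772) (nat_lit 6) (nat_lit 497) (nat_lit 2) (nat_lit 189) (nat_lit 204) (nat_lit 177)) (PT.lf (nat_lit 37848) (nat_lit 6) (nat_lit 498) (nat_lit 2) (nat_lit 190) (nat_lit 204) (nat_lit 176))) (PT.nd (nat_lit 78) (PT.lf (nat_lit 36784) (nat_lit 6) (nat_lit 484) (nat_lit 2) (nat_lit 191) (nat_lit 204) (nat_lit 175)) (PT.lf (nat_lit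 35644) (nat_lit 6) (nat_lit 469) (nat_lit 2) (nat_lit 192) (nat_lit 204) (nat_lit 174)))))) (PT.nd (nat_lit 468) (PT.nd (nat_lit 234) (PT.nd (nat_lit 78) (PT.lf (nat_lit 34428) (nat_lit 6) (nat_lit 453) (nat_lit 2) (nat_lit 193) (nat_lit 204) (nat_lit 173)) (PT.nd (nat_lit 78) (PT.lf (nat_lit 33136) (nat_lit 6) (nat_lit 436) (nat_lit 2) (nat_lit 194) (nat_lit 204) (nat_lit 172)) (PT.lf (nat_lit 31768) (nat_lit 6) (nat_lit 418) (nat_lit 2) (nat_lit 195) (nat_lit 204) (nat_lit 171)))) (PT.nd (nat_lit 78) (PT.lf (nat_lit 30324) (nat_lit 6) (nat_lit 399) (nat_lit 2) (nat_lit 196) (nat_lit 204) (nat_lit 170)) (PT.nd (nat_lit 78) (PT.lf (nat_lit 28804) (nat_lit 6) (nat_lit 379) (nat_lit 2) (nat_lit 197) (nat_lit 204) (nat_lit 169)) (PT.lf (nat_lit 27208) (nat_lit 6) (nat_lit 358) (nat_lit 2) (nat_lit 198) (nat_lit 204) (nat_lit 168))))) (PT.nd (nat_lit 234) (PT.nd (nat_lit 78) (PT.lf (nat_lit 25536) (nat_lit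 6) (nat_lit 336) (nat_lit 2) (nat_lit 199) (nat_lit 204) (nat_lit 167)) (PT.nd (nat_lit 78) (PT.lf (nat_lit 24548) (nat_lit 6) (nat_lit 323) (nat_lit 2) (nat_lit 200) (nat_lit 204) (nat_lit 166)) (PT.lf (nat_lit 23712) (nat_lit 6) (nat_lit 312) (nat_lit 2) (nat_lit 201) (nat_lit 204) (nat_lit 165)))) (PT.nd (nat_lit 156) (PT.nd (nat_lit 78) (PT.lf (nat_lit 22876) (nat_lit 6) (nat_lit 301) (nat_lit 2) (nat_lit 202) (nat_lit 204) (nat_lit 164)) (PT.lf (nat_lit 22116) (nat_lit 6) (nat_lit 291) (nat_lit 2) (nat_lit 203) (nat_lit 204) (nat_lit 163))) (PT.nd (nat_lit 78) (PT.lf (nat_lit 21356) (nat_lit 3) (nat_lit 281) (nat_lit 0) (nat_lit 204) (nat_lit 204) (nat_lit 162)) (PT.lf (nat_lit 20596) (nat_lit 6) (nat_lit 271) (nat_lit 0) (nat_lit 205) (nat_lit 204) (nat_lit 161))))))) (PT.nd (nat_lit 54912) (PT.nd (nat_lit 468) (PT.nd (nat_lit 234) (PT.nd (nat_lit 78) (PT.lf (nat_lit 19760) (nat_lit 6) (nat_lit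 260) (nat_lit 0) (nat_lit 206) (nat_lit 204) (nat_lit 160)) (PT.nd (nat_lit 78) (PT.lf (nat_lit 19000) (nat_lit 6) (nat_lit 250) (nat_lit 0) (nat_lit 207) (nat_lit 204) (nat_lit 159)) (PT.lf (nat_lit 18240) (nat_lit 6) (nat_lit 240) (nat_lit 0) (nat_lit 208) (nat_lit 204) (nat_lit 158)))) (PT.nd (nat_lit 78) (PT.lf (nat_lit 17556) (nat_lit 6) (nat_lit 231) (nat_lit 0) (nat_lit 209) (nat_lit 204) (nat_lit 157)) (PT.nd (nat_lit 78) (PT.lf (nat_lit 16796) (nat_lit 6) (nat_lit 221) (nat_lit 0) (nat_lit 210) (nat_lit 204) (nat_lit 156)) (PT.lf (nat_lit 16112) (nat_lit 6) (nat_lit 212) (nat_lit 0) (nat_lit 211) (nat_lit 204) (nat_lit 155))))) (PT.nd (nat_lit 234) (PT.nd (nat_lit 78) (PT.lf (nat_lit 15428) (nat_lit 6) (nat_lit 203) (nat_lit 0) (nat_lit 212) (nat_lit 204) (nat_lit 154)) (PT.nd (nat_lit 78) (PT.lf (nat_lit 14820) (nat_lit 6) (nat_lit 195) (nat_lit 0) (nat_lit 213) (nat_lit 204) (nat_lit 153))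 (PT.lf (nat_lit 14136) (nat_lit 6) (nat_lit 186) (nat_lit 0) (nat_lit 214) (nat_lit 204) (nat_lit 152)))) (PT.nd (nat_lit 156) (PT.nd (nat_lit 78) (PT.lf (nat_lit 13528) (nat_lit 6) (nat_lit 178) (nat_lit 0) (nat_lit 215) (nat_lit 204) (nat_lit 151)) (PT.lf (nat_lit 12920) (nat_lit 6) (nat_lit 170) (nat_lit 0) (nat_lit 216) (nat_lit 204) (nat_lit 150))) (PT.nd (nat_lit 53976) (PT.lf (nat_lit 12388) (nat_lit 6) (nat_lit 163) (nat_lit 0) (nat_lit 217) (nat_lit 204) (nat_lit 149)) (PT.lf (nat_lit 11856) (nat_lit 6) (nat_lit 156) (nat_lit 5) (nat_lit 148) (nat_lit 205) (nat_lit 217)))))) (PT.nd (nat_lit 546) (PT.nd (nat_lit 234) (PT.nd (nat_lit 78) (PT.lf (nat_lit 12464) (nat_lit 6) (nat_lit 164) (nat_lit 5) (nat_lit 149) (nat_lit 205) (nat_lit 216)) (PT.nd (nat_lit 78) (PT.lf (nat_lit 12996) (nat_lit 6) (nat_lit 171) (nat_lit 5) (nat_lit 150) (nat_lit 205) (nat_lit 215)) (PT.lf (nat_lit 13604) (nat_lit 6)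 (nat_lit 179) (nat_lit 5) (nat_lit 151) (nat_lit 205) (nat_lit 214)))) (PT.nd (nat_lit 156) (PT.nd (nat_lit 78) (PT.lf (nat_lit 14212) (nat_lit 6) (nat_lit 187) (nat_lit 5) (nat_lit 152) (nat_lit 205) (nat_lit 213)) (PT.lf (nat_lit 14896) (nat_lit 6) (nat_lit 196) (nat_lit 5) (nat_lit 153) (nat_lit 205) (nat_lit 212))) (PT.nd (nat_lit 78) (PT.lf (nat_lit 15504) (nat_lit 6) (nat_lit 204) (nat_lit 5) (nat_lit 154) (nat_lit 205) (nat_lit 211)) (PT.lf (nat_lit 16188) (nat_lit 6) (nat_lit 213) (nat_lit 5) (nat_lit 155) (nat_lit 205) (nat_lit 210))))) (PT.nd (nat_lit 234) (PT.nd (nat_lit 78) (PT.lf (nat_lit 16872) (nat_lit 6) (nat_lit 222) (nat_lit 5) (nat_lit 156) (nat_lit 205) (nat_lit 209)) (PT.nd (nat_lit 78) (PT.lf (nat_lit 17632) (nat_lit 6) (nat_lit 232) (nat_lit 5) (nat_lit 157) (nat_lit 205) (nat_lit 208)) (PT.lf (nat_lit 18316) (nat_lit 6) (nat_lit 241) (nat_lit 5) (nat_lit 158) (nat_lit 205) (nat_lit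 207)))) (PT.nd (nat_lit 156) (PT.nd (nat_lit 78) (PT.lf (nat_lit 19076) (nat_lit 6) (nat_lit 251) (nat_lit 5) (nat_lit 159) (nat_lit 205) (nat_lit 206)) (PT.lf (nat_lit 19836) (nat_lit 3) (nat_lit 261) (nat_lit 4) (nat_lit 160) (nat_lit 205) (nat_lit 205))) (PT.nd (nat_lit 78) (PT.lf (nat_lit 20596) (nat_lit 6) (nat_lit 271) (nat_lit 4) (nat_lit 161) (nat_lit 205) (nat_lit 204)) (PT.lf (nat_lit 21280) (nat_lit 6) (nat_lit 280) (nat_lit 4) (nat_lit 162) (nat_lit 205) (nat_lit 203))))))))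
noncomputable def pc42 : PT := (PT.nd (nat_lit 2028) (PT.nd (nat_lit 1014) (PT.nd (nat_lit 468) (PT.nd (nat_lit 234) (PT.nd (nat_lit 78) (PT.lf (nat_lit 22040) (nat_lit 6) (nat_lit 290) (nat_lit 4) (nat_lit 163) (nat_lit 205) (nat_lit 202)) (PT.nd (nat_lit 78) (PT.lf (nat_lit 22800) (nat_lit 6) (nat_lit 300) (nat_lit 4) (nat_lit 164) (nat_lit 205) (nat_lit 201)) (PT.lf (nat_lit 23636) (nat_lit 6) (nat_lit 311) (nat_lit 4) (nat_lit 165) (nat_lit 205) (nat_lit 200)))) (PT.nd (nat_lit 78) (PT.lf (nat_lit 24472) (nat_lit 6) (nat_lit 322) (nat_lit 4) (nat_lit 166) (nat_lit 205) (nat_lit 199)) (PT.nd (nat_lit 78) (PT.lf (nat_lit 25460) (nat_lit 6) (nat_lit 335) (nat_lit 4) (nat_lit 167) (nat_lit 205) (nat_lit 198)) (PT.lf (nat_lit 27132) (nat_lit 6) (nat_lit 357) (nat_lit 4) (nat_lit 168) (nat_lit 205) (nat_lit 197))))) (PT.nd (nat_lit 234) (PT.nd (nat_lit 78) (PT.lf (nat_lit 28728) (nat_lit 6) (nat_lit 378)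 (nat_lit 4) (nat_lit 169) (nat_lit 205) (nat_lit 196)) (PT.nd (nat_lit 78) (PT.lf (nat_lit 30248) (nat_lit 6) (nat_lit 398) (nat_lit 4) (nat_lit 170) (nat_lit 205) (nat_lit 195)) (PT.lf (nat_lit 31692) (nat_lit 6) (nat_lit 417) (nat_lit 4) (nat_lit 171) (nat_lit 205) (nat_lit 194)))) (PT.nd (nat_lit 156) (PT.nd (nat_lit 78) (PT.lf (nat_lit 33060) (nat_lit 6) (nat_lit 435) (nat_lit 4) (nat_lit 172) (nat_lit 205) (nat_lit 193)) (PT.lf (nat_lit 34352) (nat_lit 6) (nat_lit 452) (nat_lit 4) (nat_lit 173) (nat_lit 205) (nat_lit 192))) (PT.nd (nat_lit 78) (PT.lf (nat_lit 35568) (nat_lit 6) (nat_lit 468) (nat_lit 4) (nat_lit 174) (nat_lit 205) (nat_lit 191)) (PT.lf (nat_lit 36708) (nat_lit 6) (nat_lit 483) (nat_lit 4) (nat_lit 175) (nat_lit 205) (nat_lit 190)))))) (PT.nd (nat_lit 468) (PT.nd (nat_lit 234) (PT.nd (nat_lit 78) (PT.lf (nat_lit 36632) (nat_lit 6) (nat_lit 482) (nat_lit 4) (nat_lit 176) (nat_lit 205)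 (nat_lit 189)) (PT.nd (nat_lit 78) (PT.lf (nat_lit 36556) (nat_lit 6) (nat_lit 481) (nat_lit 4) (nat_lit 177) (nat_lit 205) (nat_lit 188)) (PT.lf (nat_lit 36480) (nat_lit 6) (nat_lit 480) (nat_lit 4) (nat_lit 178) (nat_lit 205) (nat_lit 187)))) (PT.nd (nat_lit 78) (PT.lf (nat_lit 36404) (nat_lit 6) (nat_lit 479) (nat_lit 4) (nat_lit 179) (nat_lit 205) (nat_lit 186)) (PT.nd (nat_lit 78) (PT.lf (nat_lit 36328) (nat_lit 6) (nat_lit 478) (nat_lit 4) (nat_lit 180) (nat_lit 205) (nat_lit 185)) (PT.lf (nat_lit 36252) (nat_lit 6) (nat_lit 477) (nat_lit 4) (nat_lit 181) (nat_lit 205) (nat_lit 184))))) (PT.nd (nat_lit 234) (PT.nd (nat_lit 78) (PT.lf (nat_lit 36176) (nat_lit 6) (nat_lit 476) (nat_lit 4) (nat_lit 182) (nat_lit 205) (nat_lit 183)) (PT.nd (nat_lit 78) (PT.lf (nat_lit 36176) (nat_lit 6) (nat_lit 476) (nat_lit 2) (nat_lit 183) (nat_lit 205) (nat_lit 182)) (PT.lf (nat_lit 36252) (nat_lit 6) (nat_lit 477)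 (nat_lit 2) (nat_lit 184) (nat_lit 205) (nat_lit 181)))) (PT.nd (nat_lit 156) (PT.nd (nat_lit 78) (PT.lf (nat_lit 36328) (nat_lit 6) (nat_lit 478) (nat_lit 2) (nat_lit 185) (nat_lit 205) (nat_lit 180)) (PT.lf (nat_lit 36404) (nat_lit 6) (nat_lit 479) (nat_lit 2) (nat_lit 186) (nat_lit 205) (nat_lit 179))) (PT.nd (nat_lit 78) (PT.lf (nat_lit 36480) (nat_lit 6) (nat_lit 480) (nat_lit 2) (nat_lit 187) (nat_lit 205) (nat_lit 178)) (PT.lf (nat_lit 36556) (nat_lit 6) (nat_lit 481) (nat_lit 2) (nat_lit 188) (nat_lit 205) (nat_lit 177))))))) (PT.nd (nat_lit 1014) (PT.nd (nat_lit 468) (PT.nd (nat_lit 234) (PT.nd (nat_lit 78) (PT.lf (nat_lit 36632) (nat_lit 6) (nat_lit 482) (nat_lit 2) (nat_lit 189) (nat_lit 205) (nat_lit 176)) (PT.nd (nat_lit 78) (PT.lf (nat_lit 36708) (nat_lit 6) (nat_lit 483) (nat_lit 2) (nat_lit 190) (nat_lit 205) (nat_lit 175)) (PT.lf (nat_lit 35568) (nat_lit 6) (nat_lit 468) (nat_lit 2) (nat_lit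 191) (nat_lit 205) (nat_lit 174)))) (PT.nd (nat_lit 78) (PT.lf (nat_lit 34352) (nat_lit 6) (nat_lit 452) (nat_lit 2) (nat_lit 192) (nat_lit 205) (nat_lit 173)) (PT.nd (nat_lit 78) (PT.lf (nat_lit 33060) (nat_lit 6) (nat_lit 435) (nat_lit 2) (nat_lit 193) (nat_lit 205) (nat_lit 172)) (PT.lf (nat_lit 31692) (nat_lit 6) (nat_lit 417) (nat_lit 2) (nat_lit 194) (nat_lit 205) (nat_lit 171))))) (PT.nd (nat_lit 234) (PT.nd (nat_lit 78) (PT.lf (nat_lit 30248) (nat_lit 6) (nat_lit 398) (nat_lit 2) (nat_lit 195) (nat_lit 205) (nat_lit 170)) (PT.nd (nat_lit 78) (PT.lf (nat_lit 28728) (nat_lit 6) (nat_lit 378) (nat_lit 2) (nat_lit 196) (nat_lit 205) (nat_lit 169)) (PT.lf (nat_lit 27132) (nat_lit 6) (nat_lit 357) (nat_lit 2) (nat_lit 197) (nat_lit 205) (nat_lit 168)))) (PT.nd (nat_lit 156) (PT.nd (nat_lit 78) (PT.lf (nat_lit 25460) (nat_lit 6) (nat_lit 335) (nat_lit 2) (nat_lit 198) (nat_lit 205) (nat_lit 167)) (PT.lf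 (nat_lit 24472) (nat_lit 6) (nat_lit 322) (nat_lit 2) (nat_lit 199) (nat_lit 205) (nat_lit 166))) (PT.nd (nat_lit 78) (PT.lf (nat_lit 23636) (nat_lit 6) (nat_lit 311) (nat_lit 2) (nat_lit 200) (nat_lit 205) (nat_lit 165)) (PT.lf (nat_lit 22800) (nat_lit 6) (nat_lit 300) (nat_lit 2) (nat_lit 201) (nat_lit 205) (nat_lit 164)))))) (PT.nd (nat_lit 546) (PT.nd (nat_lit 234) (PT.nd (nat_lit 78) (PT.lf (nat_lit 22040) (nat_lit 6) (nat_lit 290) (nat_lit 2) (nat_lit 202) (nat_lit 205) (nat_lit 163)) (PT.nd (nat_lit 78) (PT.lf (nat_lit 21280) (nat_lit 6) (nat_lit 280) (nat_lit 2) (nat_lit 203) (nat_lit 205) (nat_lit 162)) (PT.lf (nat_lit 20596) (nat_lit 6) (nat_lit 271) (nat_lit 2) (nat_lit 204) (nat_lit 205) (nat_lit 161)))) (PT.nd (nat_lit 156) (PT.nd (nat_lit 78) (PT.lf (nat_lit 19836) (nat_lit 3) (nat_lit 261) (nat_lit 0) (nat_lit 205) (nat_lit 205) (nat_lit 160)) (PT.lf (nat_lit 19076) (nat_lit 6) (nat_lit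 251) (nat_lit 0) (nat_lit 206) (nat_lit 205) (nat_lit 159))) (PT.nd (nat_lit 78) (PT.lf (nat_lit 18316) (nat_lit 6) (nat_lit 241) (nat_lit 0) (nat_lit 207) (nat_lit 205) (nat_lit 158)) (PT.lf (nat_lit 17632) (nat_lit 6) (nat_lit 232) (nat_lit 0) (nat_lit 208) (nat_lit 205) (nat_lit 157))))) (PT.nd (nat_lit 234) (PT.nd (nat_lit 78) (PT.lf (nat_lit 16872) (nat_lit 6) (nat_lit 222) (nat_lit 0) (nat_lit 209) (nat_lit 205) (nat_lit 156)) (PT.nd (nat_lit 78) (PT.lf (nat_lit 16188) (nat_lit 6) (nat_lit 213) (nat_lit 0) (nat_lit 210) (nat_lit 205) (nat_lit 155)) (PT.lf (nat_lit 15504) (nat_lit 6) (nat_lit 204) (nat_lit 0) (nat_lit 211) (nat_lit 205) (nat_lit 154)))) (PT.nd (nat_lit 156) (PT.nd (nat_lit 78) (PT.lf (nat_lit 14896) (nat_lit 6) (nat_lit 196) (nat_lit 0) (nat_lit 212) (nat_lit 205) (nat_lit 153)) (PT.lf (nat_lit 14212) (nat_lit 6) (nat_lit 187) (nat_lit 0) (nat_lit 213) (nat_lit 205) (nat_lit 152)))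 (PT.nd (nat_lit 78) (PT.lf (nat_lit 13604) (nat_lit 6) (nat_lit 179) (nat_lit 0) (nat_lit 214) (nat_lit 205) (nat_lit 151)) (PT.lf (nat_lit 12996) (nat_lit 6) (nat_lit 171) (nat_lit 0) (nat_lit 215) (nat_lit 205) (nat_lit 150))))))))
noncomputable def pc43 : PT := (PT.nd (nat_lit 55926) (PT.nd (nat_lit 54834) (PT.nd (nat_lit 54288) (PT.nd (nat_lit 54054) (PT.nd (nat_lit 78) (PT.lf (nat_lit 12464) (nat_lit 6) (nat_lit 164) (nat_lit 0) (nat_lit 216) (nat_lit 205) (nat_lit 149)) (PT.nd (nat_lit 53898) (PT.lf (nat_lit 11856) (nat_lit 6) (nat_lit 156) (nat_lit 0) (nat_lit 217) (nat_lit 205) (nat_lit 148)) (PT.lf (nat_lit 11400) (nat_lit 6) (nat_lit 150) (nat_lit 5) (nat_lit 147) (nat_lit 206) (nat_lit 217)))) (PT.nd (nat_lit 78) (PT.lf (nat_lit 11932) (nat_lit 6) (nat_lit 157) (nat_lit 5) (nat_lit 148) (nat_lit 206) (nat_lit 216)) (PT.nd (nat_lit 78) (PT.lf (nat_lit 12540) (nat_lit 6) (nat_lit 165) (nat_lit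 5) (nat_lit 149) (nat_lit 206) (nat_lit 215)) (PT.lf (nat_lit 13072) (nat_lit 6) (nat_lit 172) (nat_lit 5) (nat_lit 150) (nat_lit 206) (nat_lit 214))))) (PT.nd (nat_lit 234) (PT.nd (nat_lit 78) (PT.lf (nat_lit 13680) (nat_lit 6) (nat_lit 180) (nat_lit 5) (nat_lit 151) (nat_lit 206) (nat_lit 213)) (PT.nd (nat_lit 78) (PT.lf (nat_lit 14288) (nat_lit 6) (nat_lit 188) (nat_lit 5) (nat_lit 152) (nat_lit 206) (nat_lit 212)) (PT.lf (nat_lit 14972) (nat_lit 6) (nat_lit 197) (nat_lit 5) (nat_lit 153) (nat_lit 206) (nat_lit 211)))) (PT.nd (nat_lit 156) (PT.nd (nat_lit 78) (PT.lf (nat_lit 15580) (nat_lit 6) (nat_lit 205) (nat_lit 5) (nat_lit 154) (nat_lit 206) (nat_lit 210)) (PT.lf (nat_lit 16264) (nat_lit 6) (nat_lit 214) (nat_lit 5) (nat_lit 155) (nat_lit 206) (nat_lit 209))) (PT.nd (nat_lit 78) (PT.lf (nat_lit 16948) (nat_lit 6) (nat_lit 223) (nat_lit 5) (nat_lit 156) (nat_lit 206) (nat_lit 208)) (PT.lf (nat_lit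 17708) (nat_lit 6) (nat_lit 233) (nat_lit 5) (nat_lit 157) (nat_lit 206) (nat_lit 207)))))) (PT.nd (nat_lit 546) (PT.nd (nat_lit 234) (PT.nd (nat_lit 78) (PT.lf (nat_lit 18392) (nat_lit 3) (nat_lit 242) (nat_lit 4) (nat_lit 158) (nat_lit 206) (nat_lit 206)) (PT.nd (nat_lit 78) (PT.lf (nat_lit 19076) (nat_lit 6) (nat_lit 251) (nat_lit 4) (nat_lit 159) (nat_lit 206) (nat_lit 205)) (PT.lf (nat_lit 19760) (nat_lit 6) (nat_lit 260) (nat_lit 4) (nat_lit 160) (nat_lit 206) (nat_lit 204)))) (PT.nd (nat_lit 156) (PT.nd (nat_lit 78) (PT.lf (nat_lit 20520) (nat_lit 6) (nat_lit 270) (nat_lit 4) (nat_lit 161) (nat_lit 206) (nat_lit 203)) (PT.lf (nat_lit 21204) (nat_lit 6) (nat_lit 279) (nat_lit 4) (nat_lit 162) (nat_lit 206) (nat_lit 202))) (PT.nd (nat_lit 78) (PT.lf (nat_lit 21964) (nat_lit 6) (nat_lit 289) (nat_lit 4) (nat_lit 163) (nat_lit 206) (nat_lit 201)) (PT.lf (nat_lit 22724) (nat_lit 6) (nat_lit 299) (nat_lit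 4) (nat_lit 164) (nat_lit 206) (nat_lit 200))))) (PT.nd (nat_lit 234) (PT.nd (nat_lit 78) (PT.lf (nat_lit 23560) (nat_lit 6) (nat_lit 310) (nat_lit 4) (nat_lit 165) (nat_lit 206) (nat_lit 199)) (PT.nd (nat_lit 78) (PT.lf (nat_lit 24396) (nat_lit 6) (nat_lit 321) (nat_lit 4) (nat_lit 166) (nat_lit 206) (nat_lit 198)) (PT.lf (nat_lit 25384) (nat_lit 6) (nat_lit 334) (nat_lit 4) (nat_lit 167) (nat_lit 206) (nat_lit 197)))) (PT.nd (nat_lit 156) (PT.nd (nat_lit 78) (PT.lf (nat_lit 27056) (nat_lit 6) (nat_lit 356) (nat_lit 4) (nat_lit 168) (nat_lit 206) (nat_lit 196)) (PT.lf (nat_lit 28652) (nat_lit 6) (nat_lit 377) (nat_lit 4) (nat_lit 169) (nat_lit 206) (nat_lit 195))) (PT.nd (nat_lit 78) (PT.lf (nat_lit 30172) (nat_lit 6) (nat_lit 397) (nat_lit 4) (nat_lit 170) (nat_lit 206) (nat_lit 194)) (PT.lf (nat_lit 31616) (nat_lit 6) (nat_lit 416) (nat_lit 4) (nat_lit 171) (nat_lit 206) (nat_lit 193))))))) (PT.nd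 (nat_lit 1014) (PT.nd (nat_lit 468) (PT.nd (nat_lit 234) (PT.nd (nat_lit 78) (PT.lf (nat_lit 32984) (nat_lit 6) (nat_lit 434) (nat_lit 4) (nat_lit 172) (nat_lit 206) (nat_lit 192)) (PT.nd (nat_lit 78) (PT.lf (nat_lit 34276) (nat_lit 6) (nat_lit 451) (nat_lit 4) (nat_lit 173) (nat_lit 206) (nat_lit 191)) (PT.lf (nat_lit 35492) (nat_lit 6) (nat_lit 467) (nat_lit 4) (nat_lit 174) (nat_lit 206) (nat_lit 190)))) (PT.nd (nat_lit 78) (PT.lf (nat_lit 35416) (nat_lit 6) (nat_lit 466) (nat_lit 4) (nat_lit 175) (nat_lit 206) (nat_lit 189)) (PT.nd (nat_lit 78) (PT.lf (nat_lit 35340) (nat_lit 6) (nat_lit 465) (nat_lit 4) (nat_lit 176) (nat_lit 206) (nat_lit 188)) (PT.lf (nat_lit 35264) (nat_lit 6) (nat_lit 464) (nat_lit 4) (nat_lit 177) (nat_lit 206) (nat_lit 187))))) (PT.nd (nat_lit 234) (PT.nd (nat_lit 78) (PT.lf (nat_lit 35188) (nat_lit 6) (nat_lit 463) (nat_lit 4) (nat_lit 178) (nat_lit 206) (nat_lit 186)) (PT.nd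 (nat_lit 78) (PT.lf (nat_lit 35112) (nat_lit 6) (nat_lit 462) (nat_lit 4) (nat_lit 179) (nat_lit 206) (nat_lit 185)) (PT.lf (nat_lit 35036) (nat_lit 6) (nat_lit 461) (nat_lit 4) (nat_lit 180) (nat_lit 206) (nat_lit 184)))) (PT.nd (nat_lit 156) (PT.nd (nat_lit 78) (PT.lf (nat_lit 34960) (nat_lit 6) (nat_lit 460) (nat_lit 4) (nat_lit 181) (nat_lit 206) (nat_lit 183)) (PT.lf (nat_lit 34884) (nat_lit 3) (nat_lit 459) (nat_lit 2) (nat_lit 182) (nat_lit 206) (nat_lit 182))) (PT.nd (nat_lit 78) (PT.lf (nat_lit 34960) (nat_lit 6) (nat_lit 460) (nat_lit 2) (nat_lit 183) (nat_lit 206) (nat_lit 181)) (PT.lf (nat_lit 35036) (nat_lit 6) (nat_lit 461) (nat_lit 2) (nat_lit 184) (nat_lit 206) (nat_lit 180)))))) (PT.nd (nat_lit 546) (PT.nd (nat_lit 234) (PT.nd (nat_lit 78) (PT.lf (nat_lit 35112) (nat_lit 6) (nat_lit 462) (nat_lit 2) (nat_lit 185) (nat_lit 206) (nat_lit 179)) (PT.nd (nat_lit 78) (PT.lf (nat_lit 35188)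 (nat_lit 6) (nat_lit 463) (nat_lit 2) (nat_lit 186) (nat_lit 206) (nat_lit 178)) (PT.lf (nat_lit 35264) (nat_lit 6) (nat_lit 464) (nat_lit 2) (nat_lit 187) (nat_lit 206) (nat_lit 177)))) (PT.nd (nat_lit 156) (PT.nd (nat_lit 78) (PT.lf (nat_lit 35340) (nat_lit 6) (nat_lit 465) (nat_lit 2) (nat_lit 188) (nat_lit 206) (nat_lit 176)) (PT.lf (nat_lit 35416) (nat_lit 6) (nat_lit 466) (nat_lit 2) (nat_lit 189) (nat_lit 206) (nat_lit 175))) (PT.nd (nat_lit 78) (PT.lf (nat_lit 35492) (nat_lit 6) (nat_lit 467) (nat_lit 2) (nat_lit 190) (nat_lit 206) (nat_lit 174)) (PT.lf (nat_lit 34276) (nat_lit 6) (nat_lit 451) (nat_lit 2) (nat_lit 191) (nat_lit 206) (nat_lit 173))))) (PT.nd (nat_lit 234) (PT.nd (nat_lit 78) (PT.lf (nat_lit 32984) (nat_lit 6) (nat_lit 434) (nat_lit 2) (nat_lit 192) (nat_lit 206) (nat_lit 172)) (PT.nd (nat_lit 78) (PT.lf (nat_lit 31616) (nat_lit 6) (nat_lit 416) (nat_lit 2) (nat_lit 193) (nat_lit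 206) (nat_lit 171)) (PT.lf (nat_lit 30172) (nat_lit 6) (nat_lit 397) (nat_lit 2) (nat_lit 194) (nat_lit 206) (nat_lit 170)))) (PT.nd (nat_lit 156) (PT.nd (nat_lit 78) (PT.lf (nat_lit 28652) (nat_lit 6) (nat_lit 377) (nat_lit 2) (nat_lit 195) (nat_lit 206) (nat_lit 169)) (PT.lf (nat_lit 27056) (nat_lit 6) (nat_lit 356) (nat_lit 2) (nat_lit 196) (nat_lit 206) (nat_lit 168))) (PT.nd (nat_lit 78) (PT.lf (nat_lit 25384) (nat_lit 6) (nat_lit 334) (nat_lit 2) (nat_lit 197) (nat_lit 206) (nat_lit 167)) (PT.lf (nat_lit 24396) (nat_lit 6) (nat_lit 321) (nat_lit 2) (nat_lit 198) (nat_lit 206) (nat_lit 166))))))))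
noncomputable def pc44 : PT := (PT.nd (nat_lit 55692) (PT.nd (nat_lit 1014) (PT.nd (nat_lit 468) (PT.nd (nat_lit 234) (PT.nd (nat_lit 78) (PT.lf (nat_lit 23560) (nat_lit 6) (nat_lit 310) (nat_lit 2) (nat_lit 199) (nat_lit 206) (nat_lit 165)) (PT.nd (nat_lit 78) (PT.lf (nat_lit 22724) (nat_lit 6) (nat_lit 299) (nat_lit 2) (nat_lit 200) (nat_lit 206) (nat_lit 164)) (PT.lf (nat_lit 21964) (nat_lit 6) (nat_lit 289) (nat_lit 2) (nat_lit 201) (nat_lit 206) (nat_lit 163)))) (PT.nd (nat_lit 78) (PT.lf (nat_lit 21204) (nat_lit 6) (nat_lit 279) (nat_lit 2) (nat_lit 202) (nat_lit 206) (nat_lit 162)) (PT.nd (nat_lit 78) (PT.lf (nat_lit 20520) (nat_lit 6) (nat_lit 270) (nat_lit 2) (nat_lit 203) (nat_lit 206) (nat_lit 161)) (PT.lf (nat_lit 19760) (nat_lit 6) (nat_lit 260) (nat_lit 2) (nat_lit 204) (nat_lit 206) (nat_lit 160))))) (PT.nd (nat_lit 234) (PT.nd (nat_lit 78) (PT.lf (nat_lit 19076) (nat_lit 6) (nat_lit 251)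 (nat_lit 2) (nat_lit 205) (nat_lit 206) (nat_lit 159)) (PT.nd (nat_lit 78) (PT.lf (nat_lit 18392) (nat_lit 3) (nat_lit 242) (nat_lit 0) (nat_lit 206) (nat_lit 206) (nat_lit 158)) (PT.lf (nat_lit 17708) (nat_lit 6) (nat_lit 233) (nat_lit 0) (nat_lit 207) (nat_lit 206) (nat_lit 157)))) (PT.nd (nat_lit 156) (PT.nd (nat_lit 78) (PT.lf (nat_lit 16948) (nat_lit 6) (nat_lit 223) (nat_lit 0) (nat_lit 208) (nat_lit 206) (nat_lit 156)) (PT.lf (nat_lit 16264) (nat_lit 6) (nat_lit 214) (nat_lit 0) (nat_lit 209) (nat_lit 206) (nat_lit 155))) (PT.nd (nat_lit 78) (PT.lf (nat_lit 15580) (nat_lit 6) (nat_lit 205) (nat_lit 0) (nat_lit 210) (nat_lit 206) (nat_lit 154)) (PT.lf (nat_lit 14972) (nat_lit 6) (nat_lit 197) (nat_lit 0) (nat_lit 211) (nat_lit 206) (nat_lit 153)))))) (PT.nd (nat_lit 54132) (PT.nd (nat_lit 234) (PT.nd (nat_lit 78) (PT.lf (nat_lit 14288) (nat_lit 6) (nat_lit 188) (nat_lit 0) (nat_lit 212) (nat_lit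 206) (nat_lit 152)) (PT.nd (nat_lit 78) (PT.lf (nat_lit 13680) (nat_lit 6) (nat_lit 180) (nat_lit 0) (nat_lit 213) (nat_lit 206) (nat_lit 151)) (PT.lf (nat_lit 13072) (nat_lit 6) (nat_lit 172) (nat_lit 0) (nat_lit 214) (nat_lit 206) (nat_lit 150)))) (PT.nd (nat_lit 78) (PT.lf (nat_lit 12540) (nat_lit 6) (nat_lit 165) (nat_lit 0) (nat_lit 215) (nat_lit 206) (nat_lit 149)) (PT.nd (nat_lit 78) (PT.lf (nat_lit 11932) (nat_lit 6) (nat_lit 157) (nat_lit 0) (nat_lit 216) (nat_lit 206) (nat_lit 148)) (PT.lf (nat_lit 11400) (nat_lit 6) (nat_lit 150) (nat_lit 0) (nat_lit 217) (nat_lit 206) (nat_lit 147))))) (PT.nd (nat_lit 234) (PT.nd (nat_lit 78) (PT.lf (nat_lit 10412) (nat_lit 6) (nat_lit 137) (nat_lit 5) (nat_lit 145) (nat_lit 207) (nat_lit 218)) (PT.nd (nat_lit 78) (PT.lf (nat_lit 10944) (nat_lit 6) (nat_lit 144) (nat_lit 5) (nat_lit 146) (nat_lit 207) (nat_lit 217)) (PT.lf (nat_lit 11476) (nat_lit 6) (nat_lit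 151) (nat_lit 5) (nat_lit 147) (nat_lit 207) (nat_lit 216)))) (PT.nd (nat_lit 156) (PT.nd (nat_lit 78) (PT.lf (nat_lit 12008) (nat_lit 6) (nat_lit 158) (nat_lit 5) (nat_lit 148) (nat_lit 207) (nat_lit 215)) (PT.lf (nat_lit 12616) (nat_lit 6) (nat_lit 166) (nat_lit 5) (nat_lit 149) (nat_lit 207) (nat_lit 214))) (PT.nd (nat_lit 78) (PT.lf (nat_lit 13148) (nat_lit 6) (nat_lit 173) (nat_lit 5) (nat_lit 150) (nat_lit 207) (nat_lit 213)) (PT.lf (nat_lit 13756) (nat_lit 6) (nat_lit 181) (nat_lit 5) (nat_lit 151) (nat_lit 207) (nat_lit 212))))))) (PT.nd (nat_lit 1014) (PT.nd (nat_lit 468) (PT.nd (nat_lit 234) (PT.nd (nat_lit 78) (PT.lf (nat_lit 14364) (nat_lit 6) (nat_lit 189) (nat_lit 5) (nat_lit 152) (nat_lit 207) (nat_lit 211)) (PT.nd (nat_lit 78) (PT.lf (nat_lit 15048) (nat_lit 6) (nat_lit 198) (nat_lit 5) (nat_lit 153) (nat_lit 207) (nat_lit 210)) (PT.lf (nat_lit 15656) (nat_lit 6) (nat_lit 206) (nat_lit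 5) (nat_lit 154) (nat_lit 207) (nat_lit 209)))) (PT.nd (nat_lit 78) (PT.lf (nat_lit 16340) (nat_lit 6) (nat_lit 215) (nat_lit 5) (nat_lit 155) (nat_lit 207) (nat_lit 208)) (PT.nd (nat_lit 78) (PT.lf (nat_lit 17024) (nat_lit 3) (nat_lit 224) (nat_lit 4) (nat_lit 156) (nat_lit 207) (nat_lit 207)) (PT.lf (nat_lit 17708) (nat_lit 6) (nat_lit 233) (nat_lit 4) (nat_lit 157) (nat_lit 207) (nat_lit 206))))) (PT.nd (nat_lit 234) (PT.nd (nat_lit 78) (PT.lf (nat_lit 18316) (nat_lit 6) (nat_lit 241) (nat_lit 4) (nat_lit 158) (nat_lit 207) (nat_lit 205)) (PT.nd (nat_lit 78) (PT.lf (nat_lit 19000) (nat_lit 6) (nat_lit 250) (nat_lit 4) (nat_lit 159) (nat_lit 207) (nat_lit 204)) (PT.lf (nat_lit 19684) (nat_lit 6) (nat_lit 259) (nat_lit 4) (nat_lit 160) (nat_lit 207) (nat_lit 203)))) (PT.nd (nat_lit 156) (PT.nd (nat_lit 78) (PT.lf (nat_lit 20444) (nat_lit 6) (nat_lit 269) (nat_lit 4) (nat_lit 161) (nat_lit 207) (nat_lit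 202)) (PT.lf (nat_lit 21128) (nat_lit 6) (nat_lit 278) (nat_lit 4) (nat_lit 162) (nat_lit 207) (nat_lit 201))) (PT.nd (nat_lit 78) (PT.lf (nat_lit 21888) (nat_lit 6) (nat_lit 288) (nat_lit 4) (nat_lit 163) (nat_lit 207) (nat_lit 200)) (PT.lf (nat_lit 22648) (nat_lit 6) (nat_lit 298) (nat_lit 4) (nat_lit 164) (nat_lit 207) (nat_lit 199)))))) (PT.nd (nat_lit 546) (PT.nd (nat_lit 234) (PT.nd (nat_lit 78) (PT.lf (nat_lit 23484) (nat_lit 6) (nat_lit 309) (nat_lit 4) (nat_lit 165) (nat_lit 207) (nat_lit 198)) (PT.nd (nat_lit 78) (PT.lf (nat_lit 24320) (nat_lit 6) (nat_lit 320) (nat_lit 4) (nat_lit 166) (nat_lit 207) (nat_lit 197)) (PT.lf (nat_lit 25308) (nat_lit 6) (nat_lit 333) (nat_lit 4) (nat_lit 167) (nat_lit 207) (nat_lit 196)))) (PT.nd (nat_lit 156) (PT.nd (nat_lit 78) (PT.lf (nat_lit 26980) (nat_lit 6) (nat_lit 355) (nat_lit 4) (nat_lit 168) (nat_lit 207) (nat_lit 195)) (PT.lf (nat_lit 28576) (nat_lit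 6) (nat_lit 376) (nat_lit 4) (nat_lit 169) (nat_lit 207) (nat_lit 194))) (PT.nd (nat_lit 78) (PT.lf (nat_lit 30096) (nat_lit 6) (nat_lit 396) (nat_lit 4) (nat_lit 170) (nat_lit 207) (nat_lit 193)) (PT.lf (nat_lit 31540) (nat_lit 6) (nat_lit 415) (nat_lit 4) (nat_lit 171) (nat_lit 207) (nat_lit 192))))) (PT.nd (nat_lit 234) (PT.nd (nat_lit 78) (PT.lf (nat_lit 32908) (nat_lit 6) (nat_lit 433) (nat_lit 4) (nat_lit 172) (nat_lit 207) (nat_lit 191)) (PT.nd (nat_lit 78) (PT.lf (nat_lit 34200) (nat_lit 6) (nat_lit 450) (nat_lit 4) (nat_lit 173) (nat_lit 207) (nat_lit 190)) (PT.lf (nat_lit 34124) (nat_lit 6) (nat_lit 449) (nat_lit 4) (nat_lit 174) (nat_lit 207) (nat_lit 189)))) (PT.nd (nat_lit 156) (PT.nd (nat_lit 78) (PT.lf (nat_lit 34048) (nat_lit 6) (nat_lit 448) (nat_lit 4) (nat_lit 175) (nat_lit 207) (nat_lit 188)) (PT.lf (nat_lit 33972) (nat_lit 6) (nat_lit 447) (nat_lit 4) (nat_lit 176) (nat_lit 207) (nat_lit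 187))) (PT.nd (nat_lit 78) (PT.lf (nat_lit 33896) (nat_lit 6) (nat_lit 446) (nat_lit 4) (nat_lit 177) (nat_lit 207) (nat_lit 186)) (PT.lf (nat_lit 33820) (nat_lit 6) (nat_lit 445) (nat_lit 4) (nat_lit 178) (nat_lit 207) (nat_lit 185))))))))
noncomputable def pc45 : PT := (PT.nd (nat_lit 2028) (PT.nd (nat_lit 1014) (PT.nd (nat_lit 468) (PT.nd (nat_lit 234) (PT.nd (nat_lit 78) (PT.lf (nat_lit 33744) (nat_lit 6) (nat_lit 444) (nat_lit 4) (nat_lit 179) (nat_lit 207) (nat_lit 184)) (PT.nd (nat_lit 78) (PT.lf (nat_lit 33668) (nat_lit 6) (nat_lit 443) (nat_lit 4) (nat_lit 180) (nat_lit 207) (nat_lit 183)) (PT.lf (nat_lit 33592) (nat_lit 6) (nat_lit 442) (nat_lit 4) (nat_lit 181) (nat_lit 207) (nat_lit 182)))) (PT.nd (nat_lit 78) (PT.lf (nat_lit 33592) (nat_lit 6) (nat_lit 442) (nat_lit 2) (nat_lit 182) (nat_lit 207) (nat_lit 181)) (PT.nd (nat_lit 78) (PT.lf (nat_lit 33668) (nat_lit 6) (nat_lit 443) (nat_lit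 2) (nat_lit 183) (nat_lit 207) (nat_lit 180)) (PT.lf (nat_lit 33744) (nat_lit 6) (nat_lit 444) (nat_lit 2) (nat_lit 184) (nat_lit 207) (nat_lit 179))))) (PT.nd (nat_lit 234) (PT.nd (nat_lit 78) (PT.lf (nat_lit 33820) (nat_lit 6) (nat_lit 445) (nat_lit 2) (nat_lit 185) (nat_lit 207) (nat_lit 178)) (PT.nd (nat_lit 78) (PT.lf (nat_lit 33896) (nat_lit 6) (nat_lit 446) (nat_lit 2) (nat_lit 186) (nat_lit 207) (nat_lit 177)) (PT.lf (nat_lit 33972) (nat_lit 6) (nat_lit 447) (nat_lit 2) (nat_lit 187) (nat_lit 207) (nat_lit 176)))) (PT.nd (nat_lit 156) (PT.nd (nat_lit 78) (PT.lf (nat_lit 34048) (nat_lit 6) (nat_lit 448) (nat_lit 2) (nat_lit 188) (nat_lit 207) (nat_lit 175)) (PT.lf (nat_lit 34124) (nat_lit 6) (nat_lit 449) (nat_lit 2) (nat_lit 189) (nat_lit 207) (nat_lit 174))) (PT.nd (nat_lit 78) (PT.lf (nat_lit 34200) (nat_lit 6) (nat_lit 450) (nat_lit 2) (nat_lit 190) (nat_lit 207) (nat_lit 173)) (PT.lf (nat_lit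 32908) (nat_lit 6) (nat_lit 433) (nat_lit 2) (nat_lit 191) (nat_lit 207) (nat_lit 172)))))) (PT.nd (nat_lit 468) (PT.nd (nat_lit 234) (PT.nd (nat_lit 78) (PT.lf (nat_lit 31540) (nat_lit 6) (nat_lit 415) (nat_lit 2) (nat_lit 192) (nat_lit 207) (nat_lit 171)) (PT.nd (nat_lit 78) (PT.lf (nat_lit 30096) (nat_lit 6) (nat_lit 396) (nat_lit 2) (nat_lit 193) (nat_lit 207) (nat_lit 170)) (PT.lf (nat_lit 28576) (nat_lit 6) (nat_lit 376) (nat_lit 2) (nat_lit 194) (nat_lit 207) (nat_lit 169)))) (PT.nd (nat_lit 78) (PT.lf (nat_lit 26980) (nat_lit 6) (nat_lit 355) (nat_lit 2) (nat_lit 195) (nat_lit 207) (nat_lit 168)) (PT.nd (nat_lit 78) (PT.lf (nat_lit 25308) (nat_lit 6) (nat_lit 333) (nat_lit 2) (nat_lit 196) (nat_lit 207) (nat_lit 167)) (PT.lf (nat_lit 24320) (nat_lit 6) (nat_lit 320) (nat_lit 2) (nat_lit 197) (nat_lit 207) (nat_lit 166))))) (PT.nd (nat_lit 234) (PT.nd (nat_lit 78) (PT.lf (nat_lit 23484) (nat_lit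 6) (nat_lit 309) (nat_lit 2) (nat_lit 198) (nat_lit 207) (nat_lit 165)) (PT.nd (nat_lit 78) (PT.lf (nat_lit 22648) (nat_lit 6) (nat_lit 298) (nat_lit 2) (nat_lit 199) (nat_lit 207) (nat_lit 164)) (PT.lf (nat_lit 21888) (nat_lit 6) (nat_lit 288) (nat_lit 2) (nat_lit 200) (nat_lit 207) (nat_lit 163)))) (PT.nd (nat_lit 156) (PT.nd (nat_lit 78) (PT.lf (nat_lit 21128) (nat_lit 6) (nat_lit 278) (nat_lit 2) (nat_lit 201) (nat_lit 207) (nat_lit 162)) (PT.lf (nat_lit 20444) (nat_lit 6) (nat_lit 269) (nat_lit 2) (nat_lit 202) (nat_lit 207) (nat_lit 161))) (PT.nd (nat_lit 78) (PT.lf (nat_lit 19684) (nat_lit 6) (nat_lit 259) (nat_lit 2) (nat_lit 203) (nat_lit 207) (nat_lit 160)) (PT.lf (nat_lit 19000) (nat_lit 6) (nat_lit 250) (nat_lit 2) (nat_lit 204) (nat_lit 207) (nat_lit 159))))))) (PT.nd (nat_lit 1014) (PT.nd (nat_lit 468) (PT.nd (nat_lit 234) (PT.nd (nat_lit 78) (PT.lf (nat_lit 18316) (nat_lit 6) (nat_lit 241)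 (nat_lit 2) (nat_lit 205) (nat_lit 207) (nat_lit 158)) (PT.nd (nat_lit 78) (PT.lf (nat_lit 17708) (nat_lit 6) (nat_lit 233) (nat_lit 2) (nat_lit 206) (nat_lit 207) (nat_lit 157)) (PT.lf (nat_lit 17024) (nat_lit 3) (nat_lit 224) (nat_lit 0) (nat_lit 207) (nat_lit 207) (nat_lit 156)))) (PT.nd (nat_lit 78) (PT.lf (nat_lit 16340) (nat_lit 6) (nat_lit 215) (nat_lit 0) (nat_lit 208) (nat_lit 207) (nat_lit 155)) (PT.nd (nat_lit 78) (PT.lf (nat_lit 15656) (nat_lit 6) (nat_lit 206) (nat_lit 0) (nat_lit 209) (nat_lit 207) (nat_lit 154)) (PT.lf (nat_lit 15048) (nat_lit 6) (nat_lit 198) (nat_lit 0) (nat_lit 210) (nat_lit 207) (nat_lit 153))))) (PT.nd (nat_lit 234) (PT.nd (nat_lit 78) (PT.lf (nat_lit 14364) (nat_lit 6) (nat_lit 189) (nat_lit 0) (nat_lit 211) (nat_lit 207) (nat_lit 152)) (PT.nd (nat_lit 78) (PT.lf (nat_lit 13756) (nat_lit 6) (nat_lit 181) (nat_lit 0) (nat_lit 212) (nat_lit 207) (nat_lit 151)) (PT.lf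 (nat_lit 13148) (nat_lit 6) (nat_lit 173) (nat_lit 0) (nat_lit 213) (nat_lit 207) (nat_lit 150)))) (PT.nd (nat_lit 156) (PT.nd (nat_lit 78) (PT.lf (nat_lit 12616) (nat_lit 6) (nat_lit 166) (nat_lit 0) (nat_lit 214) (nat_lit 207) (nat_lit 149)) (PT.lf (nat_lit 12008) (nat_lit 6) (nat_lit 158) (nat_lit 0) (nat_lit 215) (nat_lit 207) (nat_lit 148))) (PT.nd (nat_lit 78) (PT.lf (nat_lit 11476) (nat_lit 6) (nat_lit 151) (nat_lit 0) (nat_lit 216) (nat_lit 207) (nat_lit 147)) (PT.lf (nat_lit 10944) (nat_lit 6) (nat_lit 144) (nat_lit 0) (nat_lit 217) (nat_lit 207) (nat_lit 146)))))) (PT.nd (nat_lit 54054) (PT.nd (nat_lit 53742) (PT.nd (nat_lit 53586) (PT.lf (nat_lit 10412) (nat_lit 6) (nat_lit 137) (nat_lit 0) (nat_lit 218) (nat_lit 207) (nat_lit 145)) (PT.nd (nat_lit 78) (PT.lf (nat_lit 9956) (nat_lit 6) (nat_lit 131) (nat_lit 5) (nat_lit 144) (nat_lit 208) (nat_lit 218)) (PT.lf (nat_lit 10488) (nat_lit 6) (nat_lit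 138) (nat_lit 5) (nat_lit 145) (nat_lit 208) (nat_lit 217)))) (PT.nd (nat_lit 156) (PT.nd (nat_lit 78) (PT.lf (nat_lit 11020) (nat_lit 6) (nat_lit 145) (nat_lit 5) (nat_lit 146) (nat_lit 208) (nat_lit 216)) (PT.lf (nat_lit 11552) (nat_lit 6) (nat_lit 152) (nat_lit 5) (nat_lit 147) (nat_lit 208) (nat_lit 215))) (PT.nd (nat_lit 78) (PT.lf (nat_lit 12084) (nat_lit 6) (nat_lit 159) (nat_lit 5) (nat_lit 148) (nat_lit 208) (nat_lit 214)) (PT.lf (nat_lit 12692) (nat_lit 6) (nat_lit 167) (nat_lit 5) (nat_lit 149) (nat_lit 208) (nat_lit 213))))) (PT.nd (nat_lit 234) (PT.nd (nat_lit 78) (PT.lf (nat_lit 13224) (nat_lit 6) (nat_lit 174) (nat_lit 5) (nat_lit 150) (nat_lit 208) (nat_lit 212)) (PT.nd (nat_lit 78) (PT.lf (nat_lit 13832) (nat_lit 6) (nat_lit 182) (nat_lit 5) (nat_lit 151) (nat_lit 208) (nat_lit 211)) (PT.lf (nat_lit 14440) (nat_lit 6) (nat_lit 190) (nat_lit 5) (nat_lit 152) (nat_lit 208) (nat_lit 210))))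 (PT.nd (nat_lit 156) (PT.nd (nat_lit 78) (PT.lf (nat_lit 15124) (nat_lit 6) (nat_lit 199) (nat_lit 5) (nat_lit 153) (nat_lit 208) (nat_lit 209)) (PT.lf (nat_lit 15732) (nat_lit 3) (nat_lit 207) (nat_lit 4) (nat_lit 154) (nat_lit 208) (nat_lit 208))) (PT.nd (nat_lit 78) (PT.lf (nat_lit 16340) (nat_lit 6) (nat_lit 215) (nat_lit 4) (nat_lit 155) (nat_lit 208) (nat_lit 207)) (PT.lf (nat_lit 16948) (nat_lit 6) (nat_lit 223) (nat_lit 4) (nat_lit 156) (nat_lit 208) (nat_lit 206))))))))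
noncomputable def pc46 : PT := (PT.nd (nat_lit 2028) (PT.nd (nat_lit 1014) (PT.nd (nat_lit 468) (PT.nd (nat_lit 234) (PT.nd (nat_lit 78) (PT.lf (nat_lit 17632) (nat_lit 6) (nat_lit 232) (nat_lit 4) (nat_lit 157) (nat_lit 208) (nat_lit 205)) (PT.nd (nat_lit 78) (PT.lf (nat_lit 18240) (nat_lit 6) (nat_lit 240) (nat_lit 4) (nat_lit 158) (nat_lit 208) (nat_lit 204)) (PT.lf (nat_lit 18924) (nat_lit 6) (nat_lit 249) (nat_lit 4) (nat_lit 159) (nat_lit 208) (nat_lit 203)))) (PT.nd (nat_lit 78) (PT.lf (nat_lit 19608) (nat_lit 6) (nat_lit 258) (nat_lit 4) (nat_lit 160) (nat_lit 208) (nat_lit 202)) (PT.nd (nat_lit 78) (PT.lf (nat_lit 20368) (nat_lit 6) (nat_lit 268) (nat_lit 4) (nat_lit 161) (nat_lit 208) (nat_lit 201)) (PT.lf (nat_lit 21052) (nat_lit 6) (nat_lit 277) (nat_lit 4) (nat_lit 162) (nat_lit 208) (nat_lit 200))))) (PT.nd (nat_lit 234) (PT.nd (nat_lit 78) (PT.lf (nat_lit 21812) (nat_lit 6) (nat_lit 287)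 (nat_lit 4) (nat_lit 163) (nat_lit 208) (nat_lit 199)) (PT.nd (nat_lit 78) (PT.lf (nat_lit 22572) (nat_lit 6) (nat_lit 297) (nat_lit 4) (nat_lit 164) (nat_lit 208) (nat_lit 198)) (PT.lf (nat_lit 23408) (nat_lit 6) (nat_lit 308) (nat_lit 4) (nat_lit 165) (nat_lit 208) (nat_lit 197)))) (PT.nd (nat_lit 156) (PT.nd (nat_lit 78) (PT.lf (nat_lit 24244) (nat_lit 6) (nat_lit 319) (nat_lit 4) (nat_lit 166) (nat_lit 208) (nat_lit 196)) (PT.lf (nat_lit 25232) (nat_lit 6) (nat_lit 332) (nat_lit 4) (nat_lit 167) (nat_lit 208) (nat_lit 195))) (PT.nd (nat_lit 78) (PT.lf (nat_lit 26904) (nat_lit 6) (nat_lit 354) (nat_lit 4) (nat_lit 168) (nat_lit 208) (nat_lit 194)) (PT.lf (nat_lit 28500) (nat_lit 6) (nat_lit 375) (nat_lit 4) (nat_lit 169) (nat_lit 208) (nat_lit 193)))))) (PT.nd (nat_lit 468) (PT.nd (nat_lit 234) (PT.nd (nat_lit 78) (PT.lf (nat_lit 30020) (nat_lit 6) (nat_lit 395) (nat_lit 4) (nat_lit 170) (nat_lit 208)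 (nat_lit 192)) (PT.nd (nat_lit 78) (PT.lf (nat_lit 31464) (nat_lit 6) (nat_lit 414) (nat_lit 4) (nat_lit 171) (nat_lit 208) (nat_lit 191)) (PT.lf (nat_lit 32832) (nat_lit 6) (nat_lit 432) (nat_lit 4) (nat_lit 172) (nat_lit 208) (nat_lit 190)))) (PT.nd (nat_lit 78) (PT.lf (nat_lit 32756) (nat_lit 6) (nat_lit 431) (nat_lit 4) (nat_lit 173) (nat_lit 208) (nat_lit 189)) (PT.nd (nat_lit 78) (PT.lf (nat_lit 32680) (nat_lit 6) (nat_lit 430) (nat_lit 4) (nat_lit 174) (nat_lit 208) (nat_lit 188)) (PT.lf (nat_lit 32604) (nat_lit 6) (nat_lit 429) (nat_lit 4) (nat_lit 175) (nat_lit 208) (nat_lit 187))))) (PT.nd (nat_lit 234) (PT.nd (nat_lit 78) (PT.lf (nat_lit 32528) (nat_lit 6) (nat_lit 428) (nat_lit 4) (nat_lit 176) (nat_lit 208) (nat_lit 186)) (PT.nd (nat_lit 78) (PT.lf (nat_lit 32452) (nat_lit 6) (nat_lit 427) (nat_lit 4) (nat_lit 177) (nat_lit 208) (nat_lit 185)) (PT.lf (nat_lit 32376) (nat_lit 6) (nat_lit 426)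 (nat_lit 4) (nat_lit 178) (nat_lit 208) (nat_lit 184)))) (PT.nd (nat_lit 156) (PT.nd (nat_lit 78) (PT.lf (nat_lit 32300) (nat_lit 6) (nat_lit 425) (nat_lit 4) (nat_lit 179) (nat_lit 208) (nat_lit 183)) (PT.lf (nat_lit 32224) (nat_lit 6) (nat_lit 424) (nat_lit 4) (nat_lit 180) (nat_lit 208) (nat_lit 182))) (PT.nd (nat_lit 78) (PT.lf (nat_lit 32148) (nat_lit 3) (nat_lit 423) (nat_lit 2) (nat_lit 181) (nat_lit 208) (nat_lit 181)) (PT.lf (nat_lit 32224) (nat_lit 6) (nat_lit 424) (nat_lit 2) (nat_lit 182) (nat_lit 208) (nat_lit 180))))))) (PT.nd (nat_lit 1014) (PT.nd (nat_lit 468) (PT.nd (nat_lit 234) (PT.nd (nat_lit 78) (PT.lf (nat_lit 32300) (nat_lit 6) (nat_lit 425) (nat_lit 2) (nat_lit 183) (nat_lit 208) (nat_lit 179)) (PT.nd (nat_lit 78) (PT.lf (nat_lit 32376) (nat_lit 6) (nat_lit 426) (nat_lit 2) (nat_lit 184) (nat_lit 208) (nat_lit 178)) (PT.lf (nat_lit 32452) (nat_lit 6) (nat_lit 427) (nat_lit 2) (nat_lit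 185) (nat_lit 208) (nat_lit 177)))) (PT.nd (nat_lit 78) (PT.lf (nat_lit 32528) (nat_lit 6) (nat_lit 428) (nat_lit 2) (nat_lit 186) (nat_lit 208) (nat_lit 176)) (PT.nd (nat_lit 78) (PT.lf (nat_lit 32604) (nat_lit 6) (nat_lit 429) (nat_lit 2) (nat_lit 187) (nat_lit 208) (nat_lit 175)) (PT.lf (nat_lit 32680) (nat_lit 6) (nat_lit 430) (nat_lit 2) (nat_lit 188) (nat_lit 208) (nat_lit 174))))) (PT.nd (nat_lit 234) (PT.nd (nat_lit 78) (PT.lf (nat_lit 32756) (nat_lit 6) (nat_lit 431) (nat_lit 2) (nat_lit 189) (nat_lit 208) (nat_lit 173)) (PT.nd (nat_lit 78) (PT.lf (nat_lit 32832) (nat_lit 6) (nat_lit 432) (nat_lit 2) (nat_lit 190) (nat_lit 208) (nat_lit 172)) (PT.lf (nat_lit 31464) (nat_lit 6) (nat_lit 414) (nat_lit 2) (nat_lit 191) (nat_lit 208) (nat_lit 171)))) (PT.nd (nat_lit 156) (PT.nd (nat_lit 78) (PT.lf (nat_lit 30020) (nat_lit 6) (nat_lit 395) (nat_lit 2) (nat_lit 192) (nat_lit 208) (nat_lit 170)) (PT.lf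 (nat_lit 28500) (nat_lit 6) (nat_lit 375) (nat_lit 2) (nat_lit 193) (nat_lit 208) (nat_lit 169))) (PT.nd (nat_lit 78) (PT.lf (nat_lit 26904) (nat_lit 6) (nat_lit 354) (nat_lit 2) (nat_lit 194) (nat_lit 208) (nat_lit 168)) (PT.lf (nat_lit 25232) (nat_lit 6) (nat_lit 332) (nat_lit 2) (nat_lit 195) (nat_lit 208) (nat_lit 167)))))) (PT.nd (nat_lit 546) (PT.nd (nat_lit 234) (PT.nd (nat_lit 78) (PT.lf (nat_lit 24244) (nat_lit 6) (nat_lit 319) (nat_lit 2) (nat_lit 196) (nat_lit 208) (nat_lit 166)) (PT.nd (nat_lit 78) (PT.lf (nat_lit 23408) (nat_lit 6) (nat_lit 308) (nat_lit 2) (nat_lit 197) (nat_lit 208) (nat_lit 165)) (PT.lf (nat_lit 22572) (nat_lit 6) (nat_lit 297) (nat_lit 2) (nat_lit 198) (nat_lit 208) (nat_lit 164)))) (PT.nd (nat_lit 156) (PT.nd (nat_lit 78) (PT.lf (nat_lit 21812) (nat_lit 6) (nat_lit 287) (nat_lit 2) (nat_lit 199) (nat_lit 208) (nat_lit 163)) (PT.lf (nat_lit 21052) (nat_lit 6) (nat_lit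 277) (nat_lit 2) (nat_lit 200) (nat_lit 208) (nat_lit 162))) (PT.nd (nat_lit 78) (PT.lf (nat_lit 20368) (nat_lit 6) (nat_lit 268) (nat_lit 2) (nat_lit 201) (nat_lit 208) (nat_lit 161)) (PT.lf (nat_lit 19608) (nat_lit 6) (nat_lit 258) (nat_lit 2) (nat_lit 202) (nat_lit 208) (nat_lit 160))))) (PT.nd (nat_lit 234) (PT.nd (nat_lit 78) (PT.lf (nat_lit 18924) (nat_lit 6) (nat_lit 249) (nat_lit 2) (nat_lit 203) (nat_lit 208) (nat_lit 159)) (PT.nd (nat_lit 78) (PT.lf (nat_lit 18240) (nat_lit 6) (nat_lit 240) (nat_lit 2) (nat_lit 204) (nat_lit 208) (nat_lit 158)) (PT.lf (nat_lit 17632) (nat_lit 6) (nat_lit 232) (nat_lit 2) (nat_lit 205) (nat_lit 208) (nat_lit 157)))) (PT.nd (nat_lit 156) (PT.nd (nat_lit 78) (PT.lf (nat_lit 16948) (nat_lit 6) (nat_lit 223) (nat_lit 2) (nat_lit 206) (nat_lit 208) (nat_lit 156)) (PT.lf (nat_lit 16340) (nat_lit 6) (nat_lit 215) (nat_lit 2) (nat_lit 207) (nat_lit 208) (nat_lit 155)))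 (PT.nd (nat_lit 78) (PT.lf (nat_lit 15732) (nat_lit 3) (nat_lit 207) (nat_lit 0) (nat_lit 208) (nat_lit 208) (nat_lit 154)) (PT.lf (nat_lit 15124) (nat_lit 6) (nat_lit 199) (nat_lit 0) (nat_lit 209) (nat_lit 208) (nat_lit 153))))))))
noncomputable def pc47 : PT := (PT.nd (nat_lit 55458) (PT.nd (nat_lit 54366) (PT.nd (nat_lit 468) (PT.nd (nat_lit 234) (PT.nd (nat_lit 78) (PT.lf (nat_lit 14440) (nat_lit 6) (nat_lit 190) (nat_lit 0) (nat_lit 210) (nat_lit 208) (nat_lit 152)) (PT.nd (nat_lit 78) (PT.lf (nat_lit 13832) (nat_lit 6) (nat_lit 182) (nat_lit 0) (nat_lit 211) (nat_lit 208) (nat_lit 151)) (PT.lf (nat_lit 13224) (nat_lit 6) (nat_lit 174) (nat_lit 0) (nat_lit 212) (nat_lit 208) (nat_lit 150)))) (PT.nd (nat_lit 78) (PT.lf (nat_lit 12692) (nat_lit 6) (nat_lit 167) (nat_lit 0) (nat_lit 213) (nat_lit 208) (nat_lit 149)) (PT.nd (nat_lit 78) (PT.lf (nat_lit 12084) (nat_lit 6) (nat_lit 159) (nat_lit 0) (nat_lit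 214) (nat_lit 208) (nat_lit 148)) (PT.lf (nat_lit 11552) (nat_lit 6) (nat_lit 152) (nat_lit 0) (nat_lit 215) (nat_lit 208) (nat_lit 147))))) (PT.nd (nat_lit 53586) (PT.nd (nat_lit 78) (PT.lf (nat_lit 11020) (nat_lit 6) (nat_lit 145) (nat_lit 0) (nat_lit 216) (nat_lit 208) (nat_lit 146)) (PT.nd (nat_lit 78) (PT.lf (nat_lit 10488) (nat_lit 6) (nat_lit 138) (nat_lit 0) (nat_lit 217) (nat_lit 208) (nat_lit 145)) (PT.lf (nat_lit 9956) (nat_lit 6) (nat_lit 131) (nat_lit 0) (nat_lit 218) (nat_lit 208) (nat_lit 144)))) (PT.nd (nat_lit 156) (PT.nd (nat_lit 78) (PT.lf (nat_lit 9120) (nat_lit 6) (nat_lit 120) (nat_lit 5) (nat_lit 142) (nat_lit 209) (nat_lit 219)) (PT.lf (nat_lit 9576) (nat_lit 6) (nat_lit 126) (nat_lit 5) (nat_lit 143) (nat_lit 209) (nat_lit 218))) (PT.nd (nat_lit 78) (PT.lf (nat_lit 10032) (nat_lit 6) (nat_lit 132) (nat_lit 5) (nat_lit 144) (nat_lit 209) (nat_lit 217)) (PT.lf (nat_lit 10564) (nat_lit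 6) (nat_lit 139) (nat_lit 5) (nat_lit 145) (nat_lit 209) (nat_lit 216)))))) (PT.nd (nat_lit 546) (PT.nd (nat_lit 234) (PT.nd (nat_lit 78) (PT.lf (nat_lit 11096) (nat_lit 6) (nat_lit 146) (nat_lit 5) (nat_lit 146) (nat_lit 209) (nat_lit 215)) (PT.nd (nat_lit 78) (PT.lf (nat_lit 11628) (nat_lit 6) (nat_lit 153) (nat_lit 5) (nat_lit 147) (nat_lit 209) (nat_lit 214)) (PT.lf (nat_lit 12160) (nat_lit 6) (nat_lit 160) (nat_lit 5) (nat_lit 148) (nat_lit 209) (nat_lit 213)))) (PT.nd (nat_lit 156) (PT.nd (nat_lit 78) (PT.lf (nat_lit 12768) (nat_lit 6) (nat_lit 168) (nat_lit 5) (nat_lit 149) (nat_lit 209) (nat_lit 212)) (PT.lf (nat_lit 13300) (nat_lit 6) (nat_lit 175) (nat_lit 5) (nat_lit 150) (nat_lit 209) (nat_lit 211))) (PT.nd (nat_lit 78) (PT.lf (nat_lit 13908) (nat_lit 6) (nat_lit 183) (nat_lit 5) (nat_lit 151) (nat_lit 209) (nat_lit 210)) (PT.lf (nat_lit 14516) (nat_lit 3) (nat_lit 191) (nat_lit 4) (nat_lit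 152) (nat_lit 209) (nat_lit 209))))) (PT.nd (nat_lit 234) (PT.nd (nat_lit 78) (PT.lf (nat_lit 15124) (nat_lit 6) (nat_lit 199) (nat_lit 4) (nat_lit 153) (nat_lit 209) (nat_lit 208)) (PT.nd (nat_lit 78) (PT.lf (nat_lit 15656) (nat_lit 6) (nat_lit 206) (nat_lit 4) (nat_lit 154) (nat_lit 209) (nat_lit 207)) (PT.lf (nat_lit 16264) (nat_lit 6) (nat_lit 214) (nat_lit 4) (nat_lit 155) (nat_lit 209) (nat_lit 206)))) (PT.nd (nat_lit 156) (PT.nd (nat_lit 78) (PT.lf (nat_lit 16872) (nat_lit 6) (nat_lit 222) (nat_lit 4) (nat_lit 156) (nat_lit 209) (nat_lit 205)) (PT.lf (nat_lit 17556) (nat_lit 6) (nat_lit 231) (nat_lit 4) (nat_lit 157) (nat_lit 209) (nat_lit 204))) (PT.nd (nat_lit 78) (PT.lf (nat_lit 18164) (nat_lit 6) (nat_lit 239) (nat_lit 4) (nat_lit 158) (nat_lit 209) (nat_lit 203)) (PT.lf (nat_lit 18848) (nat_lit 6) (nat_lit 248) (nat_lit 4) (nat_lit 159) (nat_lit 209) (nat_lit 202))))))) (PT.nd (nat_lit 1014)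 (PT.nd (nat_lit 468) (PT.nd (nat_lit 234) (PT.nd (nat_lit 78) (PT.lf (nat_lit 19532) (nat_lit 6) (nat_lit 257) (nat_lit 4) (nat_lit 160) (nat_lit 209) (nat_lit 201)) (PT.nd (nat_lit 78) (PT.lf (nat_lit 20292) (nat_lit 6) (nat_lit 267) (nat_lit 4) (nat_lit 161) (nat_lit 209) (nat_lit 200)) (PT.lf (nat_lit 20976) (nat_lit 6) (nat_lit 276) (nat_lit 4) (nat_lit 162) (nat_lit 209) (nat_lit 199)))) (PT.nd (nat_lit 78) (PT.lf (nat_lit 21736) (nat_lit 6) (nat_lit 286) (nat_lit 4) (nat_lit 163) (nat_lit 209) (nat_lit 198)) (PT.nd (nat_lit 78) (PT.lf (nat_lit 22496) (nat_lit 6) (nat_lit 296) (nat_lit 4) (nat_lit 164) (nat_lit 209) (nat_lit 197)) (PT.lf (nat_lit 23332) (nat_lit 6) (nat_lit 307) (nat_lit 4) (nat_lit 165) (nat_lit 209) (nat_lit 196))))) (PT.nd (nat_lit 234) (PT.nd (nat_lit 78) (PT.lf (nat_lit 24168) (nat_lit 6) (nat_lit 318) (nat_lit 4) (nat_lit 166) (nat_lit 209) (nat_lit 195)) (PT.nd (nat_lit 78)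 (PT.lf (nat_lit 25156) (nat_lit 6) (nat_lit 331) (nat_lit 4) (nat_lit 167) (nat_lit 209) (nat_lit 194)) (PT.lf (nat_lit 26828) (nat_lit 6) (nat_lit 353) (nat_lit 4) (nat_lit 168) (nat_lit 209) (nat_lit 193)))) (PT.nd (nat_lit 156) (PT.nd (nat_lit 78) (PT.lf (nat_lit 28424) (nat_lit 6) (nat_lit 374) (nat_lit 4) (nat_lit 169) (nat_lit 209) (nat_lit 192)) (PT.lf (nat_lit 29944) (nat_lit 6) (nat_lit 394) (nat_lit 4) (nat_lit 170) (nat_lit 209) (nat_lit 191))) (PT.nd (nat_lit 78) (PT.lf (nat_lit 31388) (nat_lit 6) (nat_lit 413) (nat_lit 4) (nat_lit 171) (nat_lit 209) (nat_lit 190)) (PT.lf (nat_lit 31312) (nat_lit 6) (nat_lit 412) (nat_lit 4) (nat_lit 172) (nat_lit 209) (nat_lit 189)))))) (PT.nd (nat_lit 546) (PT.nd (nat_lit 234) (PT.nd (nat_lit 78) (PT.lf (nat_lit 31236) (nat_lit 6) (nat_lit 411) (nat_lit 4) (nat_lit 173) (nat_lit 209) (nat_lit 188)) (PT.nd (nat_lit 78) (PT.lf (nat_lit 31160) (nat_lit 6) (nat_lit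 410) (nat_lit 4) (nat_lit 174) (nat_lit 209) (nat_lit 187)) (PT.lf (nat_lit 31084) (nat_lit 6) (nat_lit 409) (nat_lit 4) (nat_lit 175) (nat_lit 209) (nat_lit 186)))) (PT.nd (nat_lit 156) (PT.nd (nat_lit 78) (PT.lf (nat_lit 31008) (nat_lit 6) (nat_lit 408) (nat_lit 4) (nat_lit 176) (nat_lit 209) (nat_lit 185)) (PT.lf (nat_lit 30932) (nat_lit 6) (nat_lit 407) (nat_lit 4) (nat_lit 177) (nat_lit 209) (nat_lit 184))) (PT.nd (nat_lit 78) (PT.lf (nat_lit 30856) (nat_lit 6) (nat_lit 406) (nat_lit 4) (nat_lit 178) (nat_lit 209) (nat_lit 183)) (PT.lf (nat_lit 30780) (nat_lit 6) (nat_lit 405) (nat_lit 4) (nat_lit 179) (nat_lit 209) (nat_lit 182))))) (PT.nd (nat_lit 234) (PT.nd (nat_lit 78) (PT.lf (nat_lit 30704) (nat_lit 6) (nat_lit 404) (nat_lit 4) (nat_lit 180) (nat_lit 209) (nat_lit 181)) (PT.nd (nat_lit 78) (PT.lf (nat_lit 30704) (nat_lit 6) (nat_lit 404) (nat_lit 2) (nat_lit 181) (nat_lit 209) (nat_lit 180))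 (PT.lf (nat_lit 30780) (nat_lit 6) (nat_lit 405) (nat_lit 2) (nat_lit 182) (nat_lit 209) (nat_lit 179)))) (PT.nd (nat_lit 156) (PT.nd (nat_lit 78) (PT.lf (nat_lit 30856) (nat_lit 6) (nat_lit 406) (nat_lit 2) (nat_lit 183) (nat_lit 209) (nat_lit 178)) (PT.lf (nat_lit 30932) (nat_lit 6) (nat_lit 407) (nat_lit 2) (nat_lit 184) (nat_lit 209) (nat_lit 177))) (PT.nd (nat_lit 78) (PT.lf (nat_lit 31008) (nat_lit 6) (nat_lit 408) (nat_lit 2) (nat_lit 185) (nat_lit 209) (nat_lit 176)) (PT.lf (nat_lit 31084) (nat_lit 6) (nat_lit 409) (nat_lit 2) (nat_lit 186) (nat_lit 209) (nat_lit 175))))))))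
noncomputable def pc48 : PT := (PT.nd (nat_lit 2028) (PT.nd (nat_lit 1014) (PT.nd (nat_lit 468) (PT.nd (nat_lit 234) (PT.nd (nat_lit 78) (PT.lf (nat_lit 31160) (nat_lit 6) (nat_lit 410) (nat_lit 2) (nat_lit 187) (nat_lit 209) (nat_lit 174)) (PT.nd (nat_lit 78) (PT.lf (nat_lit 31236) (nat_lit 6) (nat_lit 411) (nat_lit 2) (nat_lit 188) (nat_lit 209) (nat_lit 173)) (PT.lf (nat_lit 31312) (nat_lit 6) (nat_lit 412) (nat_lit 2) (nat_lit 189) (nat_lit 209) (nat_lit 172)))) (PT.nd (nat_lit 78) (PT.lf (nat_lit 31388) (nat_lit 6) (nat_lit 413) (nat_lit 2) (nat_lit 190) (nat_lit 209) (nat_lit 171)) (PT.nd (nat_lit 78) (PT.lf (nat_lit 29944) (nat_lit 6) (nat_lit 394) (nat_lit 2) (nat_lit 191) (nat_lit 209) (nat_lit 170)) (PT.lf (nat_lit 28424) (nat_lit 6) (nat_lit 374) (nat_lit 2) (nat_lit 192) (nat_lit 209) (nat_lit 169))))) (PT.nd (nat_lit 234) (PT.nd (nat_lit 78) (PT.lf (nat_lit 26828) (nat_lit 6) (nat_lit 353)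 (nat_lit 2) (nat_lit 193) (nat_lit 209) (nat_lit 168)) (PT.nd (nat_lit 78) (PT.lf (nat_lit 25156) (nat_lit 6) (nat_lit 331) (nat_lit 2) (nat_lit 194) (nat_lit 209) (nat_lit 167)) (PT.lf (nat_lit 24168) (nat_lit 6) (nat_lit 318) (nat_lit 2) (nat_lit 195) (nat_lit 209) (nat_lit 166)))) (PT.nd (nat_lit 156) (PT.nd (nat_lit 78) (PT.lf (nat_lit 23332) (nat_lit 6) (nat_lit 307) (nat_lit 2) (nat_lit 196) (nat_lit 209) (nat_lit 165)) (PT.lf (nat_lit 22496) (nat_lit 6) (nat_lit 296) (nat_lit 2) (nat_lit 197) (nat_lit 209) (nat_lit 164))) (PT.nd (nat_lit 78) (PT.lf (nat_lit 21736) (nat_lit 6) (nat_lit 286) (nat_lit 2) (nat_lit 198) (nat_lit 209) (nat_lit 163)) (PT.lf (nat_lit 20976) (nat_lit 6) (nat_lit 276) (nat_lit 2) (nat_lit 199) (nat_lit 209) (nat_lit 162)))))) (PT.nd (nat_lit 468) (PT.nd (nat_lit 234) (PT.nd (nat_lit 78) (PT.lf (nat_lit 20292) (nat_lit 6) (nat_lit 267) (nat_lit 2) (nat_lit 200) (nat_lit 209)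 (nat_lit 161)) (PT.nd (nat_lit 78) (PT.lf (nat_lit 19532) (nat_lit 6) (nat_lit 257) (nat_lit 2) (nat_lit 201) (nat_lit 209) (nat_lit 160)) (PT.lf (nat_lit 18848) (nat_lit 6) (nat_lit 248) (nat_lit 2) (nat_lit 202) (nat_lit 209) (nat_lit 159)))) (PT.nd (nat_lit 78) (PT.lf (nat_lit 18164) (nat_lit 6) (nat_lit 239) (nat_lit 2) (nat_lit 203) (nat_lit 209) (nat_lit 158)) (PT.nd (nat_lit 78) (PT.lf (nat_lit 17556) (nat_lit 6) (nat_lit 231) (nat_lit 2) (nat_lit 204) (nat_lit 209) (nat_lit 157)) (PT.lf (nat_lit 16872) (nat_lit 6) (nat_lit 222) (nat_lit 2) (nat_lit 205) (nat_lit 209) (nat_lit 156))))) (PT.nd (nat_lit 234) (PT.nd (nat_lit 78) (PT.lf (nat_lit 16264) (nat_lit 6) (nat_lit 214) (nat_lit 2) (nat_lit 206) (nat_lit 209) (nat_lit 155)) (PT.nd (nat_lit 78) (PT.lf (nat_lit 15656) (nat_lit 6) (nat_lit 206) (nat_lit 2) (nat_lit 207) (nat_lit 209) (nat_lit 154)) (PT.lf (nat_lit 15124) (nat_lit 6) (nat_lit 199)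 (nat_lit 2) (nat_lit 208) (nat_lit 209) (nat_lit 153)))) (PT.nd (nat_lit 156) (PT.nd (nat_lit 78) (PT.lf (nat_lit 14516) (nat_lit 3) (nat_lit 191) (nat_lit 0) (nat_lit 209) (nat_lit 209) (nat_lit 152)) (PT.lf (nat_lit 13908) (nat_lit 6) (nat_lit 183) (nat_lit 0) (nat_lit 210) (nat_lit 209) (nat_lit 151))) (PT.nd (nat_lit 78) (PT.lf (nat_lit 13300) (nat_lit 6) (nat_lit 175) (nat_lit 0) (nat_lit 211) (nat_lit 209) (nat_lit 150)) (PT.lf (nat_lit 12768) (nat_lit 6) (nat_lit 168) (nat_lit 0) (nat_lit 212) (nat_lit 209) (nat_lit 149))))))) (PT.nd (nat_lit 54210) (PT.nd (nat_lit 468) (PT.nd (nat_lit 234) (PT.nd (nat_lit 78) (PT.lf (nat_lit 12160) (nat_lit 6) (nat_lit 160) (nat_lit 0) (nat_lit 213) (nat_lit 209) (nat_lit 148)) (PT.nd (nat_lit 78) (PT.lf (nat_lit 11628) (nat_lit 6) (nat_lit 153) (nat_lit 0) (nat_lit 214) (nat_lit 209) (nat_lit 147)) (PT.lf (nat_lit 11096) (nat_lit 6) (nat_lit 146) (nat_lit 0)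 (nat_lit 215) (nat_lit 209) (nat_lit 146)))) (PT.nd (nat_lit 78) (PT.lf (nat_lit 10564) (nat_lit 6) (nat_lit 139) (nat_lit 0) (nat_lit 216) (nat_lit 209) (nat_lit 145)) (PT.nd (nat_lit 78) (PT.lf (nat_lit 10032) (nat_lit 6) (nat_lit 132) (nat_lit 0) (nat_lit 217) (nat_lit 209) (nat_lit 144)) (PT.lf (nat_lit 9576) (nat_lit 6) (nat_lit 126) (nat_lit 0) (nat_lit 218) (nat_lit 209) (nat_lit 143))))) (PT.nd (nat_lit 53430) (PT.nd (nat_lit 53274) (PT.lf (nat_lit 9120) (nat_lit 6) (nat_lit 120) (nat_lit 0) (nat_lit 219) (nat_lit 209) (nat_lit 142)) (PT.nd (nat_lit 78) (PT.lf (nat_lit 8740) (nat_lit 6) (nat_lit 115) (nat_lit 5) (nat_lit 141) (nat_lit 210) (nat_lit 219)) (PT.lf (nat_lit 9196) (nat_lit 6) (nat_lit 121) (nat_lit 5) (nat_lit 142) (nat_lit 210) (nat_lit 218)))) (PT.nd (nat_lit 156) (PT.nd (nat_lit 78) (PT.lf (nat_lit 9652) (nat_lit 6) (nat_lit 127) (nat_lit 5) (nat_lit 143) (nat_lit 210) (nat_lit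 217)) (PT.lf (nat_lit 10108) (nat_lit 6) (nat_lit 133) (nat_lit 5) (nat_lit 144) (nat_lit 210) (nat_lit 216))) (PT.nd (nat_lit 78) (PT.lf (nat_lit 10640) (nat_lit 6) (nat_lit 140) (nat_lit 5) (nat_lit 145) (nat_lit 210) (nat_lit 215)) (PT.lf (nat_lit 11172) (nat_lit 6) (nat_lit 147) (nat_lit 5) (nat_lit 146) (nat_lit 210) (nat_lit 214)))))) (PT.nd (nat_lit 546) (PT.nd (nat_lit 234) (PT.nd (nat_lit 78) (PT.lf (nat_lit 11704) (nat_lit 6) (nat_lit 154) (nat_lit 5) (nat_lit 147) (nat_lit 210) (nat_lit 213)) (PT.nd (nat_lit 78) (PT.lf (nat_lit 12236) (nat_lit 6) (nat_lit 161) (nat_lit 5) (nat_lit 148) (nat_lit 210) (nat_lit 212)) (PT.lf (nat_lit 12844) (nat_lit 6) (nat_lit 169) (nat_lit 5) (nat_lit 149) (nat_lit 210) (nat_lit 211)))) (PT.nd (nat_lit 156) (PT.nd (nat_lit 78) (PT.lf (nat_lit 13376) (nat_lit 3) (nat_lit 176) (nat_lit 4) (nat_lit 150) (nat_lit 210) (nat_lit 210)) (PT.lf (nat_lit 13908) (nat_lit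 6) (nat_lit 183) (nat_lit 4) (nat_lit 151) (nat_lit 210) (nat_lit 209))) (PT.nd (nat_lit 78) (PT.lf (nat_lit 14440) (nat_lit 6) (nat_lit 190) (nat_lit 4) (nat_lit 152) (nat_lit 210) (nat_lit 208)) (PT.lf (nat_lit 15048) (nat_lit 6) (nat_lit 198) (nat_lit 4) (nat_lit 153) (nat_lit 210) (nat_lit 207))))) (PT.nd (nat_lit 234) (PT.nd (nat_lit 78) (PT.lf (nat_lit 15580) (nat_lit 6) (nat_lit 205) (nat_lit 4) (nat_lit 154) (nat_lit 210) (nat_lit 206)) (PT.nd (nat_lit 78) (PT.lf (nat_lit 16188) (nat_lit 6) (nat_lit 213) (nat_lit 4) (nat_lit 155) (nat_lit 210) (nat_lit 205)) (PT.lf (nat_lit 16796) (nat_lit 6) (nat_lit 221) (nat_lit 4) (nat_lit 156) (nat_lit 210) (nat_lit 204)))) (PT.nd (nat_lit 156) (PT.nd (nat_lit 78) (PT.lf (nat_lit 17480) (nat_lit 6) (nat_lit 230) (nat_lit 4) (nat_lit 157) (nat_lit 210) (nat_lit 203)) (PT.lf (nat_lit 18088) (nat_lit 6) (nat_lit 238) (nat_lit 4) (nat_lit 158) (nat_lit 210) (nat_lit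 202))) (PT.nd (nat_lit 78) (PT.lf (nat_lit 18772) (nat_lit 6) (nat_lit 247) (nat_lit 4) (nat_lit 159) (nat_lit 210) (nat_lit 201)) (PT.lf (nat_lit 19456) (nat_lit 6) (nat_lit 256) (nat_lit 4) (nat_lit 160) (nat_lit 210) (nat_lit 200))))))))
noncomputable def pc49 : PT := (PT.nd (nat_lit 2028) (PT.nd (nat_lit 1014) (PT.nd (nat_lit 468) (PT.nd (nat_lit 234) (PT.nd (nat_lit 78) (PT.lf (nat_lit 20216) (nat_lit 6) (nat_lit 266) (nat_lit 4) (nat_lit 161) (nat_lit 210) (nat_lit 199)) (PT.nd (nat_lit 78) (PT.lf (nat_lit 20900) (nat_lit 6) (nat_lit 275) (nat_lit 4) (nat_lit 162) (nat_lit 210) (nat_lit 198)) (PT.lf (nat_lit 21660) (nat_lit 6) (nat_lit 285) (nat_lit 4) (nat_lit 163) (nat_lit 210) (nat_lit 197)))) (PT.nd (nat_lit 78) (PT.lf (nat_lit 22420) (nat_lit 6) (nat_lit 295) (nat_lit 4) (nat_lit 164) (nat_lit 210) (nat_lit 196)) (PT.nd (nat_lit 78) (PT.lf (nat_lit 23256) (nat_lit 6) (nat_lit 306) (nat_lit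 4) (nat_lit 165) (nat_lit 210) (nat_lit 195)) (PT.lf (nat_lit 24092) (nat_lit 6) (nat_lit 317) (nat_lit 4) (nat_lit 166) (nat_lit 210) (nat_lit 194))))) (PT.nd (nat_lit 234) (PT.nd (nat_lit 78) (PT.lf (nat_lit 25080) (nat_lit 6) (nat_lit 330) (nat_lit 4) (nat_lit 167) (nat_lit 210) (nat_lit 193)) (PT.nd (nat_lit 78) (PT.lf (nat_lit 26752) (nat_lit 6) (nat_lit 352) (nat_lit 4) (nat_lit 168) (nat_lit 210) (nat_lit 192)) (PT.lf (nat_lit 28348) (nat_lit 6) (nat_lit 373) (nat_lit 4) (nat_lit 169) (nat_lit 210) (nat_lit 191)))) (PT.nd (nat_lit 156) (PT.nd (nat_lit 78) (PT.lf (nat_lit 29868) (nat_lit 6) (nat_lit 393) (nat_lit 4) (nat_lit 170) (nat_lit 210) (nat_lit 190)) (PT.lf (nat_lit 29792) (nat_lit 6) (nat_lit 392) (nat_lit 4) (nat_lit 171) (nat_lit 210) (nat_lit 189))) (PT.nd (nat_lit 78) (PT.lf (nat_lit 29716) (nat_lit 6) (nat_lit 391) (nat_lit 4) (nat_lit 172) (nat_lit 210) (nat_lit 188)) (PT.lf (nat_lit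 29640) (nat_lit 6) (nat_lit 390) (nat_lit 4) (nat_lit 173) (nat_lit 210) (nat_lit 187)))))) (PT.nd (nat_lit 468) (PT.nd (nat_lit 234) (PT.nd (nat_lit 78) (PT.lf (nat_lit 29564) (nat_lit 6) (nat_lit 389) (nat_lit 4) (nat_lit 174) (nat_lit 210) (nat_lit 186)) (PT.nd (nat_lit 78) (PT.lf (nat_lit 29488) (nat_lit 6) (nat_lit 388) (nat_lit 4) (nat_lit 175) (nat_lit 210) (nat_lit 185)) (PT.lf (nat_lit 29412) (nat_lit 6) (nat_lit 387) (nat_lit 4) (nat_lit 176) (nat_lit 210) (nat_lit 184)))) (PT.nd (nat_lit 78) (PT.lf (nat_lit 29336) (nat_lit 6) (nat_lit 386) (nat_lit 4) (nat_lit 177) (nat_lit 210) (nat_lit 183)) (PT.nd (nat_lit 78) (PT.lf (nat_lit 29260) (nat_lit 6) (nat_lit 385) (nat_lit 4) (nat_lit 178) (nat_lit 210) (nat_lit 182)) (PT.lf (nat_lit 29184) (nat_lit 6) (nat_lit 384) (nat_lit 4) (nat_lit 179) (nat_lit 210) (nat_lit 181))))) (PT.nd (nat_lit 234) (PT.nd (nat_lit 78) (PT.lf (nat_lit 29108) (nat_lit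 3) (nat_lit 383) (nat_lit 2) (nat_lit 180) (nat_lit 210) (nat_lit 180)) (PT.nd (nat_lit 78) (PT.lf (nat_lit 29184) (nat_lit 6) (nat_lit 384) (nat_lit 2) (nat_lit 181) (nat_lit 210) (nat_lit 179)) (PT.lf (nat_lit 29260) (nat_lit 6) (nat_lit 385) (nat_lit 2) (nat_lit 182) (nat_lit 210) (nat_lit 178)))) (PT.nd (nat_lit 156) (PT.nd (nat_lit 78) (PT.lf (nat_lit 29336) (nat_lit 6) (nat_lit 386) (nat_lit 2) (nat_lit 183) (nat_lit 210) (nat_lit 177)) (PT.lf (nat_lit 29412) (nat_lit 6) (nat_lit 387) (nat_lit 2) (nat_lit 184) (nat_lit 210) (nat_lit 176))) (PT.nd (nat_lit 78) (PT.lf (nat_lit 29488) (nat_lit 6) (nat_lit 388) (nat_lit 2) (nat_lit 185) (nat_lit 210) (nat_lit 175)) (PT.lf (nat_lit 29564) (nat_lit 6) (nat_lit 389) (nat_lit 2) (nat_lit 186) (nat_lit 210) (nat_lit 174))))))) (PT.nd (nat_lit 1014) (PT.nd (nat_lit 468) (PT.nd (nat_lit 234) (PT.nd (nat_lit 78) (PT.lf (nat_lit 29640) (nat_lit 6) (nat_lit 390)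 (nat_lit 2) (nat_lit 187) (nat_lit 210) (nat_lit 173)) (PT.nd (nat_lit 78) (PT.lf (nat_lit 29716) (nat_lit 6) (nat_lit 391) (nat_lit 2) (nat_lit 188) (nat_lit 210) (nat_lit 172)) (PT.lf (nat_lit 29792) (nat_lit 6) (nat_lit 392) (nat_lit 2) (nat_lit 189) (nat_lit 210) (nat_lit 171)))) (PT.nd (nat_lit 78) (PT.lf (nat_lit 29868) (nat_lit 6) (nat_lit 393) (nat_lit 2) (nat_lit 190) (nat_lit 210) (nat_lit 170)) (PT.nd (nat_lit 78) (PT.lf (nat_lit 28348) (nat_lit 6) (nat_lit 373) (nat_lit 2) (nat_lit 191) (nat_lit 210) (nat_lit 169)) (PT.lf (nat_lit 26752) (nat_lit 6) (nat_lit 352) (nat_lit 2) (nat_lit 192) (nat_lit 210) (nat_lit 168))))) (PT.nd (nat_lit 234) (PT.nd (nat_lit 78) (PT.lf (nat_lit 25080) (nat_lit 6) (nat_lit 330) (nat_lit 2) (nat_lit 193) (nat_lit 210) (nat_lit 167)) (PT.nd (nat_lit 78) (PT.lf (nat_lit 24092) (nat_lit 6) (nat_lit 317) (nat_lit 2) (nat_lit 194) (nat_lit 210) (nat_lit 166)) (PT.lf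 (nat_lit 23256) (nat_lit 6) (nat_lit 306) (nat_lit 2) (nat_lit 195) (nat_lit 210) (nat_lit 165)))) (PT.nd (nat_lit 156) (PT.nd (nat_lit 78) (PT.lf (nat_lit 22420) (nat_lit 6) (nat_lit 295) (nat_lit 2) (nat_lit 196) (nat_lit 210) (nat_lit 164)) (PT.lf (nat_lit 21660) (nat_lit 6) (nat_lit 285) (nat_lit 2) (nat_lit 197) (nat_lit 210) (nat_lit 163))) (PT.nd (nat_lit 78) (PT.lf (nat_lit 20900) (nat_lit 6) (nat_lit 275) (nat_lit 2) (nat_lit 198) (nat_lit 210) (nat_lit 162)) (PT.lf (nat_lit 20216) (nat_lit 6) (nat_lit 266) (nat_lit 2) (nat_lit 199) (nat_lit 210) (nat_lit 161)))))) (PT.nd (nat_lit 546) (PT.nd (nat_lit 234) (PT.nd (nat_lit 78) (PT.lf (nat_lit 19456) (nat_lit 6) (nat_lit 256) (nat_lit 2) (nat_lit 200) (nat_lit 210) (nat_lit 160)) (PT.nd (nat_lit 78) (PT.lf (nat_lit 18772) (nat_lit 6) (nat_lit 247) (nat_lit 2) (nat_lit 201) (nat_lit 210) (nat_lit 159)) (PT.lf (nat_lit 18088) (nat_lit 6) (nat_lit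 238) (nat_lit 2) (nat_lit 202) (nat_lit 210) (nat_lit 158)))) (PT.nd (nat_lit 156) (PT.nd (nat_lit 78) (PT.lf (nat_lit 17480) (nat_lit 6) (nat_lit 230) (nat_lit 2) (nat_lit 203) (nat_lit 210) (nat_lit 157)) (PT.lf (nat_lit 16796) (nat_lit 6) (nat_lit 221) (nat_lit 2) (nat_lit 204) (nat_lit 210) (nat_lit 156))) (PT.nd (nat_lit 78) (PT.lf (nat_lit 16188) (nat_lit 6) (nat_lit 213) (nat_lit 2) (nat_lit 205) (nat_lit 210) (nat_lit 155)) (PT.lf (nat_lit 15580) (nat_lit 6) (nat_lit 205) (nat_lit 2) (nat_lit 206) (nat_lit 210) (nat_lit 154))))) (PT.nd (nat_lit 234) (PT.nd (nat_lit 78) (PT.lf (nat_lit 15048) (nat_lit 6) (nat_lit 198) (nat_lit 2) (nat_lit 207) (nat_lit 210) (nat_lit 153)) (PT.nd (nat_lit 78) (PT.lf (nat_lit 14440) (nat_lit 6) (nat_lit 190) (nat_lit 2) (nat_lit 208) (nat_lit 210) (nat_lit 152)) (PT.lf (nat_lit 13908) (nat_lit 6) (nat_lit 183) (nat_lit 2) (nat_lit 209) (nat_lit 210) (nat_lit 151))))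 (PT.nd (nat_lit 156) (PT.nd (nat_lit 78) (PT.lf (nat_lit 13376) (nat_lit 3) (nat_lit 176) (nat_lit 0) (nat_lit 210) (nat_lit 210) (nat_lit 150)) (PT.lf (nat_lit 12844) (nat_lit 6) (nat_lit 169) (nat_lit 0) (nat_lit 211) (nat_lit 210) (nat_lit 149))) (PT.nd (nat_lit 78) (PT.lf (nat_lit 12236) (nat_lit 6) (nat_lit 161) (nat_lit 0) (nat_lit 212) (nat_lit 210) (nat_lit 148)) (PT.lf (nat_lit 11704) (nat_lit 6) (nat_lit 154) (nat_lit 0) (nat_lit 213) (nat_lit 210) (nat_lit 147))))))))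
noncomputable def pc50 : PT := (PT.nd (nat_lit 55068) (PT.nd (nat_lit 54054) (PT.nd (nat_lit 53508) (PT.nd (nat_lit 234) (PT.nd (nat_lit 78) (PT.lf (nat_lit 11172) (nat_lit 6) (nat_lit 147) (nat_lit 0) (nat_lit 214) (nat_lit 210) (nat_lit 146)) (PT.nd (nat_lit 78) (PT.lf (nat_lit 10640) (nat_lit 6) (nat_lit 140) (nat_lit 0) (nat_lit 215) (nat_lit 210) (nat_lit 145)) (PT.lf (nat_lit 10108) (nat_lit 6) (nat_lit 133) (nat_lit 0) (nat_lit 216) (nat_lit 210) (nat_lit 144)))) (PT.nd (nat_lit 78) (PT.lf (nat_lit 9652) (nat_lit 6) (nat_lit 127) (nat_lit 0) (nat_lit 217) (nat_lit 210) (nat_lit 143)) (PT.nd (nat_lit 78) (PT.lf (nat_lit 9196) (nat_lit 6) (nat_lit 121) (nat_lit 0) (nat_lit 218) (nat_lit 210) (nat_lit 142)) (PT.lf (nat_lit 8740) (nat_lit 6) (nat_lit 115) (nat_lit 0) (nat_lit 219) (nat_lit 210) (nat_lit 141))))) (PT.nd (nat_lit 234) (PT.nd (nat_lit 78) (PT.lf (nat_lit 7980) (nat_lit 6) (nat_lit 105)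 (nat_lit 5) (nat_lit 139) (nat_lit 211) (nat_lit 220)) (PT.nd (nat_lit 78) (PT.lf (nat_lit 8360) (nat_lit 6) (nat_lit 110) (nat_lit 5) (nat_lit 140) (nat_lit 211) (nat_lit 219)) (PT.lf (nat_lit 8816) (nat_lit 6) (nat_lit 116) (nat_lit 5) (nat_lit 141) (nat_lit 211) (nat_lit 218)))) (PT.nd (nat_lit 156) (PT.nd (nat_lit 78) (PT.lf (nat_lit 9272) (nat_lit 6) (nat_lit 122) (nat_lit 5) (nat_lit 142) (nat_lit 211) (nat_lit 217)) (PT.lf (nat_lit 9728) (nat_lit 6) (nat_lit 128) (nat_lit 5) (nat_lit 143) (nat_lit 211) (nat_lit 216))) (PT.nd (nat_lit 78) (PT.lf (nat_lit 10184) (nat_lit 6) (nat_lit 134) (nat_lit 5) (nat_lit 144) (nat_lit 211) (nat_lit 215)) (PT.lf (nat_lit 10716) (nat_lit 6) (nat_lit 141) (nat_lit 5) (nat_lit 145) (nat_lit 211) (nat_lit 214)))))) (PT.nd (nat_lit 468) (PT.nd (nat_lit 234) (PT.nd (nat_lit 78) (PT.lf (nat_lit 11248) (nat_lit 6) (nat_lit 148) (nat_lit 5) (nat_lit 146) (nat_lit 211)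 (nat_lit 213)) (PT.nd (nat_lit 78) (PT.lf (nat_lit 11780) (nat_lit 6) (nat_lit 155) (nat_lit 5) (nat_lit 147) (nat_lit 211) (nat_lit 212)) (PT.lf (nat_lit 12312) (nat_lit 3) (nat_lit 162) (nat_lit 4) (nat_lit 148) (nat_lit 211) (nat_lit 211)))) (PT.nd (nat_lit 78) (PT.lf (nat_lit 12844) (nat_lit 6) (nat_lit 169) (nat_lit 4) (nat_lit 149) (nat_lit 211) (nat_lit 210)) (PT.nd (nat_lit 78) (PT.lf (nat_lit 13300) (nat_lit 6) (nat_lit 175) (nat_lit 4) (nat_lit 150) (nat_lit 211) (nat_lit 209)) (PT.lf (nat_lit 13832) (nat_lit 6) (nat_lit 182) (nat_lit 4) (nat_lit 151) (nat_lit 211) (nat_lit 208))))) (PT.nd (nat_lit 234) (PT.nd (nat_lit 78) (PT.lf (nat_lit 14364) (nat_lit 6) (nat_lit 189) (nat_lit 4) (nat_lit 152) (nat_lit 211) (nat_lit 207)) (PT.nd (nat_lit 78) (PT.lf (nat_lit 14972) (nat_lit 6) (nat_lit 197) (nat_lit 4) (nat_lit 153) (nat_lit 211) (nat_lit 206)) (PT.lf (nat_lit 15504) (nat_lit 6) (nat_lit 204)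 (nat_lit 4) (nat_lit 154) (nat_lit 211) (nat_lit 205)))) (PT.nd (nat_lit 156) (PT.nd (nat_lit 78) (PT.lf (nat_lit 16112) (nat_lit 6) (nat_lit 212) (nat_lit 4) (nat_lit 155) (nat_lit 211) (nat_lit 204)) (PT.lf (nat_lit 16720) (nat_lit 6) (nat_lit 220) (nat_lit 4) (nat_lit 156) (nat_lit 211) (nat_lit 203))) (PT.nd (nat_lit 78) (PT.lf (nat_lit 17404) (nat_lit 6) (nat_lit 229) (nat_lit 4) (nat_lit 157) (nat_lit 211) (nat_lit 202)) (PT.lf (nat_lit 18012) (nat_lit 6) (nat_lit 237) (nat_lit 4) (nat_lit 158) (nat_lit 211) (nat_lit 201))))))) (PT.nd (nat_lit 1014) (PT.nd (nat_lit 468) (PT.nd (nat_lit 234) (PT.nd (nat_lit 78) (PT.lf (nat_lit 18696) (nat_lit 6) (nat_lit 246) (nat_lit 4) (nat_lit 159) (nat_lit 211) (nat_lit 200)) (PT.nd (nat_lit 78) (PT.lf (nat_lit 19380) (nat_lit 6) (nat_lit 255) (nat_lit 4) (nat_lit 160) (nat_lit 211) (nat_lit 199)) (PT.lf (nat_lit 20140) (nat_lit 6) (nat_lit 265) (nat_lit 4) (nat_lit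 161) (nat_lit 211) (nat_lit 198)))) (PT.nd (nat_lit 78) (PT.lf (nat_lit 20824) (nat_lit 6) (nat_lit 274) (nat_lit 4) (nat_lit 162) (nat_lit 211) (nat_lit 197)) (PT.nd (nat_lit 78) (PT.lf (nat_lit 21584) (nat_lit 6) (nat_lit 284) (nat_lit 4) (nat_lit 163) (nat_lit 211) (nat_lit 196)) (PT.lf (nat_lit 22344) (nat_lit 6) (nat_lit 294) (nat_lit 4) (nat_lit 164) (nat_lit 211) (nat_lit 195))))) (PT.nd (nat_lit 234) (PT.nd (nat_lit 78) (PT.lf (nat_lit 23180) (nat_lit 6) (nat_lit 305) (nat_lit 4) (nat_lit 165) (nat_lit 211) (nat_lit 194)) (PT.nd (nat_lit 78) (PT.lf (nat_lit 24016) (nat_lit 6) (nat_lit 316) (nat_lit 4) (nat_lit 166) (nat_lit 211) (nat_lit 193)) (PT.lf (nat_lit 25004) (nat_lit 6) (nat_lit 329) (nat_lit 4) (nat_lit 167) (nat_lit 211) (nat_lit 192)))) (PT.nd (nat_lit 156) (PT.nd (nat_lit 78) (PT.lf (nat_lit 26676) (nat_lit 6) (nat_lit 351) (nat_lit 4) (nat_lit 168) (nat_lit 211) (nat_lit 191)) (PT.lf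 (nat_lit 28272) (nat_lit 6) (nat_lit 372) (nat_lit 4) (nat_lit 169) (nat_lit 211) (nat_lit 190))) (PT.nd (nat_lit 78) (PT.lf (nat_lit 28196) (nat_lit 6) (nat_lit 371) (nat_lit 4) (nat_lit 170) (nat_lit 211) (nat_lit 189)) (PT.lf (nat_lit 28120) (nat_lit 6) (nat_lit 370) (nat_lit 4) (nat_lit 171) (nat_lit 211) (nat_lit 188)))))) (PT.nd (nat_lit 546) (PT.nd (nat_lit 234) (PT.nd (nat_lit 78) (PT.lf (nat_lit 28044) (nat_lit 6) (nat_lit 369) (nat_lit 4) (nat_lit 172) (nat_lit 211) (nat_lit 187)) (PT.nd (nat_lit 78) (PT.lf (nat_lit 27968) (nat_lit 6) (nat_lit 368) (nat_lit 4) (nat_lit 173) (nat_lit 211) (nat_lit 186)) (PT.lf (nat_lit 27892) (nat_lit 6) (nat_lit 367) (nat_lit 4) (nat_lit 174) (nat_lit 211) (nat_lit 185)))) (PT.nd (nat_lit 156) (PT.nd (nat_lit 78) (PT.lf (nat_lit 27816) (nat_lit 6) (nat_lit 366) (nat_lit 4) (nat_lit 175) (nat_lit 211) (nat_lit 184)) (PT.lf (nat_lit 27740) (nat_lit 6) (nat_lit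 365) (nat_lit 4) (nat_lit 176) (nat_lit 211) (nat_lit 183))) (PT.nd (nat_lit 78) (PT.lf (nat_lit 27664) (nat_lit 6) (nat_lit 364) (nat_lit 4) (nat_lit 177) (nat_lit 211) (nat_lit 182)) (PT.lf (nat_lit 27588) (nat_lit 6) (nat_lit 363) (nat_lit 4) (nat_lit 178) (nat_lit 211) (nat_lit 181))))) (PT.nd (nat_lit 234) (PT.nd (nat_lit 78) (PT.lf (nat_lit 27512) (nat_lit 6) (nat_lit 362) (nat_lit 4) (nat_lit 179) (nat_lit 211) (nat_lit 180)) (PT.nd (nat_lit 78) (PT.lf (nat_lit 27512) (nat_lit 6) (nat_lit 362) (nat_lit 2) (nat_lit 180) (nat_lit 211) (nat_lit 179)) (PT.lf (nat_lit 27588) (nat_lit 6) (nat_lit 363) (nat_lit 2) (nat_lit 181) (nat_lit 211) (nat_lit 178)))) (PT.nd (nat_lit 156) (PT.nd (nat_lit 78) (PT.lf (nat_lit 27664) (nat_lit 6) (nat_lit 364) (nat_lit 2) (nat_lit 182) (nat_lit 211) (nat_lit 177)) (PT.lf (nat_lit 27740) (nat_lit 6) (nat_lit 365) (nat_lit 2) (nat_lit 183) (nat_lit 211) (nat_lit 176)))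 (PT.nd (nat_lit 78) (PT.lf (nat_lit 27816) (nat_lit 6) (nat_lit 366) (nat_lit 2) (nat_lit 184) (nat_lit 211) (nat_lit 175)) (PT.lf (nat_lit 27892) (nat_lit 6) (nat_lit 367) (nat_lit 2) (nat_lit 185) (nat_lit 211) (nat_lit 174))))))))
noncomputable def pc51 : PT := (PT.nd (nat_lit 2106) (PT.nd (nat_lit 1014) (PT.nd (nat_lit 468) (PT.nd (nat_lit 234) (PT.nd (nat_lit 78) (PT.lf (nat_lit 27968) (nat_lit 6) (nat_lit 368) (nat_lit 2) (nat_lit 186) (nat_lit 211) (nat_lit 173)) (PT.nd (nat_lit 78) (PT.lf (nat_lit 28044) (nat_lit 6) (nat_lit 369) (nat_lit 2) (nat_lit 187) (nat_lit 211) (nat_lit 172)) (PT.lf (nat_lit 28120) (nat_lit 6) (nat_lit 370) (nat_lit 2) (nat_lit 188) (nat_lit 211) (nat_lit 171)))) (PT.nd (nat_lit 78) (PT.lf (nat_lit 28196) (nat_lit 6) (nat_lit 371) (nat_lit 2) (nat_lit 189) (nat_lit 211) (nat_lit 170)) (PT.nd (nat_lit 78) (PT.lf (nat_lit 28272) (nat_lit 6) (nat_lit 372) (nat_lit 2) (nat_lit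 190) (nat_lit 211) (nat_lit 169)) (PT.lf (nat_lit 26676) (nat_lit 6) (nat_lit 351) (nat_lit 2) (nat_lit 191) (nat_lit 211) (nat_lit 168))))) (PT.nd (nat_lit 234) (PT.nd (nat_lit 78) (PT.lf (nat_lit 25004) (nat_lit 6) (nat_lit 329) (nat_lit 2) (nat_lit 192) (nat_lit 211) (nat_lit 167)) (PT.nd (nat_lit 78) (PT.lf (nat_lit 24016) (nat_lit 6) (nat_lit 316) (nat_lit 2) (nat_lit 193) (nat_lit 211) (nat_lit 166)) (PT.lf (nat_lit 23180) (nat_lit 6) (nat_lit 305) (nat_lit 2) (nat_lit 194) (nat_lit 211) (nat_lit 165)))) (PT.nd (nat_lit 156) (PT.nd (nat_lit 78) (PT.lf (nat_lit 22344) (nat_lit 6) (nat_lit 294) (nat_lit 2) (nat_lit 195) (nat_lit 211) (nat_lit 164)) (PT.lf (nat_lit 21584) (nat_lit 6) (nat_lit 284) (nat_lit 2) (nat_lit 196) (nat_lit 211) (nat_lit 163))) (PT.nd (nat_lit 78) (PT.lf (nat_lit 20824) (nat_lit 6) (nat_lit 274) (nat_lit 2) (nat_lit 197) (nat_lit 211) (nat_lit 162)) (PT.lf (nat_lit 20140) (nat_lit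 6) (nat_lit 265) (nat_lit 2) (nat_lit 198) (nat_lit 211) (nat_lit 161)))))) (PT.nd (nat_lit 546) (PT.nd (nat_lit 234) (PT.nd (nat_lit 78) (PT.lf (nat_lit 19380) (nat_lit 6) (nat_lit 255) (nat_lit 2) (nat_lit 199) (nat_lit 211) (nat_lit 160)) (PT.nd (nat_lit 78) (PT.lf (nat_lit 18696) (nat_lit 6) (nat_lit 246) (nat_lit 2) (nat_lit 200) (nat_lit 211) (nat_lit 159)) (PT.lf (nat_lit 18012) (nat_lit 6) (nat_lit 237) (nat_lit 2) (nat_lit 201) (nat_lit 211) (nat_lit 158)))) (PT.nd (nat_lit 156) (PT.nd (nat_lit 78) (PT.lf (nat_lit 17404) (nat_lit 6) (nat_lit 229) (nat_lit 2) (nat_lit 202) (nat_lit 211) (nat_lit 157)) (PT.lf (nat_lit 16720) (nat_lit 6) (nat_lit 220) (nat_lit 2) (nat_lit 203) (nat_lit 211) (nat_lit 156))) (PT.nd (nat_lit 78) (PT.lf (nat_lit 16112) (nat_lit 6) (nat_lit 212) (nat_lit 2) (nat_lit 204) (nat_lit 211) (nat_lit 155)) (PT.lf (nat_lit 15504) (nat_lit 6) (nat_lit 204) (nat_lit 2) (nat_lit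 205) (nat_lit 211) (nat_lit 154))))) (PT.nd (nat_lit 234) (PT.nd (nat_lit 78) (PT.lf (nat_lit 14972) (nat_lit 6) (nat_lit 197) (nat_lit 2) (nat_lit 206) (nat_lit 211) (nat_lit 153)) (PT.nd (nat_lit 78) (PT.lf (nat_lit 14364) (nat_lit 6) (nat_lit 189) (nat_lit 2) (nat_lit 207) (nat_lit 211) (nat_lit 152)) (PT.lf (nat_lit 13832) (nat_lit 6) (nat_lit 182) (nat_lit 2) (nat_lit 208) (nat_lit 211) (nat_lit 151)))) (PT.nd (nat_lit 156) (PT.nd (nat_lit 78) (PT.lf (nat_lit 13300) (nat_lit 6) (nat_lit 175) (nat_lit 2) (nat_lit 209) (nat_lit 211) (nat_lit 150)) (PT.lf (nat_lit 12844) (nat_lit 6) (nat_lit 169) (nat_lit 2) (nat_lit 210) (nat_lit 211) (nat_lit 149))) (PT.nd (nat_lit 78) (PT.lf (nat_lit 12312) (nat_lit 3) (nat_lit 162) (nat_lit 0) (nat_lit 211) (nat_lit 211) (nat_lit 148)) (PT.lf (nat_lit 11780) (nat_lit 6) (nat_lit 155) (nat_lit 0) (nat_lit 212) (nat_lit 211) (nat_lit 147))))))) (PT.nd (nat_lit 53898)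 (PT.nd (nat_lit 468) (PT.nd (nat_lit 234) (PT.nd (nat_lit 78) (PT.lf (nat_lit 11248) (nat_lit 6) (nat_lit 148) (nat_lit 0) (nat_lit 213) (nat_lit 211) (nat_lit 146)) (PT.nd (nat_lit 78) (PT.lf (nat_lit 10716) (nat_lit 6) (nat_lit 141) (nat_lit 0) (nat_lit 214) (nat_lit 211) (nat_lit 145)) (PT.lf (nat_lit 10184) (nat_lit 6) (nat_lit 134) (nat_lit 0) (nat_lit 215) (nat_lit 211) (nat_lit 144)))) (PT.nd (nat_lit 78) (PT.lf (nat_lit 9728) (nat_lit 6) (nat_lit 128) (nat_lit 0) (nat_lit 216) (nat_lit 211) (nat_lit 143)) (PT.nd (nat_lit 78) (PT.lf (nat_lit 9272) (nat_lit 6) (nat_lit 122) (nat_lit 0) (nat_lit 217) (nat_lit 211) (nat_lit 142)) (PT.lf (nat_lit 8816) (nat_lit 6) (nat_lit 116) (nat_lit 0) (nat_lit 218) (nat_lit 211) (nat_lit 141))))) (PT.nd (nat_lit 53118) (PT.nd (nat_lit 78) (PT.lf (nat_lit 8360) (nat_lit 6) (nat_lit 110) (nat_lit 0) (nat_lit 219) (nat_lit 211) (nat_lit 140)) (PT.nd (nat_lit 52962)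 (PT.lf (nat_lit 7980) (nat_lit 6) (nat_lit 105) (nat_lit 0) (nat_lit 220) (nat_lit 211) (nat_lit 139)) (PT.lf (nat_lit 7600) (nat_lit 6) (nat_lit 100) (nat_lit 5) (nat_lit 138) (nat_lit 212) (nat_lit 220)))) (PT.nd (nat_lit 156) (PT.nd (nat_lit 78) (PT.lf (nat_lit 8056) (nat_lit 6) (nat_lit 106) (nat_lit 5) (nat_lit 139) (nat_lit 212) (nat_lit 219)) (PT.lf (nat_lit 8436) (nat_lit 6) (nat_lit 111) (nat_lit 5) (nat_lit 140) (nat_lit 212) (nat_lit 218))) (PT.nd (nat_lit 78) (PT.lf (nat_lit 8892) (nat_lit 6) (nat_lit 117) (nat_lit 5) (nat_lit 141) (nat_lit 212) (nat_lit 217)) (PT.lf (nat_lit 9348) (nat_lit 6) (nat_lit 123) (nat_lit 5) (nat_lit 142) (nat_lit 212) (nat_lit 216)))))) (PT.nd (nat_lit 546) (PT.nd (nat_lit 234) (PT.nd (nat_lit 78) (PT.lf (nat_lit 9804) (nat_lit 6) (nat_lit 129) (nat_lit 5) (nat_lit 143) (nat_lit 212) (nat_lit 215)) (PT.nd (nat_lit 78) (PT.lf (nat_lit 10260) (nat_lit 6) (nat_lit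 135) (nat_lit 5) (nat_lit 144) (nat_lit 212) (nat_lit 214)) (PT.lf (nat_lit 10792) (nat_lit 6) (nat_lit 142) (nat_lit 5) (nat_lit 145) (nat_lit 212) (nat_lit 213)))) (PT.nd (nat_lit 156) (PT.nd (nat_lit 78) (PT.lf (nat_lit 11324) (nat_lit 3) (nat_lit 149) (nat_lit 4) (nat_lit 146) (nat_lit 212) (nat_lit 212)) (PT.lf (nat_lit 11780) (nat_lit 6) (nat_lit 155) (nat_lit 4) (nat_lit 147) (nat_lit 212) (nat_lit 211))) (PT.nd (nat_lit 78) (PT.lf (nat_lit 12236) (nat_lit 6) (nat_lit 161) (nat_lit 4) (nat_lit 148) (nat_lit 212) (nat_lit 210)) (PT.lf (nat_lit 12768) (nat_lit 6) (nat_lit 168) (nat_lit 4) (nat_lit 149) (nat_lit 212) (nat_lit 209))))) (PT.nd (nat_lit 234) (PT.nd (nat_lit 78) (PT.lf (nat_lit 13224) (nat_lit 6) (nat_lit 174) (nat_lit 4) (nat_lit 150) (nat_lit 212) (nat_lit 208)) (PT.nd (nat_lit 78) (PT.lf (nat_lit 13756) (nat_lit 6) (nat_lit 181) (nat_lit 4) (nat_lit 151) (nat_lit 212) (nat_lit 207))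 (PT.lf (nat_lit 14288) (nat_lit 6) (nat_lit 188) (nat_lit 4) (nat_lit 152) (nat_lit 212) (nat_lit 206)))) (PT.nd (nat_lit 156) (PT.nd (nat_lit 78) (PT.lf (nat_lit 14896) (nat_lit 6) (nat_lit 196) (nat_lit 4) (nat_lit 153) (nat_lit 212) (nat_lit 205)) (PT.lf (nat_lit 15428) (nat_lit 6) (nat_lit 203) (nat_lit 4) (nat_lit 154) (nat_lit 212) (nat_lit 204))) (PT.nd (nat_lit 78) (PT.lf (nat_lit 16036) (nat_lit 6) (nat_lit 211) (nat_lit 4) (nat_lit 155) (nat_lit 212) (nat_lit 203)) (PT.lf (nat_lit 16644) (nat_lit 6) (nat_lit 219) (nat_lit 4) (nat_lit 156) (nat_lit 212) (nat_lit 202))))))))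
noncomputable def pc52 : PT := (PT.nd (nat_lit 2028) (PT.nd (nat_lit 1014) (PT.nd (nat_lit 468) (PT.nd (nat_lit 234) (PT.nd (nat_lit 78) (PT.lf (nat_lit 17328) (nat_lit 6) (nat_lit 228) (nat_lit 4) (nat_lit 157) (nat_lit 212) (nat_lit 201)) (PT.nd (nat_lit 78) (PT.lf (nat_lit 17936) (nat_lit 6) (nat_lit 236) (nat_lit 4) (nat_lit 158) (nat_lit 212) (nat_lit 200)) (PT.lf (nat_lit 18620) (nat_lit 6) (nat_lit 245) (nat_lit 4) (nat_lit 159) (nat_lit 212) (nat_lit 199)))) (PT.nd (nat_lit 78) (PT.lf (nat_lit 19304) (nat_lit 6) (nat_lit 254) (nat_lit 4) (nat_lit 160) (nat_lit 212) (nat_lit 198)) (PT.nd (nat_lit 78) (PT.lf (nat_lit 20064) (nat_lit 6) (nat_lit 264) (nat_lit 4) (nat_lit 161) (nat_lit 212) (nat_lit 197)) (PT.lf (nat_lit 20748) (nat_lit 6) (nat_lit 273) (nat_lit 4) (nat_lit 162) (nat_lit 212) (nat_lit 196))))) (PT.nd (nat_lit 234) (PT.nd (nat_lit 78) (PT.lf (nat_lit 21508) (nat_lit 6) (nat_lit 283)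 (nat_lit 4) (nat_lit 163) (nat_lit 212) (nat_lit 195)) (PT.nd (nat_lit 78) (PT.lf (nat_lit 22268) (nat_lit 6) (nat_lit 293) (nat_lit 4) (nat_lit 164) (nat_lit 212) (nat_lit 194)) (PT.lf (nat_lit 23104) (nat_lit 6) (nat_lit 304) (nat_lit 4) (nat_lit 165) (nat_lit 212) (nat_lit 193)))) (PT.nd (nat_lit 156) (PT.nd (nat_lit 78) (PT.lf (nat_lit 23940) (nat_lit 6) (nat_lit 315) (nat_lit 4) (nat_lit 166) (nat_lit 212) (nat_lit 192)) (PT.lf (nat_lit 24928) (nat_lit 6) (nat_lit 328) (nat_lit 4) (nat_lit 167) (nat_lit 212) (nat_lit 191))) (PT.nd (nat_lit 78) (PT.lf (nat_lit 26600) (nat_lit 6) (nat_lit 350) (nat_lit 4) (nat_lit 168) (nat_lit 212) (nat_lit 190)) (PT.lf (nat_lit 26524) (nat_lit 6) (nat_lit 349) (nat_lit 4) (nat_lit 169) (nat_lit 212) (nat_lit 189)))))) (PT.nd (nat_lit 468) (PT.nd (nat_lit 234) (PT.nd (nat_lit 78) (PT.lf (nat_lit 26448) (nat_lit 6) (nat_lit 348) (nat_lit 4) (nat_lit 170) (nat_lit 212)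 (nat_lit 188)) (PT.nd (nat_lit 78) (PT.lf (nat_lit 26372) (nat_lit 6) (nat_lit 347) (nat_lit 4) (nat_lit 171) (nat_lit 212) (nat_lit 187)) (PT.lf (nat_lit 26296) (nat_lit 6) (nat_lit 346) (nat_lit 4) (nat_lit 172) (nat_lit 212) (nat_lit 186)))) (PT.nd (nat_lit 78) (PT.lf (nat_lit 26220) (nat_lit 6) (nat_lit 345) (nat_lit 4) (nat_lit 173) (nat_lit 212) (nat_lit 185)) (PT.nd (nat_lit 78) (PT.lf (nat_lit 26144) (nat_lit 6) (nat_lit 344) (nat_lit 4) (nat_lit 174) (nat_lit 212) (nat_lit 184)) (PT.lf (nat_lit 26068) (nat_lit 6) (nat_lit 343) (nat_lit 4) (nat_lit 175) (nat_lit 212) (nat_lit 183))))) (PT.nd (nat_lit 234) (PT.nd (nat_lit 78) (PT.lf (nat_lit 25992) (nat_lit 6) (nat_lit 342) (nat_lit 4) (nat_lit 176) (nat_lit 212) (nat_lit 182)) (PT.nd (nat_lit 78) (PT.lf (nat_lit 25916) (nat_lit 6) (nat_lit 341) (nat_lit 4) (nat_lit 177) (nat_lit 212) (nat_lit 181)) (PT.lf (nat_lit 25840) (nat_lit 6) (nat_lit 340)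 (nat_lit 4) (nat_lit 178) (nat_lit 212) (nat_lit 180)))) (PT.nd (nat_lit 156) (PT.nd (nat_lit 78) (PT.lf (nat_lit 25764) (nat_lit 3) (nat_lit 339) (nat_lit 2) (nat_lit 179) (nat_lit 212) (nat_lit 179)) (PT.lf (nat_lit 25840) (nat_lit 6) (nat_lit 340) (nat_lit 2) (nat_lit 180) (nat_lit 212) (nat_lit 178))) (PT.nd (nat_lit 78) (PT.lf (nat_lit 25916) (nat_lit 6) (nat_lit 341) (nat_lit 2) (nat_lit 181) (nat_lit 212) (nat_lit 177)) (PT.lf (nat_lit 25992) (nat_lit 6) (nat_lit 342) (nat_lit 2) (nat_lit 182) (nat_lit 212) (nat_lit 176))))))) (PT.nd (nat_lit 1014) (PT.nd (nat_lit 468) (PT.nd (nat_lit 234) (PT.nd (nat_lit 78) (PT.lf (nat_lit 26068) (nat_lit 6) (nat_lit 343) (nat_lit 2) (nat_lit 183) (nat_lit 212) (nat_lit 175)) (PT.nd (nat_lit 78) (PT.lf (nat_lit 26144) (nat_lit 6) (nat_lit 344) (nat_lit 2) (nat_lit 184) (nat_lit 212) (nat_lit 174)) (PT.lf (nat_lit 26220) (nat_lit 6) (nat_lit 345) (nat_lit 2) (nat_lit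 185) (nat_lit 212) (nat_lit 173)))) (PT.nd (nat_lit 78) (PT.lf (nat_lit 26296) (nat_lit 6) (nat_lit 346) (nat_lit 2) (nat_lit 186) (nat_lit 212) (nat_lit 172)) (PT.nd (nat_lit 78) (PT.lf (nat_lit 26372) (nat_lit 6) (nat_lit 347) (nat_lit 2) (nat_lit 187) (nat_lit 212) (nat_lit 171)) (PT.lf (nat_lit 26448) (nat_lit 6) (nat_lit 348) (nat_lit 2) (nat_lit 188) (nat_lit 212) (nat_lit 170))))) (PT.nd (nat_lit 234) (PT.nd (nat_lit 78) (PT.lf (nat_lit 26524) (nat_lit 6) (nat_lit 349) (nat_lit 2) (nat_lit 189) (nat_lit 212) (nat_lit 169)) (PT.nd (nat_lit 78) (PT.lf (nat_lit 26600) (nat_lit 6) (nat_lit 350) (nat_lit 2) (nat_lit 190) (nat_lit 212) (nat_lit 168)) (PT.lf (nat_lit 24928) (nat_lit 6) (nat_lit 328) (nat_lit 2) (nat_lit 191) (nat_lit 212) (nat_lit 167)))) (PT.nd (nat_lit 156) (PT.nd (nat_lit 78) (PT.lf (nat_lit 23940) (nat_lit 6) (nat_lit 315) (nat_lit 2) (nat_lit 192) (nat_lit 212) (nat_lit 166)) (PT.lf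 (nat_lit 23104) (nat_lit 6) (nat_lit 304) (nat_lit 2) (nat_lit 193) (nat_lit 212) (nat_lit 165))) (PT.nd (nat_lit 78) (PT.lf (nat_lit 22268) (nat_lit 6) (nat_lit 293) (nat_lit 2) (nat_lit 194) (nat_lit 212) (nat_lit 164)) (PT.lf (nat_lit 21508) (nat_lit 6) (nat_lit 283) (nat_lit 2) (nat_lit 195) (nat_lit 212) (nat_lit 163)))))) (PT.nd (nat_lit 546) (PT.nd (nat_lit 234) (PT.nd (nat_lit 78) (PT.lf (nat_lit 20748) (nat_lit 6) (nat_lit 273) (nat_lit 2) (nat_lit 196) (nat_lit 212) (nat_lit 162)) (PT.nd (nat_lit 78) (PT.lf (nat_lit 20064) (nat_lit 6) (nat_lit 264) (nat_lit 2) (nat_lit 197) (nat_lit 212) (nat_lit 161)) (PT.lf (nat_lit 19304) (nat_lit 6) (nat_lit 254) (nat_lit 2) (nat_lit 198) (nat_lit 212) (nat_lit 160)))) (PT.nd (nat_lit 156) (PT.nd (nat_lit 78) (PT.lf (nat_lit 18620) (nat_lit 6) (nat_lit 245) (nat_lit 2) (nat_lit 199) (nat_lit 212) (nat_lit 159)) (PT.lf (nat_lit 17936) (nat_lit 6) (nat_lit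 236) (nat_lit 2) (nat_lit 200) (nat_lit 212) (nat_lit 158))) (PT.nd (nat_lit 78) (PT.lf (nat_lit 17328) (nat_lit 6) (nat_lit 228) (nat_lit 2) (nat_lit 201) (nat_lit 212) (nat_lit 157)) (PT.lf (nat_lit 16644) (nat_lit 6) (nat_lit 219) (nat_lit 2) (nat_lit 202) (nat_lit 212) (nat_lit 156))))) (PT.nd (nat_lit 234) (PT.nd (nat_lit 78) (PT.lf (nat_lit 16036) (nat_lit 6) (nat_lit 211) (nat_lit 2) (nat_lit 203) (nat_lit 212) (nat_lit 155)) (PT.nd (nat_lit 78) (PT.lf (nat_lit 15428) (nat_lit 6) (nat_lit 203) (nat_lit 2) (nat_lit 204) (nat_lit 212) (nat_lit 154)) (PT.lf (nat_lit 14896) (nat_lit 6) (nat_lit 196) (nat_lit 2) (nat_lit 205) (nat_lit 212) (nat_lit 153)))) (PT.nd (nat_lit 156) (PT.nd (nat_lit 78) (PT.lf (nat_lit 14288) (nat_lit 6) (nat_lit 188) (nat_lit 2) (nat_lit 206) (nat_lit 212) (nat_lit 152)) (PT.lf (nat_lit 13756) (nat_lit 6) (nat_lit 181) (nat_lit 2) (nat_lit 207) (nat_lit 212) (nat_lit 151)))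 (PT.nd (nat_lit 78) (PT.lf (nat_lit 13224) (nat_lit 6) (nat_lit 174) (nat_lit 2) (nat_lit 208) (nat_lit 212) (nat_lit 150)) (PT.lf (nat_lit 12768) (nat_lit 6) (nat_lit 168) (nat_lit 2) (nat_lit 209) (nat_lit 212) (nat_lit 149))))))))
noncomputable def pc53 : PT := (PT.nd (nat_lit 54756) (PT.nd (nat_lit 53742) (PT.nd (nat_lit 468) (PT.nd (nat_lit 234) (PT.nd (nat_lit 78) (PT.lf (nat_lit 12236) (nat_lit 6) (nat_lit 161) (nat_lit 2) (nat_lit 210) (nat_lit 212) (nat_lit 148)) (PT.nd (nat_lit 78) (PT.lf (nat_lit 11780) (nat_lit 6) (nat_lit 155) (nat_lit 2) (nat_lit 211) (nat_lit 212) (nat_lit 147)) (PT.lf (nat_lit 11324) (nat_lit 3) (nat_lit 149) (nat_lit 0) (nat_lit 212) (nat_lit 212) (nat_lit 146)))) (PT.nd (nat_lit 78) (PT.lf (nat_lit 10792) (nat_lit 6) (nat_lit 142) (nat_lit 0) (nat_lit 213) (nat_lit 212) (nat_lit 145)) (PT.nd (nat_lit 78) (PT.lf (nat_lit 10260) (nat_lit 6) (nat_lit 135) (nat_lit 0) (nat_lit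 214) (nat_lit 212) (nat_lit 144)) (PT.lf (nat_lit 9804) (nat_lit 6) (nat_lit 129) (nat_lit 0) (nat_lit 215) (nat_lit 212) (nat_lit 143))))) (PT.nd (nat_lit 234) (PT.nd (nat_lit 78) (PT.lf (nat_lit 9348) (nat_lit 6) (nat_lit 123) (nat_lit 0) (nat_lit 216) (nat_lit 212) (nat_lit 142)) (PT.nd (nat_lit 78) (PT.lf (nat_lit 8892) (nat_lit 6) (nat_lit 117) (nat_lit 0) (nat_lit 217) (nat_lit 212) (nat_lit 141)) (PT.lf (nat_lit 8436) (nat_lit 6) (nat_lit 111) (nat_lit 0) (nat_lit 218) (nat_lit 212) (nat_lit 140)))) (PT.nd (nat_lit 52884) (PT.nd (nat_lit 78) (PT.lf (nat_lit 8056) (nat_lit 6) (nat_lit 106) (nat_lit 0) (nat_lit 219) (nat_lit 212) (nat_lit 139)) (PT.lf (nat_lit 7600) (nat_lit 6) (nat_lit 100) (nat_lit 0) (nat_lit 220) (nat_lit 212) (nat_lit 138))) (PT.nd (nat_lit 78) (PT.lf (nat_lit 6916) (nat_lit 6) (nat_lit 91) (nat_lit 5) (nat_lit 136) (nat_lit 213) (nat_lit 221)) (PT.lf (nat_lit 7296) (nat_lit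 6) (nat_lit 96) (nat_lit 5) (nat_lit 137) (nat_lit 213) (nat_lit 220)))))) (PT.nd (nat_lit 468) (PT.nd (nat_lit 234) (PT.nd (nat_lit 78) (PT.lf (nat_lit 7676) (nat_lit 6) (nat_lit 101) (nat_lit 5) (nat_lit 138) (nat_lit 213) (nat_lit 219)) (PT.nd (nat_lit 78) (PT.lf (nat_lit 8132) (nat_lit 6) (nat_lit 107) (nat_lit 5) (nat_lit 139) (nat_lit 213) (nat_lit 218)) (PT.lf (nat_lit 8512) (nat_lit 6) (nat_lit 112) (nat_lit 5) (nat_lit 140) (nat_lit 213) (nat_lit 217)))) (PT.nd (nat_lit 78) (PT.lf (nat_lit 8968) (nat_lit 6) (nat_lit 118) (nat_lit 5) (nat_lit 141) (nat_lit 213) (nat_lit 216)) (PT.nd (nat_lit 78) (PT.lf (nat_lit 9424) (nat_lit 6) (nat_lit 124) (nat_lit 5) (nat_lit 142) (nat_lit 213) (nat_lit 215)) (PT.lf (nat_lit 9880) (nat_lit 6) (nat_lit 130) (nat_lit 5) (nat_lit 143) (nat_lit 213) (nat_lit 214))))) (PT.nd (nat_lit 234) (PT.nd (nat_lit 78) (PT.lf (nat_lit 10336) (nat_lit 3) (nat_lit 136) (nat_lit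 4) (nat_lit 144) (nat_lit 213) (nat_lit 213)) (PT.nd (nat_lit 78) (PT.lf (nat_lit 10792) (nat_lit 6) (nat_lit 142) (nat_lit 4) (nat_lit 145) (nat_lit 213) (nat_lit 212)) (PT.lf (nat_lit 11248) (nat_lit 6) (nat_lit 148) (nat_lit 4) (nat_lit 146) (nat_lit 213) (nat_lit 211)))) (PT.nd (nat_lit 156) (PT.nd (nat_lit 78) (PT.lf (nat_lit 11704) (nat_lit 6) (nat_lit 154) (nat_lit 4) (nat_lit 147) (nat_lit 213) (nat_lit 210)) (PT.lf (nat_lit 12160) (nat_lit 6) (nat_lit 160) (nat_lit 4) (nat_lit 148) (nat_lit 213) (nat_lit 209))) (PT.nd (nat_lit 78) (PT.lf (nat_lit 12692) (nat_lit 6) (nat_lit 167) (nat_lit 4) (nat_lit 149) (nat_lit 213) (nat_lit 208)) (PT.lf (nat_lit 13148) (nat_lit 6) (nat_lit 173) (nat_lit 4) (nat_lit 150) (nat_lit 213) (nat_lit 207))))))) (PT.nd (nat_lit 1014) (PT.nd (nat_lit 468) (PT.nd (nat_lit 234) (PT.nd (nat_lit 78) (PT.lf (nat_lit 13680) (nat_lit 6) (nat_lit 180) (nat_lit 4) (nat_lit 151)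 (nat_lit 213) (nat_lit 206)) (PT.nd (nat_lit 78) (PT.lf (nat_lit 14212) (nat_lit 6) (nat_lit 187) (nat_lit 4) (nat_lit 152) (nat_lit 213) (nat_lit 205)) (PT.lf (nat_lit 14820) (nat_lit 6) (nat_lit 195) (nat_lit 4) (nat_lit 153) (nat_lit 213) (nat_lit 204)))) (PT.nd (nat_lit 78) (PT.lf (nat_lit 15352) (nat_lit 6) (nat_lit 202) (nat_lit 4) (nat_lit 154) (nat_lit 213) (nat_lit 203)) (PT.nd (nat_lit 78) (PT.lf (nat_lit 15960) (nat_lit 6) (nat_lit 210) (nat_lit 4) (nat_lit 155) (nat_lit 213) (nat_lit 202)) (PT.lf (nat_lit 16568) (nat_lit 6) (nat_lit 218) (nat_lit 4) (nat_lit 156) (nat_lit 213) (nat_lit 201))))) (PT.nd (nat_lit 234) (PT.nd (nat_lit 78) (PT.lf (nat_lit 17252) (nat_lit 6) (nat_lit 227) (nat_lit 4) (nat_lit 157) (nat_lit 213) (nat_lit 200)) (PT.nd (nat_lit 78) (PT.lf (nat_lit 17860) (nat_lit 6) (nat_lit 235) (nat_lit 4) (nat_lit 158) (nat_lit 213) (nat_lit 199)) (PT.lf (nat_lit 18544) (nat_lit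 6) (nat_lit 244) (nat_lit 4) (nat_lit 159) (nat_lit 213) (nat_lit 198)))) (PT.nd (nat_lit 156) (PT.nd (nat_lit 78) (PT.lf (nat_lit 19228) (nat_lit 6) (nat_lit 253) (nat_lit 4) (nat_lit 160) (nat_lit 213) (nat_lit 197)) (PT.lf (nat_lit 19988) (nat_lit 6) (nat_lit 263) (nat_lit 4) (nat_lit 161) (nat_lit 213) (nat_lit 196))) (PT.nd (nat_lit 78) (PT.lf (nat_lit 20672) (nat_lit 6) (nat_lit 272) (nat_lit 4) (nat_lit 162) (nat_lit 213) (nat_lit 195)) (PT.lf (nat_lit 21432) (nat_lit 6) (nat_lit 282) (nat_lit 4) (nat_lit 163) (nat_lit 213) (nat_lit 194)))))) (PT.nd (nat_lit 2106) (PT.nd (nat_lit 234) (PT.nd (nat_lit 78) (PT.lf (nat_lit 22192) (nat_lit 6) (nat_lit 292) (nat_lit 4) (nat_lit 164) (nat_lit 213) (nat_lit 193)) (PT.nd (nat_lit 78) (PT.lf (nat_lit 23028) (nat_lit 6) (nat_lit 303) (nat_lit 4) (nat_lit 165) (nat_lit 213) (nat_lit 192)) (PT.lf (nat_lit 23864) (nat_lit 6) (nat_lit 314) (nat_lit 4) (nat_lit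 166) (nat_lit 213) (nat_lit 191)))) (PT.nd (nat_lit 1716) (PT.nd (nat_lit 78) (PT.lf (nat_lit 24852) (nat_lit 6) (nat_lit 327) (nat_lit 4) (nat_lit 167) (nat_lit 213) (nat_lit 190)) (PT.lf (nat_lit 24776) (nat_lit 6) (nat_lit 326) (nat_lit 4) (nat_lit 168) (nat_lit 213) (nat_lit 189))) (PT.nd (nat_lit 78) (PT.lf (nat_lit 24776) (nat_lit 6) (nat_lit 326) (nat_lit 2) (nat_lit 189) (nat_lit 213) (nat_lit 168)) (PT.lf (nat_lit 24852) (nat_lit 6) (nat_lit 327) (nat_lit 2) (nat_lit 190) (nat_lit 213) (nat_lit 167))))) (PT.nd (nat_lit 234) (PT.nd (nat_lit 78) (PT.lf (nat_lit 23864) (nat_lit 6) (nat_lit 314) (nat_lit 2) (nat_lit 191) (nat_lit 213) (nat_lit 166)) (PT.nd (nat_lit 78) (PT.lf (nat_lit 23028) (nat_lit 6) (nat_lit 303) (nat_lit 2) (nat_lit 192) (nat_lit 213) (nat_lit 165)) (PT.lf (nat_lit 22192) (nat_lit 6) (nat_lit 292) (nat_lit 2) (nat_lit 193) (nat_lit 213) (nat_lit 164)))) (PT.nd (nat_lit 156)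 (PT.nd (nat_lit 78) (PT.lf (nat_lit 21432) (nat_lit 6) (nat_lit 282) (nat_lit 2) (nat_lit 194) (nat_lit 213) (nat_lit 163)) (PT.lf (nat_lit 20672) (nat_lit 6) (nat_lit 272) (nat_lit 2) (nat_lit 195) (nat_lit 213) (nat_lit 162))) (PT.nd (nat_lit 78) (PT.lf (nat_lit 19988) (nat_lit 6) (nat_lit 263) (nat_lit 2) (nat_lit 196) (nat_lit 213) (nat_lit 161)) (PT.lf (nat_lit 19228) (nat_lit 6) (nat_lit 253) (nat_lit 2) (nat_lit 197) (nat_lit 213) (nat_lit 160))))))))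
noncomputable def pc54 : PT := (PT.nd (nat_lit 54600) (PT.nd (nat_lit 1014) (PT.nd (nat_lit 468) (PT.nd (nat_lit 234) (PT.nd (nat_lit 78) (PT.lf (nat_lit 18544) (nat_lit 6) (nat_lit 244) (nat_lit 2) (nat_lit 198) (nat_lit 213) (nat_lit 159)) (PT.nd (nat_lit 78) (PT.lf (nat_lit 17860) (nat_lit 6) (nat_lit 235) (nat_lit 2) (nat_lit 199) (nat_lit 213) (nat_lit 158)) (PT.lf (nat_lit 17252) (nat_lit 6) (nat_lit 227) (nat_lit 2) (nat_lit 200) (nat_lit 213) (nat_lit 157)))) (PT.nd (nat_lit 78) (PT.lf (nat_lit 16568) (nat_lit 6) (nat_lit 218) (nat_lit 2) (nat_lit 201) (nat_lit 213) (nat_lit 156)) (PT.nd (nat_lit 78) (PT.lf (nat_lit 15960) (nat_lit 6) (nat_lit 210) (nat_lit 2) (nat_lit 202) (nat_lit 213) (nat_lit 155)) (PT.lf (nat_lit 15352) (nat_lit 6) (nat_lit 202) (nat_lit 2) (nat_lit 203) (nat_lit 213) (nat_lit 154))))) (PT.nd (nat_lit 234) (PT.nd (nat_lit 78) (PT.lf (nat_lit 14820) (nat_lit 6) (nat_lit 195)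 (nat_lit 2) (nat_lit 204) (nat_lit 213) (nat_lit 153)) (PT.nd (nat_lit 78) (PT.lf (nat_lit 14212) (nat_lit 6) (nat_lit 187) (nat_lit 2) (nat_lit 205) (nat_lit 213) (nat_lit 152)) (PT.lf (nat_lit 13680) (nat_lit 6) (nat_lit 180) (nat_lit 2) (nat_lit 206) (nat_lit 213) (nat_lit 151)))) (PT.nd (nat_lit 156) (PT.nd (nat_lit 78) (PT.lf (nat_lit 13148) (nat_lit 6) (nat_lit 173) (nat_lit 2) (nat_lit 207) (nat_lit 213) (nat_lit 150)) (PT.lf (nat_lit 12692) (nat_lit 6) (nat_lit 167) (nat_lit 2) (nat_lit 208) (nat_lit 213) (nat_lit 149))) (PT.nd (nat_lit 78) (PT.lf (nat_lit 12160) (nat_lit 6) (nat_lit 160) (nat_lit 2) (nat_lit 209) (nat_lit 213) (nat_lit 148)) (PT.lf (nat_lit 11704) (nat_lit 6) (nat_lit 154) (nat_lit 2) (nat_lit 210) (nat_lit 213) (nat_lit 147)))))) (PT.nd (nat_lit 468) (PT.nd (nat_lit 234) (PT.nd (nat_lit 78) (PT.lf (nat_lit 11248) (nat_lit 6) (nat_lit 148) (nat_lit 2) (nat_lit 211) (nat_lit 213)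 (nat_lit 146)) (PT.nd (nat_lit 78) (PT.lf (nat_lit 10792) (nat_lit 6) (nat_lit 142) (nat_lit 2) (nat_lit 212) (nat_lit 213) (nat_lit 145)) (PT.lf (nat_lit 10336) (nat_lit 3) (nat_lit 136) (nat_lit 0) (nat_lit 213) (nat_lit 213) (nat_lit 144)))) (PT.nd (nat_lit 78) (PT.lf (nat_lit 9880) (nat_lit 6) (nat_lit 130) (nat_lit 0) (nat_lit 214) (nat_lit 213) (nat_lit 143)) (PT.nd (nat_lit 78) (PT.lf (nat_lit 9424) (nat_lit 6) (nat_lit 124) (nat_lit 0) (nat_lit 215) (nat_lit 213) (nat_lit 142)) (PT.lf (nat_lit 8968) (nat_lit 6) (nat_lit 118) (nat_lit 0) (nat_lit 216) (nat_lit 213) (nat_lit 141))))) (PT.nd (nat_lit 234) (PT.nd (nat_lit 78) (PT.lf (nat_lit 8512) (nat_lit 6) (nat_lit 112) (nat_lit 0) (nat_lit 217) (nat_lit 213) (nat_lit 140)) (PT.nd (nat_lit 78) (PT.lf (nat_lit 8132) (nat_lit 6) (nat_lit 107) (nat_lit 0) (nat_lit 218) (nat_lit 213) (nat_lit 139)) (PT.lf (nat_lit 7676) (nat_lit 6) (nat_lit 101) (nat_lit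 0) (nat_lit 219) (nat_lit 213) (nat_lit 138)))) (PT.nd (nat_lit 52728) (PT.nd (nat_lit 78) (PT.lf (nat_lit 7296) (nat_lit 6) (nat_lit 96) (nat_lit 0) (nat_lit 220) (nat_lit 213) (nat_lit 137)) (PT.lf (nat_lit 6916) (nat_lit 6) (nat_lit 91) (nat_lit 0) (nat_lit 221) (nat_lit 213) (nat_lit 136))) (PT.nd (nat_lit 78) (PT.lf (nat_lit 6612) (nat_lit 6) (nat_lit 87) (nat_lit 5) (nat_lit 135) (nat_lit 214) (nat_lit 221)) (PT.lf (nat_lit 6992) (nat_lit 6) (nat_lit 92) (nat_lit 5) (nat_lit 136) (nat_lit 214) (nat_lit 220))))))) (PT.nd (nat_lit 1014) (PT.nd (nat_lit 468) (PT.nd (nat_lit 234) (PT.nd (nat_lit 78) (PT.lf (nat_lit 7372) (nat_lit 6) (nat_lit 97) (nat_lit 5) (nat_lit 137) (nat_lit 214) (nat_lit 219)) (PT.nd (nat_lit 78) (PT.lf (nat_lit 7752) (nat_lit 6) (nat_lit 102) (nat_lit 5) (nat_lit 138) (nat_lit 214) (nat_lit 218)) (PT.lf (nat_lit 8208) (nat_lit 6) (nat_lit 108) (nat_lit 5) (nat_lit 139) (nat_lit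 214) (nat_lit 217)))) (PT.nd (nat_lit 78) (PT.lf (nat_lit 8588) (nat_lit 6) (nat_lit 113) (nat_lit 5) (nat_lit 140) (nat_lit 214) (nat_lit 216)) (PT.nd (nat_lit 78) (PT.lf (nat_lit 9044) (nat_lit 6) (nat_lit 119) (nat_lit 5) (nat_lit 141) (nat_lit 214) (nat_lit 215)) (PT.lf (nat_lit 9500) (nat_lit 3) (nat_lit 125) (nat_lit 4) (nat_lit 142) (nat_lit 214) (nat_lit 214))))) (PT.nd (nat_lit 234) (PT.nd (nat_lit 78) (PT.lf (nat_lit 9880) (nat_lit 6) (nat_lit 130) (nat_lit 4) (nat_lit 143) (nat_lit 214) (nat_lit 213)) (PT.nd (nat_lit 78) (PT.lf (nat_lit 10260) (nat_lit 6) (nat_lit 135) (nat_lit 4) (nat_lit 144) (nat_lit 214) (nat_lit 212)) (PT.lf (nat_lit 10716) (nat_lit 6) (nat_lit 141) (nat_lit 4) (nat_lit 145) (nat_lit 214) (nat_lit 211)))) (PT.nd (nat_lit 156) (PT.nd (nat_lit 78) (PT.lf (nat_lit 11172) (nat_lit 6) (nat_lit 147) (nat_lit 4) (nat_lit 146) (nat_lit 214) (nat_lit 210)) (PT.lf (nat_lit 11628)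 (nat_lit 6) (nat_lit 153) (nat_lit 4) (nat_lit 147) (nat_lit 214) (nat_lit 209))) (PT.nd (nat_lit 78) (PT.lf (nat_lit 12084) (nat_lit 6) (nat_lit 159) (nat_lit 4) (nat_lit 148) (nat_lit 214) (nat_lit 208)) (PT.lf (nat_lit 12616) (nat_lit 6) (nat_lit 166) (nat_lit 4) (nat_lit 149) (nat_lit 214) (nat_lit 207)))))) (PT.nd (nat_lit 546) (PT.nd (nat_lit 234) (PT.nd (nat_lit 78) (PT.lf (nat_lit 13072) (nat_lit 6) (nat_lit 172) (nat_lit 4) (nat_lit 150) (nat_lit 214) (nat_lit 206)) (PT.nd (nat_lit 78) (PT.lf (nat_lit 13604) (nat_lit 6) (nat_lit 179) (nat_lit 4) (nat_lit 151) (nat_lit 214) (nat_lit 205)) (PT.lf (nat_lit 14136) (nat_lit 6) (nat_lit 186) (nat_lit 4) (nat_lit 152) (nat_lit 214) (nat_lit 204)))) (PT.nd (nat_lit 156) (PT.nd (nat_lit 78) (PT.lf (nat_lit 14744) (nat_lit 6) (nat_lit 194) (nat_lit 4) (nat_lit 153) (nat_lit 214) (nat_lit 203)) (PT.lf (nat_lit 15276) (nat_lit 6) (nat_lit 201) (nat_lit 4)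 (nat_lit 154) (nat_lit 214) (nat_lit 202))) (PT.nd (nat_lit 78) (PT.lf (nat_lit 15884) (nat_lit 6) (nat_lit 209) (nat_lit 4) (nat_lit 155) (nat_lit 214) (nat_lit 201)) (PT.lf (nat_lit 16492) (nat_lit 6) (nat_lit 217) (nat_lit 4) (nat_lit 156) (nat_lit 214) (nat_lit 200))))) (PT.nd (nat_lit 234) (PT.nd (nat_lit 78) (PT.lf (nat_lit 17176) (nat_lit 6) (nat_lit 226) (nat_lit 4) (nat_lit 157) (nat_lit 214) (nat_lit 199)) (PT.nd (nat_lit 78) (PT.lf (nat_lit 17784) (nat_lit 6) (nat_lit 234) (nat_lit 4) (nat_lit 158) (nat_lit 214) (nat_lit 198)) (PT.lf (nat_lit 18468) (nat_lit 6) (nat_lit 243) (nat_lit 4) (nat_lit 159) (nat_lit 214) (nat_lit 197)))) (PT.nd (nat_lit 2730) (PT.nd (nat_lit 78) (PT.lf (nat_lit 19152) (nat_lit 6) (nat_lit 252) (nat_lit 4) (nat_lit 160) (nat_lit 214) (nat_lit 196)) (PT.lf (nat_lit 19912) (nat_lit 6) (nat_lit 262) (nat_lit 4) (nat_lit 161) (nat_lit 214) (nat_lit 195))) (PT.nd (nat_lit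 78) (PT.lf (nat_lit 19912) (nat_lit 6) (nat_lit 262) (nat_lit 2) (nat_lit 195) (nat_lit 214) (nat_lit 161)) (PT.lf (nat_lit 19152) (nat_lit 6) (nat_lit 252) (nat_lit 2) (nat_lit 196) (nat_lit 214) (nat_lit 160))))))))
noncomputable def pc55 : PT := (PT.nd (nat_lit 54522) (PT.nd (nat_lit 1014) (PT.nd (nat_lit 468) (PT.nd (nat_lit 234) (PT.nd (nat_lit 78) (PT.lf (nat_lit 18468) (nat_lit 6) (nat_lit 243) (nat_lit 2) (nat_lit 197) (nat_lit 214) (nat_lit 159)) (PT.nd (nat_lit 78) (PT.lf (nat_lit 17784) (nat_lit 6) (nat_lit 234) (nat_lit 2) (nat_lit 198) (nat_lit 214) (nat_lit 158)) (PT.lf (nat_lit 17176) (nat_lit 6) (nat_lit 226) (nat_lit 2) (nat_lit 199) (nat_lit 214) (nat_lit 157)))) (PT.nd (nat_lit 78) (PT.lf (nat_lit 16492) (nat_lit 6) (nat_lit 217) (nat_lit 2) (nat_lit 200) (nat_lit 214) (nat_lit 156)) (PT.nd (nat_lit 78) (PT.lf (nat_lit 15884) (nat_lit 6) (nat_lit 209) (nat_lit 2) (nat_lit 201) (nat_lit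 214) (nat_lit 155)) (PT.lf (nat_lit 15276) (nat_lit 6) (nat_lit 201) (nat_lit 2) (nat_lit 202) (nat_lit 214) (nat_lit 154))))) (PT.nd (nat_lit 234) (PT.nd (nat_lit 78) (PT.lf (nat_lit 14744) (nat_lit 6) (nat_lit 194) (nat_lit 2) (nat_lit 203) (nat_lit 214) (nat_lit 153)) (PT.nd (nat_lit 78) (PT.lf (nat_lit 14136) (nat_lit 6) (nat_lit 186) (nat_lit 2) (nat_lit 204) (nat_lit 214) (nat_lit 152)) (PT.lf (nat_lit 13604) (nat_lit 6) (nat_lit 179) (nat_lit 2) (nat_lit 205) (nat_lit 214) (nat_lit 151)))) (PT.nd (nat_lit 156) (PT.nd (nat_lit 78) (PT.lf (nat_lit 13072) (nat_lit 6) (nat_lit 172) (nat_lit 2) (nat_lit 206) (nat_lit 214) (nat_lit 150)) (PT.lf (nat_lit 12616) (nat_lit 6) (nat_lit 166) (nat_lit 2) (nat_lit 207) (nat_lit 214) (nat_lit 149))) (PT.nd (nat_lit 78) (PT.lf (nat_lit 12084) (nat_lit 6) (nat_lit 159) (nat_lit 2) (nat_lit 208) (nat_lit 214) (nat_lit 148)) (PT.lf (nat_lit 11628) (nat_lit 6) (nat_lit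 153) (nat_lit 2) (nat_lit 209) (nat_lit 214) (nat_lit 147)))))) (PT.nd (nat_lit 546) (PT.nd (nat_lit 234) (PT.nd (nat_lit 78) (PT.lf (nat_lit 11172) (nat_lit 6) (nat_lit 147) (nat_lit 2) (nat_lit 210) (nat_lit 214) (nat_lit 146)) (PT.nd (nat_lit 78) (PT.lf (nat_lit 10716) (nat_lit 6) (nat_lit 141) (nat_lit 2) (nat_lit 211) (nat_lit 214) (nat_lit 145)) (PT.lf (nat_lit 10260) (nat_lit 6) (nat_lit 135) (nat_lit 2) (nat_lit 212) (nat_lit 214) (nat_lit 144)))) (PT.nd (nat_lit 156) (PT.nd (nat_lit 78) (PT.lf (nat_lit 9880) (nat_lit 6) (nat_lit 130) (nat_lit 2) (nat_lit 213) (nat_lit 214) (nat_lit 143)) (PT.lf (nat_lit 9500) (nat_lit 3) (nat_lit 125) (nat_lit 0) (nat_lit 214) (nat_lit 214) (nat_lit 142))) (PT.nd (nat_lit 78) (PT.lf (nat_lit 9044) (nat_lit 6) (nat_lit 119) (nat_lit 0) (nat_lit 215) (nat_lit 214) (nat_lit 141)) (PT.lf (nat_lit 8588) (nat_lit 6) (nat_lit 113) (nat_lit 0) (nat_lit 216) (nat_lit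 214) (nat_lit 140))))) (PT.nd (nat_lit 234) (PT.nd (nat_lit 78) (PT.lf (nat_lit 8208) (nat_lit 6) (nat_lit 108) (nat_lit 0) (nat_lit 217) (nat_lit 214) (nat_lit 139)) (PT.nd (nat_lit 78) (PT.lf (nat_lit 7752) (nat_lit 6) (nat_lit 102) (nat_lit 0) (nat_lit 218) (nat_lit 214) (nat_lit 138)) (PT.lf (nat_lit 7372) (nat_lit 6) (nat_lit 97) (nat_lit 0) (nat_lit 219) (nat_lit 214) (nat_lit 137)))) (PT.nd (nat_lit 52572) (PT.nd (nat_lit 78) (PT.lf (nat_lit 6992) (nat_lit 6) (nat_lit 92) (nat_lit 0) (nat_lit 220) (nat_lit 214) (nat_lit 136)) (PT.lf (nat_lit 6612) (nat_lit 6) (nat_lit 87) (nat_lit 0) (nat_lit 221) (nat_lit 214) (nat_lit 135))) (PT.nd (nat_lit 78) (PT.lf (nat_lit 6004) (nat_lit 6) (nat_lit 79) (nat_lit 5) (nat_lit 133) (nat_lit 215) (nat_lit 222)) (PT.lf (nat_lit 6308) (nat_lit 6) (nat_lit 83) (nat_lit 5) (nat_lit 134) (nat_lit 215) (nat_lit 221))))))) (PT.nd (nat_lit 1014) (PT.nd (nat_lit 468)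 (PT.nd (nat_lit 234) (PT.nd (nat_lit 78) (PT.lf (nat_lit 6688) (nat_lit 6) (nat_lit 88) (nat_lit 5) (nat_lit 135) (nat_lit 215) (nat_lit 220)) (PT.nd (nat_lit 78) (PT.lf (nat_lit 7068) (nat_lit 6) (nat_lit 93) (nat_lit 5) (nat_lit 136) (nat_lit 215) (nat_lit 219)) (PT.lf (nat_lit 7448) (nat_lit 6) (nat_lit 98) (nat_lit 5) (nat_lit 137) (nat_lit 215) (nat_lit 218)))) (PT.nd (nat_lit 78) (PT.lf (nat_lit 7828) (nat_lit 6) (nat_lit 103) (nat_lit 5) (nat_lit 138) (nat_lit 215) (nat_lit 217)) (PT.nd (nat_lit 78) (PT.lf (nat_lit 8284) (nat_lit 6) (nat_lit 109) (nat_lit 5) (nat_lit 139) (nat_lit 215) (nat_lit 216)) (PT.lf (nat_lit 8664) (nat_lit 3) (nat_lit 114) (nat_lit 4) (nat_lit 140) (nat_lit 215) (nat_lit 215))))) (PT.nd (nat_lit 234) (PT.nd (nat_lit 78) (PT.lf (nat_lit 9044) (nat_lit 6) (nat_lit 119) (nat_lit 4) (nat_lit 141) (nat_lit 215) (nat_lit 214)) (PT.nd (nat_lit 78) (PT.lf (nat_lit 9424) (nat_lit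 6) (nat_lit 124) (nat_lit 4) (nat_lit 142) (nat_lit 215) (nat_lit 213)) (PT.lf (nat_lit 9804) (nat_lit 6) (nat_lit 129) (nat_lit 4) (nat_lit 143) (nat_lit 215) (nat_lit 212)))) (PT.nd (nat_lit 156) (PT.nd (nat_lit 78) (PT.lf (nat_lit 10184) (nat_lit 6) (nat_lit 134) (nat_lit 4) (nat_lit 144) (nat_lit 215) (nat_lit 211)) (PT.lf (nat_lit 10640) (nat_lit 6) (nat_lit 140) (nat_lit 4) (nat_lit 145) (nat_lit 215) (nat_lit 210))) (PT.nd (nat_lit 78) (PT.lf (nat_lit 11096) (nat_lit 6) (nat_lit 146) (nat_lit 4) (nat_lit 146) (nat_lit 215) (nat_lit 209)) (PT.lf (nat_lit 11552) (nat_lit 6) (nat_lit 152) (nat_lit 4) (nat_lit 147) (nat_lit 215) (nat_lit 208)))))) (PT.nd (nat_lit 546) (PT.nd (nat_lit 234) (PT.nd (nat_lit 78) (PT.lf (nat_lit 12008) (nat_lit 6) (nat_lit 158) (nat_lit 4) (nat_lit 148) (nat_lit 215) (nat_lit 207)) (PT.nd (nat_lit 78) (PT.lf (nat_lit 12540) (nat_lit 6) (nat_lit 165) (nat_lit 4) (nat_lit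 149) (nat_lit 215) (nat_lit 206)) (PT.lf (nat_lit 12996) (nat_lit 6) (nat_lit 171) (nat_lit 4) (nat_lit 150) (nat_lit 215) (nat_lit 205)))) (PT.nd (nat_lit 156) (PT.nd (nat_lit 78) (PT.lf (nat_lit 13528) (nat_lit 6) (nat_lit 178) (nat_lit 4) (nat_lit 151) (nat_lit 215) (nat_lit 204)) (PT.lf (nat_lit 14060) (nat_lit 6) (nat_lit 185) (nat_lit 4) (nat_lit 152) (nat_lit 215) (nat_lit 203))) (PT.nd (nat_lit 78) (PT.lf (nat_lit 14668) (nat_lit 6) (nat_lit 193) (nat_lit 4) (nat_lit 153) (nat_lit 215) (nat_lit 202)) (PT.lf (nat_lit 15200) (nat_lit 6) (nat_lit 200) (nat_lit 4) (nat_lit 154) (nat_lit 215) (nat_lit 201))))) (PT.nd (nat_lit 3510) (PT.nd (nat_lit 78) (PT.lf (nat_lit 15808) (nat_lit 6) (nat_lit 208) (nat_lit 4) (nat_lit 155) (nat_lit 215) (nat_lit 200)) (PT.nd (nat_lit 3354) (PT.lf (nat_lit 16416) (nat_lit 6) (nat_lit 216) (nat_lit 4) (nat_lit 156) (nat_lit 215) (nat_lit 199)) (PT.lf (nat_lit 16416)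 (nat_lit 6) (nat_lit 216) (nat_lit 2) (nat_lit 199) (nat_lit 215) (nat_lit 156)))) (PT.nd (nat_lit 156) (PT.nd (nat_lit 78) (PT.lf (nat_lit 15808) (nat_lit 6) (nat_lit 208) (nat_lit 2) (nat_lit 200) (nat_lit 215) (nat_lit 155)) (PT.lf (nat_lit 15200) (nat_lit 6) (nat_lit 200) (nat_lit 2) (nat_lit 201) (nat_lit 215) (nat_lit 154))) (PT.nd (nat_lit 78) (PT.lf (nat_lit 14668) (nat_lit 6) (nat_lit 193) (nat_lit 2) (nat_lit 202) (nat_lit 215) (nat_lit 153)) (PT.lf (nat_lit 14060) (nat_lit 6) (nat_lit 185) (nat_lit 2) (nat_lit 203) (nat_lit 215) (nat_lit 152))))))))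
noncomputable def pc56 : PT := (PT.nd (nat_lit 54210) (PT.nd (nat_lit 1014) (PT.nd (nat_lit 468) (PT.nd (nat_lit 234) (PT.nd (nat_lit 78) (PT.lf (nat_lit 13528) (nat_lit 6) (nat_lit 178) (nat_lit 2) (nat_lit 204) (nat_lit 215) (nat_lit 151)) (PT.nd (nat_lit 78) (PT.lf (nat_lit 12996) (nat_lit 6) (nat_lit 171) (nat_lit 2) (nat_lit 205) (nat_lit 215) (nat_lit 150)) (PT.lf (nat_lit 12540) (nat_lit 6) (nat_lit 165) (nat_lit 2) (nat_lit 206) (nat_lit 215) (nat_lit 149)))) (PT.nd (nat_lit 78) (PT.lf (nat_lit 12008) (nat_lit 6) (nat_lit 158) (nat_lit 2) (nat_lit 207) (nat_lit 215) (nat_lit 148)) (PT.nd (nat_lit 78) (PT.lf (nat_lit 11552) (nat_lit 6) (nat_lit 152) (nat_lit 2) (nat_lit 208) (nat_lit 215) (nat_lit 147)) (PT.lf (nat_lit 11096) (nat_lit 6) (nat_lit 146) (nat_lit 2) (nat_lit 209) (nat_lit 215) (nat_lit 146))))) (PT.nd (nat_lit 234) (PT.nd (nat_lit 78) (PT.lf (nat_lit 10640) (nat_lit 6) (nat_lit 140)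 (nat_lit 2) (nat_lit 210) (nat_lit 215) (nat_lit 145)) (PT.nd (nat_lit 78) (PT.lf (nat_lit 10184) (nat_lit 6) (nat_lit 134) (nat_lit 2) (nat_lit 211) (nat_lit 215) (nat_lit 144)) (PT.lf (nat_lit 9804) (nat_lit 6) (nat_lit 129) (nat_lit 2) (nat_lit 212) (nat_lit 215) (nat_lit 143)))) (PT.nd (nat_lit 156) (PT.nd (nat_lit 78) (PT.lf (nat_lit 9424) (nat_lit 6) (nat_lit 124) (nat_lit 2) (nat_lit 213) (nat_lit 215) (nat_lit 142)) (PT.lf (nat_lit 9044) (nat_lit 6) (nat_lit 119) (nat_lit 2) (nat_lit 214) (nat_lit 215) (nat_lit 141))) (PT.nd (nat_lit 78) (PT.lf (nat_lit 8664) (nat_lit 3) (nat_lit 114) (nat_lit 0) (nat_lit 215) (nat_lit 215) (nat_lit 140)) (PT.lf (nat_lit 8284) (nat_lit 6) (nat_lit 109) (nat_lit 0) (nat_lit 216) (nat_lit 215) (nat_lit 139)))))) (PT.nd (nat_lit 52650) (PT.nd (nat_lit 234) (PT.nd (nat_lit 78) (PT.lf (nat_lit 7828) (nat_lit 6) (nat_lit 103) (nat_lit 0) (nat_lit 217) (nat_lit 215)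 (nat_lit 138)) (PT.nd (nat_lit 78) (PT.lf (nat_lit 7448) (nat_lit 6) (nat_lit 98) (nat_lit 0) (nat_lit 218) (nat_lit 215) (nat_lit 137)) (PT.lf (nat_lit 7068) (nat_lit 6) (nat_lit 93) (nat_lit 0) (nat_lit 219) (nat_lit 215) (nat_lit 136)))) (PT.nd (nat_lit 78) (PT.lf (nat_lit 6688) (nat_lit 6) (nat_lit 88) (nat_lit 0) (nat_lit 220) (nat_lit 215) (nat_lit 135)) (PT.nd (nat_lit 78) (PT.lf (nat_lit 6308) (nat_lit 6) (nat_lit 83) (nat_lit 0) (nat_lit 221) (nat_lit 215) (nat_lit 134)) (PT.lf (nat_lit 6004) (nat_lit 6) (nat_lit 79) (nat_lit 0) (nat_lit 222) (nat_lit 215) (nat_lit 133))))) (PT.nd (nat_lit 234) (PT.nd (nat_lit 78) (PT.lf (nat_lit 5396) (nat_lit 6) (nat_lit 71) (nat_lit 5) (nat_lit 131) (nat_lit 216) (nat_lit 223)) (PT.nd (nat_lit 78) (PT.lf (nat_lit 5700) (nat_lit 6) (nat_lit 75) (nat_lit 5) (nat_lit 132) (nat_lit 216) (nat_lit 222)) (PT.lf (nat_lit 6080) (nat_lit 6) (nat_lit 80) (nat_lit 5)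 (nat_lit 133) (nat_lit 216) (nat_lit 221)))) (PT.nd (nat_lit 156) (PT.nd (nat_lit 78) (PT.lf (nat_lit 6384) (nat_lit 6) (nat_lit 84) (nat_lit 5) (nat_lit 134) (nat_lit 216) (nat_lit 220)) (PT.lf (nat_lit 6764) (nat_lit 6) (nat_lit 89) (nat_lit 5) (nat_lit 135) (nat_lit 216) (nat_lit 219))) (PT.nd (nat_lit 78) (PT.lf (nat_lit 7144) (nat_lit 6) (nat_lit 94) (nat_lit 5) (nat_lit 136) (nat_lit 216) (nat_lit 218)) (PT.lf (nat_lit 7524) (nat_lit 6) (nat_lit 99) (nat_lit 5) (nat_lit 137) (nat_lit 216) (nat_lit 217))))))) (PT.nd (nat_lit 1014) (PT.nd (nat_lit 468) (PT.nd (nat_lit 234) (PT.nd (nat_lit 78) (PT.lf (nat_lit 7904) (nat_lit 3) (nat_lit 104) (nat_lit 4) (nat_lit 138) (nat_lit 216) (nat_lit 216)) (PT.nd (nat_lit 78) (PT.lf (nat_lit 8284) (nat_lit 6) (nat_lit 109) (nat_lit 4) (nat_lit 139) (nat_lit 216) (nat_lit 215)) (PT.lf (nat_lit 8588) (nat_lit 6) (nat_lit 113) (nat_lit 4) (nat_lit 140) (nat_lit 216)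 (nat_lit 214)))) (PT.nd (nat_lit 78) (PT.lf (nat_lit 8968) (nat_lit 6) (nat_lit 118) (nat_lit 4) (nat_lit 141) (nat_lit 216) (nat_lit 213)) (PT.nd (nat_lit 78) (PT.lf (nat_lit 9348) (nat_lit 6) (nat_lit 123) (nat_lit 4) (nat_lit 142) (nat_lit 216) (nat_lit 212)) (PT.lf (nat_lit 9728) (nat_lit 6) (nat_lit 128) (nat_lit 4) (nat_lit 143) (nat_lit 216) (nat_lit 211))))) (PT.nd (nat_lit 234) (PT.nd (nat_lit 78) (PT.lf (nat_lit 10108) (nat_lit 6) (nat_lit 133) (nat_lit 4) (nat_lit 144) (nat_lit 216) (nat_lit 210)) (PT.nd (nat_lit 78) (PT.lf (nat_lit 10564) (nat_lit 6) (nat_lit 139) (nat_lit 4) (nat_lit 145) (nat_lit 216) (nat_lit 209)) (PT.lf (nat_lit 11020) (nat_lit 6) (nat_lit 145) (nat_lit 4) (nat_lit 146) (nat_lit 216) (nat_lit 208)))) (PT.nd (nat_lit 156) (PT.nd (nat_lit 78) (PT.lf (nat_lit 11476) (nat_lit 6) (nat_lit 151) (nat_lit 4) (nat_lit 147) (nat_lit 216) (nat_lit 207)) (PT.lf (nat_lit 11932) (nat_lit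 6) (nat_lit 157) (nat_lit 4) (nat_lit 148) (nat_lit 216) (nat_lit 206))) (PT.nd (nat_lit 78) (PT.lf (nat_lit 12464) (nat_lit 6) (nat_lit 164) (nat_lit 4) (nat_lit 149) (nat_lit 216) (nat_lit 205)) (PT.lf (nat_lit 12920) (nat_lit 6) (nat_lit 170) (nat_lit 4) (nat_lit 150) (nat_lit 216) (nat_lit 204)))))) (PT.nd (nat_lit 4212) (PT.nd (nat_lit 3900) (PT.nd (nat_lit 78) (PT.lf (nat_lit 13452) (nat_lit 6) (nat_lit 177) (nat_lit 4) (nat_lit 151) (nat_lit 216) (nat_lit 203)) (PT.nd (nat_lit 78) (PT.lf (nat_lit 13984) (nat_lit 6) (nat_lit 184) (nat_lit 4) (nat_lit 152) (nat_lit 216) (nat_lit 202)) (PT.lf (nat_lit 14592) (nat_lit 6) (nat_lit 192) (nat_lit 4) (nat_lit 153) (nat_lit 216) (nat_lit 201)))) (PT.nd (nat_lit 156) (PT.nd (nat_lit 78) (PT.lf (nat_lit 14592) (nat_lit 6) (nat_lit 192) (nat_lit 2) (nat_lit 201) (nat_lit 216) (nat_lit 153)) (PT.lf (nat_lit 13984) (nat_lit 6) (nat_lit 184) (nat_lit 2) (nat_lit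 202) (nat_lit 216) (nat_lit 152))) (PT.nd (nat_lit 78) (PT.lf (nat_lit 13452) (nat_lit 6) (nat_lit 177) (nat_lit 2) (nat_lit 203) (nat_lit 216) (nat_lit 151)) (PT.lf (nat_lit 12920) (nat_lit 6) (nat_lit 170) (nat_lit 2) (nat_lit 204) (nat_lit 216) (nat_lit 150))))) (PT.nd (nat_lit 234) (PT.nd (nat_lit 78) (PT.lf (nat_lit 12464) (nat_lit 6) (nat_lit 164) (nat_lit 2) (nat_lit 205) (nat_lit 216) (nat_lit 149)) (PT.nd (nat_lit 78) (PT.lf (nat_lit 11932) (nat_lit 6) (nat_lit 157) (nat_lit 2) (nat_lit 206) (nat_lit 216) (nat_lit 148)) (PT.lf (nat_lit 11476) (nat_lit 6) (nat_lit 151) (nat_lit 2) (nat_lit 207) (nat_lit 216) (nat_lit 147)))) (PT.nd (nat_lit 156) (PT.nd (nat_lit 78) (PT.lf (nat_lit 11020) (nat_lit 6) (nat_lit 145) (nat_lit 2) (nat_lit 208) (nat_lit 216) (nat_lit 146)) (PT.lf (nat_lit 10564) (nat_lit 6) (nat_lit 139) (nat_lit 2) (nat_lit 209) (nat_lit 216) (nat_lit 145))) (PT.nd (nat_lit 78) (PT.lf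 (nat_lit 10108) (nat_lit 6) (nat_lit 133) (nat_lit 2) (nat_lit 210) (nat_lit 216) (nat_lit 144)) (PT.lf (nat_lit 9728) (nat_lit 6) (nat_lit 128) (nat_lit 2) (nat_lit 211) (nat_lit 216) (nat_lit 143))))))))
noncomputable def pc57 : PT := (PT.nd (nat_lit 54054) (PT.nd (nat_lit 53040) (PT.nd (nat_lit 468) (PT.nd (nat_lit 234) (PT.nd (nat_lit 78) (PT.lf (nat_lit 9348) (nat_lit 6) (nat_lit 123) (nat_lit 2) (nat_lit 212) (nat_lit 216) (nat_lit 142)) (PT.nd (nat_lit 78) (PT.lf (nat_lit 8968) (nat_lit 6) (nat_lit 118) (nat_lit 2) (nat_lit 213) (nat_lit 216) (nat_lit 141)) (PT.lf (nat_lit 8588) (nat_lit 6) (nat_lit 113) (nat_lit 2) (nat_lit 214) (nat_lit 216) (nat_lit 140)))) (PT.nd (nat_lit 78) (PT.lf (nat_lit 8284) (nat_lit 6) (nat_lit 109) (nat_lit 2) (nat_lit 215) (nat_lit 216) (nat_lit 139)) (PT.nd (nat_lit 78) (PT.lf (nat_lit 7904) (nat_lit 3) (nat_lit 104) (nat_lit 0) (nat_lit 216) (nat_lit 216) (nat_lit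 138)) (PT.lf (nat_lit 7524) (nat_lit 6) (nat_lit 99) (nat_lit 0) (nat_lit 217) (nat_lit 216) (nat_lit 137))))) (PT.nd (nat_lit 234) (PT.nd (nat_lit 78) (PT.lf (nat_lit 7144) (nat_lit 6) (nat_lit 94) (nat_lit 0) (nat_lit 218) (nat_lit 216) (nat_lit 136)) (PT.nd (nat_lit 78) (PT.lf (nat_lit 6764) (nat_lit 6) (nat_lit 89) (nat_lit 0) (nat_lit 219) (nat_lit 216) (nat_lit 135)) (PT.lf (nat_lit 6384) (nat_lit 6) (nat_lit 84) (nat_lit 0) (nat_lit 220) (nat_lit 216) (nat_lit 134)))) (PT.nd (nat_lit 156) (PT.nd (nat_lit 78) (PT.lf (nat_lit 6080) (nat_lit 6) (nat_lit 80) (nat_lit 0) (nat_lit 221) (nat_lit 216) (nat_lit 133)) (PT.lf (nat_lit 5700) (nat_lit 6) (nat_lit 75) (nat_lit 0) (nat_lit 222) (nat_lit 216) (nat_lit 132))) (PT.nd (nat_lit 52104) (PT.lf (nat_lit 5396) (nat_lit 6) (nat_lit 71) (nat_lit 0) (nat_lit 223) (nat_lit 216) (nat_lit 131)) (PT.lf (nat_lit 5092) (nat_lit 6) (nat_lit 67) (nat_lit 5) (nat_lit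 130) (nat_lit 217) (nat_lit 223)))))) (PT.nd (nat_lit 468) (PT.nd (nat_lit 234) (PT.nd (nat_lit 78) (PT.lf (nat_lit 5472) (nat_lit 6) (nat_lit 72) (nat_lit 5) (nat_lit 131) (nat_lit 217) (nat_lit 222)) (PT.nd (nat_lit 78) (PT.lf (nat_lit 5776) (nat_lit 6) (nat_lit 76) (nat_lit 5) (nat_lit 132) (nat_lit 217) (nat_lit 221)) (PT.lf (nat_lit 6156) (nat_lit 6) (nat_lit 81) (nat_lit 5) (nat_lit 133) (nat_lit 217) (nat_lit 220)))) (PT.nd (nat_lit 78) (PT.lf (nat_lit 6460) (nat_lit 6) (nat_lit 85) (nat_lit 5) (nat_lit 134) (nat_lit 217) (nat_lit 219)) (PT.nd (nat_lit 78) (PT.lf (nat_lit 6840) (nat_lit 6) (nat_lit 90) (nat_lit 5) (nat_lit 135) (nat_lit 217) (nat_lit 218)) (PT.lf (nat_lit 7220) (nat_lit 3) (nat_lit 95) (nat_lit 4) (nat_lit 136) (nat_lit 217) (nat_lit 217))))) (PT.nd (nat_lit 234) (PT.nd (nat_lit 78) (PT.lf (nat_lit 7524) (nat_lit 6) (nat_lit 99) (nat_lit 4) (nat_lit 137) (nat_lit 217) (nat_lit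 216)) (PT.nd (nat_lit 78) (PT.lf (nat_lit 7828) (nat_lit 6) (nat_lit 103) (nat_lit 4) (nat_lit 138) (nat_lit 217) (nat_lit 215)) (PT.lf (nat_lit 8208) (nat_lit 6) (nat_lit 108) (nat_lit 4) (nat_lit 139) (nat_lit 217) (nat_lit 214)))) (PT.nd (nat_lit 156) (PT.nd (nat_lit 78) (PT.lf (nat_lit 8512) (nat_lit 6) (nat_lit 112) (nat_lit 4) (nat_lit 140) (nat_lit 217) (nat_lit 213)) (PT.lf (nat_lit 8892) (nat_lit 6) (nat_lit 117) (nat_lit 4) (nat_lit 141) (nat_lit 217) (nat_lit 212))) (PT.nd (nat_lit 78) (PT.lf (nat_lit 9272) (nat_lit 6) (nat_lit 122) (nat_lit 4) (nat_lit 142) (nat_lit 217) (nat_lit 211)) (PT.lf (nat_lit 9652) (nat_lit 6) (nat_lit 127) (nat_lit 4) (nat_lit 143) (nat_lit 217) (nat_lit 210))))))) (PT.nd (nat_lit 5226) (PT.nd (nat_lit 4680) (PT.nd (nat_lit 234) (PT.nd (nat_lit 78) (PT.lf (nat_lit 10032) (nat_lit 6) (nat_lit 132) (nat_lit 4) (nat_lit 144) (nat_lit 217) (nat_lit 209)) (PT.nd (nat_lit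 78) (PT.lf (nat_lit 10488) (nat_lit 6) (nat_lit 138) (nat_lit 4) (nat_lit 145) (nat_lit 217) (nat_lit 208)) (PT.lf (nat_lit 10944) (nat_lit 6) (nat_lit 144) (nat_lit 4) (nat_lit 146) (nat_lit 217) (nat_lit 207)))) (PT.nd (nat_lit 78) (PT.lf (nat_lit 11400) (nat_lit 6) (nat_lit 150) (nat_lit 4) (nat_lit 147) (nat_lit 217) (nat_lit 206)) (PT.nd (nat_lit 78) (PT.lf (nat_lit 11856) (nat_lit 6) (nat_lit 156) (nat_lit 4) (nat_lit 148) (nat_lit 217) (nat_lit 205)) (PT.lf (nat_lit 12388) (nat_lit 6) (nat_lit 163) (nat_lit 4) (nat_lit 149) (nat_lit 217) (nat_lit 204))))) (PT.nd (nat_lit 234) (PT.nd (nat_lit 78) (PT.lf (nat_lit 12388) (nat_lit 6) (nat_lit 163) (nat_lit 2) (nat_lit 204) (nat_lit 217) (nat_lit 149)) (PT.nd (nat_lit 78) (PT.lf (nat_lit 11856) (nat_lit 6) (nat_lit 156) (nat_lit 2) (nat_lit 205) (nat_lit 217) (nat_lit 148)) (PT.lf (nat_lit 11400) (nat_lit 6) (nat_lit 150) (nat_lit 2) (nat_lit 206) (nat_lit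 217) (nat_lit 147)))) (PT.nd (nat_lit 156) (PT.nd (nat_lit 78) (PT.lf (nat_lit 10944) (nat_lit 6) (nat_lit 144) (nat_lit 2) (nat_lit 207) (nat_lit 217) (nat_lit 146)) (PT.lf (nat_lit 10488) (nat_lit 6) (nat_lit 138) (nat_lit 2) (nat_lit 208) (nat_lit 217) (nat_lit 145))) (PT.nd (nat_lit 78) (PT.lf (nat_lit 10032) (nat_lit 6) (nat_lit 132) (nat_lit 2) (nat_lit 209) (nat_lit 217) (nat_lit 144)) (PT.lf (nat_lit 9652) (nat_lit 6) (nat_lit 127) (nat_lit 2) (nat_lit 210) (nat_lit 217) (nat_lit 143)))))) (PT.nd (nat_lit 546) (PT.nd (nat_lit 234) (PT.nd (nat_lit 78) (PT.lf (nat_lit 9272) (nat_lit 6) (nat_lit 122) (nat_lit 2) (nat_lit 211) (nat_lit 217) (nat_lit 142)) (PT.nd (nat_lit 78) (PT.lf (nat_lit 8892) (nat_lit 6) (nat_lit 117) (nat_lit 2) (nat_lit 212) (nat_lit 217) (nat_lit 141)) (PT.lf (nat_lit 8512) (nat_lit 6) (nat_lit 112) (nat_lit 2) (nat_lit 213) (nat_lit 217) (nat_lit 140)))) (PT.nd (nat_lit 156)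 (PT.nd (nat_lit 78) (PT.lf (nat_lit 8208) (nat_lit 6) (nat_lit 108) (nat_lit 2) (nat_lit 214) (nat_lit 217) (nat_lit 139)) (PT.lf (nat_lit 7828) (nat_lit 6) (nat_lit 103) (nat_lit 2) (nat_lit 215) (nat_lit 217) (nat_lit 138))) (PT.nd (nat_lit 78) (PT.lf (nat_lit 7524) (nat_lit 6) (nat_lit 99) (nat_lit 2) (nat_lit 216) (nat_lit 217) (nat_lit 137)) (PT.lf (nat_lit 7220) (nat_lit 3) (nat_lit 95) (nat_lit 0) (nat_lit 217) (nat_lit 217) (nat_lit 136))))) (PT.nd (nat_lit 234) (PT.nd (nat_lit 78) (PT.lf (nat_lit 6840) (nat_lit 6) (nat_lit 90) (nat_lit 0) (nat_lit 218) (nat_lit 217) (nat_lit 135)) (PT.nd (nat_lit 78) (PT.lf (nat_lit 6460) (nat_lit 6) (nat_lit 85) (nat_lit 0) (nat_lit 219) (nat_lit 217) (nat_lit 134)) (PT.lf (nat_lit 6156) (nat_lit 6) (nat_lit 81) (nat_lit 0) (nat_lit 220) (nat_lit 217) (nat_lit 133)))) (PT.nd (nat_lit 156) (PT.nd (nat_lit 78) (PT.lf (nat_lit 5776) (nat_lit 6) (nat_lit 76) (nat_lit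 0) (nat_lit 221) (nat_lit 217) (nat_lit 132)) (PT.lf (nat_lit 5472) (nat_lit 6) (nat_lit 72) (nat_lit 0) (nat_lit 222) (nat_lit 217) (nat_lit 131))) (PT.nd (nat_lit 51948) (PT.lf (nat_lit 5092) (nat_lit 6) (nat_lit 67) (nat_lit 0) (nat_lit 223) (nat_lit 217) (nat_lit 130)) (PT.lf (nat_lit 4560) (nat_lit 6) (nat_lit 60) (nat_lit 5) (nat_lit 128) (nat_lit 218) (nat_lit 224))))))))
noncomputable def pc58 : PT := (PT.nd (nat_lit 6786) (PT.nd (nat_lit 1014) (PT.nd (nat_lit 468) (PT.nd (nat_lit 234) (PT.nd (nat_lit 78) (PT.lf (nat_lit 4864) (nat_lit 6) (nat_lit 64) (nat_lit 5) (nat_lit 129) (nat_lit 218) (nat_lit 223)) (PT.nd (nat_lit 78) (PT.lf (nat_lit 5168) (nat_lit 6) (nat_lit 68) (nat_lit 5) (nat_lit 130) (nat_lit 218) (nat_lit 222)) (PT.lf (nat_lit 5548) (nat_lit 6) (nat_lit 73) (nat_lit 5) (nat_lit 131) (nat_lit 218) (nat_lit 221)))) (PT.nd (nat_lit 78) (PT.lf (nat_lit 5852) (nat_lit 6) (nat_lit 77)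 (nat_lit 5) (nat_lit 132) (nat_lit 218) (nat_lit 220)) (PT.nd (nat_lit 78) (PT.lf (nat_lit 6232) (nat_lit 6) (nat_lit 82) (nat_lit 5) (nat_lit 133) (nat_lit 218) (nat_lit 219)) (PT.lf (nat_lit 6536) (nat_lit 3) (nat_lit 86) (nat_lit 4) (nat_lit 134) (nat_lit 218) (nat_lit 218))))) (PT.nd (nat_lit 234) (PT.nd (nat_lit 78) (PT.lf (nat_lit 6840) (nat_lit 6) (nat_lit 90) (nat_lit 4) (nat_lit 135) (nat_lit 218) (nat_lit 217)) (PT.nd (nat_lit 78) (PT.lf (nat_lit 7144) (nat_lit 6) (nat_lit 94) (nat_lit 4) (nat_lit 136) (nat_lit 218) (nat_lit 216)) (PT.lf (nat_lit 7448) (nat_lit 6) (nat_lit 98) (nat_lit 4) (nat_lit 137) (nat_lit 218) (nat_lit 215)))) (PT.nd (nat_lit 156) (PT.nd (nat_lit 78) (PT.lf (nat_lit 7752) (nat_lit 6) (nat_lit 102) (nat_lit 4) (nat_lit 138) (nat_lit 218) (nat_lit 214)) (PT.lf (nat_lit 8132) (nat_lit 6) (nat_lit 107) (nat_lit 4) (nat_lit 139) (nat_lit 218) (nat_lit 213))) (PT.nd (nat_lit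 78) (PT.lf (nat_lit 8436) (nat_lit 6) (nat_lit 111) (nat_lit 4) (nat_lit 140) (nat_lit 218) (nat_lit 212)) (PT.lf (nat_lit 8816) (nat_lit 6) (nat_lit 116) (nat_lit 4) (nat_lit 141) (nat_lit 218) (nat_lit 211)))))) (PT.nd (nat_lit 5226) (PT.nd (nat_lit 234) (PT.nd (nat_lit 78) (PT.lf (nat_lit 9196) (nat_lit 6) (nat_lit 121) (nat_lit 4) (nat_lit 142) (nat_lit 218) (nat_lit 210)) (PT.nd (nat_lit 78) (PT.lf (nat_lit 9576) (nat_lit 6) (nat_lit 126) (nat_lit 4) (nat_lit 143) (nat_lit 218) (nat_lit 209)) (PT.lf (nat_lit 9956) (nat_lit 6) (nat_lit 131) (nat_lit 4) (nat_lit 144) (nat_lit 218) (nat_lit 208)))) (PT.nd (nat_lit 4836) (PT.lf (nat_lit 10412) (nat_lit 6) (nat_lit 137) (nat_lit 4) (nat_lit 145) (nat_lit 218) (nat_lit 207)) (PT.nd (nat_lit 78) (PT.lf (nat_lit 10412) (nat_lit 6) (nat_lit 137) (nat_lit 2) (nat_lit 207) (nat_lit 218) (nat_lit 145)) (PT.lf (nat_lit 9956) (nat_lit 6) (nat_lit 131) (nat_lit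 2) (nat_lit 208) (nat_lit 218) (nat_lit 144))))) (PT.nd (nat_lit 234) (PT.nd (nat_lit 78) (PT.lf (nat_lit 9576) (nat_lit 6) (nat_lit 126) (nat_lit 2) (nat_lit 209) (nat_lit 218) (nat_lit 143)) (PT.nd (nat_lit 78) (PT.lf (nat_lit 9196) (nat_lit 6) (nat_lit 121) (nat_lit 2) (nat_lit 210) (nat_lit 218) (nat_lit 142)) (PT.lf (nat_lit 8816) (nat_lit 6) (nat_lit 116) (nat_lit 2) (nat_lit 211) (nat_lit 218) (nat_lit 141)))) (PT.nd (nat_lit 156) (PT.nd (nat_lit 78) (PT.lf (nat_lit 8436) (nat_lit 6) (nat_lit 111) (nat_lit 2) (nat_lit 212) (nat_lit 218) (nat_lit 140)) (PT.lf (nat_lit 8132) (nat_lit 6) (nat_lit 107) (nat_lit 2) (nat_lit 213) (nat_lit 218) (nat_lit 139))) (PT.nd (nat_lit 78) (PT.lf (nat_lit 7752) (nat_lit 6) (nat_lit 102) (nat_lit 2) (nat_lit 214) (nat_lit 218) (nat_lit 138)) (PT.lf (nat_lit 7448) (nat_lit 6) (nat_lit 98) (nat_lit 2) (nat_lit 215) (nat_lit 218) (nat_lit 137))))))) (PT.nd (nat_lit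 52728) (PT.nd (nat_lit 468) (PT.nd (nat_lit 234) (PT.nd (nat_lit 78) (PT.lf (nat_lit 7144) (nat_lit 6) (nat_lit 94) (nat_lit 2) (nat_lit 216) (nat_lit 218) (nat_lit 136)) (PT.nd (nat_lit 78) (PT.lf (nat_lit 6840) (nat_lit 6) (nat_lit 90) (nat_lit 2) (nat_lit 217) (nat_lit 218) (nat_lit 135)) (PT.lf (nat_lit 6536) (nat_lit 3) (nat_lit 86) (nat_lit 0) (nat_lit 218) (nat_lit 218) (nat_lit 134)))) (PT.nd (nat_lit 78) (PT.lf (nat_lit 6232) (nat_lit 6) (nat_lit 82) (nat_lit 0) (nat_lit 219) (nat_lit 218) (nat_lit 133)) (PT.nd (nat_lit 78) (PT.lf (nat_lit 5852) (nat_lit 6) (nat_lit 77) (nat_lit 0) (nat_lit 220) (nat_lit 218) (nat_lit 132)) (PT.lf (nat_lit 5548) (nat_lit 6) (nat_lit 73) (nat_lit 0) (nat_lit 221) (nat_lit 218) (nat_lit 131))))) (PT.nd (nat_lit 51948) (PT.nd (nat_lit 78) (PT.lf (nat_lit 5168) (nat_lit 6) (nat_lit 68) (nat_lit 0) (nat_lit 222) (nat_lit 218) (nat_lit 130)) (PT.nd (nat_lit 78) (PT.lf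 (nat_lit 4864) (nat_lit 6) (nat_lit 64) (nat_lit 0) (nat_lit 223) (nat_lit 218) (nat_lit 129)) (PT.lf (nat_lit 4560) (nat_lit 6) (nat_lit 60) (nat_lit 0) (nat_lit 224) (nat_lit 218) (nat_lit 128)))) (PT.nd (nat_lit 156) (PT.nd (nat_lit 78) (PT.lf (nat_lit 4332) (nat_lit 6) (nat_lit 57) (nat_lit 5) (nat_lit 127) (nat_lit 219) (nat_lit 224)) (PT.lf (nat_lit 4636) (nat_lit 6) (nat_lit 61) (nat_lit 5) (nat_lit 128) (nat_lit 219) (nat_lit 223))) (PT.nd (nat_lit 78) (PT.lf (nat_lit 4940) (nat_lit 6) (nat_lit 65) (nat_lit 5) (nat_lit 129) (nat_lit 219) (nat_lit 222)) (PT.lf (nat_lit 5244) (nat_lit 6) (nat_lit 69) (nat_lit 5) (nat_lit 130) (nat_lit 219) (nat_lit 221)))))) (PT.nd (nat_lit 546) (PT.nd (nat_lit 234) (PT.nd (nat_lit 78) (PT.lf (nat_lit 5624) (nat_lit 6) (nat_lit 74) (nat_lit 5) (nat_lit 131) (nat_lit 219) (nat_lit 220)) (PT.nd (nat_lit 78) (PT.lf (nat_lit 5928) (nat_lit 3) (nat_lit 78) (nat_lit 4)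 (nat_lit 132) (nat_lit 219) (nat_lit 219)) (PT.lf (nat_lit 6232) (nat_lit 6) (nat_lit 82) (nat_lit 4) (nat_lit 133) (nat_lit 219) (nat_lit 218)))) (PT.nd (nat_lit 156) (PT.nd (nat_lit 78) (PT.lf (nat_lit 6460) (nat_lit 6) (nat_lit 85) (nat_lit 4) (nat_lit 134) (nat_lit 219) (nat_lit 217)) (PT.lf (nat_lit 6764) (nat_lit 6) (nat_lit 89) (nat_lit 4) (nat_lit 135) (nat_lit 219) (nat_lit 216))) (PT.nd (nat_lit 78) (PT.lf (nat_lit 7068) (nat_lit 6) (nat_lit 93) (nat_lit 4) (nat_lit 136) (nat_lit 219) (nat_lit 215)) (PT.lf (nat_lit 7372) (nat_lit 6) (nat_lit 97) (nat_lit 4) (nat_lit 137) (nat_lit 219) (nat_lit 214))))) (PT.nd (nat_lit 234) (PT.nd (nat_lit 78) (PT.lf (nat_lit 7676) (nat_lit 6) (nat_lit 101) (nat_lit 4) (nat_lit 138) (nat_lit 219) (nat_lit 213)) (PT.nd (nat_lit 78) (PT.lf (nat_lit 8056) (nat_lit 6) (nat_lit 106) (nat_lit 4) (nat_lit 139) (nat_lit 219) (nat_lit 212)) (PT.lf (nat_lit 8360) (nat_lit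 6) (nat_lit 110) (nat_lit 4) (nat_lit 140) (nat_lit 219) (nat_lit 211)))) (PT.nd (nat_lit 5304) (PT.nd (nat_lit 78) (PT.lf (nat_lit 8740) (nat_lit 6) (nat_lit 115) (nat_lit 4) (nat_lit 141) (nat_lit 219) (nat_lit 210)) (PT.lf (nat_lit 9120) (nat_lit 6) (nat_lit 120) (nat_lit 4) (nat_lit 142) (nat_lit 219) (nat_lit 209))) (PT.nd (nat_lit 78) (PT.lf (nat_lit 9120) (nat_lit 6) (nat_lit 120) (nat_lit 2) (nat_lit 209) (nat_lit 219) (nat_lit 142)) (PT.lf (nat_lit 8740) (nat_lit 6) (nat_lit 115) (nat_lit 2) (nat_lit 210) (nat_lit 219) (nat_lit 141))))))))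
noncomputable def pc59 : PT := (PT.nd (nat_lit 53664) (PT.nd (nat_lit 1014) (PT.nd (nat_lit 468) (PT.nd (nat_lit 234) (PT.nd (nat_lit 78) (PT.lf (nat_lit 8360) (nat_lit 6) (nat_lit 110) (nat_lit 2) (nat_lit 211) (nat_lit 219) (nat_lit 140)) (PT.nd (nat_lit 78) (PT.lf (nat_lit 8056) (nat_lit 6) (nat_lit 106) (nat_lit 2) (nat_lit 212) (nat_lit 219) (nat_lit 139)) (PT.lf (nat_lit 7676) (nat_lit 6) (nat_lit 101) (nat_lit 2) (nat_lit 213) (nat_lit 219) (nat_lit 138)))) (PT.nd (nat_lit 78) (PT.lf (nat_lit 7372) (nat_lit 6) (nat_lit 97) (nat_lit 2) (nat_lit 214) (nat_lit 219) (nat_lit 137)) (PT.nd (nat_lit 78) (PT.lf (nat_lit 7068) (nat_lit 6) (nat_lit 93) (nat_lit 2) (nat_lit 215) (nat_lit 219) (nat_lit 136)) (PT.lf (nat_lit 6764) (nat_lit 6) (nat_lit 89) (nat_lit 2) (nat_lit 216) (nat_lit 219) (nat_lit 135))))) (PT.nd (nat_lit 234) (PT.nd (nat_lit 78) (PT.lf (nat_lit 6460) (nat_lit 6) (nat_lit 85) (nat_lit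 2) (nat_lit 217) (nat_lit 219) (nat_lit 134)) (PT.nd (nat_lit 78) (PT.lf (nat_lit 6232) (nat_lit 6) (nat_lit 82) (nat_lit 2) (nat_lit 218) (nat_lit 219) (nat_lit 133)) (PT.lf (nat_lit 5928) (nat_lit 3) (nat_lit 78) (nat_lit 0) (nat_lit 219) (nat_lit 219) (nat_lit 132)))) (PT.nd (nat_lit 156) (PT.nd (nat_lit 78) (PT.lf (nat_lit 5624) (nat_lit 6) (nat_lit 74) (nat_lit 0) (nat_lit 220) (nat_lit 219) (nat_lit 131)) (PT.lf (nat_lit 5244) (nat_lit 6) (nat_lit 69) (nat_lit 0) (nat_lit 221) (nat_lit 219) (nat_lit 130))) (PT.nd (nat_lit 78) (PT.lf (nat_lit 4940) (nat_lit 6) (nat_lit 65) (nat_lit 0) (nat_lit 222) (nat_lit 219) (nat_lit 129)) (PT.lf (nat_lit 4636) (nat_lit 6) (nat_lit 61) (nat_lit 0) (nat_lit 223) (nat_lit 219) (nat_lit 128)))))) (PT.nd (nat_lit 52104) (PT.nd (nat_lit 51792) (PT.nd (nat_lit 51636) (PT.lf (nat_lit 4332) (nat_lit 6) (nat_lit 57) (nat_lit 0) (nat_lit 224) (nat_lit 219) (nat_lit 127))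 (PT.nd (nat_lit 78) (PT.lf (nat_lit 3800) (nat_lit 6) (nat_lit 50) (nat_lit 5) (nat_lit 125) (nat_lit 220) (nat_lit 225)) (PT.lf (nat_lit 4104) (nat_lit 6) (nat_lit 54) (nat_lit 5) (nat_lit 126) (nat_lit 220) (nat_lit 224)))) (PT.nd (nat_lit 156) (PT.nd (nat_lit 78) (PT.lf (nat_lit 4408) (nat_lit 6) (nat_lit 58) (nat_lit 5) (nat_lit 127) (nat_lit 220) (nat_lit 223)) (PT.lf (nat_lit 4712) (nat_lit 6) (nat_lit 62) (nat_lit 5) (nat_lit 128) (nat_lit 220) (nat_lit 222))) (PT.nd (nat_lit 78) (PT.lf (nat_lit 5016) (nat_lit 6) (nat_lit 66) (nat_lit 5) (nat_lit 129) (nat_lit 220) (nat_lit 221)) (PT.lf (nat_lit 5320) (nat_lit 3) (nat_lit 70) (nat_lit 4) (nat_lit 130) (nat_lit 220) (nat_lit 220))))) (PT.nd (nat_lit 234) (PT.nd (nat_lit 78) (PT.lf (nat_lit 5624) (nat_lit 6) (nat_lit 74) (nat_lit 4) (nat_lit 131) (nat_lit 220) (nat_lit 219)) (PT.nd (nat_lit 78) (PT.lf (nat_lit 5852) (nat_lit 6) (nat_lit 77) (nat_lit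 4) (nat_lit 132) (nat_lit 220) (nat_lit 218)) (PT.lf (nat_lit 6156) (nat_lit 6) (nat_lit 81) (nat_lit 4) (nat_lit 133) (nat_lit 220) (nat_lit 217)))) (PT.nd (nat_lit 156) (PT.nd (nat_lit 78) (PT.lf (nat_lit 6384) (nat_lit 6) (nat_lit 84) (nat_lit 4) (nat_lit 134) (nat_lit 220) (nat_lit 216)) (PT.lf (nat_lit 6688) (nat_lit 6) (nat_lit 88) (nat_lit 4) (nat_lit 135) (nat_lit 220) (nat_lit 215))) (PT.nd (nat_lit 78) (PT.lf (nat_lit 6992) (nat_lit 6) (nat_lit 92) (nat_lit 4) (nat_lit 136) (nat_lit 220) (nat_lit 214)) (PT.lf (nat_lit 7296) (nat_lit 6) (nat_lit 96) (nat_lit 4) (nat_lit 137) (nat_lit 220) (nat_lit 213))))))) (PT.nd (nat_lit 6552) (PT.nd (nat_lit 6006) (PT.nd (nat_lit 5772) (PT.nd (nat_lit 78) (PT.lf (nat_lit 7600) (nat_lit 6) (nat_lit 100) (nat_lit 4) (nat_lit 138) (nat_lit 220) (nat_lit 212)) (PT.nd (nat_lit 5616) (PT.lf (nat_lit 7980) (nat_lit 6) (nat_lit 105) (nat_lit 4) (nat_lit 139) (nat_lit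 220) (nat_lit 211)) (PT.lf (nat_lit 7980) (nat_lit 6) (nat_lit 105) (nat_lit 2) (nat_lit 211) (nat_lit 220) (nat_lit 139)))) (PT.nd (nat_lit 78) (PT.lf (nat_lit 7600) (nat_lit 6) (nat_lit 100) (nat_lit 2) (nat_lit 212) (nat_lit 220) (nat_lit 138)) (PT.nd (nat_lit 78) (PT.lf (nat_lit 7296) (nat_lit 6) (nat_lit 96) (nat_lit 2) (nat_lit 213) (nat_lit 220) (nat_lit 137)) (PT.lf (nat_lit 6992) (nat_lit 6) (nat_lit 92) (nat_lit 2) (nat_lit 214) (nat_lit 220) (nat_lit 136))))) (PT.nd (nat_lit 234) (PT.nd (nat_lit 78) (PT.lf (nat_lit 6688) (nat_lit 6) (nat_lit 88) (nat_lit 2) (nat_lit 215) (nat_lit 220) (nat_lit 135)) (PT.nd (nat_lit 78) (PT.lf (nat_lit 6384) (nat_lit 6) (nat_lit 84) (nat_lit 2) (nat_lit 216) (nat_lit 220) (nat_lit 134)) (PT.lf (nat_lit 6156) (nat_lit 6) (nat_lit 81) (nat_lit 2) (nat_lit 217) (nat_lit 220) (nat_lit 133)))) (PT.nd (nat_lit 156) (PT.nd (nat_lit 78) (PT.lf (nat_lit 5852) (nat_lit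 6) (nat_lit 77) (nat_lit 2) (nat_lit 218) (nat_lit 220) (nat_lit 132)) (PT.lf (nat_lit 5624) (nat_lit 6) (nat_lit 74) (nat_lit 2) (nat_lit 219) (nat_lit 220) (nat_lit 131))) (PT.nd (nat_lit 78) (PT.lf (nat_lit 5320) (nat_lit 3) (nat_lit 70) (nat_lit 0) (nat_lit 220) (nat_lit 220) (nat_lit 130)) (PT.lf (nat_lit 5016) (nat_lit 6) (nat_lit 66) (nat_lit 0) (nat_lit 221) (nat_lit 220) (nat_lit 129)))))) (PT.nd (nat_lit 51870) (PT.nd (nat_lit 234) (PT.nd (nat_lit 78) (PT.lf (nat_lit 4712) (nat_lit 6) (nat_lit 62) (nat_lit 0) (nat_lit 222) (nat_lit 220) (nat_lit 128)) (PT.nd (nat_lit 78) (PT.lf (nat_lit 4408) (nat_lit 6) (nat_lit 58) (nat_lit 0) (nat_lit 223) (nat_lit 220) (nat_lit 127)) (PT.lf (nat_lit 4104) (nat_lit 6) (nat_lit 54) (nat_lit 0) (nat_lit 224) (nat_lit 220) (nat_lit 126)))) (PT.nd (nat_lit 51480) (PT.nd (nat_lit 51402) (PT.lf (nat_lit 3800) (nat_lit 6) (nat_lit 50) (nat_lit 0) (nat_lit 225) (nat_lit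 220) (nat_lit 125)) (PT.lf (nat_lit 3344) (nat_lit 6) (nat_lit 44) (nat_lit 5) (nat_lit 123) (nat_lit 221) (nat_lit 226))) (PT.nd (nat_lit 78) (PT.lf (nat_lit 3572) (nat_lit 6) (nat_lit 47) (nat_lit 5) (nat_lit 124) (nat_lit 221) (nat_lit 225)) (PT.lf (nat_lit 3876) (nat_lit 6) (nat_lit 51) (nat_lit 5) (nat_lit 125) (nat_lit 221) (nat_lit 224))))) (PT.nd (nat_lit 234) (PT.nd (nat_lit 78) (PT.lf (nat_lit 4180) (nat_lit 6) (nat_lit 55) (nat_lit 5) (nat_lit 126) (nat_lit 221) (nat_lit 223)) (PT.nd (nat_lit 78) (PT.lf (nat_lit 4484) (nat_lit 6) (nat_lit 59) (nat_lit 5) (nat_lit 127) (nat_lit 221) (nat_lit 222)) (PT.lf (nat_lit 4788) (nat_lit 3) (nat_lit 63) (nat_lit 4) (nat_lit 128) (nat_lit 221) (nat_lit 221)))) (PT.nd (nat_lit 156) (PT.nd (nat_lit 78) (PT.lf (nat_lit 5016) (nat_lit 6) (nat_lit 66) (nat_lit 4) (nat_lit 129) (nat_lit 221) (nat_lit 220)) (PT.lf (nat_lit 5244) (nat_lit 6) (nat_lit 69) (nat_lit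 4) (nat_lit 130) (nat_lit 221) (nat_lit 219))) (PT.nd (nat_lit 78) (PT.lf (nat_lit 5548) (nat_lit 6) (nat_lit 73) (nat_lit 4) (nat_lit 131) (nat_lit 221) (nat_lit 218)) (PT.lf (nat_lit 5776) (nat_lit 6) (nat_lit 76) (nat_lit 4) (nat_lit 132) (nat_lit 221) (nat_lit 217))))))))
noncomputable def pc60 : PT := (PT.nd (nat_lit 59124) (PT.nd (nat_lit 6942) (PT.nd (nat_lit 6396) (PT.nd (nat_lit 234) (PT.nd (nat_lit 78) (PT.lf (nat_lit 6080) (nat_lit 6) (nat_lit 80) (nat_lit 4) (nat_lit 133) (nat_lit 221) (nat_lit 216)) (PT.nd (nat_lit 78) (PT.lf (nat_lit 6308) (nat_lit 6) (nat_lit 83) (nat_lit 4) (nat_lit 134) (nat_lit 221) (nat_lit 215)) (PT.lf (nat_lit 6612) (nat_lit 6) (nat_lit 87) (nat_lit 4) (nat_lit 135) (nat_lit 221) (nat_lit 214)))) (PT.nd (nat_lit 6006) (PT.lf (nat_lit 6916) (nat_lit 6) (nat_lit 91) (nat_lit 4) (nat_lit 136) (nat_lit 221) (nat_lit 213)) (PT.nd (nat_lit 78) (PT.lf (nat_lit 6916) (nat_lit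 6) (nat_lit 91) (nat_lit 2) (nat_lit 213) (nat_lit 221) (nat_lit 136)) (PT.lf (nat_lit 6612) (nat_lit 6) (nat_lit 87) (nat_lit 2) (nat_lit 214) (nat_lit 221) (nat_lit 135))))) (PT.nd (nat_lit 234) (PT.nd (nat_lit 78) (PT.lf (nat_lit 6308) (nat_lit 6) (nat_lit 83) (nat_lit 2) (nat_lit 215) (nat_lit 221) (nat_lit 134)) (PT.nd (nat_lit 78) (PT.lf (nat_lit 6080) (nat_lit 6) (nat_lit 80) (nat_lit 2) (nat_lit 216) (nat_lit 221) (nat_lit 133)) (PT.lf (nat_lit 5776) (nat_lit 6) (nat_lit 76) (nat_lit 2) (nat_lit 217) (nat_lit 221) (nat_lit 132)))) (PT.nd (nat_lit 156) (PT.nd (nat_lit 78) (PT.lf (nat_lit 5548) (nat_lit 6) (nat_lit 73) (nat_lit 2) (nat_lit 218) (nat_lit 221) (nat_lit 131)) (PT.lf (nat_lit 5244) (nat_lit 6) (nat_lit 69) (nat_lit 2) (nat_lit 219) (nat_lit 221) (nat_lit 130))) (PT.nd (nat_lit 78) (PT.lf (nat_lit 5016) (nat_lit 6) (nat_lit 66) (nat_lit 2) (nat_lit 220) (nat_lit 221) (nat_lit 129)) (PT.lf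 (nat_lit 4788) (nat_lit 3) (nat_lit 63) (nat_lit 0) (nat_lit 221) (nat_lit 221) (nat_lit 128)))))) (PT.nd (nat_lit 51636) (PT.nd (nat_lit 234) (PT.nd (nat_lit 78) (PT.lf (nat_lit 4484) (nat_lit 6) (nat_lit 59) (nat_lit 0) (nat_lit 222) (nat_lit 221) (nat_lit 127)) (PT.nd (nat_lit 78) (PT.lf (nat_lit 4180) (nat_lit 6) (nat_lit 55) (nat_lit 0) (nat_lit 223) (nat_lit 221) (nat_lit 126)) (PT.lf (nat_lit 3876) (nat_lit 6) (nat_lit 51) (nat_lit 0) (nat_lit 224) (nat_lit 221) (nat_lit 125)))) (PT.nd (nat_lit 78) (PT.lf (nat_lit 3572) (nat_lit 6) (nat_lit 47) (nat_lit 0) (nat_lit 225) (nat_lit 221) (nat_lit 124)) (PT.nd (nat_lit 51246) (PT.lf (nat_lit 3344) (nat_lit 6) (nat_lit 44) (nat_lit 0) (nat_lit 226) (nat_lit 221) (nat_lit 123)) (PT.lf (nat_lit 3116) (nat_lit 6) (nat_lit 41) (nat_lit 5) (nat_lit 122) (nat_lit 222) (nat_lit 226))))) (PT.nd (nat_lit 234) (PT.nd (nat_lit 78) (PT.lf (nat_lit 3420) (nat_lit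 6) (nat_lit 45) (nat_lit 5) (nat_lit 123) (nat_lit 222) (nat_lit 225)) (PT.nd (nat_lit 78) (PT.lf (nat_lit 3648) (nat_lit 6) (nat_lit 48) (nat_lit 5) (nat_lit 124) (nat_lit 222) (nat_lit 224)) (PT.lf (nat_lit 3952) (nat_lit 6) (nat_lit 52) (nat_lit 5) (nat_lit 125) (nat_lit 222) (nat_lit 223)))) (PT.nd (nat_lit 156) (PT.nd (nat_lit 78) (PT.lf (nat_lit 4256) (nat_lit 3) (nat_lit 56) (nat_lit 4) (nat_lit 126) (nat_lit 222) (nat_lit 222)) (PT.lf (nat_lit 4484) (nat_lit 6) (nat_lit 59) (nat_lit 4) (nat_lit 127) (nat_lit 222) (nat_lit 221))) (PT.nd (nat_lit 78) (PT.lf (nat_lit 4712) (nat_lit 6) (nat_lit 62) (nat_lit 4) (nat_lit 128) (nat_lit 222) (nat_lit 220)) (PT.lf (nat_lit 4940) (nat_lit 6) (nat_lit 65) (nat_lit 4) (nat_lit 129) (nat_lit 222) (nat_lit 219))))))) (PT.nd (nat_lit 7332) (PT.nd (nat_lit 6786) (PT.nd (nat_lit 234) (PT.nd (nat_lit 78) (PT.lf (nat_lit 5168) (nat_lit 6) (nat_lit 68) (nat_lit 4)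 (nat_lit 130) (nat_lit 222) (nat_lit 218)) (PT.nd (nat_lit 78) (PT.lf (nat_lit 5472) (nat_lit 6) (nat_lit 72) (nat_lit 4) (nat_lit 131) (nat_lit 222) (nat_lit 217)) (PT.lf (nat_lit 5700) (nat_lit 6) (nat_lit 75) (nat_lit 4) (nat_lit 132) (nat_lit 222) (nat_lit 216)))) (PT.nd (nat_lit 6396) (PT.lf (nat_lit 6004) (nat_lit 6) (nat_lit 79) (nat_lit 4) (nat_lit 133) (nat_lit 222) (nat_lit 215)) (PT.nd (nat_lit 78) (PT.lf (nat_lit 6004) (nat_lit 6) (nat_lit 79) (nat_lit 2) (nat_lit 215) (nat_lit 222) (nat_lit 133)) (PT.lf (nat_lit 5700) (nat_lit 6) (nat_lit 75) (nat_lit 2) (nat_lit 216) (nat_lit 222) (nat_lit 132))))) (PT.nd (nat_lit 234) (PT.nd (nat_lit 78) (PT.lf (nat_lit 5472) (nat_lit 6) (nat_lit 72) (nat_lit 2) (nat_lit 217) (nat_lit 222) (nat_lit 131)) (PT.nd (nat_lit 78) (PT.lf (nat_lit 5168) (nat_lit 6) (nat_lit 68) (nat_lit 2) (nat_lit 218) (nat_lit 222) (nat_lit 130)) (PT.lf (nat_lit 4940) (nat_lit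 6) (nat_lit 65) (nat_lit 2) (nat_lit 219) (nat_lit 222) (nat_lit 129)))) (PT.nd (nat_lit 156) (PT.nd (nat_lit 78) (PT.lf (nat_lit 4712) (nat_lit 6) (nat_lit 62) (nat_lit 2) (nat_lit 220) (nat_lit 222) (nat_lit 128)) (PT.lf (nat_lit 4484) (nat_lit 6) (nat_lit 59) (nat_lit 2) (nat_lit 221) (nat_lit 222) (nat_lit 127))) (PT.nd (nat_lit 78) (PT.lf (nat_lit 4256) (nat_lit 3) (nat_lit 56) (nat_lit 0) (nat_lit 222) (nat_lit 222) (nat_lit 126)) (PT.lf (nat_lit 3952) (nat_lit 6) (nat_lit 52) (nat_lit 0) (nat_lit 223) (nat_lit 222) (nat_lit 125)))))) (PT.nd (nat_lit 51558) (PT.nd (nat_lit 51246) (PT.nd (nat_lit 78) (PT.lf (nat_lit 3648) (nat_lit 6) (nat_lit 48) (nat_lit 0) (nat_lit 224) (nat_lit 222) (nat_lit 124)) (PT.nd (nat_lit 78) (PT.lf (nat_lit 3420) (nat_lit 6) (nat_lit 45) (nat_lit 0) (nat_lit 225) (nat_lit 222) (nat_lit 123)) (PT.lf (nat_lit 3116) (nat_lit 6) (nat_lit 41) (nat_lit 0) (nat_lit 226) (nat_lit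 222) (nat_lit 122)))) (PT.nd (nat_lit 156) (PT.nd (nat_lit 78) (PT.lf (nat_lit 2660) (nat_lit 6) (nat_lit 35) (nat_lit 5) (nat_lit 120) (nat_lit 223) (nat_lit 227)) (PT.lf (nat_lit 2964) (nat_lit 6) (nat_lit 39) (nat_lit 5) (nat_lit 121) (nat_lit 223) (nat_lit 226))) (PT.nd (nat_lit 78) (PT.lf (nat_lit 3192) (nat_lit 6) (nat_lit 42) (nat_lit 5) (nat_lit 122) (nat_lit 223) (nat_lit 225)) (PT.lf (nat_lit 3496) (nat_lit 6) (nat_lit 46) (nat_lit 5) (nat_lit 123) (nat_lit 223) (nat_lit 224))))) (PT.nd (nat_lit 234) (PT.nd (nat_lit 78) (PT.lf (nat_lit 3724) (nat_lit 3) (nat_lit 49) (nat_lit 4) (nat_lit 124) (nat_lit 223) (nat_lit 223)) (PT.nd (nat_lit 78) (PT.lf (nat_lit 3952) (nat_lit 6) (nat_lit 52) (nat_lit 4) (nat_lit 125) (nat_lit 223) (nat_lit 222)) (PT.lf (nat_lit 4180) (nat_lit 6) (nat_lit 55) (nat_lit 4) (nat_lit 126) (nat_lit 223) (nat_lit 221)))) (PT.nd (nat_lit 156) (PT.nd (nat_lit 78) (PT.lf (nat_lit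 4408) (nat_lit 6) (nat_lit 58) (nat_lit 4) (nat_lit 127) (nat_lit 223) (nat_lit 220)) (PT.lf (nat_lit 4636) (nat_lit 6) (nat_lit 61) (nat_lit 4) (nat_lit 128) (nat_lit 223) (nat_lit 219))) (PT.nd (nat_lit 78) (PT.lf (nat_lit 4864) (nat_lit 6) (nat_lit 64) (nat_lit 4) (nat_lit 129) (nat_lit 223) (nat_lit 218)) (PT.lf (nat_lit 5092) (nat_lit 6) (nat_lit 67) (nat_lit 4) (nat_lit 130) (nat_lit 223) (nat_lit 217))))))))
noncomputable def pc61 : PT := (PT.nd (nat_lit 66378) (PT.nd (nat_lit 58344) (PT.nd (nat_lit 7020) (PT.nd (nat_lit 6786) (PT.nd (nat_lit 6630) (PT.lf (nat_lit 5396) (nat_lit 6) (nat_lit 71) (nat_lit 4) (nat_lit 131) (nat_lit 223) (nat_lit 216)) (PT.nd (nat_lit 78) (PT.lf (nat_lit 5396) (nat_lit 6) (nat_lit 71) (nat_lit 2) (nat_lit 216) (nat_lit 223) (nat_lit 131)) (PT.lf (nat_lit 5092) (nat_lit 6) (nat_lit 67) (nat_lit 2) (nat_lit 217) (nat_lit 223) (nat_lit 130)))) (PT.nd (nat_lit 78) (PT.lf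 (nat_lit 4864) (nat_lit 6) (nat_lit 64) (nat_lit 2) (nat_lit 218) (nat_lit 223) (nat_lit 129)) (PT.nd (nat_lit 78) (PT.lf (nat_lit 4636) (nat_lit 6) (nat_lit 61) (nat_lit 2) (nat_lit 219) (nat_lit 223) (nat_lit 128)) (PT.lf (nat_lit 4408) (nat_lit 6) (nat_lit 58) (nat_lit 2) (nat_lit 220) (nat_lit 223) (nat_lit 127))))) (PT.nd (nat_lit 234) (PT.nd (nat_lit 78) (PT.lf (nat_lit 4180) (nat_lit 6) (nat_lit 55) (nat_lit 2) (nat_lit 221) (nat_lit 223) (nat_lit 126)) (PT.nd (nat_lit 78) (PT.lf (nat_lit 3952) (nat_lit 6) (nat_lit 52) (nat_lit 2) (nat_lit 222) (nat_lit 223) (nat_lit 125)) (PT.lf (nat_lit 3724) (nat_lit 3) (nat_lit 49) (nat_lit 0) (nat_lit 223) (nat_lit 223) (nat_lit 124)))) (PT.nd (nat_lit 156) (PT.nd (nat_lit 78) (PT.lf (nat_lit 3496) (nat_lit 6) (nat_lit 46) (nat_lit 0) (nat_lit 224) (nat_lit 223) (nat_lit 123)) (PT.lf (nat_lit 3192) (nat_lit 6) (nat_lit 42) (nat_lit 0) (nat_lit 225) (nat_lit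 223) (nat_lit 122))) (PT.nd (nat_lit 78) (PT.lf (nat_lit 2964) (nat_lit 6) (nat_lit 39) (nat_lit 0) (nat_lit 226) (nat_lit 223) (nat_lit 121)) (PT.lf (nat_lit 2660) (nat_lit 6) (nat_lit 35) (nat_lit 0) (nat_lit 227) (nat_lit 223) (nat_lit 120)))))) (PT.nd (nat_lit 546) (PT.nd (nat_lit 234) (PT.nd (nat_lit 78) (PT.lf (nat_lit 2280) (nat_lit 6) (nat_lit 30) (nat_lit 5) (nat_lit 118) (nat_lit 224) (nat_lit 228)) (PT.nd (nat_lit 78) (PT.lf (nat_lit 2508) (nat_lit 6) (nat_lit 33) (nat_lit 5) (nat_lit 119) (nat_lit 224) (nat_lit 227)) (PT.lf (nat_lit 2736) (nat_lit 6) (nat_lit 36) (nat_lit 5) (nat_lit 120) (nat_lit 224) (nat_lit 226)))) (PT.nd (nat_lit 156) (PT.nd (nat_lit 78) (PT.lf (nat_lit 3040) (nat_lit 6) (nat_lit 40) (nat_lit 5) (nat_lit 121) (nat_lit 224) (nat_lit 225)) (PT.lf (nat_lit 3268) (nat_lit 3) (nat_lit 43) (nat_lit 4) (nat_lit 122) (nat_lit 224) (nat_lit 224))) (PT.nd (nat_lit 78) (PT.lf (nat_lit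 3496) (nat_lit 6) (nat_lit 46) (nat_lit 4) (nat_lit 123) (nat_lit 224) (nat_lit 223)) (PT.lf (nat_lit 3648) (nat_lit 6) (nat_lit 48) (nat_lit 4) (nat_lit 124) (nat_lit 224) (nat_lit 222))))) (PT.nd (nat_lit 234) (PT.nd (nat_lit 78) (PT.lf (nat_lit 3876) (nat_lit 6) (nat_lit 51) (nat_lit 4) (nat_lit 125) (nat_lit 224) (nat_lit 221)) (PT.nd (nat_lit 78) (PT.lf (nat_lit 4104) (nat_lit 6) (nat_lit 54) (nat_lit 4) (nat_lit 126) (nat_lit 224) (nat_lit 220)) (PT.lf (nat_lit 4332) (nat_lit 6) (nat_lit 57) (nat_lit 4) (nat_lit 127) (nat_lit 224) (nat_lit 219)))) (PT.nd (nat_lit 7098) (PT.nd (nat_lit 7020) (PT.lf (nat_lit 4560) (nat_lit 6) (nat_lit 60) (nat_lit 4) (nat_lit 128) (nat_lit 224) (nat_lit 218)) (PT.lf (nat_lit 4560) (nat_lit 6) (nat_lit 60) (nat_lit 2) (nat_lit 218) (nat_lit 224) (nat_lit 128))) (PT.nd (nat_lit 78) (PT.lf (nat_lit 4332) (nat_lit 6) (nat_lit 57) (nat_lit 2) (nat_lit 219) (nat_lit 224)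 (nat_lit 127)) (PT.lf (nat_lit 4104) (nat_lit 6) (nat_lit 54) (nat_lit 2) (nat_lit 220) (nat_lit 224) (nat_lit 126))))))) (PT.nd (nat_lit 51558) (PT.nd (nat_lit 468) (PT.nd (nat_lit 234) (PT.nd (nat_lit 78) (PT.lf (nat_lit 3876) (nat_lit 6) (nat_lit 51) (nat_lit 2) (nat_lit 221) (nat_lit 224) (nat_lit 125)) (PT.nd (nat_lit 78) (PT.lf (nat_lit 3648) (nat_lit 6) (nat_lit 48) (nat_lit 2) (nat_lit 222) (nat_lit 224) (nat_lit 124)) (PT.lf (nat_lit 3496) (nat_lit 6) (nat_lit 46) (nat_lit 2) (nat_lit 223) (nat_lit 224) (nat_lit 123)))) (PT.nd (nat_lit 78) (PT.lf (nat_lit 3268) (nat_lit 3) (nat_lit 43) (nat_lit 0) (nat_lit 224) (nat_lit 224) (nat_lit 122)) (PT.nd (nat_lit 78) (PT.lf (nat_lit 3040) (nat_lit 6) (nat_lit 40) (nat_lit 0) (nat_lit 225) (nat_lit 224) (nat_lit 121)) (PT.lf (nat_lit 2736) (nat_lit 6) (nat_lit 36) (nat_lit 0) (nat_lit 226) (nat_lit 224) (nat_lit 120))))) (PT.nd (nat_lit 50778) (PT.nd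 (nat_lit 78) (PT.lf (nat_lit 2508) (nat_lit 6) (nat_lit 33) (nat_lit 0) (nat_lit 227) (nat_lit 224) (nat_lit 119)) (PT.nd (nat_lit 50622) (PT.lf (nat_lit 2280) (nat_lit 6) (nat_lit 30) (nat_lit 0) (nat_lit 228) (nat_lit 224) (nat_lit 118)) (PT.lf (nat_lit 1900) (nat_lit 6) (nat_lit 25) (nat_lit 5) (nat_lit 116) (nat_lit 225) (nat_lit 229)))) (PT.nd (nat_lit 156) (PT.nd (nat_lit 78) (PT.lf (nat_lit 2128) (nat_lit 6) (nat_lit 28) (nat_lit 5) (nat_lit 117) (nat_lit 225) (nat_lit 228)) (PT.lf (nat_lit 2356) (nat_lit 6) (nat_lit 31) (nat_lit 5) (nat_lit 118) (nat_lit 225) (nat_lit 227))) (PT.nd (nat_lit 78) (PT.lf (nat_lit 2584) (nat_lit 6) (nat_lit 34) (nat_lit 5) (nat_lit 119) (nat_lit 225) (nat_lit 226)) (PT.lf (nat_lit 2812) (nat_lit 3) (nat_lit 37) (nat_lit 4) (nat_lit 120) (nat_lit 225) (nat_lit 225)))))) (PT.nd (nat_lit 7878) (PT.nd (nat_lit 234) (PT.nd (nat_lit 78) (PT.lf (nat_lit 3040) (nat_lit 6)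 (nat_lit 40) (nat_lit 4) (nat_lit 121) (nat_lit 225) (nat_lit 224)) (PT.nd (nat_lit 78) (PT.lf (nat_lit 3192) (nat_lit 6) (nat_lit 42) (nat_lit 4) (nat_lit 122) (nat_lit 225) (nat_lit 223)) (PT.lf (nat_lit 3420) (nat_lit 6) (nat_lit 45) (nat_lit 4) (nat_lit 123) (nat_lit 225) (nat_lit 222)))) (PT.nd (nat_lit 7488) (PT.nd (nat_lit 78) (PT.lf (nat_lit 3572) (nat_lit 6) (nat_lit 47) (nat_lit 4) (nat_lit 124) (nat_lit 225) (nat_lit 221)) (PT.lf (nat_lit 3800) (nat_lit 6) (nat_lit 50) (nat_lit 4) (nat_lit 125) (nat_lit 225) (nat_lit 220))) (PT.nd (nat_lit 78) (PT.lf (nat_lit 3800) (nat_lit 6) (nat_lit 50) (nat_lit 2) (nat_lit 220) (nat_lit 225) (nat_lit 125)) (PT.lf (nat_lit 3572) (nat_lit 6) (nat_lit 47) (nat_lit 2) (nat_lit 221) (nat_lit 225) (nat_lit 124))))) (PT.nd (nat_lit 234) (PT.nd (nat_lit 78) (PT.lf (nat_lit 3420) (nat_lit 6) (nat_lit 45) (nat_lit 2) (nat_lit 222) (nat_lit 225) (nat_lit 123)) (PT.nd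 (nat_lit 78) (PT.lf (nat_lit 3192) (nat_lit 6) (nat_lit 42) (nat_lit 2) (nat_lit 223) (nat_lit 225) (nat_lit 122)) (PT.lf (nat_lit 3040) (nat_lit 6) (nat_lit 40) (nat_lit 2) (nat_lit 224) (nat_lit 225) (nat_lit 121)))) (PT.nd (nat_lit 156) (PT.nd (nat_lit 78) (PT.lf (nat_lit 2812) (nat_lit 3) (nat_lit 37) (nat_lit 0) (nat_lit 225) (nat_lit 225) (nat_lit 120)) (PT.lf (nat_lit 2584) (nat_lit 6) (nat_lit 34) (nat_lit 0) (nat_lit 226) (nat_lit 225) (nat_lit 119))) (PT.nd (nat_lit 78) (PT.lf (nat_lit 2356) (nat_lit 6) (nat_lit 31) (nat_lit 0) (nat_lit 227) (nat_lit 225) (nat_lit 118)) (PT.lf (nat_lit 2128) (nat_lit 6) (nat_lit 28) (nat_lit 0) (nat_lit 228) (nat_lit 225) (nat_lit 117))))))))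
noncomputable def pc62 : PT := (PT.nd (nat_lit 110214) (PT.nd (nat_lit 58968) (PT.nd (nat_lit 50856) (PT.nd (nat_lit 50622) (PT.nd (nat_lit 50466) (PT.lf (nat_lit 1900) (nat_lit 6) (nat_lit 25) (nat_lit 0) (nat_lit 229) (nat_lit 225) (nat_lit 116)) (PT.nd (nat_lit 78) (PT.lf (nat_lit 1748) (nat_lit 6) (nat_lit 23) (nat_lit 5) (nat_lit 115) (nat_lit 226) (nat_lit 229)) (PT.lf (nat_lit 1976) (nat_lit 6) (nat_lit 26) (nat_lit 5) (nat_lit 116) (nat_lit 226) (nat_lit 228)))) (PT.nd (nat_lit 78) (PT.lf (nat_lit 2204) (nat_lit 6) (nat_lit 29) (nat_lit 5) (nat_lit 117) (nat_lit 226) (nat_lit 227)) (PT.nd (nat_lit 78) (PT.lf (nat_lit 2432) (nat_lit 3) (nat_lit 32) (nat_lit 4) (nat_lit 118) (nat_lit 226) (nat_lit 226)) (PT.lf (nat_lit 2584) (nat_lit 6) (nat_lit 34) (nat_lit 4) (nat_lit 119) (nat_lit 226) (nat_lit 225))))) (PT.nd (nat_lit 234) (PT.nd (nat_lit 78) (PT.lf (nat_lit 2736) (nat_lit 6) (nat_lit 36) (nat_lit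 4) (nat_lit 120) (nat_lit 226) (nat_lit 224)) (PT.nd (nat_lit 78) (PT.lf (nat_lit 2964) (nat_lit 6) (nat_lit 39) (nat_lit 4) (nat_lit 121) (nat_lit 226) (nat_lit 223)) (PT.lf (nat_lit 3116) (nat_lit 6) (nat_lit 41) (nat_lit 4) (nat_lit 122) (nat_lit 226) (nat_lit 222)))) (PT.nd (nat_lit 7722) (PT.nd (nat_lit 7644) (PT.lf (nat_lit 3344) (nat_lit 6) (nat_lit 44) (nat_lit 4) (nat_lit 123) (nat_lit 226) (nat_lit 221)) (PT.lf (nat_lit 3344) (nat_lit 6) (nat_lit 44) (nat_lit 2) (nat_lit 221) (nat_lit 226) (nat_lit 123))) (PT.nd (nat_lit 78) (PT.lf (nat_lit 3116) (nat_lit 6) (nat_lit 41) (nat_lit 2) (nat_lit 222) (nat_lit 226) (nat_lit 122)) (PT.lf (nat_lit 2964) (nat_lit 6) (nat_lit 39) (nat_lit 2) (nat_lit 223) (nat_lit 226) (nat_lit 121)))))) (PT.nd (nat_lit 50700) (PT.nd (nat_lit 234) (PT.nd (nat_lit 78) (PT.lf (nat_lit 2736) (nat_lit 6) (nat_lit 36) (nat_lit 2) (nat_lit 224) (nat_lit 226) (nat_lit 120))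 (PT.nd (nat_lit 78) (PT.lf (nat_lit 2584) (nat_lit 6) (nat_lit 34) (nat_lit 2) (nat_lit 225) (nat_lit 226) (nat_lit 119)) (PT.lf (nat_lit 2432) (nat_lit 3) (nat_lit 32) (nat_lit 0) (nat_lit 226) (nat_lit 226) (nat_lit 118)))) (PT.nd (nat_lit 78) (PT.lf (nat_lit 2204) (nat_lit 6) (nat_lit 29) (nat_lit 0) (nat_lit 227) (nat_lit 226) (nat_lit 117)) (PT.nd (nat_lit 78) (PT.lf (nat_lit 1976) (nat_lit 6) (nat_lit 26) (nat_lit 0) (nat_lit 228) (nat_lit 226) (nat_lit 116)) (PT.lf (nat_lit 1748) (nat_lit 6) (nat_lit 23) (nat_lit 0) (nat_lit 229) (nat_lit 226) (nat_lit 115))))) (PT.nd (nat_lit 234) (PT.nd (nat_lit 78) (PT.lf (nat_lit 1444) (nat_lit 6) (nat_lit 19) (nat_lit 5) (nat_lit 113) (nat_lit 227) (nat_lit 230)) (PT.nd (nat_lit 78) (PT.lf (nat_lit 1596) (nat_lit 6) (nat_lit 21) (nat_lit 5) (nat_lit 114) (nat_lit 227) (nat_lit 229)) (PT.lf (nat_lit 1824) (nat_lit 6) (nat_lit 24) (nat_lit 5) (nat_lit 115) (nat_lit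 227) (nat_lit 228)))) (PT.nd (nat_lit 156) (PT.nd (nat_lit 78) (PT.lf (nat_lit 2052) (nat_lit 3) (nat_lit 27) (nat_lit 4) (nat_lit 116) (nat_lit 227) (nat_lit 227)) (PT.lf (nat_lit 2204) (nat_lit 6) (nat_lit 29) (nat_lit 4) (nat_lit 117) (nat_lit 227) (nat_lit 226))) (PT.nd (nat_lit 78) (PT.lf (nat_lit 2356) (nat_lit 6) (nat_lit 31) (nat_lit 4) (nat_lit 118) (nat_lit 227) (nat_lit 225)) (PT.lf (nat_lit 2508) (nat_lit 6) (nat_lit 33) (nat_lit 4) (nat_lit 119) (nat_lit 227) (nat_lit 224))))))) (PT.nd (nat_lit 58968) (PT.nd (nat_lit 8424) (PT.nd (nat_lit 8190) (PT.nd (nat_lit 8034) (PT.lf (nat_lit 2660) (nat_lit 6) (nat_lit 35) (nat_lit 4) (nat_lit 120) (nat_lit 227) (nat_lit 223)) (PT.nd (nat_lit 78) (PT.lf (nat_lit 2660) (nat_lit 6) (nat_lit 35) (nat_lit 2) (nat_lit 223) (nat_lit 227) (nat_lit 120)) (PT.lf (nat_lit 2508) (nat_lit 6) (nat_lit 33) (nat_lit 2) (nat_lit 224) (nat_lit 227) (nat_lit 119))))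 (PT.nd (nat_lit 78) (PT.lf (nat_lit 2356) (nat_lit 6) (nat_lit 31) (nat_lit 2) (nat_lit 225) (nat_lit 227) (nat_lit 118)) (PT.nd (nat_lit 78) (PT.lf (nat_lit 2204) (nat_lit 6) (nat_lit 29) (nat_lit 2) (nat_lit 226) (nat_lit 227) (nat_lit 117)) (PT.lf (nat_lit 2052) (nat_lit 3) (nat_lit 27) (nat_lit 0) (nat_lit 227) (nat_lit 227) (nat_lit 116))))) (PT.nd (nat_lit 50232) (PT.nd (nat_lit 78) (PT.lf (nat_lit 1824) (nat_lit 6) (nat_lit 24) (nat_lit 0) (nat_lit 228) (nat_lit 227) (nat_lit 115)) (PT.nd (nat_lit 78) (PT.lf (nat_lit 1596) (nat_lit 6) (nat_lit 21) (nat_lit 0) (nat_lit 229) (nat_lit 227) (nat_lit 114)) (PT.lf (nat_lit 1444) (nat_lit 6) (nat_lit 19) (nat_lit 0) (nat_lit 230) (nat_lit 227) (nat_lit 113)))) (PT.nd (nat_lit 156) (PT.nd (nat_lit 78) (PT.lf (nat_lit 1140) (nat_lit 6) (nat_lit 15) (nat_lit 5) (nat_lit 111) (nat_lit 228) (nat_lit 231)) (PT.lf (nat_lit 1292) (nat_lit 6) (nat_lit 17) (nat_lit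 5) (nat_lit 112) (nat_lit 228) (nat_lit 230))) (PT.nd (nat_lit 78) (PT.lf (nat_lit 1520) (nat_lit 6) (nat_lit 20) (nat_lit 5) (nat_lit 113) (nat_lit 228) (nat_lit 229)) (PT.lf (nat_lit 1672) (nat_lit 3) (nat_lit 22) (nat_lit 4) (nat_lit 114) (nat_lit 228) (nat_lit 228)))))) (PT.nd (nat_lit 8736) (PT.nd (nat_lit 234) (PT.nd (nat_lit 78) (PT.lf (nat_lit 1824) (nat_lit 6) (nat_lit 24) (nat_lit 4) (nat_lit 115) (nat_lit 228) (nat_lit 227)) (PT.nd (nat_lit 78) (PT.lf (nat_lit 1976) (nat_lit 6) (nat_lit 26) (nat_lit 4) (nat_lit 116) (nat_lit 228) (nat_lit 226)) (PT.lf (nat_lit 2128) (nat_lit 6) (nat_lit 28) (nat_lit 4) (nat_lit 117) (nat_lit 228) (nat_lit 225)))) (PT.nd (nat_lit 8346) (PT.nd (nat_lit 8268) (PT.lf (nat_lit 2280) (nat_lit 6) (nat_lit 30) (nat_lit 4) (nat_lit 118) (nat_lit 228) (nat_lit 224)) (PT.lf (nat_lit 2280) (nat_lit 6) (nat_lit 30) (nat_lit 2) (nat_lit 224) (nat_lit 228) (nat_lit 118)))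 (PT.nd (nat_lit 78) (PT.lf (nat_lit 2128) (nat_lit 6) (nat_lit 28) (nat_lit 2) (nat_lit 225) (nat_lit 228) (nat_lit 117)) (PT.lf (nat_lit 1976) (nat_lit 6) (nat_lit 26) (nat_lit 2) (nat_lit 226) (nat_lit 228) (nat_lit 116))))) (PT.nd (nat_lit 234) (PT.nd (nat_lit 78) (PT.lf (nat_lit 1824) (nat_lit 6) (nat_lit 24) (nat_lit 2) (nat_lit 227) (nat_lit 228) (nat_lit 115)) (PT.nd (nat_lit 78) (PT.lf (nat_lit 1672) (nat_lit 3) (nat_lit 22) (nat_lit 0) (nat_lit 228) (nat_lit 228) (nat_lit 114)) (PT.lf (nat_lit 1520) (nat_lit 6) (nat_lit 20) (nat_lit 0) (nat_lit 229) (nat_lit 228) (nat_lit 113)))) (PT.nd (nat_lit 49998) (PT.nd (nat_lit 78) (PT.lf (nat_lit 1292) (nat_lit 6) (nat_lit 17) (nat_lit 0) (nat_lit 230) (nat_lit 228) (nat_lit 112)) (PT.lf (nat_lit 1140) (nat_lit 6) (nat_lit 15) (nat_lit 0) (nat_lit 231) (nat_lit 228) (nat_lit 111))) (PT.nd (nat_lit 78) (PT.lf (nat_lit 988) (nat_lit 6) (nat_lit 13) (nat_lit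 5) (nat_lit 110) (nat_lit 229) (nat_lit 231)) (PT.lf (nat_lit 1216) (nat_lit 6) (nat_lit 16) (nat_lit 5) (nat_lit 111) (nat_lit 229) (nat_lit 230))))))))
noncomputable def pc63 : PT := (PT.nd (nat_lit 118482) (PT.nd (nat_lit 59124) (PT.nd (nat_lit 8892) (PT.nd (nat_lit 234) (PT.nd (nat_lit 78) (PT.lf (nat_lit 1368) (nat_lit 3) (nat_lit 18) (nat_lit 4) (nat_lit 112) (nat_lit 229) (nat_lit 229)) (PT.nd (nat_lit 78) (PT.lf (nat_lit 1520) (nat_lit 6) (nat_lit 20) (nat_lit 4) (nat_lit 113) (nat_lit 229) (nat_lit 228)) (PT.lf (nat_lit 1596) (nat_lit 6) (nat_lit 21) (nat_lit 4) (nat_lit 114) (nat_lit 229) (nat_lit 227)))) (PT.nd (nat_lit 78) (PT.lf (nat_lit 1748) (nat_lit 6) (nat_lit 23) (nat_lit 4) (nat_lit 115) (nat_lit 229) (nat_lit 226)) (PT.nd (nat_lit 8502) (PT.lf (nat_lit 1900) (nat_lit 6) (nat_lit 25) (nat_lit 4) (nat_lit 116) (nat_lit 229) (nat_lit 225)) (PT.lf (nat_lit 1900) (nat_lit 6) (nat_lit 25)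 (nat_lit 2) (nat_lit 225) (nat_lit 229) (nat_lit 116))))) (PT.nd (nat_lit 234) (PT.nd (nat_lit 78) (PT.lf (nat_lit 1748) (nat_lit 6) (nat_lit 23) (nat_lit 2) (nat_lit 226) (nat_lit 229) (nat_lit 115)) (PT.nd (nat_lit 78) (PT.lf (nat_lit 1596) (nat_lit 6) (nat_lit 21) (nat_lit 2) (nat_lit 227) (nat_lit 229) (nat_lit 114)) (PT.lf (nat_lit 1520) (nat_lit 6) (nat_lit 20) (nat_lit 2) (nat_lit 228) (nat_lit 229) (nat_lit 113)))) (PT.nd (nat_lit 156) (PT.nd (nat_lit 78) (PT.lf (nat_lit 1368) (nat_lit 3) (nat_lit 18) (nat_lit 0) (nat_lit 229) (nat_lit 229) (nat_lit 112)) (PT.lf (nat_lit 1216) (nat_lit 6) (nat_lit 16) (nat_lit 0) (nat_lit 230) (nat_lit 229) (nat_lit 111))) (PT.nd (nat_lit 49764) (PT.lf (nat_lit 988) (nat_lit 6) (nat_lit 13) (nat_lit 0) (nat_lit 231) (nat_lit 229) (nat_lit 110)) (PT.lf (nat_lit 684) (nat_lit 6) (nat_lit 9) (nat_lit 5) (nat_lit 108) (nat_lit 230) (nat_lit 232)))))) (PT.nd (nat_lit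 9360) (PT.nd (nat_lit 234) (PT.nd (nat_lit 78) (PT.lf (nat_lit 912) (nat_lit 6) (nat_lit 12) (nat_lit 5) (nat_lit 109) (nat_lit 230) (nat_lit 231)) (PT.nd (nat_lit 78) (PT.lf (nat_lit 1064) (nat_lit 3) (nat_lit 14) (nat_lit 4) (nat_lit 110) (nat_lit 230) (nat_lit 230)) (PT.lf (nat_lit 1216) (nat_lit 6) (nat_lit 16) (nat_lit 4) (nat_lit 111) (nat_lit 230) (nat_lit 229)))) (PT.nd (nat_lit 8970) (PT.nd (nat_lit 78) (PT.lf (nat_lit 1292) (nat_lit 6) (nat_lit 17) (nat_lit 4) (nat_lit 112) (nat_lit 230) (nat_lit 228)) (PT.lf (nat_lit 1444) (nat_lit 6) (nat_lit 19) (nat_lit 4) (nat_lit 113) (nat_lit 230) (nat_lit 227))) (PT.nd (nat_lit 78) (PT.lf (nat_lit 1444) (nat_lit 6) (nat_lit 19) (nat_lit 2) (nat_lit 227) (nat_lit 230) (nat_lit 113)) (PT.lf (nat_lit 1292) (nat_lit 6) (nat_lit 17) (nat_lit 2) (nat_lit 228) (nat_lit 230) (nat_lit 112))))) (PT.nd (nat_lit 234) (PT.nd (nat_lit 78) (PT.lf (nat_lit 1216) (nat_lit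 6) (nat_lit 16) (nat_lit 2) (nat_lit 229) (nat_lit 230) (nat_lit 111)) (PT.nd (nat_lit 78) (PT.lf (nat_lit 1064) (nat_lit 3) (nat_lit 14) (nat_lit 0) (nat_lit 230) (nat_lit 230) (nat_lit 110)) (PT.lf (nat_lit 912) (nat_lit 6) (nat_lit 12) (nat_lit 0) (nat_lit 231) (nat_lit 230) (nat_lit 109)))) (PT.nd (nat_lit 49608) (PT.nd (nat_lit 49530) (PT.lf (nat_lit 684) (nat_lit 6) (nat_lit 9) (nat_lit 0) (nat_lit 232) (nat_lit 230) (nat_lit 108)) (PT.lf (nat_lit 456) (nat_lit 6) (nat_lit 6) (nat_lit 5) (nat_lit 106) (nat_lit 231) (nat_lit 233))) (PT.nd (nat_lit 78) (PT.lf (nat_lit 608) (nat_lit 6) (nat_lit 8) (nat_lit 5) (nat_lit 107) (nat_lit 231) (nat_lit 232)) (PT.lf (nat_lit 760) (nat_lit 3) (nat_lit 10) (nat_lit 4) (nat_lit 108) (nat_lit 231) (nat_lit 231))))))) (PT.nd (nat_lit 68796) (PT.nd (nat_lit 9516) (PT.nd (nat_lit 9282) (PT.nd (nat_lit 78) (PT.lf (nat_lit 912) (nat_lit 6) (nat_lit 12) (nat_lit 4)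 (nat_lit 109) (nat_lit 231) (nat_lit 230)) (PT.nd (nat_lit 78) (PT.lf (nat_lit 988) (nat_lit 6) (nat_lit 13) (nat_lit 4) (nat_lit 110) (nat_lit 231) (nat_lit 229)) (PT.lf (nat_lit 1140) (nat_lit 6) (nat_lit 15) (nat_lit 4) (nat_lit 111) (nat_lit 231) (nat_lit 228)))) (PT.nd (nat_lit 78) (PT.lf (nat_lit 1140) (nat_lit 6) (nat_lit 15) (nat_lit 2) (nat_lit 228) (nat_lit 231) (nat_lit 111)) (PT.nd (nat_lit 78) (PT.lf (nat_lit 988) (nat_lit 6) (nat_lit 13) (nat_lit 2) (nat_lit 229) (nat_lit 231) (nat_lit 110)) (PT.lf (nat_lit 912) (nat_lit 6) (nat_lit 12) (nat_lit 2) (nat_lit 230) (nat_lit 231) (nat_lit 109))))) (PT.nd (nat_lit 49530) (PT.nd (nat_lit 78) (PT.lf (nat_lit 760) (nat_lit 3) (nat_lit 10) (nat_lit 0) (nat_lit 231) (nat_lit 231) (nat_lit 108)) (PT.nd (nat_lit 78) (PT.lf (nat_lit 608) (nat_lit 6) (nat_lit 8) (nat_lit 0) (nat_lit 232) (nat_lit 231) (nat_lit 107)) (PT.lf (nat_lit 456) (nat_lit 6) (nat_lit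 6) (nat_lit 0) (nat_lit 233) (nat_lit 231) (nat_lit 106)))) (PT.nd (nat_lit 156) (PT.nd (nat_lit 78) (PT.lf (nat_lit 380) (nat_lit 6) (nat_lit 5) (nat_lit 5) (nat_lit 105) (nat_lit 232) (nat_lit 233)) (PT.lf (nat_lit 532) (nat_lit 3) (nat_lit 7) (nat_lit 4) (nat_lit 106) (nat_lit 232) (nat_lit 232))) (PT.nd (nat_lit 78) (PT.lf (nat_lit 608) (nat_lit 6) (nat_lit 8) (nat_lit 4) (nat_lit 107) (nat_lit 232) (nat_lit 231)) (PT.lf (nat_lit 684) (nat_lit 6) (nat_lit 9) (nat_lit 4) (nat_lit 108) (nat_lit 232) (nat_lit 230)))))) (PT.nd (nat_lit 59514) (PT.nd (nat_lit 234) (PT.nd (nat_lit 78) (PT.lf (nat_lit 684) (nat_lit 6) (nat_lit 9) (nat_lit 2) (nat_lit 230) (nat_lit 232) (nat_lit 108)) (PT.nd (nat_lit 78) (PT.lf (nat_lit 608) (nat_lit 6) (nat_lit 8) (nat_lit 2) (nat_lit 231) (nat_lit 232) (nat_lit 107)) (PT.lf (nat_lit 532) (nat_lit 3) (nat_lit 7) (nat_lit 0) (nat_lit 232) (nat_lit 232) (nat_lit 106)))) (PT.nd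 (nat_lit 49452) (PT.nd (nat_lit 49374) (PT.lf (nat_lit 380) (nat_lit 6) (nat_lit 5) (nat_lit 0) (nat_lit 233) (nat_lit 232) (nat_lit 105)) (PT.lf (nat_lit 380) (nat_lit 6) (nat_lit 5) (nat_lit 4) (nat_lit 105) (nat_lit 233) (nat_lit 232))) (PT.nd (nat_lit 9750) (PT.lf (nat_lit 456) (nat_lit 6) (nat_lit 6) (nat_lit 4) (nat_lit 106) (nat_lit 233) (nat_lit 231)) (PT.lf (nat_lit 456) (nat_lit 6) (nat_lit 6) (nat_lit 2) (nat_lit 231) (nat_lit 233) (nat_lit 106))))) (PT.nd (nat_lit 226824) (PT.nd (nat_lit 167544) (PT.lf (nat_lit 380) (nat_lit 6) (nat_lit 5) (nat_lit 2) (nat_lit 232) (nat_lit 233) (nat_lit 105)) (PT.nd (nat_lit 10920) (PT.lf (nat_lit 152) (nat_lit 6) (nat_lit 2) (nat_lit 5) (nat_lit 97) (nat_lit 236) (nat_lit 237)) (PT.lf (nat_lit 152) (nat_lit 6) (nat_lit 2) (nat_lit 0) (nat_lit 237) (nat_lit 236) (nat_lit 97)))) (PT.nd (nat_lit 10920) (PT.nd (nat_lit 78) (PT.lf (nat_lit 76) (nat_lit 3) (nat_lit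 1) (nat_lit 4) (nat_lit 96) (nat_lit 237) (nat_lit 237)) (PT.lf (nat_lit 152) (nat_lit 6) (nat_lit 2) (nat_lit 4) (nat_lit 97) (nat_lit 237) (nat_lit 236))) (PT.nd (nat_lit 78) (PT.lf (nat_lit 152) (nat_lit 6) (nat_lit 2) (nat_lit 2) (nat_lit 236) (nat_lit 237) (nat_lit 97)) (PT.lf (nat_lit 76) (nat_lit 3) (nat_lit 1) (nat_lit 0) (nat_lit 237) (nat_lit 237) (nat_lit 96))))))))
noncomputable def xc0 : XT := (XT.nd (nat_lit 237354) (nat_lit 0) (nat_lit 0) (XT.nd (nat_lit 177684) (nat_lit 0) (nat_lit 0) (XT.nd (nat_lit 118404) (nat_lit 0) (nat_lit 0) (XT.nd (nat_lit 59280) (nat_lit 0) (nat_lit 0) (XT.nd (nat_lit 59124) (nat_lit 0) (nat_lit 0) (XT.lf (nat_lit 0) (nat_lit 17234528403) (nat_lit 76) (nat_lit 5265736580) (nat_lit 76) (nat_lit 4976773458) (nat_lit 7) (nat_lit 4) (nat_lit 8) (nat_lit 5) (nat_lit 8) (nat_lit 4) (nat_lit 531) (nat_lit 305) (nat_lit 304)) (XT.nd (nat_lit 78) (nat_lit 76) (nat_lit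 0) (XT.lf (nat_lit 0) (nat_lit 5457145340) (nat_lit 152) (nat_lit 2147841480) (nat_lit 0) (nat_lit 5457145340) (nat_lit 8) (nat_lit 5) (nat_lit 10) (nat_lit 4) (nat_lit 8) (nat_lit 4) (nat_lit 528) (nat_lit 306) (nat_lit 306)) (XT.lf (nat_lit 0) (nat_lit 2762921508) (nat_lit 76) (nat_lit 12048895683) (nat_lit 76) (nat_lit 11754153298) (nat_lit 7) (nat_lit 4) (nat_lit 8) (nat_lit 5) (nat_lit 8) (nat_lit 4) (nat_lit 529) (nat_lit 306) (nat_lit 305)))) (XT.nd (nat_lit 78) (nat_lit 0) (nat_lit 0) (XT.lf (nat_lit 0) (nat_lit 9927083338) (nat_lit 76) (nat_lit 8836808199) (nat_lit 76) (nat_lit 8253102692) (nat_lit 7) (nat_lit 4) (nat_lit 8) (nat_lit 5) (nat_lit 8) (nat_lit 4) (nat_lit 530) (nat_lit 306) (nat_lit 304)) (XT.nd (nat_lit 58968) (nat_lit 0) (nat_lit 76) (XT.lf (nat_lit 0) (nat_lit 17142524636) (nat_lit 76) (nat_lit 5601277841) (nat_lit 76) (nat_lit 4734275156) (nat_lit 7) (nat_lit 4) (nat_lit 8)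 (nat_lit 5) (nat_lit 8) (nat_lit 4) (nat_lit 531) (nat_lit 306) (nat_lit 303)) (XT.lf (nat_lit 0) (nat_lit 1777089588) (nat_lit 152) (nat_lit 9080107030) (nat_lit 0) (nat_lit 1777089588) (nat_lit 8) (nat_lit 5) (nat_lit 10) (nat_lit 4) (nat_lit 8) (nat_lit 4) (nat_lit 526) (nat_lit 307) (nat_lit 307))))) (XT.nd (nat_lit 234) (nat_lit 0) (nat_lit 0) (XT.nd (nat_lit 78) (nat_lit 76) (nat_lit 0) (XT.lf (nat_lit 0) (nat_lit 7359790777) (nat_lit 152) (nat_lit 11272970787) (nat_lit 0) (nat_lit 7059153545) (nat_lit 8) (nat_lit 5) (nat_lit 10) (nat_lit 4) (nat_lit 8) (nat_lit 4) (nat_lit 527) (nat_lit 307) (nat_lit 306)) (XT.nd (nat_lit 78) (nat_lit 76) (nat_lit 0) (XT.lf (nat_lit 0) (nat_lit 11188862523) (nat_lit 152) (nat_lit 4342447973) (nat_lit 0) (nat_lit 10593482907) (nat_lit 8) (nat_lit 5) (nat_lit 10) (nat_lit 4) (nat_lit 8) (nat_lit 4) (nat_lit 528) (nat_lit 307) (nat_lit 305)) (XT.lf (nat_lit 0) (nat_lit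 2669077665) (nat_lit 76) (nat_lit 12391147768) (nat_lit 76) (nat_lit 11506805030) (nat_lit 7) (nat_lit 4) (nat_lit 8) (nat_lit 5) (nat_lit 8) (nat_lit 4) (nat_lit 529) (nat_lit 307) (nat_lit 304)))) (XT.nd (nat_lit 58890) (nat_lit 0) (nat_lit 152) (XT.nd (nat_lit 78) (nat_lit 0) (nat_lit 0) (XT.lf (nat_lit 0) (nat_lit 9787693075) (nat_lit 76) (nat_lit 9199257748) (nat_lit 76) (nat_lit 8031617831) (nat_lit 7) (nat_lit 4) (nat_lit 8) (nat_lit 5) (nat_lit 8) (nat_lit 4) (nat_lit 530) (nat_lit 307) (nat_lit 303)) (XT.lf (nat_lit 0) (nat_lit 16958481020) (nat_lit 76) (nat_lit 5983528825) (nat_lit 76) (nat_lit 4538146576) (nat_lit 7) (nat_lit 4) (nat_lit 8) (nat_lit 5) (nat_lit 8) (nat_lit 4) (nat_lit 531) (nat_lit 307) (nat_lit 302))) (XT.nd (nat_lit 78) (nat_lit 76) (nat_lit 0) (XT.lf (nat_lit 0) (nat_lit 8588903333) (nat_lit 152) (nat_lit 1817392366) (nat_lit 152) (nat_lit 1817392366) (nat_lit 10) (nat_lit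 4) (nat_lit 12) (nat_lit 5) (nat_lit 12) (nat_lit 4) (nat_lit 524) (nat_lit 308) (nat_lit 308)) (XT.lf (nat_lit 0) (nat_lit 79693632) (nat_lit 228) (nat_lit 151801837) (nat_lit 76) (nat_lit 24623053661) (nat_lit 9) (nat_lit 5) (nat_lit 12) (nat_lit 5) (nat_lit 10) (nat_lit 4) (nat_lit 525) (nat_lit 308) (nat_lit 307)))))) (XT.nd (nat_lit 59124) (nat_lit 0) (nat_lit 0) (XT.nd (nat_lit 234) (nat_lit 76) (nat_lit 0) (XT.nd (nat_lit 78) (nat_lit 0) (nat_lit 0) (XT.lf (nat_lit 0) (nat_lit 3834242455) (nat_lit 152) (nat_lit 18207914373) (nat_lit 0) (nat_lit 3226955247) (nat_lit 8) (nat_lit 5) (nat_lit 10) (nat_lit 4) (nat_lit 8) (nat_lit 4) (nat_lit 526) (nat_lit 308) (nat_lit 306)) (XT.nd (nat_lit 78) (nat_lit 0) (nat_lit 0) (XT.lf (nat_lit 0) (nat_lit 7613788667) (nat_lit 152) (nat_lit 11367436112) (nat_lit 0) (nat_lit 6711759074) (nat_lit 8) (nat_lit 5) (nat_lit 10) (nat_lit 4) (nat_lit 8) (nat_lit 4) (nat_lit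 527) (nat_lit 308) (nat_lit 305)) (XT.lf (nat_lit 0) (nat_lit 11417306110) (nat_lit 152) (nat_lit 4482761350) (nat_lit 0) (nat_lit 10226313395) (nat_lit 8) (nat_lit 5) (nat_lit 10) (nat_lit 4) (nat_lit 8) (nat_lit 4) (nat_lit 528) (nat_lit 308) (nat_lit 304)))) (XT.nd (nat_lit 156) (nat_lit 0) (nat_lit 0) (XT.nd (nat_lit 78) (nat_lit 0) (nat_lit 0) (XT.lf (nat_lit 0) (nat_lit 2481353178) (nat_lit 76) (nat_lit 12781043772) (nat_lit 76) (nat_lit 11306753878) (nat_lit 7) (nat_lit 4) (nat_lit 8) (nat_lit 5) (nat_lit 8) (nat_lit 4) (nat_lit 529) (nat_lit 308) (nat_lit 303)) (XT.lf (nat_lit 0) (nat_lit 9555315235) (nat_lit 76) (nat_lit 9608955186) (nat_lit 76) (nat_lit 7856922960) (nat_lit 7) (nat_lit 4) (nat_lit 8) (nat_lit 5) (nat_lit 8) (nat_lit 4) (nat_lit 530) (nat_lit 308) (nat_lit 302))) (XT.nd (nat_lit 58656) (nat_lit 0) (nat_lit 228) (XT.lf (nat_lit 0) (nat_lit 16682325383) (nat_lit 76) (nat_lit 6412639434)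 (nat_lit 76) (nat_lit 4388310805) (nat_lit 7) (nat_lit 4) (nat_lit 8) (nat_lit 5) (nat_lit 8) (nat_lit 4) (nat_lit 531) (nat_lit 308) (nat_lit 301)) (XT.lf (nat_lit 0) (nat_lit 1167038947) (nat_lit 152) (nat_lit 5331343577) (nat_lit 152) (nat_lit 5331343577) (nat_lit 10) (nat_lit 4) (nat_lit 12) (nat_lit 5) (nat_lit 12) (nat_lit 4) (nat_lit 522) (nat_lit 309) (nat_lit 309))))) (XT.nd (nat_lit 234) (nat_lit 152) (nat_lit 0) (XT.nd (nat_lit 78) (nat_lit 76) (nat_lit 0) (XT.lf (nat_lit 0) (nat_lit 9706317118) (nat_lit 152) (nat_lit 7330981724) (nat_lit 152) (nat_lit 7011943088) (nat_lit 10) (nat_lit 4) (nat_lit 12) (nat_lit 5) (nat_lit 12) (nat_lit 4) (nat_lit 523) (nat_lit 309) (nat_lit 308)) (XT.nd (nat_lit 78) (nat_lit 76) (nat_lit 0) (XT.lf (nat_lit 0) (nat_lit 17130557198) (nat_lit 152) (nat_lit 3974589233) (nat_lit 152) (nat_lit 3342767621) (nat_lit 10) (nat_lit 4) (nat_lit 12) (nat_lit 5) (nat_lit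 12) (nat_lit 4) (nat_lit 524) (nat_lit 309) (nat_lit 307)) (XT.lf (nat_lit 0) (nat_lit 341736639) (nat_lit 228) (nat_lit 248163577) (nat_lit 76) (nat_lit 24265679730) (nat_lit 9) (nat_lit 5) (nat_lit 12) (nat_lit 5) (nat_lit 10) (nat_lit 4) (nat_lit 525) (nat_lit 309) (nat_lit 306)))) (XT.nd (nat_lit 156) (nat_lit 76) (nat_lit 0) (XT.nd (nat_lit 78) (nat_lit 0) (nat_lit 0) (XT.lf (nat_lit 0) (nat_lit 4067254914) (nat_lit 152) (nat_lit 18351034018) (nat_lit 0) (nat_lit 2852442344) (nat_lit 8) (nat_lit 5) (nat_lit 10) (nat_lit 4) (nat_lit 8) (nat_lit 4) (nat_lit 526) (nat_lit 309) (nat_lit 305)) (XT.lf (nat_lit 0) (nat_lit 7821246822) (nat_lit 152) (nat_lit 11556403808) (nat_lit 0) (nat_lit 6317471130) (nat_lit 8) (nat_lit 5) (nat_lit 10) (nat_lit 4) (nat_lit 8) (nat_lit 4) (nat_lit 527) (nat_lit 309) (nat_lit 304))) (XT.nd (nat_lit 78) (nat_lit 76) (nat_lit 0) (XT.lf (nat_lit 0) (nat_lit 11599711026) (nat_lit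 152) (nat_lit 4716678116) (nat_lit 0) (nat_lit 9812638156) (nat_lit 8) (nat_lit 5) (nat_lit 10) (nat_lit 4) (nat_lit 8) (nat_lit 4) (nat_lit 528) (nat_lit 309) (nat_lit 303)) (XT.lf (nat_lit 0) (nat_lit 2199674428) (nat_lit 76) (nat_lit 13218736593) (nat_lit 76) (nat_lit 11153921392) (nat_lit 7) (nat_lit 4) (nat_lit 8) (nat_lit 5) (nat_lit 8) (nat_lit 4) (nat_lit 529) (nat_lit 309) (nat_lit 302))))))) (XT.nd (nat_lit 59436) (nat_lit 0) (nat_lit 0) (XT.nd (nat_lit 58890) (nat_lit 0) (nat_lit 0) (XT.nd (nat_lit 58656) (nat_lit 0) (nat_lit 228) (XT.nd (nat_lit 78) (nat_lit 0) (nat_lit 0) (XT.lf (nat_lit 0) (nat_lit 9229858688) (nat_lit 76) (nat_lit 10066061179) (nat_lit 76) (nat_lit 7728949573) (nat_lit 7) (nat_lit 4) (nat_lit 8) (nat_lit 5) (nat_lit 8) (nat_lit 4) (nat_lit 530) (nat_lit 309) (nat_lit 301)) (XT.nd (nat_lit 58500) (nat_lit 0) (nat_lit 380) (XT.lf (nat_lit 0) (nat_lit 16313949429) (nat_lit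 76) (nat_lit 6888777948) (nat_lit 76) (nat_lit 4284709084) (nat_lit 7) (nat_lit 4) (nat_lit 8) (nat_lit 5) (nat_lit 8) (nat_lit 4) (nat_lit 531) (nat_lit 309) (nat_lit 300)) (XT.lf (nat_lit 0) (nat_lit 2711801635) (nat_lit 152) (nat_lit 6028279670) (nat_lit 0) (nat_lit 2711801635) (nat_lit 12) (nat_lit 5) (nat_lit 14) (nat_lit 4) (nat_lit 12) (nat_lit 4) (nat_lit 520) (nat_lit 310) (nat_lit 310)))) (XT.nd (nat_lit 78) (nat_lit 152) (nat_lit 0) (XT.lf (nat_lit 0) (nat_lit 9339772170) (nat_lit 152) (nat_lit 4923619236) (nat_lit 0) (nat_lit 9014352762) (nat_lit 12) (nat_lit 5) (nat_lit 14) (nat_lit 4) (nat_lit 12) (nat_lit 4) (nat_lit 521) (nat_lit 310) (nat_lit 309)) (XT.nd (nat_lit 78) (nat_lit 0) (nat_lit 0) (XT.lf (nat_lit 0) (nat_lit 2285883436) (nat_lit 152) (nat_lit 11009287745) (nat_lit 152) (nat_lit 10364829701) (nat_lit 10) (nat_lit 4) (nat_lit 12) (nat_lit 5) (nat_lit 12) (nat_lit 4) (nat_lit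 522) (nat_lit 310) (nat_lit 308)) (XT.lf (nat_lit 0) (nat_lit 9610873191) (nat_lit 152) (nat_lit 7698348180) (nat_lit 152) (nat_lit 6741107160) (nat_lit 10) (nat_lit 4) (nat_lit 12) (nat_lit 5) (nat_lit 12) (nat_lit 4) (nat_lit 523) (nat_lit 310) (nat_lit 307))))) (XT.nd (nat_lit 234) (nat_lit 76) (nat_lit 0) (XT.nd (nat_lit 78) (nat_lit 152) (nat_lit 0) (XT.lf (nat_lit 0) (nat_lit 16988790262) (nat_lit 152) (nat_lit 4362314381) (nat_lit 152) (nat_lit 3098423384) (nat_lit 10) (nat_lit 4) (nat_lit 12) (nat_lit 5) (nat_lit 12) (nat_lit 4) (nat_lit 524) (nat_lit 310) (nat_lit 306)) (XT.nd (nat_lit 78) (nat_lit 76) (nat_lit 0) (XT.lf (nat_lit 0) (nat_lit 557244642) (nat_lit 228) (nat_lit 438894052) (nat_lit 76) (nat_lit 23861543905) (nat_lit 9) (nat_lit 5) (nat_lit 12) (nat_lit 5) (nat_lit 10) (nat_lit 4) (nat_lit 525) (nat_lit 310) (nat_lit 305)) (XT.lf (nat_lit 0) (nat_lit 4253307928) (nat_lit 152) (nat_lit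 18589629119) (nat_lit 0) (nat_lit 2430493601) (nat_lit 8) (nat_lit 5) (nat_lit 10) (nat_lit 4) (nat_lit 8) (nat_lit 4) (nat_lit 526) (nat_lit 310) (nat_lit 304)))) (XT.nd (nat_lit 156) (nat_lit 76) (nat_lit 0) (XT.nd (nat_lit 78) (nat_lit 0) (nat_lit 0) (XT.lf (nat_lit 0) (nat_lit 7982246597) (nat_lit 152) (nat_lit 11839947980) (nat_lit 0) (nat_lit 5876135092) (nat_lit 8) (nat_lit 5) (nat_lit 10) (nat_lit 4) (nat_lit 8) (nat_lit 4) (nat_lit 527) (nat_lit 310) (nat_lit 303)) (XT.lf (nat_lit 0) (nat_lit 11736148803) (nat_lit 152) (nat_lit 5044290004) (nat_lit 0) (nat_lit 9352294965) (nat_lit 8) (nat_lit 5) (nat_lit 10) (nat_lit 4) (nat_lit 8) (nat_lit 4) (nat_lit 528) (nat_lit 310) (nat_lit 302))) (XT.nd (nat_lit 78) (nat_lit 0) (nat_lit 0) (XT.lf (nat_lit 0) (nat_lit 1823930954) (nat_lit 76) (nat_lit 13704397877) (nat_lit 76) (nat_lit 11048247636) (nat_lit 7) (nat_lit 4) (nat_lit 8) (nat_lit 5) (nat_lit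 8) (nat_lit 4) (nat_lit 529) (nat_lit 310) (nat_lit 301)) (XT.lf (nat_lit 0) (nat_lit 8811195806) (nat_lit 76) (nat_lit 10570754984) (nat_lit 76) (nat_lit 7647647484) (nat_lit 7) (nat_lit 4) (nat_lit 8) (nat_lit 5) (nat_lit 8) (nat_lit 4) (nat_lit 530) (nat_lit 310) (nat_lit 300)))))) (XT.nd (nat_lit 58812) (nat_lit 0) (nat_lit 0) (XT.nd (nat_lit 58500) (nat_lit 0) (nat_lit 228) (XT.nd (nat_lit 58344) (nat_lit 0) (nat_lit 380) (XT.lf (nat_lit 0) (nat_lit 15853208695) (nat_lit 76) (nat_lit 7412131087) (nat_lit 76) (nat_lit 4227300785) (nat_lit 7) (nat_lit 4) (nat_lit 8) (nat_lit 5) (nat_lit 8) (nat_lit 4) (nat_lit 531) (nat_lit 310) (nat_lit 299)) (XT.nd (nat_lit 78) (nat_lit 152) (nat_lit 0) (XT.lf (nat_lit 0) (nat_lit 9120720890) (nat_lit 152) (nat_lit 984478177) (nat_lit 152) (nat_lit 984478177) (nat_lit 14) (nat_lit 4) (nat_lit 16) (nat_lit 5) (nat_lit 16) (nat_lit 4) (nat_lit 518) (nat_lit 311) (nat_lit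 311)) (XT.lf (nat_lit 0) (nat_lit 1862215054) (nat_lit 152) (nat_lit 19145713882) (nat_lit 0) (nat_lit 1530287257) (nat_lit 12) (nat_lit 5) (nat_lit 14) (nat_lit 4) (nat_lit 12) (nat_lit 4) (nat_lit 519) (nat_lit 311) (nat_lit 310)))) (XT.nd (nat_lit 156) (nat_lit 152) (nat_lit 0) (XT.nd (nat_lit 78) (nat_lit 0) (nat_lit 0) (XT.lf (nat_lit 0) (nat_lit 5728296694) (nat_lit 152) (nat_lit 12105072968) (nat_lit 0) (nat_lit 5070949489) (nat_lit 12) (nat_lit 5) (nat_lit 14) (nat_lit 4) (nat_lit 12) (nat_lit 4) (nat_lit 520) (nat_lit 311) (nat_lit 309)) (XT.lf (nat_lit 0) (nat_lit 9617765229) (nat_lit 152) (nat_lit 5019695242) (nat_lit 0) (nat_lit 8641379388) (nat_lit 12) (nat_lit 5) (nat_lit 14) (nat_lit 4) (nat_lit 12) (nat_lit 4) (nat_lit 521) (nat_lit 311) (nat_lit 308))) (XT.nd (nat_lit 78) (nat_lit 0) (nat_lit 0) (XT.lf (nat_lit 0) (nat_lit 2141281162) (nat_lit 152) (nat_lit 11404767396) (nat_lit 152)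 (nat_lit 10115598579) (nat_lit 10) (nat_lit 4) (nat_lit 12) (nat_lit 5) (nat_lit 12) (nat_lit 4) (nat_lit 522) (nat_lit 311) (nat_lit 307)) (XT.lf (nat_lit 0) (nat_lit 9419947907) (nat_lit 152) (nat_lit 8114186523) (nat_lit 152) (nat_lit 6518367729) (nat_lit 10) (nat_lit 4) (nat_lit 12) (nat_lit 5) (nat_lit 12) (nat_lit 4) (nat_lit 523) (nat_lit 311) (nat_lit 306))))) (XT.nd (nat_lit 234) (nat_lit 76) (nat_lit 0) (XT.nd (nat_lit 78) (nat_lit 152) (nat_lit 0) (XT.lf (nat_lit 0) (nat_lit 16752450264) (nat_lit 152) (nat_lit 4798112225) (nat_lit 152) (nat_lit 2901656199) (nat_lit 10) (nat_lit 4) (nat_lit 12) (nat_lit 5) (nat_lit 12) (nat_lit 4) (nat_lit 524) (nat_lit 311) (nat_lit 305)) (XT.nd (nat_lit 78) (nat_lit 76) (nat_lit 0) (XT.lf (nat_lit 0) (nat_lit 726302155) (nat_lit 228) (nat_lit 724068056) (nat_lit 76) (nat_lit 23410487699) (nat_lit 9) (nat_lit 5) (nat_lit 12) (nat_lit 5) (nat_lit 10) (nat_lit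 4) (nat_lit 525) (nat_lit 311) (nat_lit 304)) (XT.lf (nat_lit 0) (nat_lit 4392474460) (nat_lit 152) (nat_lit 18923793245) (nat_lit 0) (nat_lit 1960943546) (nat_lit 8) (nat_lit 5) (nat_lit 10) (nat_lit 4) (nat_lit 8) (nat_lit 4) (nat_lit 526) (nat_lit 311) (nat_lit 303)))) (XT.nd (nat_lit 156) (nat_lit 76) (nat_lit 0) (XT.nd (nat_lit 78) (nat_lit 0) (nat_lit 0) (XT.lf (nat_lit 0) (nat_lit 8096851131) (nat_lit 152) (nat_lit 12218179821) (nat_lit 0) (nat_lit 5387577885) (nat_lit 8) (nat_lit 5) (nat_lit 10) (nat_lit 4) (nat_lit 8) (nat_lit 4) (nat_lit 527) (nat_lit 311) (nat_lit 302)) (XT.lf (nat_lit 0) (nat_lit 11826672945) (nat_lit 152) (nat_lit 5465725488) (nat_lit 0) (nat_lit 8845103296) (nat_lit 8) (nat_lit 5) (nat_lit 10) (nat_lit 4) (nat_lit 8) (nat_lit 4) (nat_lit 528) (nat_lit 311) (nat_lit 301))) (XT.nd (nat_lit 78) (nat_lit 0) (nat_lit 0) (XT.lf (nat_lit 0) (nat_lit 1353975406) (nat_lit 76) (nat_lit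 14238218079) (nat_lit 76) (nat_lit 10989691171) (nat_lit 7) (nat_lit 4) (nat_lit 8) (nat_lit 5) (nat_lit 8) (nat_lit 4) (nat_lit 529) (nat_lit 311) (nat_lit 300)) (XT.lf (nat_lit 0) (nat_lit 8299162406) (nat_lit 76) (nat_lit 11123234520) (nat_lit 76) (nat_lit 7612984809) (nat_lit 7) (nat_lit 4) (nat_lit 8) (nat_lit 5) (nat_lit 8) (nat_lit 4) (nat_lit 530) (nat_lit 311) (nat_lit 299))))))))
noncomputable def xc1 : XT := (XT.nd (nat_lit 118170) (nat_lit 0) (nat_lit 0) (XT.nd (nat_lit 59124) (nat_lit 0) (nat_lit 0) (XT.nd (nat_lit 58578) (nat_lit 0) (nat_lit 76) (XT.nd (nat_lit 58344) (nat_lit 0) (nat_lit 380) (XT.nd (nat_lit 58188) (nat_lit 0) (nat_lit 532) (XT.lf (nat_lit 0) (nat_lit 15299922499) (nat_lit 76) (nat_lit 7982904088) (nat_lit 76) (nat_lit 4216063394) (nat_lit 7) (nat_lit 4) (nat_lit 8) (nat_lit 5) (nat_lit 8) (nat_lit 4) (nat_lit 531) (nat_lit 311) (nat_lit 298)) (XT.nd (nat_lit 78) (nat_lit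 0) (nat_lit 0) (XT.lf (nat_lit 0) (nat_lit 1558689566) (nat_lit 152) (nat_lit 4591555504) (nat_lit 152) (nat_lit 4591555504) (nat_lit 14) (nat_lit 4) (nat_lit 16) (nat_lit 5) (nat_lit 16) (nat_lit 4) (nat_lit 516) (nat_lit 312) (nat_lit 312)) (XT.lf (nat_lit 0) (nat_lit 10628799779) (nat_lit 152) (nat_lit 5772146435) (nat_lit 152) (nat_lit 5426808756) (nat_lit 14) (nat_lit 4) (nat_lit 16) (nat_lit 5) (nat_lit 16) (nat_lit 4) (nat_lit 517) (nat_lit 312) (nat_lit 311)))) (XT.nd (nat_lit 78) (nat_lit 152) (nat_lit 0) (XT.lf (nat_lit 0) (nat_lit 18193395643) (nat_lit 152) (nat_lit 2335207233) (nat_lit 152) (nat_lit 1651303200) (nat_lit 14) (nat_lit 4) (nat_lit 16) (nat_lit 5) (nat_lit 16) (nat_lit 4) (nat_lit 518) (nat_lit 312) (nat_lit 310)) (XT.nd (nat_lit 78) (nat_lit 0) (nat_lit 0) (XT.lf (nat_lit 0) (nat_lit 2145767974) (nat_lit 152) (nat_lit 19243711409) (nat_lit 0) (nat_lit 1149854416) (nat_lit 12)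 (nat_lit 5) (nat_lit 14) (nat_lit 4) (nat_lit 12) (nat_lit 4) (nat_lit 519) (nat_lit 312) (nat_lit 309)) (XT.lf (nat_lit 0) (nat_lit 5985149249) (nat_lit 152) (nat_lit 12250632874) (nat_lit 0) (nat_lit 4670197055) (nat_lit 12) (nat_lit 5) (nat_lit 14) (nat_lit 4) (nat_lit 12) (nat_lit 4) (nat_lit 520) (nat_lit 312) (nat_lit 308))))) (XT.nd (nat_lit 234) (nat_lit 152) (nat_lit 0) (XT.nd (nat_lit 78) (nat_lit 152) (nat_lit 0) (XT.lf (nat_lit 0) (nat_lit 9848440955) (nat_lit 152) (nat_lit 5211884932) (nat_lit 0) (nat_lit 8220705785) (nat_lit 12) (nat_lit 5) (nat_lit 14) (nat_lit 4) (nat_lit 12) (nat_lit 4) (nat_lit 521) (nat_lit 312) (nat_lit 307)) (XT.nd (nat_lit 78) (nat_lit 0) (nat_lit 0) (XT.lf (nat_lit 0) (nat_lit 1900214364) (nat_lit 152) (nat_lit 11849281197) (nat_lit 152) (nat_lit 9914896050) (nat_lit 10) (nat_lit 4) (nat_lit 12) (nat_lit 5) (nat_lit 12) (nat_lit 4) (nat_lit 522) (nat_lit 312) (nat_lit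 306)) (XT.lf (nat_lit 0) (nat_lit 9133466395) (nat_lit 152) (nat_lit 8578659825) (nat_lit 152) (nat_lit 6343637446) (nat_lit 10) (nat_lit 4) (nat_lit 12) (nat_lit 5) (nat_lit 12) (nat_lit 4) (nat_lit 523) (nat_lit 312) (nat_lit 305)))) (XT.nd (nat_lit 156) (nat_lit 76) (nat_lit 0) (XT.nd (nat_lit 78) (nat_lit 76) (nat_lit 0) (XT.lf (nat_lit 0) (nat_lit 16421444522) (nat_lit 152) (nat_lit 5282153666) (nat_lit 152) (nat_lit 2752388903) (nat_lit 10) (nat_lit 4) (nat_lit 12) (nat_lit 5) (nat_lit 12) (nat_lit 4) (nat_lit 524) (nat_lit 312) (nat_lit 304)) (XT.lf (nat_lit 0) (nat_lit 848975475) (nat_lit 228) (nat_lit 1103797425) (nat_lit 76) (nat_lit 22912334228) (nat_lit 9) (nat_lit 5) (nat_lit 12) (nat_lit 5) (nat_lit 10) (nat_lit 4) (nat_lit 525) (nat_lit 312) (nat_lit 303))) (XT.nd (nat_lit 78) (nat_lit 0) (nat_lit 0) (XT.lf (nat_lit 0) (nat_lit 4484809086) (nat_lit 152) (nat_lit 19353657439) (nat_lit 0)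 (nat_lit 1443608043) (nat_lit 8) (nat_lit 5) (nat_lit 10) (nat_lit 4) (nat_lit 8) (nat_lit 4) (nat_lit 526) (nat_lit 312) (nat_lit 302)) (XT.lf (nat_lit 0) (nat_lit 8165105366) (nat_lit 152) (nat_lit 12691247658) (nat_lit 0) (nat_lit 4851607919) (nat_lit 8) (nat_lit 5) (nat_lit 10) (nat_lit 4) (nat_lit 8) (nat_lit 4) (nat_lit 527) (nat_lit 312) (nat_lit 301)))))) (XT.nd (nat_lit 58500) (nat_lit 0) (nat_lit 228) (XT.nd (nat_lit 234) (nat_lit 0) (nat_lit 0) (XT.nd (nat_lit 78) (nat_lit 76) (nat_lit 0) (XT.lf (nat_lit 0) (nat_lit 11871318954) (nat_lit 152) (nat_lit 5981149838) (nat_lit 0) (nat_lit 8290864249) (nat_lit 8) (nat_lit 5) (nat_lit 10) (nat_lit 4) (nat_lit 8) (nat_lit 4) (nat_lit 528) (nat_lit 312) (nat_lit 300)) (XT.nd (nat_lit 78) (nat_lit 0) (nat_lit 0) (XT.lf (nat_lit 0) (nat_lit 789623486) (nat_lit 76) (nat_lit 14820406540) (nat_lit 76) (nat_lit 10978229033) (nat_lit 7) (nat_lit 4) (nat_lit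 8) (nat_lit 5) (nat_lit 8) (nat_lit 4) (nat_lit 529) (nat_lit 312) (nat_lit 299)) (XT.lf (nat_lit 0) (nat_lit 7693557691) (nat_lit 76) (nat_lit 11723716445) (nat_lit 76) (nat_lit 7624947955) (nat_lit 7) (nat_lit 4) (nat_lit 8) (nat_lit 5) (nat_lit 8) (nat_lit 4) (nat_lit 530) (nat_lit 312) (nat_lit 298)))) (XT.nd (nat_lit 58110) (nat_lit 0) (nat_lit 532) (XT.nd (nat_lit 58032) (nat_lit 0) (nat_lit 684) (XT.lf (nat_lit 0) (nat_lit 14653873867) (nat_lit 76) (nat_lit 8601320783) (nat_lit 76) (nat_lit 4250992506) (nat_lit 7) (nat_lit 4) (nat_lit 8) (nat_lit 5) (nat_lit 8) (nat_lit 4) (nat_lit 531) (nat_lit 312) (nat_lit 297)) (XT.lf (nat_lit 0) (nat_lit 2315622737) (nat_lit 152) (nat_lit 5777081742) (nat_lit 0) (nat_lit 2315622737) (nat_lit 16) (nat_lit 5) (nat_lit 18) (nat_lit 4) (nat_lit 16) (nat_lit 4) (nat_lit 514) (nat_lit 313) (nat_lit 313))) (XT.nd (nat_lit 78) (nat_lit 152) (nat_lit 0) (XT.lf (nat_lit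 0) (nat_lit 8606073972) (nat_lit 152) (nat_lit 4286842079) (nat_lit 0) (nat_lit 8253829539) (nat_lit 16) (nat_lit 5) (nat_lit 18) (nat_lit 4) (nat_lit 16) (nat_lit 4) (nat_lit 515) (nat_lit 313) (nat_lit 312)) (XT.lf (nat_lit 0) (nat_lit 3068372072) (nat_lit 152) (nat_lit 9556686904) (nat_lit 152) (nat_lit 8859104791) (nat_lit 14) (nat_lit 4) (nat_lit 16) (nat_lit 5) (nat_lit 16) (nat_lit 4) (nat_lit 516) (nat_lit 313) (nat_lit 311))))) (XT.nd (nat_lit 234) (nat_lit 152) (nat_lit 0) (XT.nd (nat_lit 78) (nat_lit 152) (nat_lit 0) (XT.lf (nat_lit 0) (nat_lit 10531746583) (nat_lit 152) (nat_lit 6166635530) (nat_lit 152) (nat_lit 5130487065) (nat_lit 14) (nat_lit 4) (nat_lit 16) (nat_lit 5) (nat_lit 16) (nat_lit 4) (nat_lit 517) (nat_lit 313) (nat_lit 310)) (XT.nd (nat_lit 78) (nat_lit 152) (nat_lit 0) (XT.lf (nat_lit 0) (nat_lit 18049238391) (nat_lit 152) (nat_lit 2750199464) (nat_lit 152) (nat_lit 1382123202)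 (nat_lit 14) (nat_lit 4) (nat_lit 16) (nat_lit 5) (nat_lit 16) (nat_lit 4) (nat_lit 518) (nat_lit 313) (nat_lit 309)) (XT.lf (nat_lit 0) (nat_lit 2381057215) (nat_lit 152) (nat_lit 19439744892) (nat_lit 0) (nat_lit 720767341) (nat_lit 12) (nat_lit 5) (nat_lit 14) (nat_lit 4) (nat_lit 12) (nat_lit 4) (nat_lit 519) (nat_lit 313) (nat_lit 308)))) (XT.nd (nat_lit 156) (nat_lit 152) (nat_lit 0) (XT.nd (nat_lit 78) (nat_lit 0) (nat_lit 0) (XT.lf (nat_lit 0) (nat_lit 6194261661) (nat_lit 152) (nat_lit 12493296141) (nat_lit 0) (nat_lit 4221188811) (nat_lit 12) (nat_lit 5) (nat_lit 14) (nat_lit 4) (nat_lit 12) (nat_lit 4) (nat_lit 520) (nat_lit 313) (nat_lit 307)) (XT.lf (nat_lit 0) (nat_lit 10031889809) (nat_lit 152) (nat_lit 5500263673) (nat_lit 0) (nat_lit 7752166983) (nat_lit 12) (nat_lit 5) (nat_lit 14) (nat_lit 4) (nat_lit 12) (nat_lit 4) (nat_lit 521) (nat_lit 313) (nat_lit 306))) (XT.nd (nat_lit 78) (nat_lit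 0) (nat_lit 0) (XT.lf (nat_lit 0) (nat_lit 1562588506) (nat_lit 152) (nat_lit 12343003467) (nat_lit 152) (nat_lit 9762643409) (nat_lit 10) (nat_lit 4) (nat_lit 12) (nat_lit 5) (nat_lit 12) (nat_lit 4) (nat_lit 522) (nat_lit 313) (nat_lit 305)) (XT.lf (nat_lit 0) (nat_lit 8751316307) (nat_lit 152) (nat_lit 9091950234) (nat_lit 152) (nat_lit 6216847791) (nat_lit 10) (nat_lit 4) (nat_lit 12) (nat_lit 5) (nat_lit 12) (nat_lit 4) (nat_lit 523) (nat_lit 313) (nat_lit 304))))))) (XT.nd (nat_lit 58890) (nat_lit 0) (nat_lit 0) (XT.nd (nat_lit 546) (nat_lit 0) (nat_lit 0) (XT.nd (nat_lit 234) (nat_lit 76) (nat_lit 0) (XT.nd (nat_lit 78) (nat_lit 152) (nat_lit 0) (XT.lf (nat_lit 0) (nat_lit 15995643229) (nat_lit 152) (nat_lit 5814628525) (nat_lit 152) (nat_lit 2650562960) (nat_lit 10) (nat_lit 4) (nat_lit 12) (nat_lit 5) (nat_lit 12) (nat_lit 4) (nat_lit 524) (nat_lit 313) (nat_lit 303)) (XT.nd (nat_lit 78) (nat_lit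 76) (nat_lit 0) (XT.lf (nat_lit 0) (nat_lit 925312709) (nat_lit 228) (nat_lit 1578231070) (nat_lit 76) (nat_lit 22366888139) (nat_lit 9) (nat_lit 5) (nat_lit 12) (nat_lit 5) (nat_lit 10) (nat_lit 4) (nat_lit 525) (nat_lit 313) (nat_lit 302)) (XT.lf (nat_lit 0) (nat_lit 4530348014) (nat_lit 152) (nat_lit 19879390276) (nat_lit 0) (nat_lit 878284215) (nat_lit 8) (nat_lit 5) (nat_lit 10) (nat_lit 4) (nat_lit 8) (nat_lit 4) (nat_lit 526) (nat_lit 313) (nat_lit 301)))) (XT.nd (nat_lit 156) (nat_lit 76) (nat_lit 0) (XT.nd (nat_lit 78) (nat_lit 0) (nat_lit 0) (XT.lf (nat_lit 0) (nat_lit 8187036068) (nat_lit 152) (nat_lit 13259337008) (nat_lit 0) (nat_lit 4268015010) (nat_lit 8) (nat_lit 5) (nat_lit 10) (nat_lit 4) (nat_lit 8) (nat_lit 4) (nat_lit 527) (nat_lit 313) (nat_lit 300)) (XT.lf (nat_lit 0) (nat_lit 11870104336) (nat_lit 152) (nat_lit 6590765180) (nat_lit 0) (nat_lit 7689360476) (nat_lit 8) (nat_lit 5)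 (nat_lit 10) (nat_lit 4) (nat_lit 8) (nat_lit 4) (nat_lit 528) (nat_lit 313) (nat_lit 299))) (XT.nd (nat_lit 78) (nat_lit 0) (nat_lit 0) (XT.lf (nat_lit 0) (nat_lit 130653881) (nat_lit 76) (nat_lit 15451191569) (nat_lit 76) (nat_lit 11013856726) (nat_lit 7) (nat_lit 4) (nat_lit 8) (nat_lit 5) (nat_lit 8) (nat_lit 4) (nat_lit 529) (nat_lit 313) (nat_lit 298)) (XT.lf (nat_lit 0) (nat_lit 6994144169) (nat_lit 76) (nat_lit 12372436244) (nat_lit 76) (nat_lit 7683541614) (nat_lit 7) (nat_lit 4) (nat_lit 8) (nat_lit 5) (nat_lit 8) (nat_lit 4) (nat_lit 530) (nat_lit 313) (nat_lit 297))))) (XT.nd (nat_lit 58032) (nat_lit 0) (nat_lit 532) (XT.nd (nat_lit 57876) (nat_lit 0) (nat_lit 684) (XT.lf (nat_lit 0) (nat_lit 13914809445) (nat_lit 76) (nat_lit 9267623689) (nat_lit 76) (nat_lit 4332101817) (nat_lit 7) (nat_lit 4) (nat_lit 8) (nat_lit 5) (nat_lit 8) (nat_lit 4) (nat_lit 531) (nat_lit 313) (nat_lit 296)) (XT.nd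 (nat_lit 78) (nat_lit 152) (nat_lit 0) (XT.lf (nat_lit 0) (nat_lit 7243192563) (nat_lit 152) (nat_lit 1422669287) (nat_lit 152) (nat_lit 1422669287) (nat_lit 18) (nat_lit 4) (nat_lit 20) (nat_lit 5) (nat_lit 20) (nat_lit 4) (nat_lit 512) (nat_lit 314) (nat_lit 314)) (XT.lf (nat_lit 0) (nat_lit 1038382144) (nat_lit 152) (nat_lit 18776684324) (nat_lit 0) (nat_lit 679092822) (nat_lit 16) (nat_lit 5) (nat_lit 18) (nat_lit 4) (nat_lit 16) (nat_lit 4) (nat_lit 513) (nat_lit 314) (nat_lit 313)))) (XT.nd (nat_lit 156) (nat_lit 152) (nat_lit 0) (XT.nd (nat_lit 78) (nat_lit 0) (nat_lit 0) (XT.lf (nat_lit 0) (nat_lit 4962630238) (nat_lit 152) (nat_lit 11603495094) (nat_lit 0) (nat_lit 4251096483) (nat_lit 16) (nat_lit 5) (nat_lit 18) (nat_lit 4) (nat_lit 16) (nat_lit 4) (nat_lit 514) (nat_lit 314) (nat_lit 312)) (XT.lf (nat_lit 0) (nat_lit 8910101325) (nat_lit 152) (nat_lit 4384538012) (nat_lit 0) (nat_lit 7853229890)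 (nat_lit 16) (nat_lit 5) (nat_lit 18) (nat_lit 4) (nat_lit 16) (nat_lit 4) (nat_lit 515) (nat_lit 314) (nat_lit 311))) (XT.nd (nat_lit 78) (nat_lit 0) (nat_lit 0) (XT.lf (nat_lit 0) (nat_lit 2921331675) (nat_lit 152) (nat_lit 9979978980) (nat_lit 152) (nat_lit 8584541193) (nat_lit 14) (nat_lit 4) (nat_lit 16) (nat_lit 5) (nat_lit 16) (nat_lit 4) (nat_lit 516) (nat_lit 314) (nat_lit 310)) (XT.lf (nat_lit 0) (nat_lit 10337602129) (nat_lit 152) (nat_lit 6610430743) (nat_lit 152) (nat_lit 4883065158) (nat_lit 14) (nat_lit 4) (nat_lit 16) (nat_lit 5) (nat_lit 16) (nat_lit 4) (nat_lit 517) (nat_lit 314) (nat_lit 309)))))) (XT.nd (nat_lit 546) (nat_lit 228) (nat_lit 0) (XT.nd (nat_lit 234) (nat_lit 152) (nat_lit 0) (XT.nd (nat_lit 78) (nat_lit 152) (nat_lit 0) (XT.lf (nat_lit 0) (nat_lit 17808913491) (nat_lit 152) (nat_lit 3214095790) (nat_lit 152) (nat_lit 1161310797) (nat_lit 14) (nat_lit 4) (nat_lit 16) (nat_lit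 5) (nat_lit 16) (nat_lit 4) (nat_lit 518) (nat_lit 314) (nat_lit 308)) (XT.nd (nat_lit 78) (nat_lit 0) (nat_lit 0) (XT.lf (nat_lit 0) (nat_lit 2568175046) (nat_lit 152) (nat_lit 19733891208) (nat_lit 0) (nat_lit 242857763) (nat_lit 12) (nat_lit 5) (nat_lit 14) (nat_lit 4) (nat_lit 12) (nat_lit 4) (nat_lit 519) (nat_lit 314) (nat_lit 307)) (XT.lf (nat_lit 0) (nat_lit 6355715935) (nat_lit 152) (nat_lit 12833157931) (nat_lit 0) (nat_lit 3723748675) (nat_lit 12) (nat_lit 5) (nat_lit 14) (nat_lit 4) (nat_lit 12) (nat_lit 4) (nat_lit 520) (nat_lit 314) (nat_lit 306)))) (XT.nd (nat_lit 156) (nat_lit 0) (nat_lit 0) (XT.nd (nat_lit 78) (nat_lit 152) (nat_lit 0) (XT.lf (nat_lit 0) (nat_lit 10168183733) (nat_lit 152) (nat_lit 5884944555) (nat_lit 0) (nat_lit 7235579241) (nat_lit 12) (nat_lit 5) (nat_lit 14) (nat_lit 4) (nat_lit 12) (nat_lit 4) (nat_lit 521) (nat_lit 314) (nat_lit 305)) (XT.lf (nat_lit 0) (nat_lit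 1128271188) (nat_lit 152) (nat_lit 12886127823) (nat_lit 152) (nat_lit 9658780946) (nat_lit 10) (nat_lit 4) (nat_lit 12) (nat_lit 5) (nat_lit 12) (nat_lit 4) (nat_lit 522) (nat_lit 314) (nat_lit 304))) (XT.nd (nat_lit 78) (nat_lit 0) (nat_lit 0) (XT.lf (nat_lit 0) (nat_lit 8273347783) (nat_lit 152) (nat_lit 9654259039) (nat_lit 152) (nat_lit 6137949041) (nat_lit 10) (nat_lit 4) (nat_lit 12) (nat_lit 5) (nat_lit 12) (nat_lit 4) (nat_lit 523) (nat_lit 314) (nat_lit 303)) (XT.lf (nat_lit 0) (nat_lit 15474879405) (nat_lit 152) (nat_lit 6395745614) (nat_lit 152) (nat_lit 2596138437) (nat_lit 10) (nat_lit 4) (nat_lit 12) (nat_lit 5) (nat_lit 12) (nat_lit 4) (nat_lit 524) (nat_lit 314) (nat_lit 302))))) (XT.nd (nat_lit 234) (nat_lit 76) (nat_lit 0) (XT.nd (nat_lit 78) (nat_lit 76) (nat_lit 0) (XT.lf (nat_lit 0) (nat_lit 955343793) (nat_lit 228) (nat_lit 2147555045) (nat_lit 76) (nat_lit 21773935530) (nat_lit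 9) (nat_lit 5) (nat_lit 12) (nat_lit 5) (nat_lit 10) (nat_lit 4) (nat_lit 525) (nat_lit 314) (nat_lit 301)) (XT.nd (nat_lit 78) (nat_lit 0) (nat_lit 0) (XT.lf (nat_lit 0) (nat_lit 4529109104) (nat_lit 152) (nat_lit 20501197925) (nat_lit 0) (nat_lit 264750367) (nat_lit 8) (nat_lit 5) (nat_lit 10) (nat_lit 4) (nat_lit 8) (nat_lit 4) (nat_lit 526) (nat_lit 314) (nat_lit 300)) (XT.lf (nat_lit 0) (nat_lit 8162651838) (nat_lit 152) (nat_lit 13922670650) (nat_lit 0) (nat_lit 3636570298) (nat_lit 8) (nat_lit 5) (nat_lit 10) (nat_lit 4) (nat_lit 8) (nat_lit 4) (nat_lit 527) (nat_lit 314) (nat_lit 299)))) (XT.nd (nat_lit 156) (nat_lit 76) (nat_lit 0) (XT.nd (nat_lit 78) (nat_lit 0) (nat_lit 0) (XT.lf (nat_lit 0) (nat_lit 11823028616) (nat_lit 152) (nat_lit 7294810580) (nat_lit 0) (nat_lit 7040356093) (nat_lit 8) (nat_lit 5) (nat_lit 10) (nat_lit 4) (nat_lit 8) (nat_lit 4) (nat_lit 528) (nat_lit 314) (nat_lit 298))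 (XT.lf (nat_lit 0) (nat_lit 15511674880) (nat_lit 152) (nat_lit 615018555) (nat_lit 0) (nat_lit 10477442570) (nat_lit 8) (nat_lit 5) (nat_lit 10) (nat_lit 4) (nat_lit 8) (nat_lit 4) (nat_lit 529) (nat_lit 314) (nat_lit 297))) (XT.nd (nat_lit 78) (nat_lit 0) (nat_lit 0) (XT.lf (nat_lit 0) (nat_lit 6200647559) (nat_lit 76) (nat_lit 13069648316) (nat_lit 76) (nat_lit 7788788764) (nat_lit 7) (nat_lit 4) (nat_lit 8) (nat_lit 5) (nat_lit 8) (nat_lit 4) (nat_lit 530) (nat_lit 314) (nat_lit 296)) (XT.lf (nat_lit 0) (nat_lit 13082439406) (nat_lit 76) (nat_lit 9982074101) (nat_lit 76) (nat_lit 4459423135) (nat_lit 7) (nat_lit 4) (nat_lit 8) (nat_lit 5) (nat_lit 8) (nat_lit 4) (nat_lit 531) (nat_lit 314) (nat_lit 295))))))))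
noncomputable def xc2 : XT := (XT.nd (nat_lit 59592) (nat_lit 0) (nat_lit 0) (XT.nd (nat_lit 1014) (nat_lit 228) (nat_lit 0) (XT.nd (nat_lit 468) (nat_lit 456) (nat_lit 0) (XT.nd (nat_lit 234) (nat_lit 152) (nat_lit 0) (XT.nd (nat_lit 78) (nat_lit 152) (nat_lit 0) (XT.lf (nat_lit 0) (nat_lit 4710203072) (nat_lit 152) (nat_lit 361203762) (nat_lit 0) (nat_lit 4710203072) (nat_lit 20) (nat_lit 5) (nat_lit 22) (nat_lit 4) (nat_lit 20) (nat_lit 4) (nat_lit 510) (nat_lit 315) (nat_lit 315)) (XT.nd (nat_lit 78) (nat_lit 0) (nat_lit 0) (XT.lf (nat_lit 0) (nat_lit 6826515084) (nat_lit 152) (nat_lit 6707077030) (nat_lit 152) (nat_lit 6333272419) (nat_lit 18) (nat_lit 4) (nat_lit 20) (nat_lit 5) (nat_lit 20) (nat_lit 4) (nat_lit 511) (nat_lit 315) (nat_lit 314)) (XT.lf (nat_lit 0) (nat_lit 14437538615) (nat_lit 152) (nat_lit 3240184574) (nat_lit 152) (nat_lit 2499904855) (nat_lit 18) (nat_lit 4) (nat_lit 20) (nat_lit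 5) (nat_lit 20) (nat_lit 4) (nat_lit 512) (nat_lit 315) (nat_lit 313)))) (XT.nd (nat_lit 78) (nat_lit 0) (nat_lit 0) (XT.lf (nat_lit 0) (nat_lit 1348490044) (nat_lit 152) (nat_lit 18876334175) (nat_lit 0) (nat_lit 270481180) (nat_lit 16) (nat_lit 5) (nat_lit 18) (nat_lit 4) (nat_lit 16) (nat_lit 4) (nat_lit 513) (nat_lit 315) (nat_lit 312)) (XT.nd (nat_lit 78) (nat_lit 0) (nat_lit 0) (XT.lf (nat_lit 0) (nat_lit 5245380728) (nat_lit 152) (nat_lit 11751509268) (nat_lit 0) (nat_lit 3822034184) (nat_lit 16) (nat_lit 5) (nat_lit 18) (nat_lit 4) (nat_lit 16) (nat_lit 4) (nat_lit 514) (nat_lit 315) (nat_lit 311)) (XT.lf (nat_lit 0) (nat_lit 9166030824) (nat_lit 152) (nat_lit 4579968190) (nat_lit 0) (nat_lit 7404117928) (nat_lit 16) (nat_lit 5) (nat_lit 18) (nat_lit 4) (nat_lit 16) (nat_lit 4) (nat_lit 515) (nat_lit 315) (nat_lit 310))))) (XT.nd (nat_lit 234) (nat_lit 304) (nat_lit 0) (XT.nd (nat_lit 78) (nat_lit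 0) (nat_lit 0) (XT.lf (nat_lit 0) (nat_lit 2676200277) (nat_lit 152) (nat_lit 10453153233) (nat_lit 152) (nat_lit 8359312540) (nat_lit 14) (nat_lit 4) (nat_lit 16) (nat_lit 5) (nat_lit 16) (nat_lit 4) (nat_lit 516) (nat_lit 315) (nat_lit 309)) (XT.nd (nat_lit 78) (nat_lit 0) (nat_lit 0) (XT.lf (nat_lit 0) (nat_lit 10046290285) (nat_lit 152) (nat_lit 7103706109) (nat_lit 152) (nat_lit 4684446008) (nat_lit 14) (nat_lit 4) (nat_lit 16) (nat_lit 5) (nat_lit 16) (nat_lit 4) (nat_lit 517) (nat_lit 315) (nat_lit 308)) (XT.lf (nat_lit 0) (nat_lit 17472326698) (nat_lit 152) (nat_lit 3727078131) (nat_lit 152) (nat_lit 988779394) (nat_lit 14) (nat_lit 4) (nat_lit 16) (nat_lit 5) (nat_lit 16) (nat_lit 4) (nat_lit 518) (nat_lit 315) (nat_lit 307)))) (XT.nd (nat_lit 156) (nat_lit 152) (nat_lit 0) (XT.nd (nat_lit 78) (nat_lit 0) (nat_lit 0) (XT.lf (nat_lit 0) (nat_lit 2421226911) (nat_lit 76) (nat_lit 287836764) (nat_lit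 152) (nat_lit 19840297771) (nat_lit 12) (nat_lit 5) (nat_lit 13) (nat_lit 5) (nat_lit 14) (nat_lit 4) (nat_lit 519) (nat_lit 315) (nat_lit 306)) (XT.lf (nat_lit 0) (nat_lit 6469575386) (nat_lit 152) (nat_lit 13270351523) (nat_lit 0) (nat_lit 3177681572) (nat_lit 12) (nat_lit 5) (nat_lit 14) (nat_lit 4) (nat_lit 12) (nat_lit 4) (nat_lit 520) (nat_lit 315) (nat_lit 305))) (XT.nd (nat_lit 78) (nat_lit 152) (nat_lit 0) (XT.lf (nat_lit 0) (nat_lit 10257376174) (nat_lit 152) (nat_lit 6366078434) (nat_lit 0) (nat_lit 6670739976) (nat_lit 12) (nat_lit 5) (nat_lit 14) (nat_lit 4) (nat_lit 12) (nat_lit 4) (nat_lit 521) (nat_lit 315) (nat_lit 304)) (XT.lf (nat_lit 0) (nat_lit 597092087) (nat_lit 152) (nat_lit 13478867254) (nat_lit 152) (nat_lit 9603267934) (nat_lit 10) (nat_lit 4) (nat_lit 12) (nat_lit 5) (nat_lit 12) (nat_lit 4) (nat_lit 522) (nat_lit 315) (nat_lit 303)))))) (XT.nd (nat_lit 546) (nat_lit 76) (nat_lit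 0) (XT.nd (nat_lit 234) (nat_lit 76) (nat_lit 0) (XT.nd (nat_lit 78) (nat_lit 76) (nat_lit 0) (XT.lf (nat_lit 0) (nat_lit 7699373383) (nat_lit 152) (nat_lit 10265806754) (nat_lit 152) (nat_lit 6106910256) (nat_lit 10) (nat_lit 4) (nat_lit 12) (nat_lit 5) (nat_lit 12) (nat_lit 4) (nat_lit 523) (nat_lit 315) (nat_lit 302)) (XT.nd (nat_lit 78) (nat_lit 76) (nat_lit 0) (XT.lf (nat_lit 0) (nat_lit 14858948828) (nat_lit 152) (nat_lit 7025732823) (nat_lit 152) (nat_lit 2589093993) (nat_lit 10) (nat_lit 4) (nat_lit 12) (nat_lit 5) (nat_lit 12) (nat_lit 4) (nat_lit 524) (nat_lit 315) (nat_lit 301)) (XT.lf (nat_lit 0) (nat_lit 939080504) (nat_lit 228) (nat_lit 2811992614) (nat_lit 76) (nat_lit 21133243871) (nat_lit 9) (nat_lit 5) (nat_lit 12) (nat_lit 5) (nat_lit 10) (nat_lit 4) (nat_lit 525) (nat_lit 315) (nat_lit 300)))) (XT.nd (nat_lit 156) (nat_lit 0) (nat_lit 0) (XT.nd (nat_lit 78) (nat_lit 0) (nat_lit 0)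 (XT.lf (nat_lit 0) (nat_lit 4081192116) (nat_lit 76) (nat_lit 402513135) (nat_lit 152) (nat_lit 20819424480) (nat_lit 8) (nat_lit 5) (nat_lit 9) (nat_lit 5) (nat_lit 10) (nat_lit 4) (nat_lit 526) (nat_lit 315) (nat_lit 299)) (XT.lf (nat_lit 0) (nat_lit 8091943113) (nat_lit 152) (nat_lit 14681508716) (nat_lit 0) (nat_lit 2957026157) (nat_lit 8) (nat_lit 5) (nat_lit 10) (nat_lit 4) (nat_lit 8) (nat_lit 4) (nat_lit 527) (nat_lit 315) (nat_lit 298))) (XT.nd (nat_lit 78) (nat_lit 0) (nat_lit 0) (XT.lf (nat_lit 0) (nat_lit 11730073332) (nat_lit 152) (nat_lit 8093562134) (nat_lit 0) (nat_lit 6343596589) (nat_lit 8) (nat_lit 5) (nat_lit 10) (nat_lit 4) (nat_lit 8) (nat_lit 4) (nat_lit 528) (nat_lit 315) (nat_lit 297)) (XT.lf (nat_lit 0) (nat_lit 15396909244) (nat_lit 152) (nat_lit 1452900979) (nat_lit 0) (nat_lit 9763805259) (nat_lit 8) (nat_lit 5) (nat_lit 10) (nat_lit 4) (nat_lit 8) (nat_lit 4) (nat_lit 529)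 (nat_lit 315) (nat_lit 296))))) (XT.nd (nat_lit 57720) (nat_lit 0) (nat_lit 836) (XT.nd (nat_lit 78) (nat_lit 0) (nat_lit 0) (XT.lf (nat_lit 0) (nat_lit 5312756688) (nat_lit 76) (nat_lit 13815626076) (nat_lit 76) (nat_lit 7940730677) (nat_lit 7) (nat_lit 4) (nat_lit 8) (nat_lit 5) (nat_lit 8) (nat_lit 4) (nat_lit 530) (nat_lit 315) (nat_lit 295)) (XT.nd (nat_lit 57564) (nat_lit 0) (nat_lit 988) (XT.lf (nat_lit 0) (nat_lit 12156437328) (nat_lit 76) (nat_lit 10744952196) (nat_lit 76) (nat_lit 4633006391) (nat_lit 7) (nat_lit 4) (nat_lit 8) (nat_lit 5) (nat_lit 8) (nat_lit 4) (nat_lit 531) (nat_lit 315) (nat_lit 294)) (XT.lf (nat_lit 0) (nat_lit 881869789) (nat_lit 152) (nat_lit 7723641686) (nat_lit 0) (nat_lit 881869789) (nat_lit 20) (nat_lit 5) (nat_lit 22) (nat_lit 4) (nat_lit 20) (nat_lit 4) (nat_lit 508) (nat_lit 316) (nat_lit 316)))) (XT.nd (nat_lit 156) (nat_lit 152) (nat_lit 0) (XT.nd (nat_lit 78)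 (nat_lit 0) (nat_lit 0) (XT.lf (nat_lit 0) (nat_lit 5757079065) (nat_lit 152) (nat_lit 8132912458) (nat_lit 0) (nat_lit 5375798362) (nat_lit 20) (nat_lit 5) (nat_lit 22) (nat_lit 4) (nat_lit 20) (nat_lit 4) (nat_lit 509) (nat_lit 316) (nat_lit 315)) (XT.lf (nat_lit 0) (nat_lit 9773649109) (nat_lit 152) (nat_lit 771577522) (nat_lit 0) (nat_lit 9018563795) (nat_lit 20) (nat_lit 5) (nat_lit 22) (nat_lit 4) (nat_lit 20) (nat_lit 4) (nat_lit 510) (nat_lit 316) (nat_lit 314))) (XT.nd (nat_lit 78) (nat_lit 0) (nat_lit 0) (XT.lf (nat_lit 0) (nat_lit 6727845130) (nat_lit 152) (nat_lit 7130861338) (nat_lit 152) (nat_lit 6009300916) (nat_lit 18) (nat_lit 4) (nat_lit 20) (nat_lit 5) (nat_lit 20) (nat_lit 4) (nat_lit 511) (nat_lit 316) (nat_lit 313)) (XT.lf (nat_lit 0) (nat_lit 14290979924) (nat_lit 152) (nat_lit 3684597694) (nat_lit 152) (nat_lit 2203747951) (nat_lit 18) (nat_lit 4) (nat_lit 20) (nat_lit 5) (nat_lit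 20) (nat_lit 4) (nat_lit 512) (nat_lit 316) (nat_lit 312))))))) (XT.nd (nat_lit 1014) (nat_lit 152) (nat_lit 0) (XT.nd (nat_lit 468) (nat_lit 380) (nat_lit 0) (XT.nd (nat_lit 234) (nat_lit 152) (nat_lit 0) (XT.nd (nat_lit 78) (nat_lit 0) (nat_lit 0) (XT.lf (nat_lit 0) (nat_lit 1420666131) (nat_lit 76) (nat_lit 190106298) (nat_lit 152) (nat_lit 18886800954) (nat_lit 16) (nat_lit 5) (nat_lit 17) (nat_lit 5) (nat_lit 18) (nat_lit 4) (nat_lit 513) (nat_lit 316) (nat_lit 311)) (XT.nd (nat_lit 78) (nat_lit 0) (nat_lit 0) (XT.lf (nat_lit 0) (nat_lit 5479607826) (nat_lit 152) (nat_lit 11998264053) (nat_lit 0) (nat_lit 3343890320) (nat_lit 16) (nat_lit 5) (nat_lit 18) (nat_lit 4) (nat_lit 16) (nat_lit 4) (nat_lit 514) (nat_lit 316) (nat_lit 310)) (XT.lf (nat_lit 0) (nat_lit 9373962833) (nat_lit 152) (nat_lit 4873209252) (nat_lit 0) (nat_lit 6906317530) (nat_lit 16) (nat_lit 5) (nat_lit 18) (nat_lit 4) (nat_lit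 16) (nat_lit 4) (nat_lit 515) (nat_lit 316) (nat_lit 309)))) (XT.nd (nat_lit 78) (nat_lit 0) (nat_lit 0) (XT.lf (nat_lit 0) (nat_lit 2332881748) (nat_lit 152) (nat_lit 10976395220) (nat_lit 152) (nat_lit 8183330509) (nat_lit 14) (nat_lit 4) (nat_lit 16) (nat_lit 5) (nat_lit 16) (nat_lit 4) (nat_lit 516) (nat_lit 316) (nat_lit 308)) (XT.nd (nat_lit 78) (nat_lit 0) (nat_lit 0) (XT.lf (nat_lit 0) (nat_lit 9657696808) (nat_lit 152) (nat_lit 7646655071) (nat_lit 152) (nat_lit 4534551724) (nat_lit 14) (nat_lit 4) (nat_lit 16) (nat_lit 5) (nat_lit 16) (nat_lit 4) (nat_lit 517) (nat_lit 316) (nat_lit 307)) (XT.lf (nat_lit 0) (nat_lit 17039346018) (nat_lit 152) (nat_lit 4289347656) (nat_lit 152) (nat_lit 864461332) (nat_lit 14) (nat_lit 4) (nat_lit 16) (nat_lit 5) (nat_lit 16) (nat_lit 4) (nat_lit 518) (nat_lit 316) (nat_lit 306))))) (XT.nd (nat_lit 234) (nat_lit 228) (nat_lit 0) (XT.nd (nat_lit 78) (nat_lit 0)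 (nat_lit 0) (XT.lf (nat_lit 0) (nat_lit 1932200974) (nat_lit 76) (nat_lit 871629359) (nat_lit 152) (nat_lit 19751052100) (nat_lit 12) (nat_lit 5) (nat_lit 13) (nat_lit 5) (nat_lit 14) (nat_lit 4) (nat_lit 519) (nat_lit 316) (nat_lit 305)) (XT.nd (nat_lit 78) (nat_lit 0) (nat_lit 0) (XT.lf (nat_lit 0) (nat_lit 6535884665) (nat_lit 152) (nat_lit 13805048366) (nat_lit 0) (nat_lit 2582773359) (nat_lit 12) (nat_lit 5) (nat_lit 14) (nat_lit 4) (nat_lit 12) (nat_lit 4) (nat_lit 520) (nat_lit 316) (nat_lit 304)) (XT.lf (nat_lit 0) (nat_lit 10299502110) (nat_lit 152) (nat_lit 6943853989) (nat_lit 0) (nat_lit 6057427681) (nat_lit 12) (nat_lit 5) (nat_lit 14) (nat_lit 4) (nat_lit 12) (nat_lit 4) (nat_lit 521) (nat_lit 316) (nat_lit 303)))) (XT.nd (nat_lit 156) (nat_lit 76) (nat_lit 0) (XT.nd (nat_lit 78) (nat_lit 152) (nat_lit 0) (XT.lf (nat_lit 0) (nat_lit 14090499399) (nat_lit 152) (nat_lit 30748469) (nat_lit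 0) (nat_lit 9565127792) (nat_lit 12) (nat_lit 5) (nat_lit 14) (nat_lit 4) (nat_lit 12) (nat_lit 4) (nat_lit 522) (nat_lit 316) (nat_lit 302)) (XT.lf (nat_lit 0) (nat_lit 7029168018) (nat_lit 152) (nat_lit 10926833202) (nat_lit 152) (nat_lit 6123719263) (nat_lit 10) (nat_lit 4) (nat_lit 12) (nat_lit 5) (nat_lit 12) (nat_lit 4) (nat_lit 523) (nat_lit 316) (nat_lit 301))) (XT.nd (nat_lit 78) (nat_lit 76) (nat_lit 0) (XT.lf (nat_lit 0) (nat_lit 14147609957) (nat_lit 152) (nat_lit 7704837206) (nat_lit 152) (nat_lit 2629426864) (nat_lit 10) (nat_lit 4) (nat_lit 12) (nat_lit 5) (nat_lit 12) (nat_lit 4) (nat_lit 524) (nat_lit 316) (nat_lit 300)) (XT.lf (nat_lit 0) (nat_lit 876516465) (nat_lit 228) (nat_lit 3571804340) (nat_lit 76) (nat_lit 20444561910) (nat_lit 9) (nat_lit 5) (nat_lit 12) (nat_lit 5) (nat_lit 10) (nat_lit 4) (nat_lit 525) (nat_lit 316) (nat_lit 299)))))) (XT.nd (nat_lit 57876) (nat_lit 0) (nat_lit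 684) (XT.nd (nat_lit 234) (nat_lit 76) (nat_lit 0) (XT.nd (nat_lit 78) (nat_lit 0) (nat_lit 0) (XT.lf (nat_lit 0) (nat_lit 3270913897) (nat_lit 76) (nat_lit 1122652588) (nat_lit 152) (nat_lit 20918687234) (nat_lit 8) (nat_lit 5) (nat_lit 9) (nat_lit 5) (nat_lit 10) (nat_lit 4) (nat_lit 526) (nat_lit 316) (nat_lit 298)) (XT.nd (nat_lit 78) (nat_lit 0) (nat_lit 0) (XT.lf (nat_lit 0) (nat_lit 7974882164) (nat_lit 152) (nat_lit 15536148788) (nat_lit 0) (nat_lit 2229116099) (nat_lit 8) (nat_lit 5) (nat_lit 10) (nat_lit 4) (nat_lit 8) (nat_lit 4) (nat_lit 527) (nat_lit 316) (nat_lit 297)) (XT.lf (nat_lit 0) (nat_lit 11591202031) (nat_lit 152) (nat_lit 8987333077) (nat_lit 0) (nat_lit 5598808724) (nat_lit 8) (nat_lit 5) (nat_lit 10) (nat_lit 4) (nat_lit 8) (nat_lit 4) (nat_lit 528) (nat_lit 316) (nat_lit 296)))) (XT.nd (nat_lit 156) (nat_lit 0) (nat_lit 0) (XT.nd (nat_lit 78) (nat_lit 76) (nat_lit 0) (XT.lf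 (nat_lit 0) (nat_lit 15236655246) (nat_lit 152) (nat_lit 2385035521) (nat_lit 0) (nat_lit 9002470524) (nat_lit 8) (nat_lit 5) (nat_lit 10) (nat_lit 4) (nat_lit 8) (nat_lit 4) (nat_lit 529) (nat_lit 316) (nat_lit 295)) (XT.lf (nat_lit 0) (nat_lit 4330123363) (nat_lit 76) (nat_lit 14610662067) (nat_lit 76) (nat_lit 8139426940) (nat_lit 7) (nat_lit 4) (nat_lit 8) (nat_lit 5) (nat_lit 8) (nat_lit 4) (nat_lit 530) (nat_lit 316) (nat_lit 294))) (XT.nd (nat_lit 57408) (nat_lit 0) (nat_lit 1140) (XT.lf (nat_lit 0) (nat_lit 11136440074) (nat_lit 76) (nat_lit 11556557141) (nat_lit 76) (nat_lit 4852919655) (nat_lit 7) (nat_lit 4) (nat_lit 8) (nat_lit 5) (nat_lit 8) (nat_lit 4) (nat_lit 531) (nat_lit 316) (nat_lit 293)) (XT.lf (nat_lit 0) (nat_lit 3501139890) (nat_lit 152) (nat_lit 2851826982) (nat_lit 152) (nat_lit 2851826982) (nat_lit 22) (nat_lit 4) (nat_lit 24) (nat_lit 5) (nat_lit 24) (nat_lit 4) (nat_lit 506)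 (nat_lit 317) (nat_lit 317))))) (XT.nd (nat_lit 234) (nat_lit 304) (nat_lit 0) (XT.nd (nat_lit 78) (nat_lit 152) (nat_lit 0) (XT.lf (nat_lit 0) (nat_lit 14689073667) (nat_lit 152) (nat_lit 2198577835) (nat_lit 152) (nat_lit 1801893391) (nat_lit 22) (nat_lit 4) (nat_lit 24) (nat_lit 5) (nat_lit 24) (nat_lit 4) (nat_lit 507) (nat_lit 317) (nat_lit 316)) (XT.nd (nat_lit 78) (nat_lit 0) (nat_lit 0) (XT.lf (nat_lit 0) (nat_lit 2124047402) (nat_lit 152) (nat_lit 15497436770) (nat_lit 0) (nat_lit 1353860382) (nat_lit 20) (nat_lit 5) (nat_lit 22) (nat_lit 4) (nat_lit 20) (nat_lit 4) (nat_lit 508) (nat_lit 317) (nat_lit 315)) (XT.lf (nat_lit 0) (nat_lit 6089349149) (nat_lit 152) (nat_lit 8232235855) (nat_lit 0) (nat_lit 4945357519) (nat_lit 20) (nat_lit 5) (nat_lit 22) (nat_lit 4) (nat_lit 20) (nat_lit 4) (nat_lit 509) (nat_lit 317) (nat_lit 314)))) (XT.nd (nat_lit 156) (nat_lit 152) (nat_lit 0) (XT.nd (nat_lit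 78) (nat_lit 152) (nat_lit 0) (XT.lf (nat_lit 0) (nat_lit 10078431214) (nat_lit 152) (nat_lit 919106800) (nat_lit 0) (nat_lit 8567964476) (nat_lit 20) (nat_lit 5) (nat_lit 22) (nat_lit 4) (nat_lit 20) (nat_lit 4) (nat_lit 510) (nat_lit 317) (nat_lit 313)) (XT.lf (nat_lit 0) (nat_lit 6530466529) (nat_lit 152) (nat_lit 7604791533) (nat_lit 152) (nat_lit 5735035472) (nat_lit 18) (nat_lit 4) (nat_lit 20) (nat_lit 5) (nat_lit 20) (nat_lit 4) (nat_lit 511) (nat_lit 317) (nat_lit 312))) (XT.nd (nat_lit 78) (nat_lit 152) (nat_lit 0) (XT.lf (nat_lit 0) (nat_lit 14046651581) (nat_lit 152) (nat_lit 4178752215) (nat_lit 152) (nat_lit 1956751722) (nat_lit 18) (nat_lit 4) (nat_lit 20) (nat_lit 5) (nat_lit 20) (nat_lit 4) (nat_lit 512) (nat_lit 317) (nat_lit 311)) (XT.lf (nat_lit 0) (nat_lit 1121593062) (nat_lit 76) (nat_lit 704610519) (nat_lit 152) (nat_lit 18674743120) (nat_lit 16) (nat_lit 5) (nat_lit 17) (nat_lit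 5) (nat_lit 18) (nat_lit 4) (nat_lit 513) (nat_lit 317) (nat_lit 310))))))))
noncomputable def xc3 : XT := (XT.nd (nat_lit 59280) (nat_lit 0) (nat_lit 0) (XT.nd (nat_lit 1014) (nat_lit 76) (nat_lit 0) (XT.nd (nat_lit 468) (nat_lit 304) (nat_lit 0) (XT.nd (nat_lit 234) (nat_lit 152) (nat_lit 0) (XT.nd (nat_lit 78) (nat_lit 152) (nat_lit 0) (XT.lf (nat_lit 0) (nat_lit 5665403387) (nat_lit 152) (nat_lit 12343856214) (nat_lit 0) (nat_lit 2816477381) (nat_lit 16) (nat_lit 5) (nat_lit 18) (nat_lit 4) (nat_lit 16) (nat_lit 4) (nat_lit 514) (nat_lit 317) (nat_lit 309)) (XT.nd (nat_lit 78) (nat_lit 152) (nat_lit 0) (XT.lf (nat_lit 0) (nat_lit 9533978895) (nat_lit 152) (nat_lit 5264376195) (nat_lit 0) (nat_lit 6359633481) (nat_lit 16) (nat_lit 5) (nat_lit 18) (nat_lit 4) (nat_lit 16) (nat_lit 4) (nat_lit 515) (nat_lit 317) (nat_lit 308)) (XT.lf (nat_lit 0) (nat_lit 1891241454) (nat_lit 152) (nat_lit 11549910136)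 (nat_lit 152) (nat_lit 8056526086) (nat_lit 14) (nat_lit 4) (nat_lit 16) (nat_lit 5) (nat_lit 16) (nat_lit 4) (nat_lit 516) (nat_lit 317) (nat_lit 307)))) (XT.nd (nat_lit 78) (nat_lit 152) (nat_lit 0) (XT.lf (nat_lit 0) (nat_lit 9171669310) (nat_lit 152) (nat_lit 8239490550) (nat_lit 152) (nat_lit 4433323523) (nat_lit 14) (nat_lit 4) (nat_lit 16) (nat_lit 5) (nat_lit 16) (nat_lit 4) (nat_lit 517) (nat_lit 317) (nat_lit 306)) (XT.nd (nat_lit 78) (nat_lit 152) (nat_lit 0) (XT.lf (nat_lit 0) (nat_lit 16509801654) (nat_lit 152) (nat_lit 4901124864) (nat_lit 152) (nat_lit 788307860) (nat_lit 14) (nat_lit 4) (nat_lit 16) (nat_lit 5) (nat_lit 16) (nat_lit 4) (nat_lit 518) (nat_lit 317) (nat_lit 305)) (XT.lf (nat_lit 0) (nat_lit 1345392927) (nat_lit 76) (nat_lit 1505521509) (nat_lit 152) (nat_lit 19710606665) (nat_lit 12) (nat_lit 5) (nat_lit 13) (nat_lit 5) (nat_lit 14) (nat_lit 4) (nat_lit 519) (nat_lit 317)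 (nat_lit 304))))) (XT.nd (nat_lit 234) (nat_lit 304) (nat_lit 0) (XT.nd (nat_lit 78) (nat_lit 0) (nat_lit 0) (XT.lf (nat_lit 0) (nat_lit 6554669777) (nat_lit 152) (nat_lit 14437458145) (nat_lit 0) (nat_lit 1938790738) (nat_lit 12) (nat_lit 5) (nat_lit 14) (nat_lit 4) (nat_lit 12) (nat_lit 4) (nat_lit 520) (nat_lit 317) (nat_lit 303)) (XT.nd (nat_lit 78) (nat_lit 0) (nat_lit 0) (XT.lf (nat_lit 0) (nat_lit 10294578061) (nat_lit 152) (nat_lit 7618497800) (nat_lit 0) (nat_lit 5395401843) (nat_lit 12) (nat_lit 5) (nat_lit 14) (nat_lit 4) (nat_lit 12) (nat_lit 4) (nat_lit 521) (nat_lit 317) (nat_lit 302)) (XT.lf (nat_lit 0) (nat_lit 14062331076) (nat_lit 152) (nat_lit 746798193) (nat_lit 0) (nat_lit 8885412526) (nat_lit 12) (nat_lit 5) (nat_lit 14) (nat_lit 4) (nat_lit 12) (nat_lit 4) (nat_lit 522) (nat_lit 317) (nat_lit 301)))) (XT.nd (nat_lit 156) (nat_lit 152) (nat_lit 0) (XT.nd (nat_lit 78) (nat_lit 0)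 (nat_lit 0) (XT.lf (nat_lit 0) (nat_lit 6262468864) (nat_lit 152) (nat_lit 11637597608) (nat_lit 152) (nat_lit 6188382655) (nat_lit 10) (nat_lit 4) (nat_lit 12) (nat_lit 5) (nat_lit 12) (nat_lit 4) (nat_lit 523) (nat_lit 317) (nat_lit 300)) (XT.lf (nat_lit 0) (nat_lit 13340583836) (nat_lit 152) (nat_lit 8433325079) (nat_lit 152) (nat_lit 2717152867) (nat_lit 10) (nat_lit 4) (nat_lit 12) (nat_lit 5) (nat_lit 12) (nat_lit 4) (nat_lit 524) (nat_lit 317) (nat_lit 299))) (XT.nd (nat_lit 78) (nat_lit 76) (nat_lit 0) (XT.lf (nat_lit 0) (nat_lit 767627140) (nat_lit 228) (nat_lit 4427288189) (nat_lit 76) (nat_lit 19707619577) (nat_lit 9) (nat_lit 5) (nat_lit 12) (nat_lit 5) (nat_lit 10) (nat_lit 4) (nat_lit 525) (nat_lit 317) (nat_lit 298)) (XT.lf (nat_lit 0) (nat_lit 2364483672) (nat_lit 76) (nat_lit 1892432005) (nat_lit 152) (nat_lit 21065552097) (nat_lit 8) (nat_lit 5) (nat_lit 9) (nat_lit 5) (nat_lit 10) (nat_lit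 4) (nat_lit 526) (nat_lit 317) (nat_lit 297)))))) (XT.nd (nat_lit 57720) (nat_lit 0) (nat_lit 836) (XT.nd (nat_lit 234) (nat_lit 76) (nat_lit 0) (XT.nd (nat_lit 78) (nat_lit 0) (nat_lit 0) (XT.lf (nat_lit 0) (nat_lit 7811423086) (nat_lit 152) (nat_lit 16486926021) (nat_lit 0) (nat_lit 1452554670) (nat_lit 8) (nat_lit 5) (nat_lit 10) (nat_lit 4) (nat_lit 8) (nat_lit 4) (nat_lit 527) (nat_lit 317) (nat_lit 296)) (XT.nd (nat_lit 78) (nat_lit 0) (nat_lit 0) (XT.lf (nat_lit 0) (nat_lit 11406360255) (nat_lit 152) (nat_lit 9976473908) (nat_lit 0) (nat_lit 4805700425) (nat_lit 8) (nat_lit 5) (nat_lit 10) (nat_lit 4) (nat_lit 8) (nat_lit 4) (nat_lit 528) (nat_lit 317) (nat_lit 295)) (XT.lf (nat_lit 0) (nat_lit 15030850040) (nat_lit 152) (nat_lit 3411787723) (nat_lit 0) (nat_lit 8193139804) (nat_lit 8) (nat_lit 5) (nat_lit 10) (nat_lit 4) (nat_lit 8) (nat_lit 4) (nat_lit 529) (nat_lit 317) (nat_lit 294)))) (XT.nd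 (nat_lit 57330) (nat_lit 0) (nat_lit 1292) (XT.nd (nat_lit 78) (nat_lit 0) (nat_lit 0) (XT.lf (nat_lit 0) (nat_lit 3252362236) (nat_lit 76) (nat_lit 15455068066) (nat_lit 76) (nat_lit 8384955471) (nat_lit 7) (nat_lit 4) (nat_lit 8) (nat_lit 5) (nat_lit 8) (nat_lit 4) (nat_lit 530) (nat_lit 317) (nat_lit 293)) (XT.lf (nat_lit 0) (nat_lit 10022047646) (nat_lit 76) (nat_lit 12417207213) (nat_lit 76) (nat_lit 5119249169) (nat_lit 7) (nat_lit 4) (nat_lit 8) (nat_lit 5) (nat_lit 8) (nat_lit 4) (nat_lit 531) (nat_lit 317) (nat_lit 292))) (XT.nd (nat_lit 78) (nat_lit 0) (nat_lit 0) (XT.lf (nat_lit 0) (nat_lit 2452115741) (nat_lit 228) (nat_lit 4029683756) (nat_lit 0) (nat_lit 2452115741) (nat_lit 24) (nat_lit 5) (nat_lit 27) (nat_lit 4) (nat_lit 24) (nat_lit 4) (nat_lit 504) (nat_lit 318) (nat_lit 318)) (XT.lf (nat_lit 0) (nat_lit 8958488711) (nat_lit 228) (nat_lit 623828106) (nat_lit 0) (nat_lit 8553870579)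 (nat_lit 24) (nat_lit 5) (nat_lit 27) (nat_lit 4) (nat_lit 24) (nat_lit 4) (nat_lit 505) (nat_lit 318) (nat_lit 317))))) (XT.nd (nat_lit 234) (nat_lit 152) (nat_lit 0) (XT.nd (nat_lit 78) (nat_lit 152) (nat_lit 0) (XT.lf (nat_lit 0) (nat_lit 6952630120) (nat_lit 152) (nat_lit 6129420327) (nat_lit 152) (nat_lit 5328117751) (nat_lit 22) (nat_lit 4) (nat_lit 24) (nat_lit 5) (nat_lit 24) (nat_lit 4) (nat_lit 506) (nat_lit 318) (nat_lit 316)) (XT.nd (nat_lit 78) (nat_lit 152) (nat_lit 0) (XT.lf (nat_lit 0) (nat_lit 14590747870) (nat_lit 152) (nat_lit 2645077757) (nat_lit 152) (nat_lit 1454868865) (nat_lit 22) (nat_lit 4) (nat_lit 24) (nat_lit 5) (nat_lit 24) (nat_lit 4) (nat_lit 507) (nat_lit 318) (nat_lit 315)) (XT.lf (nat_lit 0) (nat_lit 2434925149) (nat_lit 152) (nat_lit 15647916634) (nat_lit 0) (nat_lit 894249076) (nat_lit 20) (nat_lit 5) (nat_lit 22) (nat_lit 4) (nat_lit 20) (nat_lit 4) (nat_lit 508)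 (nat_lit 318) (nat_lit 314)))) (XT.nd (nat_lit 156) (nat_lit 152) (nat_lit 0) (XT.nd (nat_lit 78) (nat_lit 0) (nat_lit 0) (XT.lf (nat_lit 0) (nat_lit 6372738918) (nat_lit 152) (nat_lit 8430921599) (nat_lit 0) (nat_lit 4465587736) (nat_lit 20) (nat_lit 5) (nat_lit 22) (nat_lit 4) (nat_lit 20) (nat_lit 4) (nat_lit 509) (nat_lit 318) (nat_lit 313)) (XT.lf (nat_lit 0) (nat_lit 10334871983) (nat_lit 152) (nat_lit 1165053213) (nat_lit 0) (nat_lit 8068431480) (nat_lit 20) (nat_lit 5) (nat_lit 22) (nat_lit 4) (nat_lit 20) (nat_lit 4) (nat_lit 510) (nat_lit 318) (nat_lit 312))) (XT.nd (nat_lit 78) (nat_lit 0) (nat_lit 0) (XT.lf (nat_lit 0) (nat_lit 6234301876) (nat_lit 152) (nat_lit 8129053470) (nat_lit 152) (nat_lit 5510368533) (nat_lit 18) (nat_lit 4) (nat_lit 20) (nat_lit 5) (nat_lit 20) (nat_lit 4) (nat_lit 511) (nat_lit 318) (nat_lit 311)) (XT.lf (nat_lit 0) (nat_lit 13704457769) (nat_lit 152) (nat_lit 4722841923)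 (nat_lit 152) (nat_lit 1758819307) (nat_lit 18) (nat_lit 4) (nat_lit 20) (nat_lit 5) (nat_lit 20) (nat_lit 4) (nat_lit 512) (nat_lit 318) (nat_lit 310))))))) (XT.nd (nat_lit 1092) (nat_lit 76) (nat_lit 0) (XT.nd (nat_lit 546) (nat_lit 304) (nat_lit 0) (XT.nd (nat_lit 234) (nat_lit 304) (nat_lit 0) (XT.nd (nat_lit 78) (nat_lit 0) (nat_lit 0) (XT.lf (nat_lit 0) (nat_lit 723449807) (nat_lit 76) (nat_lit 1269638696) (nat_lit 152) (nat_lit 18512373763) (nat_lit 16) (nat_lit 5) (nat_lit 17) (nat_lit 5) (nat_lit 18) (nat_lit 4) (nat_lit 513) (nat_lit 318) (nat_lit 309)) (XT.nd (nat_lit 78) (nat_lit 0) (nat_lit 0) (XT.lf (nat_lit 0) (nat_lit 5802840271) (nat_lit 152) (nat_lit 12788421278) (nat_lit 0) (nat_lit 2239588540) (nat_lit 16) (nat_lit 5) (nat_lit 18) (nat_lit 4) (nat_lit 16) (nat_lit 4) (nat_lit 514) (nat_lit 318) (nat_lit 308)) (XT.lf (nat_lit 0) (nat_lit 9646141761) (nat_lit 152) (nat_lit 5753622418)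 (nat_lit 0) (nat_lit 5763851394) (nat_lit 16) (nat_lit 5) (nat_lit 18) (nat_lit 4) (nat_lit 16) (nat_lit 4) (nat_lit 515) (nat_lit 318) (nat_lit 307)))) (XT.nd (nat_lit 156) (nat_lit 152) (nat_lit 0) (XT.nd (nat_lit 78) (nat_lit 0) (nat_lit 0) (XT.lf (nat_lit 0) (nat_lit 1351106203) (nat_lit 152) (nat_lit 12173922888) (nat_lit 152) (nat_lit 7978849545) (nat_lit 14) (nat_lit 4) (nat_lit 16) (nat_lit 5) (nat_lit 16) (nat_lit 4) (nat_lit 516) (nat_lit 318) (nat_lit 306)) (XT.lf (nat_lit 0) (nat_lit 8588017192) (nat_lit 152) (nat_lit 8882445030) (nat_lit 152) (nat_lit 4380721710) (nat_lit 14) (nat_lit 4) (nat_lit 16) (nat_lit 5) (nat_lit 16) (nat_lit 4) (nat_lit 517) (nat_lit 318) (nat_lit 305))) (XT.nd (nat_lit 78) (nat_lit 152) (nat_lit 0) (XT.lf (nat_lit 0) (nat_lit 15883485941) (nat_lit 152) (nat_lit 5562649666) (nat_lit 152) (nat_lit 760289114) (nat_lit 14) (nat_lit 4) (nat_lit 16) (nat_lit 5) (nat_lit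 16) (nat_lit 4) (nat_lit 518) (nat_lit 318) (nat_lit 304)) (XT.lf (nat_lit 0) (nat_lit 660572650) (nat_lit 76) (nat_lit 2189761798) (nat_lit 152) (nat_lit 19718945605) (nat_lit 12) (nat_lit 5) (nat_lit 13) (nat_lit 5) (nat_lit 14) (nat_lit 4) (nat_lit 519) (nat_lit 318) (nat_lit 303))))) (XT.nd (nat_lit 234) (nat_lit 304) (nat_lit 0) (XT.nd (nat_lit 78) (nat_lit 0) (nat_lit 0) (XT.lf (nat_lit 0) (nat_lit 6525938086) (nat_lit 152) (nat_lit 15167828864) (nat_lit 0) (nat_lit 1245481166) (nat_lit 12) (nat_lit 5) (nat_lit 14) (nat_lit 4) (nat_lit 12) (nat_lit 4) (nat_lit 520) (nat_lit 318) (nat_lit 302)) (XT.nd (nat_lit 78) (nat_lit 0) (nat_lit 0) (XT.lf (nat_lit 0) (nat_lit 10242602096) (nat_lit 152) (nat_lit 8390274432) (nat_lit 0) (nat_lit 4684402844) (nat_lit 12) (nat_lit 5) (nat_lit 14) (nat_lit 4) (nat_lit 12) (nat_lit 4) (nat_lit 521) (nat_lit 318) (nat_lit 301)) (XT.lf (nat_lit 0) (nat_lit 13987566606)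 (nat_lit 152) (nat_lit 1559168858) (nat_lit 0) (nat_lit 8157070950) (nat_lit 12) (nat_lit 5) (nat_lit 14) (nat_lit 4) (nat_lit 12) (nat_lit 4) (nat_lit 522) (nat_lit 318) (nat_lit 300)))) (XT.nd (nat_lit 156) (nat_lit 152) (nat_lit 0) (XT.nd (nat_lit 78) (nat_lit 0) (nat_lit 0) (XT.lf (nat_lit 0) (nat_lit 5398975254) (nat_lit 152) (nat_lit 12398378704) (nat_lit 152) (nat_lit 6300925790) (nat_lit 10) (nat_lit 4) (nat_lit 12) (nat_lit 5) (nat_lit 12) (nat_lit 4) (nat_lit 523) (nat_lit 318) (nat_lit 299)) (XT.lf (nat_lit 0) (nat_lit 12437553984) (nat_lit 152) (nat_lit 9211482122) (nat_lit 152) (nat_lit 2852306405) (nat_lit 10) (nat_lit 4) (nat_lit 12) (nat_lit 5) (nat_lit 12) (nat_lit 4) (nat_lit 524) (nat_lit 318) (nat_lit 298))) (XT.nd (nat_lit 78) (nat_lit 76) (nat_lit 0) (XT.lf (nat_lit 0) (nat_lit 612369828) (nat_lit 228) (nat_lit 5378779645) (nat_lit 76) (nat_lit 18922127873) (nat_lit 9) (nat_lit 5)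 (nat_lit 12) (nat_lit 5) (nat_lit 10) (nat_lit 4) (nat_lit 525) (nat_lit 318) (nat_lit 297)) (XT.lf (nat_lit 0) (nat_lit 1361545977) (nat_lit 76) (nat_lit 2712153262) (nat_lit 152) (nat_lit 21260076663) (nat_lit 8) (nat_lit 5) (nat_lit 9) (nat_lit 5) (nat_lit 10) (nat_lit 4) (nat_lit 526) (nat_lit 318) (nat_lit 296)))))) (XT.nd (nat_lit 57564) (nat_lit 0) (nat_lit 988) (XT.nd (nat_lit 234) (nat_lit 76) (nat_lit 0) (XT.nd (nat_lit 78) (nat_lit 0) (nat_lit 0) (XT.lf (nat_lit 0) (nat_lit 7601501776) (nat_lit 152) (nat_lit 17534213267) (nat_lit 0) (nat_lit 627037336) (nat_lit 8) (nat_lit 5) (nat_lit 10) (nat_lit 4) (nat_lit 8) (nat_lit 4) (nat_lit 527) (nat_lit 318) (nat_lit 295)) (XT.nd (nat_lit 78) (nat_lit 0) (nat_lit 0) (XT.lf (nat_lit 0) (nat_lit 11175475515) (nat_lit 152) (nat_lit 11061372525) (nat_lit 0) (nat_lit 3963960669) (nat_lit 8) (nat_lit 5) (nat_lit 10) (nat_lit 4) (nat_lit 8) (nat_lit 4) (nat_lit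 528) (nat_lit 318) (nat_lit 294)) (XT.lf (nat_lit 0) (nat_lit 14779412918) (nat_lit 152) (nat_lit 4533560234) (nat_lit 0) (nat_lit 7335495714) (nat_lit 8) (nat_lit 5) (nat_lit 10) (nat_lit 4) (nat_lit 8) (nat_lit 4) (nat_lit 529) (nat_lit 318) (nat_lit 293)))) (XT.nd (nat_lit 57174) (nat_lit 0) (nat_lit 1292) (XT.nd (nat_lit 78) (nat_lit 0) (nat_lit 0) (XT.lf (nat_lit 0) (nat_lit 2079050657) (nat_lit 76) (nat_lit 16349175212) (nat_lit 76) (nat_lit 8677412558) (nat_lit 7) (nat_lit 4) (nat_lit 8) (nat_lit 5) (nat_lit 8) (nat_lit 4) (nat_lit 530) (nat_lit 318) (nat_lit 292)) (XT.lf (nat_lit 0) (nat_lit 8812823026) (nat_lit 76) (nat_lit 13327239922) (nat_lit 76) (nat_lit 5432099376) (nat_lit 7) (nat_lit 4) (nat_lit 8) (nat_lit 5) (nat_lit 8) (nat_lit 4) (nat_lit 531) (nat_lit 318) (nat_lit 291))) (XT.nd (nat_lit 78) (nat_lit 228) (nat_lit 0) (XT.lf (nat_lit 0) (nat_lit 5995760126) (nat_lit 152) (nat_lit 1339188935)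 (nat_lit 152) (nat_lit 1339188935) (nat_lit 27) (nat_lit 4) (nat_lit 29) (nat_lit 5) (nat_lit 29) (nat_lit 4) (nat_lit 502) (nat_lit 319) (nat_lit 319)) (XT.lf (nat_lit 0) (nat_lit 1285258267) (nat_lit 228) (nat_lit 15448088989) (nat_lit 0) (nat_lit 872547772) (nat_lit 24) (nat_lit 5) (nat_lit 27) (nat_lit 4) (nat_lit 24) (nat_lit 4) (nat_lit 503) (nat_lit 319) (nat_lit 318))))) (XT.nd (nat_lit 234) (nat_lit 152) (nat_lit 0) (XT.nd (nat_lit 78) (nat_lit 152) (nat_lit 0) (XT.lf (nat_lit 0) (nat_lit 5288199326) (nat_lit 228) (nat_lit 8109345977) (nat_lit 0) (nat_lit 4470870699) (nat_lit 24) (nat_lit 5) (nat_lit 27) (nat_lit 4) (nat_lit 24) (nat_lit 4) (nat_lit 504) (nat_lit 319) (nat_lit 317)) (XT.nd (nat_lit 78) (nat_lit 152) (nat_lit 0) (XT.lf (nat_lit 0) (nat_lit 9314277483) (nat_lit 228) (nat_lit 722805067) (nat_lit 0) (nat_lit 8100264413) (nat_lit 24) (nat_lit 5) (nat_lit 27) (nat_lit 4) (nat_lit 24)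 (nat_lit 4) (nat_lit 505) (nat_lit 319) (nat_lit 316)) (XT.lf (nat_lit 0) (nat_lit 6803661671) (nat_lit 152) (nat_lit 6605583807) (nat_lit 152) (nat_lit 5002664420) (nat_lit 22) (nat_lit 4) (nat_lit 24) (nat_lit 5) (nat_lit 24) (nat_lit 4) (nat_lit 506) (nat_lit 319) (nat_lit 315)))) (XT.nd (nat_lit 156) (nat_lit 0) (nat_lit 0) (XT.nd (nat_lit 78) (nat_lit 152) (nat_lit 0) (XT.lf (nat_lit 0) (nat_lit 14394057717) (nat_lit 152) (nat_lit 3141568257) (nat_lit 152) (nat_lit 1157368167) (nat_lit 22) (nat_lit 4) (nat_lit 24) (nat_lit 5) (nat_lit 24) (nat_lit 4) (nat_lit 507) (nat_lit 319) (nat_lit 314)) (XT.lf (nat_lit 0) (nat_lit 2696494734) (nat_lit 152) (nat_lit 15898781975) (nat_lit 0) (nat_lit 384725420) (nat_lit 20) (nat_lit 5) (nat_lit 22) (nat_lit 4) (nat_lit 20) (nat_lit 4) (nat_lit 508) (nat_lit 319) (nat_lit 313))) (XT.nd (nat_lit 78) (nat_lit 0) (nat_lit 0) (XT.lf (nat_lit 0) (nat_lit 6607359503)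 (nat_lit 152) (nat_lit 8729047608) (nat_lit 0) (nat_lit 3936300868) (nat_lit 20) (nat_lit 5) (nat_lit 22) (nat_lit 4) (nat_lit 20) (nat_lit 4) (nat_lit 509) (nat_lit 319) (nat_lit 312)) (XT.lf (nat_lit 0) (nat_lit 10543071981) (nat_lit 152) (nat_lit 1509513209) (nat_lit 0) (nat_lit 7519768912) (nat_lit 20) (nat_lit 5) (nat_lit 22) (nat_lit 4) (nat_lit 20) (nat_lit 4) (nat_lit 510) (nat_lit 319) (nat_lit 311))))))))
noncomputable def xc4 : XT := (XT.nd (nat_lit 58968) (nat_lit 0) (nat_lit 0) (XT.nd (nat_lit 1014) (nat_lit 228) (nat_lit 0) (XT.nd (nat_lit 468) (nat_lit 304) (nat_lit 0) (XT.nd (nat_lit 234) (nat_lit 152) (nat_lit 0) (XT.nd (nat_lit 78) (nat_lit 152) (nat_lit 0) (XT.lf (nat_lit 0) (nat_lit 5839235029) (nat_lit 152) (nat_lit 8703852743) (nat_lit 152) (nat_lit 5335211994) (nat_lit 18) (nat_lit 4) (nat_lit 20) (nat_lit 5) (nat_lit 20) (nat_lit 4) (nat_lit 511) (nat_lit 319) (nat_lit 310)) (XT.nd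 (nat_lit 78) (nat_lit 152) (nat_lit 0) (XT.lf (nat_lit 0) (nat_lit 13264264295) (nat_lit 152) (nat_lit 5317080186) (nat_lit 152) (nat_lit 1609873085) (nat_lit 18) (nat_lit 4) (nat_lit 20) (nat_lit 5) (nat_lit 20) (nat_lit 4) (nat_lit 512) (nat_lit 319) (nat_lit 309)) (XT.lf (nat_lit 0) (nat_lit 226080230) (nat_lit 76) (nat_lit 1885412407) (nat_lit 152) (nat_lit 18399629210) (nat_lit 16) (nat_lit 5) (nat_lit 17) (nat_lit 5) (nat_lit 18) (nat_lit 4) (nat_lit 513) (nat_lit 319) (nat_lit 308)))) (XT.nd (nat_lit 78) (nat_lit 152) (nat_lit 0) (XT.lf (nat_lit 0) (nat_lit 5891972376) (nat_lit 152) (nat_lit 13332133585) (nat_lit 0) (nat_lit 1612997566) (nat_lit 16) (nat_lit 5) (nat_lit 18) (nat_lit 4) (nat_lit 16) (nat_lit 4) (nat_lit 514) (nat_lit 319) (nat_lit 307)) (XT.nd (nat_lit 78) (nat_lit 152) (nat_lit 0) (XT.lf (nat_lit 0) (nat_lit 9710495417) (nat_lit 152) (nat_lit 6341139782) (nat_lit 0) (nat_lit 5118737630)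 (nat_lit 16) (nat_lit 5) (nat_lit 18) (nat_lit 4) (nat_lit 16) (nat_lit 4) (nat_lit 515) (nat_lit 319) (nat_lit 306)) (XT.lf (nat_lit 0) (nat_lit 712264176) (nat_lit 152) (nat_lit 12848678186) (nat_lit 152) (nat_lit 7950270423) (nat_lit 14) (nat_lit 4) (nat_lit 16) (nat_lit 5) (nat_lit 16) (nat_lit 4) (nat_lit 516) (nat_lit 319) (nat_lit 305))))) (XT.nd (nat_lit 234) (nat_lit 228) (nat_lit 0) (XT.nd (nat_lit 78) (nat_lit 76) (nat_lit 0) (XT.lf (nat_lit 0) (nat_lit 7906511571) (nat_lit 152) (nat_lit 9575770651) (nat_lit 152) (nat_lit 4376725655) (nat_lit 14) (nat_lit 4) (nat_lit 16) (nat_lit 5) (nat_lit 16) (nat_lit 4) (nat_lit 517) (nat_lit 319) (nat_lit 304)) (XT.nd (nat_lit 78) (nat_lit 76) (nat_lit 0) (XT.lf (nat_lit 0) (nat_lit 15160153266) (nat_lit 152) (nat_lit 6274181485) (nat_lit 152) (nat_lit 780394105) (nat_lit 14) (nat_lit 4) (nat_lit 16) (nat_lit 5) (nat_lit 16) (nat_lit 4) (nat_lit 518) (nat_lit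 319) (nat_lit 303)) (XT.lf (nat_lit 0) (nat_lit 2802885678) (nat_lit 228) (nat_lit 120921432) (nat_lit 76) (nat_lit 19654339310) (nat_lit 13) (nat_lit 5) (nat_lit 16) (nat_lit 5) (nat_lit 14) (nat_lit 4) (nat_lit 519) (nat_lit 319) (nat_lit 302)))) (XT.nd (nat_lit 156) (nat_lit 152) (nat_lit 0) (XT.nd (nat_lit 78) (nat_lit 0) (nat_lit 0) (XT.lf (nat_lit 0) (nat_lit 6449678327) (nat_lit 152) (nat_lit 15996446942) (nat_lit 0) (nat_lit 502572759) (nat_lit 12) (nat_lit 5) (nat_lit 14) (nat_lit 4) (nat_lit 12) (nat_lit 4) (nat_lit 520) (nat_lit 319) (nat_lit 301)) (XT.lf (nat_lit 0) (nat_lit 10143553832) (nat_lit 152) (nat_lit 9259486543) (nat_lit 0) (nat_lit 3924151859) (nat_lit 12) (nat_lit 5) (nat_lit 14) (nat_lit 4) (nat_lit 12) (nat_lit 4) (nat_lit 521) (nat_lit 319) (nat_lit 300))) (XT.nd (nat_lit 78) (nat_lit 152) (nat_lit 0) (XT.lf (nat_lit 0) (nat_lit 13866176671) (nat_lit 152) (nat_lit 2468179040)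 (nat_lit 0) (nat_lit 7379817440) (nat_lit 12) (nat_lit 5) (nat_lit 14) (nat_lit 4) (nat_lit 12) (nat_lit 4) (nat_lit 522) (nat_lit 319) (nat_lit 299)) (XT.lf (nat_lit 0) (nat_lit 4438348563) (nat_lit 152) (nat_lit 13209474836) (nat_lit 152) (nat_lit 6461392802) (nat_lit 10) (nat_lit 4) (nat_lit 12) (nat_lit 5) (nat_lit 12) (nat_lit 4) (nat_lit 523) (nat_lit 319) (nat_lit 298)))))) (XT.nd (nat_lit 546) (nat_lit 0) (nat_lit 0) (XT.nd (nat_lit 234) (nat_lit 76) (nat_lit 0) (XT.nd (nat_lit 78) (nat_lit 152) (nat_lit 0) (XT.lf (nat_lit 0) (nat_lit 11438166272) (nat_lit 152) (nat_lit 10039613496) (nat_lit 152) (nat_lit 3034940479) (nat_lit 10) (nat_lit 4) (nat_lit 12) (nat_lit 5) (nat_lit 12) (nat_lit 4) (nat_lit 524) (nat_lit 319) (nat_lit 297)) (XT.nd (nat_lit 78) (nat_lit 76) (nat_lit 0) (XT.lf (nat_lit 0) (nat_lit 410683644) (nat_lit 228) (nat_lit 6426651841) (nat_lit 76) (nat_lit 18087778764) (nat_lit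 9) (nat_lit 5) (nat_lit 12) (nat_lit 5) (nat_lit 10) (nat_lit 4) (nat_lit 525) (nat_lit 319) (nat_lit 296)) (XT.lf (nat_lit 0) (nat_lit 261707505) (nat_lit 76) (nat_lit 3582137816) (nat_lit 152) (nat_lit 21502337214) (nat_lit 8) (nat_lit 5) (nat_lit 9) (nat_lit 5) (nat_lit 10) (nat_lit 4) (nat_lit 526) (nat_lit 319) (nat_lit 295)))) (XT.nd (nat_lit 156) (nat_lit 76) (nat_lit 0) (XT.nd (nat_lit 78) (nat_lit 0) (nat_lit 0) (XT.lf (nat_lit 0) (nat_lit 7095613678) (nat_lit 76) (nat_lit 251052231) (nat_lit 152) (nat_lit 18428998994) (nat_lit 8) (nat_lit 5) (nat_lit 9) (nat_lit 5) (nat_lit 10) (nat_lit 4) (nat_lit 527) (nat_lit 319) (nat_lit 294)) (XT.lf (nat_lit 0) (nat_lit 10898457270) (nat_lit 152) (nat_lit 12242454380) (nat_lit 0) (nat_lit 3073259362) (nat_lit 8) (nat_lit 5) (nat_lit 10) (nat_lit 4) (nat_lit 8) (nat_lit 4) (nat_lit 528) (nat_lit 319) (nat_lit 293))) (XT.nd (nat_lit 78) (nat_lit 76) (nat_lit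 0) (XT.lf (nat_lit 0) (nat_lit 14482245279) (nat_lit 152) (nat_lit 5750792964) (nat_lit 0) (nat_lit 6429201922) (nat_lit 8) (nat_lit 5) (nat_lit 10) (nat_lit 4) (nat_lit 8) (nat_lit 4) (nat_lit 529) (nat_lit 319) (nat_lit 292)) (XT.lf (nat_lit 0) (nat_lit 809728504) (nat_lit 76) (nat_lit 17293334137) (nat_lit 76) (nat_lit 9016912889) (nat_lit 7) (nat_lit 4) (nat_lit 8) (nat_lit 5) (nat_lit 8) (nat_lit 4) (nat_lit 530) (nat_lit 319) (nat_lit 291))))) (XT.nd (nat_lit 57096) (nat_lit 0) (nat_lit 1292) (XT.nd (nat_lit 56940) (nat_lit 0) (nat_lit 1520) (XT.lf (nat_lit 0) (nat_lit 7508292009) (nat_lit 76) (nat_lit 14287012143) (nat_lit 76) (nat_lit 5791592961) (nat_lit 7) (nat_lit 4) (nat_lit 8) (nat_lit 5) (nat_lit 8) (nat_lit 4) (nat_lit 531) (nat_lit 319) (nat_lit 290)) (XT.nd (nat_lit 78) (nat_lit 152) (nat_lit 0) (XT.lf (nat_lit 0) (nat_lit 3394323423) (nat_lit 228) (nat_lit 1636075978) (nat_lit 0) (nat_lit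 3394323423) (nat_lit 29) (nat_lit 5) (nat_lit 32) (nat_lit 4) (nat_lit 29) (nat_lit 4) (nat_lit 500) (nat_lit 320) (nat_lit 320)) (XT.lf (nat_lit 0) (nat_lit 4287141050) (nat_lit 152) (nat_lit 6619278387) (nat_lit 152) (nat_lit 6189894388) (nat_lit 27) (nat_lit 4) (nat_lit 29) (nat_lit 5) (nat_lit 29) (nat_lit 4) (nat_lit 501) (nat_lit 320) (nat_lit 319)))) (XT.nd (nat_lit 156) (nat_lit 0) (nat_lit 0) (XT.nd (nat_lit 78) (nat_lit 228) (nat_lit 0) (XT.lf (nat_lit 0) (nat_lit 11942055012) (nat_lit 152) (nat_lit 3128576896) (nat_lit 152) (nat_lit 2278228193) (nat_lit 27) (nat_lit 4) (nat_lit 29) (nat_lit 5) (nat_lit 29) (nat_lit 4) (nat_lit 502) (nat_lit 320) (nat_lit 318)) (XT.lf (nat_lit 0) (nat_lit 1648162815) (nat_lit 228) (nat_lit 15549045489) (nat_lit 0) (nat_lit 409869483) (nat_lit 24) (nat_lit 5) (nat_lit 27) (nat_lit 4) (nat_lit 24) (nat_lit 4) (nat_lit 503) (nat_lit 320) (nat_lit 317))) (XT.nd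 (nat_lit 78) (nat_lit 0) (nat_lit 0) (XT.lf (nat_lit 0) (nat_lit 5622924803) (nat_lit 228) (nat_lit 8259300973) (nat_lit 0) (nat_lit 3987947029) (nat_lit 24) (nat_lit 5) (nat_lit 27) (nat_lit 4) (nat_lit 24) (nat_lit 4) (nat_lit 504) (nat_lit 320) (nat_lit 316)) (XT.lf (nat_lit 0) (nat_lit 9621376421) (nat_lit 228) (nat_lit 920797804) (nat_lit 0) (nat_lit 7597492330) (nat_lit 24) (nat_lit 5) (nat_lit 27) (nat_lit 4) (nat_lit 24) (nat_lit 4) (nat_lit 505) (nat_lit 320) (nat_lit 315))))))) (XT.nd (nat_lit 1014) (nat_lit 532) (nat_lit 0) (XT.nd (nat_lit 468) (nat_lit 304) (nat_lit 0) (XT.nd (nat_lit 234) (nat_lit 152) (nat_lit 0) (XT.nd (nat_lit 78) (nat_lit 152) (nat_lit 0) (XT.lf (nat_lit 0) (nat_lit 6555316012) (nat_lit 152) (nat_lit 7132331136) (nat_lit 152) (nat_lit 4727166342) (nat_lit 22) (nat_lit 4) (nat_lit 24) (nat_lit 5) (nat_lit 24) (nat_lit 4) (nat_lit 506) (nat_lit 320) (nat_lit 314)) (XT.nd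 (nat_lit 78) (nat_lit 152) (nat_lit 0) (XT.lf (nat_lit 0) (nat_lit 14098926075) (nat_lit 152) (nat_lit 3688244036) (nat_lit 152) (nat_lit 909274631) (nat_lit 22) (nat_lit 4) (nat_lit 24) (nat_lit 5) (nat_lit 24) (nat_lit 4) (nat_lit 507) (nat_lit 320) (nat_lit 313)) (XT.lf (nat_lit 0) (nat_lit 2732774593) (nat_lit 76) (nat_lit 177234864) (nat_lit 152) (nat_lit 16074047032) (nat_lit 20) (nat_lit 5) (nat_lit 21) (nat_lit 5) (nat_lit 22) (nat_lit 4) (nat_lit 508) (nat_lit 320) (nat_lit 312)))) (XT.nd (nat_lit 78) (nat_lit 152) (nat_lit 0) (XT.lf (nat_lit 0) (nat_lit 6793302914) (nat_lit 152) (nat_lit 9126730791) (nat_lit 0) (nat_lit 3357289350) (nat_lit 20) (nat_lit 5) (nat_lit 22) (nat_lit 4) (nat_lit 20) (nat_lit 4) (nat_lit 509) (nat_lit 320) (nat_lit 311)) (XT.nd (nat_lit 78) (nat_lit 152) (nat_lit 0) (XT.lf (nat_lit 0) (nat_lit 10703112855) (nat_lit 152) (nat_lit 1952621871) (nat_lit 0) (nat_lit 6921761612)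 (nat_lit 20) (nat_lit 5) (nat_lit 22) (nat_lit 4) (nat_lit 20) (nat_lit 4) (nat_lit 510) (nat_lit 320) (nat_lit 310)) (XT.lf (nat_lit 0) (nat_lit 5345111059) (nat_lit 152) (nat_lit 9329414762) (nat_lit 152) (nat_lit 5209497166) (nat_lit 18) (nat_lit 4) (nat_lit 20) (nat_lit 5) (nat_lit 20) (nat_lit 4) (nat_lit 511) (nat_lit 320) (nat_lit 309))))) (XT.nd (nat_lit 234) (nat_lit 152) (nat_lit 0) (XT.nd (nat_lit 78) (nat_lit 152) (nat_lit 0) (XT.lf (nat_lit 0) (nat_lit 12725898535) (nat_lit 152) (nat_lit 5961700039) (nat_lit 152) (nat_lit 1509854647) (nat_lit 18) (nat_lit 4) (nat_lit 20) (nat_lit 5) (nat_lit 20) (nat_lit 4) (nat_lit 512) (nat_lit 320) (nat_lit 308)) (XT.nd (nat_lit 78) (nat_lit 76) (nat_lit 0) (XT.lf (nat_lit 0) (nat_lit 2183869319) (nat_lit 228) (nat_lit 365848776) (nat_lit 76) (nat_lit 17968161434) (nat_lit 17) (nat_lit 5) (nat_lit 20) (nat_lit 5) (nat_lit 18) (nat_lit 4) (nat_lit 513)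 (nat_lit 320) (nat_lit 307)) (XT.lf (nat_lit 0) (nat_lit 5932834655) (nat_lit 152) (nat_lit 13975206353) (nat_lit 0) (nat_lit 936458737) (nat_lit 16) (nat_lit 5) (nat_lit 18) (nat_lit 4) (nat_lit 16) (nat_lit 4) (nat_lit 514) (nat_lit 320) (nat_lit 306)))) (XT.nd (nat_lit 156) (nat_lit 152) (nat_lit 0) (XT.nd (nat_lit 78) (nat_lit 0) (nat_lit 0) (XT.lf (nat_lit 0) (nat_lit 9727065098) (nat_lit 152) (nat_lit 7027158686) (nat_lit 0) (nat_lit 4424039203) (nat_lit 16) (nat_lit 5) (nat_lit 18) (nat_lit 4) (nat_lit 16) (nat_lit 4) (nat_lit 515) (nat_lit 320) (nat_lit 305)) (XT.lf (nat_lit 0) (nat_lit 13549071281) (nat_lit 152) (nat_lit 25200254) (nat_lit 0) (nat_lit 7945408153) (nat_lit 16) (nat_lit 5) (nat_lit 18) (nat_lit 4) (nat_lit 16) (nat_lit 4) (nat_lit 516) (nat_lit 320) (nat_lit 304))) (XT.nd (nat_lit 78) (nat_lit 0) (nat_lit 0) (XT.lf (nat_lit 0) (nat_lit 7126885189) (nat_lit 152) (nat_lit 10319739304)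 (nat_lit 152) (nat_lit 4421333792) (nat_lit 14) (nat_lit 4) (nat_lit 16) (nat_lit 5) (nat_lit 16) (nat_lit 4) (nat_lit 517) (nat_lit 320) (nat_lit 303)) (XT.lf (nat_lit 0) (nat_lit 14339519969) (nat_lit 152) (nat_lit 7035999352) (nat_lit 152) (nat_lit 848630718) (nat_lit 14) (nat_lit 4) (nat_lit 16) (nat_lit 5) (nat_lit 16) (nat_lit 4) (nat_lit 518) (nat_lit 320) (nat_lit 302)))))) (XT.nd (nat_lit 546) (nat_lit 152) (nat_lit 0) (XT.nd (nat_lit 234) (nat_lit 228) (nat_lit 0) (XT.nd (nat_lit 78) (nat_lit 76) (nat_lit 0) (XT.lf (nat_lit 0) (nat_lit 2712682642) (nat_lit 228) (nat_lit 991046873) (nat_lit 76) (nat_lit 18884311500) (nat_lit 13) (nat_lit 5) (nat_lit 16) (nat_lit 5) (nat_lit 14) (nat_lit 4) (nat_lit 519) (nat_lit 320) (nat_lit 301)) (XT.nd (nat_lit 78) (nat_lit 0) (nat_lit 0) (XT.lf (nat_lit 0) (nat_lit 6033687204) (nat_lit 76) (nat_lit 294082769) (nat_lit 152) (nat_lit 16631463938) (nat_lit 12)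 (nat_lit 5) (nat_lit 13) (nat_lit 5) (nat_lit 14) (nat_lit 4) (nat_lit 520) (nat_lit 320) (nat_lit 300)) (XT.lf (nat_lit 0) (nat_lit 9997394427) (nat_lit 152) (nat_lit 10226475000) (nat_lit 0) (nat_lit 3114350753) (nat_lit 12) (nat_lit 5) (nat_lit 14) (nat_lit 4) (nat_lit 12) (nat_lit 4) (nat_lit 521) (nat_lit 320) (nat_lit 299)))) (XT.nd (nat_lit 156) (nat_lit 76) (nat_lit 0) (XT.nd (nat_lit 78) (nat_lit 152) (nat_lit 0) (XT.lf (nat_lit 0) (nat_lit 13698113667) (nat_lit 152) (nat_lit 3474185215) (nat_lit 0) (nat_lit 6553347190) (nat_lit 12) (nat_lit 5) (nat_lit 14) (nat_lit 4) (nat_lit 12) (nat_lit 4) (nat_lit 522) (nat_lit 320) (nat_lit 298)) (XT.lf (nat_lit 0) (nat_lit 3380212074) (nat_lit 152) (nat_lit 14071204079) (nat_lit 152) (nat_lit 6669846620) (nat_lit 10) (nat_lit 4) (nat_lit 12) (nat_lit 5) (nat_lit 12) (nat_lit 4) (nat_lit 523) (nat_lit 320) (nat_lit 297))) (XT.nd (nat_lit 78) (nat_lit 76)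 (nat_lit 0) (XT.lf (nat_lit 0) (nat_lit 10342028782) (nat_lit 152) (nat_lit 10918043957) (nat_lit 152) (nat_lit 3265126710) (nat_lit 10) (nat_lit 4) (nat_lit 12) (nat_lit 5) (nat_lit 12) (nat_lit 4) (nat_lit 524) (nat_lit 320) (nat_lit 296)) (XT.lf (nat_lit 0) (nat_lit 162489494) (nat_lit 228) (nat_lit 7571315709) (nat_lit 76) (nat_lit 17204245053) (nat_lit 9) (nat_lit 5) (nat_lit 12) (nat_lit 5) (nat_lit 10) (nat_lit 4) (nat_lit 525) (nat_lit 320) (nat_lit 295))))) (XT.nd (nat_lit 234) (nat_lit 76) (nat_lit 0) (XT.nd (nat_lit 78) (nat_lit 76) (nat_lit 0) (XT.lf (nat_lit 0) (nat_lit 3573337433) (nat_lit 228) (nat_lit 923194287) (nat_lit 76) (nat_lit 20863039349) (nat_lit 9) (nat_lit 5) (nat_lit 12) (nat_lit 5) (nat_lit 10) (nat_lit 4) (nat_lit 526) (nat_lit 320) (nat_lit 294)) (XT.nd (nat_lit 78) (nat_lit 0) (nat_lit 0) (XT.lf (nat_lit 0) (nat_lit 5861879676) (nat_lit 76) (nat_lit 1187756949) (nat_lit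 152) (nat_lit 18739953369) (nat_lit 8) (nat_lit 5) (nat_lit 9) (nat_lit 5) (nat_lit 10) (nat_lit 4) (nat_lit 527) (nat_lit 320) (nat_lit 293)) (XT.lf (nat_lit 0) (nat_lit 10575196884) (nat_lit 152) (nat_lit 13520182640) (nat_lit 0) (nat_lit 2133247210) (nat_lit 8) (nat_lit 5) (nat_lit 10) (nat_lit 4) (nat_lit 8) (nat_lit 4) (nat_lit 528) (nat_lit 320) (nat_lit 292)))) (XT.nd (nat_lit 156) (nat_lit 76) (nat_lit 0) (XT.nd (nat_lit 78) (nat_lit 0) (nat_lit 0) (XT.lf (nat_lit 0) (nat_lit 14139230585) (nat_lit 152) (nat_lit 7063963259) (nat_lit 0) (nat_lit 5473903020) (nat_lit 8) (nat_lit 5) (nat_lit 10) (nat_lit 4) (nat_lit 8) (nat_lit 4) (nat_lit 529) (nat_lit 320) (nat_lit 291)) (XT.lf (nat_lit 0) (nat_lit 17735423685) (nat_lit 152) (nat_lit 548808619) (nat_lit 0) (nat_lit 8851098186) (nat_lit 8) (nat_lit 5) (nat_lit 10) (nat_lit 4) (nat_lit 8) (nat_lit 4) (nat_lit 530) (nat_lit 320) (nat_lit 290))) (XT.nd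 (nat_lit 56784) (nat_lit 0) (nat_lit 1900) (XT.lf (nat_lit 0) (nat_lit 6107943013) (nat_lit 76) (nat_lit 15296900258) (nat_lit 76) (nat_lit 6197870903) (nat_lit 7) (nat_lit 4) (nat_lit 8) (nat_lit 5) (nat_lit 8) (nat_lit 4) (nat_lit 531) (nat_lit 320) (nat_lit 289)) (XT.lf (nat_lit 0) (nat_lit 7334921599) (nat_lit 152) (nat_lit 425416455) (nat_lit 152) (nat_lit 425416455) (nat_lit 32) (nat_lit 4) (nat_lit 34) (nat_lit 5) (nat_lit 34) (nat_lit 4) (nat_lit 498) (nat_lit 321) (nat_lit 321))))))))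
noncomputable def xc5 : XT := (XT.nd (nat_lit 2106) (nat_lit 228) (nat_lit 0) (XT.nd (nat_lit 1014) (nat_lit 608) (nat_lit 0) (XT.nd (nat_lit 468) (nat_lit 456) (nat_lit 0) (XT.nd (nat_lit 234) (nat_lit 228) (nat_lit 0) (XT.nd (nat_lit 78) (nat_lit 152) (nat_lit 0) (XT.lf (nat_lit 0) (nat_lit 3159651066) (nat_lit 228) (nat_lit 10726708710) (nat_lit 0) (nat_lit 2721679387) (nat_lit 29) (nat_lit 5) (nat_lit 32) (nat_lit 4) (nat_lit 29) (nat_lit 4) (nat_lit 499) (nat_lit 321) (nat_lit 320)) (XT.nd (nat_lit 78) (nat_lit 152) (nat_lit 0) (XT.lf (nat_lit 0) (nat_lit 7197722891) (nat_lit 228) (nat_lit 3321944782) (nat_lit 0) (nat_lit 6330367214) (nat_lit 29) (nat_lit 5) (nat_lit 32) (nat_lit 4) (nat_lit 29) (nat_lit 4) (nat_lit 500) (nat_lit 321) (nat_lit 319)) (XT.lf (nat_lit 0) (nat_lit 4187221264) (nat_lit 152) (nat_lit 7099296419) (nat_lit 152) (nat_lit 5810976037) (nat_lit 27) (nat_lit 4) (nat_lit 29) (nat_lit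 5) (nat_lit 29) (nat_lit 4) (nat_lit 501) (nat_lit 321) (nat_lit 318)))) (XT.nd (nat_lit 78) (nat_lit 228) (nat_lit 0) (XT.lf (nat_lit 0) (nat_lit 11793639892) (nat_lit 152) (nat_lit 3629001818) (nat_lit 152) (nat_lit 1927970941) (nat_lit 27) (nat_lit 4) (nat_lit 29) (nat_lit 5) (nat_lit 29) (nat_lit 4) (nat_lit 502) (nat_lit 321) (nat_lit 317)) (XT.nd (nat_lit 78) (nat_lit 0) (nat_lit 0) (XT.lf (nat_lit 0) (nat_lit 1857754786) (nat_lit 152) (nat_lit 104326299) (nat_lit 228) (nat_lit 15647349136) (nat_lit 24) (nat_lit 5) (nat_lit 26) (nat_lit 5) (nat_lit 27) (nat_lit 4) (nat_lit 503) (nat_lit 321) (nat_lit 316)) (XT.lf (nat_lit 0) (nat_lit 5908539179) (nat_lit 228) (nat_lit 8509291306) (nat_lit 0) (nat_lit 3455271089) (nat_lit 24) (nat_lit 5) (nat_lit 27) (nat_lit 4) (nat_lit 24) (nat_lit 4) (nat_lit 504) (nat_lit 321) (nat_lit 315))))) (XT.nd (nat_lit 234) (nat_lit 304) (nat_lit 0) (XT.nd (nat_lit 78)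 (nat_lit 152) (nat_lit 0) (XT.lf (nat_lit 0) (nat_lit 9879905954) (nat_lit 228) (nat_lit 1217883960) (nat_lit 0) (nat_lit 7045357162) (nat_lit 24) (nat_lit 5) (nat_lit 27) (nat_lit 4) (nat_lit 24) (nat_lit 4) (nat_lit 505) (nat_lit 321) (nat_lit 314)) (XT.nd (nat_lit 78) (nat_lit 0) (nat_lit 0) (XT.lf (nat_lit 0) (nat_lit 6207495753) (nat_lit 152) (nat_lit 7709868880) (nat_lit 152) (nat_lit 4501515477) (nat_lit 22) (nat_lit 4) (nat_lit 24) (nat_lit 5) (nat_lit 24) (nat_lit 4) (nat_lit 506) (nat_lit 321) (nat_lit 313)) (XT.lf (nat_lit 0) (nat_lit 13705237205) (nat_lit 152) (nat_lit 4285319476) (nat_lit 152) (nat_lit 710490965) (nat_lit 22) (nat_lit 4) (nat_lit 24) (nat_lit 5) (nat_lit 24) (nat_lit 4) (nat_lit 507) (nat_lit 321) (nat_lit 312)))) (XT.nd (nat_lit 156) (nat_lit 152) (nat_lit 0) (XT.nd (nat_lit 78) (nat_lit 0) (nat_lit 0) (XT.lf (nat_lit 0) (nat_lit 2281955636) (nat_lit 76) (nat_lit 795308457)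 (nat_lit 152) (nat_lit 15911957218) (nat_lit 20) (nat_lit 5) (nat_lit 21) (nat_lit 5) (nat_lit 22) (nat_lit 4) (nat_lit 508) (nat_lit 321) (nat_lit 311)) (XT.lf (nat_lit 0) (nat_lit 6930642069) (nat_lit 152) (nat_lit 9624127105) (nat_lit 0) (nat_lit 2728326121) (nat_lit 20) (nat_lit 5) (nat_lit 22) (nat_lit 4) (nat_lit 20) (nat_lit 4) (nat_lit 509) (nat_lit 321) (nat_lit 310))) (XT.nd (nat_lit 78) (nat_lit 152) (nat_lit 0) (XT.lf (nat_lit 0) (nat_lit 10815057366) (nat_lit 152) (nat_lit 2494552967) (nat_lit 0) (nat_lit 6274175066) (nat_lit 20) (nat_lit 5) (nat_lit 22) (nat_lit 4) (nat_lit 20) (nat_lit 4) (nat_lit 510) (nat_lit 321) (nat_lit 309)) (XT.lf (nat_lit 0) (nat_lit 4751736193) (nat_lit 152) (nat_lit 10005984846) (nat_lit 152) (nat_lit 5133174749) (nat_lit 18) (nat_lit 4) (nat_lit 20) (nat_lit 5) (nat_lit 20) (nat_lit 4) (nat_lit 511) (nat_lit 321) (nat_lit 308)))))) (XT.nd (nat_lit 546) (nat_lit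 304) (nat_lit 0) (XT.nd (nat_lit 234) (nat_lit 152) (nat_lit 0) (XT.nd (nat_lit 78) (nat_lit 152) (nat_lit 0) (XT.lf (nat_lit 0) (nat_lit 12089149365) (nat_lit 152) (nat_lit 6656954275) (nat_lit 152) (nat_lit 1458724769) (nat_lit 18) (nat_lit 4) (nat_lit 20) (nat_lit 5) (nat_lit 20) (nat_lit 4) (nat_lit 512) (nat_lit 321) (nat_lit 307)) (XT.nd (nat_lit 78) (nat_lit 76) (nat_lit 0) (XT.lf (nat_lit 0) (nat_lit 2209953977) (nat_lit 228) (nat_lit 1053161106) (nat_lit 76) (nat_lit 17262628734) (nat_lit 17) (nat_lit 5) (nat_lit 20) (nat_lit 5) (nat_lit 18) (nat_lit 4) (nat_lit 513) (nat_lit 321) (nat_lit 306)) (XT.lf (nat_lit 0) (nat_lit 5925443133) (nat_lit 152) (nat_lit 14717891770) (nat_lit 0) (nat_lit 209706743) (nat_lit 16) (nat_lit 5) (nat_lit 18) (nat_lit 4) (nat_lit 16) (nat_lit 4) (nat_lit 514) (nat_lit 321) (nat_lit 305)))) (XT.nd (nat_lit 156) (nat_lit 152) (nat_lit 0) (XT.nd (nat_lit 78) (nat_lit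 0) (nat_lit 0) (XT.lf (nat_lit 0) (nat_lit 9695857304) (nat_lit 152) (nat_lit 7811948156) (nat_lit 0) (nat_lit 3679483682) (nat_lit 16) (nat_lit 5) (nat_lit 18) (nat_lit 4) (nat_lit 16) (nat_lit 4) (nat_lit 515) (nat_lit 321) (nat_lit 304)) (XT.lf (nat_lit 0) (nat_lit 13494514200) (nat_lit 152) (nat_lit 851268208) (nat_lit 0) (nat_lit 7183398193) (nat_lit 16) (nat_lit 5) (nat_lit 18) (nat_lit 4) (nat_lit 16) (nat_lit 4) (nat_lit 516) (nat_lit 321) (nat_lit 303))) (XT.nd (nat_lit 78) (nat_lit 0) (nat_lit 0) (XT.lf (nat_lit 0) (nat_lit 6248832311) (nat_lit 152) (nat_lit 11114642743) (nat_lit 152) (nat_lit 4514563614) (nat_lit 14) (nat_lit 4) (nat_lit 16) (nat_lit 5) (nat_lit 16) (nat_lit 4) (nat_lit 517) (nat_lit 321) (nat_lit 302)) (XT.lf (nat_lit 0) (nat_lit 13421264233) (nat_lit 152) (nat_lit 7848402020) (nat_lit 152) (nat_lit 965025713) (nat_lit 14) (nat_lit 4) (nat_lit 16) (nat_lit 5) (nat_lit 16)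 (nat_lit 4) (nat_lit 518) (nat_lit 321) (nat_lit 301))))) (XT.nd (nat_lit 234) (nat_lit 152) (nat_lit 0) (XT.nd (nat_lit 78) (nat_lit 76) (nat_lit 0) (XT.lf (nat_lit 0) (nat_lit 2575401093) (nat_lit 228) (nat_lit 1958808429) (nat_lit 76) (nat_lit 18064843978) (nat_lit 13) (nat_lit 5) (nat_lit 16) (nat_lit 5) (nat_lit 14) (nat_lit 4) (nat_lit 519) (nat_lit 321) (nat_lit 300)) (XT.nd (nat_lit 78) (nat_lit 0) (nat_lit 0) (XT.lf (nat_lit 0) (nat_lit 5013606314) (nat_lit 76) (nat_lit 1148285446) (nat_lit 152) (nat_lit 16808933610) (nat_lit 12) (nat_lit 5) (nat_lit 13) (nat_lit 5) (nat_lit 14) (nat_lit 4) (nat_lit 520) (nat_lit 321) (nat_lit 299)) (XT.lf (nat_lit 0) (nat_lit 9804066564) (nat_lit 152) (nat_lit 11291619015) (nat_lit 0) (nat_lit 2254681955) (nat_lit 12) (nat_lit 5) (nat_lit 14) (nat_lit 4) (nat_lit 12) (nat_lit 4) (nat_lit 521) (nat_lit 321) (nat_lit 298)))) (XT.nd (nat_lit 156) (nat_lit 0) (nat_lit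 0) (XT.nd (nat_lit 78) (nat_lit 152) (nat_lit 0) (XT.lf (nat_lit 0) (nat_lit 13483311686) (nat_lit 152) (nat_lit 4577581893) (nat_lit 0) (nat_lit 5677336095) (nat_lit 12) (nat_lit 5) (nat_lit 14) (nat_lit 4) (nat_lit 12) (nat_lit 4) (nat_lit 522) (nat_lit 321) (nat_lit 297)) (XT.lf (nat_lit 0) (nat_lit 2224150833) (nat_lit 152) (nat_lit 14983904368) (nat_lit 152) (nat_lit 6926368989) (nat_lit 10) (nat_lit 4) (nat_lit 12) (nat_lit 5) (nat_lit 12) (nat_lit 4) (nat_lit 523) (nat_lit 321) (nat_lit 296))) (XT.nd (nat_lit 78) (nat_lit 0) (nat_lit 0) (XT.lf (nat_lit 0) (nat_lit 9148711657) (nat_lit 152) (nat_lit 11847117989) (nat_lit 152) (nat_lit 3542955368) (nat_lit 10) (nat_lit 4) (nat_lit 12) (nat_lit 5) (nat_lit 12) (nat_lit 4) (nat_lit 524) (nat_lit 321) (nat_lit 295)) (XT.lf (nat_lit 0) (nat_lit 16137982437) (nat_lit 152) (nat_lit 8680022315) (nat_lit 152) (nat_lit 134068280) (nat_lit 10) (nat_lit 4)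 (nat_lit 12) (nat_lit 5) (nat_lit 12) (nat_lit 4) (nat_lit 525) (nat_lit 321) (nat_lit 294))))))) (XT.nd (nat_lit 57642) (nat_lit 0) (nat_lit 532) (XT.nd (nat_lit 57096) (nat_lit 0) (nat_lit 1292) (XT.nd (nat_lit 234) (nat_lit 76) (nat_lit 0) (XT.nd (nat_lit 78) (nat_lit 76) (nat_lit 0) (XT.lf (nat_lit 0) (nat_lit 3258327633) (nat_lit 228) (nat_lit 2201182620) (nat_lit 76) (nat_lit 19914511337) (nat_lit 9) (nat_lit 5) (nat_lit 12) (nat_lit 5) (nat_lit 10) (nat_lit 4) (nat_lit 526) (nat_lit 321) (nat_lit 293)) (XT.nd (nat_lit 78) (nat_lit 0) (nat_lit 0) (XT.lf (nat_lit 0) (nat_lit 4531061038) (nat_lit 76) (nat_lit 2175111158) (nat_lit 152) (nat_lit 19098443420) (nat_lit 8) (nat_lit 5) (nat_lit 9) (nat_lit 5) (nat_lit 10) (nat_lit 4) (nat_lit 527) (nat_lit 321) (nat_lit 292)) (XT.lf (nat_lit 0) (nat_lit 10205567589) (nat_lit 152) (nat_lit 14895058377) (nat_lit 0) (nat_lit 1143555580) (nat_lit 8) (nat_lit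 5) (nat_lit 10) (nat_lit 4) (nat_lit 8) (nat_lit 4) (nat_lit 528) (nat_lit 321) (nat_lit 291)))) (XT.nd (nat_lit 156) (nat_lit 76) (nat_lit 0) (XT.nd (nat_lit 78) (nat_lit 0) (nat_lit 0) (XT.lf (nat_lit 0) (nat_lit 13750234322) (nat_lit 152) (nat_lit 8473586089) (nat_lit 0) (nat_lit 4469224380) (nat_lit 8) (nat_lit 5) (nat_lit 10) (nat_lit 4) (nat_lit 8) (nat_lit 4) (nat_lit 529) (nat_lit 321) (nat_lit 290)) (XT.lf (nat_lit 0) (nat_lit 17327440197) (nat_lit 152) (nat_lit 1992497226) (nat_lit 0) (nat_lit 7831726399) (nat_lit 8) (nat_lit 5) (nat_lit 10) (nat_lit 4) (nat_lit 8) (nat_lit 4) (nat_lit 530) (nat_lit 321) (nat_lit 289))) (XT.nd (nat_lit 56628) (nat_lit 0) (nat_lit 2052) (XT.lf (nat_lit 0) (nat_lit 4611226883) (nat_lit 76) (nat_lit 16357300301) (nat_lit 76) (nat_lit 6651092526) (nat_lit 7) (nat_lit 4) (nat_lit 8) (nat_lit 5) (nat_lit 8) (nat_lit 4) (nat_lit 531) (nat_lit 321) (nat_lit 288)) (XT.lf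 (nat_lit 0) (nat_lit 3809614104) (nat_lit 228) (nat_lit 336822292) (nat_lit 0) (nat_lit 3809614104) (nat_lit 34) (nat_lit 5) (nat_lit 37) (nat_lit 4) (nat_lit 34) (nat_lit 4) (nat_lit 496) (nat_lit 322) (nat_lit 322))))) (XT.nd (nat_lit 234) (nat_lit 380) (nat_lit 0) (XT.nd (nat_lit 78) (nat_lit 228) (nat_lit 0) (XT.lf (nat_lit 0) (nat_lit 6942499612) (nat_lit 152) (nat_lit 4826222356) (nat_lit 152) (nat_lit 4370556622) (nat_lit 32) (nat_lit 4) (nat_lit 34) (nat_lit 5) (nat_lit 34) (nat_lit 4) (nat_lit 497) (nat_lit 322) (nat_lit 321)) (XT.nd (nat_lit 78) (nat_lit 228) (nat_lit 0) (XT.lf (nat_lit 0) (nat_lit 14620573665) (nat_lit 152) (nat_lit 1326960073) (nat_lit 152) (nat_lit 424563227) (nat_lit 32) (nat_lit 4) (nat_lit 34) (nat_lit 5) (nat_lit 34) (nat_lit 4) (nat_lit 498) (nat_lit 322) (nat_lit 320)) (XT.lf (nat_lit 0) (nat_lit 3548012997) (nat_lit 228) (nat_lit 10827290217) (nat_lit 0) (nat_lit 2233926208)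 (nat_lit 29) (nat_lit 5) (nat_lit 32) (nat_lit 4) (nat_lit 29) (nat_lit 4) (nat_lit 499) (nat_lit 322) (nat_lit 319)))) (XT.nd (nat_lit 156) (nat_lit 228) (nat_lit 0) (XT.nd (nat_lit 78) (nat_lit 152) (nat_lit 0) (XT.lf (nat_lit 0) (nat_lit 7557755769) (nat_lit 228) (nat_lit 3471342784) (nat_lit 0) (nat_lit 5822704275) (nat_lit 29) (nat_lit 5) (nat_lit 32) (nat_lit 4) (nat_lit 29) (nat_lit 4) (nat_lit 500) (nat_lit 322) (nat_lit 318)) (XT.lf (nat_lit 0) (nat_lit 3987342507) (nat_lit 152) (nat_lit 7630136728) (nat_lit 152) (nat_lit 5482374739) (nat_lit 27) (nat_lit 4) (nat_lit 29) (nat_lit 5) (nat_lit 29) (nat_lit 4) (nat_lit 501) (nat_lit 322) (nat_lit 317))) (XT.nd (nat_lit 78) (nat_lit 228) (nat_lit 0) (XT.lf (nat_lit 0) (nat_lit 11546216690) (nat_lit 152) (nat_lit 4179848880) (nat_lit 152) (nat_lit 1627468760) (nat_lit 27) (nat_lit 4) (nat_lit 29) (nat_lit 5) (nat_lit 29) (nat_lit 4) (nat_lit 502)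 (nat_lit 322) (nat_lit 316)) (XT.lf (nat_lit 0) (nat_lit 1554497820) (nat_lit 152) (nat_lit 674988508) (nat_lit 228) (nat_lit 15383419924) (nat_lit 24) (nat_lit 5) (nat_lit 26) (nat_lit 5) (nat_lit 27) (nat_lit 4) (nat_lit 503) (nat_lit 322) (nat_lit 315)))))) (XT.nd (nat_lit 546) (nat_lit 456) (nat_lit 0) (XT.nd (nat_lit 234) (nat_lit 152) (nat_lit 0) (XT.nd (nat_lit 78) (nat_lit 152) (nat_lit 0) (XT.lf (nat_lit 0) (nat_lit 6145154461) (nat_lit 228) (nat_lit 8859415009) (nat_lit 0) (nat_lit 2872633990) (nat_lit 24) (nat_lit 5) (nat_lit 27) (nat_lit 4) (nat_lit 24) (nat_lit 4) (nat_lit 504) (nat_lit 322) (nat_lit 314)) (XT.nd (nat_lit 78) (nat_lit 152) (nat_lit 0) (XT.lf (nat_lit 0) (nat_lit 10089967468) (nat_lit 228) (nat_lit 1614180041) (nat_lit 0) (nat_lit 6443642386) (nat_lit 24) (nat_lit 5) (nat_lit 27) (nat_lit 4) (nat_lit 24) (nat_lit 4) (nat_lit 505) (nat_lit 322) (nat_lit 313)) (XT.lf (nat_lit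 0) (nat_lit 5760064495) (nat_lit 152) (nat_lit 8338423526) (nat_lit 152) (nat_lit 4325623336) (nat_lit 22) (nat_lit 4) (nat_lit 24) (nat_lit 5) (nat_lit 24) (nat_lit 4) (nat_lit 506) (nat_lit 322) (nat_lit 312)))) (XT.nd (nat_lit 156) (nat_lit 0) (nat_lit 0) (XT.nd (nat_lit 78) (nat_lit 152) (nat_lit 0) (XT.lf (nat_lit 0) (nat_lit 13212836720) (nat_lit 152) (nat_lit 4933028727) (nat_lit 152) (nat_lit 560939215) (nat_lit 22) (nat_lit 4) (nat_lit 24) (nat_lit 5) (nat_lit 24) (nat_lit 4) (nat_lit 507) (nat_lit 322) (nat_lit 311)) (XT.lf (nat_lit 0) (nat_lit 1731168200) (nat_lit 76) (nat_lit 1464624940) (nat_lit 152) (nat_lit 15799756100) (nat_lit 20) (nat_lit 5) (nat_lit 21) (nat_lit 5) (nat_lit 22) (nat_lit 4) (nat_lit 508) (nat_lit 322) (nat_lit 310))) (XT.nd (nat_lit 78) (nat_lit 0) (nat_lit 0) (XT.lf (nat_lit 0) (nat_lit 7019430826) (nat_lit 152) (nat_lit 10221431606) (nat_lit 0) (nat_lit 2049164527)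 (nat_lit 20) (nat_lit 5) (nat_lit 22) (nat_lit 4) (nat_lit 20) (nat_lit 4) (nat_lit 509) (nat_lit 322) (nat_lit 309)) (XT.lf (nat_lit 0) (nat_lit 10878949414) (nat_lit 152) (nat_lit 3135519019) (nat_lit 0) (nat_lit 5576755318) (nat_lit 20) (nat_lit 5) (nat_lit 22) (nat_lit 4) (nat_lit 20) (nat_lit 4) (nat_lit 510) (nat_lit 322) (nat_lit 308))))) (XT.nd (nat_lit 234) (nat_lit 228) (nat_lit 0) (XT.nd (nat_lit 78) (nat_lit 76) (nat_lit 0) (XT.lf (nat_lit 0) (nat_lit 4058877735) (nat_lit 152) (nat_lit 10733828317) (nat_lit 152) (nat_lit 5106214812) (nat_lit 18) (nat_lit 4) (nat_lit 20) (nat_lit 5) (nat_lit 20) (nat_lit 4) (nat_lit 511) (nat_lit 322) (nat_lit 307)) (XT.nd (nat_lit 78) (nat_lit 76) (nat_lit 0) (XT.lf (nat_lit 0) (nat_lit 11353767078) (nat_lit 152) (nat_lit 7403115540) (nat_lit 152) (nat_lit 1456463400) (nat_lit 18) (nat_lit 4) (nat_lit 20) (nat_lit 5) (nat_lit 20) (nat_lit 4) (nat_lit 512)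 (nat_lit 322) (nat_lit 306)) (XT.lf (nat_lit 0) (nat_lit 2188288980) (nat_lit 228) (nat_lit 1839091375) (nat_lit 76) (nat_lit 16507366801) (nat_lit 17) (nat_lit 5) (nat_lit 20) (nat_lit 5) (nat_lit 18) (nat_lit 4) (nat_lit 513) (nat_lit 322) (nat_lit 305)))) (XT.nd (nat_lit 156) (nat_lit 152) (nat_lit 0) (XT.nd (nat_lit 78) (nat_lit 0) (nat_lit 0) (XT.lf (nat_lit 0) (nat_lit 5298442979) (nat_lit 76) (nat_lit 575085769) (nat_lit 152) (nat_lit 14989129153) (nat_lit 16) (nat_lit 5) (nat_lit 17) (nat_lit 5) (nat_lit 18) (nat_lit 4) (nat_lit 514) (nat_lit 322) (nat_lit 304)) (XT.lf (nat_lit 0) (nat_lit 9616859795) (nat_lit 152) (nat_lit 8695815954) (nat_lit 0) (nat_lit 2884779084) (nat_lit 16) (nat_lit 5) (nat_lit 18) (nat_lit 4) (nat_lit 16) (nat_lit 4) (nat_lit 515) (nat_lit 322) (nat_lit 303))) (XT.nd (nat_lit 78) (nat_lit 152) (nat_lit 0) (XT.lf (nat_lit 0) (nat_lit 13392625233) (nat_lit 152) (nat_lit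 1775605109) (nat_lit 0) (nat_lit 6371581400) (nat_lit 16) (nat_lit 5) (nat_lit 18) (nat_lit 4) (nat_lit 16) (nat_lit 4) (nat_lit 516) (nat_lit 322) (nat_lit 302)) (XT.lf (nat_lit 0) (nat_lit 5272008602) (nat_lit 152) (nat_lit 11960792693) (nat_lit 152) (nat_lit 4656451682) (nat_lit 14) (nat_lit 4) (nat_lit 16) (nat_lit 5) (nat_lit 16) (nat_lit 4) (nat_lit 517) (nat_lit 322) (nat_lit 301))))))))
noncomputable def xc6 : XT := (XT.nd (nat_lit 58500) (nat_lit 0) (nat_lit 0) (XT.nd (nat_lit 1014) (nat_lit 76) (nat_lit 0) (XT.nd (nat_lit 468) (nat_lit 152) (nat_lit 0) (XT.nd (nat_lit 234) (nat_lit 152) (nat_lit 0) (XT.nd (nat_lit 78) (nat_lit 152) (nat_lit 0) (XT.lf (nat_lit 0) (nat_lit 12405025957) (nat_lit 152) (nat_lit 8711708078) (nat_lit 152) (nat_lit 1129624734) (nat_lit 14) (nat_lit 4) (nat_lit 16) (nat_lit 5) (nat_lit 16) (nat_lit 4) (nat_lit 518) (nat_lit 322) (nat_lit 300)) (XT.nd (nat_lit 78) (nat_lit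 76) (nat_lit 0) (XT.lf (nat_lit 0) (nat_lit 2390987195) (nat_lit 228) (nat_lit 3024585612) (nat_lit 76) (nat_lit 17195615383) (nat_lit 13) (nat_lit 5) (nat_lit 16) (nat_lit 5) (nat_lit 14) (nat_lit 4) (nat_lit 519) (nat_lit 322) (nat_lit 299)) (XT.lf (nat_lit 0) (nat_lit 3894980911) (nat_lit 76) (nat_lit 2053691324) (nat_lit 152) (nat_lit 17034870839) (nat_lit 12) (nat_lit 5) (nat_lit 13) (nat_lit 5) (nat_lit 14) (nat_lit 4) (nat_lit 520) (nat_lit 322) (nat_lit 298)))) (XT.nd (nat_lit 78) (nat_lit 152) (nat_lit 0) (XT.lf (nat_lit 0) (nat_lit 9563494427) (nat_lit 152) (nat_lit 12455336291) (nat_lit 0) (nat_lit 1344808340) (nat_lit 12) (nat_lit 5) (nat_lit 14) (nat_lit 4) (nat_lit 12) (nat_lit 4) (nat_lit 521) (nat_lit 322) (nat_lit 297)) (XT.nd (nat_lit 78) (nat_lit 152) (nat_lit 0) (XT.lf (nat_lit 0) (nat_lit 13221686494) (nat_lit 152) (nat_lit 5778801781) (nat_lit 0) (nat_lit 4751440620) (nat_lit 12)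 (nat_lit 5) (nat_lit 14) (nat_lit 4) (nat_lit 12) (nat_lit 4) (nat_lit 522) (nat_lit 322) (nat_lit 296)) (XT.lf (nat_lit 0) (nat_lit 969711482) (nat_lit 152) (nat_lit 15947933623) (nat_lit 152) (nat_lit 7231060508) (nat_lit 10) (nat_lit 4) (nat_lit 12) (nat_lit 5) (nat_lit 12) (nat_lit 4) (nat_lit 523) (nat_lit 322) (nat_lit 295))))) (XT.nd (nat_lit 234) (nat_lit 76) (nat_lit 0) (XT.nd (nat_lit 78) (nat_lit 76) (nat_lit 0) (XT.lf (nat_lit 0) (nat_lit 7857746929) (nat_lit 152) (nat_lit 12827199933) (nat_lit 152) (nat_lit 3868535404) (nat_lit 10) (nat_lit 4) (nat_lit 12) (nat_lit 5) (nat_lit 12) (nat_lit 4) (nat_lit 524) (nat_lit 322) (nat_lit 294)) (XT.nd (nat_lit 78) (nat_lit 76) (nat_lit 0) (XT.lf (nat_lit 0) (nat_lit 14811208517) (nat_lit 152) (nat_lit 9675842190) (nat_lit 152) (nat_lit 480127255) (nat_lit 10) (nat_lit 4) (nat_lit 12) (nat_lit 5) (nat_lit 12) (nat_lit 4) (nat_lit 525) (nat_lit 322)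 (nat_lit 293)) (XT.lf (nat_lit 0) (nat_lit 2896993212) (nat_lit 228) (nat_lit 3576191005) (nat_lit 76) (nat_lit 18916389531) (nat_lit 9) (nat_lit 5) (nat_lit 12) (nat_lit 5) (nat_lit 10) (nat_lit 4) (nat_lit 526) (nat_lit 322) (nat_lit 292)))) (XT.nd (nat_lit 156) (nat_lit 0) (nat_lit 0) (XT.nd (nat_lit 78) (nat_lit 0) (nat_lit 0) (XT.lf (nat_lit 0) (nat_lit 3102635876) (nat_lit 76) (nat_lit 3213502054) (nat_lit 152) (nat_lit 19504609733) (nat_lit 8) (nat_lit 5) (nat_lit 9) (nat_lit 5) (nat_lit 10) (nat_lit 4) (nat_lit 527) (nat_lit 322) (nat_lit 291)) (XT.lf (nat_lit 0) (nat_lit 9789424431) (nat_lit 152) (nat_lit 16367620756) (nat_lit 0) (nat_lit 103796357) (nat_lit 8) (nat_lit 5) (nat_lit 10) (nat_lit 4) (nat_lit 8) (nat_lit 4) (nat_lit 528) (nat_lit 322) (nat_lit 290))) (XT.nd (nat_lit 78) (nat_lit 0) (nat_lit 0) (XT.lf (nat_lit 0) (nat_lit 13315103941) (nat_lit 152) (nat_lit 9980214246) (nat_lit 0)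 (nat_lit 3414772010) (nat_lit 8) (nat_lit 5) (nat_lit 10) (nat_lit 4) (nat_lit 8) (nat_lit 4) (nat_lit 529) (nat_lit 322) (nat_lit 289)) (XT.lf (nat_lit 0) (nat_lit 16873694891) (nat_lit 152) (nat_lit 3532523205) (nat_lit 0) (nat_lit 6762868984) (nat_lit 8) (nat_lit 5) (nat_lit 10) (nat_lit 4) (nat_lit 8) (nat_lit 4) (nat_lit 530) (nat_lit 322) (nat_lit 288)))))) (XT.nd (nat_lit 56940) (nat_lit 0) (nat_lit 1140) (XT.nd (nat_lit 56628) (nat_lit 0) (nat_lit 1672) (XT.nd (nat_lit 56472) (nat_lit 0) (nat_lit 2052) (XT.lf (nat_lit 0) (nat_lit 3017556671) (nat_lit 76) (nat_lit 17468628115) (nat_lit 76) (nat_lit 7151435565) (nat_lit 7) (nat_lit 4) (nat_lit 8) (nat_lit 5) (nat_lit 8) (nat_lit 4) (nat_lit 531) (nat_lit 322) (nat_lit 287)) (XT.nd (nat_lit 78) (nat_lit 228) (nat_lit 0) (XT.lf (nat_lit 0) (nat_lit 7708279156) (nat_lit 228) (nat_lit 13904559) (nat_lit 228) (nat_lit 13904559) (nat_lit 37) (nat_lit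 4) (nat_lit 40) (nat_lit 5) (nat_lit 40) (nat_lit 4) (nat_lit 494) (nat_lit 323) (nat_lit 323)) (XT.lf (nat_lit 0) (nat_lit 4002521409) (nat_lit 228) (nat_lit 8149405004) (nat_lit 0) (nat_lit 3537742360) (nat_lit 34) (nat_lit 5) (nat_lit 37) (nat_lit 4) (nat_lit 34) (nat_lit 4) (nat_lit 495) (nat_lit 323) (nat_lit 322)))) (XT.nd (nat_lit 156) (nat_lit 228) (nat_lit 0) (XT.nd (nat_lit 78) (nat_lit 152) (nat_lit 0) (XT.lf (nat_lit 0) (nat_lit 8054949279) (nat_lit 228) (nat_lit 723240407) (nat_lit 0) (nat_lit 7134504495) (nat_lit 34) (nat_lit 5) (nat_lit 37) (nat_lit 4) (nat_lit 34) (nat_lit 4) (nat_lit 496) (nat_lit 323) (nat_lit 321)) (XT.lf (nat_lit 0) (nat_lit 6842975154) (nat_lit 152) (nat_lit 5332333490) (nat_lit 152) (nat_lit 3965157594) (nat_lit 32) (nat_lit 4) (nat_lit 34) (nat_lit 5) (nat_lit 34) (nat_lit 4) (nat_lit 497) (nat_lit 323) (nat_lit 320))) (XT.nd (nat_lit 78) (nat_lit 228) (nat_lit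 0) (XT.lf (nat_lit 0) (nat_lit 14472745742) (nat_lit 152) (nat_lit 1853131430) (nat_lit 152) (nat_lit 47983856) (nat_lit 32) (nat_lit 4) (nat_lit 34) (nat_lit 5) (nat_lit 34) (nat_lit 4) (nat_lit 498) (nat_lit 323) (nat_lit 319)) (XT.lf (nat_lit 0) (nat_lit 3886917480) (nat_lit 228) (nat_lit 11028492674) (nat_lit 0) (nat_lit 1696200252) (nat_lit 29) (nat_lit 5) (nat_lit 32) (nat_lit 4) (nat_lit 29) (nat_lit 4) (nat_lit 499) (nat_lit 323) (nat_lit 318))))) (XT.nd (nat_lit 234) (nat_lit 380) (nat_lit 0) (XT.nd (nat_lit 78) (nat_lit 152) (nat_lit 0) (XT.lf (nat_lit 0) (nat_lit 7868886671) (nat_lit 228) (nat_lit 3720404550) (nat_lit 0) (nat_lit 5265458948) (nat_lit 29) (nat_lit 5) (nat_lit 32) (nat_lit 4) (nat_lit 29) (nat_lit 4) (nat_lit 500) (nat_lit 323) (nat_lit 317)) (XT.nd (nat_lit 78) (nat_lit 0) (nat_lit 0) (XT.lf (nat_lit 0) (nat_lit 3687426395) (nat_lit 152) (nat_lit 8212007485) (nat_lit 152) (nat_lit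 5203961630) (nat_lit 27) (nat_lit 4) (nat_lit 29) (nat_lit 5) (nat_lit 29) (nat_lit 4) (nat_lit 501) (nat_lit 323) (nat_lit 316)) (XT.lf (nat_lit 0) (nat_lit 11199688377) (nat_lit 152) (nat_lit 4781334102) (nat_lit 152) (nat_lit 1376603804) (nat_lit 27) (nat_lit 4) (nat_lit 29) (nat_lit 5) (nat_lit 29) (nat_lit 4) (nat_lit 502) (nat_lit 323) (nat_lit 315)))) (XT.nd (nat_lit 156) (nat_lit 152) (nat_lit 0) (XT.nd (nat_lit 78) (nat_lit 0) (nat_lit 0) (XT.lf (nat_lit 0) (nat_lit 1150892914) (nat_lit 152) (nat_lit 1296893981) (nat_lit 228) (nat_lit 15169774277) (nat_lit 24) (nat_lit 5) (nat_lit 26) (nat_lit 5) (nat_lit 27) (nat_lit 4) (nat_lit 503) (nat_lit 323) (nat_lit 314)) (XT.lf (nat_lit 0) (nat_lit 6332863437) (nat_lit 228) (nat_lit 9309809388) (nat_lit 0) (nat_lit 2239807243) (nat_lit 24) (nat_lit 5) (nat_lit 27) (nat_lit 4) (nat_lit 24) (nat_lit 4) (nat_lit 504) (nat_lit 323) (nat_lit 313))) (XT.nd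 (nat_lit 78) (nat_lit 152) (nat_lit 0) (XT.lf (nat_lit 0) (nat_lit 10251643339) (nat_lit 228) (nat_lit 2109841456) (nat_lit 0) (nat_lit 5792112037) (nat_lit 24) (nat_lit 5) (nat_lit 27) (nat_lit 4) (nat_lit 24) (nat_lit 4) (nat_lit 505) (nat_lit 323) (nat_lit 312)) (XT.lf (nat_lit 0) (nat_lit 5212846774) (nat_lit 152) (nat_lit 9018241566) (nat_lit 152) (nat_lit 4199420942) (nat_lit 22) (nat_lit 4) (nat_lit 24) (nat_lit 5) (nat_lit 24) (nat_lit 4) (nat_lit 506) (nat_lit 323) (nat_lit 311))))))) (XT.nd (nat_lit 1092) (nat_lit 380) (nat_lit 0) (XT.nd (nat_lit 546) (nat_lit 380) (nat_lit 0) (XT.nd (nat_lit 234) (nat_lit 228) (nat_lit 0) (XT.nd (nat_lit 78) (nat_lit 152) (nat_lit 0) (XT.lf (nat_lit 0) (nat_lit 12621531522) (nat_lit 152) (nat_lit 5631625790) (nat_lit 152) (nat_lit 460560732) (nat_lit 22) (nat_lit 4) (nat_lit 24) (nat_lit 5) (nat_lit 24) (nat_lit 4) (nat_lit 507) (nat_lit 323) (nat_lit 310))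 (XT.nd (nat_lit 78) (nat_lit 0) (nat_lit 0) (XT.lf (nat_lit 0) (nat_lit 1080196292) (nat_lit 76) (nat_lit 2185446791) (nat_lit 152) (nat_lit 15737399676) (nat_lit 20) (nat_lit 5) (nat_lit 21) (nat_lit 5) (nat_lit 22) (nat_lit 4) (nat_lit 508) (nat_lit 323) (nat_lit 309)) (XT.lf (nat_lit 0) (nat_lit 7059704005) (nat_lit 152) (nat_lit 10918878531) (nat_lit 0) (nat_lit 1319538231) (nat_lit 20) (nat_lit 5) (nat_lit 22) (nat_lit 4) (nat_lit 20) (nat_lit 4) (nat_lit 509) (nat_lit 323) (nat_lit 308)))) (XT.nd (nat_lit 156) (nat_lit 76) (nat_lit 0) (XT.nd (nat_lit 78) (nat_lit 152) (nat_lit 0) (XT.lf (nat_lit 0) (nat_lit 10894814054) (nat_lit 152) (nat_lit 3875771387) (nat_lit 0) (nat_lit 4829228872) (nat_lit 20) (nat_lit 5) (nat_lit 22) (nat_lit 4) (nat_lit 20) (nat_lit 4) (nat_lit 510) (nat_lit 323) (nat_lit 307)) (XT.lf (nat_lit 0) (nat_lit 3266263975) (nat_lit 152) (nat_lit 11513230603) (nat_lit 152) (nat_lit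 5128606784) (nat_lit 18) (nat_lit 4) (nat_lit 20) (nat_lit 5) (nat_lit 20) (nat_lit 4) (nat_lit 511) (nat_lit 323) (nat_lit 306))) (XT.nd (nat_lit 78) (nat_lit 76) (nat_lit 0) (XT.lf (nat_lit 0) (nat_lit 10519463290) (nat_lit 152) (nat_lit 8200476449) (nat_lit 152) (nat_lit 1503069654) (nat_lit 18) (nat_lit 4) (nat_lit 20) (nat_lit 5) (nat_lit 20) (nat_lit 4) (nat_lit 512) (nat_lit 323) (nat_lit 305)) (XT.lf (nat_lit 0) (nat_lit 2118865831) (nat_lit 228) (nat_lit 2723947792) (nat_lit 76) (nat_lit 15702079453) (nat_lit 17) (nat_lit 5) (nat_lit 20) (nat_lit 5) (nat_lit 18) (nat_lit 4) (nat_lit 513) (nat_lit 323) (nat_lit 304))))) (XT.nd (nat_lit 234) (nat_lit 304) (nat_lit 0) (XT.nd (nat_lit 78) (nat_lit 0) (nat_lit 0) (XT.lf (nat_lit 0) (nat_lit 4360906433) (nat_lit 76) (nat_lit 1414143287) (nat_lit 152) (nat_lit 15098342990) (nat_lit 16) (nat_lit 5) (nat_lit 17) (nat_lit 5) (nat_lit 18) (nat_lit 4) (nat_lit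 514) (nat_lit 323) (nat_lit 303)) (XT.nd (nat_lit 78) (nat_lit 0) (nat_lit 0) (XT.lf (nat_lit 0) (nat_lit 9490041592) (nat_lit 152) (nat_lit 9679108695) (nat_lit 0) (nat_lit 2039613760) (nat_lit 16) (nat_lit 5) (nat_lit 18) (nat_lit 4) (nat_lit 16) (nat_lit 4) (nat_lit 515) (nat_lit 323) (nat_lit 302)) (XT.lf (nat_lit 0) (nat_lit 13243364426) (nat_lit 152) (nat_lit 2798573439) (nat_lit 0) (nat_lit 5509639416) (nat_lit 16) (nat_lit 5) (nat_lit 18) (nat_lit 4) (nat_lit 16) (nat_lit 4) (nat_lit 516) (nat_lit 323) (nat_lit 301)))) (XT.nd (nat_lit 156) (nat_lit 152) (nat_lit 0) (XT.nd (nat_lit 78) (nat_lit 0) (nat_lit 0) (XT.lf (nat_lit 0) (nat_lit 4196030994) (nat_lit 152) (nat_lit 12858520979) (nat_lit 152) (nat_lit 4847053637) (nat_lit 14) (nat_lit 4) (nat_lit 16) (nat_lit 5) (nat_lit 16) (nat_lit 4) (nat_lit 517) (nat_lit 323) (nat_lit 300)) (XT.lf (nat_lit 0) (nat_lit 11290406617) (nat_lit 152) (nat_lit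 9626256077) (nat_lit 152) (nat_lit 1342492331) (nat_lit 14) (nat_lit 4) (nat_lit 16) (nat_lit 5) (nat_lit 16) (nat_lit 4) (nat_lit 518) (nat_lit 323) (nat_lit 299))) (XT.nd (nat_lit 78) (nat_lit 76) (nat_lit 0) (XT.lf (nat_lit 0) (nat_lit 2159368627) (nat_lit 228) (nat_lit 4188796376) (nat_lit 76) (nat_lit 16276284841) (nat_lit 13) (nat_lit 5) (nat_lit 16) (nat_lit 5) (nat_lit 14) (nat_lit 4) (nat_lit 519) (nat_lit 323) (nat_lit 298)) (XT.lf (nat_lit 0) (nat_lit 2677372320) (nat_lit 76) (nat_lit 3010655465) (nat_lit 152) (nat_lit 17309364230) (nat_lit 12) (nat_lit 5) (nat_lit 13) (nat_lit 5) (nat_lit 14) (nat_lit 4) (nat_lit 520) (nat_lit 323) (nat_lit 297)))))) (XT.nd (nat_lit 546) (nat_lit 76) (nat_lit 0) (XT.nd (nat_lit 234) (nat_lit 304) (nat_lit 0) (XT.nd (nat_lit 78) (nat_lit 0) (nat_lit 0) (XT.lf (nat_lit 0) (nat_lit 9275583674) (nat_lit 152) (nat_lit 13718083188) (nat_lit 0) (nat_lit 384373096)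 (nat_lit 12) (nat_lit 5) (nat_lit 14) (nat_lit 4) (nat_lit 12) (nat_lit 4) (nat_lit 521) (nat_lit 323) (nat_lit 296)) (XT.nd (nat_lit 78) (nat_lit 0) (nat_lit 0) (XT.lf (nat_lit 0) (nat_lit 12913135490) (nat_lit 152) (nat_lit 7078315943) (nat_lit 0) (nat_lit 3775297670) (nat_lit 12) (nat_lit 5) (nat_lit 14) (nat_lit 4) (nat_lit 12) (nat_lit 4) (nat_lit 522) (nat_lit 323) (nat_lit 295)) (XT.lf (nat_lit 0) (nat_lit 16582562552) (nat_lit 152) (nat_lit 378566960) (nat_lit 0) (nat_lit 7202933318) (nat_lit 12) (nat_lit 5) (nat_lit 14) (nat_lit 4) (nat_lit 12) (nat_lit 4) (nat_lit 523) (nat_lit 323) (nat_lit 294)))) (XT.nd (nat_lit 156) (nat_lit 152) (nat_lit 0) (XT.nd (nat_lit 78) (nat_lit 0) (nat_lit 0) (XT.lf (nat_lit 0) (nat_lit 6468628338) (nat_lit 152) (nat_lit 13858674137) (nat_lit 152) (nat_lit 4241994497) (nat_lit 10) (nat_lit 4) (nat_lit 12) (nat_lit 5) (nat_lit 12) (nat_lit 4) (nat_lit 524) (nat_lit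 323) (nat_lit 293)) (XT.lf (nat_lit 0) (nat_lit 13386982875) (nat_lit 152) (nat_lit 10722745738) (nat_lit 152) (nat_lit 873663739) (nat_lit 10) (nat_lit 4) (nat_lit 12) (nat_lit 5) (nat_lit 12) (nat_lit 4) (nat_lit 525) (nat_lit 323) (nat_lit 292))) (XT.nd (nat_lit 78) (nat_lit 76) (nat_lit 0) (XT.lf (nat_lit 0) (nat_lit 2489192468) (nat_lit 228) (nat_lit 5048758662) (nat_lit 76) (nat_lit 17868282512) (nat_lit 9) (nat_lit 5) (nat_lit 12) (nat_lit 5) (nat_lit 10) (nat_lit 4) (nat_lit 526) (nat_lit 323) (nat_lit 291)) (XT.lf (nat_lit 0) (nat_lit 1576044021) (nat_lit 76) (nat_lit 4303336850) (nat_lit 152) (nat_lit 19958611588) (nat_lit 8) (nat_lit 5) (nat_lit 9) (nat_lit 5) (nat_lit 10) (nat_lit 4) (nat_lit 527) (nat_lit 323) (nat_lit 290))))) (XT.nd (nat_lit 234) (nat_lit 76) (nat_lit 0) (XT.nd (nat_lit 78) (nat_lit 0) (nat_lit 0) (XT.lf (nat_lit 0) (nat_lit 8333546493) (nat_lit 76) (nat_lit 999547450)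 (nat_lit 152) (nat_lit 16945389529) (nat_lit 8) (nat_lit 5) (nat_lit 9) (nat_lit 5) (nat_lit 10) (nat_lit 4) (nat_lit 528) (nat_lit 323) (nat_lit 289)) (XT.nd (nat_lit 78) (nat_lit 0) (nat_lit 0) (XT.lf (nat_lit 0) (nat_lit 12833668802) (nat_lit 152) (nat_lit 11584438566) (nat_lit 0) (nat_lit 2310132401) (nat_lit 8) (nat_lit 5) (nat_lit 10) (nat_lit 4) (nat_lit 8) (nat_lit 4) (nat_lit 529) (nat_lit 323) (nat_lit 288)) (XT.lf (nat_lit 0) (nat_lit 16374009826) (nat_lit 152) (nat_lit 5169490486) (nat_lit 0) (nat_lit 5644106781) (nat_lit 8) (nat_lit 5) (nat_lit 10) (nat_lit 4) (nat_lit 8) (nat_lit 4) (nat_lit 530) (nat_lit 323) (nat_lit 287)))) (XT.nd (nat_lit 56394) (nat_lit 0) (nat_lit 2204) (XT.nd (nat_lit 56316) (nat_lit 0) (nat_lit 2280) (XT.lf (nat_lit 0) (nat_lit 1326307409) (nat_lit 76) (nat_lit 18631319516) (nat_lit 76) (nat_lit 7699096232) (nat_lit 7) (nat_lit 4) (nat_lit 8) (nat_lit 5) (nat_lit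 8) (nat_lit 4) (nat_lit 531) (nat_lit 323) (nat_lit 286)) (XT.lf (nat_lit 0) (nat_lit 48718086) (nat_lit 228) (nat_lit 3737891253) (nat_lit 228) (nat_lit 3737891253) (nat_lit 37) (nat_lit 4) (nat_lit 40) (nat_lit 5) (nat_lit 40) (nat_lit 4) (nat_lit 492) (nat_lit 324) (nat_lit 324))) (XT.nd (nat_lit 78) (nat_lit 76) (nat_lit 0) (XT.lf (nat_lit 0) (nat_lit 7705933808) (nat_lit 228) (nat_lit 4017908657) (nat_lit 228) (nat_lit 3534352534) (nat_lit 37) (nat_lit 4) (nat_lit 40) (nat_lit 5) (nat_lit 40) (nat_lit 4) (nat_lit 493) (nat_lit 324) (nat_lit 323)) (XT.lf (nat_lit 0) (nat_lit 420589907) (nat_lit 304) (nat_lit 108039140) (nat_lit 76) (nat_lit 14944084177) (nat_lit 36) (nat_lit 5) (nat_lit 40) (nat_lit 5) (nat_lit 37) (nat_lit 4) (nat_lit 494) (nat_lit 324) (nat_lit 322))))))))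
noncomputable def xc7 : XT := (XT.nd (nat_lit 2106) (nat_lit 304) (nat_lit 0) (XT.nd (nat_lit 1014) (nat_lit 760) (nat_lit 0) (XT.nd (nat_lit 468) (nat_lit 532) (nat_lit 0) (XT.nd (nat_lit 234) (nat_lit 228) (nat_lit 0) (XT.nd (nat_lit 78) (nat_lit 152) (nat_lit 0) (XT.lf (nat_lit 0) (nat_lit 4417898920) (nat_lit 228) (nat_lit 8249588565) (nat_lit 0) (nat_lit 3023379507) (nat_lit 34) (nat_lit 5) (nat_lit 37) (nat_lit 4) (nat_lit 34) (nat_lit 4) (nat_lit 495) (nat_lit 324) (nat_lit 321)) (XT.nd (nat_lit 78) (nat_lit 152) (nat_lit 0) (XT.lf (nat_lit 0) (nat_lit 8441838574) (nat_lit 228) (nat_lit 872047323) (nat_lit 0) (nat_lit 6600588048) (nat_lit 34) (nat_lit 5) (nat_lit 37) (nat_lit 4) (nat_lit 34) (nat_lit 4) (nat_lit 496) (nat_lit 324) (nat_lit 320)) (XT.lf (nat_lit 0) (nat_lit 6643887208) (nat_lit 152) (nat_lit 5889088497) (nat_lit 152) (nat_lit 3609866292) (nat_lit 32) (nat_lit 4) (nat_lit 34) (nat_lit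 5) (nat_lit 34) (nat_lit 4) (nat_lit 497) (nat_lit 324) (nat_lit 319)))) (XT.nd (nat_lit 78) (nat_lit 152) (nat_lit 0) (XT.lf (nat_lit 0) (nat_lit 275393051) (nat_lit 228) (nat_lit 2152312239) (nat_lit 76) (nat_lit 13949060375) (nat_lit 31) (nat_lit 5) (nat_lit 34) (nat_lit 5) (nat_lit 32) (nat_lit 4) (nat_lit 498) (nat_lit 324) (nat_lit 318)) (XT.nd (nat_lit 78) (nat_lit 0) (nat_lit 0) (XT.lf (nat_lit 0) (nat_lit 4176497419) (nat_lit 228) (nat_lit 11330394984) (nat_lit 0) (nat_lit 1108290647) (nat_lit 29) (nat_lit 5) (nat_lit 32) (nat_lit 4) (nat_lit 29) (nat_lit 4) (nat_lit 499) (nat_lit 324) (nat_lit 317)) (XT.lf (nat_lit 0) (nat_lit 8131237608) (nat_lit 228) (nat_lit 4069227752) (nat_lit 0) (nat_lit 4658412704) (nat_lit 29) (nat_lit 5) (nat_lit 32) (nat_lit 4) (nat_lit 29) (nat_lit 4) (nat_lit 500) (nat_lit 324) (nat_lit 316))))) (XT.nd (nat_lit 234) (nat_lit 152) (nat_lit 0) (XT.nd (nat_lit 78) (nat_lit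 228) (nat_lit 0) (XT.lf (nat_lit 0) (nat_lit 3287355316) (nat_lit 152) (nat_lit 8845136876) (nat_lit 152) (nat_lit 4975627529) (nat_lit 27) (nat_lit 4) (nat_lit 29) (nat_lit 5) (nat_lit 29) (nat_lit 4) (nat_lit 501) (nat_lit 324) (nat_lit 315)) (XT.nd (nat_lit 78) (nat_lit 228) (nat_lit 0) (XT.lf (nat_lit 0) (nat_lit 10753919061) (nat_lit 152) (nat_lit 5433693360) (nat_lit 152) (nat_lit 1175277696) (nat_lit 27) (nat_lit 4) (nat_lit 29) (nat_lit 5) (nat_lit 29) (nat_lit 4) (nat_lit 502) (nat_lit 324) (nat_lit 314)) (XT.lf (nat_lit 0) (nat_lit 646781792) (nat_lit 152) (nat_lit 1970286603) (nat_lit 228) (nat_lit 15006328410) (nat_lit 24) (nat_lit 5) (nat_lit 26) (nat_lit 5) (nat_lit 27) (nat_lit 4) (nat_lit 503) (nat_lit 324) (nat_lit 313)))) (XT.nd (nat_lit 156) (nat_lit 152) (nat_lit 0) (XT.nd (nat_lit 78) (nat_lit 0) (nat_lit 0) (XT.lf (nat_lit 0) (nat_lit 6471739721) (nat_lit 228) (nat_lit 9860651068)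 (nat_lit 0) (nat_lit 1556542684) (nat_lit 24) (nat_lit 5) (nat_lit 27) (nat_lit 4) (nat_lit 24) (nat_lit 4) (nat_lit 504) (nat_lit 324) (nat_lit 312)) (XT.lf (nat_lit 0) (nat_lit 10364996970) (nat_lit 228) (nat_lit 2705062582) (nat_lit 0) (nat_lit 5090510612) (nat_lit 24) (nat_lit 5) (nat_lit 27) (nat_lit 4) (nat_lit 24) (nat_lit 4) (nat_lit 505) (nat_lit 324) (nat_lit 311))) (XT.nd (nat_lit 78) (nat_lit 0) (nat_lit 0) (XT.lf (nat_lit 0) (nat_lit 4565627995) (nat_lit 152) (nat_lit 9749589594) (nat_lit 152) (nat_lit 4122858802) (nat_lit 22) (nat_lit 4) (nat_lit 24) (nat_lit 5) (nat_lit 24) (nat_lit 4) (nat_lit 506) (nat_lit 324) (nat_lit 310)) (XT.lf (nat_lit 0) (nat_lit 11931089727) (nat_lit 152) (nat_lit 6381384625) (nat_lit 152) (nat_lit 409316154) (nat_lit 22) (nat_lit 4) (nat_lit 24) (nat_lit 5) (nat_lit 24) (nat_lit 4) (nat_lit 507) (nat_lit 324) (nat_lit 309)))))) (XT.nd (nat_lit 546) (nat_lit 304)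 (nat_lit 0) (XT.nd (nat_lit 234) (nat_lit 304) (nat_lit 0) (XT.nd (nat_lit 78) (nat_lit 0) (nat_lit 0) (XT.lf (nat_lit 0) (nat_lit 328784628) (nat_lit 76) (nat_lit 2958056685) (nat_lit 152) (nat_lit 15724863494) (nat_lit 20) (nat_lit 5) (nat_lit 21) (nat_lit 5) (nat_lit 22) (nat_lit 4) (nat_lit 508) (nat_lit 324) (nat_lit 308)) (XT.nd (nat_lit 78) (nat_lit 0) (nat_lit 0) (XT.lf (nat_lit 0) (nat_lit 7051477399) (nat_lit 152) (nat_lit 11716741389) (nat_lit 0) (nat_lit 539161104) (nat_lit 20) (nat_lit 5) (nat_lit 22) (nat_lit 4) (nat_lit 20) (nat_lit 4) (nat_lit 509) (nat_lit 324) (nat_lit 307)) (XT.lf (nat_lit 0) (nat_lit 10862657509) (nat_lit 152) (nat_lit 4715600366) (nat_lit 0) (nat_lit 4031302578) (nat_lit 20) (nat_lit 5) (nat_lit 22) (nat_lit 4) (nat_lit 20) (nat_lit 4) (nat_lit 510) (nat_lit 324) (nat_lit 306)))) (XT.nd (nat_lit 156) (nat_lit 152) (nat_lit 0) (XT.nd (nat_lit 78) (nat_lit 0) (nat_lit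 0) (XT.lf (nat_lit 0) (nat_lit 2373584084) (nat_lit 152) (nat_lit 12344497353) (nat_lit 152) (nat_lit 5200359445) (nat_lit 18) (nat_lit 4) (nat_lit 20) (nat_lit 5) (nat_lit 20) (nat_lit 4) (nat_lit 511) (nat_lit 324) (nat_lit 305)) (XT.lf (nat_lit 0) (nat_lit 9585910824) (nat_lit 152) (nat_lit 9049349692) (nat_lit 152) (nat_lit 1598561808) (nat_lit 18) (nat_lit 4) (nat_lit 20) (nat_lit 5) (nat_lit 20) (nat_lit 4) (nat_lit 512) (nat_lit 324) (nat_lit 304))) (XT.nd (nat_lit 78) (nat_lit 76) (nat_lit 0) (XT.lf (nat_lit 0) (nat_lit 2001657305) (nat_lit 228) (nat_lit 3708077358) (nat_lit 76) (nat_lit 14846450890) (nat_lit 17) (nat_lit 5) (nat_lit 20) (nat_lit 5) (nat_lit 18) (nat_lit 4) (nat_lit 513) (nat_lit 324) (nat_lit 303)) (XT.lf (nat_lit 0) (nat_lit 3323579818) (nat_lit 76) (nat_lit 2305007962) (nat_lit 152) (nat_lit 15256690097) (nat_lit 16) (nat_lit 5) (nat_lit 17) (nat_lit 5) (nat_lit 18) (nat_lit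 4) (nat_lit 514) (nat_lit 324) (nat_lit 302))))) (XT.nd (nat_lit 234) (nat_lit 152) (nat_lit 0) (XT.nd (nat_lit 78) (nat_lit 152) (nat_lit 0) (XT.lf (nat_lit 0) (nat_lit 9315352963) (nat_lit 152) (nat_lit 10762211982) (nat_lit 0) (nat_lit 1143656274) (nat_lit 16) (nat_lit 5) (nat_lit 18) (nat_lit 4) (nat_lit 16) (nat_lit 4) (nat_lit 515) (nat_lit 324) (nat_lit 301)) (XT.nd (nat_lit 78) (nat_lit 152) (nat_lit 0) (XT.lf (nat_lit 0) (nat_lit 13046673243) (nat_lit 152) (nat_lit 3920574364) (nat_lit 0) (nat_lit 4597234222) (nat_lit 16) (nat_lit 5) (nat_lit 18) (nat_lit 4) (nat_lit 16) (nat_lit 4) (nat_lit 516) (nat_lit 324) (nat_lit 300)) (XT.lf (nat_lit 0) (nat_lit 3020477534) (nat_lit 152) (nat_lit 13808179651) (nat_lit 152) (nat_lit 5086444227) (nat_lit 14) (nat_lit 4) (nat_lit 16) (nat_lit 5) (nat_lit 16) (nat_lit 4) (nat_lit 517) (nat_lit 324) (nat_lit 299)))) (XT.nd (nat_lit 156) (nat_lit 76) (nat_lit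 0) (XT.nd (nat_lit 78) (nat_lit 76) (nat_lit 0) (XT.lf (nat_lit 0) (nat_lit 10076969106) (nat_lit 152) (nat_lit 10592404663) (nat_lit 152) (nat_lit 1603711980) (nat_lit 14) (nat_lit 4) (nat_lit 16) (nat_lit 5) (nat_lit 16) (nat_lit 4) (nat_lit 518) (nat_lit 324) (nat_lit 298)) (XT.lf (nat_lit 0) (nat_lit 1880454560) (nat_lit 228) (nat_lit 5451897273) (nat_lit 76) (nat_lit 15306491832) (nat_lit 13) (nat_lit 5) (nat_lit 16) (nat_lit 5) (nat_lit 14) (nat_lit 4) (nat_lit 519) (nat_lit 324) (nat_lit 297))) (XT.nd (nat_lit 78) (nat_lit 0) (nat_lit 0) (XT.lf (nat_lit 0) (nat_lit 1360303046) (nat_lit 76) (nat_lit 4019553148) (nat_lit 152) (nat_lit 17632521425) (nat_lit 12) (nat_lit 5) (nat_lit 13) (nat_lit 5) (nat_lit 14) (nat_lit 4) (nat_lit 520) (nat_lit 324) (nat_lit 296)) (XT.lf (nat_lit 0) (nat_lit 8309013480) (nat_lit 76) (nat_lit 635332923) (nat_lit 152) (nat_lit 14449146979) (nat_lit 12) (nat_lit 5) (nat_lit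 13) (nat_lit 5) (nat_lit 14) (nat_lit 4) (nat_lit 521) (nat_lit 324) (nat_lit 295))))))) (XT.nd (nat_lit 57174) (nat_lit 0) (nat_lit 1064) (XT.nd (nat_lit 546) (nat_lit 0) (nat_lit 0) (XT.nd (nat_lit 234) (nat_lit 152) (nat_lit 0) (XT.nd (nat_lit 78) (nat_lit 152) (nat_lit 0) (XT.lf (nat_lit 0) (nat_lit 12557537676) (nat_lit 152) (nat_lit 8476633995) (nat_lit 0) (nat_lit 2748524444) (nat_lit 12) (nat_lit 5) (nat_lit 14) (nat_lit 4) (nat_lit 12) (nat_lit 4) (nat_lit 522) (nat_lit 324) (nat_lit 294)) (XT.nd (nat_lit 78) (nat_lit 152) (nat_lit 0) (XT.lf (nat_lit 0) (nat_lit 16207125973) (nat_lit 152) (nat_lit 1812224560) (nat_lit 0) (nat_lit 6161062335) (nat_lit 12) (nat_lit 5) (nat_lit 14) (nat_lit 4) (nat_lit 12) (nat_lit 4) (nat_lit 523) (nat_lit 324) (nat_lit 293)) (XT.lf (nat_lit 0) (nat_lit 4980811132) (nat_lit 152) (nat_lit 14941945100) (nat_lit 152) (nat_lit 4663479102) (nat_lit 10) (nat_lit 4) (nat_lit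 12) (nat_lit 5) (nat_lit 12) (nat_lit 4) (nat_lit 524) (nat_lit 324) (nat_lit 292)))) (XT.nd (nat_lit 156) (nat_lit 76) (nat_lit 0) (XT.nd (nat_lit 78) (nat_lit 76) (nat_lit 0) (XT.lf (nat_lit 0) (nat_lit 11864746990) (nat_lit 152) (nat_lit 11821143508) (nat_lit 152) (nat_lit 1314832061) (nat_lit 10) (nat_lit 4) (nat_lit 12) (nat_lit 5) (nat_lit 12) (nat_lit 4) (nat_lit 525) (nat_lit 324) (nat_lit 291)) (XT.lf (nat_lit 0) (nat_lit 2034765480) (nat_lit 228) (nat_lit 6619463067) (nat_lit 76) (nat_lit 16769779258) (nat_lit 9) (nat_lit 5) (nat_lit 12) (nat_lit 5) (nat_lit 10) (nat_lit 4) (nat_lit 526) (nat_lit 324) (nat_lit 290))) (XT.nd (nat_lit 78) (nat_lit 76) (nat_lit 0) (XT.lf (nat_lit 0) (nat_lit 5396049918) (nat_lit 228) (nat_lit 48666436) (nat_lit 76) (nat_lit 20411634010) (nat_lit 9) (nat_lit 5) (nat_lit 12) (nat_lit 5) (nat_lit 10) (nat_lit 4) (nat_lit 527) (nat_lit 324) (nat_lit 289)) (XT.lf (nat_lit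 0) (nat_lit 6675072646) (nat_lit 76) (nat_lit 2155850013) (nat_lit 152) (nat_lit 17466301076) (nat_lit 8) (nat_lit 5) (nat_lit 9) (nat_lit 5) (nat_lit 10) (nat_lit 4) (nat_lit 528) (nat_lit 324) (nat_lit 288))))) (XT.nd (nat_lit 56316) (nat_lit 0) (nat_lit 2204) (XT.nd (nat_lit 78) (nat_lit 0) (nat_lit 0) (XT.lf (nat_lit 0) (nat_lit 12305740109) (nat_lit 152) (nat_lit 13286888154) (nat_lit 0) (nat_lit 1154872360) (nat_lit 8) (nat_lit 5) (nat_lit 10) (nat_lit 4) (nat_lit 8) (nat_lit 4) (nat_lit 529) (nat_lit 324) (nat_lit 287)) (XT.nd (nat_lit 78) (nat_lit 0) (nat_lit 0) (XT.lf (nat_lit 0) (nat_lit 15828189047) (nat_lit 152) (nat_lit 6904041018) (nat_lit 0) (nat_lit 4475001059) (nat_lit 8) (nat_lit 5) (nat_lit 10) (nat_lit 4) (nat_lit 8) (nat_lit 4) (nat_lit 530) (nat_lit 324) (nat_lit 286)) (XT.lf (nat_lit 0) (nat_lit 19385653619) (nat_lit 152) (nat_lit 457109395) (nat_lit 0) (nat_lit 7834112456) (nat_lit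 8) (nat_lit 5) (nat_lit 10) (nat_lit 4) (nat_lit 8) (nat_lit 4) (nat_lit 531) (nat_lit 324) (nat_lit 285)))) (XT.nd (nat_lit 156) (nat_lit 228) (nat_lit 0) (XT.nd (nat_lit 78) (nat_lit 228) (nat_lit 0) (XT.lf (nat_lit 0) (nat_lit 7281360898) (nat_lit 228) (nat_lit 20282537) (nat_lit 228) (nat_lit 20282537) (nat_lit 43) (nat_lit 4) (nat_lit 46) (nat_lit 5) (nat_lit 46) (nat_lit 4) (nat_lit 490) (nat_lit 325) (nat_lit 325)) (XT.lf (nat_lit 0) (nat_lit 3987117712) (nat_lit 228) (nat_lit 7363128071) (nat_lit 0) (nat_lit 3493890467) (nat_lit 40) (nat_lit 5) (nat_lit 43) (nat_lit 4) (nat_lit 40) (nat_lit 4) (nat_lit 491) (nat_lit 325) (nat_lit 324))) (XT.nd (nat_lit 78) (nat_lit 0) (nat_lit 0) (XT.lf (nat_lit 0) (nat_lit 47393087) (nat_lit 228) (nat_lit 7989497661) (nat_lit 228) (nat_lit 7012714293) (nat_lit 37) (nat_lit 4) (nat_lit 40) (nat_lit 5) (nat_lit 40) (nat_lit 4) (nat_lit 492) (nat_lit 325) (nat_lit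 323)) (XT.lf (nat_lit 0) (nat_lit 7606828875) (nat_lit 228) (nat_lit 4551709998) (nat_lit 228) (nat_lit 3100852000) (nat_lit 37) (nat_lit 4) (nat_lit 40) (nat_lit 5) (nat_lit 40) (nat_lit 4) (nat_lit 493) (nat_lit 325) (nat_lit 322)))))) (XT.nd (nat_lit 546) (nat_lit 532) (nat_lit 0) (XT.nd (nat_lit 234) (nat_lit 380) (nat_lit 0) (XT.nd (nat_lit 78) (nat_lit 152) (nat_lit 0) (XT.lf (nat_lit 0) (nat_lit 819797266) (nat_lit 304) (nat_lit 259646569) (nat_lit 76) (nat_lit 14394993143) (nat_lit 36) (nat_lit 5) (nat_lit 40) (nat_lit 5) (nat_lit 37) (nat_lit 4) (nat_lit 494) (nat_lit 325) (nat_lit 321)) (XT.nd (nat_lit 78) (nat_lit 0) (nat_lit 0) (XT.lf (nat_lit 0) (nat_lit 4784037786) (nat_lit 228) (nat_lit 8449994973) (nat_lit 0) (nat_lit 2459231138) (nat_lit 34) (nat_lit 5) (nat_lit 37) (nat_lit 4) (nat_lit 34) (nat_lit 4) (nat_lit 495) (nat_lit 325) (nat_lit 320)) (XT.lf (nat_lit 0) (nat_lit 8780047817)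 (nat_lit 228) (nat_lit 1120123687) (nat_lit 0) (nat_lit 6017269490) (nat_lit 34) (nat_lit 5) (nat_lit 37) (nat_lit 4) (nat_lit 34) (nat_lit 4) (nat_lit 496) (nat_lit 325) (nat_lit 319)))) (XT.nd (nat_lit 156) (nat_lit 152) (nat_lit 0) (XT.nd (nat_lit 78) (nat_lit 76) (nat_lit 0) (XT.lf (nat_lit 0) (nat_lit 6345157701) (nat_lit 152) (nat_lit 6496705713) (nat_lit 152) (nat_lit 3304543387) (nat_lit 32) (nat_lit 4) (nat_lit 34) (nat_lit 5) (nat_lit 34) (nat_lit 4) (nat_lit 497) (nat_lit 325) (nat_lit 318)) (XT.lf (nat_lit 0) (nat_lit 549374334) (nat_lit 228) (nat_lit 2503390873) (nat_lit 76) (nat_lit 13328083244) (nat_lit 31) (nat_lit 5) (nat_lit 34) (nat_lit 5) (nat_lit 32) (nat_lit 4) (nat_lit 498) (nat_lit 325) (nat_lit 317))) (XT.nd (nat_lit 78) (nat_lit 0) (nat_lit 0) (XT.lf (nat_lit 0) (nat_lit 4416866374) (nat_lit 228) (nat_lit 11733115542) (nat_lit 0) (nat_lit 469966839) (nat_lit 29) (nat_lit 5) (nat_lit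 32) (nat_lit 4) (nat_lit 29) (nat_lit 4) (nat_lit 499) (nat_lit 325) (nat_lit 316)) (XT.lf (nat_lit 0) (nat_lit 8344911464) (nat_lit 228) (nat_lit 4517949183) (nat_lit 0) (nat_lit 4001327486) (nat_lit 29) (nat_lit 5) (nat_lit 32) (nat_lit 4) (nat_lit 29) (nat_lit 4) (nat_lit 500) (nat_lit 325) (nat_lit 315))))) (XT.nd (nat_lit 234) (nat_lit 152) (nat_lit 0) (XT.nd (nat_lit 78) (nat_lit 228) (nat_lit 0) (XT.lf (nat_lit 0) (nat_lit 2786972377) (nat_lit 152) (nat_lit 9529773187) (nat_lit 152) (nat_lit 4797282892) (nat_lit 27) (nat_lit 4) (nat_lit 29) (nat_lit 5) (nat_lit 29) (nat_lit 4) (nat_lit 501) (nat_lit 325) (nat_lit 314)) (XT.nd (nat_lit 78) (nat_lit 228) (nat_lit 0) (XT.lf (nat_lit 0) (nat_lit 10208733929) (nat_lit 152) (nat_lit 6137182482) (nat_lit 152) (nat_lit 1023411485) (nat_lit 27) (nat_lit 4) (nat_lit 29) (nat_lit 5) (nat_lit 29) (nat_lit 4) (nat_lit 502) (nat_lit 325) (nat_lit 313)) (XT.lf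 (nat_lit 0) (nat_lit 41966764) (nat_lit 152) (nat_lit 2695430449) (nat_lit 228) (nat_lit 14893018228) (nat_lit 24) (nat_lit 5) (nat_lit 26) (nat_lit 5) (nat_lit 27) (nat_lit 4) (nat_lit 503) (nat_lit 325) (nat_lit 312)))) (XT.nd (nat_lit 156) (nat_lit 152) (nat_lit 0) (XT.nd (nat_lit 78) (nat_lit 0) (nat_lit 0) (XT.lf (nat_lit 0) (nat_lit 6561837772) (nat_lit 228) (nat_lit 10512156064) (nat_lit 0) (nat_lit 822572364) (nat_lit 24) (nat_lit 5) (nat_lit 27) (nat_lit 4) (nat_lit 24) (nat_lit 4) (nat_lit 504) (nat_lit 325) (nat_lit 311)) (XT.lf (nat_lit 0) (nat_lit 10430072813) (nat_lit 228) (nat_lit 3400076840) (nat_lit 0) (nat_lit 4338562972) (nat_lit 24) (nat_lit 5) (nat_lit 27) (nat_lit 4) (nat_lit 24) (nat_lit 4) (nat_lit 505) (nat_lit 325) (nat_lit 310))) (XT.nd (nat_lit 78) (nat_lit 0) (nat_lit 0) (XT.lf (nat_lit 0) (nat_lit 3818154347) (nat_lit 152) (nat_lit 10532754414) (nat_lit 152) (nat_lit 4095906893)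 (nat_lit 22) (nat_lit 4) (nat_lit 24) (nat_lit 5) (nat_lit 24) (nat_lit 4) (nat_lit 506) (nat_lit 325) (nat_lit 309)) (XT.lf (nat_lit 0) (nat_lit 11141240572) (nat_lit 152) (nat_lit 7182599257) (nat_lit 152) (nat_lit 407185383) (nat_lit 22) (nat_lit 4) (nat_lit 24) (nat_lit 5) (nat_lit 24) (nat_lit 4) (nat_lit 507) (nat_lit 325) (nat_lit 308))))))))
noncomputable def xc8 : XT := (XT.nd (nat_lit 58032) (nat_lit 0) (nat_lit 456) (XT.nd (nat_lit 1014) (nat_lit 380) (nat_lit 0) (XT.nd (nat_lit 468) (nat_lit 304) (nat_lit 0) (XT.nd (nat_lit 234) (nat_lit 228) (nat_lit 0) (XT.nd (nat_lit 78) (nat_lit 76) (nat_lit 0) (XT.lf (nat_lit 0) (nat_lit 3262794151) (nat_lit 228) (nat_lit 516497484) (nat_lit 76) (nat_lit 15242179183) (nat_lit 21) (nat_lit 5) (nat_lit 24) (nat_lit 5) (nat_lit 22) (nat_lit 4) (nat_lit 508) (nat_lit 325) (nat_lit 307)) (XT.nd (nat_lit 78) (nat_lit 0) (nat_lit 0) (XT.lf (nat_lit 0) (nat_lit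 6700513596) (nat_lit 76) (nat_lit 296157034) (nat_lit 152) (nat_lit 12321098880) (nat_lit 20) (nat_lit 5) (nat_lit 21) (nat_lit 5) (nat_lit 22) (nat_lit 4) (nat_lit 509) (nat_lit 325) (nat_lit 306)) (XT.lf (nat_lit 0) (nat_lit 10782467166) (nat_lit 152) (nat_lit 5655335299) (nat_lit 0) (nat_lit 3182663525) (nat_lit 20) (nat_lit 5) (nat_lit 22) (nat_lit 4) (nat_lit 20) (nat_lit 4) (nat_lit 510) (nat_lit 325) (nat_lit 305)))) (XT.nd (nat_lit 78) (nat_lit 76) (nat_lit 0) (XT.lf (nat_lit 0) (nat_lit 1380487992) (nat_lit 152) (nat_lit 13227954553) (nat_lit 152) (nat_lit 5321500934) (nat_lit 18) (nat_lit 4) (nat_lit 20) (nat_lit 5) (nat_lit 20) (nat_lit 4) (nat_lit 511) (nat_lit 325) (nat_lit 304)) (XT.nd (nat_lit 78) (nat_lit 76) (nat_lit 0) (XT.lf (nat_lit 0) (nat_lit 8552743579) (nat_lit 152) (nat_lit 9950068159) (nat_lit 152) (nat_lit 1742977309) (nat_lit 18) (nat_lit 4) (nat_lit 20) (nat_lit 5) (nat_lit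 20) (nat_lit 4) (nat_lit 512) (nat_lit 325) (nat_lit 303)) (XT.lf (nat_lit 0) (nat_lit 1836617438) (nat_lit 228) (nat_lit 4791866008) (nat_lit 76) (nat_lit 13940145572) (nat_lit 17) (nat_lit 5) (nat_lit 20) (nat_lit 5) (nat_lit 18) (nat_lit 4) (nat_lit 513) (nat_lit 325) (nat_lit 302))))) (XT.nd (nat_lit 234) (nat_lit 228) (nat_lit 0) (XT.nd (nat_lit 78) (nat_lit 0) (nat_lit 0) (XT.lf (nat_lit 0) (nat_lit 2186056341) (nat_lit 76) (nat_lit 3248029152) (nat_lit 152) (nat_lit 15464232570) (nat_lit 16) (nat_lit 5) (nat_lit 17) (nat_lit 5) (nat_lit 18) (nat_lit 4) (nat_lit 514) (nat_lit 325) (nat_lit 301)) (XT.nd (nat_lit 78) (nat_lit 0) (nat_lit 0) (XT.lf (nat_lit 0) (nat_lit 9092725402) (nat_lit 152) (nat_lit 11945550564) (nat_lit 0) (nat_lit 196555270) (nat_lit 16) (nat_lit 5) (nat_lit 18) (nat_lit 4) (nat_lit 16) (nat_lit 4) (nat_lit 515) (nat_lit 325) (nat_lit 300)) (XT.lf (nat_lit 0) (nat_lit 12802474550)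 (nat_lit 152) (nat_lit 5142047885) (nat_lit 0) (nat_lit 3634008014) (nat_lit 16) (nat_lit 5) (nat_lit 18) (nat_lit 4) (nat_lit 16) (nat_lit 4) (nat_lit 516) (nat_lit 325) (nat_lit 299)))) (XT.nd (nat_lit 156) (nat_lit 76) (nat_lit 0) (XT.nd (nat_lit 78) (nat_lit 0) (nat_lit 0) (XT.lf (nat_lit 0) (nat_lit 1744887223) (nat_lit 152) (nat_lit 14810141124) (nat_lit 152) (nat_lit 5374717329) (nat_lit 14) (nat_lit 4) (nat_lit 16) (nat_lit 5) (nat_lit 16) (nat_lit 4) (nat_lit 517) (nat_lit 325) (nat_lit 298)) (XT.lf (nat_lit 0) (nat_lit 8764237568) (nat_lit 152) (nat_lit 11610532719) (nat_lit 152) (nat_lit 1913386121) (nat_lit 14) (nat_lit 4) (nat_lit 16) (nat_lit 5) (nat_lit 16) (nat_lit 4) (nat_lit 518) (nat_lit 325) (nat_lit 297))) (XT.nd (nat_lit 78) (nat_lit 0) (nat_lit 0) (XT.lf (nat_lit 0) (nat_lit 1554135615) (nat_lit 228) (nat_lit 6814383636) (nat_lit 76) (nat_lit 14285856044) (nat_lit 13) (nat_lit 5)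 (nat_lit 16) (nat_lit 5) (nat_lit 14) (nat_lit 4) (nat_lit 519) (nat_lit 325) (nat_lit 296)) (XT.lf (nat_lit 0) (nat_lit 5024405029) (nat_lit 228) (nat_lit 55999207) (nat_lit 76) (nat_lit 17948094163) (nat_lit 13) (nat_lit 5) (nat_lit 16) (nat_lit 5) (nat_lit 14) (nat_lit 4) (nat_lit 520) (nat_lit 325) (nat_lit 295)))))) (XT.nd (nat_lit 546) (nat_lit 76) (nat_lit 0) (XT.nd (nat_lit 234) (nat_lit 228) (nat_lit 0) (XT.nd (nat_lit 78) (nat_lit 0) (nat_lit 0) (XT.lf (nat_lit 0) (nat_lit 6856228434) (nat_lit 76) (nat_lit 1712164161) (nat_lit 152) (nat_lit 14841637996) (nat_lit 12) (nat_lit 5) (nat_lit 13) (nat_lit 5) (nat_lit 14) (nat_lit 4) (nat_lit 521) (nat_lit 325) (nat_lit 294)) (XT.nd (nat_lit 78) (nat_lit 0) (nat_lit 0) (XT.lf (nat_lit 0) (nat_lit 12154753601) (nat_lit 152) (nat_lit 9974304296) (nat_lit 0) (nat_lit 1670718284) (nat_lit 12) (nat_lit 5) (nat_lit 14) (nat_lit 4) (nat_lit 12) (nat_lit 4)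 (nat_lit 522) (nat_lit 325) (nat_lit 293)) (XT.lf (nat_lit 0) (nat_lit 15784892129) (nat_lit 152) (nat_lit 3344541477) (nat_lit 0) (nat_lit 5068454453) (nat_lit 12) (nat_lit 5) (nat_lit 14) (nat_lit 4) (nat_lit 12) (nat_lit 4) (nat_lit 523) (nat_lit 325) (nat_lit 292)))) (XT.nd (nat_lit 156) (nat_lit 76) (nat_lit 0) (XT.nd (nat_lit 78) (nat_lit 0) (nat_lit 0) (XT.lf (nat_lit 0) (nat_lit 3393711852) (nat_lit 152) (nat_lit 16077437633) (nat_lit 152) (nat_lit 5133154507) (nat_lit 10) (nat_lit 4) (nat_lit 12) (nat_lit 5) (nat_lit 12) (nat_lit 4) (nat_lit 524) (nat_lit 325) (nat_lit 291)) (XT.lf (nat_lit 0) (nat_lit 10243903908) (nat_lit 152) (nat_lit 12971466244) (nat_lit 152) (nat_lit 1803805227) (nat_lit 10) (nat_lit 4) (nat_lit 12) (nat_lit 5) (nat_lit 12) (nat_lit 4) (nat_lit 525) (nat_lit 325) (nat_lit 290))) (XT.nd (nat_lit 78) (nat_lit 0) (nat_lit 0) (XT.lf (nat_lit 0) (nat_lit 1533534042) (nat_lit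 228) (nat_lit 8288920185) (nat_lit 76) (nat_lit 15620448983) (nat_lit 9) (nat_lit 5) (nat_lit 12) (nat_lit 5) (nat_lit 10) (nat_lit 4) (nat_lit 526) (nat_lit 325) (nat_lit 289)) (XT.lf (nat_lit 0) (nat_lit 4876513339) (nat_lit 228) (nat_lit 1750805859) (nat_lit 76) (nat_lit 19248298223) (nat_lit 9) (nat_lit 5) (nat_lit 12) (nat_lit 5) (nat_lit 10) (nat_lit 4) (nat_lit 527) (nat_lit 325) (nat_lit 288))))) (XT.nd (nat_lit 234) (nat_lit 0) (nat_lit 0) (XT.nd (nat_lit 78) (nat_lit 0) (nat_lit 0) (XT.lf (nat_lit 0) (nat_lit 4917845395) (nat_lit 76) (nat_lit 3364185385) (nat_lit 152) (nat_lit 18035052561) (nat_lit 8) (nat_lit 5) (nat_lit 9) (nat_lit 5) (nat_lit 10) (nat_lit 4) (nat_lit 528) (nat_lit 325) (nat_lit 287)) (XT.nd (nat_lit 78) (nat_lit 0) (nat_lit 0) (XT.lf (nat_lit 0) (nat_lit 11679304342) (nat_lit 76) (nat_lit 52145047) (nat_lit 152) (nat_lit 15036424153) (nat_lit 8) (nat_lit 5) (nat_lit 9) (nat_lit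 5) (nat_lit 10) (nat_lit 4) (nat_lit 529) (nat_lit 325) (nat_lit 286)) (XT.lf (nat_lit 0) (nat_lit 15236018509) (nat_lit 152) (nat_lit 8736855017) (nat_lit 0) (nat_lit 3255093346) (nat_lit 8) (nat_lit 5) (nat_lit 10) (nat_lit 4) (nat_lit 8) (nat_lit 4) (nat_lit 530) (nat_lit 325) (nat_lit 285)))) (XT.nd (nat_lit 56082) (nat_lit 0) (nat_lit 2584) (XT.nd (nat_lit 56004) (nat_lit 0) (nat_lit 2888) (XT.lf (nat_lit 0) (nat_lit 18776285767) (nat_lit 152) (nat_lit 2320777818) (nat_lit 0) (nat_lit 6600896707) (nat_lit 8) (nat_lit 5) (nat_lit 10) (nat_lit 4) (nat_lit 8) (nat_lit 4) (nat_lit 531) (nat_lit 325) (nat_lit 284)) (XT.lf (nat_lit 0) (nat_lit 3401388526) (nat_lit 228) (nat_lit 324249315) (nat_lit 0) (nat_lit 3401388526) (nat_lit 46) (nat_lit 5) (nat_lit 49) (nat_lit 4) (nat_lit 46) (nat_lit 4) (nat_lit 488) (nat_lit 326) (nat_lit 326))) (XT.nd (nat_lit 78) (nat_lit 76) (nat_lit 0) (XT.lf (nat_lit 0) (nat_lit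 6902119258) (nat_lit 228) (nat_lit 4028899488) (nat_lit 228) (nat_lit 3515745862) (nat_lit 43) (nat_lit 4) (nat_lit 46) (nat_lit 5) (nat_lit 46) (nat_lit 4) (nat_lit 489) (nat_lit 326) (nat_lit 325)) (XT.lf (nat_lit 0) (nat_lit 437030828) (nat_lit 304) (nat_lit 133443142) (nat_lit 76) (nat_lit 14073916811) (nat_lit 42) (nat_lit 5) (nat_lit 46) (nat_lit 5) (nat_lit 43) (nat_lit 4) (nat_lit 490) (nat_lit 326) (nat_lit 324))))))) (XT.nd (nat_lit 1014) (nat_lit 912) (nat_lit 0) (XT.nd (nat_lit 468) (nat_lit 608) (nat_lit 0) (XT.nd (nat_lit 234) (nat_lit 228) (nat_lit 0) (XT.nd (nat_lit 78) (nat_lit 228) (nat_lit 0) (XT.lf (nat_lit 0) (nat_lit 4431164372) (nat_lit 228) (nat_lit 7462889328) (nat_lit 0) (nat_lit 2951289214) (nat_lit 40) (nat_lit 5) (nat_lit 43) (nat_lit 4) (nat_lit 40) (nat_lit 4) (nat_lit 491) (nat_lit 326) (nat_lit 323)) (XT.nd (nat_lit 78) (nat_lit 228) (nat_lit 0) (XT.lf (nat_lit 0) (nat_lit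 8451972581) (nat_lit 228) (nat_lit 101408131) (nat_lit 0) (nat_lit 6498022793) (nat_lit 40) (nat_lit 5) (nat_lit 43) (nat_lit 4) (nat_lit 40) (nat_lit 4) (nat_lit 492) (nat_lit 326) (nat_lit 322)) (XT.lf (nat_lit 0) (nat_lit 7408580145) (nat_lit 228) (nat_lit 5135965890) (nat_lit 228) (nat_lit 2717237053) (nat_lit 37) (nat_lit 4) (nat_lit 40) (nat_lit 5) (nat_lit 40) (nat_lit 4) (nat_lit 493) (nat_lit 326) (nat_lit 321)))) (XT.nd (nat_lit 78) (nat_lit 152) (nat_lit 0) (XT.lf (nat_lit 0) (nat_lit 1170334231) (nat_lit 304) (nat_lit 510319423) (nat_lit 76) (nat_lit 13796698442) (nat_lit 36) (nat_lit 5) (nat_lit 40) (nat_lit 5) (nat_lit 37) (nat_lit 4) (nat_lit 494) (nat_lit 326) (nat_lit 320)) (XT.nd (nat_lit 78) (nat_lit 0) (nat_lit 0) (XT.lf (nat_lit 0) (nat_lit 5101081591) (nat_lit 228) (nat_lit 8750702821) (nat_lit 0) (nat_lit 1845076018) (nat_lit 34) (nat_lit 5) (nat_lit 37) (nat_lit 4) (nat_lit 34)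 (nat_lit 4) (nat_lit 495) (nat_lit 326) (nat_lit 319)) (XT.lf (nat_lit 0) (nat_lit 9069709638) (nat_lit 228) (nat_lit 1467566786) (nat_lit 0) (nat_lit 5384320067) (nat_lit 34) (nat_lit 5) (nat_lit 37) (nat_lit 4) (nat_lit 34) (nat_lit 4) (nat_lit 496) (nat_lit 326) (nat_lit 318))))) (XT.nd (nat_lit 234) (nat_lit 228) (nat_lit 0) (XT.nd (nat_lit 78) (nat_lit 228) (nat_lit 0) (XT.lf (nat_lit 0) (nat_lit 5946669484) (nat_lit 152) (nat_lit 7155423419) (nat_lit 152) (nat_lit 3049069144) (nat_lit 32) (nat_lit 4) (nat_lit 34) (nat_lit 5) (nat_lit 34) (nat_lit 4) (nat_lit 497) (nat_lit 326) (nat_lit 317)) (XT.nd (nat_lit 78) (nat_lit 152) (nat_lit 0) (XT.lf (nat_lit 0) (nat_lit 774696755) (nat_lit 228) (nat_lit 2954177324) (nat_lit 76) (nat_lit 12657243141) (nat_lit 31) (nat_lit 5) (nat_lit 34) (nat_lit 5) (nat_lit 32) (nat_lit 4) (nat_lit 498) (nat_lit 326) (nat_lit 316)) (XT.lf (nat_lit 0) (nat_lit 4387627365)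 (nat_lit 152) (nat_lit 221932173) (nat_lit 228) (nat_lit 12016321033) (nat_lit 29) (nat_lit 5) (nat_lit 31) (nat_lit 5) (nat_lit 32) (nat_lit 4) (nat_lit 499) (nat_lit 326) (nat_lit 315)))) (XT.nd (nat_lit 156) (nat_lit 76) (nat_lit 0) (XT.nd (nat_lit 78) (nat_lit 152) (nat_lit 0) (XT.lf (nat_lit 0) (nat_lit 8509992031) (nat_lit 228) (nat_lit 5066744812) (nat_lit 0) (nat_lit 3293945614) (nat_lit 29) (nat_lit 5) (nat_lit 32) (nat_lit 4) (nat_lit 29) (nat_lit 4) (nat_lit 500) (nat_lit 326) (nat_lit 314)) (XT.lf (nat_lit 0) (nat_lit 2186081350) (nat_lit 152) (nat_lit 10266184901) (nat_lit 152) (nat_lit 4668857782) (nat_lit 27) (nat_lit 4) (nat_lit 29) (nat_lit 5) (nat_lit 29) (nat_lit 4) (nat_lit 501) (nat_lit 326) (nat_lit 313))) (XT.nd (nat_lit 78) (nat_lit 76) (nat_lit 0) (XT.lf (nat_lit 0) (nat_lit 9563919184) (nat_lit 152) (nat_lit 6892077345) (nat_lit 152) (nat_lit 920945614) (nat_lit 27) (nat_lit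 4) (nat_lit 29) (nat_lit 5) (nat_lit 29) (nat_lit 4) (nat_lit 502) (nat_lit 326) (nat_lit 312)) (XT.lf (nat_lit 0) (nat_lit 2813130299) (nat_lit 228) (nat_lit 655083634) (nat_lit 76) (nat_lit 14170319704) (nat_lit 26) (nat_lit 5) (nat_lit 29) (nat_lit 5) (nat_lit 27) (nat_lit 4) (nat_lit 503) (nat_lit 326) (nat_lit 311)))))) (XT.nd (nat_lit 546) (nat_lit 456) (nat_lit 0) (XT.nd (nat_lit 234) (nat_lit 152) (nat_lit 0) (XT.nd (nat_lit 78) (nat_lit 152) (nat_lit 0) (XT.lf (nat_lit 0) (nat_lit 6603192923) (nat_lit 228) (nat_lit 11264579869) (nat_lit 0) (nat_lit 37608452) (nat_lit 24) (nat_lit 5) (nat_lit 27) (nat_lit 4) (nat_lit 24) (nat_lit 4) (nat_lit 504) (nat_lit 326) (nat_lit 310)) (XT.nd (nat_lit 78) (nat_lit 152) (nat_lit 0) (XT.lf (nat_lit 0) (nat_lit 10446896388) (nat_lit 228) (nat_lit 4195156784) (nat_lit 0) (nat_lit 3535974237) (nat_lit 24) (nat_lit 5) (nat_lit 27) (nat_lit 4) (nat_lit 24) (nat_lit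 4) (nat_lit 505) (nat_lit 326) (nat_lit 309)) (XT.lf (nat_lit 0) (nat_lit 2970132702) (nat_lit 152) (nat_lit 11368043149) (nat_lit 152) (nat_lit 4118554646) (nat_lit 22) (nat_lit 4) (nat_lit 24) (nat_lit 5) (nat_lit 24) (nat_lit 4) (nat_lit 506) (nat_lit 326) (nat_lit 308)))) (XT.nd (nat_lit 156) (nat_lit 76) (nat_lit 0) (XT.nd (nat_lit 78) (nat_lit 76) (nat_lit 0) (XT.lf (nat_lit 0) (nat_lit 10251674313) (nat_lit 152) (nat_lit 8035583885) (nat_lit 152) (nat_lit 454167585) (nat_lit 22) (nat_lit 4) (nat_lit 24) (nat_lit 5) (nat_lit 24) (nat_lit 4) (nat_lit 507) (nat_lit 326) (nat_lit 307)) (XT.lf (nat_lit 0) (nat_lit 3192883719) (nat_lit 228) (nat_lit 1457210595) (nat_lit 76) (nat_lit 14382262478) (nat_lit 21) (nat_lit 5) (nat_lit 24) (nat_lit 5) (nat_lit 22) (nat_lit 4) (nat_lit 508) (nat_lit 326) (nat_lit 306))) (XT.nd (nat_lit 78) (nat_lit 0) (nat_lit 0) (XT.lf (nat_lit 0) (nat_lit 5706517655) (nat_lit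 76) (nat_lit 1190706106) (nat_lit 152) (nat_lit 12432030702) (nat_lit 20) (nat_lit 5) (nat_lit 21) (nat_lit 5) (nat_lit 22) (nat_lit 4) (nat_lit 509) (nat_lit 326) (nat_lit 305)) (XT.lf (nat_lit 0) (nat_lit 10654211581) (nat_lit 152) (nat_lit 6695344711) (nat_lit 0) (nat_lit 2282978913) (nat_lit 20) (nat_lit 5) (nat_lit 22) (nat_lit 4) (nat_lit 20) (nat_lit 4) (nat_lit 510) (nat_lit 326) (nat_lit 304))))) (XT.nd (nat_lit 234) (nat_lit 228) (nat_lit 0) (XT.nd (nat_lit 78) (nat_lit 76) (nat_lit 0) (XT.lf (nat_lit 0) (nat_lit 286586249) (nat_lit 152) (nat_lit 14163948657) (nat_lit 152) (nat_lit 5492078757) (nat_lit 18) (nat_lit 4) (nat_lit 20) (nat_lit 5) (nat_lit 20) (nat_lit 4) (nat_lit 511) (nat_lit 326) (nat_lit 303)) (XT.nd (nat_lit 78) (nat_lit 76) (nat_lit 0) (XT.lf (nat_lit 0) (nat_lit 7419556392) (nat_lit 152) (nat_lit 10902985075) (nat_lit 152) (nat_lit 1936372791) (nat_lit 18) (nat_lit 4) (nat_lit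 20) (nat_lit 5) (nat_lit 20) (nat_lit 4) (nat_lit 512) (nat_lit 326) (nat_lit 302)) (XT.lf (nat_lit 0) (nat_lit 1623681509) (nat_lit 228) (nat_lit 5975738756) (nat_lit 76) (nat_lit 12982808085) (nat_lit 17) (nat_lit 5) (nat_lit 20) (nat_lit 5) (nat_lit 18) (nat_lit 4) (nat_lit 513) (nat_lit 326) (nat_lit 301)))) (XT.nd (nat_lit 156) (nat_lit 152) (nat_lit 0) (XT.nd (nat_lit 78) (nat_lit 0) (nat_lit 0) (XT.lf (nat_lit 0) (nat_lit 947889913) (nat_lit 76) (nat_lit 4243576669) (nat_lit 152) (nat_lit 15721051798) (nat_lit 16) (nat_lit 5) (nat_lit 17) (nat_lit 5) (nat_lit 18) (nat_lit 4) (nat_lit 514) (nat_lit 326) (nat_lit 300)) (XT.lf (nat_lit 0) (nat_lit 8014628690) (nat_lit 76) (nat_lit 812719629) (nat_lit 152) (nat_lit 12422145578) (nat_lit 16) (nat_lit 5) (nat_lit 17) (nat_lit 5) (nat_lit 18) (nat_lit 4) (nat_lit 515) (nat_lit 326) (nat_lit 299))) (XT.nd (nat_lit 78) (nat_lit 152) (nat_lit 0) (XT.lf (nat_lit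 0) (nat_lit 12510672585) (nat_lit 152) (nat_lit 6463473009) (nat_lit 0) (nat_lit 2619583056) (nat_lit 16) (nat_lit 5) (nat_lit 18) (nat_lit 4) (nat_lit 16) (nat_lit 4) (nat_lit 516) (nat_lit 326) (nat_lit 298)) (XT.lf (nat_lit 0) (nat_lit 368759828) (nat_lit 152) (nat_lit 15864798324) (nat_lit 152) (nat_lit 5711985992) (nat_lit 14) (nat_lit 4) (nat_lit 16) (nat_lit 5) (nat_lit 16) (nat_lit 4) (nat_lit 517) (nat_lit 326) (nat_lit 297))))))))
noncomputable def xc9 : XT := (XT.nd (nat_lit 57876) (nat_lit 0) (nat_lit 76) (XT.nd (nat_lit 1014) (nat_lit 0) (nat_lit 0) (XT.nd (nat_lit 468) (nat_lit 304) (nat_lit 0) (XT.nd (nat_lit 234) (nat_lit 76) (nat_lit 0) (XT.nd (nat_lit 78) (nat_lit 76) (nat_lit 0) (XT.lf (nat_lit 0) (nat_lit 7351697206) (nat_lit 152) (nat_lit 12681039510) (nat_lit 152) (nat_lit 2271636195) (nat_lit 14) (nat_lit 4) (nat_lit 16) (nat_lit 5) (nat_lit 16) (nat_lit 4) (nat_lit 518) (nat_lit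 326) (nat_lit 296)) (XT.nd (nat_lit 78) (nat_lit 0) (nat_lit 0) (XT.lf (nat_lit 0) (nat_lit 1180283824) (nat_lit 228) (nat_lit 8276789775) (nat_lit 76) (nat_lit 13213977227) (nat_lit 13) (nat_lit 5) (nat_lit 16) (nat_lit 5) (nat_lit 14) (nat_lit 4) (nat_lit 519) (nat_lit 326) (nat_lit 295)) (XT.lf (nat_lit 0) (nat_lit 4630651051) (nat_lit 228) (nat_lit 1553675220) (nat_lit 76) (nat_lit 16861252080) (nat_lit 13) (nat_lit 5) (nat_lit 16) (nat_lit 5) (nat_lit 14) (nat_lit 4) (nat_lit 520) (nat_lit 326) (nat_lit 294)))) (XT.nd (nat_lit 78) (nat_lit 0) (nat_lit 0) (XT.lf (nat_lit 0) (nat_lit 5303611260) (nat_lit 76) (nat_lit 2841434788) (nat_lit 152) (nat_lit 15282662598) (nat_lit 12) (nat_lit 5) (nat_lit 13) (nat_lit 5) (nat_lit 14) (nat_lit 4) (nat_lit 521) (nat_lit 326) (nat_lit 293)) (XT.nd (nat_lit 78) (nat_lit 0) (nat_lit 0) (XT.lf (nat_lit 0) (nat_lit 11704625311) (nat_lit 152) (nat_lit 11571914167)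 (nat_lit 0) (nat_lit 541456523) (nat_lit 12) (nat_lit 5) (nat_lit 14) (nat_lit 4) (nat_lit 12) (nat_lit 4) (nat_lit 522) (nat_lit 326) (nat_lit 292)) (XT.lf (nat_lit 0) (nat_lit 15315695437) (nat_lit 152) (nat_lit 4976118619) (nat_lit 0) (nat_lit 3924681200) (nat_lit 12) (nat_lit 5) (nat_lit 14) (nat_lit 4) (nat_lit 12) (nat_lit 4) (nat_lit 523) (nat_lit 326) (nat_lit 291))))) (XT.nd (nat_lit 234) (nat_lit 76) (nat_lit 0) (XT.nd (nat_lit 78) (nat_lit 76) (nat_lit 0) (XT.lf (nat_lit 0) (nat_lit 1706708107) (nat_lit 152) (nat_lit 17265597028) (nat_lit 152) (nat_lit 5651204898) (nat_lit 10) (nat_lit 4) (nat_lit 12) (nat_lit 5) (nat_lit 12) (nat_lit 4) (nat_lit 524) (nat_lit 326) (nat_lit 290)) (XT.nd (nat_lit 78) (nat_lit 76) (nat_lit 0) (XT.lf (nat_lit 0) (nat_lit 8523818005) (nat_lit 152) (nat_lit 14174165055) (nat_lit 152) (nat_lit 2340774992) (nat_lit 10) (nat_lit 4) (nat_lit 12) (nat_lit 5) (nat_lit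 12) (nat_lit 4) (nat_lit 525) (nat_lit 326) (nat_lit 289)) (XT.lf (nat_lit 0) (nat_lit 985301592) (nat_lit 228) (nat_lit 10057784702) (nat_lit 76) (nat_lit 14419840969) (nat_lit 9) (nat_lit 5) (nat_lit 12) (nat_lit 5) (nat_lit 10) (nat_lit 4) (nat_lit 526) (nat_lit 326) (nat_lit 288)))) (XT.nd (nat_lit 156) (nat_lit 0) (nat_lit 0) (XT.nd (nat_lit 78) (nat_lit 76) (nat_lit 0) (XT.lf (nat_lit 0) (nat_lit 4310334673) (nat_lit 228) (nat_lit 3551711853) (nat_lit 76) (nat_lit 18033959315) (nat_lit 9) (nat_lit 5) (nat_lit 12) (nat_lit 5) (nat_lit 10) (nat_lit 4) (nat_lit 527) (nat_lit 326) (nat_lit 287)) (XT.lf (nat_lit 0) (nat_lit 3061175631) (nat_lit 76) (nat_lit 4625027423) (nat_lit 152) (nat_lit 18651867025) (nat_lit 8) (nat_lit 5) (nat_lit 9) (nat_lit 5) (nat_lit 10) (nat_lit 4) (nat_lit 528) (nat_lit 326) (nat_lit 286))) (XT.nd (nat_lit 78) (nat_lit 0) (nat_lit 0) (XT.lf (nat_lit 0) (nat_lit 9791428032)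 (nat_lit 76) (nat_lit 1326741675) (nat_lit 152) (nat_lit 15671044843) (nat_lit 8) (nat_lit 5) (nat_lit 9) (nat_lit 5) (nat_lit 10) (nat_lit 4) (nat_lit 529) (nat_lit 326) (nat_lit 285)) (XT.lf (nat_lit 0) (nat_lit 14597265985) (nat_lit 152) (nat_lit 10668651233) (nat_lit 0) (nat_lit 1983905247) (nat_lit 8) (nat_lit 5) (nat_lit 10) (nat_lit 4) (nat_lit 8) (nat_lit 4) (nat_lit 530) (nat_lit 326) (nat_lit 284)))))) (XT.nd (nat_lit 56316) (nat_lit 0) (nat_lit 1748) (XT.nd (nat_lit 56004) (nat_lit 0) (nat_lit 2432) (XT.nd (nat_lit 55848) (nat_lit 0) (nat_lit 2888) (XT.lf (nat_lit 0) (nat_lit 18120673132) (nat_lit 152) (nat_lit 4282823470) (nat_lit 0) (nat_lit 5316661514) (nat_lit 8) (nat_lit 5) (nat_lit 10) (nat_lit 4) (nat_lit 8) (nat_lit 4) (nat_lit 531) (nat_lit 326) (nat_lit 283)) (XT.nd (nat_lit 78) (nat_lit 228) (nat_lit 0) (XT.lf (nat_lit 0) (nat_lit 6198473465) (nat_lit 228) (nat_lit 370944156) (nat_lit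 228) (nat_lit 370944156) (nat_lit 49) (nat_lit 4) (nat_lit 52) (nat_lit 5) (nat_lit 52) (nat_lit 4) (nat_lit 486) (nat_lit 327) (nat_lit 327)) (XT.lf (nat_lit 0) (nat_lit 3264582967) (nat_lit 228) (nat_lit 8059683396) (nat_lit 0) (nat_lit 2741166269) (nat_lit 46) (nat_lit 5) (nat_lit 49) (nat_lit 4) (nat_lit 46) (nat_lit 4) (nat_lit 487) (nat_lit 327) (nat_lit 326)))) (XT.nd (nat_lit 156) (nat_lit 228) (nat_lit 0) (XT.nd (nat_lit 78) (nat_lit 228) (nat_lit 0) (XT.lf (nat_lit 0) (nat_lit 7296780661) (nat_lit 228) (nat_lit 697663534) (nat_lit 0) (nat_lit 6260210337) (nat_lit 46) (nat_lit 5) (nat_lit 49) (nat_lit 4) (nat_lit 46) (nat_lit 4) (nat_lit 488) (nat_lit 327) (nat_lit 325)) (XT.lf (nat_lit 0) (nat_lit 6803459529) (nat_lit 228) (nat_lit 4592085898) (nat_lit 228) (nat_lit 3052423784) (nat_lit 43) (nat_lit 4) (nat_lit 46) (nat_lit 5) (nat_lit 46) (nat_lit 4) (nat_lit 489) (nat_lit 327) (nat_lit 324)))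 (XT.nd (nat_lit 78) (nat_lit 152) (nat_lit 0) (XT.lf (nat_lit 0) (nat_lit 865492395) (nat_lit 304) (nat_lit 284594719) (nat_lit 76) (nat_lit 13496036537) (nat_lit 42) (nat_lit 5) (nat_lit 46) (nat_lit 5) (nat_lit 43) (nat_lit 4) (nat_lit 490) (nat_lit 327) (nat_lit 323)) (XT.lf (nat_lit 0) (nat_lit 4826204582) (nat_lit 228) (nat_lit 7662450964) (nat_lit 0) (nat_lit 2359101168) (nat_lit 40) (nat_lit 5) (nat_lit 43) (nat_lit 4) (nat_lit 40) (nat_lit 4) (nat_lit 491) (nat_lit 327) (nat_lit 322))))) (XT.nd (nat_lit 234) (nat_lit 380) (nat_lit 0) (XT.nd (nat_lit 78) (nat_lit 304) (nat_lit 0) (XT.lf (nat_lit 0) (nat_lit 8818917576) (nat_lit 228) (nat_lit 348438779) (nat_lit 0) (nat_lit 5887035113) (nat_lit 40) (nat_lit 5) (nat_lit 43) (nat_lit 4) (nat_lit 40) (nat_lit 4) (nat_lit 492) (nat_lit 327) (nat_lit 321)) (XT.nd (nat_lit 78) (nat_lit 76) (nat_lit 0) (XT.lf (nat_lit 0) (nat_lit 7111109872) (nat_lit 228)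 (nat_lit 5770905454) (nat_lit 228) (nat_lit 2383357257) (nat_lit 37) (nat_lit 4) (nat_lit 40) (nat_lit 5) (nat_lit 40) (nat_lit 4) (nat_lit 493) (nat_lit 327) (nat_lit 320)) (XT.lf (nat_lit 0) (nat_lit 1472338269) (nat_lit 304) (nat_lit 860156004) (nat_lit 76) (nat_lit 13148965451) (nat_lit 36) (nat_lit 5) (nat_lit 40) (nat_lit 5) (nat_lit 37) (nat_lit 4) (nat_lit 494) (nat_lit 327) (nat_lit 319)))) (XT.nd (nat_lit 156) (nat_lit 228) (nat_lit 0) (XT.nd (nat_lit 78) (nat_lit 0) (nat_lit 0) (XT.lf (nat_lit 0) (nat_lit 5369154665) (nat_lit 228) (nat_lit 9151830033) (nat_lit 0) (nat_lit 1180673304) (nat_lit 34) (nat_lit 5) (nat_lit 37) (nat_lit 4) (nat_lit 34) (nat_lit 4) (nat_lit 495) (nat_lit 327) (nat_lit 318)) (XT.lf (nat_lit 0) (nat_lit 9310937630) (nat_lit 228) (nat_lit 1914512871) (nat_lit 0) (nat_lit 4701491565) (nat_lit 34) (nat_lit 5) (nat_lit 37) (nat_lit 4) (nat_lit 34) (nat_lit 4) (nat_lit 496)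 (nat_lit 327) (nat_lit 317))) (XT.nd (nat_lit 78) (nat_lit 76) (nat_lit 0) (XT.lf (nat_lit 0) (nat_lit 5448266287) (nat_lit 152) (nat_lit 7865499937) (nat_lit 152) (nat_lit 2843343377) (nat_lit 32) (nat_lit 4) (nat_lit 34) (nat_lit 5) (nat_lit 34) (nat_lit 4) (nat_lit 497) (nat_lit 327) (nat_lit 316)) (XT.lf (nat_lit 0) (nat_lit 951448674) (nat_lit 228) (nat_lit 3504848369) (nat_lit 76) (nat_lit 11936276992) (nat_lit 31) (nat_lit 5) (nat_lit 34) (nat_lit 5) (nat_lit 32) (nat_lit 4) (nat_lit 498) (nat_lit 327) (nat_lit 315))))))) (XT.nd (nat_lit 1092) (nat_lit 684) (nat_lit 0) (XT.nd (nat_lit 546) (nat_lit 456) (nat_lit 0) (XT.nd (nat_lit 234) (nat_lit 228) (nat_lit 0) (XT.nd (nat_lit 78) (nat_lit 152) (nat_lit 0) (XT.lf (nat_lit 0) (nat_lit 3784949555) (nat_lit 152) (nat_lit 971688410) (nat_lit 228) (nat_lit 11876303148) (nat_lit 29) (nat_lit 5) (nat_lit 31) (nat_lit 5) (nat_lit 32) (nat_lit 4) (nat_lit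 499) (nat_lit 327) (nat_lit 314)) (XT.nd (nat_lit 78) (nat_lit 152) (nat_lit 0) (XT.lf (nat_lit 0) (nat_lit 8626544048) (nat_lit 228) (nat_lit 5715829853) (nat_lit 0) (nat_lit 2535989683) (nat_lit 29) (nat_lit 5) (nat_lit 32) (nat_lit 4) (nat_lit 29) (nat_lit 4) (nat_lit 500) (nat_lit 327) (nat_lit 313)) (XT.lf (nat_lit 0) (nat_lit 1484446592) (nat_lit 152) (nat_lit 11054660810) (nat_lit 152) (nat_lit 4590301834) (nat_lit 27) (nat_lit 4) (nat_lit 29) (nat_lit 5) (nat_lit 29) (nat_lit 4) (nat_lit 501) (nat_lit 327) (nat_lit 312)))) (XT.nd (nat_lit 156) (nat_lit 152) (nat_lit 0) (XT.nd (nat_lit 78) (nat_lit 76) (nat_lit 0) (XT.lf (nat_lit 0) (nat_lit 8819221957) (nat_lit 152) (nat_lit 7698673986) (nat_lit 152) (nat_lit 867839902) (nat_lit 27) (nat_lit 4) (nat_lit 29) (nat_lit 5) (nat_lit 29) (nat_lit 4) (nat_lit 502) (nat_lit 327) (nat_lit 311)) (XT.lf (nat_lit 0) (nat_lit 2840915548) (nat_lit 228) (nat_lit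 1451473997) (nat_lit 76) (nat_lit 13355432668) (nat_lit 26) (nat_lit 5) (nat_lit 29) (nat_lit 5) (nat_lit 27) (nat_lit 4) (nat_lit 503) (nat_lit 327) (nat_lit 310))) (XT.nd (nat_lit 78) (nat_lit 0) (nat_lit 0) (XT.lf (nat_lit 0) (nat_lit 5791805105) (nat_lit 152) (nat_lit 809270609) (nat_lit 228) (nat_lit 11314201263) (nat_lit 24) (nat_lit 5) (nat_lit 26) (nat_lit 5) (nat_lit 27) (nat_lit 4) (nat_lit 504) (nat_lit 327) (nat_lit 309)) (XT.lf (nat_lit 0) (nat_lit 10415474293) (nat_lit 228) (nat_lit 5090614210) (nat_lit 0) (nat_lit 2682429666) (nat_lit 24) (nat_lit 5) (nat_lit 27) (nat_lit 4) (nat_lit 24) (nat_lit 4) (nat_lit 505) (nat_lit 327) (nat_lit 308))))) (XT.nd (nat_lit 234) (nat_lit 228) (nat_lit 0) (XT.nd (nat_lit 78) (nat_lit 76) (nat_lit 0) (XT.lf (nat_lit 0) (nat_lit 2021230504) (nat_lit 152) (nat_lit 12255783364) (nat_lit 152) (nat_lit 4190810941) (nat_lit 22) (nat_lit 4) (nat_lit 24) (nat_lit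 5) (nat_lit 24) (nat_lit 4) (nat_lit 506) (nat_lit 327) (nat_lit 307)) (XT.nd (nat_lit 78) (nat_lit 76) (nat_lit 0) (XT.lf (nat_lit 0) (nat_lit 9262042100) (nat_lit 152) (nat_lit 8940673015) (nat_lit 152) (nat_lit 550281184) (nat_lit 22) (nat_lit 4) (nat_lit 24) (nat_lit 5) (nat_lit 24) (nat_lit 4) (nat_lit 507) (nat_lit 327) (nat_lit 306)) (XT.lf (nat_lit 0) (nat_lit 3074947912) (nat_lit 228) (nat_lit 2498035684) (nat_lit 76) (nat_lit 13471426097) (nat_lit 21) (nat_lit 5) (nat_lit 24) (nat_lit 5) (nat_lit 22) (nat_lit 4) (nat_lit 508) (nat_lit 327) (nat_lit 305)))) (XT.nd (nat_lit 156) (nat_lit 152) (nat_lit 0) (XT.nd (nat_lit 78) (nat_lit 0) (nat_lit 0) (XT.lf (nat_lit 0) (nat_lit 4611878935) (nat_lit 76) (nat_lit 2137671747) (nat_lit 152) (nat_lit 12592359515) (nat_lit 20) (nat_lit 5) (nat_lit 21) (nat_lit 5) (nat_lit 22) (nat_lit 4) (nat_lit 509) (nat_lit 327) (nat_lit 304)) (XT.lf (nat_lit 0) (nat_lit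 10477840455) (nat_lit 152) (nat_lit 7836036449) (nat_lit 0) (nat_lit 1331895925) (nat_lit 20) (nat_lit 5) (nat_lit 22) (nat_lit 4) (nat_lit 20) (nat_lit 4) (nat_lit 510) (nat_lit 327) (nat_lit 303))) (XT.nd (nat_lit 78) (nat_lit 152) (nat_lit 0) (XT.lf (nat_lit 0) (nat_lit 14250195507) (nat_lit 152) (nat_lit 896634326) (nat_lit 0) (nat_lit 4809508593) (nat_lit 20) (nat_lit 5) (nat_lit 22) (nat_lit 4) (nat_lit 20) (nat_lit 4) (nat_lit 511) (nat_lit 327) (nat_lit 302)) (XT.lf (nat_lit 0) (nat_lit 6185904876) (nat_lit 152) (nat_lit 11908474131) (nat_lit 152) (nat_lit 2178824095) (nat_lit 18) (nat_lit 4) (nat_lit 20) (nat_lit 5) (nat_lit 20) (nat_lit 4) (nat_lit 512) (nat_lit 327) (nat_lit 301)))))) (XT.nd (nat_lit 546) (nat_lit 304) (nat_lit 0) (XT.nd (nat_lit 234) (nat_lit 228) (nat_lit 0) (XT.nd (nat_lit 78) (nat_lit 76) (nat_lit 0) (XT.lf (nat_lit 0) (nat_lit 1362766013) (nat_lit 228) (nat_lit 7260159867)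 (nat_lit 76) (nat_lit 11974063004) (nat_lit 17) (nat_lit 5) (nat_lit 20) (nat_lit 5) (nat_lit 18) (nat_lit 4) (nat_lit 513) (nat_lit 327) (nat_lit 300)) (XT.nd (nat_lit 78) (nat_lit 76) (nat_lit 0) (XT.lf (nat_lit 0) (nat_lit 4903177164) (nat_lit 228) (nat_lit 386271673) (nat_lit 76) (nat_lit 15638384736) (nat_lit 17) (nat_lit 5) (nat_lit 20) (nat_lit 5) (nat_lit 18) (nat_lit 4) (nat_lit 514) (nat_lit 327) (nat_lit 299)) (XT.lf (nat_lit 0) (nat_lit 6638270478) (nat_lit 76) (nat_lit 1877203000) (nat_lit 152) (nat_lit 12749814361) (nat_lit 16) (nat_lit 5) (nat_lit 17) (nat_lit 5) (nat_lit 18) (nat_lit 4) (nat_lit 515) (nat_lit 327) (nat_lit 298)))) (XT.nd (nat_lit 156) (nat_lit 228) (nat_lit 0) (XT.nd (nat_lit 78) (nat_lit 0) (nat_lit 0) (XT.lf (nat_lit 0) (nat_lit 12171152914) (nat_lit 152) (nat_lit 7885367943) (nat_lit 0) (nat_lit 1553561533) (nat_lit 16) (nat_lit 5) (nat_lit 18) (nat_lit 4) (nat_lit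 16) (nat_lit 4) (nat_lit 516) (nat_lit 327) (nat_lit 297)) (XT.lf (nat_lit 0) (nat_lit 15871317289) (nat_lit 152) (nat_lit 1093906862) (nat_lit 0) (nat_lit 4997134925) (nat_lit 16) (nat_lit 5) (nat_lit 18) (nat_lit 4) (nat_lit 16) (nat_lit 4) (nat_lit 517) (nat_lit 327) (nat_lit 296))) (XT.nd (nat_lit 78) (nat_lit 76) (nat_lit 0) (XT.lf (nat_lit 0) (nat_lit 5838794082) (nat_lit 152) (nat_lit 13804344843) (nat_lit 152) (nat_lit 2678602692) (nat_lit 14) (nat_lit 4) (nat_lit 16) (nat_lit 5) (nat_lit 16) (nat_lit 4) (nat_lit 518) (nat_lit 327) (nat_lit 295)) (XT.lf (nat_lit 0) (nat_lit 758752579) (nat_lit 228) (nat_lit 9839689182) (nat_lit 76) (nat_lit 12090435037) (nat_lit 13) (nat_lit 5) (nat_lit 16) (nat_lit 5) (nat_lit 14) (nat_lit 4) (nat_lit 519) (nat_lit 327) (nat_lit 294))))) (XT.nd (nat_lit 234) (nat_lit 228) (nat_lit 0) (XT.nd (nat_lit 78) (nat_lit 76) (nat_lit 0) (XT.lf (nat_lit 0) (nat_lit 4189607857)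 (nat_lit 228) (nat_lit 3151152934) (nat_lit 76) (nat_lit 15723040022) (nat_lit 13) (nat_lit 5) (nat_lit 16) (nat_lit 5) (nat_lit 14) (nat_lit 4) (nat_lit 520) (nat_lit 327) (nat_lit 293)) (XT.nd (nat_lit 78) (nat_lit 0) (nat_lit 0) (XT.lf (nat_lit 0) (nat_lit 3650553089) (nat_lit 76) (nat_lit 4023587654) (nat_lit 152) (nat_lit 15772393737) (nat_lit 12) (nat_lit 5) (nat_lit 13) (nat_lit 5) (nat_lit 14) (nat_lit 4) (nat_lit 521) (nat_lit 327) (nat_lit 292)) (XT.lf (nat_lit 0) (nat_lit 10562979848) (nat_lit 76) (nat_lit 648205012) (nat_lit 152) (nat_lit 12626093686) (nat_lit 12) (nat_lit 5) (nat_lit 13) (nat_lit 5) (nat_lit 14) (nat_lit 4) (nat_lit 522) (nat_lit 327) (nat_lit 291)))) (XT.nd (nat_lit 156) (nat_lit 228) (nat_lit 0) (XT.nd (nat_lit 78) (nat_lit 0) (nat_lit 0) (XT.lf (nat_lit 0) (nat_lit 14799351899) (nat_lit 152) (nat_lit 6707595820) (nat_lit 0) (nat_lit 2729294035) (nat_lit 12) (nat_lit 5)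 (nat_lit 14) (nat_lit 4) (nat_lit 12) (nat_lit 4) (nat_lit 523) (nat_lit 327) (nat_lit 290)) (XT.lf (nat_lit 0) (nat_lit 18426552564) (nat_lit 152) (nat_lit 79801157) (nat_lit 0) (nat_lit 6137496767) (nat_lit 12) (nat_lit 5) (nat_lit 14) (nat_lit 4) (nat_lit 12) (nat_lit 4) (nat_lit 524) (nat_lit 327) (nat_lit 289))) (XT.nd (nat_lit 78) (nat_lit 76) (nat_lit 0) (XT.lf (nat_lit 0) (nat_lit 6703814735) (nat_lit 152) (nat_lit 15429711585) (nat_lit 152) (nat_lit 2925951932) (nat_lit 10) (nat_lit 4) (nat_lit 12) (nat_lit 5) (nat_lit 12) (nat_lit 4) (nat_lit 525) (nat_lit 327) (nat_lit 288)) (XT.lf (nat_lit 0) (nat_lit 389853136) (nat_lit 228) (nat_lit 11926750293) (nat_lit 76) (nat_lit 13167484389) (nat_lit 9) (nat_lit 5) (nat_lit 12) (nat_lit 5) (nat_lit 10) (nat_lit 4) (nat_lit 526) (nat_lit 327) (nat_lit 287))))))))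
noncomputable def xc10 : XT := (XT.nd (nat_lit 57720) (nat_lit 0) (nat_lit 0) (XT.nd (nat_lit 56628) (nat_lit 0) (nat_lit 1216) (XT.nd (nat_lit 56082) (nat_lit 0) (nat_lit 2432) (XT.nd (nat_lit 234) (nat_lit 0) (nat_lit 0) (XT.nd (nat_lit 78) (nat_lit 76) (nat_lit 0) (XT.lf (nat_lit 0) (nat_lit 3697291889) (nat_lit 228) (nat_lit 5452090656) (nat_lit 76) (nat_lit 16768141075) (nat_lit 9) (nat_lit 5) (nat_lit 12) (nat_lit 5) (nat_lit 10) (nat_lit 4) (nat_lit 527) (nat_lit 327) (nat_lit 286)) (XT.nd (nat_lit 78) (nat_lit 0) (nat_lit 0) (XT.lf (nat_lit 0) (nat_lit 1104335248) (nat_lit 76) (nat_lit 5938870573) (nat_lit 152) (nat_lit 19316986356) (nat_lit 8) (nat_lit 5) (nat_lit 9) (nat_lit 5) (nat_lit 10) (nat_lit 4) (nat_lit 528) (nat_lit 327) (nat_lit 285)) (XT.lf (nat_lit 0) (nat_lit 7803992995) (nat_lit 76) (nat_lit 2654069718) (nat_lit 152) (nat_lit 16353621259) (nat_lit 8) (nat_lit 5) (nat_lit 9) (nat_lit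 5) (nat_lit 10) (nat_lit 4) (nat_lit 529) (nat_lit 327) (nat_lit 284)))) (XT.nd (nat_lit 78) (nat_lit 0) (nat_lit 0) (XT.lf (nat_lit 0) (nat_lit 13911680986) (nat_lit 152) (nat_lit 12700187233) (nat_lit 0) (nat_lit 660938256) (nat_lit 8) (nat_lit 5) (nat_lit 10) (nat_lit 4) (nat_lit 8) (nat_lit 4) (nat_lit 530) (nat_lit 327) (nat_lit 283)) (XT.nd (nat_lit 55692) (nat_lit 0) (nat_lit 3344) (XT.lf (nat_lit 0) (nat_lit 17418558612) (nat_lit 152) (nat_lit 6344015780) (nat_lit 0) (nat_lit 3980903254) (nat_lit 8) (nat_lit 5) (nat_lit 10) (nat_lit 4) (nat_lit 8) (nat_lit 4) (nat_lit 531) (nat_lit 327) (nat_lit 282)) (XT.lf (nat_lit 0) (nat_lit 2722013814) (nat_lit 304) (nat_lit 1316808542) (nat_lit 0) (nat_lit 2722013814) (nat_lit 52) (nat_lit 5) (nat_lit 56) (nat_lit 4) (nat_lit 52) (nat_lit 4) (nat_lit 484) (nat_lit 328) (nat_lit 328))))) (XT.nd (nat_lit 234) (nat_lit 456) (nat_lit 0) (XT.nd (nat_lit 78) (nat_lit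 228) (nat_lit 0) (XT.lf (nat_lit 0) (nat_lit 4814127645) (nat_lit 228) (nat_lit 4714863548) (nat_lit 228) (nat_lit 4170300815) (nat_lit 49) (nat_lit 4) (nat_lit 52) (nat_lit 5) (nat_lit 52) (nat_lit 4) (nat_lit 485) (nat_lit 328) (nat_lit 327)) (XT.nd (nat_lit 78) (nat_lit 228) (nat_lit 0) (XT.lf (nat_lit 0) (nat_lit 12348339368) (nat_lit 228) (nat_lit 1305716438) (nat_lit 228) (nat_lit 227268672) (nat_lit 49) (nat_lit 4) (nat_lit 52) (nat_lit 5) (nat_lit 52) (nat_lit 4) (nat_lit 486) (nat_lit 328) (nat_lit 326)) (XT.lf (nat_lit 0) (nat_lit 3739053557) (nat_lit 228) (nat_lit 8158996501) (nat_lit 0) (nat_lit 2168598200) (nat_lit 46) (nat_lit 5) (nat_lit 49) (nat_lit 4) (nat_lit 46) (nat_lit 4) (nat_lit 487) (nat_lit 328) (nat_lit 325)))) (XT.nd (nat_lit 156) (nat_lit 228) (nat_lit 0) (XT.nd (nat_lit 78) (nat_lit 228) (nat_lit 0) (XT.lf (nat_lit 0) (nat_lit 7742414888) (nat_lit 228) (nat_lit 845177525)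 (nat_lit 0) (nat_lit 5668867741) (nat_lit 46) (nat_lit 5) (nat_lit 49) (nat_lit 4) (nat_lit 46) (nat_lit 4) (nat_lit 488) (nat_lit 328) (nat_lit 324)) (XT.lf (nat_lit 0) (nat_lit 6606101380) (nat_lit 228) (nat_lit 5205525950) (nat_lit 228) (nat_lit 2638751558) (nat_lit 43) (nat_lit 4) (nat_lit 46) (nat_lit 5) (nat_lit 46) (nat_lit 4) (nat_lit 489) (nat_lit 328) (nat_lit 323))) (XT.nd (nat_lit 78) (nat_lit 152) (nat_lit 0) (XT.lf (nat_lit 0) (nat_lit 1245519668) (nat_lit 304) (nat_lit 534380783) (nat_lit 76) (nat_lit 12869156056) (nat_lit 42) (nat_lit 5) (nat_lit 46) (nat_lit 5) (nat_lit 43) (nat_lit 4) (nat_lit 490) (nat_lit 328) (nat_lit 322)) (XT.lf (nat_lit 0) (nat_lit 5172393261) (nat_lit 228) (nat_lit 7961891239) (nat_lit 0) (nat_lit 1717094100) (nat_lit 40) (nat_lit 5) (nat_lit 43) (nat_lit 4) (nat_lit 40) (nat_lit 4) (nat_lit 491) (nat_lit 328) (nat_lit 321)))))) (XT.nd (nat_lit 546) (nat_lit 532)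 (nat_lit 0) (XT.nd (nat_lit 234) (nat_lit 380) (nat_lit 0) (XT.nd (nat_lit 78) (nat_lit 304) (nat_lit 0) (XT.lf (nat_lit 0) (nat_lit 9137561926) (nat_lit 228) (nat_lit 694417302) (nat_lit 0) (nat_lit 5226597030) (nat_lit 40) (nat_lit 5) (nat_lit 43) (nat_lit 4) (nat_lit 40) (nat_lit 4) (nat_lit 492) (nat_lit 328) (nat_lit 320)) (XT.nd (nat_lit 78) (nat_lit 76) (nat_lit 0) (XT.lf (nat_lit 0) (nat_lit 6714301402) (nat_lit 228) (nat_lit 6456777686) (nat_lit 228) (nat_lit 2099081678) (nat_lit 37) (nat_lit 4) (nat_lit 40) (nat_lit 5) (nat_lit 40) (nat_lit 4) (nat_lit 493) (nat_lit 328) (nat_lit 319)) (XT.lf (nat_lit 0) (nat_lit 1725927812) (nat_lit 304) (nat_lit 1309293505) (nat_lit 76) (nat_lit 12451540154) (nat_lit 36) (nat_lit 5) (nat_lit 40) (nat_lit 5) (nat_lit 37) (nat_lit 4) (nat_lit 494) (nat_lit 328) (nat_lit 318)))) (XT.nd (nat_lit 156) (nat_lit 228) (nat_lit 0) (XT.nd (nat_lit 78) (nat_lit 0) (nat_lit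 0) (XT.lf (nat_lit 0) (nat_lit 5588362135) (nat_lit 228) (nat_lit 9653533913) (nat_lit 0) (nat_lit 465762444) (nat_lit 34) (nat_lit 5) (nat_lit 37) (nat_lit 4) (nat_lit 34) (nat_lit 4) (nat_lit 495) (nat_lit 328) (nat_lit 317)) (XT.lf (nat_lit 0) (nat_lit 9503826393) (nat_lit 228) (nat_lit 2461137216) (nat_lit 0) (nat_lit 3968516207) (nat_lit 34) (nat_lit 5) (nat_lit 37) (nat_lit 4) (nat_lit 34) (nat_lit 4) (nat_lit 496) (nat_lit 328) (nat_lit 316))) (XT.nd (nat_lit 78) (nat_lit 76) (nat_lit 0) (XT.lf (nat_lit 0) (nat_lit 4849752659) (nat_lit 152) (nat_lit 8627213727) (nat_lit 152) (nat_lit 2687285409) (nat_lit 32) (nat_lit 4) (nat_lit 34) (nat_lit 5) (nat_lit 34) (nat_lit 4) (nat_lit 497) (nat_lit 328) (nat_lit 315)) (XT.lf (nat_lit 0) (nat_lit 1079699406) (nat_lit 228) (nat_lit 4155619960) (nat_lit 76) (nat_lit 11164902065) (nat_lit 31) (nat_lit 5) (nat_lit 34) (nat_lit 5) (nat_lit 32) (nat_lit 4) (nat_lit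 498) (nat_lit 328) (nat_lit 314))))) (XT.nd (nat_lit 234) (nat_lit 228) (nat_lit 0) (XT.nd (nat_lit 78) (nat_lit 152) (nat_lit 0) (XT.lf (nat_lit 0) (nat_lit 3081717164) (nat_lit 152) (nat_lit 1773350282) (nat_lit 228) (nat_lit 11786127543) (nat_lit 29) (nat_lit 5) (nat_lit 31) (nat_lit 5) (nat_lit 32) (nat_lit 4) (nat_lit 499) (nat_lit 328) (nat_lit 313)) (XT.nd (nat_lit 78) (nat_lit 152) (nat_lit 0) (XT.lf (nat_lit 0) (nat_lit 8694613220) (nat_lit 228) (nat_lit 6465458850) (nat_lit 0) (nat_lit 1727162454) (nat_lit 29) (nat_lit 5) (nat_lit 32) (nat_lit 4) (nat_lit 29) (nat_lit 4) (nat_lit 500) (nat_lit 328) (nat_lit 312)) (XT.lf (nat_lit 0) (nat_lit 681792951) (nat_lit 152) (nat_lit 11895510117) (nat_lit 152) (nat_lit 4561584243) (nat_lit 27) (nat_lit 4) (nat_lit 29) (nat_lit 5) (nat_lit 29) (nat_lit 4) (nat_lit 501) (nat_lit 328) (nat_lit 311)))) (XT.nd (nat_lit 156) (nat_lit 152) (nat_lit 0) (XT.nd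 (nat_lit 78) (nat_lit 76) (nat_lit 0) (XT.lf (nat_lit 0) (nat_lit 7974350210) (nat_lit 152) (nat_lit 8557288718) (nat_lit 152) (nat_lit 864073523) (nat_lit 27) (nat_lit 4) (nat_lit 29) (nat_lit 5) (nat_lit 29) (nat_lit 4) (nat_lit 502) (nat_lit 328) (nat_lit 310)) (XT.lf (nat_lit 0) (nat_lit 2820491382) (nat_lit 228) (nat_lit 2348067035) (nat_lit 76) (nat_lit 12489731843) (nat_lit 26) (nat_lit 5) (nat_lit 29) (nat_lit 5) (nat_lit 27) (nat_lit 4) (nat_lit 503) (nat_lit 328) (nat_lit 309))) (XT.nd (nat_lit 78) (nat_lit 0) (nat_lit 0) (XT.lf (nat_lit 0) (nat_lit 4841851061) (nat_lit 152) (nat_lit 1708964963) (nat_lit 228) (nat_lit 11375534640) (nat_lit 24) (nat_lit 5) (nat_lit 26) (nat_lit 5) (nat_lit 27) (nat_lit 4) (nat_lit 504) (nat_lit 328) (nat_lit 308)) (XT.lf (nat_lit 0) (nat_lit 10335794204) (nat_lit 228) (nat_lit 6086800279) (nat_lit 0) (nat_lit 1777594536) (nat_lit 24) (nat_lit 5) (nat_lit 27)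 (nat_lit 4) (nat_lit 24) (nat_lit 4) (nat_lit 505) (nat_lit 328) (nat_lit 307))))))) (XT.nd (nat_lit 1014) (nat_lit 456) (nat_lit 0) (XT.nd (nat_lit 468) (nat_lit 456) (nat_lit 0) (XT.nd (nat_lit 234) (nat_lit 76) (nat_lit 0) (XT.nd (nat_lit 78) (nat_lit 76) (nat_lit 0) (XT.lf (nat_lit 0) (nat_lit 971075633) (nat_lit 152) (nat_lit 13196323191) (nat_lit 152) (nat_lit 4312704115) (nat_lit 22) (nat_lit 4) (nat_lit 24) (nat_lit 5) (nat_lit 24) (nat_lit 4) (nat_lit 506) (nat_lit 328) (nat_lit 306)) (XT.nd (nat_lit 78) (nat_lit 76) (nat_lit 0) (XT.lf (nat_lit 0) (nat_lit 8171955844) (nat_lit 152) (nat_lit 9898221583) (nat_lit 152) (nat_lit 695563871) (nat_lit 22) (nat_lit 4) (nat_lit 24) (nat_lit 5) (nat_lit 24) (nat_lit 4) (nat_lit 507) (nat_lit 328) (nat_lit 305)) (XT.lf (nat_lit 0) (nat_lit 2908940481) (nat_lit 228) (nat_lit 3639380915) (nat_lit 76) (nat_lit 12509312851) (nat_lit 21) (nat_lit 5) (nat_lit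 24) (nat_lit 5) (nat_lit 22) (nat_lit 4) (nat_lit 508) (nat_lit 328) (nat_lit 304)))) (XT.nd (nat_lit 78) (nat_lit 0) (nat_lit 0) (XT.lf (nat_lit 0) (nat_lit 3416168165) (nat_lit 76) (nat_lit 3137425315) (nat_lit 152) (nat_lit 12802148196) (nat_lit 20) (nat_lit 5) (nat_lit 21) (nat_lit 5) (nat_lit 22) (nat_lit 4) (nat_lit 509) (nat_lit 328) (nat_lit 303)) (XT.nd (nat_lit 78) (nat_lit 0) (nat_lit 0) (XT.lf (nat_lit 0) (nat_lit 10253284624) (nat_lit 152) (nat_lit 9077857842) (nat_lit 0) (nat_lit 329041587) (nat_lit 20) (nat_lit 5) (nat_lit 22) (nat_lit 4) (nat_lit 20) (nat_lit 4) (nat_lit 510) (nat_lit 328) (nat_lit 302)) (XT.lf (nat_lit 0) (nat_lit 14003965592) (nat_lit 152) (nat_lit 2176465728) (nat_lit 0) (nat_lit 3790759433) (nat_lit 20) (nat_lit 5) (nat_lit 22) (nat_lit 4) (nat_lit 20) (nat_lit 4) (nat_lit 511) (nat_lit 328) (nat_lit 301))))) (XT.nd (nat_lit 234) (nat_lit 228) (nat_lit 0) (XT.nd (nat_lit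 78) (nat_lit 76) (nat_lit 0) (XT.lf (nat_lit 0) (nat_lit 4851305247) (nat_lit 152) (nat_lit 12966929638) (nat_lit 152) (nat_lit 2470426300) (nat_lit 18) (nat_lit 4) (nat_lit 20) (nat_lit 5) (nat_lit 20) (nat_lit 4) (nat_lit 512) (nat_lit 328) (nat_lit 300)) (XT.nd (nat_lit 78) (nat_lit 0) (nat_lit 0) (XT.lf (nat_lit 0) (nat_lit 1053768630) (nat_lit 228) (nat_lit 8645633034) (nat_lit 76) (nat_lit 10913514741) (nat_lit 17) (nat_lit 5) (nat_lit 20) (nat_lit 5) (nat_lit 18) (nat_lit 4) (nat_lit 513) (nat_lit 328) (nat_lit 299)) (XT.lf (nat_lit 0) (nat_lit 4573376260) (nat_lit 228) (nat_lit 1808322027) (nat_lit 76) (nat_lit 14562485919) (nat_lit 17) (nat_lit 5) (nat_lit 20) (nat_lit 5) (nat_lit 18) (nat_lit 4) (nat_lit 514) (nat_lit 328) (nat_lit 298)))) (XT.nd (nat_lit 156) (nat_lit 152) (nat_lit 0) (XT.nd (nat_lit 78) (nat_lit 0) (nat_lit 0) (XT.lf (nat_lit 0) (nat_lit 5160985277) (nat_lit 76) (nat_lit 2994700172)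 (nat_lit 152) (nat_lit 13126559668) (nat_lit 16) (nat_lit 5) (nat_lit 17) (nat_lit 5) (nat_lit 18) (nat_lit 4) (nat_lit 515) (nat_lit 328) (nat_lit 297)) (XT.lf (nat_lit 0) (nat_lit 11783782393) (nat_lit 152) (nat_lit 9408290293) (nat_lit 0) (nat_lit 435525399) (nat_lit 16) (nat_lit 5) (nat_lit 18) (nat_lit 4) (nat_lit 16) (nat_lit 4) (nat_lit 516) (nat_lit 328) (nat_lit 296))) (XT.nd (nat_lit 78) (nat_lit 152) (nat_lit 0) (XT.lf (nat_lit 0) (nat_lit 15464018376) (nat_lit 152) (nat_lit 2652060001) (nat_lit 0) (nat_lit 3864201595) (nat_lit 16) (nat_lit 5) (nat_lit 18) (nat_lit 4) (nat_lit 16) (nat_lit 4) (nat_lit 517) (nat_lit 328) (nat_lit 295)) (XT.lf (nat_lit 0) (nat_lit 4224934900) (nat_lit 152) (nat_lit 14980889229) (nat_lit 152) (nat_lit 3134445206) (nat_lit 14) (nat_lit 4) (nat_lit 16) (nat_lit 5) (nat_lit 16) (nat_lit 4) (nat_lit 518) (nat_lit 328) (nat_lit 294)))))) (XT.nd (nat_lit 546) (nat_lit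 152) (nat_lit 0) (XT.nd (nat_lit 234) (nat_lit 152) (nat_lit 0) (XT.nd (nat_lit 78) (nat_lit 76) (nat_lit 0) (XT.lf (nat_lit 0) (nat_lit 289376573) (nat_lit 228) (nat_lit 11503694758) (nat_lit 76) (nat_lit 10914788869) (nat_lit 13) (nat_lit 5) (nat_lit 16) (nat_lit 5) (nat_lit 14) (nat_lit 4) (nat_lit 519) (nat_lit 328) (nat_lit 293)) (XT.nd (nat_lit 78) (nat_lit 76) (nat_lit 0) (XT.lf (nat_lit 0) (nat_lit 3701102490) (nat_lit 228) (nat_lit 4849058812) (nat_lit 76) (nat_lit 14533011630) (nat_lit 13) (nat_lit 5) (nat_lit 16) (nat_lit 5) (nat_lit 14) (nat_lit 4) (nat_lit 520) (nat_lit 328) (nat_lit 292)) (XT.lf (nat_lit 0) (nat_lit 1896405662) (nat_lit 76) (nat_lit 5259086349) (nat_lit 152) (nat_lit 16311023464) (nat_lit 12) (nat_lit 5) (nat_lit 13) (nat_lit 5) (nat_lit 14) (nat_lit 4) (nat_lit 521) (nat_lit 328) (nat_lit 291)))) (XT.nd (nat_lit 156) (nat_lit 152) (nat_lit 0) (XT.nd (nat_lit 78) (nat_lit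 0) (nat_lit 0) (XT.lf (nat_lit 0) (nat_lit 8775815487) (nat_lit 76) (nat_lit 1898119729) (nat_lit 152) (nat_lit 13183702236) (nat_lit 12) (nat_lit 5) (nat_lit 13) (nat_lit 5) (nat_lit 14) (nat_lit 4) (nat_lit 522) (nat_lit 328) (nat_lit 290)) (XT.lf (nat_lit 0) (nat_lit 14235659028) (nat_lit 152) (nat_lit 8539652091) (nat_lit 0) (nat_lit 1481824181) (nat_lit 12) (nat_lit 5) (nat_lit 14) (nat_lit 4) (nat_lit 12) (nat_lit 4) (nat_lit 523) (nat_lit 328) (nat_lit 289))) (XT.nd (nat_lit 78) (nat_lit 152) (nat_lit 0) (XT.lf (nat_lit 0) (nat_lit 17844891112) (nat_lit 152) (nat_lit 1943865546) (nat_lit 0) (nat_lit 4876352409) (nat_lit 12) (nat_lit 5) (nat_lit 14) (nat_lit 4) (nat_lit 12) (nat_lit 4) (nat_lit 524) (nat_lit 328) (nat_lit 288)) (XT.lf (nat_lit 0) (nat_lit 4783180373) (nat_lit 152) (nat_lit 16738598208) (nat_lit 152) (nat_lit 3559565529) (nat_lit 10) (nat_lit 4) (nat_lit 12) (nat_lit 5) (nat_lit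 12) (nat_lit 4) (nat_lit 525) (nat_lit 328) (nat_lit 287))))) (XT.nd (nat_lit 234) (nat_lit 76) (nat_lit 0) (XT.nd (nat_lit 78) (nat_lit 76) (nat_lit 0) (XT.lf (nat_lit 0) (nat_lit 11608145227) (nat_lit 152) (nat_lit 13641806987) (nat_lit 152) (nat_lit 256407665) (nat_lit 10) (nat_lit 4) (nat_lit 12) (nat_lit 5) (nat_lit 12) (nat_lit 4) (nat_lit 526) (nat_lit 328) (nat_lit 286)) (XT.nd (nat_lit 78) (nat_lit 0) (nat_lit 0) (XT.lf (nat_lit 0) (nat_lit 3037144577) (nat_lit 228) (nat_lit 7452687514) (nat_lit 76) (nat_lit 15450347103) (nat_lit 9) (nat_lit 5) (nat_lit 12) (nat_lit 5) (nat_lit 10) (nat_lit 4) (nat_lit 527) (nat_lit 328) (nat_lit 285)) (XT.lf (nat_lit 0) (nat_lit 6358977313) (nat_lit 228) (nat_lit 940938563) (nat_lit 76) (nat_lit 19083418628) (nat_lit 9) (nat_lit 5) (nat_lit 12) (nat_lit 5) (nat_lit 10) (nat_lit 4) (nat_lit 528) (nat_lit 328) (nat_lit 284)))) (XT.nd (nat_lit 156) (nat_lit 0)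 (nat_lit 0) (XT.nd (nat_lit 78) (nat_lit 0) (nat_lit 0) (XT.lf (nat_lit 0) (nat_lit 5716219847) (nat_lit 76) (nat_lit 4034649698) (nat_lit 152) (nat_lit 17084421076) (nat_lit 8) (nat_lit 5) (nat_lit 9) (nat_lit 5) (nat_lit 10) (nat_lit 4) (nat_lit 529) (nat_lit 328) (nat_lit 283)) (XT.lf (nat_lit 0) (nat_lit 12459874712) (nat_lit 76) (nat_lit 723819459) (nat_lit 152) (nat_lit 14113139756) (nat_lit 8) (nat_lit 5) (nat_lit 9) (nat_lit 5) (nat_lit 10) (nat_lit 4) (nat_lit 530) (nat_lit 328) (nat_lit 282))) (XT.nd (nat_lit 55536) (nat_lit 0) (nat_lit 3648) (XT.lf (nat_lit 0) (nat_lit 16669666868) (nat_lit 152) (nat_lit 8505163059) (nat_lit 0) (nat_lit 2593098102) (nat_lit 8) (nat_lit 5) (nat_lit 10) (nat_lit 4) (nat_lit 8) (nat_lit 4) (nat_lit 531) (nat_lit 328) (nat_lit 281)) (XT.lf (nat_lit 0) (nat_lit 4585272386) (nat_lit 228) (nat_lit 1001747142) (nat_lit 228) (nat_lit 1001747142) (nat_lit 56) (nat_lit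 4) (nat_lit 59) (nat_lit 5) (nat_lit 59) (nat_lit 4) (nat_lit 482) (nat_lit 329) (nat_lit 329))))))))
noncomputable def xc11 : XT := (XT.nd (nat_lit 2106) (nat_lit 912) (nat_lit 0) (XT.nd (nat_lit 1014) (nat_lit 1064) (nat_lit 0) (XT.nd (nat_lit 468) (nat_lit 912) (nat_lit 0) (XT.nd (nat_lit 234) (nat_lit 228) (nat_lit 0) (XT.nd (nat_lit 78) (nat_lit 228) (nat_lit 0) (XT.lf (nat_lit 0) (nat_lit 1966625326) (nat_lit 304) (nat_lit 9970326991) (nat_lit 0) (nat_lit 1411171338) (nat_lit 52) (nat_lit 5) (nat_lit 56) (nat_lit 4) (nat_lit 52) (nat_lit 4) (nat_lit 483) (nat_lit 329) (nat_lit 328)) (XT.nd (nat_lit 78) (nat_lit 228) (nat_lit 0) (XT.lf (nat_lit 0) (nat_lit 5969874507) (nat_lit 304) (nat_lit 2682546552) (nat_lit 0) (nat_lit 4869857786) (nat_lit 52) (nat_lit 5) (nat_lit 56) (nat_lit 4) (nat_lit 52) (nat_lit 4) (nat_lit 484) (nat_lit 329) (nat_lit 327)) (XT.lf (nat_lit 0) (nat_lit 4715940370) (nat_lit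 228) (nat_lit 5309233629) (nat_lit 228) (nat_lit 3675331876) (nat_lit 49) (nat_lit 4) (nat_lit 52) (nat_lit 5) (nat_lit 52) (nat_lit 4) (nat_lit 485) (nat_lit 329) (nat_lit 326)))) (XT.nd (nat_lit 78) (nat_lit 152) (nat_lit 0) (XT.lf (nat_lit 0) (nat_lit 235218364) (nat_lit 304) (nat_lit 1682177355) (nat_lit 76) (nat_lit 11965700817) (nat_lit 48) (nat_lit 5) (nat_lit 52) (nat_lit 5) (nat_lit 49) (nat_lit 4) (nat_lit 486) (nat_lit 329) (nat_lit 325)) (XT.nd (nat_lit 78) (nat_lit 0) (nat_lit 0) (XT.lf (nat_lit 0) (nat_lit 4164764106) (nat_lit 228) (nat_lit 8357661657) (nat_lit 0) (nat_lit 1546654226) (nat_lit 46) (nat_lit 5) (nat_lit 49) (nat_lit 4) (nat_lit 46) (nat_lit 4) (nat_lit 487) (nat_lit 329) (nat_lit 324)) (XT.lf (nat_lit 0) (nat_lit 8139854493) (nat_lit 228) (nat_lit 1091098452) (nat_lit 0) (nat_lit 5028517368) (nat_lit 46) (nat_lit 5) (nat_lit 49) (nat_lit 4) (nat_lit 46) (nat_lit 4) (nat_lit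 488) (nat_lit 329) (nat_lit 323))))) (XT.nd (nat_lit 234) (nat_lit 456) (nat_lit 0) (XT.nd (nat_lit 78) (nat_lit 228) (nat_lit 0) (XT.lf (nat_lit 0) (nat_lit 6309967417) (nat_lit 228) (nat_lit 5869460208) (nat_lit 228) (nat_lit 2274566960) (nat_lit 43) (nat_lit 4) (nat_lit 46) (nat_lit 5) (nat_lit 46) (nat_lit 4) (nat_lit 489) (nat_lit 329) (nat_lit 322)) (XT.nd (nat_lit 78) (nat_lit 152) (nat_lit 0) (XT.lf (nat_lit 0) (nat_lit 1577261677) (nat_lit 304) (nat_lit 882899289) (nat_lit 76) (nat_lit 12193029531) (nat_lit 42) (nat_lit 5) (nat_lit 46) (nat_lit 5) (nat_lit 43) (nat_lit 4) (nat_lit 490) (nat_lit 329) (nat_lit 321)) (XT.lf (nat_lit 0) (nat_lit 5469866169) (nat_lit 228) (nat_lit 8361327579) (nat_lit 0) (nat_lit 1025016240) (nat_lit 40) (nat_lit 5) (nat_lit 43) (nat_lit 4) (nat_lit 40) (nat_lit 4) (nat_lit 491) (nat_lit 329) (nat_lit 320)))) (XT.nd (nat_lit 156) (nat_lit 228) (nat_lit 0) (XT.nd (nat_lit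 78) (nat_lit 228) (nat_lit 0) (XT.lf (nat_lit 0) (nat_lit 9408030589) (nat_lit 228) (nat_lit 1139479376) (nat_lit 0) (nat_lit 4516449548) (nat_lit 40) (nat_lit 5) (nat_lit 43) (nat_lit 4) (nat_lit 40) (nat_lit 4) (nat_lit 492) (nat_lit 329) (nat_lit 319)) (XT.lf (nat_lit 0) (nat_lit 6217999124) (nat_lit 228) (nat_lit 7193851554) (nat_lit 228) (nat_lit 1864298835) (nat_lit 37) (nat_lit 4) (nat_lit 40) (nat_lit 5) (nat_lit 40) (nat_lit 4) (nat_lit 493) (nat_lit 329) (nat_lit 318))) (XT.nd (nat_lit 78) (nat_lit 152) (nat_lit 0) (XT.lf (nat_lit 0) (nat_lit 1931202307) (nat_lit 304) (nat_lit 1857908056) (nat_lit 76) (nat_lit 11704149054) (nat_lit 36) (nat_lit 5) (nat_lit 40) (nat_lit 5) (nat_lit 37) (nat_lit 4) (nat_lit 494) (nat_lit 329) (nat_lit 317)) (XT.lf (nat_lit 0) (nat_lit 5456840314) (nat_lit 152) (nat_lit 303922921) (nat_lit 228) (nat_lit 9954061556) (nat_lit 34) (nat_lit 5) (nat_lit 36) (nat_lit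 5) (nat_lit 37) (nat_lit 4) (nat_lit 495) (nat_lit 329) (nat_lit 316)))))) (XT.nd (nat_lit 546) (nat_lit 532) (nat_lit 0) (XT.nd (nat_lit 234) (nat_lit 304) (nat_lit 0) (XT.nd (nat_lit 78) (nat_lit 228) (nat_lit 0) (XT.lf (nat_lit 0) (nat_lit 9648451570) (nat_lit 228) (nat_lit 3107654182) (nat_lit 0) (nat_lit 3185106553) (nat_lit 34) (nat_lit 5) (nat_lit 37) (nat_lit 4) (nat_lit 34) (nat_lit 4) (nat_lit 496) (nat_lit 329) (nat_lit 315)) (XT.nd (nat_lit 78) (nat_lit 76) (nat_lit 0) (XT.lf (nat_lit 0) (nat_lit 4150893886) (nat_lit 152) (nat_lit 9440863500) (nat_lit 152) (nat_lit 2580834041) (nat_lit 32) (nat_lit 4) (nat_lit 34) (nat_lit 5) (nat_lit 34) (nat_lit 4) (nat_lit 497) (nat_lit 329) (nat_lit 314)) (XT.lf (nat_lit 0) (nat_lit 1159499246) (nat_lit 228) (nat_lit 4906747299) (nat_lit 76) (nat_lit 10342815860) (nat_lit 31) (nat_lit 5) (nat_lit 34) (nat_lit 5) (nat_lit 32) (nat_lit 4) (nat_lit 498) (nat_lit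 329) (nat_lit 313)))) (XT.nd (nat_lit 156) (nat_lit 152) (nat_lit 0) (XT.nd (nat_lit 78) (nat_lit 0) (nat_lit 0) (XT.lf (nat_lit 0) (nat_lit 2277654416) (nat_lit 152) (nat_lit 2627232165) (nat_lit 228) (nat_lit 11745758854) (nat_lit 29) (nat_lit 5) (nat_lit 31) (nat_lit 5) (nat_lit 32) (nat_lit 4) (nat_lit 499) (nat_lit 329) (nat_lit 312)) (XT.lf (nat_lit 0) (nat_lit 8714226242) (nat_lit 228) (nat_lit 7315925774) (nat_lit 0) (nat_lit 867146742) (nat_lit 29) (nat_lit 5) (nat_lit 32) (nat_lit 4) (nat_lit 29) (nat_lit 4) (nat_lit 500) (nat_lit 329) (nat_lit 311))) (XT.nd (nat_lit 78) (nat_lit 152) (nat_lit 0) (XT.lf (nat_lit 0) (nat_lit 12568310865) (nat_lit 228) (nat_lit 219280218) (nat_lit 0) (nat_lit 4361942043) (nat_lit 29) (nat_lit 5) (nat_lit 32) (nat_lit 4) (nat_lit 29) (nat_lit 4) (nat_lit 501) (nat_lit 329) (nat_lit 310)) (XT.lf (nat_lit 0) (nat_lit 7028972621) (nat_lit 152) (nat_lit 9468258253)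 (nat_lit 152) (nat_lit 909644998) (nat_lit 27) (nat_lit 4) (nat_lit 29) (nat_lit 5) (nat_lit 29) (nat_lit 4) (nat_lit 502) (nat_lit 329) (nat_lit 309))))) (XT.nd (nat_lit 234) (nat_lit 304) (nat_lit 0) (XT.nd (nat_lit 78) (nat_lit 152) (nat_lit 0) (XT.lf (nat_lit 0) (nat_lit 2751849792) (nat_lit 228) (nat_lit 3345214354) (nat_lit 76) (nat_lit 11572877739) (nat_lit 26) (nat_lit 5) (nat_lit 29) (nat_lit 5) (nat_lit 27) (nat_lit 4) (nat_lit 503) (nat_lit 329) (nat_lit 308)) (XT.nd (nat_lit 78) (nat_lit 0) (nat_lit 0) (XT.lf (nat_lit 0) (nat_lit 3790819085) (nat_lit 152) (nat_lit 2661327633) (nat_lit 228) (nat_lit 11486464879) (nat_lit 24) (nat_lit 5) (nat_lit 26) (nat_lit 5) (nat_lit 27) (nat_lit 4) (nat_lit 504) (nat_lit 329) (nat_lit 307)) (XT.lf (nat_lit 0) (nat_lit 10207824876) (nat_lit 228) (nat_lit 7184105650) (nat_lit 0) (nat_lit 821114009) (nat_lit 24) (nat_lit 5) (nat_lit 27) (nat_lit 4) (nat_lit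 24) (nat_lit 4) (nat_lit 505) (nat_lit 329) (nat_lit 306)))) (XT.nd (nat_lit 156) (nat_lit 152) (nat_lit 0) (XT.nd (nat_lit 78) (nat_lit 152) (nat_lit 0) (XT.lf (nat_lit 0) (nat_lit 14010461245) (nat_lit 228) (nat_lit 178373248) (nat_lit 0) (nat_lit 4304711742) (nat_lit 24) (nat_lit 5) (nat_lit 27) (nat_lit 4) (nat_lit 24) (nat_lit 4) (nat_lit 506) (nat_lit 329) (nat_lit 305)) (XT.lf (nat_lit 0) (nat_lit 6980988057) (nat_lit 152) (nat_lit 10908605098) (nat_lit 152) (nat_lit 890072620) (nat_lit 22) (nat_lit 4) (nat_lit 24) (nat_lit 5) (nat_lit 24) (nat_lit 4) (nat_lit 507) (nat_lit 329) (nat_lit 304))) (XT.nd (nat_lit 78) (nat_lit 76) (nat_lit 0) (XT.lf (nat_lit 0) (nat_lit 2694796326) (nat_lit 228) (nat_lit 4881693876) (nat_lit 76) (nat_lit 11495545438) (nat_lit 21) (nat_lit 5) (nat_lit 24) (nat_lit 5) (nat_lit 22) (nat_lit 4) (nat_lit 508) (nat_lit 329) (nat_lit 303)) (XT.lf (nat_lit 0) (nat_lit 2118916439)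 (nat_lit 76) (nat_lit 4190358870) (nat_lit 152) (nat_lit 13061479012) (nat_lit 20) (nat_lit 5) (nat_lit 21) (nat_lit 5) (nat_lit 22) (nat_lit 4) (nat_lit 509) (nat_lit 329) (nat_lit 302))))))) (XT.nd (nat_lit 1092) (nat_lit 304) (nat_lit 0) (XT.nd (nat_lit 546) (nat_lit 304) (nat_lit 0) (XT.nd (nat_lit 234) (nat_lit 152) (nat_lit 0) (XT.nd (nat_lit 78) (nat_lit 152) (nat_lit 0) (XT.lf (nat_lit 0) (nat_lit 9249606960) (nat_lit 76) (nat_lit 735625234) (nat_lit 152) (nat_lit 9690446813) (nat_lit 20) (nat_lit 5) (nat_lit 21) (nat_lit 5) (nat_lit 22) (nat_lit 4) (nat_lit 510) (nat_lit 329) (nat_lit 301)) (XT.nd (nat_lit 78) (nat_lit 152) (nat_lit 0) (XT.lf (nat_lit 0) (nat_lit 13709887893) (nat_lit 152) (nat_lit 3557168479) (nat_lit 0) (nat_lit 2720157310) (nat_lit 20) (nat_lit 5) (nat_lit 22) (nat_lit 4) (nat_lit 20) (nat_lit 4) (nat_lit 511) (nat_lit 329) (nat_lit 300)) (XT.lf (nat_lit 0) (nat_lit 3415234131)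 (nat_lit 152) (nat_lit 14078766675) (nat_lit 152) (nat_lit 2811293761) (nat_lit 18) (nat_lit 4) (nat_lit 20) (nat_lit 5) (nat_lit 20) (nat_lit 4) (nat_lit 512) (nat_lit 329) (nat_lit 299)))) (XT.nd (nat_lit 156) (nat_lit 76) (nat_lit 0) (XT.nd (nat_lit 78) (nat_lit 0) (nat_lit 0) (XT.lf (nat_lit 0) (nat_lit 696568186) (nat_lit 228) (nat_lit 10132701581) (nat_lit 76) (nat_lit 9800747395) (nat_lit 17) (nat_lit 5) (nat_lit 20) (nat_lit 5) (nat_lit 18) (nat_lit 4) (nat_lit 513) (nat_lit 329) (nat_lit 298)) (XT.lf (nat_lit 0) (nat_lit 4195780205) (nat_lit 228) (nat_lit 3331250560) (nat_lit 76) (nat_lit 13434669011) (nat_lit 17) (nat_lit 5) (nat_lit 20) (nat_lit 5) (nat_lit 18) (nat_lit 4) (nat_lit 514) (nat_lit 329) (nat_lit 297))) (XT.nd (nat_lit 78) (nat_lit 0) (nat_lit 0) (XT.lf (nat_lit 0) (nat_lit 3582193760) (nat_lit 76) (nat_lit 4165649377) (nat_lit 152) (nat_lit 13552529243) (nat_lit 16) (nat_lit 5)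 (nat_lit 17) (nat_lit 5) (nat_lit 18) (nat_lit 4) (nat_lit 515) (nat_lit 329) (nat_lit 296)) (XT.lf (nat_lit 0) (nat_lit 10608513325) (nat_lit 76) (nat_lit 744731074) (nat_lit 152) (nat_lit 10292941498) (nat_lit 16) (nat_lit 5) (nat_lit 17) (nat_lit 5) (nat_lit 18) (nat_lit 4) (nat_lit 516) (nat_lit 329) (nat_lit 295))))) (XT.nd (nat_lit 234) (nat_lit 152) (nat_lit 0) (XT.nd (nat_lit 78) (nat_lit 152) (nat_lit 0) (XT.lf (nat_lit 0) (nat_lit 15009107456) (nat_lit 152) (nat_lit 4311146980) (nat_lit 0) (nat_lit 2679107310) (nat_lit 16) (nat_lit 5) (nat_lit 18) (nat_lit 4) (nat_lit 16) (nat_lit 4) (nat_lit 517) (nat_lit 329) (nat_lit 294)) (XT.nd (nat_lit 78) (nat_lit 0) (nat_lit 0) (XT.lf (nat_lit 0) (nat_lit 2509486776) (nat_lit 152) (nat_lit 16211134059) (nat_lit 152) (nat_lit 3639342499) (nat_lit 14) (nat_lit 4) (nat_lit 16) (nat_lit 5) (nat_lit 16) (nat_lit 4) (nat_lit 518) (nat_lit 329) (nat_lit 293))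 (XT.lf (nat_lit 0) (nat_lit 9457019234) (nat_lit 152) (nat_lit 13039900603) (nat_lit 152) (nat_lit 231058637) (nat_lit 14) (nat_lit 4) (nat_lit 16) (nat_lit 5) (nat_lit 16) (nat_lit 4) (nat_lit 519) (nat_lit 329) (nat_lit 292)))) (XT.nd (nat_lit 156) (nat_lit 0) (nat_lit 0) (XT.nd (nat_lit 78) (nat_lit 76) (nat_lit 0) (XT.lf (nat_lit 0) (nat_lit 3164943378) (nat_lit 228) (nat_lit 6648058699) (nat_lit 76) (nat_lit 13290700228) (nat_lit 13) (nat_lit 5) (nat_lit 16) (nat_lit 5) (nat_lit 14) (nat_lit 4) (nat_lit 520) (nat_lit 329) (nat_lit 291)) (XT.lf (nat_lit 0) (nat_lit 40481079) (nat_lit 76) (nat_lit 6548415382) (nat_lit 152) (nat_lit 16898763007) (nat_lit 12) (nat_lit 5) (nat_lit 13) (nat_lit 5) (nat_lit 14) (nat_lit 4) (nat_lit 521) (nat_lit 329) (nat_lit 290))) (XT.nd (nat_lit 78) (nat_lit 0) (nat_lit 0) (XT.lf (nat_lit 0) (nat_lit 6887521360) (nat_lit 76) (nat_lit 3201582117) (nat_lit 152) (nat_lit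 13790048467) (nat_lit 12) (nat_lit 5) (nat_lit 13) (nat_lit 5) (nat_lit 14) (nat_lit 4) (nat_lit 522) (nat_lit 329) (nat_lit 289)) (XT.lf (nat_lit 0) (nat_lit 13624395766) (nat_lit 152) (nat_lit 10473005886) (nat_lit 0) (nat_lit 181782434) (nat_lit 12) (nat_lit 5) (nat_lit 14) (nat_lit 4) (nat_lit 12) (nat_lit 4) (nat_lit 523) (nat_lit 329) (nat_lit 288)))))) (XT.nd (nat_lit 546) (nat_lit 0) (nat_lit 0) (XT.nd (nat_lit 234) (nat_lit 152) (nat_lit 0) (XT.nd (nat_lit 78) (nat_lit 152) (nat_lit 0) (XT.lf (nat_lit 0) (nat_lit 17216011595) (nat_lit 152) (nat_lit 3908599849) (nat_lit 0) (nat_lit 3562904286) (nat_lit 12) (nat_lit 5) (nat_lit 14) (nat_lit 4) (nat_lit 12) (nat_lit 4) (nat_lit 524) (nat_lit 329) (nat_lit 287)) (XT.nd (nat_lit 78) (nat_lit 0) (nat_lit 0) (XT.lf (nat_lit 0) (nat_lit 2761161729) (nat_lit 152) (nat_lit 18101338210) (nat_lit 152) (nat_lit 4241864257) (nat_lit 10) (nat_lit 4) (nat_lit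 12) (nat_lit 5) (nat_lit 12) (nat_lit 4) (nat_lit 525) (nat_lit 329) (nat_lit 286)) (XT.lf (nat_lit 0) (nat_lit 9555563782) (nat_lit 152) (nat_lit 15017979162) (nat_lit 152) (nat_lit 956184970) (nat_lit 10) (nat_lit 4) (nat_lit 12) (nat_lit 5) (nat_lit 12) (nat_lit 4) (nat_lit 526) (nat_lit 329) (nat_lit 285)))) (XT.nd (nat_lit 156) (nat_lit 76) (nat_lit 0) (XT.nd (nat_lit 78) (nat_lit 0) (nat_lit 0) (XT.lf (nat_lit 0) (nat_lit 2329633857) (nat_lit 228) (nat_lit 9554286975) (nat_lit 76) (nat_lit 14080060617) (nat_lit 9) (nat_lit 5) (nat_lit 12) (nat_lit 5) (nat_lit 10) (nat_lit 4) (nat_lit 527) (nat_lit 329) (nat_lit 284)) (XT.lf (nat_lit 0) (nat_lit 5634887063) (nat_lit 228) (nat_lit 3072139396) (nat_lit 76) (nat_lit 17700446919) (nat_lit 9) (nat_lit 5) (nat_lit 12) (nat_lit 5) (nat_lit 10) (nat_lit 4) (nat_lit 528) (nat_lit 329) (nat_lit 283))) (XT.nd (nat_lit 78) (nat_lit 0) (nat_lit 0) (XT.lf (nat_lit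 0) (nat_lit 3527289851) (nat_lit 76) (nat_lit 5469023017) (nat_lit 152) (nat_lit 17863730884) (nat_lit 8) (nat_lit 5) (nat_lit 9) (nat_lit 5) (nat_lit 10) (nat_lit 4) (nat_lit 529) (nat_lit 329) (nat_lit 282)) (XT.lf (nat_lit 0) (nat_lit 10242114691) (nat_lit 76) (nat_lit 2170899894) (nat_lit 152) (nat_lit 14908899764) (nat_lit 8) (nat_lit 5) (nat_lit 9) (nat_lit 5) (nat_lit 10) (nat_lit 4) (nat_lit 530) (nat_lit 329) (nat_lit 281))))) (XT.nd (nat_lit 55536) (nat_lit 0) (nat_lit 3116) (XT.nd (nat_lit 55380) (nat_lit 0) (nat_lit 3648) (XT.lf (nat_lit 0) (nat_lit 15873704216) (nat_lit 152) (nat_lit 10767112815) (nat_lit 0) (nat_lit 1152701819) (nat_lit 8) (nat_lit 5) (nat_lit 10) (nat_lit 4) (nat_lit 8) (nat_lit 4) (nat_lit 531) (nat_lit 329) (nat_lit 280)) (XT.nd (nat_lit 78) (nat_lit 228) (nat_lit 0) (XT.lf (nat_lit 0) (nat_lit 1806571701) (nat_lit 304) (nat_lit 2810284123) (nat_lit 0) (nat_lit 1806571701)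 (nat_lit 59) (nat_lit 5) (nat_lit 63) (nat_lit 4) (nat_lit 59) (nat_lit 4) (nat_lit 480) (nat_lit 330) (nat_lit 330)) (XT.lf (nat_lit 0) (nat_lit 1688467041) (nat_lit 228) (nat_lit 5950026002) (nat_lit 228) (nat_lit 5372131673) (nat_lit 56) (nat_lit 4) (nat_lit 59) (nat_lit 5) (nat_lit 59) (nat_lit 4) (nat_lit 481) (nat_lit 330) (nat_lit 329)))) (XT.nd (nat_lit 156) (nat_lit 228) (nat_lit 0) (XT.nd (nat_lit 78) (nat_lit 304) (nat_lit 0) (XT.lf (nat_lit 0) (nat_lit 9122185413) (nat_lit 228) (nat_lit 2600205557) (nat_lit 228) (nat_lit 1455748161) (nat_lit 56) (nat_lit 4) (nat_lit 59) (nat_lit 5) (nat_lit 59) (nat_lit 4) (nat_lit 482) (nat_lit 330) (nat_lit 328)) (XT.lf (nat_lit 0) (nat_lit 2473382034) (nat_lit 304) (nat_lit 10069164513) (nat_lit 0) (nat_lit 806802246) (nat_lit 52) (nat_lit 5) (nat_lit 56) (nat_lit 4) (nat_lit 52) (nat_lit 4) (nat_lit 483) (nat_lit 330) (nat_lit 327))) (XT.nd (nat_lit 78)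 (nat_lit 228) (nat_lit 0) (XT.lf (nat_lit 0) (nat_lit 6447604638) (nat_lit 304) (nat_lit 2829354139) (nat_lit 0) (nat_lit 4247139818) (nat_lit 52) (nat_lit 5) (nat_lit 56) (nat_lit 4) (nat_lit 52) (nat_lit 4) (nat_lit 484) (nat_lit 330) (nat_lit 326)) (XT.lf (nat_lit 0) (nat_lit 4519527314) (nat_lit 228) (nat_lit 5953644145) (nat_lit 228) (nat_lit 3229762626) (nat_lit 49) (nat_lit 4) (nat_lit 52) (nat_lit 5) (nat_lit 52) (nat_lit 4) (nat_lit 485) (nat_lit 330) (nat_lit 325))))))))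
noncomputable def xc12 : XT := (XT.nd (nat_lit 2106) (nat_lit 760) (nat_lit 0) (XT.nd (nat_lit 1014) (nat_lit 988) (nat_lit 0) (XT.nd (nat_lit 468) (nat_lit 684) (nat_lit 0) (XT.nd (nat_lit 234) (nat_lit 456) (nat_lit 0) (XT.nd (nat_lit 78) (nat_lit 152) (nat_lit 0) (XT.lf (nat_lit 0) (nat_lit 646540987) (nat_lit 304) (nat_lit 1931022350) (nat_lit 76) (nat_lit 11308484875) (nat_lit 48) (nat_lit 5) (nat_lit 52) (nat_lit 5) (nat_lit 49) (nat_lit 4) (nat_lit 486) (nat_lit 330) (nat_lit 324)) (XT.nd (nat_lit 78) (nat_lit 0) (nat_lit 0) (XT.lf (nat_lit 0) (nat_lit 4541881558) (nat_lit 228) (nat_lit 8655756772) (nat_lit 0) (nat_lit 875090446) (nat_lit 46) (nat_lit 5) (nat_lit 49) (nat_lit 4) (nat_lit 46) (nat_lit 4) (nat_lit 487) (nat_lit 330) (nat_lit 323)) (XT.lf (nat_lit 0) (nat_lit 8489255333) (nat_lit 228) (nat_lit 1435522754) (nat_lit 0) (nat_lit 4338908098) (nat_lit 46) (nat_lit 5) (nat_lit 49) (nat_lit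 4) (nat_lit 46) (nat_lit 4) (nat_lit 488) (nat_lit 330) (nat_lit 322)))) (XT.nd (nat_lit 78) (nat_lit 228) (nat_lit 0) (XT.lf (nat_lit 0) (nat_lit 5914941508) (nat_lit 228) (nat_lit 6584149039) (nat_lit 228) (nat_lit 1959727174) (nat_lit 43) (nat_lit 4) (nat_lit 46) (nat_lit 5) (nat_lit 46) (nat_lit 4) (nat_lit 489) (nat_lit 330) (nat_lit 321)) (XT.nd (nat_lit 78) (nat_lit 152) (nat_lit 0) (XT.lf (nat_lit 0) (nat_lit 1860848516) (nat_lit 304) (nat_lit 1330286910) (nat_lit 76) (nat_lit 11467391815) (nat_lit 42) (nat_lit 5) (nat_lit 46) (nat_lit 5) (nat_lit 43) (nat_lit 4) (nat_lit 490) (nat_lit 330) (nat_lit 320)) (XT.lf (nat_lit 0) (nat_lit 5718739961) (nat_lit 228) (nat_lit 8860916628) (nat_lit 0) (nat_lit 282596187) (nat_lit 40) (nat_lit 5) (nat_lit 43) (nat_lit 4) (nat_lit 40) (nat_lit 4) (nat_lit 491) (nat_lit 330) (nat_lit 319))))) (XT.nd (nat_lit 234) (nat_lit 380) (nat_lit 0) (XT.nd (nat_lit 78)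 (nat_lit 304) (nat_lit 0) (XT.lf (nat_lit 0) (nat_lit 9630429632) (nat_lit 228) (nat_lit 1683799535) (nat_lit 0) (nat_lit 3756314180) (nat_lit 40) (nat_lit 5) (nat_lit 43) (nat_lit 4) (nat_lit 40) (nat_lit 4) (nat_lit 492) (nat_lit 330) (nat_lit 318)) (XT.nd (nat_lit 78) (nat_lit 76) (nat_lit 0) (XT.lf (nat_lit 0) (nat_lit 5622008408) (nat_lit 228) (nat_lit 7982416109) (nat_lit 228) (nat_lit 1678916658) (nat_lit 37) (nat_lit 4) (nat_lit 40) (nat_lit 5) (nat_lit 40) (nat_lit 4) (nat_lit 493) (nat_lit 330) (nat_lit 317)) (XT.lf (nat_lit 0) (nat_lit 2088242254) (nat_lit 304) (nat_lit 2506214801) (nat_lit 76) (nat_lit 10906499054) (nat_lit 36) (nat_lit 5) (nat_lit 40) (nat_lit 5) (nat_lit 37) (nat_lit 4) (nat_lit 494) (nat_lit 330) (nat_lit 316)))) (XT.nd (nat_lit 156) (nat_lit 228) (nat_lit 0) (XT.nd (nat_lit 78) (nat_lit 0) (nat_lit 0) (XT.lf (nat_lit 0) (nat_lit 4756286121) (nat_lit 152) (nat_lit 1131565745)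 (nat_lit 228) (nat_lit 9835279315) (nat_lit 34) (nat_lit 5) (nat_lit 36) (nat_lit 5) (nat_lit 37) (nat_lit 4) (nat_lit 495) (nat_lit 330) (nat_lit 315)) (XT.lf (nat_lit 0) (nat_lit 9744869875) (nat_lit 228) (nat_lit 3854317305) (nat_lit 0) (nat_lit 2350955383) (nat_lit 34) (nat_lit 5) (nat_lit 37) (nat_lit 4) (nat_lit 34) (nat_lit 4) (nat_lit 496) (nat_lit 330) (nat_lit 314))) (XT.nd (nat_lit 78) (nat_lit 76) (nat_lit 0) (XT.lf (nat_lit 0) (nat_lit 3351415909) (nat_lit 152) (nat_lit 10306768336) (nat_lit 152) (nat_lit 2523947527) (nat_lit 32) (nat_lit 4) (nat_lit 34) (nat_lit 5) (nat_lit 34) (nat_lit 4) (nat_lit 497) (nat_lit 330) (nat_lit 313)) (XT.lf (nat_lit 0) (nat_lit 1190879487) (nat_lit 228) (nat_lit 5758524947) (nat_lit 76) (nat_lit 9469695991) (nat_lit 31) (nat_lit 5) (nat_lit 34) (nat_lit 5) (nat_lit 32) (nat_lit 4) (nat_lit 498) (nat_lit 330) (nat_lit 312)))))) (XT.nd (nat_lit 546) (nat_lit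 456) (nat_lit 0) (XT.nd (nat_lit 234) (nat_lit 380) (nat_lit 0) (XT.nd (nat_lit 78) (nat_lit 0) (nat_lit 0) (XT.lf (nat_lit 0) (nat_lit 1372445992) (nat_lit 152) (nat_lit 3533668915) (nat_lit 228) (nat_lit 11755181252) (nat_lit 29) (nat_lit 5) (nat_lit 31) (nat_lit 5) (nat_lit 32) (nat_lit 4) (nat_lit 499) (nat_lit 330) (nat_lit 311)) (XT.nd (nat_lit 78) (nat_lit 0) (nat_lit 0) (XT.lf (nat_lit 0) (nat_lit 8640698180) (nat_lit 152) (nat_lit 44984696) (nat_lit 228) (nat_lit 8222871516) (nat_lit 29) (nat_lit 5) (nat_lit 31) (nat_lit 5) (nat_lit 32) (nat_lit 4) (nat_lit 500) (nat_lit 330) (nat_lit 310)) (XT.lf (nat_lit 0) (nat_lit 12515770944) (nat_lit 228) (nat_lit 1211766045) (nat_lit 0) (nat_lit 3433740991) (nat_lit 29) (nat_lit 5) (nat_lit 32) (nat_lit 4) (nat_lit 29) (nat_lit 4) (nat_lit 501) (nat_lit 330) (nat_lit 309)))) (XT.nd (nat_lit 156) (nat_lit 152) (nat_lit 0) (XT.nd (nat_lit 78) (nat_lit 76)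 (nat_lit 0) (XT.lf (nat_lit 0) (nat_lit 5982718453) (nat_lit 152) (nat_lit 10431939834) (nat_lit 152) (nat_lit 1004572201) (nat_lit 27) (nat_lit 4) (nat_lit 29) (nat_lit 5) (nat_lit 29) (nat_lit 4) (nat_lit 502) (nat_lit 330) (nat_lit 308)) (XT.lf (nat_lit 0) (nat_lit 2634963858) (nat_lit 228) (nat_lit 4443306991) (nat_lit 76) (nat_lit 10604510806) (nat_lit 26) (nat_lit 5) (nat_lit 29) (nat_lit 5) (nat_lit 27) (nat_lit 4) (nat_lit 503) (nat_lit 330) (nat_lit 307))) (XT.nd (nat_lit 78) (nat_lit 0) (nat_lit 0) (XT.lf (nat_lit 0) (nat_lit 2638297007) (nat_lit 152) (nat_lit 3666732096) (nat_lit 228) (nat_lit 11647035480) (nat_lit 24) (nat_lit 5) (nat_lit 26) (nat_lit 5) (nat_lit 27) (nat_lit 4) (nat_lit 504) (nat_lit 330) (nat_lit 306)) (XT.lf (nat_lit 0) (nat_lit 9842871653) (nat_lit 152) (nat_lit 189877279) (nat_lit 228) (nat_lit 8194316170) (nat_lit 24) (nat_lit 5) (nat_lit 26) (nat_lit 5) (nat_lit 27)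 (nat_lit 4) (nat_lit 505) (nat_lit 330) (nat_lit 305))))) (XT.nd (nat_lit 234) (nat_lit 228) (nat_lit 0) (XT.nd (nat_lit 78) (nat_lit 228) (nat_lit 0) (XT.lf (nat_lit 0) (nat_lit 13811933487) (nat_lit 228) (nat_lit 1415863217) (nat_lit 0) (nat_lit 3280247383) (nat_lit 24) (nat_lit 5) (nat_lit 27) (nat_lit 4) (nat_lit 24) (nat_lit 4) (nat_lit 506) (nat_lit 330) (nat_lit 304)) (XT.nd (nat_lit 78) (nat_lit 76) (nat_lit 0) (XT.lf (nat_lit 0) (nat_lit 5688671695) (nat_lit 152) (nat_lit 11972219790) (nat_lit 152) (nat_lit 1133883708) (nat_lit 22) (nat_lit 4) (nat_lit 24) (nat_lit 5) (nat_lit 24) (nat_lit 4) (nat_lit 507) (nat_lit 330) (nat_lit 303)) (XT.lf (nat_lit 0) (nat_lit 2432431467) (nat_lit 228) (nat_lit 6225461748) (nat_lit 76) (nat_lit 10429726304) (nat_lit 21) (nat_lit 5) (nat_lit 24) (nat_lit 5) (nat_lit 22) (nat_lit 4) (nat_lit 508) (nat_lit 330) (nat_lit 302)))) (XT.nd (nat_lit 156) (nat_lit 152)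 (nat_lit 0) (XT.nd (nat_lit 78) (nat_lit 0) (nat_lit 0) (XT.lf (nat_lit 0) (nat_lit 719615031) (nat_lit 76) (nat_lit 5296885329) (nat_lit 152) (nat_lit 13370453664) (nat_lit 20) (nat_lit 5) (nat_lit 21) (nat_lit 5) (nat_lit 22) (nat_lit 4) (nat_lit 509) (nat_lit 330) (nat_lit 301)) (XT.lf (nat_lit 0) (nat_lit 7813368720) (nat_lit 76) (nat_lit 1857941943) (nat_lit 152) (nat_lit 10020998449) (nat_lit 20) (nat_lit 5) (nat_lit 21) (nat_lit 5) (nat_lit 22) (nat_lit 4) (nat_lit 510) (nat_lit 330) (nat_lit 300))) (XT.nd (nat_lit 78) (nat_lit 152) (nat_lit 0) (XT.lf (nat_lit 0) (nat_lit 13367847085) (nat_lit 152) (nat_lit 5039284033) (nat_lit 0) (nat_lit 1597282381) (nat_lit 20) (nat_lit 5) (nat_lit 22) (nat_lit 4) (nat_lit 20) (nat_lit 4) (nat_lit 511) (nat_lit 330) (nat_lit 299)) (XT.lf (nat_lit 0) (nat_lit 1877128364) (nat_lit 152) (nat_lit 15244421258) (nat_lit 152) (nat_lit 3201560150) (nat_lit 18) (nat_lit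 4) (nat_lit 20) (nat_lit 5) (nat_lit 20) (nat_lit 4) (nat_lit 512) (nat_lit 330) (nat_lit 298))))))) (XT.nd (nat_lit 1014) (nat_lit 152) (nat_lit 0) (XT.nd (nat_lit 468) (nat_lit 304) (nat_lit 0) (XT.nd (nat_lit 234) (nat_lit 152) (nat_lit 0) (XT.nd (nat_lit 78) (nat_lit 76) (nat_lit 0) (XT.lf (nat_lit 0) (nat_lit 291024601) (nat_lit 228) (nat_lit 11721948671) (nat_lit 76) (nat_lit 8635324586) (nat_lit 17) (nat_lit 5) (nat_lit 20) (nat_lit 5) (nat_lit 18) (nat_lit 4) (nat_lit 513) (nat_lit 330) (nat_lit 297)) (XT.nd (nat_lit 78) (nat_lit 76) (nat_lit 0) (XT.lf (nat_lit 0) (nat_lit 3770240925) (nat_lit 228) (nat_lit 4955654500) (nat_lit 76) (nat_lit 12254491730) (nat_lit 17) (nat_lit 5) (nat_lit 20) (nat_lit 5) (nat_lit 18) (nat_lit 4) (nat_lit 514) (nat_lit 330) (nat_lit 296)) (XT.lf (nat_lit 0) (nat_lit 1901276792) (nat_lit 76) (nat_lit 5390509813) (nat_lit 152) (nat_lit 14027890133) (nat_lit 16) (nat_lit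 5) (nat_lit 17) (nat_lit 5) (nat_lit 18) (nat_lit 4) (nat_lit 515) (nat_lit 330) (nat_lit 295)))) (XT.nd (nat_lit 78) (nat_lit 152) (nat_lit 0) (XT.lf (nat_lit 0) (nat_lit 8893355617) (nat_lit 76) (nat_lit 1984390697) (nat_lit 152) (nat_lit 10788139276) (nat_lit 16) (nat_lit 5) (nat_lit 17) (nat_lit 5) (nat_lit 18) (nat_lit 4) (nat_lit 516) (nat_lit 330) (nat_lit 294)) (XT.nd (nat_lit 78) (nat_lit 152) (nat_lit 0) (XT.lf (nat_lit 0) (nat_lit 14506406132) (nat_lit 152) (nat_lit 6071818423) (nat_lit 0) (nat_lit 1441387327) (nat_lit 16) (nat_lit 5) (nat_lit 18) (nat_lit 4) (nat_lit 16) (nat_lit 4) (nat_lit 517) (nat_lit 330) (nat_lit 293)) (XT.lf (nat_lit 0) (nat_lit 691776983) (nat_lit 152) (nat_lit 17495561782) (nat_lit 152) (nat_lit 4193492571) (nat_lit 14) (nat_lit 4) (nat_lit 16) (nat_lit 5) (nat_lit 16) (nat_lit 4) (nat_lit 518) (nat_lit 330) (nat_lit 292))))) (XT.nd (nat_lit 234) (nat_lit 228) (nat_lit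 0) (XT.nd (nat_lit 78) (nat_lit 76) (nat_lit 0) (XT.lf (nat_lit 0) (nat_lit 7606329095) (nat_lit 152) (nat_lit 14338683789) (nat_lit 152) (nat_lit 804212219) (nat_lit 14) (nat_lit 4) (nat_lit 16) (nat_lit 5) (nat_lit 16) (nat_lit 4) (nat_lit 519) (nat_lit 330) (nat_lit 291)) (XT.nd (nat_lit 78) (nat_lit 0) (nat_lit 0) (XT.lf (nat_lit 0) (nat_lit 2580920264) (nat_lit 228) (nat_lit 8548858085) (nat_lit 76) (nat_lit 11995618633) (nat_lit 13) (nat_lit 5) (nat_lit 16) (nat_lit 5) (nat_lit 14) (nat_lit 4) (nat_lit 520) (nat_lit 330) (nat_lit 290)) (XT.lf (nat_lit 0) (nat_lit 5986584493) (nat_lit 228) (nat_lit 1892794234) (nat_lit 76) (nat_lit 15630346971) (nat_lit 13) (nat_lit 5) (nat_lit 16) (nat_lit 5) (nat_lit 14) (nat_lit 4) (nat_lit 521) (nat_lit 330) (nat_lit 289)))) (XT.nd (nat_lit 156) (nat_lit 152) (nat_lit 0) (XT.nd (nat_lit 78) (nat_lit 0) (nat_lit 0) (XT.lf (nat_lit 0) (nat_lit 4897356960) (nat_lit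 76) (nat_lit 4559103338) (nat_lit 152) (nat_lit 14445370162) (nat_lit 12) (nat_lit 5) (nat_lit 13) (nat_lit 5) (nat_lit 14) (nat_lit 4) (nat_lit 522) (nat_lit 330) (nat_lit 288)) (XT.lf (nat_lit 0) (nat_lit 11786121061) (nat_lit 76) (nat_lit 1186907533) (nat_lit 152) (nat_lit 11329214039) (nat_lit 12) (nat_lit 5) (nat_lit 13) (nat_lit 5) (nat_lit 14) (nat_lit 4) (nat_lit 523) (nat_lit 330) (nat_lit 287))) (XT.nd (nat_lit 78) (nat_lit 152) (nat_lit 0) (XT.lf (nat_lit 0) (nat_lit 16539667394) (nat_lit 152) (nat_lit 5974774548) (nat_lit 0) (nat_lit 2196637318) (nat_lit 12) (nat_lit 5) (nat_lit 14) (nat_lit 4) (nat_lit 12) (nat_lit 4) (nat_lit 524) (nat_lit 330) (nat_lit 286)) (XT.lf (nat_lit 0) (nat_lit 636965855) (nat_lit 152) (nat_lit 19518466000) (nat_lit 152) (nat_lit 4973115686) (nat_lit 10) (nat_lit 4) (nat_lit 12) (nat_lit 5) (nat_lit 12) (nat_lit 4) (nat_lit 525) (nat_lit 330) (nat_lit 285))))))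 (XT.nd (nat_lit 55692) (nat_lit 0) (nat_lit 3116) (XT.nd (nat_lit 234) (nat_lit 76) (nat_lit 0) (XT.nd (nat_lit 78) (nat_lit 76) (nat_lit 0) (XT.lf (nat_lit 0) (nat_lit 7401404377) (nat_lit 152) (nat_lit 16448275749) (nat_lit 152) (nat_lit 1704572259) (nat_lit 10) (nat_lit 4) (nat_lit 12) (nat_lit 5) (nat_lit 12) (nat_lit 4) (nat_lit 526) (nat_lit 330) (nat_lit 284)) (XT.nd (nat_lit 78) (nat_lit 0) (nat_lit 0) (XT.lf (nat_lit 0) (nat_lit 1574482272) (nat_lit 228) (nat_lit 11757713196) (nat_lit 76) (nat_lit 12656744251) (nat_lit 9) (nat_lit 5) (nat_lit 12) (nat_lit 5) (nat_lit 10) (nat_lit 4) (nat_lit 527) (nat_lit 330) (nat_lit 283)) (XT.lf (nat_lit 0) (nat_lit 4863481038) (nat_lit 228) (nat_lit 5304586569) (nat_lit 76) (nat_lit 16264694060) (nat_lit 9) (nat_lit 5) (nat_lit 12) (nat_lit 5) (nat_lit 10) (nat_lit 4) (nat_lit 528) (nat_lit 330) (nat_lit 282)))) (XT.nd (nat_lit 156) (nat_lit 0) (nat_lit 0)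 (XT.nd (nat_lit 78) (nat_lit 0) (nat_lit 0) (XT.lf (nat_lit 0) (nat_lit 1236344605) (nat_lit 76) (nat_lit 6957752176) (nat_lit 152) (nat_lit 18691856294) (nat_lit 8) (nat_lit 5) (nat_lit 9) (nat_lit 5) (nat_lit 10) (nat_lit 4) (nat_lit 529) (nat_lit 330) (nat_lit 281)) (XT.lf (nat_lit 0) (nat_lit 7922904714) (nat_lit 76) (nat_lit 3672087009) (nat_lit 152) (nat_lit 15753152822) (nat_lit 8) (nat_lit 5) (nat_lit 9) (nat_lit 5) (nat_lit 10) (nat_lit 4) (nat_lit 530) (nat_lit 330) (nat_lit 280))) (XT.nd (nat_lit 55224) (nat_lit 0) (nat_lit 4180) (XT.lf (nat_lit 0) (nat_lit 14687220775) (nat_lit 76) (nat_lit 345380177) (nat_lit 152) (nat_lit 12787614348) (nat_lit 8) (nat_lit 5) (nat_lit 9) (nat_lit 5) (nat_lit 10) (nat_lit 4) (nat_lit 531) (nat_lit 330) (nat_lit 279)) (XT.lf (nat_lit 0) (nat_lit 2551035708) (nat_lit 228) (nat_lit 1856862673) (nat_lit 228) (nat_lit 1856862673) (nat_lit 63) (nat_lit 4) (nat_lit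 66) (nat_lit 5) (nat_lit 66) (nat_lit 4) (nat_lit 478) (nat_lit 331) (nat_lit 331))))) (XT.nd (nat_lit 234) (nat_lit 532) (nat_lit 0) (XT.nd (nat_lit 78) (nat_lit 456) (nat_lit 0) (XT.lf (nat_lit 0) (nat_lit 211535341) (nat_lit 304) (nat_lit 173939870) (nat_lit 76) (nat_lit 12301744313) (nat_lit 62) (nat_lit 5) (nat_lit 66) (nat_lit 5) (nat_lit 63) (nat_lit 4) (nat_lit 479) (nat_lit 331) (nat_lit 330)) (XT.nd (nat_lit 78) (nat_lit 228) (nat_lit 0) (XT.lf (nat_lit 0) (nat_lit 4172782616) (nat_lit 304) (nat_lit 5669247866) (nat_lit 0) (nat_lit 3005436072) (nat_lit 59) (nat_lit 5) (nat_lit 63) (nat_lit 4) (nat_lit 59) (nat_lit 4) (nat_lit 480) (nat_lit 331) (nat_lit 329)) (XT.lf (nat_lit 0) (nat_lit 1590781137) (nat_lit 228) (nat_lit 6577488444) (nat_lit 228) (nat_lit 4843578832) (nat_lit 56) (nat_lit 4) (nat_lit 59) (nat_lit 5) (nat_lit 59) (nat_lit 4) (nat_lit 481) (nat_lit 331) (nat_lit 328)))) (XT.nd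 (nat_lit 156) (nat_lit 228) (nat_lit 0) (XT.nd (nat_lit 78) (nat_lit 304) (nat_lit 0) (XT.lf (nat_lit 0) (nat_lit 8977088373) (nat_lit 228) (nat_lit 3246115983) (nat_lit 228) (nat_lit 956752384) (nat_lit 56) (nat_lit 4) (nat_lit 59) (nat_lit 5) (nat_lit 59) (nat_lit 4) (nat_lit 482) (nat_lit 331) (nat_lit 327)) (XT.lf (nat_lit 0) (nat_lit 2931640191) (nat_lit 304) (nat_lit 10266878318) (nat_lit 0) (nat_lit 153281042) (nat_lit 52) (nat_lit 5) (nat_lit 56) (nat_lit 4) (nat_lit 52) (nat_lit 4) (nat_lit 483) (nat_lit 331) (nat_lit 326))) (XT.nd (nat_lit 78) (nat_lit 228) (nat_lit 0) (XT.lf (nat_lit 0) (nat_lit 6877405367) (nat_lit 304) (nat_lit 3074097420) (nat_lit 0) (nat_lit 3575629519) (nat_lit 52) (nat_lit 5) (nat_lit 56) (nat_lit 4) (nat_lit 52) (nat_lit 4) (nat_lit 484) (nat_lit 331) (nat_lit 325)) (XT.lf (nat_lit 0) (nat_lit 4224811452) (nat_lit 228) (nat_lit 6648347804) (nat_lit 228) (nat_lit 2833418331)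 (nat_lit 49) (nat_lit 4) (nat_lit 52) (nat_lit 5) (nat_lit 52) (nat_lit 4) (nat_lit 485) (nat_lit 331) (nat_lit 324))))))))
noncomputable def xc13 : XT := (XT.nd (nat_lit 2106) (nat_lit 760) (nat_lit 0) (XT.nd (nat_lit 1014) (nat_lit 988) (nat_lit 0) (XT.nd (nat_lit 468) (nat_lit 684) (nat_lit 0) (XT.nd (nat_lit 234) (nat_lit 456) (nat_lit 0) (XT.nd (nat_lit 78) (nat_lit 152) (nat_lit 0) (XT.lf (nat_lit 0) (nat_lit 1009841168) (nat_lit 304) (nat_lit 2278142103) (nat_lit 76) (nat_lit 10602226906) (nat_lit 48) (nat_lit 5) (nat_lit 52) (nat_lit 5) (nat_lit 49) (nat_lit 4) (nat_lit 486) (nat_lit 331) (nat_lit 323)) (XT.nd (nat_lit 78) (nat_lit 0) (nat_lit 0) (XT.lf (nat_lit 0) (nat_lit 4870553804) (nat_lit 228) (nat_lit 9053398747) (nat_lit 0) (nat_lit 153643501) (nat_lit 46) (nat_lit 5) (nat_lit 49) (nat_lit 4) (nat_lit 46) (nat_lit 4) (nat_lit 487) (nat_lit 331) (nat_lit 322)) (XT.lf (nat_lit 0) (nat_lit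 8790754430) (nat_lit 228) (nat_lit 1878585500) (nat_lit 0) (nat_lit 3599769498) (nat_lit 46) (nat_lit 5) (nat_lit 49) (nat_lit 4) (nat_lit 46) (nat_lit 4) (nat_lit 488) (nat_lit 331) (nat_lit 321)))) (XT.nd (nat_lit 78) (nat_lit 228) (nat_lit 0) (XT.lf (nat_lit 0) (nat_lit 5420868741) (nat_lit 228) (nat_lit 7349872713) (nat_lit 228) (nat_lit 1694108731) (nat_lit 43) (nat_lit 4) (nat_lit 46) (nat_lit 5) (nat_lit 46) (nat_lit 4) (nat_lit 489) (nat_lit 331) (nat_lit 320)) (XT.nd (nat_lit 78) (nat_lit 152) (nat_lit 0) (XT.lf (nat_lit 0) (nat_lit 2096391397) (nat_lit 304) (nat_lit 1876719093) (nat_lit 76) (nat_lit 10691958344) (nat_lit 42) (nat_lit 5) (nat_lit 46) (nat_lit 5) (nat_lit 43) (nat_lit 4) (nat_lit 490) (nat_lit 331) (nat_lit 319)) (XT.lf (nat_lit 0) (nat_lit 5405229595) (nat_lit 152) (nat_lit 517240911) (nat_lit 228) (nat_lit 8946971661) (nat_lit 40) (nat_lit 5) (nat_lit 42) (nat_lit 5) (nat_lit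 43) (nat_lit 4) (nat_lit 491) (nat_lit 331) (nat_lit 318))))) (XT.nd (nat_lit 234) (nat_lit 380) (nat_lit 0) (XT.nd (nat_lit 78) (nat_lit 304) (nat_lit 0) (XT.lf (nat_lit 0) (nat_lit 9804846269) (nat_lit 228) (nat_lit 2327591239) (nat_lit 0) (nat_lit 2945892831) (nat_lit 40) (nat_lit 5) (nat_lit 43) (nat_lit 4) (nat_lit 40) (nat_lit 4) (nat_lit 492) (nat_lit 331) (nat_lit 317)) (XT.nd (nat_lit 78) (nat_lit 76) (nat_lit 0) (XT.lf (nat_lit 0) (nat_lit 4926095535) (nat_lit 228) (nat_lit 8822780590) (nat_lit 228) (nat_lit 1542862447) (nat_lit 37) (nat_lit 4) (nat_lit 40) (nat_lit 5) (nat_lit 40) (nat_lit 4) (nat_lit 493) (nat_lit 331) (nat_lit 316)) (XT.lf (nat_lit 0) (nat_lit 2197109237) (nat_lit 304) (nat_lit 3254467978) (nat_lit 76) (nat_lit 10058277352) (nat_lit 36) (nat_lit 5) (nat_lit 40) (nat_lit 5) (nat_lit 37) (nat_lit 4) (nat_lit 494) (nat_lit 331) (nat_lit 315)))) (XT.nd (nat_lit 156) (nat_lit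 228) (nat_lit 0) (XT.nd (nat_lit 78) (nat_lit 0) (nat_lit 0) (XT.lf (nat_lit 0) (nat_lit 3955312787) (nat_lit 152) (nat_lit 2011300854) (nat_lit 228) (nat_lit 9766028563) (nat_lit 34) (nat_lit 5) (nat_lit 36) (nat_lit 5) (nat_lit 37) (nat_lit 4) (nat_lit 495) (nat_lit 331) (nat_lit 314)) (XT.lf (nat_lit 0) (nat_lit 9793119120) (nat_lit 228) (nat_lit 4701419396) (nat_lit 0) (nat_lit 1465735578) (nat_lit 34) (nat_lit 5) (nat_lit 37) (nat_lit 4) (nat_lit 34) (nat_lit 4) (nat_lit 496) (nat_lit 331) (nat_lit 313))) (XT.nd (nat_lit 78) (nat_lit 76) (nat_lit 0) (XT.lf (nat_lit 0) (nat_lit 2451005204) (nat_lit 152) (nat_lit 11225267804) (nat_lit 152) (nat_lit 2516603559) (nat_lit 32) (nat_lit 4) (nat_lit 34) (nat_lit 5) (nat_lit 34) (nat_lit 4) (nat_lit 497) (nat_lit 331) (nat_lit 312)) (XT.lf (nat_lit 0) (nat_lit 1173852435) (nat_lit 228) (nat_lit 6711286935) (nat_lit 76) (nat_lit 8545200057) (nat_lit 31) (nat_lit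 5) (nat_lit 34) (nat_lit 5) (nat_lit 32) (nat_lit 4) (nat_lit 498) (nat_lit 331) (nat_lit 311)))))) (XT.nd (nat_lit 546) (nat_lit 456) (nat_lit 0) (XT.nd (nat_lit 234) (nat_lit 380) (nat_lit 0) (XT.nd (nat_lit 78) (nat_lit 0) (nat_lit 0) (XT.lf (nat_lit 0) (nat_lit 365736907) (nat_lit 152) (nat_lit 4493015999) (nat_lit 228) (nat_lit 11814398430) (nat_lit 29) (nat_lit 5) (nat_lit 31) (nat_lit 5) (nat_lit 32) (nat_lit 4) (nat_lit 499) (nat_lit 331) (nat_lit 310)) (XT.nd (nat_lit 78) (nat_lit 0) (nat_lit 0) (XT.lf (nat_lit 0) (nat_lit 7593513220) (nat_lit 152) (nat_lit 1021212772) (nat_lit 228) (nat_lit 8306164764) (nat_lit 29) (nat_lit 5) (nat_lit 31) (nat_lit 5) (nat_lit 32) (nat_lit 4) (nat_lit 500) (nat_lit 331) (nat_lit 309)) (XT.lf (nat_lit 0) (nat_lit 12415236050) (nat_lit 228) (nat_lit 2304995578) (nat_lit 0) (nat_lit 2453983385) (nat_lit 29) (nat_lit 5) (nat_lit 32) (nat_lit 4) (nat_lit 29) (nat_lit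 4) (nat_lit 501) (nat_lit 331) (nat_lit 308)))) (XT.nd (nat_lit 156) (nat_lit 152) (nat_lit 0) (XT.nd (nat_lit 78) (nat_lit 76) (nat_lit 0) (XT.lf (nat_lit 0) (nat_lit 4835177411) (nat_lit 152) (nat_lit 11448711375) (nat_lit 152) (nat_lit 1148892357) (nat_lit 27) (nat_lit 4) (nat_lit 29) (nat_lit 5) (nat_lit 29) (nat_lit 4) (nat_lit 502) (nat_lit 331) (nat_lit 307)) (XT.lf (nat_lit 0) (nat_lit 2469787744) (nat_lit 228) (nat_lit 5642775571) (nat_lit 76) (nat_lit 9584251292) (nat_lit 26) (nat_lit 5) (nat_lit 29) (nat_lit 5) (nat_lit 27) (nat_lit 4) (nat_lit 503) (nat_lit 331) (nat_lit 306))) (XT.nd (nat_lit 78) (nat_lit 0) (nat_lit 0) (XT.lf (nat_lit 0) (nat_lit 1383832859) (nat_lit 152) (nat_lit 4725572626) (nat_lit 228) (nat_lit 11857309413) (nat_lit 24) (nat_lit 5) (nat_lit 26) (nat_lit 5) (nat_lit 27) (nat_lit 4) (nat_lit 504) (nat_lit 331) (nat_lit 305)) (XT.lf (nat_lit 0) (nat_lit 8550118032) (nat_lit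 152) (nat_lit 1264893299) (nat_lit 228) (nat_lit 8427154615) (nat_lit 24) (nat_lit 5) (nat_lit 26) (nat_lit 5) (nat_lit 27) (nat_lit 4) (nat_lit 505) (nat_lit 331) (nat_lit 304))))) (XT.nd (nat_lit 234) (nat_lit 228) (nat_lit 0) (XT.nd (nat_lit 78) (nat_lit 228) (nat_lit 0) (XT.lf (nat_lit 0) (nat_lit 13565432832) (nat_lit 228) (nat_lit 2754615396) (nat_lit 0) (nat_lit 2203680052) (nat_lit 24) (nat_lit 5) (nat_lit 27) (nat_lit 4) (nat_lit 24) (nat_lit 4) (nat_lit 506) (nat_lit 331) (nat_lit 303)) (XT.nd (nat_lit 78) (nat_lit 76) (nat_lit 0) (XT.lf (nat_lit 0) (nat_lit 4294499967) (nat_lit 152) (nat_lit 13089482761) (nat_lit 152) (nat_lit 1427092749) (nat_lit 22) (nat_lit 4) (nat_lit 24) (nat_lit 5) (nat_lit 24) (nat_lit 4) (nat_lit 507) (nat_lit 331) (nat_lit 302)) (XT.lf (nat_lit 0) (nat_lit 2121743017) (nat_lit 228) (nat_lit 7671211499) (nat_lit 76) (nat_lit 9311437480) (nat_lit 21) (nat_lit 5) (nat_lit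 24) (nat_lit 5) (nat_lit 22) (nat_lit 4) (nat_lit 508) (nat_lit 331) (nat_lit 301)))) (XT.nd (nat_lit 156) (nat_lit 152) (nat_lit 0) (XT.nd (nat_lit 78) (nat_lit 76) (nat_lit 0) (XT.lf (nat_lit 0) (nat_lit 5680232930) (nat_lit 228) (nat_lit 772024998) (nat_lit 76) (nat_lit 12951987625) (nat_lit 21) (nat_lit 5) (nat_lit 24) (nat_lit 5) (nat_lit 22) (nat_lit 4) (nat_lit 509) (nat_lit 331) (nat_lit 300)) (XT.lf (nat_lit 0) (nat_lit 6275256304) (nat_lit 76) (nat_lit 3033975874) (nat_lit 152) (nat_lit 10400892008) (nat_lit 20) (nat_lit 5) (nat_lit 21) (nat_lit 5) (nat_lit 22) (nat_lit 4) (nat_lit 510) (nat_lit 331) (nat_lit 299))) (XT.nd (nat_lit 78) (nat_lit 152) (nat_lit 0) (XT.lf (nat_lit 0) (nat_lit 12977709035) (nat_lit 152) (nat_lit 6623393611) (nat_lit 0) (nat_lit 421694301) (nat_lit 20) (nat_lit 5) (nat_lit 22) (nat_lit 4) (nat_lit 20) (nat_lit 4) (nat_lit 511) (nat_lit 331) (nat_lit 298)) (XT.lf (nat_lit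 0) (nat_lit 236384767) (nat_lit 152) (nat_lit 16464350506) (nat_lit 152) (nat_lit 3641378514) (nat_lit 18) (nat_lit 4) (nat_lit 20) (nat_lit 5) (nat_lit 20) (nat_lit 4) (nat_lit 512) (nat_lit 331) (nat_lit 297))))))) (XT.nd (nat_lit 1092) (nat_lit 152) (nat_lit 0) (XT.nd (nat_lit 546) (nat_lit 304) (nat_lit 0) (XT.nd (nat_lit 234) (nat_lit 152) (nat_lit 0) (XT.nd (nat_lit 78) (nat_lit 152) (nat_lit 0) (XT.lf (nat_lit 0) (nat_lit 7252674169) (nat_lit 152) (nat_lit 13249882421) (nat_lit 152) (nat_lit 165187626) (nat_lit 18) (nat_lit 4) (nat_lit 20) (nat_lit 5) (nat_lit 20) (nat_lit 4) (nat_lit 513) (nat_lit 331) (nat_lit 296)) (XT.nd (nat_lit 78) (nat_lit 76) (nat_lit 0) (XT.lf (nat_lit 0) (nat_lit 3296591539) (nat_lit 228) (nat_lit 6682170867) (nat_lit 76) (nat_lit 11021491262) (nat_lit 17) (nat_lit 5) (nat_lit 20) (nat_lit 5) (nat_lit 18) (nat_lit 4) (nat_lit 514) (nat_lit 331) (nat_lit 295)) (XT.lf (nat_lit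 0) (nat_lit 117575191) (nat_lit 76) (nat_lit 6669761816) (nat_lit 152) (nat_lit 14552828754) (nat_lit 16) (nat_lit 5) (nat_lit 17) (nat_lit 5) (nat_lit 18) (nat_lit 4) (nat_lit 515) (nat_lit 331) (nat_lit 294)))) (XT.nd (nat_lit 156) (nat_lit 152) (nat_lit 0) (XT.nd (nat_lit 78) (nat_lit 0) (nat_lit 0) (XT.lf (nat_lit 0) (nat_lit 7076084664) (nat_lit 76) (nat_lit 3278151707) (nat_lit 152) (nat_lit 11332525826) (nat_lit 16) (nat_lit 5) (nat_lit 17) (nat_lit 5) (nat_lit 18) (nat_lit 4) (nat_lit 516) (nat_lit 331) (nat_lit 293)) (XT.lf (nat_lit 0) (nat_lit 13955717266) (nat_lit 152) (nat_lit 7934764788) (nat_lit 0) (nat_lit 150556265) (nat_lit 16) (nat_lit 5) (nat_lit 18) (nat_lit 4) (nat_lit 16) (nat_lit 4) (nat_lit 517) (nat_lit 331) (nat_lit 292))) (XT.nd (nat_lit 78) (nat_lit 152) (nat_lit 0) (XT.lf (nat_lit 0) (nat_lit 17613747671) (nat_lit 152) (nat_lit 1212789963) (nat_lit 0) (nat_lit 3576184312)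 (nat_lit 16) (nat_lit 5) (nat_lit 18) (nat_lit 4) (nat_lit 16) (nat_lit 4) (nat_lit 518) (nat_lit 331) (nat_lit 291)) (XT.lf (nat_lit 0) (nat_lit 5653311135) (nat_lit 152) (nat_lit 15691872085) (nat_lit 152) (nat_lit 1426463276) (nat_lit 14) (nat_lit 4) (nat_lit 16) (nat_lit 5) (nat_lit 16) (nat_lit 4) (nat_lit 519) (nat_lit 331) (nat_lit 290))))) (XT.nd (nat_lit 234) (nat_lit 152) (nat_lit 0) (XT.nd (nat_lit 78) (nat_lit 76) (nat_lit 0) (XT.lf (nat_lit 0) (nat_lit 1948804118) (nat_lit 228) (nat_lit 10552202382) (nat_lit 76) (nat_lit 10647258971) (nat_lit 13) (nat_lit 5) (nat_lit 16) (nat_lit 5) (nat_lit 14) (nat_lit 4) (nat_lit 520) (nat_lit 331) (nat_lit 289)) (XT.nd (nat_lit 78) (nat_lit 76) (nat_lit 0) (XT.lf (nat_lit 0) (nat_lit 5336795774) (nat_lit 228) (nat_lit 3927457170) (nat_lit 76) (nat_lit 14268700357) (nat_lit 13) (nat_lit 5) (nat_lit 16) (nat_lit 5) (nat_lit 14) (nat_lit 4) (nat_lit 521)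 (nat_lit 331) (nat_lit 288)) (XT.lf (nat_lit 0) (nat_lit 2804541830) (nat_lit 76) (nat_lit 5971215754) (nat_lit 152) (nat_lit 15149924311) (nat_lit 12) (nat_lit 5) (nat_lit 13) (nat_lit 5) (nat_lit 14) (nat_lit 4) (nat_lit 522) (nat_lit 331) (nat_lit 287)))) (XT.nd (nat_lit 156) (nat_lit 152) (nat_lit 0) (XT.nd (nat_lit 78) (nat_lit 0) (nat_lit 0) (XT.lf (nat_lit 0) (nat_lit 9662803387) (nat_lit 76) (nat_lit 2612338124) (nat_lit 152) (nat_lit 12051301686) (nat_lit 12) (nat_lit 5) (nat_lit 13) (nat_lit 5) (nat_lit 14) (nat_lit 4) (nat_lit 523) (nat_lit 331) (nat_lit 286)) (XT.lf (nat_lit 0) (nat_lit 15815593275) (nat_lit 152) (nat_lit 8143199910) (nat_lit 0) (nat_lit 777015716) (nat_lit 12) (nat_lit 5) (nat_lit 14) (nat_lit 4) (nat_lit 12) (nat_lit 4) (nat_lit 524) (nat_lit 331) (nat_lit 285))) (XT.nd (nat_lit 78) (nat_lit 152) (nat_lit 0) (XT.lf (nat_lit 0) (nat_lit 19410621942) (nat_lit 152) (nat_lit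 1569383981) (nat_lit 0) (nat_lit 4173691207) (nat_lit 12) (nat_lit 5) (nat_lit 14) (nat_lit 4) (nat_lit 12) (nat_lit 4) (nat_lit 525) (nat_lit 331) (nat_lit 284)) (XT.lf (nat_lit 0) (nat_lit 5144822243) (nat_lit 152) (nat_lit 17933257649) (nat_lit 152) (nat_lit 2501863016) (nat_lit 10) (nat_lit 4) (nat_lit 12) (nat_lit 5) (nat_lit 12) (nat_lit 4) (nat_lit 526) (nat_lit 331) (nat_lit 283)))))) (XT.nd (nat_lit 55536) (nat_lit 0) (nat_lit 3344) (XT.nd (nat_lit 234) (nat_lit 76) (nat_lit 0) (XT.nd (nat_lit 78) (nat_lit 0) (nat_lit 0) (XT.lf (nat_lit 0) (nat_lit 771393686) (nat_lit 228) (nat_lit 14063830265) (nat_lit 76) (nat_lit 11179839841) (nat_lit 9) (nat_lit 5) (nat_lit 12) (nat_lit 5) (nat_lit 10) (nat_lit 4) (nat_lit 527) (nat_lit 331) (nat_lit 282)) (XT.nd (nat_lit 78) (nat_lit 0) (nat_lit 0) (XT.lf (nat_lit 0) (nat_lit 4044456726) (nat_lit 228) (nat_lit 7639155552) (nat_lit 76) (nat_lit 14775597008)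 (nat_lit 9) (nat_lit 5) (nat_lit 12) (nat_lit 5) (nat_lit 10) (nat_lit 4) (nat_lit 528) (nat_lit 331) (nat_lit 281)) (XT.lf (nat_lit 0) (nat_lit 7351422039) (nat_lit 228) (nat_lit 1142333293) (nat_lit 76) (nat_lit 18419123110) (nat_lit 9) (nat_lit 5) (nat_lit 12) (nat_lit 5) (nat_lit 10) (nat_lit 4) (nat_lit 529) (nat_lit 331) (nat_lit 280)))) (XT.nd (nat_lit 55146) (nat_lit 0) (nat_lit 4408) (XT.nd (nat_lit 78) (nat_lit 0) (nat_lit 0) (XT.lf (nat_lit 0) (nat_lit 5501335287) (nat_lit 76) (nat_lit 5227969505) (nat_lit 152) (nat_lit 16646230008) (nat_lit 8) (nat_lit 5) (nat_lit 9) (nat_lit 5) (nat_lit 10) (nat_lit 4) (nat_lit 530) (nat_lit 331) (nat_lit 279)) (XT.lf (nat_lit 0) (nat_lit 12238484172) (nat_lit 76) (nat_lit 1913236872) (nat_lit 152) (nat_lit 13696192925) (nat_lit 8) (nat_lit 5) (nat_lit 9) (nat_lit 5) (nat_lit 10) (nat_lit 4) (nat_lit 531) (nat_lit 331) (nat_lit 278))) (XT.nd (nat_lit 78)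 (nat_lit 0) (nat_lit 0) (XT.lf (nat_lit 0) (nat_lit 705820124) (nat_lit 304) (nat_lit 4700889227) (nat_lit 0) (nat_lit 705820124) (nat_lit 66) (nat_lit 5) (nat_lit 70) (nat_lit 4) (nat_lit 66) (nat_lit 4) (nat_lit 476) (nat_lit 332) (nat_lit 332)) (XT.lf (nat_lit 0) (nat_lit 5379129391) (nat_lit 304) (nat_lit 2230813223) (nat_lit 0) (nat_lit 4765863306) (nat_lit 66) (nat_lit 5) (nat_lit 70) (nat_lit 4) (nat_lit 66) (nat_lit 4) (nat_lit 477) (nat_lit 332) (nat_lit 331))))) (XT.nd (nat_lit 234) (nat_lit 532) (nat_lit 0) (XT.nd (nat_lit 78) (nat_lit 304) (nat_lit 0) (XT.lf (nat_lit 0) (nat_lit 5053975455) (nat_lit 228) (nat_lit 4345332478) (nat_lit 228) (nat_lit 3130825134) (nat_lit 63) (nat_lit 4) (nat_lit 66) (nat_lit 5) (nat_lit 66) (nat_lit 4) (nat_lit 478) (nat_lit 332) (nat_lit 330)) (XT.nd (nat_lit 78) (nat_lit 228) (nat_lit 0) (XT.lf (nat_lit 0) (nat_lit 757410696) (nat_lit 304) (nat_lit 273989953)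 (nat_lit 76) (nat_lit 11656956980) (nat_lit 62) (nat_lit 5) (nat_lit 66) (nat_lit 5) (nat_lit 63) (nat_lit 4) (nat_lit 479) (nat_lit 332) (nat_lit 329)) (XT.lf (nat_lit 0) (nat_lit 4684573178) (nat_lit 304) (nat_lit 5815305813) (nat_lit 0) (nat_lit 2349422307) (nat_lit 59) (nat_lit 5) (nat_lit 63) (nat_lit 4) (nat_lit 59) (nat_lit 4) (nat_lit 480) (nat_lit 332) (nat_lit 328)))) (XT.nd (nat_lit 156) (nat_lit 304) (nat_lit 0) (XT.nd (nat_lit 78) (nat_lit 0) (nat_lit 0) (XT.lf (nat_lit 0) (nat_lit 1395371021) (nat_lit 228) (nat_lit 7254765063) (nat_lit 228) (nat_lit 4364160204) (nat_lit 56) (nat_lit 4) (nat_lit 59) (nat_lit 5) (nat_lit 59) (nat_lit 4) (nat_lit 481) (nat_lit 332) (nat_lit 327)) (XT.lf (nat_lit 0) (nat_lit 8735196751) (nat_lit 228) (nat_lit 3941478861) (nat_lit 228) (nat_lit 506311269) (nat_lit 56) (nat_lit 4) (nat_lit 59) (nat_lit 5) (nat_lit 59) (nat_lit 4) (nat_lit 482) (nat_lit 332) (nat_lit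 326))) (XT.nd (nat_lit 78) (nat_lit 0) (nat_lit 0) (XT.lf (nat_lit 0) (nat_lit 2788242518) (nat_lit 228) (nat_lit 556953096) (nat_lit 304) (nat_lit 10010208952) (nat_lit 52) (nat_lit 5) (nat_lit 55) (nat_lit 5) (nat_lit 56) (nat_lit 4) (nat_lit 483) (nat_lit 332) (nat_lit 325)) (XT.lf (nat_lit 0) (nat_lit 7259445242) (nat_lit 304) (nat_lit 3416872371) (nat_lit 0) (nat_lit 2855063553) (nat_lit 52) (nat_lit 5) (nat_lit 56) (nat_lit 4) (nat_lit 52) (nat_lit 4) (nat_lit 484) (nat_lit 332) (nat_lit 324))))))))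
noncomputable def xc14 : XT := (XT.nd (nat_lit 2106) (nat_lit 912) (nat_lit 0) (XT.nd (nat_lit 1014) (nat_lit 912) (nat_lit 0) (XT.nd (nat_lit 468) (nat_lit 760) (nat_lit 0) (XT.nd (nat_lit 234) (nat_lit 304) (nat_lit 0) (XT.nd (nat_lit 78) (nat_lit 228) (nat_lit 0) (XT.lf (nat_lit 0) (nat_lit 3831677211) (nat_lit 228) (nat_lit 7393617041) (nat_lit 228) (nat_lit 2486143562) (nat_lit 49) (nat_lit 4) (nat_lit 52) (nat_lit 5) (nat_lit 52) (nat_lit 4) (nat_lit 485) (nat_lit 332) (nat_lit 323)) (XT.nd (nat_lit 78) (nat_lit 152) (nat_lit 0) (XT.lf (nat_lit 0) (nat_lit 1325261378) (nat_lit 304) (nat_lit 2723672738) (nat_lit 76) (nat_lit 9846649944) (nat_lit 48) (nat_lit 5) (nat_lit 52) (nat_lit 5) (nat_lit 49) (nat_lit 4) (nat_lit 486) (nat_lit 332) (nat_lit 322)) (XT.lf (nat_lit 0) (nat_lit 4528793306) (nat_lit 152) (nat_lit 626182016) (nat_lit 228) (nat_lit 8928627092) (nat_lit 46) (nat_lit 5) (nat_lit 48)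 (nat_lit 5) (nat_lit 49) (nat_lit 4) (nat_lit 487) (nat_lit 332) (nat_lit 321)))) (XT.nd (nat_lit 78) (nat_lit 304) (nat_lit 0) (XT.lf (nat_lit 0) (nat_lit 9044470018) (nat_lit 228) (nat_lit 2420460440) (nat_lit 0) (nat_lit 2810811708) (nat_lit 46) (nat_lit 5) (nat_lit 49) (nat_lit 4) (nat_lit 46) (nat_lit 4) (nat_lit 488) (nat_lit 332) (nat_lit 320)) (XT.nd (nat_lit 78) (nat_lit 76) (nat_lit 0) (XT.lf (nat_lit 0) (nat_lit 4827555362) (nat_lit 228) (nat_lit 8166931513) (nat_lit 228) (nat_lit 1477607468) (nat_lit 43) (nat_lit 4) (nat_lit 46) (nat_lit 5) (nat_lit 46) (nat_lit 4) (nat_lit 489) (nat_lit 332) (nat_lit 319)) (XT.lf (nat_lit 0) (nat_lit 2283982689) (nat_lit 304) (nat_lit 2522410124) (nat_lit 76) (nat_lit 9866425027) (nat_lit 42) (nat_lit 5) (nat_lit 46) (nat_lit 5) (nat_lit 43) (nat_lit 4) (nat_lit 490) (nat_lit 332) (nat_lit 318))))) (XT.nd (nat_lit 234) (nat_lit 380) (nat_lit 0) (XT.nd (nat_lit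 78) (nat_lit 228) (nat_lit 0) (XT.lf (nat_lit 0) (nat_lit 4707517527) (nat_lit 152) (nat_lit 1372454929) (nat_lit 228) (nat_lit 8797831828) (nat_lit 40) (nat_lit 5) (nat_lit 42) (nat_lit 5) (nat_lit 43) (nat_lit 4) (nat_lit 491) (nat_lit 332) (nat_lit 317)) (XT.nd (nat_lit 78) (nat_lit 228) (nat_lit 0) (XT.lf (nat_lit 0) (nat_lit 9931348901) (nat_lit 228) (nat_lit 3071106955) (nat_lit 0) (nat_lit 2084867691) (nat_lit 40) (nat_lit 5) (nat_lit 43) (nat_lit 4) (nat_lit 40) (nat_lit 4) (nat_lit 492) (nat_lit 332) (nat_lit 316)) (XT.lf (nat_lit 0) (nat_lit 4129987595) (nat_lit 228) (nat_lit 9715274552) (nat_lit 228) (nat_lit 1456082847) (nat_lit 37) (nat_lit 4) (nat_lit 40) (nat_lit 5) (nat_lit 40) (nat_lit 4) (nat_lit 493) (nat_lit 332) (nat_lit 315)))) (XT.nd (nat_lit 156) (nat_lit 152) (nat_lit 0) (XT.nd (nat_lit 78) (nat_lit 152) (nat_lit 0) (XT.lf (nat_lit 0) (nat_lit 2257845948) (nat_lit 304) (nat_lit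 4102961019) (nat_lit 76) (nat_lit 9159151311) (nat_lit 36) (nat_lit 5) (nat_lit 40) (nat_lit 5) (nat_lit 37) (nat_lit 4) (nat_lit 494) (nat_lit 332) (nat_lit 314)) (XT.lf (nat_lit 0) (nat_lit 3053606203) (nat_lit 152) (nat_lit 2943473243) (nat_lit 228) (nat_lit 9746282145) (nat_lit 34) (nat_lit 5) (nat_lit 36) (nat_lit 5) (nat_lit 37) (nat_lit 4) (nat_lit 495) (nat_lit 332) (nat_lit 313))) (XT.nd (nat_lit 78) (nat_lit 152) (nat_lit 0) (XT.lf (nat_lit 0) (nat_lit 9793218226) (nat_lit 228) (nat_lit 5649292650) (nat_lit 0) (nat_lit 529099994) (nat_lit 34) (nat_lit 5) (nat_lit 37) (nat_lit 4) (nat_lit 34) (nat_lit 4) (nat_lit 496) (nat_lit 332) (nat_lit 312)) (XT.lf (nat_lit 0) (nat_lit 1449308672) (nat_lit 152) (nat_lit 12196722101) (nat_lit 152) (nat_lit 2558799258) (nat_lit 32) (nat_lit 4) (nat_lit 34) (nat_lit 5) (nat_lit 34) (nat_lit 4) (nat_lit 497) (nat_lit 332) (nat_lit 311)))))) (XT.nd (nat_lit 546)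 (nat_lit 304) (nat_lit 0) (XT.nd (nat_lit 234) (nat_lit 380) (nat_lit 0) (XT.nd (nat_lit 78) (nat_lit 152) (nat_lit 0) (XT.lf (nat_lit 0) (nat_lit 1108411414) (nat_lit 228) (nat_lit 7765406894) (nat_lit 76) (nat_lit 7568965511) (nat_lit 31) (nat_lit 5) (nat_lit 34) (nat_lit 5) (nat_lit 32) (nat_lit 4) (nat_lit 498) (nat_lit 332) (nat_lit 310)) (XT.nd (nat_lit 78) (nat_lit 152) (nat_lit 0) (XT.lf (nat_lit 0) (nat_lit 4767605192) (nat_lit 228) (nat_lit 733124783) (nat_lit 76) (nat_lit 11185389176) (nat_lit 31) (nat_lit 5) (nat_lit 34) (nat_lit 5) (nat_lit 32) (nat_lit 4) (nat_lit 499) (nat_lit 332) (nat_lit 309)) (XT.lf (nat_lit 0) (nat_lit 6445226457) (nat_lit 152) (nat_lit 2050396395) (nat_lit 228) (nat_lit 8438803935) (nat_lit 29) (nat_lit 5) (nat_lit 31) (nat_lit 5) (nat_lit 32) (nat_lit 4) (nat_lit 500) (nat_lit 332) (nat_lit 308)))) (XT.nd (nat_lit 156) (nat_lit 228) (nat_lit 0) (XT.nd (nat_lit 78)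 (nat_lit 152) (nat_lit 0) (XT.lf (nat_lit 0) (nat_lit 12266666758) (nat_lit 228) (nat_lit 3499397532) (nat_lit 0) (nat_lit 1422285007) (nat_lit 29) (nat_lit 5) (nat_lit 32) (nat_lit 4) (nat_lit 29) (nat_lit 4) (nat_lit 501) (nat_lit 332) (nat_lit 307)) (XT.lf (nat_lit 0) (nat_lit 3585899478) (nat_lit 152) (nat_lit 12518971609) (nat_lit 152) (nat_lit 1342662061) (nat_lit 27) (nat_lit 4) (nat_lit 29) (nat_lit 5) (nat_lit 29) (nat_lit 4) (nat_lit 502) (nat_lit 332) (nat_lit 306))) (XT.nd (nat_lit 78) (nat_lit 152) (nat_lit 0) (XT.lf (nat_lit 0) (nat_lit 2256256674) (nat_lit 228) (nat_lit 6944090474) (nat_lit 76) (nat_lit 8511699095) (nat_lit 26) (nat_lit 5) (nat_lit 29) (nat_lit 5) (nat_lit 27) (nat_lit 4) (nat_lit 503) (nat_lit 332) (nat_lit 305)) (XT.lf (nat_lit 0) (nat_lit 26934694) (nat_lit 152) (nat_lit 5838264457) (nat_lit 228) (nat_lit 12117369139) (nat_lit 24) (nat_lit 5) (nat_lit 26) (nat_lit 5)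 (nat_lit 27) (nat_lit 4) (nat_lit 504) (nat_lit 332) (nat_lit 304))))) (XT.nd (nat_lit 234) (nat_lit 152) (nat_lit 0) (XT.nd (nat_lit 78) (nat_lit 152) (nat_lit 0) (XT.lf (nat_lit 0) (nat_lit 7155681168) (nat_lit 152) (nat_lit 2393443453) (nat_lit 228) (nat_lit 8709336410) (nat_lit 24) (nat_lit 5) (nat_lit 26) (nat_lit 5) (nat_lit 27) (nat_lit 4) (nat_lit 505) (nat_lit 332) (nat_lit 303)) (XT.nd (nat_lit 78) (nat_lit 152) (nat_lit 0) (XT.lf (nat_lit 0) (nat_lit 13270862612) (nat_lit 228) (nat_lit 4195154786) (nat_lit 0) (nat_lit 1074587567) (nat_lit 24) (nat_lit 5) (nat_lit 27) (nat_lit 4) (nat_lit 24) (nat_lit 4) (nat_lit 506) (nat_lit 332) (nat_lit 302)) (XT.lf (nat_lit 0) (nat_lit 2797926139) (nat_lit 152) (nat_lit 14260832155) (nat_lit 152) (nat_lit 1769814726) (nat_lit 22) (nat_lit 4) (nat_lit 24) (nat_lit 5) (nat_lit 24) (nat_lit 4) (nat_lit 507) (nat_lit 332) (nat_lit 301)))) (XT.nd (nat_lit 156)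 (nat_lit 76) (nat_lit 0) (XT.nd (nat_lit 78) (nat_lit 0) (nat_lit 0) (XT.lf (nat_lit 0) (nat_lit 1762609138) (nat_lit 228) (nat_lit 9219510090) (nat_lit 76) (nat_lit 8140240421) (nat_lit 21) (nat_lit 5) (nat_lit 24) (nat_lit 5) (nat_lit 22) (nat_lit 4) (nat_lit 508) (nat_lit 332) (nat_lit 300)) (XT.lf (nat_lit 0) (nat_lit 5300602225) (nat_lit 228) (nat_lit 2356061234) (nat_lit 76) (nat_lit 11765967009) (nat_lit 21) (nat_lit 5) (nat_lit 24) (nat_lit 5) (nat_lit 22) (nat_lit 4) (nat_lit 509) (nat_lit 332) (nat_lit 299))) (XT.nd (nat_lit 78) (nat_lit 0) (nat_lit 0) (XT.lf (nat_lit 0) (nat_lit 4634666531) (nat_lit 76) (nat_lit 4264188216) (nat_lit 152) (nat_lit 10830276468) (nat_lit 20) (nat_lit 5) (nat_lit 21) (nat_lit 5) (nat_lit 22) (nat_lit 4) (nat_lit 510) (nat_lit 332) (nat_lit 298)) (XT.lf (nat_lit 0) (nat_lit 11726836952) (nat_lit 76) (nat_lit 817793451) (nat_lit 152) (nat_lit 7497634637) (nat_lit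 20) (nat_lit 5) (nat_lit 21) (nat_lit 5) (nat_lit 22) (nat_lit 4) (nat_lit 511) (nat_lit 332) (nat_lit 297))))))) (XT.nd (nat_lit 1092) (nat_lit 304) (nat_lit 0) (XT.nd (nat_lit 546) (nat_lit 304) (nat_lit 0) (XT.nd (nat_lit 234) (nat_lit 76) (nat_lit 0) (XT.nd (nat_lit 78) (nat_lit 228) (nat_lit 0) (XT.lf (nat_lit 0) (nat_lit 16241181333) (nat_lit 152) (nat_lit 1487867117) (nat_lit 0) (nat_lit 2633069840) (nat_lit 20) (nat_lit 5) (nat_lit 22) (nat_lit 4) (nat_lit 20) (nat_lit 4) (nat_lit 512) (nat_lit 332) (nat_lit 296)) (XT.nd (nat_lit 78) (nat_lit 76) (nat_lit 0) (XT.lf (nat_lit 0) (nat_lit 5474448970) (nat_lit 152) (nat_lit 14539297062) (nat_lit 152) (nat_lit 674594586) (nat_lit 18) (nat_lit 4) (nat_lit 20) (nat_lit 5) (nat_lit 20) (nat_lit 4) (nat_lit 513) (nat_lit 332) (nat_lit 295)) (XT.lf (nat_lit 0) (nat_lit 2774646304) (nat_lit 228) (nat_lit 8511476728) (nat_lit 76) (nat_lit 9735184078) (nat_lit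 17) (nat_lit 5) (nat_lit 20) (nat_lit 5) (nat_lit 18) (nat_lit 4) (nat_lit 514) (nat_lit 332) (nat_lit 294)))) (XT.nd (nat_lit 156) (nat_lit 0) (nat_lit 0) (XT.nd (nat_lit 78) (nat_lit 76) (nat_lit 0) (XT.lf (nat_lit 0) (nat_lit 6245786005) (nat_lit 228) (nat_lit 1746401773) (nat_lit 76) (nat_lit 13369429915) (nat_lit 17) (nat_lit 5) (nat_lit 20) (nat_lit 5) (nat_lit 18) (nat_lit 4) (nat_lit 515) (nat_lit 332) (nat_lit 293)) (XT.lf (nat_lit 0) (nat_lit 5155987808) (nat_lit 76) (nat_lit 4626521462) (nat_lit 152) (nat_lit 11926314633) (nat_lit 16) (nat_lit 5) (nat_lit 17) (nat_lit 5) (nat_lit 18) (nat_lit 4) (nat_lit 516) (nat_lit 332) (nat_lit 292))) (XT.nd (nat_lit 78) (nat_lit 0) (nat_lit 0) (XT.lf (nat_lit 0) (nat_lit 12154921174) (nat_lit 76) (nat_lit 1209758280) (nat_lit 152) (nat_lit 8698812915) (nat_lit 16) (nat_lit 5) (nat_lit 17) (nat_lit 5) (nat_lit 18) (nat_lit 4) (nat_lit 517) (nat_lit 332)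 (nat_lit 291)) (XT.lf (nat_lit 0) (nat_lit 16996805549) (nat_lit 152) (nat_lit 3210651429) (nat_lit 0) (nat_lit 2218243114) (nat_lit 16) (nat_lit 5) (nat_lit 18) (nat_lit 4) (nat_lit 16) (nat_lit 4) (nat_lit 518) (nat_lit 332) (nat_lit 290))))) (XT.nd (nat_lit 234) (nat_lit 76) (nat_lit 0) (XT.nd (nat_lit 78) (nat_lit 76) (nat_lit 0) (XT.lf (nat_lit 0) (nat_lit 3597199463) (nat_lit 152) (nat_lit 17099996153) (nat_lit 152) (nat_lit 2098055826) (nat_lit 14) (nat_lit 4) (nat_lit 16) (nat_lit 5) (nat_lit 16) (nat_lit 4) (nat_lit 519) (nat_lit 332) (nat_lit 289)) (XT.nd (nat_lit 78) (nat_lit 0) (nat_lit 0) (XT.lf (nat_lit 0) (nat_lit 1268347052) (nat_lit 228) (nat_lit 12658877214) (nat_lit 76) (nat_lit 9245092474) (nat_lit 13) (nat_lit 5) (nat_lit 16) (nat_lit 5) (nat_lit 14) (nat_lit 4) (nat_lit 520) (nat_lit 332) (nat_lit 288)) (XT.lf (nat_lit 0) (nat_lit 4639012656) (nat_lit 228) (nat_lit 6064836550) (nat_lit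 76) (nat_lit 12853507436) (nat_lit 13) (nat_lit 5) (nat_lit 16) (nat_lit 5) (nat_lit 14) (nat_lit 4) (nat_lit 521) (nat_lit 332) (nat_lit 287)))) (XT.nd (nat_lit 156) (nat_lit 0) (nat_lit 0) (XT.nd (nat_lit 78) (nat_lit 0) (nat_lit 0) (XT.lf (nat_lit 0) (nat_lit 608255259) (nat_lit 76) (nat_lit 7438473132) (nat_lit 152) (nat_lit 15903987209) (nat_lit 12) (nat_lit 5) (nat_lit 13) (nat_lit 5) (nat_lit 14) (nat_lit 4) (nat_lit 522) (nat_lit 332) (nat_lit 286)) (XT.lf (nat_lit 0) (nat_lit 7436612361) (nat_lit 76) (nat_lit 4092652538) (nat_lit 152) (nat_lit 12822554288) (nat_lit 12) (nat_lit 5) (nat_lit 13) (nat_lit 5) (nat_lit 14) (nat_lit 4) (nat_lit 523) (nat_lit 332) (nat_lit 285))) (XT.nd (nat_lit 78) (nat_lit 0) (nat_lit 0) (XT.lf (nat_lit 0) (nat_lit 14342314057) (nat_lit 76) (nat_lit 705773582) (nat_lit 152) (nat_lit 9713535064) (nat_lit 12) (nat_lit 5) (nat_lit 13) (nat_lit 5) (nat_lit 14) (nat_lit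 4) (nat_lit 524) (nat_lit 332) (nat_lit 284)) (XT.lf (nat_lit 0) (nat_lit 18622259259) (nat_lit 152) (nat_lit 3869901106) (nat_lit 0) (nat_lit 2687772836) (nat_lit 12) (nat_lit 5) (nat_lit 14) (nat_lit 4) (nat_lit 12) (nat_lit 4) (nat_lit 525) (nat_lit 332) (nat_lit 283)))))) (XT.nd (nat_lit 55380) (nat_lit 0) (nat_lit 3648) (XT.nd (nat_lit 234) (nat_lit 76) (nat_lit 0) (XT.nd (nat_lit 78) (nat_lit 76) (nat_lit 0) (XT.lf (nat_lit 0) (nat_lit 2784932446) (nat_lit 152) (nat_lit 19473507207) (nat_lit 152) (nat_lit 3348369905) (nat_lit 10) (nat_lit 4) (nat_lit 12) (nat_lit 5) (nat_lit 12) (nat_lit 4) (nat_lit 526) (nat_lit 332) (nat_lit 282)) (XT.nd (nat_lit 78) (nat_lit 76) (nat_lit 0) (XT.lf (nat_lit 0) (nat_lit 9568284884) (nat_lit 152) (nat_lit 16393059218) (nat_lit 152) (nat_lit 81009289) (nat_lit 10) (nat_lit 4) (nat_lit 12) (nat_lit 5) (nat_lit 12) (nat_lit 4) (nat_lit 527) (nat_lit 332) (nat_lit 281))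 (XT.lf (nat_lit 0) (nat_lit 3177492940) (nat_lit 228) (nat_lit 10076761863) (nat_lit 76) (nat_lit 13232571806) (nat_lit 9) (nat_lit 5) (nat_lit 12) (nat_lit 5) (nat_lit 10) (nat_lit 4) (nat_lit 528) (nat_lit 332) (nat_lit 280)))) (XT.nd (nat_lit 156) (nat_lit 0) (nat_lit 0) (XT.nd (nat_lit 78) (nat_lit 76) (nat_lit 0) (XT.lf (nat_lit 0) (nat_lit 6469141331) (nat_lit 228) (nat_lit 3607286695) (nat_lit 76) (nat_lit 16864378722) (nat_lit 9) (nat_lit 5) (nat_lit 12) (nat_lit 5) (nat_lit 10) (nat_lit 4) (nat_lit 529) (nat_lit 332) (nat_lit 279)) (XT.lf (nat_lit 0) (nat_lit 2976456775) (nat_lit 76) (nat_lit 6839157533) (nat_lit 152) (nat_lit 17588481549) (nat_lit 8) (nat_lit 5) (nat_lit 9) (nat_lit 5) (nat_lit 10) (nat_lit 4) (nat_lit 530) (nat_lit 332) (nat_lit 278))) (XT.nd (nat_lit 54912) (nat_lit 0) (nat_lit 4712) (XT.lf (nat_lit 0) (nat_lit 9686971173) (nat_lit 76) (nat_lit 3536164310) (nat_lit 152) (nat_lit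 14653641909) (nat_lit 8) (nat_lit 5) (nat_lit 9) (nat_lit 5) (nat_lit 10) (nat_lit 4) (nat_lit 531) (nat_lit 332) (nat_lit 277)) (XT.lf (nat_lit 0) (nat_lit 190674799) (nat_lit 304) (nat_lit 2887757732) (nat_lit 304) (nat_lit 2887757732) (nat_lit 70) (nat_lit 4) (nat_lit 74) (nat_lit 5) (nat_lit 74) (nat_lit 4) (nat_lit 474) (nat_lit 333) (nat_lit 333))))) (XT.nd (nat_lit 234) (nat_lit 760) (nat_lit 0) (XT.nd (nat_lit 78) (nat_lit 304) (nat_lit 0) (XT.lf (nat_lit 0) (nat_lit 7657076216) (nat_lit 304) (nat_lit 2529147845) (nat_lit 304) (nat_lit 1891105810) (nat_lit 70) (nat_lit 4) (nat_lit 74) (nat_lit 5) (nat_lit 74) (nat_lit 4) (nat_lit 475) (nat_lit 333) (nat_lit 332)) (XT.nd (nat_lit 78) (nat_lit 0) (nat_lit 0) (XT.lf (nat_lit 0) (nat_lit 2007140156) (nat_lit 304) (nat_lit 9450192934) (nat_lit 0) (nat_lit 768342665) (nat_lit 66) (nat_lit 5) (nat_lit 70) (nat_lit 4) (nat_lit 66) (nat_lit 4) (nat_lit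 476) (nat_lit 333) (nat_lit 331)) (XT.lf (nat_lit 0) (nat_lit 5945186653) (nat_lit 304) (nat_lit 2326692878) (nat_lit 0) (nat_lit 4105147902) (nat_lit 66) (nat_lit 5) (nat_lit 70) (nat_lit 4) (nat_lit 66) (nat_lit 4) (nat_lit 477) (nat_lit 333) (nat_lit 330)))) (XT.nd (nat_lit 156) (nat_lit 456) (nat_lit 0) (XT.nd (nat_lit 78) (nat_lit 76) (nat_lit 0) (XT.lf (nat_lit 0) (nat_lit 4909668706) (nat_lit 228) (nat_lit 5025894216) (nat_lit 228) (nat_lit 2596403250) (nat_lit 63) (nat_lit 4) (nat_lit 66) (nat_lit 5) (nat_lit 66) (nat_lit 4) (nat_lit 478) (nat_lit 333) (nat_lit 329)) (XT.lf (nat_lit 0) (nat_lit 1256019602) (nat_lit 304) (nat_lit 470225698) (nat_lit 76) (nat_lit 10964467059) (nat_lit 62) (nat_lit 5) (nat_lit 66) (nat_lit 5) (nat_lit 63) (nat_lit 4) (nat_lit 479) (nat_lit 333) (nat_lit 328))) (XT.nd (nat_lit 78) (nat_lit 228) (nat_lit 0) (XT.lf (nat_lit 0) (nat_lit 5148715790) (nat_lit 304) (nat_lit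 6058799366) (nat_lit 0) (nat_lit 1644844846) (nat_lit 59) (nat_lit 5) (nat_lit 63) (nat_lit 4) (nat_lit 59) (nat_lit 4) (nat_lit 480) (nat_lit 333) (nat_lit 327)) (XT.lf (nat_lit 0) (nat_lit 1102160061) (nat_lit 228) (nat_lit 7982121457) (nat_lit 228) (nat_lit 3933687781) (nat_lit 56) (nat_lit 4) (nat_lit 59) (nat_lit 5) (nat_lit 59) (nat_lit 4) (nat_lit 481) (nat_lit 333) (nat_lit 326))))))))
noncomputable def xc15 : XT := (XT.nd (nat_lit 2106) (nat_lit 988) (nat_lit 0) (XT.nd (nat_lit 1014) (nat_lit 1140) (nat_lit 0) (XT.nd (nat_lit 468) (nat_lit 760) (nat_lit 0) (XT.nd (nat_lit 234) (nat_lit 456) (nat_lit 0) (XT.nd (nat_lit 78) (nat_lit 304) (nat_lit 0) (XT.lf (nat_lit 0) (nat_lit 8396415688) (nat_lit 228) (nat_lit 4686566882) (nat_lit 228) (nat_lit 104248173) (nat_lit 56) (nat_lit 4) (nat_lit 59) (nat_lit 5) (nat_lit 59) (nat_lit 4) (nat_lit 482) (nat_lit 333) (nat_lit 325)) (XT.nd (nat_lit 78) (nat_lit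 0) (nat_lit 0) (XT.lf (nat_lit 0) (nat_lit 2392359664) (nat_lit 228) (nat_lit 1319568588) (nat_lit 304) (nat_lit 9648282646) (nat_lit 52) (nat_lit 5) (nat_lit 55) (nat_lit 5) (nat_lit 56) (nat_lit 4) (nat_lit 483) (nat_lit 333) (nat_lit 324)) (XT.lf (nat_lit 0) (nat_lit 7593874083) (nat_lit 304) (nat_lit 3857813415) (nat_lit 0) (nat_lit 2085159345) (nat_lit 52) (nat_lit 5) (nat_lit 56) (nat_lit 4) (nat_lit 52) (nat_lit 4) (nat_lit 484) (nat_lit 333) (nat_lit 323)))) (XT.nd (nat_lit 78) (nat_lit 228) (nat_lit 0) (XT.lf (nat_lit 0) (nat_lit 3339970419) (nat_lit 228) (nat_lit 8189744117) (nat_lit 228) (nat_lit 2187802133) (nat_lit 49) (nat_lit 4) (nat_lit 52) (nat_lit 5) (nat_lit 52) (nat_lit 4) (nat_lit 485) (nat_lit 333) (nat_lit 322)) (XT.nd (nat_lit 78) (nat_lit 152) (nat_lit 0) (XT.lf (nat_lit 0) (nat_lit 1592925312) (nat_lit 304) (nat_lit 3267788975) (nat_lit 76) (nat_lit 9041457686) (nat_lit 48) (nat_lit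 5) (nat_lit 52) (nat_lit 5) (nat_lit 49) (nat_lit 4) (nat_lit 486) (nat_lit 333) (nat_lit 321)) (XT.lf (nat_lit 0) (nat_lit 3933344556) (nat_lit 152) (nat_lit 1459188756) (nat_lit 228) (nat_lit 8698271390) (nat_lit 46) (nat_lit 5) (nat_lit 48) (nat_lit 5) (nat_lit 49) (nat_lit 4) (nat_lit 487) (nat_lit 333) (nat_lit 320))))) (XT.nd (nat_lit 234) (nat_lit 456) (nat_lit 0) (XT.nd (nat_lit 78) (nat_lit 304) (nat_lit 0) (XT.lf (nat_lit 0) (nat_lit 9250501593) (nat_lit 228) (nat_lit 3061360074) (nat_lit 0) (nat_lit 1971725333) (nat_lit 46) (nat_lit 5) (nat_lit 49) (nat_lit 4) (nat_lit 46) (nat_lit 4) (nat_lit 488) (nat_lit 333) (nat_lit 319)) (XT.nd (nat_lit 78) (nat_lit 76) (nat_lit 0) (XT.lf (nat_lit 0) (nat_lit 4134768699) (nat_lit 228) (nat_lit 9035645855) (nat_lit 228) (nat_lit 1310138483) (nat_lit 43) (nat_lit 4) (nat_lit 46) (nat_lit 5) (nat_lit 46) (nat_lit 4) (nat_lit 489) (nat_lit 333) (nat_lit 318))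 (XT.lf (nat_lit 0) (nat_lit 2423695957) (nat_lit 304) (nat_lit 3267613217) (nat_lit 76) (nat_lit 8990468126) (nat_lit 42) (nat_lit 5) (nat_lit 46) (nat_lit 5) (nat_lit 43) (nat_lit 4) (nat_lit 490) (nat_lit 333) (nat_lit 317)))) (XT.nd (nat_lit 156) (nat_lit 304) (nat_lit 0) (XT.nd (nat_lit 78) (nat_lit 0) (nat_lit 0) (XT.lf (nat_lit 0) (nat_lit 3909822704) (nat_lit 152) (nat_lit 2279625688) (nat_lit 228) (nat_lit 8697931200) (nat_lit 40) (nat_lit 5) (nat_lit 42) (nat_lit 5) (nat_lit 43) (nat_lit 4) (nat_lit 491) (nat_lit 333) (nat_lit 316)) (XT.lf (nat_lit 0) (nat_lit 10009987135) (nat_lit 228) (nat_lit 3914638257) (nat_lit 0) (nat_lit 1172901101) (nat_lit 40) (nat_lit 5) (nat_lit 43) (nat_lit 4) (nat_lit 40) (nat_lit 4) (nat_lit 492) (nat_lit 333) (nat_lit 315))) (XT.nd (nat_lit 78) (nat_lit 76) (nat_lit 0) (XT.lf (nat_lit 0) (nat_lit 3233372391) (nat_lit 228) (nat_lit 10660247994) (nat_lit 228) (nat_lit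 1418543828) (nat_lit 37) (nat_lit 4) (nat_lit 40) (nat_lit 5) (nat_lit 40) (nat_lit 4) (nat_lit 493) (nat_lit 333) (nat_lit 314)) (XT.lf (nat_lit 0) (nat_lit 2270476208) (nat_lit 304) (nat_lit 5052026668) (nat_lit 76) (nat_lit 8208768332) (nat_lit 36) (nat_lit 5) (nat_lit 40) (nat_lit 5) (nat_lit 37) (nat_lit 4) (nat_lit 494) (nat_lit 333) (nat_lit 313)))))) (XT.nd (nat_lit 546) (nat_lit 608) (nat_lit 0) (XT.nd (nat_lit 234) (nat_lit 228) (nat_lit 0) (XT.nd (nat_lit 78) (nat_lit 152) (nat_lit 0) (XT.lf (nat_lit 0) (nat_lit 2050812760) (nat_lit 152) (nat_lit 3928448470) (nat_lit 228) (nat_lit 9776032315) (nat_lit 34) (nat_lit 5) (nat_lit 36) (nat_lit 5) (nat_lit 37) (nat_lit 4) (nat_lit 495) (nat_lit 333) (nat_lit 312)) (XT.nd (nat_lit 78) (nat_lit 152) (nat_lit 0) (XT.lf (nat_lit 0) (nat_lit 9282766286) (nat_lit 152) (nat_lit 465422780) (nat_lit 228) (nat_lit 6235907836) (nat_lit 34) (nat_lit 5) (nat_lit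 36) (nat_lit 5) (nat_lit 37) (nat_lit 4) (nat_lit 496) (nat_lit 333) (nat_lit 311)) (XT.lf (nat_lit 0) (nat_lit 345933488) (nat_lit 152) (nat_lit 13221512188) (nat_lit 152) (nat_lit 2650551169) (nat_lit 32) (nat_lit 4) (nat_lit 34) (nat_lit 5) (nat_lit 34) (nat_lit 4) (nat_lit 497) (nat_lit 333) (nat_lit 310)))) (XT.nd (nat_lit 156) (nat_lit 152) (nat_lit 0) (XT.nd (nat_lit 78) (nat_lit 0) (nat_lit 0) (XT.lf (nat_lit 0) (nat_lit 994530760) (nat_lit 228) (nat_lit 8921298205) (nat_lit 76) (nat_lit 6540609516) (nat_lit 31) (nat_lit 5) (nat_lit 34) (nat_lit 5) (nat_lit 32) (nat_lit 4) (nat_lit 498) (nat_lit 333) (nat_lit 309)) (XT.lf (nat_lit 0) (nat_lit 4630849945) (nat_lit 228) (nat_lit 1928177884) (nat_lit 76) (nat_lit 10141212584) (nat_lit 31) (nat_lit 5) (nat_lit 34) (nat_lit 5) (nat_lit 32) (nat_lit 4) (nat_lit 499) (nat_lit 333) (nat_lit 308))) (XT.nd (nat_lit 78) (nat_lit 0) (nat_lit 0) (XT.lf (nat_lit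 0) (nat_lit 5195387583) (nat_lit 152) (nat_lit 3132939167) (nat_lit 228) (nat_lit 8620841046) (nat_lit 29) (nat_lit 5) (nat_lit 31) (nat_lit 5) (nat_lit 32) (nat_lit 4) (nat_lit 500) (nat_lit 333) (nat_lit 307)) (XT.lf (nat_lit 0) (nat_lit 12070004804) (nat_lit 228) (nat_lit 4795440302) (nat_lit 0) (nat_lit 338241269) (nat_lit 29) (nat_lit 5) (nat_lit 32) (nat_lit 4) (nat_lit 29) (nat_lit 4) (nat_lit 501) (nat_lit 333) (nat_lit 306))))) (XT.nd (nat_lit 234) (nat_lit 380) (nat_lit 0) (XT.nd (nat_lit 78) (nat_lit 76) (nat_lit 0) (XT.lf (nat_lit 0) (nat_lit 2234394742) (nat_lit 152) (nat_lit 13643140247) (nat_lit 152) (nat_lit 1585957303) (nat_lit 27) (nat_lit 4) (nat_lit 29) (nat_lit 5) (nat_lit 29) (nat_lit 4) (nat_lit 502) (nat_lit 333) (nat_lit 305)) (XT.nd (nat_lit 78) (nat_lit 0) (nat_lit 0) (XT.lf (nat_lit 0) (nat_lit 1994286910) (nat_lit 228) (nat_lit 8347762019) (nat_lit 76) (nat_lit 7386433606)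 (nat_lit 26) (nat_lit 5) (nat_lit 29) (nat_lit 5) (nat_lit 27) (nat_lit 4) (nat_lit 503) (nat_lit 333) (nat_lit 304)) (XT.lf (nat_lit 0) (nat_lit 5581617861) (nat_lit 228) (nat_lit 1414136476) (nat_lit 76) (nat_lit 11003690565) (nat_lit 26) (nat_lit 5) (nat_lit 29) (nat_lit 5) (nat_lit 27) (nat_lit 4) (nat_lit 504) (nat_lit 333) (nat_lit 303)))) (XT.nd (nat_lit 156) (nat_lit 228) (nat_lit 0) (XT.nd (nat_lit 78) (nat_lit 0) (nat_lit 0) (XT.lf (nat_lit 0) (nat_lit 5659014222) (nat_lit 152) (nat_lit 3575970309) (nat_lit 228) (nat_lit 9040972217) (nat_lit 24) (nat_lit 5) (nat_lit 26) (nat_lit 5) (nat_lit 27) (nat_lit 4) (nat_lit 505) (nat_lit 333) (nat_lit 302)) (XT.lf (nat_lit 0) (nat_lit 12819913257) (nat_lit 152) (nat_lit 108901110) (nat_lit 228) (nat_lit 5629852251) (nat_lit 24) (nat_lit 5) (nat_lit 26) (nat_lit 5) (nat_lit 27) (nat_lit 4) (nat_lit 506) (nat_lit 333) (nat_lit 301))) (XT.nd (nat_lit 78)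 (nat_lit 76) (nat_lit 0) (XT.lf (nat_lit 0) (nat_lit 1198363319) (nat_lit 152) (nat_lit 15486727324) (nat_lit 152) (nat_lit 2162184040) (nat_lit 22) (nat_lit 4) (nat_lit 24) (nat_lit 5) (nat_lit 24) (nat_lit 4) (nat_lit 507) (nat_lit 333) (nat_lit 300)) (XT.lf (nat_lit 0) (nat_lit 1354888992) (nat_lit 228) (nat_lit 10870964696) (nat_lit 76) (nat_lit 6915675835) (nat_lit 21) (nat_lit 5) (nat_lit 24) (nat_lit 5) (nat_lit 22) (nat_lit 4) (nat_lit 508) (nat_lit 333) (nat_lit 299))))))) (XT.nd (nat_lit 1092) (nat_lit 380) (nat_lit 0) (XT.nd (nat_lit 546) (nat_lit 304) (nat_lit 0) (XT.nd (nat_lit 234) (nat_lit 228) (nat_lit 0) (XT.nd (nat_lit 78) (nat_lit 76) (nat_lit 0) (XT.lf (nat_lit 0) (nat_lit 4872787151) (nat_lit 228) (nat_lit 4042552747) (nat_lit 76) (nat_lit 10526869523) (nat_lit 21) (nat_lit 5) (nat_lit 24) (nat_lit 5) (nat_lit 22) (nat_lit 4) (nat_lit 509) (nat_lit 333) (nat_lit 298)) (XT.nd (nat_lit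 78) (nat_lit 0) (nat_lit 0) (XT.lf (nat_lit 0) (nat_lit 2890956032) (nat_lit 76) (nat_lit 5549061407) (nat_lit 152) (nat_lit 11309320216) (nat_lit 20) (nat_lit 5) (nat_lit 21) (nat_lit 5) (nat_lit 22) (nat_lit 4) (nat_lit 510) (nat_lit 333) (nat_lit 297)) (XT.lf (nat_lit 0) (nat_lit 9949002530) (nat_lit 76) (nat_lit 2117254393) (nat_lit 152) (nat_lit 7996612183) (nat_lit 20) (nat_lit 5) (nat_lit 21) (nat_lit 5) (nat_lit 22) (nat_lit 4) (nat_lit 511) (nat_lit 333) (nat_lit 296)))) (XT.nd (nat_lit 156) (nat_lit 76) (nat_lit 0) (XT.nd (nat_lit 78) (nat_lit 152) (nat_lit 0) (XT.lf (nat_lit 0) (nat_lit 15735124924) (nat_lit 152) (nat_lit 3311620442) (nat_lit 0) (nat_lit 1336537415) (nat_lit 20) (nat_lit 5) (nat_lit 22) (nat_lit 4) (nat_lit 20) (nat_lit 4) (nat_lit 512) (nat_lit 333) (nat_lit 295)) (XT.lf (nat_lit 0) (nat_lit 3592929175) (nat_lit 152) (nat_lit 15883675779) (nat_lit 152) (nat_lit 1233528484)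 (nat_lit 18) (nat_lit 4) (nat_lit 20) (nat_lit 5) (nat_lit 20) (nat_lit 4) (nat_lit 513) (nat_lit 333) (nat_lit 294))) (XT.nd (nat_lit 78) (nat_lit 0) (nat_lit 0) (XT.lf (nat_lit 0) (nat_lit 2204200534) (nat_lit 228) (nat_lit 10444289457) (nat_lit 76) (nat_lit 8395065742) (nat_lit 17) (nat_lit 5) (nat_lit 20) (nat_lit 5) (nat_lit 18) (nat_lit 4) (nat_lit 514) (nat_lit 333) (nat_lit 293)) (XT.lf (nat_lit 0) (nat_lit 5656867304) (nat_lit 228) (nat_lit 3711693996) (nat_lit 76) (nat_lit 12015680727) (nat_lit 17) (nat_lit 5) (nat_lit 20) (nat_lit 5) (nat_lit 18) (nat_lit 4) (nat_lit 515) (nat_lit 333) (nat_lit 292))))) (XT.nd (nat_lit 234) (nat_lit 228) (nat_lit 0) (XT.nd (nat_lit 78) (nat_lit 0) (nat_lit 0) (XT.lf (nat_lit 0) (nat_lit 3132312072) (nat_lit 76) (nat_lit 6030028734) (nat_lit 152) (nat_lit 12569738556) (nat_lit 16) (nat_lit 5) (nat_lit 17) (nat_lit 5) (nat_lit 18) (nat_lit 4) (nat_lit 516) (nat_lit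 333) (nat_lit 291)) (XT.nd (nat_lit 78) (nat_lit 0) (nat_lit 0) (XT.lf (nat_lit 0) (nat_lit 10099612287) (nat_lit 76) (nat_lit 2626937714) (nat_lit 152) (nat_lit 9360563055) (nat_lit 16) (nat_lit 5) (nat_lit 17) (nat_lit 5) (nat_lit 18) (nat_lit 4) (nat_lit 517) (nat_lit 333) (nat_lit 290)) (XT.lf (nat_lit 0) (nat_lit 16331778986) (nat_lit 152) (nat_lit 5311663666) (nat_lit 0) (nat_lit 806421961) (nat_lit 16) (nat_lit 5) (nat_lit 18) (nat_lit 4) (nat_lit 16) (nat_lit 4) (nat_lit 518) (nat_lit 333) (nat_lit 289)))) (XT.nd (nat_lit 156) (nat_lit 0) (nat_lit 0) (XT.nd (nat_lit 78) (nat_lit 76) (nat_lit 0) (XT.lf (nat_lit 0) (nat_lit 1437187761) (nat_lit 152) (nat_lit 18563608198) (nat_lit 152) (nat_lit 2819253240) (nat_lit 14) (nat_lit 4) (nat_lit 16) (nat_lit 5) (nat_lit 16) (nat_lit 4) (nat_lit 519) (nat_lit 333) (nat_lit 288)) (XT.lf (nat_lit 0) (nat_lit 539282219) (nat_lit 228) (nat_lit 14869708730)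 (nat_lit 76) (nat_lit 7788569271) (nat_lit 13) (nat_lit 5) (nat_lit 16) (nat_lit 5) (nat_lit 14) (nat_lit 4) (nat_lit 520) (nat_lit 333) (nat_lit 287))) (XT.nd (nat_lit 78) (nat_lit 0) (nat_lit 0) (XT.lf (nat_lit 0) (nat_lit 3892961498) (nat_lit 228) (nat_lit 8305770563) (nat_lit 76) (nat_lit 11384213231) (nat_lit 13) (nat_lit 5) (nat_lit 16) (nat_lit 5) (nat_lit 14) (nat_lit 4) (nat_lit 521) (nat_lit 333) (nat_lit 286)) (XT.lf (nat_lit 0) (nat_lit 7280074777) (nat_lit 228) (nat_lit 1670168383) (nat_lit 76) (nat_lit 15026478475) (nat_lit 13) (nat_lit 5) (nat_lit 16) (nat_lit 5) (nat_lit 14) (nat_lit 4) (nat_lit 522) (nat_lit 333) (nat_lit 285)))))) (XT.nd (nat_lit 546) (nat_lit 76) (nat_lit 0) (XT.nd (nat_lit 234) (nat_lit 228) (nat_lit 0) (XT.nd (nat_lit 78) (nat_lit 0) (nat_lit 0) (XT.lf (nat_lit 0) (nat_lit 5106674966) (nat_lit 76) (nat_lit 5628431290) (nat_lit 152) (nat_lit 13643274298) (nat_lit 12)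 (nat_lit 5) (nat_lit 13) (nat_lit 5) (nat_lit 14) (nat_lit 4) (nat_lit 523) (nat_lit 333) (nat_lit 284)) (XT.nd (nat_lit 78) (nat_lit 0) (nat_lit 0) (XT.lf (nat_lit 0) (nat_lit 11983633434) (nat_lit 76) (nat_lit 2254102349) (nat_lit 152) (nat_lit 10550777280) (nat_lit 12) (nat_lit 5) (nat_lit 13) (nat_lit 5) (nat_lit 14) (nat_lit 4) (nat_lit 524) (nat_lit 333) (nat_lit 283)) (XT.lf (nat_lit 0) (nat_lit 17785899040) (nat_lit 152) (nat_lit 6273841604) (nat_lit 0) (nat_lit 1147608112) (nat_lit 12) (nat_lit 5) (nat_lit 14) (nat_lit 4) (nat_lit 12) (nat_lit 4) (nat_lit 525) (nat_lit 333) (nat_lit 282)))) (XT.nd (nat_lit 156) (nat_lit 76) (nat_lit 0) (XT.nd (nat_lit 78) (nat_lit 0) (nat_lit 0) (XT.lf (nat_lit 0) (nat_lit 320809540) (nat_lit 152) (nat_lit 21069628444) (nat_lit 152) (nat_lit 4244424889) (nat_lit 10) (nat_lit 4) (nat_lit 12) (nat_lit 5) (nat_lit 12) (nat_lit 4) (nat_lit 526) (nat_lit 333) (nat_lit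 281)) (XT.lf (nat_lit 0) (nat_lit 7076480308) (nat_lit 152) (nat_lit 18001346387) (nat_lit 152) (nat_lit 992895158) (nat_lit 10) (nat_lit 4) (nat_lit 12) (nat_lit 5) (nat_lit 12) (nat_lit 4) (nat_lit 527) (nat_lit 333) (nat_lit 280))) (XT.nd (nat_lit 78) (nat_lit 0) (nat_lit 0) (XT.lf (nat_lit 0) (nat_lit 2262249696) (nat_lit 228) (nat_lit 12618361425) (nat_lit 76) (nat_lit 11635013345) (nat_lit 9) (nat_lit 5) (nat_lit 12) (nat_lit 5) (nat_lit 10) (nat_lit 4) (nat_lit 528) (nat_lit 333) (nat_lit 279)) (XT.lf (nat_lit 0) (nat_lit 5538881496) (nat_lit 228) (nat_lit 6175697131) (nat_lit 76) (nat_lit 15255330864) (nat_lit 9) (nat_lit 5) (nat_lit 12) (nat_lit 5) (nat_lit 10) (nat_lit 4) (nat_lit 529) (nat_lit 333) (nat_lit 278))))) (XT.nd (nat_lit 54912) (nat_lit 0) (nat_lit 4408) (XT.nd (nat_lit 78) (nat_lit 0) (nat_lit 0) (XT.lf (nat_lit 0) (nat_lit 347279029) (nat_lit 76) (nat_lit 8506282930) (nat_lit 152)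 (nat_lit 18580276955) (nat_lit 8) (nat_lit 5) (nat_lit 9) (nat_lit 5) (nat_lit 10) (nat_lit 4) (nat_lit 530) (nat_lit 333) (nat_lit 277)) (XT.nd (nat_lit 54756) (nat_lit 0) (nat_lit 5320) (XT.lf (nat_lit 0) (nat_lit 7031681185) (nat_lit 76) (nat_lit 5214798933) (nat_lit 152) (nat_lit 15660336769) (nat_lit 8) (nat_lit 5) (nat_lit 9) (nat_lit 5) (nat_lit 10) (nat_lit 4) (nat_lit 531) (nat_lit 333) (nat_lit 276)) (XT.lf (nat_lit 0) (nat_lit 4760490085) (nat_lit 304) (nat_lit 532658048) (nat_lit 304) (nat_lit 532658048) (nat_lit 78) (nat_lit 4) (nat_lit 82) (nat_lit 5) (nat_lit 82) (nat_lit 4) (nat_lit 472) (nat_lit 334) (nat_lit 334)))) (XT.nd (nat_lit 156) (nat_lit 304) (nat_lit 0) (XT.nd (nat_lit 78) (nat_lit 304) (nat_lit 0) (XT.lf (nat_lit 0) (nat_lit 2842394425) (nat_lit 304) (nat_lit 6756619112) (nat_lit 0) (nat_lit 2191591550) (nat_lit 74) (nat_lit 5) (nat_lit 78) (nat_lit 4) (nat_lit 74) (nat_lit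 4) (nat_lit 473) (nat_lit 334) (nat_lit 333)) (XT.lf (nat_lit 0) (nat_lit 333533154) (nat_lit 304) (nat_lit 6444154361) (nat_lit 304) (nat_lit 5155309451) (nat_lit 70) (nat_lit 4) (nat_lit 74) (nat_lit 5) (nat_lit 74) (nat_lit 4) (nat_lit 474) (nat_lit 334) (nat_lit 332))) (XT.nd (nat_lit 78) (nat_lit 304) (nat_lit 0) (XT.lf (nat_lit 0) (nat_lit 7562380903) (nat_lit 304) (nat_lit 3215273035) (nat_lit 304) (nat_lit 1300896718) (nat_lit 70) (nat_lit 4) (nat_lit 74) (nat_lit 5) (nat_lit 74) (nat_lit 4) (nat_lit 475) (nat_lit 334) (nat_lit 331)) (XT.lf (nat_lit 0) (nat_lit 2555075919) (nat_lit 304) (nat_lit 9595455357) (nat_lit 0) (nat_lit 76995133) (nat_lit 66) (nat_lit 5) (nat_lit 70) (nat_lit 4) (nat_lit 66) (nat_lit 4) (nat_lit 476) (nat_lit 334) (nat_lit 330))))))))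
noncomputable def xc16 : XT := (XT.nd (nat_lit 2106) (nat_lit 1292) (nat_lit 0) (XT.nd (nat_lit 1014) (nat_lit 1292) (nat_lit 0) (XT.nd (nat_lit 468) (nat_lit 912) (nat_lit 0) (XT.nd (nat_lit 234) (nat_lit 532) (nat_lit 0) (XT.nd (nat_lit 78) (nat_lit 304) (nat_lit 0) (XT.lf (nat_lit 0) (nat_lit 6464257077) (nat_lit 304) (nat_lit 2518489787) (nat_lit 0) (nat_lit 3396724077) (nat_lit 66) (nat_lit 5) (nat_lit 70) (nat_lit 4) (nat_lit 66) (nat_lit 4) (nat_lit 477) (nat_lit 334) (nat_lit 329)) (XT.nd (nat_lit 78) (nat_lit 76) (nat_lit 0) (XT.lf (nat_lit 0) (nat_lit 4669094579) (nat_lit 228) (nat_lit 5755677448) (nat_lit 228) (nat_lit 2110250118) (nat_lit 63) (nat_lit 4) (nat_lit 66) (nat_lit 5) (nat_lit 66) (nat_lit 4) (nat_lit 478) (nat_lit 334) (nat_lit 328)) (XT.lf (nat_lit 0) (nat_lit 1707557592) (nat_lit 304) (nat_lit 762724060) (nat_lit 76) (nat_lit 10224002985) (nat_lit 62) (nat_lit 5) (nat_lit 66)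 (nat_lit 5) (nat_lit 63) (nat_lit 4) (nat_lit 479) (nat_lit 334) (nat_lit 327)))) (XT.nd (nat_lit 78) (nat_lit 304) (nat_lit 0) (XT.lf (nat_lit 0) (nat_lit 5565392469) (nat_lit 304) (nat_lit 6399824013) (nat_lit 0) (nat_lit 891427386) (nat_lit 59) (nat_lit 5) (nat_lit 63) (nat_lit 4) (nat_lit 59) (nat_lit 4) (nat_lit 480) (nat_lit 334) (nat_lit 326)) (XT.nd (nat_lit 78) (nat_lit 76) (nat_lit 0) (XT.lf (nat_lit 0) (nat_lit 711033272) (nat_lit 228) (nat_lit 8759842865) (nat_lit 228) (nat_lit 3551992749) (nat_lit 56) (nat_lit 4) (nat_lit 59) (nat_lit 5) (nat_lit 59) (nat_lit 4) (nat_lit 481) (nat_lit 334) (nat_lit 325)) (XT.lf (nat_lit 0) (nat_lit 246321098) (nat_lit 304) (nat_lit 5233698194) (nat_lit 76) (nat_lit 7712638284) (nat_lit 55) (nat_lit 5) (nat_lit 59) (nat_lit 5) (nat_lit 56) (nat_lit 4) (nat_lit 482) (nat_lit 334) (nat_lit 324))))) (XT.nd (nat_lit 234) (nat_lit 456) (nat_lit 0) (XT.nd (nat_lit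 78) (nat_lit 228) (nat_lit 0) (XT.lf (nat_lit 0) (nat_lit 1898146022) (nat_lit 228) (nat_lit 2132827473) (nat_lit 304) (nat_lit 9335267105) (nat_lit 52) (nat_lit 5) (nat_lit 55) (nat_lit 5) (nat_lit 56) (nat_lit 4) (nat_lit 483) (nat_lit 334) (nat_lit 323)) (XT.nd (nat_lit 78) (nat_lit 228) (nat_lit 0) (XT.lf (nat_lit 0) (nat_lit 7880823039) (nat_lit 304) (nat_lit 4397093468) (nat_lit 0) (nat_lit 1265614971) (nat_lit 52) (nat_lit 5) (nat_lit 56) (nat_lit 4) (nat_lit 52) (nat_lit 4) (nat_lit 484) (nat_lit 334) (nat_lit 322)) (XT.lf (nat_lit 0) (nat_lit 2749498251) (nat_lit 228) (nat_lit 9037041239) (nat_lit 228) (nat_lit 1938277048) (nat_lit 49) (nat_lit 4) (nat_lit 52) (nat_lit 5) (nat_lit 52) (nat_lit 4) (nat_lit 485) (nat_lit 334) (nat_lit 321)))) (XT.nd (nat_lit 156) (nat_lit 228) (nat_lit 0) (XT.nd (nat_lit 78) (nat_lit 152) (nat_lit 0) (XT.lf (nat_lit 0) (nat_lit 1812937935) (nat_lit 304) (nat_lit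 3910704191) (nat_lit 76) (nat_lit 8186334370) (nat_lit 48) (nat_lit 5) (nat_lit 52) (nat_lit 5) (nat_lit 49) (nat_lit 4) (nat_lit 486) (nat_lit 334) (nat_lit 320)) (XT.lf (nat_lit 0) (nat_lit 3238648575) (nat_lit 152) (nat_lit 2343661546) (nat_lit 228) (nat_lit 8516915839) (nat_lit 46) (nat_lit 5) (nat_lit 48) (nat_lit 5) (nat_lit 49) (nat_lit 4) (nat_lit 487) (nat_lit 334) (nat_lit 319))) (XT.nd (nat_lit 78) (nat_lit 228) (nat_lit 0) (XT.lf (nat_lit 0) (nat_lit 9408929953) (nat_lit 228) (nat_lit 3801535735) (nat_lit 0) (nat_lit 1082181320) (nat_lit 46) (nat_lit 5) (nat_lit 49) (nat_lit 4) (nat_lit 46) (nat_lit 4) (nat_lit 488) (nat_lit 334) (nat_lit 318)) (XT.lf (nat_lit 0) (nat_lit 3342237071) (nat_lit 228) (nat_lit 9956356412) (nat_lit 228) (nat_lit 1191636101) (nat_lit 43) (nat_lit 4) (nat_lit 46) (nat_lit 5) (nat_lit 46) (nat_lit 4) (nat_lit 489) (nat_lit 334) (nat_lit 317)))))) (XT.nd (nat_lit 546)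 (nat_lit 608) (nat_lit 0) (XT.nd (nat_lit 234) (nat_lit 456) (nat_lit 0) (XT.nd (nat_lit 78) (nat_lit 152) (nat_lit 0) (XT.lf (nat_lit 0) (nat_lit 2515585990) (nat_lit 304) (nat_lit 4112620608) (nat_lit 76) (nat_lit 8063744126) (nat_lit 42) (nat_lit 5) (nat_lit 46) (nat_lit 5) (nat_lit 43) (nat_lit 4) (nat_lit 490) (nat_lit 334) (nat_lit 316)) (XT.nd (nat_lit 78) (nat_lit 0) (nat_lit 0) (XT.lf (nat_lit 0) (nat_lit 3011832302) (nat_lit 152) (nat_lit 3239108943) (nat_lit 228) (nat_lit 8647230601) (nat_lit 40) (nat_lit 5) (nat_lit 42) (nat_lit 5) (nat_lit 43) (nat_lit 4) (nat_lit 491) (nat_lit 334) (nat_lit 315)) (XT.lf (nat_lit 0) (nat_lit 10040791810) (nat_lit 228) (nat_lit 4858515942) (nat_lit 0) (nat_lit 209635429) (nat_lit 40) (nat_lit 5) (nat_lit 43) (nat_lit 4) (nat_lit 40) (nat_lit 4) (nat_lit 492) (nat_lit 334) (nat_lit 314)))) (XT.nd (nat_lit 156) (nat_lit 152) (nat_lit 0) (XT.nd (nat_lit 78) (nat_lit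 76) (nat_lit 0) (XT.lf (nat_lit 0) (nat_lit 2235898308) (nat_lit 228) (nat_lit 11658071492) (nat_lit 228) (nat_lit 1430230668) (nat_lit 37) (nat_lit 4) (nat_lit 40) (nat_lit 5) (nat_lit 40) (nat_lit 4) (nat_lit 493) (nat_lit 334) (nat_lit 313)) (XT.lf (nat_lit 0) (nat_lit 2235004967) (nat_lit 304) (nat_lit 6102037105) (nat_lit 76) (nat_lit 7206755717) (nat_lit 36) (nat_lit 5) (nat_lit 40) (nat_lit 5) (nat_lit 37) (nat_lit 4) (nat_lit 494) (nat_lit 334) (nat_lit 312))) (XT.nd (nat_lit 78) (nat_lit 0) (nat_lit 0) (XT.lf (nat_lit 0) (nat_lit 946539205) (nat_lit 152) (nat_lit 4966612798) (nat_lit 228) (nat_lit 9855290742) (nat_lit 34) (nat_lit 5) (nat_lit 36) (nat_lit 5) (nat_lit 37) (nat_lit 4) (nat_lit 495) (nat_lit 334) (nat_lit 311)) (XT.lf (nat_lit 0) (nat_lit 8138974073) (nat_lit 152) (nat_lit 1519841039) (nat_lit 228) (nat_lit 6338905951) (nat_lit 34) (nat_lit 5) (nat_lit 36) (nat_lit 5) (nat_lit 37)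 (nat_lit 4) (nat_lit 496) (nat_lit 334) (nat_lit 310))))) (XT.nd (nat_lit 234) (nat_lit 380) (nat_lit 0) (XT.nd (nat_lit 78) (nat_lit 228) (nat_lit 0) (XT.lf (nat_lit 0) (nat_lit 13446067691) (nat_lit 228) (nat_lit 848279849) (nat_lit 0) (nat_lit 1937923022) (nat_lit 34) (nat_lit 5) (nat_lit 37) (nat_lit 4) (nat_lit 34) (nat_lit 4) (nat_lit 497) (nat_lit 334) (nat_lit 309)) (XT.nd (nat_lit 78) (nat_lit 0) (nat_lit 0) (XT.lf (nat_lit 0) (nat_lit 832165813) (nat_lit 228) (nat_lit 10179414158) (nat_lit 76) (nat_lit 5459728795) (nat_lit 31) (nat_lit 5) (nat_lit 34) (nat_lit 5) (nat_lit 32) (nat_lit 4) (nat_lit 498) (nat_lit 334) (nat_lit 308)) (XT.lf (nat_lit 0) (nat_lit 4446058926) (nat_lit 228) (nat_lit 3224687749) (nat_lit 76) (nat_lit 9044821473) (nat_lit 31) (nat_lit 5) (nat_lit 34) (nat_lit 5) (nat_lit 32) (nat_lit 4) (nat_lit 499) (nat_lit 334) (nat_lit 307)))) (XT.nd (nat_lit 156) (nat_lit 228) (nat_lit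 0) (XT.nd (nat_lit 78) (nat_lit 0) (nat_lit 0) (XT.lf (nat_lit 0) (nat_lit 3843506463) (nat_lit 152) (nat_lit 4269265614) (nat_lit 228) (nat_lit 8852347482) (nat_lit 29) (nat_lit 5) (nat_lit 31) (nat_lit 5) (nat_lit 32) (nat_lit 4) (nat_lit 500) (nat_lit 334) (nat_lit 306)) (XT.lf (nat_lit 0) (nat_lit 11021241279) (nat_lit 152) (nat_lit 809185557) (nat_lit 228) (nat_lit 5389700351) (nat_lit 29) (nat_lit 5) (nat_lit 31) (nat_lit 5) (nat_lit 32) (nat_lit 4) (nat_lit 501) (nat_lit 334) (nat_lit 305))) (XT.nd (nat_lit 78) (nat_lit 76) (nat_lit 0) (XT.lf (nat_lit 0) (nat_lit 780133200) (nat_lit 152) (nat_lit 14821658140) (nat_lit 152) (nat_lit 1878873493) (nat_lit 27) (nat_lit 4) (nat_lit 29) (nat_lit 5) (nat_lit 29) (nat_lit 4) (nat_lit 502) (nat_lit 334) (nat_lit 304)) (XT.lf (nat_lit 0) (nat_lit 1683775721) (nat_lit 228) (nat_lit 9854340666) (nat_lit 76) (nat_lit 6208013546) (nat_lit 26) (nat_lit 5) (nat_lit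 29) (nat_lit 5) (nat_lit 27) (nat_lit 4) (nat_lit 503) (nat_lit 334) (nat_lit 303))))))) (XT.nd (nat_lit 1014) (nat_lit 532) (nat_lit 0) (XT.nd (nat_lit 468) (nat_lit 380) (nat_lit 0) (XT.nd (nat_lit 234) (nat_lit 228) (nat_lit 0) (XT.nd (nat_lit 78) (nat_lit 152) (nat_lit 0) (XT.lf (nat_lit 0) (nat_lit 5250090348) (nat_lit 228) (nat_lit 2957035095) (nat_lit 76) (nat_lit 9810395110) (nat_lit 26) (nat_lit 5) (nat_lit 29) (nat_lit 5) (nat_lit 27) (nat_lit 4) (nat_lit 504) (nat_lit 334) (nat_lit 302)) (XT.nd (nat_lit 78) (nat_lit 0) (nat_lit 0) (XT.lf (nat_lit 0) (nat_lit 4059530267) (nat_lit 152) (nat_lit 4812937603) (nat_lit 228) (nat_lit 9422192086) (nat_lit 24) (nat_lit 5) (nat_lit 26) (nat_lit 5) (nat_lit 27) (nat_lit 4) (nat_lit 505) (nat_lit 334) (nat_lit 301)) (XT.lf (nat_lit 0) (nat_lit 11185055748) (nat_lit 152) (nat_lit 1360812056) (nat_lit 228) (nat_lit 6031918242) (nat_lit 24) (nat_lit 5) (nat_lit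 26) (nat_lit 5) (nat_lit 27) (nat_lit 4) (nat_lit 506) (nat_lit 334) (nat_lit 300)))) (XT.nd (nat_lit 78) (nat_lit 228) (nat_lit 0) (XT.lf (nat_lit 0) (nat_lit 16266110837) (nat_lit 228) (nat_lit 498195023) (nat_lit 0) (nat_lit 2102816387) (nat_lit 24) (nat_lit 5) (nat_lit 27) (nat_lit 4) (nat_lit 24) (nat_lit 4) (nat_lit 507) (nat_lit 334) (nat_lit 299)) (XT.nd (nat_lit 78) (nat_lit 0) (nat_lit 0) (XT.lf (nat_lit 0) (nat_lit 898422690) (nat_lit 228) (nat_lit 12626222947) (nat_lit 76) (nat_lit 5637263500) (nat_lit 21) (nat_lit 5) (nat_lit 24) (nat_lit 5) (nat_lit 22) (nat_lit 4) (nat_lit 508) (nat_lit 334) (nat_lit 298)) (XT.lf (nat_lit 0) (nat_lit 4396619939) (nat_lit 228) (nat_lit 5832160907) (nat_lit 76) (nat_lit 9234209247) (nat_lit 21) (nat_lit 5) (nat_lit 24) (nat_lit 5) (nat_lit 22) (nat_lit 4) (nat_lit 509) (nat_lit 334) (nat_lit 297))))) (XT.nd (nat_lit 234) (nat_lit 304) (nat_lit 0) (XT.nd (nat_lit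 78) (nat_lit 0) (nat_lit 0) (XT.lf (nat_lit 0) (nat_lit 1043440999) (nat_lit 76) (nat_lit 6889099318) (nat_lit 152) (nat_lit 11838211111) (nat_lit 20) (nat_lit 5) (nat_lit 21) (nat_lit 5) (nat_lit 22) (nat_lit 4) (nat_lit 510) (nat_lit 334) (nat_lit 296)) (XT.nd (nat_lit 78) (nat_lit 0) (nat_lit 0) (XT.lf (nat_lit 0) (nat_lit 8068032671) (nat_lit 76) (nat_lit 3471594020) (nat_lit 152) (nat_lit 8545046018) (nat_lit 20) (nat_lit 5) (nat_lit 21) (nat_lit 5) (nat_lit 22) (nat_lit 4) (nat_lit 511) (nat_lit 334) (nat_lit 295)) (XT.lf (nat_lit 0) (nat_lit 15166862500) (nat_lit 76) (nat_lit 14061622) (nat_lit 152) (nat_lit 5224720307) (nat_lit 20) (nat_lit 5) (nat_lit 21) (nat_lit 5) (nat_lit 22) (nat_lit 4) (nat_lit 512) (nat_lit 334) (nat_lit 294)))) (XT.nd (nat_lit 156) (nat_lit 76) (nat_lit 0) (XT.nd (nat_lit 78) (nat_lit 76) (nat_lit 0) (XT.lf (nat_lit 0) (nat_lit 1607376934) (nat_lit 152) (nat_lit 17283545778)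 (nat_lit 152) (nat_lit 1842208507) (nat_lit 18) (nat_lit 4) (nat_lit 20) (nat_lit 5) (nat_lit 20) (nat_lit 4) (nat_lit 513) (nat_lit 334) (nat_lit 293)) (XT.lf (nat_lit 0) (nat_lit 1585030527) (nat_lit 228) (nat_lit 12481367019) (nat_lit 76) (nat_lit 7000610718) (nat_lit 17) (nat_lit 5) (nat_lit 20) (nat_lit 5) (nat_lit 18) (nat_lit 4) (nat_lit 514) (nat_lit 334) (nat_lit 292))) (XT.nd (nat_lit 78) (nat_lit 76) (nat_lit 0) (XT.lf (nat_lit 0) (nat_lit 5019586578) (nat_lit 228) (nat_lit 5780614201) (nat_lit 76) (nat_lit 10607862123) (nat_lit 17) (nat_lit 5) (nat_lit 20) (nat_lit 5) (nat_lit 18) (nat_lit 4) (nat_lit 515) (nat_lit 334) (nat_lit 291)) (XT.lf (nat_lit 0) (nat_lit 1004263856) (nat_lit 76) (nat_lit 7489223918) (nat_lit 152) (nat_lit 13263049917) (nat_lit 16) (nat_lit 5) (nat_lit 17) (nat_lit 5) (nat_lit 18) (nat_lit 4) (nat_lit 516) (nat_lit 334) (nat_lit 290)))))) (XT.nd (nat_lit 546) (nat_lit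 228) (nat_lit 0) (XT.nd (nat_lit 234) (nat_lit 304) (nat_lit 0) (XT.nd (nat_lit 78) (nat_lit 0) (nat_lit 0) (XT.lf (nat_lit 0) (nat_lit 7940551179) (nat_lit 76) (nat_lit 4099536978) (nat_lit 152) (nat_lit 10071841297) (nat_lit 16) (nat_lit 5) (nat_lit 17) (nat_lit 5) (nat_lit 18) (nat_lit 4) (nat_lit 517) (nat_lit 334) (nat_lit 289)) (XT.nd (nat_lit 78) (nat_lit 0) (nat_lit 0) (XT.lf (nat_lit 0) (nat_lit 14954146558) (nat_lit 76) (nat_lit 668601634) (nat_lit 152) (nat_lit 6852389974) (nat_lit 16) (nat_lit 5) (nat_lit 17) (nat_lit 5) (nat_lit 18) (nat_lit 4) (nat_lit 518) (nat_lit 334) (nat_lit 288)) (XT.lf (nat_lit 0) (nat_lit 19261084295) (nat_lit 152) (nat_lit 816717289) (nat_lit 0) (nat_lit 2768140448) (nat_lit 16) (nat_lit 5) (nat_lit 18) (nat_lit 4) (nat_lit 16) (nat_lit 4) (nat_lit 519) (nat_lit 334) (nat_lit 287)))) (XT.nd (nat_lit 156) (nat_lit 76) (nat_lit 0) (XT.nd (nat_lit 78) (nat_lit 76)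 (nat_lit 0) (XT.lf (nat_lit 0) (nat_lit 6036840249) (nat_lit 152) (nat_lit 16945285991) (nat_lit 152) (nat_lit 241848168) (nat_lit 14) (nat_lit 4) (nat_lit 16) (nat_lit 5) (nat_lit 16) (nat_lit 4) (nat_lit 520) (nat_lit 334) (nat_lit 286)) (XT.lf (nat_lit 0) (nat_lit 3098349732) (nat_lit 228) (nat_lit 10651138007) (nat_lit 76) (nat_lit 9860241546) (nat_lit 13) (nat_lit 5) (nat_lit 16) (nat_lit 5) (nat_lit 14) (nat_lit 4) (nat_lit 521) (nat_lit 334) (nat_lit 285))) (XT.nd (nat_lit 78) (nat_lit 76) (nat_lit 0) (XT.lf (nat_lit 0) (nat_lit 6469136285) (nat_lit 228) (nat_lit 4044469408) (nat_lit 76) (nat_lit 13490231701) (nat_lit 13) (nat_lit 5) (nat_lit 16) (nat_lit 5) (nat_lit 14) (nat_lit 4) (nat_lit 522) (nat_lit 334) (nat_lit 284)) (XT.lf (nat_lit 0) (nat_lit 2672077502) (nat_lit 76) (nat_lit 7220276647) (nat_lit 152) (nat_lit 14513783565) (nat_lit 12) (nat_lit 5) (nat_lit 13) (nat_lit 5) (nat_lit 14)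 (nat_lit 4) (nat_lit 523) (nat_lit 334) (nat_lit 283))))) (XT.nd (nat_lit 234) (nat_lit 228) (nat_lit 0) (XT.nd (nat_lit 78) (nat_lit 0) (nat_lit 0) (XT.lf (nat_lit 0) (nat_lit 9520856334) (nat_lit 76) (nat_lit 3858251642) (nat_lit 152) (nat_lit 11437484789) (nat_lit 12) (nat_lit 5) (nat_lit 13) (nat_lit 5) (nat_lit 14) (nat_lit 4) (nat_lit 524) (nat_lit 334) (nat_lit 282)) (XT.nd (nat_lit 78) (nat_lit 0) (nat_lit 0) (XT.lf (nat_lit 0) (nat_lit 16450804013) (nat_lit 76) (nat_lit 453352754) (nat_lit 152) (nat_lit 8331738910) (nat_lit 12) (nat_lit 5) (nat_lit 13) (nat_lit 5) (nat_lit 14) (nat_lit 4) (nat_lit 525) (nat_lit 334) (nat_lit 281)) (XT.lf (nat_lit 0) (nat_lit 20488333327) (nat_lit 152) (nat_lit 2219023148) (nat_lit 0) (nat_lit 2956465399) (nat_lit 12) (nat_lit 5) (nat_lit 14) (nat_lit 4) (nat_lit 12) (nat_lit 4) (nat_lit 526) (nat_lit 334) (nat_lit 280)))) (XT.nd (nat_lit 156) (nat_lit 0) (nat_lit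 0) (XT.nd (nat_lit 78) (nat_lit 76) (nat_lit 0) (XT.lf (nat_lit 0) (nat_lit 4480019076) (nat_lit 152) (nat_lit 19665892617) (nat_lit 152) (nat_lit 1954370107) (nat_lit 10) (nat_lit 4) (nat_lit 12) (nat_lit 5) (nat_lit 12) (nat_lit 4) (nat_lit 527) (nat_lit 334) (nat_lit 279)) (XT.lf (nat_lit 0) (nat_lit 1298368073) (nat_lit 228) (nat_lit 15264950944) (nat_lit 76) (nat_lit 9982295132) (nat_lit 9) (nat_lit 5) (nat_lit 12) (nat_lit 5) (nat_lit 10) (nat_lit 4) (nat_lit 528) (nat_lit 334) (nat_lit 278))) (XT.nd (nat_lit 78) (nat_lit 0) (nat_lit 0) (XT.lf (nat_lit 0) (nat_lit 4560277726) (nat_lit 228) (nat_lit 8848571821) (nat_lit 76) (nat_lit 13591348535) (nat_lit 9) (nat_lit 5) (nat_lit 12) (nat_lit 5) (nat_lit 10) (nat_lit 4) (nat_lit 529) (nat_lit 334) (nat_lit 277)) (XT.lf (nat_lit 0) (nat_lit 7858269946) (nat_lit 228) (nat_lit 2355920062) (nat_lit 76) (nat_lit 17250275640) (nat_lit 9) (nat_lit 5) (nat_lit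 12) (nat_lit 5) (nat_lit 10) (nat_lit 4) (nat_lit 530) (nat_lit 334) (nat_lit 276))))))))
noncomputable def xc17 : XT := (XT.nd (nat_lit 2106) (nat_lit 1672) (nat_lit 0) (XT.nd (nat_lit 1014) (nat_lit 1596) (nat_lit 0) (XT.nd (nat_lit 468) (nat_lit 1140) (nat_lit 0) (XT.nd (nat_lit 234) (nat_lit 608) (nat_lit 0) (XT.nd (nat_lit 78) (nat_lit 304) (nat_lit 0) (XT.lf (nat_lit 0) (nat_lit 1654477478) (nat_lit 304) (nat_lit 2381834307) (nat_lit 0) (nat_lit 1654477478) (nat_lit 82) (nat_lit 5) (nat_lit 86) (nat_lit 4) (nat_lit 82) (nat_lit 4) (nat_lit 470) (nat_lit 335) (nat_lit 335)) (XT.nd (nat_lit 78) (nat_lit 0) (nat_lit 0) (XT.lf (nat_lit 0) (nat_lit 2299497634) (nat_lit 304) (nat_lit 4946432389) (nat_lit 304) (nat_lit 4269337077) (nat_lit 78) (nat_lit 4) (nat_lit 82) (nat_lit 5) (nat_lit 82) (nat_lit 4) (nat_lit 471) (nat_lit 335) (nat_lit 334)) (XT.lf (nat_lit 0) (nat_lit 9474392113) (nat_lit 304) (nat_lit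 1759372272) (nat_lit 304) (nat_lit 418458028) (nat_lit 78) (nat_lit 4) (nat_lit 82) (nat_lit 5) (nat_lit 82) (nat_lit 4) (nat_lit 472) (nat_lit 335) (nat_lit 333)))) (XT.nd (nat_lit 78) (nat_lit 304) (nat_lit 0) (XT.lf (nat_lit 0) (nat_lit 3446280022) (nat_lit 304) (nat_lit 6851941546) (nat_lit 0) (nat_lit 1493616179) (nat_lit 74) (nat_lit 5) (nat_lit 78) (nat_lit 4) (nat_lit 74) (nat_lit 4) (nat_lit 473) (nat_lit 335) (nat_lit 332)) (XT.nd (nat_lit 78) (nat_lit 0) (nat_lit 0) (XT.lf (nat_lit 0) (nat_lit 190065067) (nat_lit 304) (nat_lit 7161488349) (nat_lit 304) (nat_lit 4583293099) (nat_lit 70) (nat_lit 4) (nat_lit 74) (nat_lit 5) (nat_lit 74) (nat_lit 4) (nat_lit 474) (nat_lit 335) (nat_lit 331)) (XT.lf (nat_lit 0) (nat_lit 7372953143) (nat_lit 304) (nat_lit 3949750448) (nat_lit 304) (nat_lit 758289114) (nat_lit 70) (nat_lit 4) (nat_lit 74) (nat_lit 5) (nat_lit 74) (nat_lit 4) (nat_lit 475) (nat_lit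 335) (nat_lit 330))))) (XT.nd (nat_lit 234) (nat_lit 608) (nat_lit 0) (XT.nd (nat_lit 78) (nat_lit 228) (nat_lit 0) (XT.lf (nat_lit 0) (nat_lit 2388542062) (nat_lit 228) (nat_lit 671480044) (nat_lit 304) (nat_lit 9170502339) (nat_lit 66) (nat_lit 5) (nat_lit 69) (nat_lit 5) (nat_lit 70) (nat_lit 4) (nat_lit 476) (nat_lit 335) (nat_lit 329)) (XT.nd (nat_lit 78) (nat_lit 228) (nat_lit 0) (XT.lf (nat_lit 0) (nat_lit 6936544220) (nat_lit 304) (nat_lit 2806279164) (nat_lit 0) (nat_lit 2640314015) (nat_lit 66) (nat_lit 5) (nat_lit 70) (nat_lit 4) (nat_lit 66) (nat_lit 4) (nat_lit 477) (nat_lit 335) (nat_lit 328)) (XT.lf (nat_lit 0) (nat_lit 4332158733) (nat_lit 228) (nat_lit 6534968364) (nat_lit 228) (nat_lit 1672175091) (nat_lit 63) (nat_lit 4) (nat_lit 66) (nat_lit 5) (nat_lit 66) (nat_lit 4) (nat_lit 478) (nat_lit 335) (nat_lit 327)))) (XT.nd (nat_lit 156) (nat_lit 304) (nat_lit 0) (XT.nd (nat_lit 78) (nat_lit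 228) (nat_lit 0) (XT.lf (nat_lit 0) (nat_lit 2112201740) (nat_lit 304) (nat_lit 1151599744) (nat_lit 76) (nat_lit 9435274380) (nat_lit 62) (nat_lit 5) (nat_lit 66) (nat_lit 5) (nat_lit 63) (nat_lit 4) (nat_lit 479) (nat_lit 335) (nat_lit 326)) (XT.lf (nat_lit 0) (nat_lit 5934766619) (nat_lit 304) (nat_lit 6838513489) (nat_lit 0) (nat_lit 88874469) (nat_lit 59) (nat_lit 5) (nat_lit 63) (nat_lit 4) (nat_lit 59) (nat_lit 4) (nat_lit 480) (nat_lit 335) (nat_lit 325))) (XT.nd (nat_lit 78) (nat_lit 76) (nat_lit 0) (XT.lf (nat_lit 0) (nat_lit 221837272) (nat_lit 228) (nat_lit 9588234275) (nat_lit 228) (nat_lit 3218925426) (nat_lit 56) (nat_lit 4) (nat_lit 59) (nat_lit 5) (nat_lit 59) (nat_lit 4) (nat_lit 481) (nat_lit 335) (nat_lit 324)) (XT.lf (nat_lit 0) (nat_lit 548072150) (nat_lit 304) (nat_lit 5775356729) (nat_lit 76) (nat_lit 6875865763) (nat_lit 55) (nat_lit 5) (nat_lit 59) (nat_lit 5) (nat_lit 56) (nat_lit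 4) (nat_lit 482) (nat_lit 335) (nat_lit 323)))))) (XT.nd (nat_lit 546) (nat_lit 684) (nat_lit 0) (XT.nd (nat_lit 234) (nat_lit 456) (nat_lit 0) (XT.nd (nat_lit 78) (nat_lit 228) (nat_lit 0) (XT.lf (nat_lit 0) (nat_lit 1305407780) (nat_lit 228) (nat_lit 2997048677) (nat_lit 304) (nat_lit 9071039579) (nat_lit 52) (nat_lit 5) (nat_lit 55) (nat_lit 5) (nat_lit 56) (nat_lit 4) (nat_lit 483) (nat_lit 335) (nat_lit 322)) (XT.nd (nat_lit 78) (nat_lit 228) (nat_lit 0) (XT.lf (nat_lit 0) (nat_lit 8120404639) (nat_lit 304) (nat_lit 5034924014) (nat_lit 0) (nat_lit 396109041) (nat_lit 52) (nat_lit 5) (nat_lit 56) (nat_lit 4) (nat_lit 52) (nat_lit 4) (nat_lit 484) (nat_lit 335) (nat_lit 321)) (XT.lf (nat_lit 0) (nat_lit 2060029148) (nat_lit 228) (nat_lit 9935840681) (nat_lit 228) (nat_lit 1737470453) (nat_lit 49) (nat_lit 4) (nat_lit 52) (nat_lit 5) (nat_lit 52) (nat_lit 4) (nat_lit 485) (nat_lit 335) (nat_lit 320))))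 (XT.nd (nat_lit 156) (nat_lit 228) (nat_lit 0) (XT.nd (nat_lit 78) (nat_lit 152) (nat_lit 0) (XT.lf (nat_lit 0) (nat_lit 1985385527) (nat_lit 304) (nat_lit 4652670510) (nat_lit 76) (nat_lit 7280944653) (nat_lit 48) (nat_lit 5) (nat_lit 52) (nat_lit 5) (nat_lit 49) (nat_lit 4) (nat_lit 486) (nat_lit 335) (nat_lit 319)) (XT.lf (nat_lit 0) (nat_lit 2444432933) (nat_lit 152) (nat_lit 3279947237) (nat_lit 228) (nat_lit 8384489317) (nat_lit 46) (nat_lit 5) (nat_lit 48) (nat_lit 5) (nat_lit 49) (nat_lit 4) (nat_lit 487) (nat_lit 335) (nat_lit 318))) (XT.nd (nat_lit 78) (nat_lit 228) (nat_lit 0) (XT.lf (nat_lit 0) (nat_lit 9519817225) (nat_lit 228) (nat_lit 4641277688) (nat_lit 0) (nat_lit 141830829) (nat_lit 46) (nat_lit 5) (nat_lit 49) (nat_lit 4) (nat_lit 46) (nat_lit 4) (nat_lit 488) (nat_lit 335) (nat_lit 317)) (XT.lf (nat_lit 0) (nat_lit 2449649682) (nat_lit 228) (nat_lit 10929424245) (nat_lit 228) (nat_lit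 1122053851) (nat_lit 43) (nat_lit 4) (nat_lit 46) (nat_lit 5) (nat_lit 46) (nat_lit 4) (nat_lit 489) (nat_lit 335) (nat_lit 316))))) (XT.nd (nat_lit 234) (nat_lit 456) (nat_lit 0) (XT.nd (nat_lit 78) (nat_lit 152) (nat_lit 0) (XT.lf (nat_lit 0) (nat_lit 2559688825) (nat_lit 304) (nat_lit 5057763671) (nat_lit 76) (nat_lit 7085889609) (nat_lit 42) (nat_lit 5) (nat_lit 46) (nat_lit 5) (nat_lit 43) (nat_lit 4) (nat_lit 490) (nat_lit 335) (nat_lit 315)) (XT.nd (nat_lit 78) (nat_lit 0) (nat_lit 0) (XT.lf (nat_lit 0) (nat_lit 2013194170) (nat_lit 152) (nat_lit 4251280960) (nat_lit 228) (nat_lit 8645710147) (nat_lit 40) (nat_lit 5) (nat_lit 42) (nat_lit 5) (nat_lit 43) (nat_lit 4) (nat_lit 491) (nat_lit 335) (nat_lit 314)) (XT.lf (nat_lit 0) (nat_lit 9213063895) (nat_lit 152) (nat_lit 816009184) (nat_lit 228) (nat_lit 5092399047) (nat_lit 40) (nat_lit 5) (nat_lit 42) (nat_lit 5) (nat_lit 43) (nat_lit 4) (nat_lit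 492) (nat_lit 335) (nat_lit 313)))) (XT.nd (nat_lit 156) (nat_lit 152) (nat_lit 0) (XT.nd (nat_lit 78) (nat_lit 76) (nat_lit 0) (XT.lf (nat_lit 0) (nat_lit 1137174181) (nat_lit 228) (nat_lit 12709136350) (nat_lit 228) (nat_lit 1491147950) (nat_lit 37) (nat_lit 4) (nat_lit 40) (nat_lit 5) (nat_lit 40) (nat_lit 4) (nat_lit 493) (nat_lit 335) (nat_lit 312)) (XT.lf (nat_lit 0) (nat_lit 2151418317) (nat_lit 304) (nat_lit 7253404101) (nat_lit 76) (nat_lit 6152720519) (nat_lit 36) (nat_lit 5) (nat_lit 40) (nat_lit 5) (nat_lit 37) (nat_lit 4) (nat_lit 494) (nat_lit 335) (nat_lit 311))) (XT.nd (nat_lit 78) (nat_lit 152) (nat_lit 0) (XT.lf (nat_lit 0) (nat_lit 5800411647) (nat_lit 304) (nat_lit 256242185) (nat_lit 76) (nat_lit 9726126800) (nat_lit 36) (nat_lit 5) (nat_lit 40) (nat_lit 5) (nat_lit 37) (nat_lit 4) (nat_lit 495) (nat_lit 335) (nat_lit 310)) (XT.lf (nat_lit 0) (nat_lit 6894043575) (nat_lit 152) (nat_lit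 2627536819) (nat_lit 228) (nat_lit 6490977918) (nat_lit 34) (nat_lit 5) (nat_lit 36) (nat_lit 5) (nat_lit 37) (nat_lit 4) (nat_lit 496) (nat_lit 335) (nat_lit 309))))))) (XT.nd (nat_lit 1092) (nat_lit 684) (nat_lit 0) (XT.nd (nat_lit 546) (nat_lit 380) (nat_lit 0) (XT.nd (nat_lit 234) (nat_lit 380) (nat_lit 0) (XT.nd (nat_lit 78) (nat_lit 228) (nat_lit 0) (XT.lf (nat_lit 0) (nat_lit 13279178314) (nat_lit 228) (nat_lit 2139194885) (nat_lit 0) (nat_lit 829336996) (nat_lit 34) (nat_lit 5) (nat_lit 37) (nat_lit 4) (nat_lit 34) (nat_lit 4) (nat_lit 497) (nat_lit 335) (nat_lit 308)) (XT.nd (nat_lit 78) (nat_lit 0) (nat_lit 0) (XT.lf (nat_lit 0) (nat_lit 621252902) (nat_lit 228) (nat_lit 11540248133) (nat_lit 76) (nat_lit 4325899473) (nat_lit 31) (nat_lit 5) (nat_lit 34) (nat_lit 5) (nat_lit 32) (nat_lit 4) (nat_lit 498) (nat_lit 335) (nat_lit 307)) (XT.lf (nat_lit 0) (nat_lit 4213159670) (nat_lit 228) (nat_lit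 4623162815) (nat_lit 76) (nat_lit 7895785887) (nat_lit 31) (nat_lit 5) (nat_lit 34) (nat_lit 5) (nat_lit 32) (nat_lit 4) (nat_lit 499) (nat_lit 335) (nat_lit 306)))) (XT.nd (nat_lit 156) (nat_lit 228) (nat_lit 0) (XT.nd (nat_lit 78) (nat_lit 0) (nat_lit 0) (XT.lf (nat_lit 0) (nat_lit 2389052949) (nat_lit 152) (nat_lit 5459821355) (nat_lit 228) (nat_lit 9133414031) (nat_lit 29) (nat_lit 5) (nat_lit 31) (nat_lit 5) (nat_lit 32) (nat_lit 4) (nat_lit 500) (nat_lit 335) (nat_lit 305)) (XT.lf (nat_lit 0) (nat_lit 9530127519) (nat_lit 152) (nat_lit 2015030933) (nat_lit 228) (nat_lit 5692573338) (nat_lit 29) (nat_lit 5) (nat_lit 31) (nat_lit 5) (nat_lit 32) (nat_lit 4) (nat_lit 501) (nat_lit 335) (nat_lit 304))) (XT.nd (nat_lit 78) (nat_lit 228) (nat_lit 0) (XT.lf (nat_lit 0) (nat_lit 15282579762) (nat_lit 228) (nat_lit 767258976) (nat_lit 0) (nat_lit 1449117810) (nat_lit 29) (nat_lit 5) (nat_lit 32) (nat_lit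 4) (nat_lit 29) (nat_lit 4) (nat_lit 502) (nat_lit 335) (nat_lit 303)) (XT.lf (nat_lit 0) (nat_lit 1324601335) (nat_lit 228) (nat_lit 11464417230) (nat_lit 76) (nat_lit 4975976787) (nat_lit 26) (nat_lit 5) (nat_lit 29) (nat_lit 5) (nat_lit 27) (nat_lit 4) (nat_lit 503) (nat_lit 335) (nat_lit 302))))) (XT.nd (nat_lit 234) (nat_lit 228) (nat_lit 0) (XT.nd (nat_lit 78) (nat_lit 152) (nat_lit 0) (XT.lf (nat_lit 0) (nat_lit 4870311725) (nat_lit 228) (nat_lit 4602719476) (nat_lit 76) (nat_lit 8563774632) (nat_lit 26) (nat_lit 5) (nat_lit 29) (nat_lit 5) (nat_lit 27) (nat_lit 4) (nat_lit 504) (nat_lit 335) (nat_lit 301)) (XT.nd (nat_lit 78) (nat_lit 0) (nat_lit 0) (XT.lf (nat_lit 0) (nat_lit 2356602054) (nat_lit 152) (nat_lit 6104830420) (nat_lit 228) (nat_lit 9853145518) (nat_lit 24) (nat_lit 5) (nat_lit 26) (nat_lit 5) (nat_lit 27) (nat_lit 4) (nat_lit 505) (nat_lit 335) (nat_lit 300)) (XT.lf (nat_lit 0) (nat_lit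 9447447579) (nat_lit 152) (nat_lit 2667355512) (nat_lit 228) (nat_lit 6483309047) (nat_lit 24) (nat_lit 5) (nat_lit 26) (nat_lit 5) (nat_lit 27) (nat_lit 4) (nat_lit 506) (nat_lit 335) (nat_lit 299)))) (XT.nd (nat_lit 156) (nat_lit 0) (nat_lit 0) (XT.nd (nat_lit 78) (nat_lit 228) (nat_lit 0) (XT.lf (nat_lit 0) (nat_lit 15806833338) (nat_lit 228) (nat_lit 2281953093) (nat_lit 0) (nat_lit 799233489) (nat_lit 24) (nat_lit 5) (nat_lit 27) (nat_lit 4) (nat_lit 24) (nat_lit 4) (nat_lit 507) (nat_lit 335) (nat_lit 298)) (XT.lf (nat_lit 0) (nat_lit 393031224) (nat_lit 228) (nat_lit 14485973179) (nat_lit 76) (nat_lit 4304502078) (nat_lit 21) (nat_lit 5) (nat_lit 24) (nat_lit 5) (nat_lit 22) (nat_lit 4) (nat_lit 508) (nat_lit 335) (nat_lit 297))) (XT.nd (nat_lit 78) (nat_lit 0) (nat_lit 0) (XT.lf (nat_lit 0) (nat_lit 3871913856) (nat_lit 228) (nat_lit 7725587520) (nat_lit 76) (nat_lit 7887479256) (nat_lit 21) (nat_lit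 5) (nat_lit 24) (nat_lit 5) (nat_lit 22) (nat_lit 4) (nat_lit 509) (nat_lit 335) (nat_lit 296)) (XT.lf (nat_lit 0) (nat_lit 7382123625) (nat_lit 228) (nat_lit 896686590) (nat_lit 76) (nat_lit 11514452732) (nat_lit 21) (nat_lit 5) (nat_lit 24) (nat_lit 5) (nat_lit 22) (nat_lit 4) (nat_lit 510) (nat_lit 335) (nat_lit 295)))))) (XT.nd (nat_lit 546) (nat_lit 304) (nat_lit 0) (XT.nd (nat_lit 234) (nat_lit 304) (nat_lit 0) (XT.nd (nat_lit 78) (nat_lit 0) (nat_lit 0) (XT.lf (nat_lit 0) (nat_lit 6083189739) (nat_lit 76) (nat_lit 4881343446) (nat_lit 152) (nat_lit 9143151213) (nat_lit 20) (nat_lit 5) (nat_lit 21) (nat_lit 5) (nat_lit 22) (nat_lit 4) (nat_lit 511) (nat_lit 335) (nat_lit 294)) (XT.nd (nat_lit 78) (nat_lit 0) (nat_lit 0) (XT.lf (nat_lit 0) (nat_lit 13149863834) (nat_lit 76) (nat_lit 1437557412) (nat_lit 152) (nat_lit 5841609565) (nat_lit 20) (nat_lit 5) (nat_lit 21) (nat_lit 5) (nat_lit 22) (nat_lit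 4) (nat_lit 512) (nat_lit 335) (nat_lit 293)) (XT.lf (nat_lit 0) (nat_lit 18259605495) (nat_lit 152) (nat_lit 476651946) (nat_lit 0) (nat_lit 2021022823) (nat_lit 20) (nat_lit 5) (nat_lit 22) (nat_lit 4) (nat_lit 20) (nat_lit 4) (nat_lit 513) (nat_lit 335) (nat_lit 292)))) (XT.nd (nat_lit 156) (nat_lit 76) (nat_lit 0) (XT.nd (nat_lit 78) (nat_lit 0) (nat_lit 0) (XT.lf (nat_lit 0) (nat_lit 916893469) (nat_lit 228) (nat_lit 14623508269) (nat_lit 76) (nat_lit 5551272161) (nat_lit 17) (nat_lit 5) (nat_lit 20) (nat_lit 5) (nat_lit 18) (nat_lit 4) (nat_lit 514) (nat_lit 335) (nat_lit 291)) (XT.lf (nat_lit 0) (nat_lit 4333693915) (nat_lit 228) (nat_lit 7953973727) (nat_lit 76) (nat_lit 9145422017) (nat_lit 17) (nat_lit 5) (nat_lit 20) (nat_lit 5) (nat_lit 18) (nat_lit 4) (nat_lit 515) (nat_lit 335) (nat_lit 290))) (XT.nd (nat_lit 78) (nat_lit 76) (nat_lit 0) (XT.lf (nat_lit 0) (nat_lit 7783667308) (nat_lit 228)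 (nat_lit 1212872923) (nat_lit 76) (nat_lit 12785508665) (nat_lit 17) (nat_lit 5) (nat_lit 20) (nat_lit 5) (nat_lit 18) (nat_lit 4) (nat_lit 516) (nat_lit 335) (nat_lit 289)) (XT.lf (nat_lit 0) (nat_lit 5676891158) (nat_lit 76) (nat_lit 5628133562) (nat_lit 152) (nat_lit 10832926573) (nat_lit 16) (nat_lit 5) (nat_lit 17) (nat_lit 5) (nat_lit 18) (nat_lit 4) (nat_lit 517) (nat_lit 335) (nat_lit 288))))) (XT.nd (nat_lit 234) (nat_lit 152) (nat_lit 0) (XT.nd (nat_lit 78) (nat_lit 152) (nat_lit 0) (XT.lf (nat_lit 0) (nat_lit 12660677913) (nat_lit 76) (nat_lit 2210081801) (nat_lit 152) (nat_lit 7630744454) (nat_lit 16) (nat_lit 5) (nat_lit 17) (nat_lit 5) (nat_lit 18) (nat_lit 4) (nat_lit 518) (nat_lit 335) (nat_lit 287)) (XT.nd (nat_lit 78) (nat_lit 152) (nat_lit 0) (XT.lf (nat_lit 0) (nat_lit 18482412320) (nat_lit 152) (nat_lit 3156023173) (nat_lit 0) (nat_lit 1234411763) (nat_lit 16) (nat_lit 5) (nat_lit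 18) (nat_lit 4) (nat_lit 16) (nat_lit 4) (nat_lit 519) (nat_lit 335) (nat_lit 286)) (XT.lf (nat_lit 0) (nat_lit 3637160617) (nat_lit 152) (nat_lit 18534365114) (nat_lit 152) (nat_lit 1079997914) (nat_lit 14) (nat_lit 4) (nat_lit 16) (nat_lit 5) (nat_lit 16) (nat_lit 4) (nat_lit 520) (nat_lit 335) (nat_lit 285)))) (XT.nd (nat_lit 156) (nat_lit 76) (nat_lit 0) (XT.nd (nat_lit 78) (nat_lit 0) (nat_lit 0) (XT.lf (nat_lit 0) (nat_lit 2254865745) (nat_lit 228) (nat_lit 13101858633) (nat_lit 76) (nat_lit 8280994747) (nat_lit 13) (nat_lit 5) (nat_lit 16) (nat_lit 5) (nat_lit 14) (nat_lit 4) (nat_lit 521) (nat_lit 335) (nat_lit 284)) (XT.lf (nat_lit 0) (nat_lit 5609645704) (nat_lit 228) (nat_lit 6523556290) (nat_lit 76) (nat_lit 11898950501) (nat_lit 13) (nat_lit 5) (nat_lit 16) (nat_lit 5) (nat_lit 14) (nat_lit 4) (nat_lit 522) (nat_lit 335) (nat_lit 283))) (XT.nd (nat_lit 78) (nat_lit 0) (nat_lit 0) (XT.lf (nat_lit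 0) (nat_lit 131865224) (nat_lit 76) (nat_lit 8868812862) (nat_lit 152) (nat_lit 15434423466) (nat_lit 12) (nat_lit 5) (nat_lit 13) (nat_lit 5) (nat_lit 14) (nat_lit 4) (nat_lit 523) (nat_lit 335) (nat_lit 282)) (XT.lf (nat_lit 0) (nat_lit 6953016962) (nat_lit 76) (nat_lit 5518850539) (nat_lit 152) (nat_lit 12374005320) (nat_lit 12) (nat_lit 5) (nat_lit 13) (nat_lit 5) (nat_lit 14) (nat_lit 4) (nat_lit 524) (nat_lit 335) (nat_lit 281))))))))
noncomputable def xc18 : XT := (XT.nd (nat_lit 56550) (nat_lit 0) (nat_lit 608) (XT.nd (nat_lit 55458) (nat_lit 0) (nat_lit 2812) (XT.nd (nat_lit 54912) (nat_lit 0) (nat_lit 4940) (XT.nd (nat_lit 234) (nat_lit 76) (nat_lit 0) (XT.nd (nat_lit 78) (nat_lit 152) (nat_lit 0) (XT.lf (nat_lit 0) (nat_lit 13855879255) (nat_lit 76) (nat_lit 2125777811) (nat_lit 152) (nat_lit 9283828685) (nat_lit 12) (nat_lit 5) (nat_lit 13) (nat_lit 5) (nat_lit 14) (nat_lit 4) (nat_lit 525)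 (nat_lit 335) (nat_lit 280)) (XT.nd (nat_lit 78) (nat_lit 152) (nat_lit 0) (XT.lf (nat_lit 0) (nat_lit 19539939828) (nat_lit 152) (nat_lit 4859462448) (nat_lit 0) (nat_lit 1294532286) (nat_lit 12) (nat_lit 5) (nat_lit 14) (nat_lit 4) (nat_lit 12) (nat_lit 4) (nat_lit 526) (nat_lit 335) (nat_lit 279)) (XT.lf (nat_lit 0) (nat_lit 1777882970) (nat_lit 152) (nat_lit 21387350669) (nat_lit 152) (nat_lit 2965811184) (nat_lit 10) (nat_lit 4) (nat_lit 12) (nat_lit 5) (nat_lit 12) (nat_lit 4) (nat_lit 527) (nat_lit 335) (nat_lit 278)))) (XT.nd (nat_lit 78) (nat_lit 0) (nat_lit 0) (XT.lf (nat_lit 0) (nat_lit 285470080) (nat_lit 228) (nat_lit 18017568298) (nat_lit 76) (nat_lit 8273769042) (nat_lit 9) (nat_lit 5) (nat_lit 12) (nat_lit 5) (nat_lit 10) (nat_lit 4) (nat_lit 528) (nat_lit 335) (nat_lit 277)) (XT.nd (nat_lit 78) (nat_lit 0) (nat_lit 0) (XT.lf (nat_lit 0) (nat_lit 3532946254) (nat_lit 228) (nat_lit 11626958951)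 (nat_lit 76) (nat_lit 11871779194) (nat_lit 9) (nat_lit 5) (nat_lit 12) (nat_lit 5) (nat_lit 10) (nat_lit 4) (nat_lit 529) (nat_lit 335) (nat_lit 276)) (XT.lf (nat_lit 0) (nat_lit 6816788006) (nat_lit 228) (nat_lit 5159571677) (nat_lit 76) (nat_lit 15519879583) (nat_lit 9) (nat_lit 5) (nat_lit 12) (nat_lit 5) (nat_lit 10) (nat_lit 4) (nat_lit 530) (nat_lit 335) (nat_lit 275))))) (XT.nd (nat_lit 234) (nat_lit 608) (nat_lit 0) (XT.nd (nat_lit 78) (nat_lit 304) (nat_lit 0) (XT.lf (nat_lit 0) (nat_lit 1823487142) (nat_lit 304) (nat_lit 1868882863) (nat_lit 304) (nat_lit 1868882863) (nat_lit 86) (nat_lit 4) (nat_lit 90) (nat_lit 5) (nat_lit 90) (nat_lit 4) (nat_lit 468) (nat_lit 336) (nat_lit 336)) (XT.nd (nat_lit 78) (nat_lit 228) (nat_lit 0) (XT.lf (nat_lit 0) (nat_lit 102404793) (nat_lit 380) (nat_lit 497592279) (nat_lit 76) (nat_lit 10651297749) (nat_lit 85) (nat_lit 5) (nat_lit 90) (nat_lit 5) (nat_lit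 86) (nat_lit 4) (nat_lit 469) (nat_lit 336) (nat_lit 335)) (XT.lf (nat_lit 0) (nat_lit 3969680968) (nat_lit 304) (nat_lit 4810565201) (nat_lit 0) (nat_lit 2601948439) (nat_lit 82) (nat_lit 5) (nat_lit 86) (nat_lit 4) (nat_lit 82) (nat_lit 4) (nat_lit 470) (nat_lit 336) (nat_lit 334)))) (XT.nd (nat_lit 156) (nat_lit 228) (nat_lit 0) (XT.nd (nat_lit 78) (nat_lit 76) (nat_lit 0) (XT.lf (nat_lit 0) (nat_lit 2205389758) (nat_lit 304) (nat_lit 5671330554) (nat_lit 304) (nat_lit 3639779092) (nat_lit 78) (nat_lit 4) (nat_lit 82) (nat_lit 5) (nat_lit 82) (nat_lit 4) (nat_lit 471) (nat_lit 336) (nat_lit 333)) (XT.lf (nat_lit 0) (nat_lit 179075777) (nat_lit 380) (nat_lit 2320621265) (nat_lit 76) (nat_lit 9154332201) (nat_lit 77) (nat_lit 5) (nat_lit 82) (nat_lit 5) (nat_lit 78) (nat_lit 4) (nat_lit 472) (nat_lit 336) (nat_lit 332))) (XT.nd (nat_lit 78) (nat_lit 0) (nat_lit 0) (XT.lf (nat_lit 0) (nat_lit 4003485156)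 (nat_lit 304) (nat_lit 7042623795) (nat_lit 0) (nat_lit 748194595) (nat_lit 74) (nat_lit 5) (nat_lit 78) (nat_lit 4) (nat_lit 74) (nat_lit 4) (nat_lit 473) (nat_lit 336) (nat_lit 331)) (XT.lf (nat_lit 0) (nat_lit 7879006675) (nat_lit 304) (nat_lit 48466823) (nat_lit 0) (nat_lit 4010450029) (nat_lit 74) (nat_lit 5) (nat_lit 78) (nat_lit 4) (nat_lit 74) (nat_lit 4) (nat_lit 474) (nat_lit 336) (nat_lit 330)))))) (XT.nd (nat_lit 546) (nat_lit 988) (nat_lit 0) (XT.nd (nat_lit 234) (nat_lit 532) (nat_lit 0) (XT.nd (nat_lit 78) (nat_lit 304) (nat_lit 0) (XT.lf (nat_lit 0) (nat_lit 7088718649) (nat_lit 304) (nat_lit 4732868116) (nat_lit 304) (nat_lit 263070210) (nat_lit 70) (nat_lit 4) (nat_lit 74) (nat_lit 5) (nat_lit 74) (nat_lit 4) (nat_lit 475) (nat_lit 336) (nat_lit 329)) (XT.nd (nat_lit 78) (nat_lit 0) (nat_lit 0) (XT.lf (nat_lit 0) (nat_lit 2048406095) (nat_lit 228) (nat_lit 1470235595) (nat_lit 304) (nat_lit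 8716100049) (nat_lit 66) (nat_lit 5) (nat_lit 69) (nat_lit 5) (nat_lit 70) (nat_lit 4) (nat_lit 476) (nat_lit 336) (nat_lit 328)) (XT.lf (nat_lit 0) (nat_lit 7362233291) (nat_lit 304) (nat_lit 3190173869) (nat_lit 0) (nat_lit 1835621086) (nat_lit 66) (nat_lit 5) (nat_lit 70) (nat_lit 4) (nat_lit 66) (nat_lit 4) (nat_lit 477) (nat_lit 336) (nat_lit 327)))) (XT.nd (nat_lit 156) (nat_lit 228) (nat_lit 0) (XT.nd (nat_lit 78) (nat_lit 76) (nat_lit 0) (XT.lf (nat_lit 0) (nat_lit 3898729034) (nat_lit 228) (nat_lit 7364072567) (nat_lit 228) (nat_lit 1282006374) (nat_lit 63) (nat_lit 4) (nat_lit 66) (nat_lit 5) (nat_lit 66) (nat_lit 4) (nat_lit 478) (nat_lit 336) (nat_lit 326)) (XT.lf (nat_lit 0) (nat_lit 2470110730) (nat_lit 304) (nat_lit 1637005250) (nat_lit 76) (nat_lit 8597971939) (nat_lit 62) (nat_lit 5) (nat_lit 66) (nat_lit 5) (nat_lit 63) (nat_lit 4) (nat_lit 479) (nat_lit 336) (nat_lit 325))) (XT.nd (nat_lit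 78) (nat_lit 0) (nat_lit 0) (XT.lf (nat_lit 0) (nat_lit 5488733464) (nat_lit 228) (nat_lit 773270210) (nat_lit 304) (nat_lit 6606790201) (nat_lit 59) (nat_lit 5) (nat_lit 62) (nat_lit 5) (nat_lit 63) (nat_lit 4) (nat_lit 480) (nat_lit 336) (nat_lit 324)) (XT.lf (nat_lit 0) (nat_lit 10104374612) (nat_lit 304) (nat_lit 360824611) (nat_lit 0) (nat_lit 2571109262) (nat_lit 59) (nat_lit 5) (nat_lit 63) (nat_lit 4) (nat_lit 59) (nat_lit 4) (nat_lit 481) (nat_lit 336) (nat_lit 323))))) (XT.nd (nat_lit 234) (nat_lit 456) (nat_lit 0) (XT.nd (nat_lit 78) (nat_lit 228) (nat_lit 0) (XT.lf (nat_lit 0) (nat_lit 802490550) (nat_lit 304) (nat_lit 6415326227) (nat_lit 76) (nat_lit 5989341302) (nat_lit 55) (nat_lit 5) (nat_lit 59) (nat_lit 5) (nat_lit 56) (nat_lit 4) (nat_lit 482) (nat_lit 336) (nat_lit 322)) (XT.nd (nat_lit 78) (nat_lit 0) (nat_lit 0) (XT.lf (nat_lit 0) (nat_lit 613912494) (nat_lit 228) (nat_lit 3912571109)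 (nat_lit 304) (nat_lit 8855496449) (nat_lit 52) (nat_lit 5) (nat_lit 55) (nat_lit 5) (nat_lit 56) (nat_lit 4) (nat_lit 483) (nat_lit 336) (nat_lit 321)) (XT.lf (nat_lit 0) (nat_lit 7785499111) (nat_lit 228) (nat_lit 530659115) (nat_lit 304) (nat_lit 5244341458) (nat_lit 52) (nat_lit 5) (nat_lit 55) (nat_lit 5) (nat_lit 56) (nat_lit 4) (nat_lit 484) (nat_lit 336) (nat_lit 320)))) (XT.nd (nat_lit 156) (nat_lit 152) (nat_lit 0) (XT.nd (nat_lit 78) (nat_lit 76) (nat_lit 0) (XT.lf (nat_lit 0) (nat_lit 1271292731) (nat_lit 228) (nat_lit 10886494913) (nat_lit 228) (nat_lit 1585303601) (nat_lit 49) (nat_lit 4) (nat_lit 52) (nat_lit 5) (nat_lit 52) (nat_lit 4) (nat_lit 485) (nat_lit 336) (nat_lit 319)) (XT.lf (nat_lit 0) (nat_lit 2110335715) (nat_lit 304) (nat_lit 5493978900) (nat_lit 76) (nat_lit 6324933480) (nat_lit 48) (nat_lit 5) (nat_lit 52) (nat_lit 5) (nat_lit 49) (nat_lit 4) (nat_lit 486) (nat_lit 336)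 (nat_lit 318))) (XT.nd (nat_lit 78) (nat_lit 0) (nat_lit 0) (XT.lf (nat_lit 0) (nat_lit 1550386173) (nat_lit 152) (nat_lit 4268413000) (nat_lit 228) (nat_lit 8300939893) (nat_lit 46) (nat_lit 5) (nat_lit 48) (nat_lit 5) (nat_lit 49) (nat_lit 4) (nat_lit 487) (nat_lit 336) (nat_lit 317)) (XT.lf (nat_lit 0) (nat_lit 8727810089) (nat_lit 152) (nat_lit 860986903) (nat_lit 228) (nat_lit 4725518438) (nat_lit 46) (nat_lit 5) (nat_lit 48) (nat_lit 5) (nat_lit 49) (nat_lit 4) (nat_lit 488) (nat_lit 336) (nat_lit 316))))))) (XT.nd (nat_lit 1014) (nat_lit 912) (nat_lit 0) (XT.nd (nat_lit 468) (nat_lit 532) (nat_lit 0) (XT.nd (nat_lit 234) (nat_lit 304) (nat_lit 0) (XT.nd (nat_lit 78) (nat_lit 228) (nat_lit 0) (XT.lf (nat_lit 0) (nat_lit 1456656497) (nat_lit 228) (nat_lit 11955230951) (nat_lit 228) (nat_lit 1101364446) (nat_lit 43) (nat_lit 4) (nat_lit 46) (nat_lit 5) (nat_lit 46) (nat_lit 4) (nat_lit 489) (nat_lit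 336) (nat_lit 315)) (XT.nd (nat_lit 78) (nat_lit 152) (nat_lit 0) (XT.lf (nat_lit 0) (nat_lit 2556021756) (nat_lit 304) (nat_lit 6103413052) (nat_lit 76) (nat_lit 6056521100) (nat_lit 42) (nat_lit 5) (nat_lit 46) (nat_lit 5) (nat_lit 43) (nat_lit 4) (nat_lit 490) (nat_lit 336) (nat_lit 314)) (XT.lf (nat_lit 0) (nat_lit 913516683) (nat_lit 152) (nat_lit 5316538670) (nat_lit 228) (nat_lit 8693369242) (nat_lit 40) (nat_lit 5) (nat_lit 42) (nat_lit 5) (nat_lit 43) (nat_lit 4) (nat_lit 491) (nat_lit 336) (nat_lit 313)))) (XT.nd (nat_lit 78) (nat_lit 304) (nat_lit 0) (XT.lf (nat_lit 0) (nat_lit 8074041334) (nat_lit 152) (nat_lit 1897206640) (nat_lit 228) (nat_lit 5163941835) (nat_lit 40) (nat_lit 5) (nat_lit 42) (nat_lit 5) (nat_lit 43) (nat_lit 4) (nat_lit 492) (nat_lit 336) (nat_lit 312)) (XT.nd (nat_lit 78) (nat_lit 304) (nat_lit 0) (XT.lf (nat_lit 0) (nat_lit 13751034424) (nat_lit 228) (nat_lit 62401579)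 (nat_lit 0) (nat_lit 1538499236) (nat_lit 40) (nat_lit 5) (nat_lit 43) (nat_lit 4) (nat_lit 40) (nat_lit 4) (nat_lit 493) (nat_lit 336) (nat_lit 311)) (XT.lf (nat_lit 0) (nat_lit 2019683478) (nat_lit 304) (nat_lit 8506579172) (nat_lit 76) (nat_lit 5046249391) (nat_lit 36) (nat_lit 5) (nat_lit 40) (nat_lit 5) (nat_lit 37) (nat_lit 4) (nat_lit 494) (nat_lit 336) (nat_lit 310))))) (XT.nd (nat_lit 234) (nat_lit 380) (nat_lit 0) (XT.nd (nat_lit 78) (nat_lit 152) (nat_lit 0) (XT.lf (nat_lit 0) (nat_lit 5646119801) (nat_lit 304) (nat_lit 1547652907) (nat_lit 76) (nat_lit 8604437644) (nat_lit 36) (nat_lit 5) (nat_lit 40) (nat_lit 5) (nat_lit 37) (nat_lit 4) (nat_lit 495) (nat_lit 336) (nat_lit 309)) (XT.nd (nat_lit 78) (nat_lit 0) (nat_lit 0) (XT.lf (nat_lit 0) (nat_lit 5547486584) (nat_lit 152) (nat_lit 3788944511) (nat_lit 228) (nat_lit 6692183376) (nat_lit 34) (nat_lit 5) (nat_lit 36) (nat_lit 5) (nat_lit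 37) (nat_lit 4) (nat_lit 496) (nat_lit 336) (nat_lit 308)) (XT.lf (nat_lit 0) (nat_lit 12730284294) (nat_lit 152) (nat_lit 336365684) (nat_lit 228) (nat_lit 3197673065) (nat_lit 34) (nat_lit 5) (nat_lit 36) (nat_lit 5) (nat_lit 37) (nat_lit 4) (nat_lit 497) (nat_lit 336) (nat_lit 307)))) (XT.nd (nat_lit 156) (nat_lit 152) (nat_lit 0) (XT.nd (nat_lit 78) (nat_lit 0) (nat_lit 0) (XT.lf (nat_lit 0) (nat_lit 361709316) (nat_lit 228) (nat_lit 13004333790) (nat_lit 76) (nat_lit 3138676911) (nat_lit 31) (nat_lit 5) (nat_lit 34) (nat_lit 5) (nat_lit 32) (nat_lit 4) (nat_lit 498) (nat_lit 336) (nat_lit 306)) (XT.lf (nat_lit 0) (nat_lit 3932060844) (nat_lit 228) (nat_lit 6124151501) (nat_lit 76) (nat_lit 6693655224) (nat_lit 31) (nat_lit 5) (nat_lit 34) (nat_lit 5) (nat_lit 32) (nat_lit 4) (nat_lit 499) (nat_lit 336) (nat_lit 305))) (XT.nd (nat_lit 78) (nat_lit 0) (nat_lit 0) (XT.lf (nat_lit 0) (nat_lit 831456666)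 (nat_lit 152) (nat_lit 6705073274) (nat_lit 228) (nat_lit 9464150916) (nat_lit 29) (nat_lit 5) (nat_lit 31) (nat_lit 5) (nat_lit 32) (nat_lit 4) (nat_lit 500) (nat_lit 336) (nat_lit 304)) (XT.lf (nat_lit 0) (nat_lit 7936589818) (nat_lit 152) (nat_lit 3275272691) (nat_lit 228) (nat_lit 6044689083) (nat_lit 29) (nat_lit 5) (nat_lit 31) (nat_lit 5) (nat_lit 32) (nat_lit 4) (nat_lit 501) (nat_lit 336) (nat_lit 303)))))) (XT.nd (nat_lit 546) (nat_lit 380) (nat_lit 0) (XT.nd (nat_lit 234) (nat_lit 304) (nat_lit 0) (XT.nd (nat_lit 78) (nat_lit 228) (nat_lit 0) (XT.lf (nat_lit 0) (nat_lit 14920465313) (nat_lit 228) (nat_lit 2406994325) (nat_lit 0) (nat_lit 190901169) (nat_lit 29) (nat_lit 5) (nat_lit 32) (nat_lit 4) (nat_lit 29) (nat_lit 4) (nat_lit 502) (nat_lit 336) (nat_lit 302)) (XT.nd (nat_lit 78) (nat_lit 0) (nat_lit 0) (XT.lf (nat_lit 0) (nat_lit 916622901) (nat_lit 228) (nat_lit 13178623114) (nat_lit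 76) (nat_lit 3689840180) (nat_lit 26) (nat_lit 5) (nat_lit 29) (nat_lit 5) (nat_lit 27) (nat_lit 4) (nat_lit 503) (nat_lit 336) (nat_lit 301)) (XT.lf (nat_lit 0) (nat_lit 4442133058) (nat_lit 228) (nat_lit 6351834983) (nat_lit 76) (nat_lit 7263340259) (nat_lit 26) (nat_lit 5) (nat_lit 29) (nat_lit 5) (nat_lit 27) (nat_lit 4) (nat_lit 504) (nat_lit 336) (nat_lit 300)))) (XT.nd (nat_lit 156) (nat_lit 152) (nat_lit 0) (XT.nd (nat_lit 78) (nat_lit 0) (nat_lit 0) (XT.lf (nat_lit 0) (nat_lit 549561767) (nat_lit 152) (nat_lit 7452155386) (nat_lit 228) (nat_lit 10334001512) (nat_lit 24) (nat_lit 5) (nat_lit 26) (nat_lit 5) (nat_lit 27) (nat_lit 4) (nat_lit 505) (nat_lit 336) (nat_lit 299)) (XT.lf (nat_lit 0) (nat_lit 7606407336) (nat_lit 152) (nat_lit 4029043850) (nat_lit 228) (nat_lit 6984201682) (nat_lit 24) (nat_lit 5) (nat_lit 26) (nat_lit 5) (nat_lit 27) (nat_lit 4) (nat_lit 506) (nat_lit 336) (nat_lit 298)))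 (XT.nd (nat_lit 78) (nat_lit 152) (nat_lit 0) (XT.lf (nat_lit 0) (nat_lit 14737056572) (nat_lit 152) (nat_lit 565915192) (nat_lit 228) (nat_lit 3607086260) (nat_lit 24) (nat_lit 5) (nat_lit 26) (nat_lit 5) (nat_lit 27) (nat_lit 4) (nat_lit 507) (nat_lit 336) (nat_lit 297)) (XT.lf (nat_lit 0) (nat_lit 2754301681) (nat_lit 152) (nat_lit 16288377469) (nat_lit 152) (nat_lit 163629629) (nat_lit 22) (nat_lit 4) (nat_lit 24) (nat_lit 5) (nat_lit 24) (nat_lit 4) (nat_lit 508) (nat_lit 336) (nat_lit 296))))) (XT.nd (nat_lit 234) (nat_lit 228) (nat_lit 0) (XT.nd (nat_lit 78) (nat_lit 76) (nat_lit 0) (XT.lf (nat_lit 0) (nat_lit 3298463135) (nat_lit 228) (nat_lit 9723575108) (nat_lit 76) (nat_lit 6486151420) (nat_lit 21) (nat_lit 5) (nat_lit 24) (nat_lit 5) (nat_lit 22) (nat_lit 4) (nat_lit 509) (nat_lit 336) (nat_lit 295)) (XT.nd (nat_lit 78) (nat_lit 76) (nat_lit 0) (XT.lf (nat_lit 0) (nat_lit 6790108297) (nat_lit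 228) (nat_lit 2927042864) (nat_lit 76) (nat_lit 10099698743) (nat_lit 21) (nat_lit 5) (nat_lit 24) (nat_lit 5) (nat_lit 22) (nat_lit 4) (nat_lit 510) (nat_lit 336) (nat_lit 294)) (XT.lf (nat_lit 0) (nat_lit 3993695364) (nat_lit 76) (nat_lit 6347055515) (nat_lit 152) (nat_lit 9791162320) (nat_lit 20) (nat_lit 5) (nat_lit 21) (nat_lit 5) (nat_lit 22) (nat_lit 4) (nat_lit 511) (nat_lit 336) (nat_lit 293)))) (XT.nd (nat_lit 156) (nat_lit 228) (nat_lit 0) (XT.nd (nat_lit 78) (nat_lit 0) (nat_lit 0) (XT.lf (nat_lit 0) (nat_lit 11028844229) (nat_lit 76) (nat_lit 2916746307) (nat_lit 152) (nat_lit 6508036421) (nat_lit 20) (nat_lit 5) (nat_lit 21) (nat_lit 5) (nat_lit 22) (nat_lit 4) (nat_lit 512) (nat_lit 336) (nat_lit 292)) (XT.lf (nat_lit 0) (nat_lit 17590390612) (nat_lit 152) (nat_lit 2643845267) (nat_lit 0) (nat_lit 548194467) (nat_lit 20) (nat_lit 5) (nat_lit 22) (nat_lit 4) (nat_lit 20) (nat_lit 4) (nat_lit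 513) (nat_lit 336) (nat_lit 291))) (XT.nd (nat_lit 78) (nat_lit 0) (nat_lit 0) (XT.lf (nat_lit 0) (nat_lit 199527347) (nat_lit 228) (nat_lit 16871553262) (nat_lit 76) (nat_lit 4046481704) (nat_lit 17) (nat_lit 5) (nat_lit 20) (nat_lit 5) (nat_lit 18) (nat_lit 4) (nat_lit 514) (nat_lit 336) (nat_lit 290)) (XT.lf (nat_lit 0) (nat_lit 3598920336) (nat_lit 228) (nat_lit 10232624873) (nat_lit 76) (nat_lit 7627786904) (nat_lit 17) (nat_lit 5) (nat_lit 20) (nat_lit 5) (nat_lit 18) (nat_lit 4) (nat_lit 515) (nat_lit 336) (nat_lit 289))))))))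
noncomputable def xc19 : XT := (XT.nd (nat_lit 56394) (nat_lit 0) (nat_lit 1292) (XT.nd (nat_lit 1014) (nat_lit 76) (nat_lit 0) (XT.nd (nat_lit 468) (nat_lit 228) (nat_lit 0) (XT.nd (nat_lit 234) (nat_lit 228) (nat_lit 0) (XT.nd (nat_lit 78) (nat_lit 76) (nat_lit 0) (XT.lf (nat_lit 0) (nat_lit 7031827595) (nat_lit 228) (nat_lit 3521530102) (nat_lit 76) (nat_lit 11255280751) (nat_lit 17) (nat_lit 5) (nat_lit 20) (nat_lit 5) (nat_lit 18) (nat_lit 4) (nat_lit 516) (nat_lit 336) (nat_lit 288)) (XT.nd (nat_lit 78) (nat_lit 0) (nat_lit 0) (XT.lf (nat_lit 0) (nat_lit 3307744516) (nat_lit 76) (nat_lit 7213326916) (nat_lit 152) (nat_lit 11644117347) (nat_lit 16) (nat_lit 5) (nat_lit 17) (nat_lit 5) (nat_lit 18) (nat_lit 4) (nat_lit 517) (nat_lit 336) (nat_lit 287)) (XT.lf (nat_lit 0) (nat_lit 10262307129) (nat_lit 76) (nat_lit 3807906120) (nat_lit 152) (nat_lit 8458865821) (nat_lit 16) (nat_lit 5) (nat_lit 17)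 (nat_lit 5) (nat_lit 18) (nat_lit 4) (nat_lit 518) (nat_lit 336) (nat_lit 286)))) (XT.nd (nat_lit 78) (nat_lit 228) (nat_lit 0) (XT.lf (nat_lit 0) (nat_lit 17298085734) (nat_lit 76) (nat_lit 359391169) (nat_lit 152) (nat_lit 5243438477) (nat_lit 16) (nat_lit 5) (nat_lit 17) (nat_lit 5) (nat_lit 18) (nat_lit 4) (nat_lit 519) (nat_lit 336) (nat_lit 285)) (XT.nd (nat_lit 78) (nat_lit 76) (nat_lit 0) (XT.lf (nat_lit 0) (nat_lit 1131490413) (nat_lit 152) (nat_lit 20180470355) (nat_lit 152) (nat_lit 1968328928) (nat_lit 14) (nat_lit 4) (nat_lit 16) (nat_lit 5) (nat_lit 16) (nat_lit 4) (nat_lit 520) (nat_lit 336) (nat_lit 284)) (XT.lf (nat_lit 0) (nat_lit 1362178758) (nat_lit 228) (nat_lit 15658893509) (nat_lit 76) (nat_lit 6645853521) (nat_lit 13) (nat_lit 5) (nat_lit 16) (nat_lit 5) (nat_lit 14) (nat_lit 4) (nat_lit 521) (nat_lit 336) (nat_lit 283))))) (XT.nd (nat_lit 234) (nat_lit 152) (nat_lit 0) (XT.nd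 (nat_lit 78) (nat_lit 76) (nat_lit 0) (XT.lf (nat_lit 0) (nat_lit 4701265979) (nat_lit 228) (nat_lit 9108401221) (nat_lit 76) (nat_lit 10252010842) (nat_lit 13) (nat_lit 5) (nat_lit 16) (nat_lit 5) (nat_lit 14) (nat_lit 4) (nat_lit 522) (nat_lit 336) (nat_lit 282)) (XT.nd (nat_lit 78) (nat_lit 76) (nat_lit 0) (XT.lf (nat_lit 0) (nat_lit 8076057167) (nat_lit 228) (nat_lit 2481973901) (nat_lit 76) (nat_lit 13906925784) (nat_lit 13) (nat_lit 5) (nat_lit 16) (nat_lit 5) (nat_lit 14) (nat_lit 4) (nat_lit 523) (nat_lit 336) (nat_lit 281)) (XT.lf (nat_lit 0) (nat_lit 4279108323) (nat_lit 76) (nat_lit 7236550255) (nat_lit 152) (nat_lit 13360706136) (nat_lit 12) (nat_lit 5) (nat_lit 13) (nat_lit 5) (nat_lit 14) (nat_lit 4) (nat_lit 524) (nat_lit 336) (nat_lit 280)))) (XT.nd (nat_lit 156) (nat_lit 152) (nat_lit 0) (XT.nd (nat_lit 78) (nat_lit 0) (nat_lit 0) (XT.lf (nat_lit 0) (nat_lit 11155416315) (nat_lit 76)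 (nat_lit 3855071801) (nat_lit 152) (nat_lit 10285793466) (nat_lit 12) (nat_lit 5) (nat_lit 13) (nat_lit 5) (nat_lit 14) (nat_lit 4) (nat_lit 525) (nat_lit 336) (nat_lit 279)) (XT.lf (nat_lit 0) (nat_lit 18116662540) (nat_lit 76) (nat_lit 428924985) (nat_lit 152) (nat_lit 7179611180) (nat_lit 12) (nat_lit 5) (nat_lit 13) (nat_lit 5) (nat_lit 14) (nat_lit 4) (nat_lit 526) (nat_lit 336) (nat_lit 278))) (XT.nd (nat_lit 78) (nat_lit 152) (nat_lit 0) (XT.lf (nat_lit 0) (nat_lit 22142101812) (nat_lit 152) (nat_lit 1017466082) (nat_lit 0) (nat_lit 3003321218) (nat_lit 12) (nat_lit 5) (nat_lit 14) (nat_lit 4) (nat_lit 12) (nat_lit 4) (nat_lit 527) (nat_lit 336) (nat_lit 277)) (XT.lf (nat_lit 0) (nat_lit 5726710550) (nat_lit 152) (nat_lit 20095238432) (nat_lit 152) (nat_lit 787165313) (nat_lit 10) (nat_lit 4) (nat_lit 12) (nat_lit 5) (nat_lit 12) (nat_lit 4) (nat_lit 528) (nat_lit 336) (nat_lit 276)))))) (XT.nd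 (nat_lit 54834) (nat_lit 0) (nat_lit 4332) (XT.nd (nat_lit 54522) (nat_lit 0) (nat_lit 5548) (XT.nd (nat_lit 78) (nat_lit 0) (nat_lit 0) (XT.lf (nat_lit 0) (nat_lit 2456484207) (nat_lit 228) (nat_lit 14511948084) (nat_lit 76) (nat_lit 10095948500) (nat_lit 9) (nat_lit 5) (nat_lit 12) (nat_lit 5) (nat_lit 10) (nat_lit 4) (nat_lit 529) (nat_lit 336) (nat_lit 275)) (XT.nd (nat_lit 54366) (nat_lit 0) (nat_lit 6156) (XT.lf (nat_lit 0) (nat_lit 5726452950) (nat_lit 228) (nat_lit 8069329914) (nat_lit 76) (nat_lit 13733434462) (nat_lit 9) (nat_lit 5) (nat_lit 12) (nat_lit 5) (nat_lit 10) (nat_lit 4) (nat_lit 530) (nat_lit 336) (nat_lit 274)) (XT.lf (nat_lit 0) (nat_lit 157490108) (nat_lit 380) (nat_lit 5122075900) (nat_lit 0) (nat_lit 157490108) (nat_lit 90) (nat_lit 5) (nat_lit 95) (nat_lit 4) (nat_lit 90) (nat_lit 4) (nat_lit 466) (nat_lit 337) (nat_lit 337)))) (XT.nd (nat_lit 156) (nat_lit 304) (nat_lit 0)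 (XT.nd (nat_lit 78) (nat_lit 304) (nat_lit 0) (XT.lf (nat_lit 0) (nat_lit 4173785854) (nat_lit 380) (nat_lit 3367972941) (nat_lit 0) (nat_lit 3455246893) (nat_lit 90) (nat_lit 5) (nat_lit 95) (nat_lit 4) (nat_lit 90) (nat_lit 4) (nat_lit 467) (nat_lit 337) (nat_lit 336)) (XT.lf (nat_lit 0) (nat_lit 3600694838) (nat_lit 304) (nat_lit 4472707962) (nat_lit 304) (nat_lit 3049719039) (nat_lit 86) (nat_lit 4) (nat_lit 90) (nat_lit 5) (nat_lit 90) (nat_lit 4) (nat_lit 468) (nat_lit 337) (nat_lit 335))) (XT.nd (nat_lit 78) (nat_lit 228) (nat_lit 0) (XT.lf (nat_lit 0) (nat_lit 751925307) (nat_lit 380) (nat_lit 594737019) (nat_lit 76) (nat_lit 9905767156) (nat_lit 85) (nat_lit 5) (nat_lit 90) (nat_lit 5) (nat_lit 86) (nat_lit 4) (nat_lit 469) (nat_lit 337) (nat_lit 334)) (XT.lf (nat_lit 0) (nat_lit 4584385582) (nat_lit 304) (nat_lit 4951273355) (nat_lit 0) (nat_lit 1848384158) (nat_lit 82) (nat_lit 5) (nat_lit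 86) (nat_lit 4) (nat_lit 82) (nat_lit 4) (nat_lit 470) (nat_lit 337) (nat_lit 333))))) (XT.nd (nat_lit 234) (nat_lit 608) (nat_lit 0) (XT.nd (nat_lit 78) (nat_lit 304) (nat_lit 0) (XT.lf (nat_lit 0) (nat_lit 2017137101) (nat_lit 304) (nat_lit 6444315846) (nat_lit 304) (nat_lit 3057511546) (nat_lit 78) (nat_lit 4) (nat_lit 82) (nat_lit 5) (nat_lit 82) (nat_lit 4) (nat_lit 471) (nat_lit 337) (nat_lit 332)) (XT.nd (nat_lit 78) (nat_lit 228) (nat_lit 0) (XT.lf (nat_lit 0) (nat_lit 725024853) (nat_lit 380) (nat_lit 2560296131) (nat_lit 76) (nat_lit 8371687877) (nat_lit 77) (nat_lit 5) (nat_lit 82) (nat_lit 5) (nat_lit 78) (nat_lit 4) (nat_lit 472) (nat_lit 337) (nat_lit 331)) (XT.lf (nat_lit 0) (nat_lit 4468961077) (nat_lit 228) (nat_lit 45563090) (nat_lit 304) (nat_lit 7283473371) (nat_lit 74) (nat_lit 5) (nat_lit 77) (nat_lit 5) (nat_lit 78) (nat_lit 4) (nat_lit 473) (nat_lit 337) (nat_lit 330)))) (XT.nd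 (nat_lit 156) (nat_lit 228) (nat_lit 0) (XT.nd (nat_lit 78) (nat_lit 380) (nat_lit 0) (XT.lf (nat_lit 0) (nat_lit 8361791186) (nat_lit 304) (nat_lit 379051218) (nat_lit 0) (nat_lit 3201356062) (nat_lit 74) (nat_lit 5) (nat_lit 78) (nat_lit 4) (nat_lit 74) (nat_lit 4) (nat_lit 474) (nat_lit 337) (nat_lit 329)) (XT.lf (nat_lit 0) (nat_lit 182528488) (nat_lit 380) (nat_lit 5381179791) (nat_lit 76) (nat_lit 6525812607) (nat_lit 69) (nat_lit 5) (nat_lit 74) (nat_lit 5) (nat_lit 70) (nat_lit 4) (nat_lit 475) (nat_lit 337) (nat_lit 328))) (XT.nd (nat_lit 78) (nat_lit 0) (nat_lit 0) (XT.lf (nat_lit 0) (nat_lit 1612046444) (nat_lit 228) (nat_lit 2318561531) (nat_lit 304) (nat_lit 8309582101) (nat_lit 66) (nat_lit 5) (nat_lit 69) (nat_lit 5) (nat_lit 70) (nat_lit 4) (nat_lit 476) (nat_lit 337) (nat_lit 327)) (XT.lf (nat_lit 0) (nat_lit 7741491228) (nat_lit 304) (nat_lit 3670324448) (nat_lit 0) (nat_lit 982329723)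 (nat_lit 66) (nat_lit 5) (nat_lit 70) (nat_lit 4) (nat_lit 66) (nat_lit 4) (nat_lit 477) (nat_lit 337) (nat_lit 326))))))) (XT.nd (nat_lit 1092) (nat_lit 1216) (nat_lit 0) (XT.nd (nat_lit 546) (nat_lit 760) (nat_lit 0) (XT.nd (nat_lit 234) (nat_lit 532) (nat_lit 0) (XT.nd (nat_lit 78) (nat_lit 304) (nat_lit 0) (XT.lf (nat_lit 0) (nat_lit 3368635512) (nat_lit 228) (nat_lit 8243315197) (nat_lit 228) (nat_lit 939590959) (nat_lit 63) (nat_lit 4) (nat_lit 66) (nat_lit 5) (nat_lit 66) (nat_lit 4) (nat_lit 478) (nat_lit 337) (nat_lit 325)) (XT.nd (nat_lit 78) (nat_lit 228) (nat_lit 0) (XT.lf (nat_lit 0) (nat_lit 2781424918) (nat_lit 304) (nat_lit 2219130934) (nat_lit 76) (nat_lit 7711767308) (nat_lit 62) (nat_lit 5) (nat_lit 66) (nat_lit 5) (nat_lit 63) (nat_lit 4) (nat_lit 479) (nat_lit 337) (nat_lit 324)) (XT.lf (nat_lit 0) (nat_lit 4856079745) (nat_lit 228) (nat_lit 1687041894) (nat_lit 304) (nat_lit 6333524934)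 (nat_lit 59) (nat_lit 5) (nat_lit 62) (nat_lit 5) (nat_lit 63) (nat_lit 4) (nat_lit 480) (nat_lit 337) (nat_lit 323)))) (XT.nd (nat_lit 156) (nat_lit 228) (nat_lit 0) (XT.nd (nat_lit 78) (nat_lit 304) (nat_lit 0) (XT.lf (nat_lit 0) (nat_lit 10353605753) (nat_lit 304) (nat_lit 1037776754) (nat_lit 0) (nat_lit 1653429681) (nat_lit 59) (nat_lit 5) (nat_lit 63) (nat_lit 4) (nat_lit 59) (nat_lit 4) (nat_lit 481) (nat_lit 337) (nat_lit 322)) (XT.lf (nat_lit 0) (nat_lit 1009676069) (nat_lit 304) (nat_lit 7153857656) (nat_lit 76) (nat_lit 5052717246) (nat_lit 55) (nat_lit 5) (nat_lit 59) (nat_lit 5) (nat_lit 56) (nat_lit 4) (nat_lit 482) (nat_lit 337) (nat_lit 321))) (XT.nd (nat_lit 78) (nat_lit 228) (nat_lit 0) (XT.lf (nat_lit 0) (nat_lit 4704289462) (nat_lit 304) (nat_lit 174294726) (nat_lit 76) (nat_lit 8513088852) (nat_lit 55) (nat_lit 5) (nat_lit 59) (nat_lit 5) (nat_lit 56) (nat_lit 4) (nat_lit 483) (nat_lit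 337) (nat_lit 320)) (XT.lf (nat_lit 0) (nat_lit 6953625229) (nat_lit 228) (nat_lit 1514027889) (nat_lit 304) (nat_lit 5103078032) (nat_lit 52) (nat_lit 5) (nat_lit 55) (nat_lit 5) (nat_lit 56) (nat_lit 4) (nat_lit 484) (nat_lit 337) (nat_lit 319))))) (XT.nd (nat_lit 234) (nat_lit 304) (nat_lit 0) (XT.nd (nat_lit 78) (nat_lit 228) (nat_lit 0) (XT.lf (nat_lit 0) (nat_lit 382979692) (nat_lit 228) (nat_lit 11889376740) (nat_lit 228) (nat_lit 1481716819) (nat_lit 49) (nat_lit 4) (nat_lit 52) (nat_lit 5) (nat_lit 52) (nat_lit 4) (nat_lit 485) (nat_lit 337) (nat_lit 318)) (XT.nd (nat_lit 78) (nat_lit 152) (nat_lit 0) (XT.lf (nat_lit 0) (nat_lit 2187837499) (nat_lit 304) (nat_lit 6434959285) (nat_lit 76) (nat_lit 5317925946) (nat_lit 48) (nat_lit 5) (nat_lit 52) (nat_lit 5) (nat_lit 49) (nat_lit 4) (nat_lit 486) (nat_lit 337) (nat_lit 317)) (XT.lf (nat_lit 0) (nat_lit 556157689) (nat_lit 152) (nat_lit 5309446469)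 (nat_lit 228) (nat_lit 8266234802) (nat_lit 46) (nat_lit 5) (nat_lit 48) (nat_lit 5) (nat_lit 49) (nat_lit 4) (nat_lit 487) (nat_lit 337) (nat_lit 316)))) (XT.nd (nat_lit 156) (nat_lit 76) (nat_lit 0) (XT.nd (nat_lit 78) (nat_lit 228) (nat_lit 0) (XT.lf (nat_lit 0) (nat_lit 7693637522) (nat_lit 152) (nat_lit 1917938830) (nat_lit 228) (nat_lit 4715330588) (nat_lit 46) (nat_lit 5) (nat_lit 48) (nat_lit 5) (nat_lit 49) (nat_lit 4) (nat_lit 488) (nat_lit 337) (nat_lit 315)) (XT.lf (nat_lit 0) (nat_lit 362868107) (nat_lit 228) (nat_lit 13034178807) (nat_lit 228) (nat_lit 1129559772) (nat_lit 43) (nat_lit 4) (nat_lit 46) (nat_lit 5) (nat_lit 46) (nat_lit 4) (nat_lit 489) (nat_lit 337) (nat_lit 314))) (XT.nd (nat_lit 78) (nat_lit 0) (nat_lit 0) (XT.lf (nat_lit 0) (nat_lit 2504583345) (nat_lit 304) (nat_lit 7249978809) (nat_lit 76) (nat_lit 4975234927) (nat_lit 42) (nat_lit 5) (nat_lit 46) (nat_lit 5) (nat_lit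 43) (nat_lit 4) (nat_lit 490) (nat_lit 337) (nat_lit 313)) (XT.lf (nat_lit 0) (nat_lit 6149535912) (nat_lit 304) (nat_lit 283859065) (nat_lit 76) (nat_lit 8504462668) (nat_lit 42) (nat_lit 5) (nat_lit 46) (nat_lit 5) (nat_lit 43) (nat_lit 4) (nat_lit 491) (nat_lit 337) (nat_lit 312)))))) (XT.nd (nat_lit 546) (nat_lit 380) (nat_lit 0) (XT.nd (nat_lit 234) (nat_lit 380) (nat_lit 0) (XT.nd (nat_lit 78) (nat_lit 304) (nat_lit 0) (XT.lf (nat_lit 0) (nat_lit 6834319645) (nat_lit 152) (nat_lit 3031594994) (nat_lit 228) (nat_lit 5284214554) (nat_lit 40) (nat_lit 5) (nat_lit 42) (nat_lit 5) (nat_lit 43) (nat_lit 4) (nat_lit 492) (nat_lit 337) (nat_lit 311)) (XT.nd (nat_lit 78) (nat_lit 304) (nat_lit 0) (XT.lf (nat_lit 0) (nat_lit 13615739944) (nat_lit 228) (nat_lit 1347875022) (nat_lit 0) (nat_lit 403868738) (nat_lit 40) (nat_lit 5) (nat_lit 43) (nat_lit 4) (nat_lit 40) (nat_lit 4) (nat_lit 493) (nat_lit 337)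 (nat_lit 310)) (XT.lf (nat_lit 0) (nat_lit 1839748789) (nat_lit 304) (nat_lit 9862053759) (nat_lit 76) (nat_lit 3886908423) (nat_lit 36) (nat_lit 5) (nat_lit 40) (nat_lit 5) (nat_lit 37) (nat_lit 4) (nat_lit 494) (nat_lit 337) (nat_lit 309)))) (XT.nd (nat_lit 156) (nat_lit 228) (nat_lit 0) (XT.nd (nat_lit 78) (nat_lit 152) (nat_lit 0) (XT.lf (nat_lit 0) (nat_lit 5444070400) (nat_lit 304) (nat_lit 2940613425) (nat_lit 76) (nat_lit 7430177041) (nat_lit 36) (nat_lit 5) (nat_lit 40) (nat_lit 5) (nat_lit 37) (nat_lit 4) (nat_lit 495) (nat_lit 337) (nat_lit 308)) (XT.lf (nat_lit 0) (nat_lit 4098775039) (nat_lit 152) (nat_lit 5004519568) (nat_lit 228) (nat_lit 6942601227) (nat_lit 34) (nat_lit 5) (nat_lit 36) (nat_lit 5) (nat_lit 37) (nat_lit 4) (nat_lit 496) (nat_lit 337) (nat_lit 307))) (XT.nd (nat_lit 78) (nat_lit 228) (nat_lit 0) (XT.lf (nat_lit 0) (nat_lit 11245063618) (nat_lit 152) (nat_lit 1566956860)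 (nat_lit 228) (nat_lit 3470022718) (nat_lit 34) (nat_lit 5) (nat_lit 36) (nat_lit 5) (nat_lit 37) (nat_lit 4) (nat_lit 497) (nat_lit 337) (nat_lit 306)) (XT.lf (nat_lit 0) (nat_lit 53433273) (nat_lit 228) (nat_lit 14572245279) (nat_lit 76) (nat_lit 1897595532) (nat_lit 31) (nat_lit 5) (nat_lit 34) (nat_lit 5) (nat_lit 32) (nat_lit 4) (nat_lit 498) (nat_lit 337) (nat_lit 305))))) (XT.nd (nat_lit 234) (nat_lit 228) (nat_lit 0) (XT.nd (nat_lit 78) (nat_lit 152) (nat_lit 0) (XT.lf (nat_lit 0) (nat_lit 3602652211) (nat_lit 228) (nat_lit 7728242431) (nat_lit 76) (nat_lit 5437958059) (nat_lit 31) (nat_lit 5) (nat_lit 34) (nat_lit 5) (nat_lit 32) (nat_lit 4) (nat_lit 499) (nat_lit 337) (nat_lit 304)) (XT.nd (nat_lit 78) (nat_lit 152) (nat_lit 0) (XT.lf (nat_lit 0) (nat_lit 7181004716) (nat_lit 228) (nat_lit 819009007) (nat_lit 76) (nat_lit 9020182847) (nat_lit 31) (nat_lit 5) (nat_lit 34) (nat_lit 5) (nat_lit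 32) (nat_lit 4) (nat_lit 500) (nat_lit 337) (nat_lit 303)) (XT.lf (nat_lit 0) (nat_lit 6240003261) (nat_lit 152) (nat_lit 4590405042) (nat_lit 228) (nat_lit 6446185671) (nat_lit 29) (nat_lit 5) (nat_lit 31) (nat_lit 5) (nat_lit 32) (nat_lit 4) (nat_lit 501) (nat_lit 337) (nat_lit 302)))) (XT.nd (nat_lit 156) (nat_lit 0) (nat_lit 0) (XT.nd (nat_lit 78) (nat_lit 228) (nat_lit 0) (XT.lf (nat_lit 0) (nat_lit 13381515204) (nat_lit 152) (nat_lit 1136101970) (nat_lit 228) (nat_lit 3021221822) (nat_lit 29) (nat_lit 5) (nat_lit 31) (nat_lit 5) (nat_lit 32) (nat_lit 4) (nat_lit 502) (nat_lit 337) (nat_lit 301)) (XT.lf (nat_lit 0) (nat_lit 459680428) (nat_lit 228) (nat_lit 14997630555) (nat_lit 76) (nat_lit 2349099356) (nat_lit 26) (nat_lit 5) (nat_lit 29) (nat_lit 5) (nat_lit 27) (nat_lit 4) (nat_lit 503) (nat_lit 337) (nat_lit 300))) (XT.nd (nat_lit 78) (nat_lit 0) (nat_lit 0) (XT.lf (nat_lit 0) (nat_lit 3965386434)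 (nat_lit 228) (nat_lit 8205067545) (nat_lit 76) (nat_lit 5908582019) (nat_lit 26) (nat_lit 5) (nat_lit 29) (nat_lit 5) (nat_lit 27) (nat_lit 4) (nat_lit 504) (nat_lit 337) (nat_lit 299)) (XT.lf (nat_lit 0) (nat_lit 7501986576) (nat_lit 228) (nat_lit 1344432436) (nat_lit 76) (nat_lit 9511494354) (nat_lit 26) (nat_lit 5) (nat_lit 29) (nat_lit 5) (nat_lit 27) (nat_lit 4) (nat_lit 505) (nat_lit 337) (nat_lit 298))))))))
noncomputable def xc20 : XT := (XT.nd (nat_lit 56238) (nat_lit 0) (nat_lit 2356) (XT.nd (nat_lit 1014) (nat_lit 532) (nat_lit 0) (XT.nd (nat_lit 468) (nat_lit 304) (nat_lit 0) (XT.nd (nat_lit 234) (nat_lit 152) (nat_lit 0) (XT.nd (nat_lit 78) (nat_lit 152) (nat_lit 0) (XT.lf (nat_lit 0) (nat_lit 5661213043) (nat_lit 152) (nat_lit 5446411063) (nat_lit 228) (nat_lit 7534792575) (nat_lit 24) (nat_lit 5) (nat_lit 26) (nat_lit 5) (nat_lit 27) (nat_lit 4) (nat_lit 506) (nat_lit 337) (nat_lit 297))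 (XT.nd (nat_lit 78) (nat_lit 152) (nat_lit 0) (XT.lf (nat_lit 0) (nat_lit 12759182582) (nat_lit 152) (nat_lit 1997088030) (nat_lit 228) (nat_lit 4176935747) (nat_lit 24) (nat_lit 5) (nat_lit 26) (nat_lit 5) (nat_lit 27) (nat_lit 4) (nat_lit 507) (nat_lit 337) (nat_lit 296)) (XT.lf (nat_lit 0) (nat_lit 703344788) (nat_lit 152) (nat_lit 17751433045) (nat_lit 152) (nat_lit 775510187) (nat_lit 22) (nat_lit 4) (nat_lit 24) (nat_lit 5) (nat_lit 24) (nat_lit 4) (nat_lit 508) (nat_lit 337) (nat_lit 295)))) (XT.nd (nat_lit 78) (nat_lit 76) (nat_lit 0) (XT.lf (nat_lit 0) (nat_lit 2676042894) (nat_lit 228) (nat_lit 11826907193) (nat_lit 76) (nat_lit 5029676198) (nat_lit 21) (nat_lit 5) (nat_lit 24) (nat_lit 5) (nat_lit 22) (nat_lit 4) (nat_lit 509) (nat_lit 337) (nat_lit 294)) (XT.nd (nat_lit 78) (nat_lit 76) (nat_lit 0) (XT.lf (nat_lit 0) (nat_lit 6149487460) (nat_lit 228) (nat_lit 5062108956) (nat_lit 76) (nat_lit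 8630060627) (nat_lit 21) (nat_lit 5) (nat_lit 24) (nat_lit 5) (nat_lit 22) (nat_lit 4) (nat_lit 510) (nat_lit 337) (nat_lit 293)) (XT.lf (nat_lit 0) (nat_lit 1798730137) (nat_lit 76) (nat_lit 7869305014) (nat_lit 152) (nat_lit 10489333461) (nat_lit 20) (nat_lit 5) (nat_lit 21) (nat_lit 5) (nat_lit 22) (nat_lit 4) (nat_lit 511) (nat_lit 337) (nat_lit 292))))) (XT.nd (nat_lit 234) (nat_lit 152) (nat_lit 0) (XT.nd (nat_lit 78) (nat_lit 152) (nat_lit 0) (XT.lf (nat_lit 0) (nat_lit 8802971914) (nat_lit 76) (nat_lit 4452208381) (nat_lit 152) (nat_lit 7224262217) (nat_lit 20) (nat_lit 5) (nat_lit 21) (nat_lit 5) (nat_lit 22) (nat_lit 4) (nat_lit 512) (nat_lit 337) (nat_lit 291)) (XT.nd (nat_lit 78) (nat_lit 152) (nat_lit 0) (XT.lf (nat_lit 0) (nat_lit 15886090371) (nat_lit 76) (nat_lit 992935896) (nat_lit 152) (nat_lit 3929644846) (nat_lit 20) (nat_lit 5) (nat_lit 21) (nat_lit 5) (nat_lit 22) (nat_lit 4) (nat_lit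 513) (nat_lit 337) (nat_lit 290)) (XT.lf (nat_lit 0) (nat_lit 1914492861) (nat_lit 152) (nat_lit 18655227214) (nat_lit 152) (nat_lit 574888931) (nat_lit 18) (nat_lit 4) (nat_lit 20) (nat_lit 5) (nat_lit 20) (nat_lit 4) (nat_lit 514) (nat_lit 337) (nat_lit 289)))) (XT.nd (nat_lit 156) (nat_lit 76) (nat_lit 0) (XT.nd (nat_lit 78) (nat_lit 0) (nat_lit 0) (XT.lf (nat_lit 0) (nat_lit 2814977695) (nat_lit 228) (nat_lit 12617461228) (nat_lit 76) (nat_lit 6054361632) (nat_lit 17) (nat_lit 5) (nat_lit 20) (nat_lit 5) (nat_lit 18) (nat_lit 4) (nat_lit 515) (nat_lit 337) (nat_lit 288)) (XT.lf (nat_lit 0) (nat_lit 6231153451) (nat_lit 228) (nat_lit 5935784136) (nat_lit 76) (nat_lit 9669509596) (nat_lit 17) (nat_lit 5) (nat_lit 20) (nat_lit 5) (nat_lit 18) (nat_lit 4) (nat_lit 516) (nat_lit 337) (nat_lit 287))) (XT.nd (nat_lit 78) (nat_lit 0) (nat_lit 0) (XT.lf (nat_lit 0) (nat_lit 832182175) (nat_lit 76) (nat_lit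 8855738685) (nat_lit 152) (nat_lit 12505731734) (nat_lit 16) (nat_lit 5) (nat_lit 17) (nat_lit 5) (nat_lit 18) (nat_lit 4) (nat_lit 517) (nat_lit 337) (nat_lit 286)) (XT.lf (nat_lit 0) (nat_lit 7758093669) (nat_lit 76) (nat_lit 5462701186) (nat_lit 152) (nat_lit 9337078828) (nat_lit 16) (nat_lit 5) (nat_lit 17) (nat_lit 5) (nat_lit 18) (nat_lit 4) (nat_lit 518) (nat_lit 337) (nat_lit 285)))))) (XT.nd (nat_lit 546) (nat_lit 228) (nat_lit 0) (XT.nd (nat_lit 234) (nat_lit 76) (nat_lit 0) (XT.nd (nat_lit 78) (nat_lit 228) (nat_lit 0) (XT.lf (nat_lit 0) (nat_lit 14765782941) (nat_lit 76) (nat_lit 2026326724) (nat_lit 152) (nat_lit 6137924641) (nat_lit 16) (nat_lit 5) (nat_lit 17) (nat_lit 5) (nat_lit 18) (nat_lit 4) (nat_lit 519) (nat_lit 337) (nat_lit 284)) (XT.nd (nat_lit 78) (nat_lit 228) (nat_lit 0) (XT.lf (nat_lit 0) (nat_lit 20412710892) (nat_lit 152) (nat_lit 1461727391) (nat_lit 0) (nat_lit 1435653223)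 (nat_lit 16) (nat_lit 5) (nat_lit 18) (nat_lit 4) (nat_lit 16) (nat_lit 4) (nat_lit 520) (nat_lit 337) (nat_lit 283)) (XT.lf (nat_lit 0) (nat_lit 419938699) (nat_lit 228) (nat_lit 18323245393) (nat_lit 76) (nat_lit 4954176636) (nat_lit 13) (nat_lit 5) (nat_lit 16) (nat_lit 5) (nat_lit 14) (nat_lit 4) (nat_lit 521) (nat_lit 337) (nat_lit 282)))) (XT.nd (nat_lit 156) (nat_lit 76) (nat_lit 0) (XT.nd (nat_lit 78) (nat_lit 0) (nat_lit 0) (XT.lf (nat_lit 0) (nat_lit 3743640882) (nat_lit 228) (nat_lit 11800017864) (nat_lit 76) (nat_lit 8548766866) (nat_lit 13) (nat_lit 5) (nat_lit 16) (nat_lit 5) (nat_lit 14) (nat_lit 4) (nat_lit 522) (nat_lit 337) (nat_lit 281)) (XT.lf (nat_lit 0) (nat_lit 7103348699) (nat_lit 228) (nat_lit 5200320701) (nat_lit 76) (nat_lit 12192341523) (nat_lit 13) (nat_lit 5) (nat_lit 16) (nat_lit 5) (nat_lit 14) (nat_lit 4) (nat_lit 523) (nat_lit 337) (nat_lit 280))) (XT.nd (nat_lit 78)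 (nat_lit 0) (nat_lit 0) (XT.lf (nat_lit 0) (nat_lit 1498081824) (nat_lit 76) (nat_lit 9012024399) (nat_lit 152) (nat_lit 14397974177) (nat_lit 12) (nat_lit 5) (nat_lit 13) (nat_lit 5) (nat_lit 14) (nat_lit 4) (nat_lit 524) (nat_lit 337) (nat_lit 279)) (XT.lf (nat_lit 0) (nat_lit 8348356189) (nat_lit 76) (nat_lit 5641912879) (nat_lit 152) (nat_lit 11338026179) (nat_lit 12) (nat_lit 5) (nat_lit 13) (nat_lit 5) (nat_lit 14) (nat_lit 4) (nat_lit 525) (nat_lit 337) (nat_lit 278))))) (XT.nd (nat_lit 234) (nat_lit 76) (nat_lit 0) (XT.nd (nat_lit 78) (nat_lit 152) (nat_lit 0) (XT.lf (nat_lit 0) (nat_lit 15284079249) (nat_lit 76) (nat_lit 2226910117) (nat_lit 152) (nat_lit 8246515140) (nat_lit 12) (nat_lit 5) (nat_lit 13) (nat_lit 5) (nat_lit 14) (nat_lit 4) (nat_lit 526) (nat_lit 337) (nat_lit 277)) (XT.nd (nat_lit 78) (nat_lit 152) (nat_lit 0) (XT.lf (nat_lit 0) (nat_lit 21081661839) (nat_lit 152) (nat_lit 3895919645)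 (nat_lit 0) (nat_lit 1218134732) (nat_lit 12) (nat_lit 5) (nat_lit 14) (nat_lit 4) (nat_lit 12) (nat_lit 4) (nat_lit 527) (nat_lit 337) (nat_lit 276)) (XT.lf (nat_lit 0) (nat_lit 2784931713) (nat_lit 152) (nat_lit 21943587019) (nat_lit 152) (nat_lit 1914086849) (nat_lit 10) (nat_lit 4) (nat_lit 12) (nat_lit 5) (nat_lit 12) (nat_lit 4) (nat_lit 528) (nat_lit 337) (nat_lit 275)))) (XT.nd (nat_lit 54288) (nat_lit 0) (nat_lit 6536) (XT.nd (nat_lit 78) (nat_lit 0) (nat_lit 0) (XT.lf (nat_lit 0) (nat_lit 1330469441) (nat_lit 228) (nat_lit 17504670589) (nat_lit 76) (nat_lit 8263160049) (nat_lit 9) (nat_lit 5) (nat_lit 12) (nat_lit 5) (nat_lit 10) (nat_lit 4) (nat_lit 529) (nat_lit 337) (nat_lit 274)) (XT.lf (nat_lit 0) (nat_lit 4586837195) (nat_lit 228) (nat_lit 11086335853) (nat_lit 76) (nat_lit 11890239710) (nat_lit 9) (nat_lit 5) (nat_lit 12) (nat_lit 5) (nat_lit 10) (nat_lit 4) (nat_lit 530) (nat_lit 337)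 (nat_lit 273))) (XT.nd (nat_lit 78) (nat_lit 304) (nat_lit 0) (XT.lf (nat_lit 0) (nat_lit 2050902021) (nat_lit 380) (nat_lit 1215603098) (nat_lit 0) (nat_lit 2050902021) (nat_lit 99) (nat_lit 5) (nat_lit 104) (nat_lit 4) (nat_lit 99) (nat_lit 4) (nat_lit 464) (nat_lit 338) (nat_lit 338)) (XT.lf (nat_lit 0) (nat_lit 4471910063) (nat_lit 304) (nat_lit 3514435551) (nat_lit 304) (nat_lit 2766867615) (nat_lit 95) (nat_lit 4) (nat_lit 99) (nat_lit 5) (nat_lit 99) (nat_lit 4) (nat_lit 465) (nat_lit 338) (nat_lit 337))))))) (XT.nd (nat_lit 1014) (nat_lit 1748) (nat_lit 0) (XT.nd (nat_lit 468) (nat_lit 1140) (nat_lit 0) (XT.nd (nat_lit 234) (nat_lit 608) (nat_lit 0) (XT.nd (nat_lit 78) (nat_lit 304) (nat_lit 0) (XT.lf (nat_lit 0) (nat_lit 581086264) (nat_lit 304) (nat_lit 439489943) (nat_lit 380) (nat_lit 9854101250) (nat_lit 90) (nat_lit 5) (nat_lit 94) (nat_lit 5) (nat_lit 95) (nat_lit 4) (nat_lit 466) (nat_lit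 338) (nat_lit 336)) (XT.nd (nat_lit 78) (nat_lit 304) (nat_lit 0) (XT.lf (nat_lit 0) (nat_lit 4846952691) (nat_lit 380) (nat_lit 3460231358) (nat_lit 0) (nat_lit 2691054027) (nat_lit 90) (nat_lit 5) (nat_lit 95) (nat_lit 4) (nat_lit 90) (nat_lit 4) (nat_lit 467) (nat_lit 338) (nat_lit 335)) (XT.lf (nat_lit 0) (nat_lit 3461838348) (nat_lit 304) (nat_lit 5254833961) (nat_lit 304) (nat_lit 2408298079) (nat_lit 86) (nat_lit 4) (nat_lit 90) (nat_lit 5) (nat_lit 90) (nat_lit 4) (nat_lit 468) (nat_lit 338) (nat_lit 334)))) (XT.nd (nat_lit 78) (nat_lit 532) (nat_lit 0) (XT.lf (nat_lit 0) (nat_lit 1356010076) (nat_lit 380) (nat_lit 784490838) (nat_lit 76) (nat_lit 9114289810) (nat_lit 85) (nat_lit 5) (nat_lit 90) (nat_lit 5) (nat_lit 86) (nat_lit 4) (nat_lit 469) (nat_lit 338) (nat_lit 333)) (XT.nd (nat_lit 78) (nat_lit 304) (nat_lit 0) (XT.lf (nat_lit 0) (nat_lit 5153309859) (nat_lit 304) (nat_lit 5185848253)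 (nat_lit 0) (nat_lit 1047966598) (nat_lit 82) (nat_lit 5) (nat_lit 86) (nat_lit 4) (nat_lit 82) (nat_lit 4) (nat_lit 470) (nat_lit 338) (nat_lit 332)) (XT.lf (nat_lit 0) (nat_lit 1734665839) (nat_lit 304) (nat_lit 7265691396) (nat_lit 304) (nat_lit 2522306101) (nat_lit 78) (nat_lit 4) (nat_lit 82) (nat_lit 5) (nat_lit 82) (nat_lit 4) (nat_lit 471) (nat_lit 338) (nat_lit 331))))) (XT.nd (nat_lit 234) (nat_lit 836) (nat_lit 0) (XT.nd (nat_lit 78) (nat_lit 228) (nat_lit 0) (XT.lf (nat_lit 0) (nat_lit 1225091446) (nat_lit 380) (nat_lit 2894231979) (nat_lit 76) (nat_lit 7541893345) (nat_lit 77) (nat_lit 5) (nat_lit 82) (nat_lit 5) (nat_lit 78) (nat_lit 4) (nat_lit 472) (nat_lit 338) (nat_lit 330)) (XT.nd (nat_lit 78) (nat_lit 0) (nat_lit 0) (XT.lf (nat_lit 0) (nat_lit 4086587949) (nat_lit 228) (nat_lit 897952019) (nat_lit 304) (nat_lit 6818282353) (nat_lit 74) (nat_lit 5) (nat_lit 77) (nat_lit 5) (nat_lit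 78) (nat_lit 4) (nat_lit 473) (nat_lit 338) (nat_lit 329)) (XT.lf (nat_lit 0) (nat_lit 8798862247) (nat_lit 304) (nat_lit 804310495) (nat_lit 0) (nat_lit 2344524947) (nat_lit 74) (nat_lit 5) (nat_lit 78) (nat_lit 4) (nat_lit 74) (nat_lit 4) (nat_lit 474) (nat_lit 338) (nat_lit 328)))) (XT.nd (nat_lit 156) (nat_lit 228) (nat_lit 0) (XT.nd (nat_lit 78) (nat_lit 228) (nat_lit 0) (XT.lf (nat_lit 0) (nat_lit 578274833) (nat_lit 380) (nat_lit 5864116466) (nat_lit 76) (nat_lit 5653191020) (nat_lit 69) (nat_lit 5) (nat_lit 74) (nat_lit 5) (nat_lit 70) (nat_lit 4) (nat_lit 475) (nat_lit 338) (nat_lit 327)) (XT.lf (nat_lit 0) (nat_lit 1079291987) (nat_lit 228) (nat_lit 3216790529) (nat_lit 304) (nat_lit 7950789078) (nat_lit 66) (nat_lit 5) (nat_lit 69) (nat_lit 5) (nat_lit 70) (nat_lit 4) (nat_lit 476) (nat_lit 338) (nat_lit 326))) (XT.nd (nat_lit 78) (nat_lit 228) (nat_lit 0) (XT.lf (nat_lit 0) (nat_lit 8074466759)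 (nat_lit 304) (nat_lit 4246919195) (nat_lit 0) (nat_lit 80105304) (nat_lit 66) (nat_lit 5) (nat_lit 70) (nat_lit 4) (nat_lit 66) (nat_lit 4) (nat_lit 477) (nat_lit 338) (nat_lit 325)) (XT.lf (nat_lit 0) (nat_lit 2741670285) (nat_lit 228) (nat_lit 9173041054) (nat_lit 228) (nat_lit 644794566) (nat_lit 63) (nat_lit 4) (nat_lit 66) (nat_lit 5) (nat_lit 66) (nat_lit 4) (nat_lit 478) (nat_lit 338) (nat_lit 324)))))) (XT.nd (nat_lit 546) (nat_lit 912) (nat_lit 0) (XT.nd (nat_lit 234) (nat_lit 532) (nat_lit 0) (XT.nd (nat_lit 78) (nat_lit 228) (nat_lit 0) (XT.lf (nat_lit 0) (nat_lit 3046266388) (nat_lit 304) (nat_lit 2898205080) (nat_lit 76) (nat_lit 6776312955) (nat_lit 62) (nat_lit 5) (nat_lit 66) (nat_lit 5) (nat_lit 63) (nat_lit 4) (nat_lit 479) (nat_lit 338) (nat_lit 323)) (XT.nd (nat_lit 78) (nat_lit 0) (nat_lit 0) (XT.lf (nat_lit 0) (nat_lit 4126028227) (nat_lit 228) (nat_lit 2651617831) (nat_lit 304)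 (nat_lit 6108081388) (nat_lit 59) (nat_lit 5) (nat_lit 62) (nat_lit 5) (nat_lit 63) (nat_lit 4) (nat_lit 480) (nat_lit 338) (nat_lit 322)) (XT.lf (nat_lit 0) (nat_lit 10556422395) (nat_lit 304) (nat_lit 1812194065) (nat_lit 0) (nat_lit 685923766) (nat_lit 59) (nat_lit 5) (nat_lit 63) (nat_lit 4) (nat_lit 59) (nat_lit 4) (nat_lit 481) (nat_lit 338) (nat_lit 321)))) (XT.nd (nat_lit 156) (nat_lit 228) (nat_lit 0) (XT.nd (nat_lit 78) (nat_lit 0) (nat_lit 0) (XT.lf (nat_lit 0) (nat_lit 1169709957) (nat_lit 304) (nat_lit 7991240637) (nat_lit 76) (nat_lit 4065626291) (nat_lit 55) (nat_lit 5) (nat_lit 59) (nat_lit 5) (nat_lit 56) (nat_lit 4) (nat_lit 482) (nat_lit 338) (nat_lit 320)) (XT.lf (nat_lit 0) (nat_lit 4839427532) (nat_lit 304) (nat_lit 1052485765) (nat_lit 76) (nat_lit 7510595830) (nat_lit 55) (nat_lit 5) (nat_lit 59) (nat_lit 5) (nat_lit 56) (nat_lit 4) (nat_lit 483) (nat_lit 338) (nat_lit 319))) (XT.nd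 (nat_lit 78) (nat_lit 0) (nat_lit 0) (XT.lf (nat_lit 0) (nat_lit 6023223910) (nat_lit 228) (nat_lit 2549118832) (nat_lit 304) (nat_lit 5009845482) (nat_lit 52) (nat_lit 5) (nat_lit 55) (nat_lit 5) (nat_lit 56) (nat_lit 4) (nat_lit 484) (nat_lit 338) (nat_lit 318)) (XT.lf (nat_lit 0) (nat_lit 12343550860) (nat_lit 304) (nat_lit 597320256) (nat_lit 0) (nat_lit 825340894) (nat_lit 52) (nat_lit 5) (nat_lit 56) (nat_lit 4) (nat_lit 52) (nat_lit 4) (nat_lit 485) (nat_lit 338) (nat_lit 317))))) (XT.nd (nat_lit 234) (nat_lit 456) (nat_lit 0) (XT.nd (nat_lit 78) (nat_lit 152) (nat_lit 0) (XT.lf (nat_lit 0) (nat_lit 2217921271) (nat_lit 304) (nat_lit 7475980677) (nat_lit 76) (nat_lit 4259527145) (nat_lit 48) (nat_lit 5) (nat_lit 52) (nat_lit 5) (nat_lit 49) (nat_lit 4) (nat_lit 486) (nat_lit 338) (nat_lit 316)) (XT.nd (nat_lit 78) (nat_lit 152) (nat_lit 0) (XT.lf (nat_lit 0) (nat_lit 5868310704) (nat_lit 304) (nat_lit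 531578020) (nat_lit 76) (nat_lit 7745215247) (nat_lit 48) (nat_lit 5) (nat_lit 52) (nat_lit 5) (nat_lit 49) (nat_lit 4) (nat_lit 487) (nat_lit 338) (nat_lit 315)) (XT.lf (nat_lit 0) (nat_lit 6559676554) (nat_lit 152) (nat_lit 3027554585) (nat_lit 228) (nat_lit 4753492731) (nat_lit 46) (nat_lit 5) (nat_lit 48) (nat_lit 5) (nat_lit 49) (nat_lit 4) (nat_lit 488) (nat_lit 338) (nat_lit 314)))) (XT.nd (nat_lit 156) (nat_lit 152) (nat_lit 0) (XT.nd (nat_lit 78) (nat_lit 304) (nat_lit 0) (XT.lf (nat_lit 0) (nat_lit 13339949339) (nat_lit 228) (nat_lit 821230699) (nat_lit 0) (nat_lit 379909297) (nat_lit 46) (nat_lit 5) (nat_lit 49) (nat_lit 4) (nat_lit 46) (nat_lit 4) (nat_lit 489) (nat_lit 338) (nat_lit 313)) (XT.lf (nat_lit 0) (nat_lit 2405353420) (nat_lit 304) (nat_lit 8497910575) (nat_lit 76) (nat_lit 3841607055) (nat_lit 42) (nat_lit 5) (nat_lit 46) (nat_lit 5) (nat_lit 43) (nat_lit 4) (nat_lit 490) (nat_lit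 338) (nat_lit 312))) (XT.nd (nat_lit 78) (nat_lit 152) (nat_lit 0) (XT.lf (nat_lit 0) (nat_lit 6027610033) (nat_lit 304) (nat_lit 1569858534) (nat_lit 76) (nat_lit 7355927023) (nat_lit 42) (nat_lit 5) (nat_lit 46) (nat_lit 5) (nat_lit 43) (nat_lit 4) (nat_lit 491) (nat_lit 338) (nat_lit 311)) (XT.lf (nat_lit 0) (nat_lit 5493412662) (nat_lit 152) (nat_lit 4219619103) (nat_lit 228) (nat_lit 5453264370) (nat_lit 40) (nat_lit 5) (nat_lit 42) (nat_lit 5) (nat_lit 43) (nat_lit 4) (nat_lit 492) (nat_lit 338) (nat_lit 310))))))))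
noncomputable def xc21 : XT := (XT.nd (nat_lit 2106) (nat_lit 532) (nat_lit 0) (XT.nd (nat_lit 1014) (nat_lit 760) (nat_lit 0) (XT.nd (nat_lit 468) (nat_lit 456) (nat_lit 0) (XT.nd (nat_lit 234) (nat_lit 304) (nat_lit 0) (XT.nd (nat_lit 78) (nat_lit 304) (nat_lit 0) (XT.lf (nat_lit 0) (nat_lit 12644336130) (nat_lit 152) (nat_lit 793808545) (nat_lit 228) (nat_lit 1946009886) (nat_lit 40) (nat_lit 5) (nat_lit 42) (nat_lit 5) (nat_lit 43) (nat_lit 4) (nat_lit 493) (nat_lit 338) (nat_lit 309)) (XT.nd (nat_lit 78) (nat_lit 0) (nat_lit 0) (XT.lf (nat_lit 0) (nat_lit 1611543688) (nat_lit 304) (nat_lit 11320359420) (nat_lit 76) (nat_lit 2674242972) (nat_lit 36) (nat_lit 5) (nat_lit 40) (nat_lit 5) (nat_lit 37) (nat_lit 4) (nat_lit 494) (nat_lit 338) (nat_lit 308)) (XT.lf (nat_lit 0) (nat_lit 5194184209) (nat_lit 304) (nat_lit 4435670000) (nat_lit 76) (nat_lit 6202884496) (nat_lit 36) (nat_lit 5) (nat_lit 40)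 (nat_lit 5) (nat_lit 37) (nat_lit 4) (nat_lit 495) (nat_lit 338) (nat_lit 307)))) (XT.nd (nat_lit 78) (nat_lit 152) (nat_lit 0) (XT.lf (nat_lit 0) (nat_lit 2547340818) (nat_lit 152) (nat_lit 6274738687) (nat_lit 228) (nat_lit 7242329676) (nat_lit 34) (nat_lit 5) (nat_lit 36) (nat_lit 5) (nat_lit 37) (nat_lit 4) (nat_lit 496) (nat_lit 338) (nat_lit 306)) (XT.nd (nat_lit 78) (nat_lit 152) (nat_lit 0) (XT.lf (nat_lit 0) (nat_lit 9657836130) (nat_lit 152) (nat_lit 2851897664) (nat_lit 228) (nat_lit 3791252933) (nat_lit 34) (nat_lit 5) (nat_lit 36) (nat_lit 5) (nat_lit 37) (nat_lit 4) (nat_lit 497) (nat_lit 338) (nat_lit 305)) (XT.lf (nat_lit 0) (nat_lit 296434556) (nat_lit 152) (nat_lit 15938863388) (nat_lit 152) (nat_lit 307732082) (nat_lit 32) (nat_lit 4) (nat_lit 34) (nat_lit 5) (nat_lit 34) (nat_lit 4) (nat_lit 498) (nat_lit 338) (nat_lit 304))))) (XT.nd (nat_lit 234) (nat_lit 228) (nat_lit 0) (XT.nd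 (nat_lit 78) (nat_lit 152) (nat_lit 0) (XT.lf (nat_lit 0) (nat_lit 3224804594) (nat_lit 228) (nat_lit 9436064661) (nat_lit 76) (nat_lit 4128201962) (nat_lit 31) (nat_lit 5) (nat_lit 34) (nat_lit 5) (nat_lit 32) (nat_lit 4) (nat_lit 499) (nat_lit 338) (nat_lit 303)) (XT.nd (nat_lit 78) (nat_lit 152) (nat_lit 0) (XT.lf (nat_lit 0) (nat_lit 6782845114) (nat_lit 228) (nat_lit 2561605786) (nat_lit 76) (nat_lit 7696378513) (nat_lit 31) (nat_lit 5) (nat_lit 34) (nat_lit 5) (nat_lit 32) (nat_lit 4) (nat_lit 500) (nat_lit 338) (nat_lit 302)) (XT.lf (nat_lit 0) (nat_lit 4439702519) (nat_lit 152) (nat_lit 5960943725) (nat_lit 228) (nat_lit 6897220550) (nat_lit 29) (nat_lit 5) (nat_lit 31) (nat_lit 5) (nat_lit 32) (nat_lit 4) (nat_lit 501) (nat_lit 338) (nat_lit 301)))) (XT.nd (nat_lit 156) (nat_lit 76) (nat_lit 0) (XT.nd (nat_lit 78) (nat_lit 152) (nat_lit 0) (XT.lf (nat_lit 0) (nat_lit 11547346061) (nat_lit 152)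 (nat_lit 2520765913) (nat_lit 228) (nat_lit 3492402480) (nat_lit 29) (nat_lit 5) (nat_lit 31) (nat_lit 5) (nat_lit 32) (nat_lit 4) (nat_lit 502) (nat_lit 338) (nat_lit 300)) (XT.lf (nat_lit 0) (nat_lit 906511852) (nat_lit 152) (nat_lit 16875436207) (nat_lit 152) (nat_lit 47021980) (nat_lit 27) (nat_lit 4) (nat_lit 29) (nat_lit 5) (nat_lit 29) (nat_lit 4) (nat_lit 503) (nat_lit 338) (nat_lit 299))) (XT.nd (nat_lit 78) (nat_lit 0) (nat_lit 0) (XT.lf (nat_lit 0) (nat_lit 3439884893) (nat_lit 228) (nat_lit 10163143920) (nat_lit 76) (nat_lit 4498968633) (nat_lit 26) (nat_lit 5) (nat_lit 29) (nat_lit 5) (nat_lit 27) (nat_lit 4) (nat_lit 504) (nat_lit 338) (nat_lit 298)) (XT.lf (nat_lit 0) (nat_lit 6957449904) (nat_lit 228) (nat_lit 3335404929) (nat_lit 76) (nat_lit 8088407865) (nat_lit 26) (nat_lit 5) (nat_lit 29) (nat_lit 5) (nat_lit 27) (nat_lit 4) (nat_lit 505) (nat_lit 338) (nat_lit 297)))))) (XT.nd (nat_lit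 546) (nat_lit 304) (nat_lit 0) (XT.nd (nat_lit 234) (nat_lit 304) (nat_lit 0) (XT.nd (nat_lit 78) (nat_lit 0) (nat_lit 0) (XT.lf (nat_lit 0) (nat_lit 3611101878) (nat_lit 152) (nat_lit 6920012982) (nat_lit 228) (nat_lit 8135297645) (nat_lit 24) (nat_lit 5) (nat_lit 26) (nat_lit 5) (nat_lit 27) (nat_lit 4) (nat_lit 506) (nat_lit 338) (nat_lit 296)) (XT.nd (nat_lit 78) (nat_lit 0) (nat_lit 0) (XT.lf (nat_lit 0) (nat_lit 10677032499) (nat_lit 152) (nat_lit 3484224876) (nat_lit 228) (nat_lit 4796321791) (nat_lit 24) (nat_lit 5) (nat_lit 26) (nat_lit 5) (nat_lit 27) (nat_lit 4) (nat_lit 507) (nat_lit 338) (nat_lit 295)) (XT.lf (nat_lit 0) (nat_lit 17820832111) (nat_lit 152) (nat_lit 6525469) (nat_lit 228) (nat_lit 1427958153) (nat_lit 24) (nat_lit 5) (nat_lit 26) (nat_lit 5) (nat_lit 27) (nat_lit 4) (nat_lit 508) (nat_lit 338) (nat_lit 294)))) (XT.nd (nat_lit 156) (nat_lit 76) (nat_lit 0) (XT.nd (nat_lit 78)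 (nat_lit 0) (nat_lit 0) (XT.lf (nat_lit 0) (nat_lit 2004409045) (nat_lit 228) (nat_lit 14036408614) (nat_lit 76) (nat_lit 3517482424) (nat_lit 21) (nat_lit 5) (nat_lit 24) (nat_lit 5) (nat_lit 22) (nat_lit 4) (nat_lit 509) (nat_lit 338) (nat_lit 293)) (XT.lf (nat_lit 0) (nat_lit 5460009891) (nat_lit 228) (nat_lit 7302722147) (nat_lit 76) (nat_lit 7104962054) (nat_lit 21) (nat_lit 5) (nat_lit 24) (nat_lit 5) (nat_lit 22) (nat_lit 4) (nat_lit 510) (nat_lit 338) (nat_lit 292))) (XT.nd (nat_lit 78) (nat_lit 76) (nat_lit 0) (XT.lf (nat_lit 0) (nat_lit 8949385190) (nat_lit 228) (nat_lit 495975459) (nat_lit 76) (nat_lit 10738634713) (nat_lit 21) (nat_lit 5) (nat_lit 24) (nat_lit 5) (nat_lit 22) (nat_lit 4) (nat_lit 511) (nat_lit 338) (nat_lit 291)) (XT.lf (nat_lit 0) (nat_lit 6471373997) (nat_lit 76) (nat_lit 6044545778) (nat_lit 152) (nat_lit 7990567827) (nat_lit 20) (nat_lit 5) (nat_lit 21) (nat_lit 5) (nat_lit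 22) (nat_lit 4) (nat_lit 512) (nat_lit 338) (nat_lit 290))))) (XT.nd (nat_lit 234) (nat_lit 76) (nat_lit 0) (XT.nd (nat_lit 78) (nat_lit 228) (nat_lit 0) (XT.lf (nat_lit 0) (nat_lit 13524785526) (nat_lit 76) (nat_lit 2597972807) (nat_lit 152) (nat_lit 4713304027) (nat_lit 20) (nat_lit 5) (nat_lit 21) (nat_lit 5) (nat_lit 22) (nat_lit 4) (nat_lit 513) (nat_lit 338) (nat_lit 289)) (XT.nd (nat_lit 78) (nat_lit 228) (nat_lit 0) (XT.lf (nat_lit 0) (nat_lit 19773846247) (nat_lit 152) (nat_lit 518274157) (nat_lit 0) (nat_lit 880677858) (nat_lit 20) (nat_lit 5) (nat_lit 22) (nat_lit 4) (nat_lit 20) (nat_lit 4) (nat_lit 514) (nat_lit 338) (nat_lit 288)) (XT.lf (nat_lit 0) (nat_lit 1981558564) (nat_lit 228) (nat_lit 15109418022) (nat_lit 76) (nat_lit 4424529171) (nat_lit 17) (nat_lit 5) (nat_lit 20) (nat_lit 5) (nat_lit 18) (nat_lit 4) (nat_lit 515) (nat_lit 338) (nat_lit 287)))) (XT.nd (nat_lit 156) (nat_lit 76)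 (nat_lit 0) (XT.nd (nat_lit 78) (nat_lit 0) (nat_lit 0) (XT.lf (nat_lit 0) (nat_lit 5381330884) (nat_lit 228) (nat_lit 8456581791) (nat_lit 76) (nat_lit 8027573329) (nat_lit 17) (nat_lit 5) (nat_lit 20) (nat_lit 5) (nat_lit 18) (nat_lit 4) (nat_lit 516) (nat_lit 338) (nat_lit 286)) (XT.lf (nat_lit 0) (nat_lit 8816613417) (nat_lit 228) (nat_lit 1727805052) (nat_lit 76) (nat_lit 11678708087) (nat_lit 17) (nat_lit 5) (nat_lit 20) (nat_lit 5) (nat_lit 18) (nat_lit 4) (nat_lit 517) (nat_lit 338) (nat_lit 285))) (XT.nd (nat_lit 78) (nat_lit 0) (nat_lit 0) (XT.lf (nat_lit 0) (nat_lit 5147055488) (nat_lit 76) (nat_lit 7175115941) (nat_lit 152) (nat_lit 10265727872) (nat_lit 16) (nat_lit 5) (nat_lit 17) (nat_lit 5) (nat_lit 18) (nat_lit 4) (nat_lit 518) (nat_lit 338) (nat_lit 284)) (XT.lf (nat_lit 0) (nat_lit 12127206198) (nat_lit 76) (nat_lit 3750643918) (nat_lit 152) (nat_lit 7082527761) (nat_lit 16) (nat_lit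 5) (nat_lit 17) (nat_lit 5) (nat_lit 18) (nat_lit 4) (nat_lit 519) (nat_lit 338) (nat_lit 283))))))) (XT.nd (nat_lit 55068) (nat_lit 0) (nat_lit 4104) (XT.nd (nat_lit 546) (nat_lit 228) (nat_lit 0) (XT.nd (nat_lit 234) (nat_lit 76) (nat_lit 0) (XT.nd (nat_lit 78) (nat_lit 228) (nat_lit 0) (XT.lf (nat_lit 0) (nat_lit 19192422772) (nat_lit 76) (nat_lit 281253953) (nat_lit 152) (nat_lit 3867258973) (nat_lit 16) (nat_lit 5) (nat_lit 17) (nat_lit 5) (nat_lit 18) (nat_lit 4) (nat_lit 520) (nat_lit 338) (nat_lit 282)) (XT.nd (nat_lit 78) (nat_lit 76) (nat_lit 0) (XT.lf (nat_lit 0) (nat_lit 2629236828) (nat_lit 152) (nat_lit 20519895267) (nat_lit 152) (nat_lit 579828492) (nat_lit 14) (nat_lit 4) (nat_lit 16) (nat_lit 5) (nat_lit 16) (nat_lit 4) (nat_lit 521) (nat_lit 338) (nat_lit 281)) (XT.lf (nat_lit 0) (nat_lit 2736394873) (nat_lit 228) (nat_lit 14599461757) (nat_lit 76) (nat_lit 6788550634) (nat_lit 13) (nat_lit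 5) (nat_lit 16) (nat_lit 5) (nat_lit 14) (nat_lit 4) (nat_lit 522) (nat_lit 338) (nat_lit 280)))) (XT.nd (nat_lit 156) (nat_lit 76) (nat_lit 0) (XT.nd (nat_lit 78) (nat_lit 0) (nat_lit 0) (XT.lf (nat_lit 0) (nat_lit 6081315072) (nat_lit 228) (nat_lit 8025970629) (nat_lit 76) (nat_lit 10421007364) (nat_lit 13) (nat_lit 5) (nat_lit 16) (nat_lit 5) (nat_lit 14) (nat_lit 4) (nat_lit 523) (nat_lit 338) (nat_lit 279)) (XT.lf (nat_lit 0) (nat_lit 9463848391) (nat_lit 228) (nat_lit 1372907907) (nat_lit 76) (nat_lit 14104095374) (nat_lit 13) (nat_lit 5) (nat_lit 16) (nat_lit 5) (nat_lit 14) (nat_lit 4) (nat_lit 524) (nat_lit 338) (nat_lit 278))) (XT.nd (nat_lit 78) (nat_lit 0) (nat_lit 0) (XT.lf (nat_lit 0) (nat_lit 5433598069) (nat_lit 76) (nat_lit 7487001767) (nat_lit 152) (nat_lit 12440939466) (nat_lit 12) (nat_lit 5) (nat_lit 13) (nat_lit 5) (nat_lit 14) (nat_lit 4) (nat_lit 525) (nat_lit 338) (nat_lit 277))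 (XT.lf (nat_lit 0) (nat_lit 12344298419) (nat_lit 76) (nat_lit 4082924549) (nat_lit 152) (nat_lit 9363812002) (nat_lit 12) (nat_lit 5) (nat_lit 13) (nat_lit 5) (nat_lit 14) (nat_lit 4) (nat_lit 526) (nat_lit 338) (nat_lit 276))))) (XT.nd (nat_lit 234) (nat_lit 0) (nat_lit 0) (XT.nd (nat_lit 78) (nat_lit 228) (nat_lit 0) (XT.lf (nat_lit 0) (nat_lit 19343657997) (nat_lit 76) (nat_lit 632402646) (nat_lit 152) (nat_lit 6253627108) (nat_lit 12) (nat_lit 5) (nat_lit 13) (nat_lit 5) (nat_lit 14) (nat_lit 4) (nat_lit 527) (nat_lit 338) (nat_lit 275)) (XT.nd (nat_lit 78) (nat_lit 228) (nat_lit 0) (XT.lf (nat_lit 0) (nat_lit 23587111997) (nat_lit 152) (nat_lit 261855452) (nat_lit 0) (nat_lit 2828330069) (nat_lit 12) (nat_lit 5) (nat_lit 14) (nat_lit 4) (nat_lit 12) (nat_lit 4) (nat_lit 528) (nat_lit 338) (nat_lit 274)) (XT.lf (nat_lit 0) (nat_lit 154460382) (nat_lit 228) (nat_lit 20606300082) (nat_lit 76) (nat_lit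 6372695100) (nat_lit 9) (nat_lit 5) (nat_lit 12) (nat_lit 5) (nat_lit 10) (nat_lit 4) (nat_lit 529) (nat_lit 338) (nat_lit 273)))) (XT.nd (nat_lit 54132) (nat_lit 0) (nat_lit 6840) (XT.nd (nat_lit 54054) (nat_lit 0) (nat_lit 7220) (XT.lf (nat_lit 0) (nat_lit 3397493834) (nat_lit 228) (nat_lit 14211772636) (nat_lit 76) (nat_lit 9989572505) (nat_lit 9) (nat_lit 5) (nat_lit 12) (nat_lit 5) (nat_lit 10) (nat_lit 4) (nat_lit 530) (nat_lit 338) (nat_lit 272)) (XT.lf (nat_lit 0) (nat_lit 2452652745) (nat_lit 380) (nat_lit 1375023636) (nat_lit 380) (nat_lit 1375023636) (nat_lit 104) (nat_lit 4) (nat_lit 109) (nat_lit 5) (nat_lit 109) (nat_lit 4) (nat_lit 462) (nat_lit 339) (nat_lit 339))) (XT.nd (nat_lit 78) (nat_lit 0) (nat_lit 0) (XT.lf (nat_lit 0) (nat_lit 1025315605) (nat_lit 380) (nat_lit 9231276688) (nat_lit 0) (nat_lit 262796311) (nat_lit 99) (nat_lit 5) (nat_lit 104) (nat_lit 4) (nat_lit 99) (nat_lit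 4) (nat_lit 463) (nat_lit 339) (nat_lit 338)) (XT.lf (nat_lit 0) (nat_lit 4834481297) (nat_lit 380) (nat_lit 2476555476) (nat_lit 0) (nat_lit 3324394067) (nat_lit 99) (nat_lit 5) (nat_lit 104) (nat_lit 4) (nat_lit 99) (nat_lit 4) (nat_lit 464) (nat_lit 339) (nat_lit 337)))))) (XT.nd (nat_lit 546) (nat_lit 1140) (nat_lit 0) (XT.nd (nat_lit 234) (nat_lit 912) (nat_lit 0) (XT.nd (nat_lit 78) (nat_lit 380) (nat_lit 0) (XT.lf (nat_lit 0) (nat_lit 4380907187) (nat_lit 304) (nat_lit 4308267927) (nat_lit 304) (nat_lit 2065270957) (nat_lit 95) (nat_lit 4) (nat_lit 99) (nat_lit 5) (nat_lit 99) (nat_lit 4) (nat_lit 465) (nat_lit 339) (nat_lit 336)) (XT.nd (nat_lit 78) (nat_lit 0) (nat_lit 0) (XT.lf (nat_lit 0) (nat_lit 437842699) (nat_lit 304) (nat_lit 1245018008) (nat_lit 380) (nat_lit 9193579277) (nat_lit 90) (nat_lit 5) (nat_lit 94) (nat_lit 5) (nat_lit 95) (nat_lit 4) (nat_lit 466) (nat_lit 339) (nat_lit 335))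 (XT.lf (nat_lit 0) (nat_lit 5475011389) (nat_lit 380) (nat_lit 3644784372) (nat_lit 0) (nat_lit 1880907572) (nat_lit 90) (nat_lit 5) (nat_lit 95) (nat_lit 4) (nat_lit 90) (nat_lit 4) (nat_lit 467) (nat_lit 339) (nat_lit 334)))) (XT.nd (nat_lit 156) (nat_lit 532) (nat_lit 0) (XT.nd (nat_lit 78) (nat_lit 76) (nat_lit 0) (XT.lf (nat_lit 0) (nat_lit 3230350361) (nat_lit 304) (nat_lit 6084450437) (nat_lit 304) (nat_lit 1813251309) (nat_lit 86) (nat_lit 4) (nat_lit 90) (nat_lit 5) (nat_lit 90) (nat_lit 4) (nat_lit 468) (nat_lit 339) (nat_lit 333)) (XT.lf (nat_lit 0) (nat_lit 1914895996) (nat_lit 380) (nat_lit 1066928149) (nat_lit 76) (nat_lit 8276555329) (nat_lit 85) (nat_lit 5) (nat_lit 90) (nat_lit 5) (nat_lit 86) (nat_lit 4) (nat_lit 469) (nat_lit 339) (nat_lit 332))) (XT.nd (nat_lit 78) (nat_lit 304) (nat_lit 0) (XT.lf (nat_lit 0) (nat_lit 5676676907) (nat_lit 304) (nat_lit 5514381888) (nat_lit 0) (nat_lit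 200381871) (nat_lit 82) (nat_lit 5) (nat_lit 86) (nat_lit 4) (nat_lit 82) (nat_lit 4) (nat_lit 470) (nat_lit 339) (nat_lit 331)) (XT.lf (nat_lit 0) (nat_lit 1357865199) (nat_lit 304) (nat_lit 8135779314) (nat_lit 304) (nat_lit 2033952871) (nat_lit 78) (nat_lit 4) (nat_lit 82) (nat_lit 5) (nat_lit 82) (nat_lit 4) (nat_lit 471) (nat_lit 339) (nat_lit 330))))) (XT.nd (nat_lit 234) (nat_lit 836) (nat_lit 0) (XT.nd (nat_lit 78) (nat_lit 228) (nat_lit 0) (XT.lf (nat_lit 0) (nat_lit 1679471663) (nat_lit 380) (nat_lit 3322559767) (nat_lit 76) (nat_lit 6664623194) (nat_lit 77) (nat_lit 5) (nat_lit 82) (nat_lit 5) (nat_lit 78) (nat_lit 4) (nat_lit 472) (nat_lit 339) (nat_lit 329)) (XT.nd (nat_lit 78) (nat_lit 0) (nat_lit 0) (XT.lf (nat_lit 0) (nat_lit 3609431197) (nat_lit 228) (nat_lit 1799363349) (nat_lit 304) (nat_lit 6400083687) (nat_lit 74) (nat_lit 5) (nat_lit 77) (nat_lit 5) (nat_lit 78) (nat_lit 4) (nat_lit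 473) (nat_lit 339) (nat_lit 328)) (XT.lf (nat_lit 0) (nat_lit 9190391261) (nat_lit 304) (nat_lit 1324411422) (nat_lit 0) (nat_lit 1439620670) (nat_lit 74) (nat_lit 5) (nat_lit 78) (nat_lit 4) (nat_lit 74) (nat_lit 4) (nat_lit 474) (nat_lit 339) (nat_lit 327)))) (XT.nd (nat_lit 156) (nat_lit 228) (nat_lit 0) (XT.nd (nat_lit 78) (nat_lit 228) (nat_lit 0) (XT.lf (nat_lit 0) (nat_lit 927774231) (nat_lit 380) (nat_lit 6443229710) (nat_lit 76) (nat_lit 4731873867) (nat_lit 69) (nat_lit 5) (nat_lit 74) (nat_lit 5) (nat_lit 70) (nat_lit 4) (nat_lit 475) (nat_lit 339) (nat_lit 326)) (XT.lf (nat_lit 0) (nat_lit 449933801) (nat_lit 228) (nat_lit 4165274835) (nat_lit 304) (nat_lit 7639580275) (nat_lit 66) (nat_lit 5) (nat_lit 69) (nat_lit 5) (nat_lit 70) (nat_lit 4) (nat_lit 476) (nat_lit 339) (nat_lit 325))) (XT.nd (nat_lit 78) (nat_lit 228) (nat_lit 0) (XT.lf (nat_lit 0) (nat_lit 7484036885) (nat_lit 228) (nat_lit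 882986512) (nat_lit 304) (nat_lit 4042930648) (nat_lit 66) (nat_lit 5) (nat_lit 69) (nat_lit 5) (nat_lit 70) (nat_lit 4) (nat_lit 477) (nat_lit 339) (nat_lit 324)) (XT.lf (nat_lit 0) (nat_lit 2017587485) (nat_lit 228) (nat_lit 10153614737) (nat_lit 228) (nat_lit 397501589) (nat_lit 63) (nat_lit 4) (nat_lit 66) (nat_lit 5) (nat_lit 66) (nat_lit 4) (nat_lit 478) (nat_lit 339) (nat_lit 323))))))))
noncomputable def xc22 : XT := (XT.nd (nat_lit 2106) (nat_lit 1292) (nat_lit 0) (XT.nd (nat_lit 1014) (nat_lit 1216) (nat_lit 0) (XT.nd (nat_lit 468) (nat_lit 760) (nat_lit 0) (XT.nd (nat_lit 234) (nat_lit 532) (nat_lit 0) (XT.nd (nat_lit 78) (nat_lit 228) (nat_lit 0) (XT.lf (nat_lit 0) (nat_lit 3264739000) (nat_lit 304) (nat_lit 3674493992) (nat_lit 76) (nat_lit 5791242036) (nat_lit 62) (nat_lit 5) (nat_lit 66) (nat_lit 5) (nat_lit 63) (nat_lit 4) (nat_lit 479) (nat_lit 339) (nat_lit 322)) (XT.nd (nat_lit 78)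 (nat_lit 0) (nat_lit 0) (XT.lf (nat_lit 0) (nat_lit 3298292615) (nat_lit 228) (nat_lit 3667376285) (nat_lit 304) (nat_lit 5930371155) (nat_lit 59) (nat_lit 5) (nat_lit 62) (nat_lit 5) (nat_lit 63) (nat_lit 4) (nat_lit 480) (nat_lit 339) (nat_lit 321)) (XT.lf (nat_lit 0) (nat_lit 10378889704) (nat_lit 228) (nat_lit 336197183) (nat_lit 304) (nat_lit 2350365867) (nat_lit 59) (nat_lit 5) (nat_lit 62) (nat_lit 5) (nat_lit 63) (nat_lit 4) (nat_lit 481) (nat_lit 339) (nat_lit 320)))) (XT.nd (nat_lit 78) (nat_lit 228) (nat_lit 0) (XT.lf (nat_lit 0) (nat_lit 1282654972) (nat_lit 304) (nat_lit 8927803554) (nat_lit 76) (nat_lit 3027681342) (nat_lit 55) (nat_lit 5) (nat_lit 59) (nat_lit 5) (nat_lit 56) (nat_lit 4) (nat_lit 482) (nat_lit 339) (nat_lit 319)) (XT.nd (nat_lit 78) (nat_lit 228) (nat_lit 0) (XT.lf (nat_lit 0) (nat_lit 4927964884) (nat_lit 304) (nat_lit 2029056583) (nat_lit 76) (nat_lit 6457550815) (nat_lit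 55) (nat_lit 5) (nat_lit 59) (nat_lit 5) (nat_lit 56) (nat_lit 4) (nat_lit 483) (nat_lit 339) (nat_lit 318)) (XT.lf (nat_lit 0) (nat_lit 4993930290) (nat_lit 228) (nat_lit 3636337864) (nat_lit 304) (nat_lit 4964607245) (nat_lit 52) (nat_lit 5) (nat_lit 55) (nat_lit 5) (nat_lit 56) (nat_lit 4) (nat_lit 484) (nat_lit 339) (nat_lit 317))))) (XT.nd (nat_lit 234) (nat_lit 456) (nat_lit 0) (XT.nd (nat_lit 78) (nat_lit 304) (nat_lit 0) (XT.lf (nat_lit 0) (nat_lit 12106171224) (nat_lit 228) (nat_lit 266162300) (nat_lit 304) (nat_lit 1407160067) (nat_lit 52) (nat_lit 5) (nat_lit 55) (nat_lit 5) (nat_lit 56) (nat_lit 4) (nat_lit 485) (nat_lit 339) (nat_lit 316)) (XT.nd (nat_lit 78) (nat_lit 0) (nat_lit 0) (XT.lf (nat_lit 0) (nat_lit 2200598828) (nat_lit 304) (nat_lit 8617451320) (nat_lit 76) (nat_lit 3149322018) (nat_lit 48) (nat_lit 5) (nat_lit 52) (nat_lit 5) (nat_lit 49) (nat_lit 4) (nat_lit 486) (nat_lit 339)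 (nat_lit 315)) (XT.lf (nat_lit 0) (nat_lit 5827687986) (nat_lit 304) (nat_lit 1711695927) (nat_lit 76) (nat_lit 6620140023) (nat_lit 48) (nat_lit 5) (nat_lit 52) (nat_lit 5) (nat_lit 49) (nat_lit 4) (nat_lit 487) (nat_lit 339) (nat_lit 314)))) (XT.nd (nat_lit 156) (nat_lit 304) (nat_lit 0) (XT.nd (nat_lit 78) (nat_lit 0) (nat_lit 0) (XT.lf (nat_lit 0) (nat_lit 5325482494) (nat_lit 152) (nat_lit 4190269311) (nat_lit 228) (nat_lit 4840019832) (nat_lit 46) (nat_lit 5) (nat_lit 48) (nat_lit 5) (nat_lit 49) (nat_lit 4) (nat_lit 488) (nat_lit 339) (nat_lit 313)) (XT.lf (nat_lit 0) (nat_lit 12450573767) (nat_lit 152) (nat_lit 792756952) (nat_lit 228) (nat_lit 1313319633) (nat_lit 46) (nat_lit 5) (nat_lit 48) (nat_lit 5) (nat_lit 49) (nat_lit 4) (nat_lit 489) (nat_lit 339) (nat_lit 312))) (XT.nd (nat_lit 78) (nat_lit 0) (nat_lit 0) (XT.lf (nat_lit 0) (nat_lit 2258293068) (nat_lit 304) (nat_lit 9847697736) (nat_lit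 76) (nat_lit 2655192925) (nat_lit 42) (nat_lit 5) (nat_lit 46) (nat_lit 5) (nat_lit 43) (nat_lit 4) (nat_lit 490) (nat_lit 339) (nat_lit 311)) (XT.lf (nat_lit 0) (nat_lit 5858298745) (nat_lit 304) (nat_lit 2956966972) (nat_lit 76) (nat_lit 6154897429) (nat_lit 42) (nat_lit 5) (nat_lit 46) (nat_lit 5) (nat_lit 43) (nat_lit 4) (nat_lit 491) (nat_lit 339) (nat_lit 310)))))) (XT.nd (nat_lit 546) (nat_lit 608) (nat_lit 0) (XT.nd (nat_lit 234) (nat_lit 152) (nat_lit 0) (XT.nd (nat_lit 78) (nat_lit 304) (nat_lit 0) (XT.lf (nat_lit 0) (nat_lit 4050794541) (nat_lit 152) (nat_lit 5461744859) (nat_lit 228) (nat_lit 5671157578) (nat_lit 40) (nat_lit 5) (nat_lit 42) (nat_lit 5) (nat_lit 43) (nat_lit 4) (nat_lit 492) (nat_lit 339) (nat_lit 309)) (XT.nd (nat_lit 78) (nat_lit 304) (nat_lit 0) (XT.lf (nat_lit 0) (nat_lit 11165369242) (nat_lit 152) (nat_lit 2050660163) (nat_lit 228) (nat_lit 2185967933) (nat_lit 40) (nat_lit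 5) (nat_lit 42) (nat_lit 5) (nat_lit 43) (nat_lit 4) (nat_lit 493) (nat_lit 339) (nat_lit 308)) (XT.lf (nat_lit 0) (nat_lit 1334978682) (nat_lit 304) (nat_lit 12882068040) (nat_lit 76) (nat_lit 1407777482) (nat_lit 36) (nat_lit 5) (nat_lit 40) (nat_lit 5) (nat_lit 37) (nat_lit 4) (nat_lit 494) (nat_lit 339) (nat_lit 307)))) (XT.nd (nat_lit 156) (nat_lit 0) (nat_lit 0) (XT.nd (nat_lit 78) (nat_lit 152) (nat_lit 0) (XT.lf (nat_lit 0) (nat_lit 4896363232) (nat_lit 304) (nat_lit 6033408928) (nat_lit 76) (nat_lit 4922078717) (nat_lit 36) (nat_lit 5) (nat_lit 40) (nat_lit 5) (nat_lit 37) (nat_lit 4) (nat_lit 495) (nat_lit 339) (nat_lit 306)) (XT.lf (nat_lit 0) (nat_lit 892575514) (nat_lit 152) (nat_lit 7600099993) (nat_lit 228) (nat_lit 7591486261) (nat_lit 34) (nat_lit 5) (nat_lit 36) (nat_lit 5) (nat_lit 37) (nat_lit 4) (nat_lit 496) (nat_lit 339) (nat_lit 305))) (XT.nd (nat_lit 78) (nat_lit 0) (nat_lit 0)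 (XT.lf (nat_lit 0) (nat_lit 7967979389) (nat_lit 152) (nat_lit 4191691995) (nat_lit 228) (nat_lit 4161489682) (nat_lit 34) (nat_lit 5) (nat_lit 36) (nat_lit 5) (nat_lit 37) (nat_lit 4) (nat_lit 497) (nat_lit 339) (nat_lit 304)) (XT.lf (nat_lit 0) (nat_lit 15115396534) (nat_lit 152) (nat_lit 743698886) (nat_lit 228) (nat_lit 704640161) (nat_lit 34) (nat_lit 5) (nat_lit 36) (nat_lit 5) (nat_lit 37) (nat_lit 4) (nat_lit 498) (nat_lit 339) (nat_lit 303))))) (XT.nd (nat_lit 234) (nat_lit 228) (nat_lit 0) (XT.nd (nat_lit 78) (nat_lit 152) (nat_lit 0) (XT.lf (nat_lit 0) (nat_lit 2798369815) (nat_lit 228) (nat_lit 11248287925) (nat_lit 76) (nat_lit 2763873303) (nat_lit 31) (nat_lit 5) (nat_lit 34) (nat_lit 5) (nat_lit 32) (nat_lit 4) (nat_lit 499) (nat_lit 339) (nat_lit 302)) (XT.nd (nat_lit 78) (nat_lit 152) (nat_lit 0) (XT.lf (nat_lit 0) (nat_lit 6336496626) (nat_lit 228) (nat_lit 4407921745) (nat_lit 76) (nat_lit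 6318277073) (nat_lit 31) (nat_lit 5) (nat_lit 34) (nat_lit 5) (nat_lit 32) (nat_lit 4) (nat_lit 500) (nat_lit 339) (nat_lit 301)) (XT.lf (nat_lit 0) (nat_lit 2534981591) (nat_lit 152) (nat_lit 7387426207) (nat_lit 228) (nat_lit 7397970598) (nat_lit 29) (nat_lit 5) (nat_lit 31) (nat_lit 5) (nat_lit 32) (nat_lit 4) (nat_lit 501) (nat_lit 339) (nat_lit 300)))) (XT.nd (nat_lit 156) (nat_lit 228) (nat_lit 0) (XT.nd (nat_lit 78) (nat_lit 0) (nat_lit 0) (XT.lf (nat_lit 0) (nat_lit 9609420819) (nat_lit 152) (nat_lit 3961096688) (nat_lit 228) (nat_lit 4012903290) (nat_lit 29) (nat_lit 5) (nat_lit 31) (nat_lit 5) (nat_lit 32) (nat_lit 4) (nat_lit 502) (nat_lit 339) (nat_lit 299)) (XT.lf (nat_lit 0) (nat_lit 16759591266) (nat_lit 152) (nat_lit 493665632) (nat_lit 228) (nat_lit 599248891) (nat_lit 29) (nat_lit 5) (nat_lit 31) (nat_lit 5) (nat_lit 32) (nat_lit 4) (nat_lit 503) (nat_lit 339) (nat_lit 298))) (XT.nd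 (nat_lit 78) (nat_lit 0) (nat_lit 0) (XT.lf (nat_lit 0) (nat_lit 2865422357) (nat_lit 228) (nat_lit 12226831980) (nat_lit 76) (nat_lit 3033947311) (nat_lit 26) (nat_lit 5) (nat_lit 29) (nat_lit 5) (nat_lit 27) (nat_lit 4) (nat_lit 504) (nat_lit 339) (nat_lit 297)) (XT.lf (nat_lit 0) (nat_lit 6364325476) (nat_lit 228) (nat_lit 5431344085) (nat_lit 76) (nat_lit 6610177619) (nat_lit 26) (nat_lit 5) (nat_lit 29) (nat_lit 5) (nat_lit 27) (nat_lit 4) (nat_lit 505) (nat_lit 339) (nat_lit 296))))))) (XT.nd (nat_lit 1092) (nat_lit 532) (nat_lit 0) (XT.nd (nat_lit 546) (nat_lit 304) (nat_lit 0) (XT.nd (nat_lit 234) (nat_lit 304) (nat_lit 0) (XT.nd (nat_lit 78) (nat_lit 0) (nat_lit 0) (XT.lf (nat_lit 0) (nat_lit 1455269875) (nat_lit 152) (nat_lit 8450427491) (nat_lit 228) (nat_lit 8785952384) (nat_lit 24) (nat_lit 5) (nat_lit 26) (nat_lit 5) (nat_lit 27) (nat_lit 4) (nat_lit 506) (nat_lit 339) (nat_lit 295)) (XT.nd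 (nat_lit 78) (nat_lit 0) (nat_lit 0) (XT.lf (nat_lit 0) (nat_lit 8489789793) (nat_lit 152) (nat_lit 5027908920) (nat_lit 228) (nat_lit 5465487289) (nat_lit 24) (nat_lit 5) (nat_lit 26) (nat_lit 5) (nat_lit 27) (nat_lit 4) (nat_lit 507) (nat_lit 339) (nat_lit 294)) (XT.lf (nat_lit 0) (nat_lit 15602794598) (nat_lit 152) (nat_lit 1563218862) (nat_lit 228) (nat_lit 2115271454) (nat_lit 24) (nat_lit 5) (nat_lit 26) (nat_lit 5) (nat_lit 27) (nat_lit 4) (nat_lit 508) (nat_lit 339) (nat_lit 293)))) (XT.nd (nat_lit 156) (nat_lit 76) (nat_lit 0) (XT.nd (nat_lit 78) (nat_lit 0) (nat_lit 0) (XT.lf (nat_lit 0) (nat_lit 1283298204) (nat_lit 228) (nat_lit 16352945840) (nat_lit 76) (nat_lit 1948977081) (nat_lit 21) (nat_lit 5) (nat_lit 24) (nat_lit 5) (nat_lit 22) (nat_lit 4) (nat_lit 509) (nat_lit 339) (nat_lit 292)) (XT.lf (nat_lit 0) (nat_lit 4721405206) (nat_lit 228) (nat_lit 9649761110) (nat_lit 76) (nat_lit 5523804947)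 (nat_lit 21) (nat_lit 5) (nat_lit 24) (nat_lit 5) (nat_lit 22) (nat_lit 4) (nat_lit 510) (nat_lit 339) (nat_lit 291))) (XT.nd (nat_lit 78) (nat_lit 76) (nat_lit 0) (XT.lf (nat_lit 0) (nat_lit 8193629677) (nat_lit 228) (nat_lit 2872918084) (nat_lit 76) (nat_lit 9145073917) (nat_lit 21) (nat_lit 5) (nat_lit 24) (nat_lit 5) (nat_lit 22) (nat_lit 4) (nat_lit 511) (nat_lit 339) (nat_lit 290)) (XT.lf (nat_lit 0) (nat_lit 4033136127) (nat_lit 76) (nat_lit 7694382941) (nat_lit 152) (nat_lit 8807253763) (nat_lit 20) (nat_lit 5) (nat_lit 21) (nat_lit 5) (nat_lit 22) (nat_lit 4) (nat_lit 512) (nat_lit 339) (nat_lit 289))))) (XT.nd (nat_lit 234) (nat_lit 76) (nat_lit 0) (XT.nd (nat_lit 78) (nat_lit 228) (nat_lit 0) (XT.lf (nat_lit 0) (nat_lit 11057423216) (nat_lit 76) (nat_lit 4260260475) (nat_lit 152) (nat_lit 5547003268) (nat_lit 20) (nat_lit 5) (nat_lit 21) (nat_lit 5) (nat_lit 22) (nat_lit 4) (nat_lit 513) (nat_lit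 339) (nat_lit 288)) (XT.nd (nat_lit 78) (nat_lit 228) (nat_lit 0) (XT.lf (nat_lit 0) (nat_lit 18164518236) (nat_lit 76) (nat_lit 782112442) (nat_lit 152) (nat_lit 2255240778) (nat_lit 20) (nat_lit 5) (nat_lit 21) (nat_lit 5) (nat_lit 22) (nat_lit 4) (nat_lit 514) (nat_lit 339) (nat_lit 287)) (XT.lf (nat_lit 0) (nat_lit 1098336112) (nat_lit 228) (nat_lit 17709472492) (nat_lit 76) (nat_lit 2737650372) (nat_lit 17) (nat_lit 5) (nat_lit 20) (nat_lit 5) (nat_lit 18) (nat_lit 4) (nat_lit 515) (nat_lit 339) (nat_lit 286)))) (XT.nd (nat_lit 156) (nat_lit 76) (nat_lit 0) (XT.nd (nat_lit 78) (nat_lit 0) (nat_lit 0) (XT.lf (nat_lit 0) (nat_lit 4482026633) (nat_lit 228) (nat_lit 11084911616) (nat_lit 76) (nat_lit 6328828053) (nat_lit 17) (nat_lit 5) (nat_lit 20) (nat_lit 5) (nat_lit 18) (nat_lit 4) (nat_lit 516) (nat_lit 339) (nat_lit 285)) (XT.lf (nat_lit 0) (nat_lit 7901542695) (nat_lit 228) (nat_lit 4383855813)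 (nat_lit 76) (nat_lit 9968329010) (nat_lit 17) (nat_lit 5) (nat_lit 20) (nat_lit 5) (nat_lit 18) (nat_lit 4) (nat_lit 517) (nat_lit 339) (nat_lit 284))) (XT.nd (nat_lit 78) (nat_lit 0) (nat_lit 0) (XT.lf (nat_lit 0) (nat_lit 2428168649) (nat_lit 76) (nat_lit 8945821918) (nat_lit 152) (nat_lit 11245177130) (nat_lit 16) (nat_lit 5) (nat_lit 17) (nat_lit 5) (nat_lit 18) (nat_lit 4) (nat_lit 518) (nat_lit 339) (nat_lit 283)) (XT.lf (nat_lit 0) (nat_lit 9381320770) (nat_lit 76) (nat_lit 5533018953) (nat_lit 152) (nat_lit 8077618269) (nat_lit 16) (nat_lit 5) (nat_lit 17) (nat_lit 5) (nat_lit 18) (nat_lit 4) (nat_lit 519) (nat_lit 339) (nat_lit 282)))))) (XT.nd (nat_lit 546) (nat_lit 228) (nat_lit 0) (XT.nd (nat_lit 234) (nat_lit 76) (nat_lit 0) (XT.nd (nat_lit 78) (nat_lit 228) (nat_lit 0) (XT.lf (nat_lit 0) (nat_lit 16420068139) (nat_lit 76) (nat_lit 2075069241) (nat_lit 152) (nat_lit 4877684041) (nat_lit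 16) (nat_lit 5) (nat_lit 17) (nat_lit 5) (nat_lit 18) (nat_lit 4) (nat_lit 520) (nat_lit 339) (nat_lit 281)) (XT.nd (nat_lit 78) (nat_lit 228) (nat_lit 0) (XT.lf (nat_lit 0) (nat_lit 22127068275) (nat_lit 152) (nat_lit 224016797) (nat_lit 0) (nat_lit 1410636657) (nat_lit 16) (nat_lit 5) (nat_lit 18) (nat_lit 4) (nat_lit 16) (nat_lit 4) (nat_lit 521) (nat_lit 339) (nat_lit 280)) (XT.lf (nat_lit 0) (nat_lit 1679132956) (nat_lit 228) (nat_lit 17507830719) (nat_lit 76) (nat_lit 4970671865) (nat_lit 13) (nat_lit 5) (nat_lit 16) (nat_lit 5) (nat_lit 14) (nat_lit 4) (nat_lit 522) (nat_lit 339) (nat_lit 279)))) (XT.nd (nat_lit 156) (nat_lit 76) (nat_lit 0) (XT.nd (nat_lit 78) (nat_lit 0) (nat_lit 0) (XT.lf (nat_lit 0) (nat_lit 5009555489) (nat_lit 228) (nat_lit 10960031784) (nat_lit 76) (nat_lit 8592228667) (nat_lit 13) (nat_lit 5) (nat_lit 16) (nat_lit 5) (nat_lit 14) (nat_lit 4) (nat_lit 523) (nat_lit 339)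 (nat_lit 278)) (XT.lf (nat_lit 0) (nat_lit 8377875411) (nat_lit 228) (nat_lit 4332157485) (nat_lit 76) (nat_lit 12264630473) (nat_lit 13) (nat_lit 5) (nat_lit 16) (nat_lit 5) (nat_lit 14) (nat_lit 4) (nat_lit 524) (nat_lit 339) (nat_lit 277))) (XT.nd (nat_lit 78) (nat_lit 0) (nat_lit 0) (XT.lf (nat_lit 0) (nat_lit 2409998911) (nat_lit 76) (nat_lit 9391062031) (nat_lit 152) (nat_lit 13594965840) (nat_lit 12) (nat_lit 5) (nat_lit 13) (nat_lit 5) (nat_lit 14) (nat_lit 4) (nat_lit 525) (nat_lit 339) (nat_lit 276)) (XT.lf (nat_lit 0) (nat_lit 9296167193) (nat_lit 76) (nat_lit 5997696129) (nat_lit 152) (nat_lit 10531939920) (nat_lit 12) (nat_lit 5) (nat_lit 13) (nat_lit 5) (nat_lit 14) (nat_lit 4) (nat_lit 526) (nat_lit 339) (nat_lit 275))))) (XT.nd (nat_lit 234) (nat_lit 76) (nat_lit 0) (XT.nd (nat_lit 78) (nat_lit 152) (nat_lit 0) (XT.lf (nat_lit 0) (nat_lit 16271475723) (nat_lit 76) (nat_lit 2557675517)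 (nat_lit 152) (nat_lit 7435580071) (nat_lit 12) (nat_lit 5) (nat_lit 13) (nat_lit 5) (nat_lit 14) (nat_lit 4) (nat_lit 527) (nat_lit 339) (nat_lit 274)) (XT.nd (nat_lit 78) (nat_lit 152) (nat_lit 0) (XT.lf (nat_lit 0) (nat_lit 22414351526) (nat_lit 152) (nat_lit 3380363640) (nat_lit 0) (nat_lit 918147141) (nat_lit 12) (nat_lit 5) (nat_lit 14) (nat_lit 4) (nat_lit 12) (nat_lit 4) (nat_lit 528) (nat_lit 339) (nat_lit 273)) (XT.lf (nat_lit 0) (nat_lit 3344614435) (nat_lit 152) (nat_lit 22738855028) (nat_lit 152) (nat_lit 1086250519) (nat_lit 10) (nat_lit 4) (nat_lit 12) (nat_lit 5) (nat_lit 12) (nat_lit 4) (nat_lit 529) (nat_lit 339) (nat_lit 272)))) (XT.nd (nat_lit 53976) (nat_lit 0) (nat_lit 7220) (XT.nd (nat_lit 53898) (nat_lit 0) (nat_lit 7600) (XT.lf (nat_lit 0) (nat_lit 2157956457) (nat_lit 228) (nat_lit 17446865922) (nat_lit 76) (nat_lit 8030687487) (nat_lit 9) (nat_lit 5) (nat_lit 12) (nat_lit 5)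 (nat_lit 10) (nat_lit 4) (nat_lit 530) (nat_lit 339) (nat_lit 271)) (XT.lf (nat_lit 0) (nat_lit 399863809) (nat_lit 380) (nat_lit 4292942235) (nat_lit 0) (nat_lit 399863809) (nat_lit 109) (nat_lit 5) (nat_lit 114) (nat_lit 4) (nat_lit 109) (nat_lit 4) (nat_lit 460) (nat_lit 340) (nat_lit 340))) (XT.nd (nat_lit 78) (nat_lit 380) (nat_lit 0) (XT.lf (nat_lit 0) (nat_lit 4585483267) (nat_lit 380) (nat_lit 1916645713) (nat_lit 0) (nat_lit 3792158193) (nat_lit 109) (nat_lit 5) (nat_lit 114) (nat_lit 4) (nat_lit 109) (nat_lit 4) (nat_lit 461) (nat_lit 340) (nat_lit 339)) (XT.lf (nat_lit 0) (nat_lit 4860595291) (nat_lit 380) (nat_lit 3558258247) (nat_lit 380) (nat_lit 1987163494) (nat_lit 104) (nat_lit 4) (nat_lit 109) (nat_lit 5) (nat_lit 109) (nat_lit 4) (nat_lit 462) (nat_lit 340) (nat_lit 338))))))))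
noncomputable def xc23 : XT := (XT.nd (nat_lit 2106) (nat_lit 2204) (nat_lit 0) (XT.nd (nat_lit 1014) (nat_lit 1748) (nat_lit 0) (XT.nd (nat_lit 468) (nat_lit 1292) (nat_lit 0) (XT.nd (nat_lit 234) (nat_lit 684) (nat_lit 0) (XT.nd (nat_lit 78) (nat_lit 304) (nat_lit 0) (XT.lf (nat_lit 0) (nat_lit 1194094227) (nat_lit 304) (nat_lit 552296007) (nat_lit 380) (nat_lit 8774172097) (nat_lit 99) (nat_lit 5) (nat_lit 103) (nat_lit 5) (nat_lit 104) (nat_lit 4) (nat_lit 463) (nat_lit 340) (nat_lit 337)) (XT.nd (nat_lit 78) (nat_lit 304) (nat_lit 0) (XT.lf (nat_lit 0) (nat_lit 5522713152) (nat_lit 380) (nat_lit 2612621099) (nat_lit 0) (nat_lit 2501946502) (nat_lit 99) (nat_lit 5) (nat_lit 104) (nat_lit 4) (nat_lit 99) (nat_lit 4) (nat_lit 464) (nat_lit 340) (nat_lit 336)) (XT.lf (nat_lit 0) (nat_lit 4198865746) (nat_lit 304) (nat_lit 5148676051) (nat_lit 304) (nat_lit 1409370440) (nat_lit 95) (nat_lit 4) (nat_lit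 99) (nat_lit 5) (nat_lit 99) (nat_lit 4) (nat_lit 465) (nat_lit 340) (nat_lit 335)))) (XT.nd (nat_lit 78) (nat_lit 304) (nat_lit 0) (XT.lf (nat_lit 0) (nat_lit 202287247) (nat_lit 304) (nat_lit 2097733950) (nat_lit 380) (nat_lit 8579420752) (nat_lit 90) (nat_lit 5) (nat_lit 94) (nat_lit 5) (nat_lit 95) (nat_lit 4) (nat_lit 466) (nat_lit 340) (nat_lit 334)) (XT.nd (nat_lit 78) (nat_lit 304) (nat_lit 0) (XT.lf (nat_lit 0) (nat_lit 6058208247) (nat_lit 380) (nat_lit 3921704358) (nat_lit 0) (nat_lit 1024489824) (nat_lit 90) (nat_lit 5) (nat_lit 95) (nat_lit 4) (nat_lit 90) (nat_lit 4) (nat_lit 467) (nat_lit 340) (nat_lit 333)) (XT.lf (nat_lit 0) (nat_lit 2906140098) (nat_lit 304) (nat_lit 6961882732) (nat_lit 304) (nat_lit 1264345377) (nat_lit 86) (nat_lit 4) (nat_lit 90) (nat_lit 5) (nat_lit 90) (nat_lit 4) (nat_lit 468) (nat_lit 340) (nat_lit 332))))) (XT.nd (nat_lit 234) (nat_lit 684) (nat_lit 0) (XT.nd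 (nat_lit 78) (nat_lit 532) (nat_lit 0) (XT.lf (nat_lit 0) (nat_lit 2428802236) (nat_lit 380) (nat_lit 1442159712) (nat_lit 76) (nat_lit 7392235189) (nat_lit 85) (nat_lit 5) (nat_lit 90) (nat_lit 5) (nat_lit 86) (nat_lit 4) (nat_lit 469) (nat_lit 340) (nat_lit 331)) (XT.nd (nat_lit 78) (nat_lit 304) (nat_lit 0) (XT.lf (nat_lit 0) (nat_lit 5455327737) (nat_lit 228) (nat_lit 703934640) (nat_lit 304) (nat_lit 5237638865) (nat_lit 82) (nat_lit 5) (nat_lit 85) (nat_lit 5) (nat_lit 86) (nat_lit 4) (nat_lit 470) (nat_lit 340) (nat_lit 330)) (XT.lf (nat_lit 0) (nat_lit 886587416) (nat_lit 304) (nat_lit 9054920808) (nat_lit 304) (nat_lit 1592260345) (nat_lit 78) (nat_lit 4) (nat_lit 82) (nat_lit 5) (nat_lit 82) (nat_lit 4) (nat_lit 471) (nat_lit 340) (nat_lit 329)))) (XT.nd (nat_lit 156) (nat_lit 380) (nat_lit 0) (XT.nd (nat_lit 78) (nat_lit 228) (nat_lit 0) (XT.lf (nat_lit 0) (nat_lit 2088343691) (nat_lit 380)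 (nat_lit 3845447465) (nat_lit 76) (nat_lit 5739533396) (nat_lit 77) (nat_lit 5) (nat_lit 82) (nat_lit 5) (nat_lit 78) (nat_lit 4) (nat_lit 472) (nat_lit 340) (nat_lit 328)) (XT.lf (nat_lit 0) (nat_lit 3037303701) (nat_lit 228) (nat_lit 2750150575) (nat_lit 304) (nat_lit 6028713373) (nat_lit 74) (nat_lit 5) (nat_lit 77) (nat_lit 5) (nat_lit 78) (nat_lit 4) (nat_lit 473) (nat_lit 340) (nat_lit 327))) (XT.nd (nat_lit 78) (nat_lit 380) (nat_lit 0) (XT.lf (nat_lit 0) (nat_lit 9536531766) (nat_lit 304) (nat_lit 1939557962) (nat_lit 0) (nat_lit 486288368) (nat_lit 74) (nat_lit 5) (nat_lit 78) (nat_lit 4) (nat_lit 74) (nat_lit 4) (nat_lit 474) (nat_lit 340) (nat_lit 326)) (XT.lf (nat_lit 0) (nat_lit 1231163741) (nat_lit 380) (nat_lit 7118746628) (nat_lit 76) (nat_lit 3761499847) (nat_lit 69) (nat_lit 5) (nat_lit 74) (nat_lit 5) (nat_lit 70) (nat_lit 4) (nat_lit 475) (nat_lit 340) (nat_lit 325)))))) (XT.nd (nat_lit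 546) (nat_lit 684) (nat_lit 0) (XT.nd (nat_lit 234) (nat_lit 608) (nat_lit 0) (XT.nd (nat_lit 78) (nat_lit 456) (nat_lit 0) (XT.lf (nat_lit 0) (nat_lit 4889905244) (nat_lit 380) (nat_lit 272651526) (nat_lit 76) (nat_lit 7101352488) (nat_lit 69) (nat_lit 5) (nat_lit 74) (nat_lit 5) (nat_lit 70) (nat_lit 4) (nat_lit 476) (nat_lit 340) (nat_lit 324)) (XT.nd (nat_lit 78) (nat_lit 228) (nat_lit 0) (XT.lf (nat_lit 0) (nat_lit 6716931553) (nat_lit 228) (nat_lit 1897462854) (nat_lit 304) (nat_lit 3805240301) (nat_lit 66) (nat_lit 5) (nat_lit 69) (nat_lit 5) (nat_lit 70) (nat_lit 4) (nat_lit 477) (nat_lit 340) (nat_lit 323)) (XT.lf (nat_lit 0) (nat_lit 1196103159) (nat_lit 228) (nat_lit 11185420785) (nat_lit 228) (nat_lit 197615050) (nat_lit 63) (nat_lit 4) (nat_lit 66) (nat_lit 5) (nat_lit 66) (nat_lit 4) (nat_lit 478) (nat_lit 340) (nat_lit 322)))) (XT.nd (nat_lit 156) (nat_lit 304) (nat_lit 0) (XT.nd (nat_lit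 78) (nat_lit 228) (nat_lit 0) (XT.lf (nat_lit 0) (nat_lit 3436928430) (nat_lit 304) (nat_lit 4548302096) (nat_lit 76) (nat_lit 4756168249) (nat_lit 62) (nat_lit 5) (nat_lit 66) (nat_lit 5) (nat_lit 63) (nat_lit 4) (nat_lit 479) (nat_lit 340) (nat_lit 321)) (XT.lf (nat_lit 0) (nat_lit 2372548307) (nat_lit 228) (nat_lit 4734715592) (nat_lit 304) (nat_lit 5800324544) (nat_lit 59) (nat_lit 5) (nat_lit 62) (nat_lit 5) (nat_lit 63) (nat_lit 4) (nat_lit 480) (nat_lit 340) (nat_lit 320))) (XT.nd (nat_lit 78) (nat_lit 304) (nat_lit 0) (XT.lf (nat_lit 0) (nat_lit 9413612303) (nat_lit 228) (nat_lit 1418711061) (nat_lit 304) (nat_lit 2245177451) (nat_lit 59) (nat_lit 5) (nat_lit 62) (nat_lit 5) (nat_lit 63) (nat_lit 4) (nat_lit 481) (nat_lit 340) (nat_lit 319)) (XT.lf (nat_lit 0) (nat_lit 1348555407) (nat_lit 304) (nat_lit 9963913688) (nat_lit 76) (nat_lit 1938475362) (nat_lit 55) (nat_lit 5) (nat_lit 59) (nat_lit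 5) (nat_lit 56) (nat_lit 4) (nat_lit 482) (nat_lit 340) (nat_lit 318))))) (XT.nd (nat_lit 234) (nat_lit 456) (nat_lit 0) (XT.nd (nat_lit 78) (nat_lit 228) (nat_lit 0) (XT.lf (nat_lit 0) (nat_lit 4969936236) (nat_lit 304) (nat_lit 3104390148) (nat_lit 76) (nat_lit 5353540850) (nat_lit 55) (nat_lit 5) (nat_lit 59) (nat_lit 5) (nat_lit 56) (nat_lit 4) (nat_lit 483) (nat_lit 340) (nat_lit 317)) (XT.nd (nat_lit 78) (nat_lit 0) (nat_lit 0) (XT.lf (nat_lit 0) (nat_lit 3865340725) (nat_lit 228) (nat_lit 4776111345) (nat_lit 304) (nat_lit 4967345581) (nat_lit 52) (nat_lit 5) (nat_lit 55) (nat_lit 5) (nat_lit 56) (nat_lit 4) (nat_lit 484) (nat_lit 340) (nat_lit 316)) (XT.lf (nat_lit 0) (nat_lit 10939380304) (nat_lit 228) (nat_lit 1420889220) (nat_lit 304) (nat_lit 1433622601) (nat_lit 52) (nat_lit 5) (nat_lit 55) (nat_lit 5) (nat_lit 56) (nat_lit 4) (nat_lit 485) (nat_lit 340) (nat_lit 315)))) (XT.nd (nat_lit 156)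 (nat_lit 152) (nat_lit 0) (XT.nd (nat_lit 78) (nat_lit 0) (nat_lit 0) (XT.lf (nat_lit 0) (nat_lit 2135863379) (nat_lit 304) (nat_lit 9859818850) (nat_lit 76) (nat_lit 1986875192) (nat_lit 48) (nat_lit 5) (nat_lit 52) (nat_lit 5) (nat_lit 49) (nat_lit 4) (nat_lit 486) (nat_lit 340) (nat_lit 314)) (XT.lf (nat_lit 0) (nat_lit 5740109128) (nat_lit 304) (nat_lit 2991952932) (nat_lit 76) (nat_lit 5443114670) (nat_lit 48) (nat_lit 5) (nat_lit 52) (nat_lit 5) (nat_lit 49) (nat_lit 4) (nat_lit 487) (nat_lit 340) (nat_lit 313))) (XT.nd (nat_lit 78) (nat_lit 0) (nat_lit 0) (XT.lf (nat_lit 0) (nat_lit 3990571346) (nat_lit 152) (nat_lit 5406538975) (nat_lit 228) (nat_lit 4974945825) (nat_lit 46) (nat_lit 5) (nat_lit 48) (nat_lit 5) (nat_lit 49) (nat_lit 4) (nat_lit 488) (nat_lit 340) (nat_lit 312)) (XT.lf (nat_lit 0) (nat_lit 11078760460) (nat_lit 152) (nat_lit 2023732810) (nat_lit 228) (nat_lit 1470895766) (nat_lit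 46) (nat_lit 5) (nat_lit 48) (nat_lit 5) (nat_lit 49) (nat_lit 4) (nat_lit 489) (nat_lit 340) (nat_lit 311))))))) (XT.nd (nat_lit 1092) (nat_lit 912) (nat_lit 0) (XT.nd (nat_lit 546) (nat_lit 532) (nat_lit 0) (XT.nd (nat_lit 234) (nat_lit 304) (nat_lit 0) (XT.nd (nat_lit 78) (nat_lit 152) (nat_lit 0) (XT.lf (nat_lit 0) (nat_lit 2063344618) (nat_lit 304) (nat_lit 11299869620) (nat_lit 76) (nat_lit 1415527276) (nat_lit 42) (nat_lit 5) (nat_lit 46) (nat_lit 5) (nat_lit 43) (nat_lit 4) (nat_lit 490) (nat_lit 340) (nat_lit 310)) (XT.nd (nat_lit 78) (nat_lit 152) (nat_lit 0) (XT.lf (nat_lit 0) (nat_lit 5641535651) (nat_lit 304) (nat_lit 4445728343) (nat_lit 76) (nat_lit 4900902894) (nat_lit 42) (nat_lit 5) (nat_lit 46) (nat_lit 5) (nat_lit 43) (nat_lit 4) (nat_lit 491) (nat_lit 340) (nat_lit 309)) (XT.lf (nat_lit 0) (nat_lit 2505899548) (nat_lit 152) (nat_lit 6758459370) (nat_lit 228) (nat_lit 5937979626) (nat_lit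 40) (nat_lit 5) (nat_lit 42) (nat_lit 5) (nat_lit 43) (nat_lit 4) (nat_lit 492) (nat_lit 340) (nat_lit 308)))) (XT.nd (nat_lit 156) (nat_lit 0) (nat_lit 0) (XT.nd (nat_lit 78) (nat_lit 304) (nat_lit 0) (XT.lf (nat_lit 0) (nat_lit 9584838202) (nat_lit 152) (nat_lit 3361811793) (nat_lit 228) (nat_lit 2474422176) (nat_lit 40) (nat_lit 5) (nat_lit 42) (nat_lit 5) (nat_lit 43) (nat_lit 4) (nat_lit 493) (nat_lit 340) (nat_lit 307)) (XT.lf (nat_lit 0) (nat_lit 1009945315) (nat_lit 304) (nat_lit 14547792054) (nat_lit 76) (nat_lit 87015300) (nat_lit 36) (nat_lit 5) (nat_lit 40) (nat_lit 5) (nat_lit 37) (nat_lit 4) (nat_lit 494) (nat_lit 340) (nat_lit 306))) (XT.nd (nat_lit 78) (nat_lit 0) (nat_lit 0) (XT.lf (nat_lit 0) (nat_lit 4550490678) (nat_lit 304) (nat_lit 7734456774) (nat_lit 76) (nat_lit 3587257430) (nat_lit 36) (nat_lit 5) (nat_lit 40) (nat_lit 5) (nat_lit 37) (nat_lit 4) (nat_lit 495) (nat_lit 340) (nat_lit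 305)) (XT.lf (nat_lit 0) (nat_lit 8120577185) (nat_lit 304) (nat_lit 854809825) (nat_lit 76) (nat_lit 7129661859) (nat_lit 36) (nat_lit 5) (nat_lit 40) (nat_lit 5) (nat_lit 37) (nat_lit 4) (nat_lit 496) (nat_lit 340) (nat_lit 304))))) (XT.nd (nat_lit 234) (nat_lit 152) (nat_lit 0) (XT.nd (nat_lit 78) (nat_lit 228) (nat_lit 0) (XT.lf (nat_lit 0) (nat_lit 6174830706) (nat_lit 152) (nat_lit 5586865261) (nat_lit 228) (nat_lit 4580878156) (nat_lit 34) (nat_lit 5) (nat_lit 36) (nat_lit 5) (nat_lit 37) (nat_lit 4) (nat_lit 497) (nat_lit 340) (nat_lit 303)) (XT.nd (nat_lit 78) (nat_lit 228) (nat_lit 0) (XT.lf (nat_lit 0) (nat_lit 13288519056) (nat_lit 152) (nat_lit 2152744726) (nat_lit 228) (nat_lit 1144290230) (nat_lit 34) (nat_lit 5) (nat_lit 36) (nat_lit 5) (nat_lit 37) (nat_lit 4) (nat_lit 498) (nat_lit 340) (nat_lit 302)) (XT.lf (nat_lit 0) (nat_lit 2323180647) (nat_lit 228) (nat_lit 13165622898) (nat_lit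 76) (nat_lit 1344437053) (nat_lit 31) (nat_lit 5) (nat_lit 34) (nat_lit 5) (nat_lit 32) (nat_lit 4) (nat_lit 499) (nat_lit 340) (nat_lit 301)))) (XT.nd (nat_lit 156) (nat_lit 0) (nat_lit 0) (XT.nd (nat_lit 78) (nat_lit 152) (nat_lit 0) (XT.lf (nat_lit 0) (nat_lit 5841784212) (nat_lit 228) (nat_lit 6358680929) (nat_lit 76) (nat_lit 4885338095) (nat_lit 31) (nat_lit 5) (nat_lit 34) (nat_lit 5) (nat_lit 32) (nat_lit 4) (nat_lit 500) (nat_lit 340) (nat_lit 300)) (XT.lf (nat_lit 0) (nat_lit 525093530) (nat_lit 152) (nat_lit 8870411891) (nat_lit 228) (nat_lit 7948632187) (nat_lit 29) (nat_lit 5) (nat_lit 31) (nat_lit 5) (nat_lit 32) (nat_lit 4) (nat_lit 501) (nat_lit 340) (nat_lit 299))) (XT.nd (nat_lit 78) (nat_lit 0) (nat_lit 0) (XT.lf (nat_lit 0) (nat_lit 7566979507) (nat_lit 152) (nat_lit 5457659131) (nat_lit 228) (nat_lit 4582928372) (nat_lit 29) (nat_lit 5) (nat_lit 31) (nat_lit 5) (nat_lit 32) (nat_lit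 4) (nat_lit 502) (nat_lit 340) (nat_lit 298)) (XT.lf (nat_lit 0) (nat_lit 14685235004) (nat_lit 152) (nat_lit 2003538622) (nat_lit 228) (nat_lit 1188257789) (nat_lit 29) (nat_lit 5) (nat_lit 31) (nat_lit 5) (nat_lit 32) (nat_lit 4) (nat_lit 503) (nat_lit 340) (nat_lit 297)))))) (XT.nd (nat_lit 546) (nat_lit 304) (nat_lit 0) (XT.nd (nat_lit 234) (nat_lit 380) (nat_lit 0) (XT.nd (nat_lit 78) (nat_lit 0) (nat_lit 0) (XT.lf (nat_lit 0) (nat_lit 2241773547) (nat_lit 228) (nat_lit 14396941016) (nat_lit 76) (nat_lit 1512943535) (nat_lit 26) (nat_lit 5) (nat_lit 29) (nat_lit 5) (nat_lit 27) (nat_lit 4) (nat_lit 504) (nat_lit 340) (nat_lit 296)) (XT.nd (nat_lit 78) (nat_lit 0) (nat_lit 0) (XT.lf (nat_lit 0) (nat_lit 5722380691) (nat_lit 228) (nat_lit 7633071843) (nat_lit 76) (nat_lit 5076223917) (nat_lit 26) (nat_lit 5) (nat_lit 29) (nat_lit 5) (nat_lit 27) (nat_lit 4) (nat_lit 505) (nat_lit 340) (nat_lit 295))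 (XT.lf (nat_lit 0) (nat_lit 9236366776) (nat_lit 228) (nat_lit 796542754) (nat_lit 76) (nat_lit 8685123975) (nat_lit 26) (nat_lit 5) (nat_lit 29) (nat_lit 5) (nat_lit 27) (nat_lit 4) (nat_lit 506) (nat_lit 340) (nat_lit 294)))) (XT.nd (nat_lit 156) (nat_lit 228) (nat_lit 0) (XT.nd (nat_lit 78) (nat_lit 0) (nat_lit 0) (XT.lf (nat_lit 0) (nat_lit 6196596721) (nat_lit 152) (nat_lit 6628745529) (nat_lit 228) (nat_lit 6184694658) (nat_lit 24) (nat_lit 5) (nat_lit 26) (nat_lit 5) (nat_lit 27) (nat_lit 4) (nat_lit 507) (nat_lit 340) (nat_lit 293)) (XT.lf (nat_lit 0) (nat_lit 13279410538) (nat_lit 152) (nat_lit 3176809734) (nat_lit 228) (nat_lit 2852270786) (nat_lit 24) (nat_lit 5) (nat_lit 26) (nat_lit 5) (nat_lit 27) (nat_lit 4) (nat_lit 508) (nat_lit 340) (nat_lit 292))) (XT.nd (nat_lit 78) (nat_lit 0) (nat_lit 0) (XT.lf (nat_lit 0) (nat_lit 512427582) (nat_lit 228) (nat_lit 18777427318) (nat_lit 76) (nat_lit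 323545068) (nat_lit 21) (nat_lit 5) (nat_lit 24) (nat_lit 5) (nat_lit 22) (nat_lit 4) (nat_lit 509) (nat_lit 340) (nat_lit 291)) (XT.lf (nat_lit 0) (nat_lit 3933383757) (nat_lit 228) (nat_lit 12104146251) (nat_lit 76) (nat_lit 3885969244) (nat_lit 21) (nat_lit 5) (nat_lit 24) (nat_lit 5) (nat_lit 22) (nat_lit 4) (nat_lit 510) (nat_lit 340) (nat_lit 290))))) (XT.nd (nat_lit 234) (nat_lit 228) (nat_lit 0) (XT.nd (nat_lit 78) (nat_lit 76) (nat_lit 0) (XT.lf (nat_lit 0) (nat_lit 7388793691) (nat_lit 228) (nat_lit 5356620542) (nat_lit 76) (nat_lit 7495077734) (nat_lit 21) (nat_lit 5) (nat_lit 24) (nat_lit 5) (nat_lit 22) (nat_lit 4) (nat_lit 511) (nat_lit 340) (nat_lit 289)) (XT.nd (nat_lit 78) (nat_lit 0) (nat_lit 0) (XT.lf (nat_lit 0) (nat_lit 1487302132) (nat_lit 76) (nat_lit 9402366868) (nat_lit 152) (nat_lit 9674640293) (nat_lit 20) (nat_lit 5) (nat_lit 21) (nat_lit 5) (nat_lit 22) (nat_lit 4) (nat_lit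 512) (nat_lit 340) (nat_lit 288)) (XT.lf (nat_lit 0) (nat_lit 8483035849) (nat_lit 76) (nat_lit 5980450779) (nat_lit 152) (nat_lit 6431069509) (nat_lit 20) (nat_lit 5) (nat_lit 21) (nat_lit 5) (nat_lit 22) (nat_lit 4) (nat_lit 513) (nat_lit 340) (nat_lit 287)))) (XT.nd (nat_lit 156) (nat_lit 0) (nat_lit 0) (XT.nd (nat_lit 78) (nat_lit 228) (nat_lit 0) (XT.lf (nat_lit 0) (nat_lit 15562137366) (nat_lit 76) (nat_lit 2514269782) (nat_lit 152) (nat_lit 3155659676) (nat_lit 20) (nat_lit 5) (nat_lit 21) (nat_lit 5) (nat_lit 22) (nat_lit 4) (nat_lit 514) (nat_lit 340) (nat_lit 286)) (XT.lf (nat_lit 0) (nat_lit 164963976) (nat_lit 228) (nat_lit 20418644268) (nat_lit 76) (nat_lit 993063714) (nat_lit 17) (nat_lit 5) (nat_lit 20) (nat_lit 5) (nat_lit 18) (nat_lit 4) (nat_lit 515) (nat_lit 340) (nat_lit 285))) (XT.nd (nat_lit 78) (nat_lit 0) (nat_lit 0) (XT.lf (nat_lit 0) (nat_lit 3532888027) (nat_lit 228) (nat_lit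 13821804328) (nat_lit 76) (nat_lit 4572607594) (nat_lit 17) (nat_lit 5) (nat_lit 20) (nat_lit 5) (nat_lit 18) (nat_lit 4) (nat_lit 516) (nat_lit 340) (nat_lit 284)) (XT.lf (nat_lit 0) (nat_lit 6936946766) (nat_lit 228) (nat_lit 7147925913) (nat_lit 76) (nat_lit 8200702864) (nat_lit 17) (nat_lit 5) (nat_lit 20) (nat_lit 5) (nat_lit 18) (nat_lit 4) (nat_lit 517) (nat_lit 340) (nat_lit 283))))))))
noncomputable def xc24 : XT := (XT.nd (nat_lit 55770) (nat_lit 0) (nat_lit 1900) (XT.nd (nat_lit 54678) (nat_lit 0) (nat_lit 5244) (XT.nd (nat_lit 468) (nat_lit 304) (nat_lit 0) (XT.nd (nat_lit 234) (nat_lit 228) (nat_lit 0) (XT.nd (nat_lit 78) (nat_lit 76) (nat_lit 0) (XT.lf (nat_lit 0) (nat_lit 10378475119) (nat_lit 228) (nat_lit 394391816) (nat_lit 76) (nat_lit 11878772306) (nat_lit 17) (nat_lit 5) (nat_lit 20) (nat_lit 5) (nat_lit 18) (nat_lit 4) (nat_lit 518) (nat_lit 340) (nat_lit 282)) (XT.nd (nat_lit 78)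 (nat_lit 0) (nat_lit 0) (XT.lf (nat_lit 0) (nat_lit 6527049838) (nat_lit 76) (nat_lit 7374150801) (nat_lit 152) (nat_lit 9123586398) (nat_lit 16) (nat_lit 5) (nat_lit 17) (nat_lit 5) (nat_lit 18) (nat_lit 4) (nat_lit 519) (nat_lit 340) (nat_lit 281)) (XT.lf (nat_lit 0) (nat_lit 13539847005) (nat_lit 76) (nat_lit 3927417024) (nat_lit 152) (nat_lit 5938686052) (nat_lit 16) (nat_lit 5) (nat_lit 17) (nat_lit 5) (nat_lit 18) (nat_lit 4) (nat_lit 520) (nat_lit 340) (nat_lit 280)))) (XT.nd (nat_lit 78) (nat_lit 228) (nat_lit 0) (XT.lf (nat_lit 0) (nat_lit 20641508540) (nat_lit 76) (nat_lit 433960520) (nat_lit 152) (nat_lit 2719860680) (nat_lit 16) (nat_lit 5) (nat_lit 17) (nat_lit 5) (nat_lit 18) (nat_lit 4) (nat_lit 521) (nat_lit 340) (nat_lit 279)) (XT.nd (nat_lit 78) (nat_lit 0) (nat_lit 0) (XT.lf (nat_lit 0) (nat_lit 571440516) (nat_lit 228) (nat_lit 20526265289) (nat_lit 76) (nat_lit 3094417666) (nat_lit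 13) (nat_lit 5) (nat_lit 16) (nat_lit 5) (nat_lit 14) (nat_lit 4) (nat_lit 522) (nat_lit 340) (nat_lit 278)) (XT.lf (nat_lit 0) (nat_lit 3887649653) (nat_lit 228) (nat_lit 14003654777) (nat_lit 76) (nat_lit 6705288264) (nat_lit 13) (nat_lit 5) (nat_lit 16) (nat_lit 5) (nat_lit 14) (nat_lit 4) (nat_lit 523) (nat_lit 340) (nat_lit 277))))) (XT.nd (nat_lit 234) (nat_lit 228) (nat_lit 0) (XT.nd (nat_lit 78) (nat_lit 76) (nat_lit 0) (XT.lf (nat_lit 0) (nat_lit 7242034871) (nat_lit 228) (nat_lit 7400475011) (nat_lit 76) (nat_lit 10367213399) (nat_lit 13) (nat_lit 5) (nat_lit 16) (nat_lit 5) (nat_lit 14) (nat_lit 4) (nat_lit 524) (nat_lit 340) (nat_lit 276)) (XT.nd (nat_lit 78) (nat_lit 76) (nat_lit 0) (XT.lf (nat_lit 0) (nat_lit 10635911618) (nat_lit 228) (nat_lit 714136509) (nat_lit 76) (nat_lit 14081629120) (nat_lit 13) (nat_lit 5) (nat_lit 16) (nat_lit 5) (nat_lit 14) (nat_lit 4) (nat_lit 525) (nat_lit 340)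 (nat_lit 275)) (XT.lf (nat_lit 0) (nat_lit 6138490225) (nat_lit 76) (nat_lit 7971975748) (nat_lit 152) (nat_lit 11751356986) (nat_lit 12) (nat_lit 5) (nat_lit 13) (nat_lit 5) (nat_lit 14) (nat_lit 4) (nat_lit 526) (nat_lit 340) (nat_lit 274)))) (XT.nd (nat_lit 156) (nat_lit 228) (nat_lit 0) (XT.nd (nat_lit 78) (nat_lit 0) (nat_lit 0) (XT.lf (nat_lit 0) (nat_lit 13090219297) (nat_lit 76) (nat_lit 4542250519) (nat_lit 152) (nat_lit 8668551100) (nat_lit 12) (nat_lit 5) (nat_lit 13) (nat_lit 5) (nat_lit 14) (nat_lit 4) (nat_lit 527) (nat_lit 340) (nat_lit 273)) (XT.lf (nat_lit 0) (nat_lit 20134286375) (nat_lit 76) (nat_lit 1064319681) (nat_lit 152) (nat_lit 5550931262) (nat_lit 12) (nat_lit 5) (nat_lit 13) (nat_lit 5) (nat_lit 14) (nat_lit 4) (nat_lit 528) (nat_lit 340) (nat_lit 272))) (XT.nd (nat_lit 78) (nat_lit 76) (nat_lit 0) (XT.lf (nat_lit 0) (nat_lit 50576501) (nat_lit 152) (nat_lit 24776017657) (nat_lit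 152) (nat_lit 2380627476) (nat_lit 10) (nat_lit 4) (nat_lit 12) (nat_lit 5) (nat_lit 12) (nat_lit 4) (nat_lit 529) (nat_lit 340) (nat_lit 271)) (XT.lf (nat_lit 0) (nat_lit 867738971) (nat_lit 228) (nat_lit 20792884376) (nat_lit 76) (nat_lit 6012816467) (nat_lit 9) (nat_lit 5) (nat_lit 12) (nat_lit 5) (nat_lit 10) (nat_lit 4) (nat_lit 530) (nat_lit 340) (nat_lit 270)))))) (XT.nd (nat_lit 546) (nat_lit 1596) (nat_lit 0) (XT.nd (nat_lit 234) (nat_lit 760) (nat_lit 0) (XT.nd (nat_lit 78) (nat_lit 760) (nat_lit 0) (XT.lf (nat_lit 0) (nat_lit 2067074368) (nat_lit 456) (nat_lit 852644360) (nat_lit 0) (nat_lit 2067074368) (nat_lit 119) (nat_lit 5) (nat_lit 125) (nat_lit 4) (nat_lit 119) (nat_lit 4) (nat_lit 458) (nat_lit 341) (nat_lit 341)) (XT.nd (nat_lit 78) (nat_lit 380) (nat_lit 0) (XT.lf (nat_lit 0) (nat_lit 4978478947) (nat_lit 380) (nat_lit 2962660900) (nat_lit 380) (nat_lit 2137285493) (nat_lit 114) (nat_lit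 4) (nat_lit 119) (nat_lit 5) (nat_lit 119) (nat_lit 4) (nat_lit 459) (nat_lit 341) (nat_lit 340)) (XT.lf (nat_lit 0) (nat_lit 1554913173) (nat_lit 304) (nat_lit 24037398) (nat_lit 380) (nat_lit 8607009431) (nat_lit 109) (nat_lit 5) (nat_lit 113) (nat_lit 5) (nat_lit 114) (nat_lit 4) (nat_lit 460) (nat_lit 341) (nat_lit 339)))) (XT.nd (nat_lit 156) (nat_lit 380) (nat_lit 0) (XT.nd (nat_lit 78) (nat_lit 380) (nat_lit 0) (XT.lf (nat_lit 0) (nat_lit 5335016144) (nat_lit 380) (nat_lit 2005775821) (nat_lit 0) (nat_lit 2954729816) (nat_lit 109) (nat_lit 5) (nat_lit 114) (nat_lit 4) (nat_lit 109) (nat_lit 4) (nat_lit 461) (nat_lit 341) (nat_lit 338)) (XT.lf (nat_lit 0) (nat_lit 4726447163) (nat_lit 380) (nat_lit 4412113365) (nat_lit 380) (nat_lit 1269307742) (nat_lit 104) (nat_lit 4) (nat_lit 109) (nat_lit 5) (nat_lit 109) (nat_lit 4) (nat_lit 462) (nat_lit 341) (nat_lit 337))) (XT.nd (nat_lit 78) (nat_lit 0)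 (nat_lit 0) (XT.lf (nat_lit 0) (nat_lit 1007611190) (nat_lit 304) (nat_lit 1417133734) (nat_lit 380) (nat_lit 8098196483) (nat_lit 99) (nat_lit 5) (nat_lit 103) (nat_lit 5) (nat_lit 104) (nat_lit 4) (nat_lit 463) (nat_lit 341) (nat_lit 336)) (XT.lf (nat_lit 0) (nat_lit 6166769504) (nat_lit 380) (nat_lit 2839456423) (nat_lit 0) (nat_lit 1634138819) (nat_lit 99) (nat_lit 5) (nat_lit 104) (nat_lit 4) (nat_lit 99) (nat_lit 4) (nat_lit 464) (nat_lit 341) (nat_lit 335))))) (XT.nd (nat_lit 234) (nat_lit 912) (nat_lit 0) (XT.nd (nat_lit 78) (nat_lit 380) (nat_lit 0) (XT.lf (nat_lit 0) (nat_lit 3925714353) (nat_lit 304) (nat_lit 6035989495) (nat_lit 304) (nat_lit 798908848) (nat_lit 95) (nat_lit 4) (nat_lit 99) (nat_lit 5) (nat_lit 99) (nat_lit 4) (nat_lit 465) (nat_lit 341) (nat_lit 334)) (XT.nd (nat_lit 78) (nat_lit 304) (nat_lit 0) (XT.lf (nat_lit 0) (nat_lit 2873115651) (nat_lit 380) (nat_lit 124024248) (nat_lit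 76) (nat_lit 7886528313) (nat_lit 94) (nat_lit 5) (nat_lit 99) (nat_lit 5) (nat_lit 95) (nat_lit 4) (nat_lit 466) (nat_lit 341) (nat_lit 333)) (XT.lf (nat_lit 0) (nat_lit 6596771969) (nat_lit 380) (nat_lit 4291099910) (nat_lit 0) (nat_lit 121464934) (nat_lit 90) (nat_lit 5) (nat_lit 95) (nat_lit 4) (nat_lit 90) (nat_lit 4) (nat_lit 467) (nat_lit 341) (nat_lit 332)))) (XT.nd (nat_lit 156) (nat_lit 532) (nat_lit 0) (XT.nd (nat_lit 78) (nat_lit 76) (nat_lit 0) (XT.lf (nat_lit 0) (nat_lit 2489080418) (nat_lit 304) (nat_lit 7887474936) (nat_lit 304) (nat_lit 761365025) (nat_lit 86) (nat_lit 4) (nat_lit 90) (nat_lit 5) (nat_lit 90) (nat_lit 4) (nat_lit 468) (nat_lit 341) (nat_lit 331)) (XT.lf (nat_lit 0) (nat_lit 2897930330) (nat_lit 380) (nat_lit 1910332677) (nat_lit 76) (nat_lit 6460982597) (nat_lit 85) (nat_lit 5) (nat_lit 90) (nat_lit 5) (nat_lit 86) (nat_lit 4) (nat_lit 469) (nat_lit 341) (nat_lit 330)))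 (XT.nd (nat_lit 78) (nat_lit 304) (nat_lit 0) (XT.lf (nat_lit 0) (nat_lit 4938915828) (nat_lit 228) (nat_lit 1659400597) (nat_lit 304) (nat_lit 4805250939) (nat_lit 82) (nat_lit 5) (nat_lit 85) (nat_lit 5) (nat_lit 86) (nat_lit 4) (nat_lit 470) (nat_lit 341) (nat_lit 329)) (XT.lf (nat_lit 0) (nat_lit 320647674) (nat_lit 304) (nat_lit 10023476328) (nat_lit 304) (nat_lit 1197055312) (nat_lit 78) (nat_lit 4) (nat_lit 82) (nat_lit 5) (nat_lit 82) (nat_lit 4) (nat_lit 471) (nat_lit 341) (nat_lit 328))))))) (XT.nd (nat_lit 1014) (nat_lit 1368) (nat_lit 0) (XT.nd (nat_lit 468) (nat_lit 1064) (nat_lit 0) (XT.nd (nat_lit 234) (nat_lit 608) (nat_lit 0) (XT.nd (nat_lit 78) (nat_lit 228) (nat_lit 0) (XT.lf (nat_lit 0) (nat_lit 2451867873) (nat_lit 380) (nat_lit 4463100127) (nat_lit 76) (nat_lit 4766261173) (nat_lit 77) (nat_lit 5) (nat_lit 82) (nat_lit 5) (nat_lit 78) (nat_lit 4) (nat_lit 472) (nat_lit 341) (nat_lit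 327)) (XT.nd (nat_lit 78) (nat_lit 0) (nat_lit 0) (XT.lf (nat_lit 0) (nat_lit 2369981097) (nat_lit 228) (nat_lit 3750686554) (nat_lit 304) (nat_lit 5704025776) (nat_lit 74) (nat_lit 5) (nat_lit 77) (nat_lit 5) (nat_lit 78) (nat_lit 4) (nat_lit 473) (nat_lit 341) (nat_lit 326)) (XT.lf (nat_lit 0) (nat_lit 9318112094) (nat_lit 228) (nat_lit 522701134) (nat_lit 304) (nat_lit 2130683935) (nat_lit 74) (nat_lit 5) (nat_lit 77) (nat_lit 5) (nat_lit 78) (nat_lit 4) (nat_lit 474) (nat_lit 341) (nat_lit 325)))) (XT.nd (nat_lit 78) (nat_lit 228) (nat_lit 0) (XT.lf (nat_lit 0) (nat_lit 1488562339) (nat_lit 380) (nat_lit 7890932127) (nat_lit 76) (nat_lit 2741688422) (nat_lit 69) (nat_lit 5) (nat_lit 74) (nat_lit 5) (nat_lit 70) (nat_lit 4) (nat_lit 475) (nat_lit 341) (nat_lit 324)) (XT.nd (nat_lit 78) (nat_lit 228) (nat_lit 0) (XT.lf (nat_lit 0) (nat_lit 5122037534) (nat_lit 380) (nat_lit 1085197268) (nat_lit 76)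 (nat_lit 6066966260) (nat_lit 69) (nat_lit 5) (nat_lit 74) (nat_lit 5) (nat_lit 70) (nat_lit 4) (nat_lit 476) (nat_lit 341) (nat_lit 323)) (XT.lf (nat_lit 0) (nat_lit 5853492791) (nat_lit 228) (nat_lit 2962656998) (nat_lit 304) (nat_lit 3614397794) (nat_lit 66) (nat_lit 5) (nat_lit 69) (nat_lit 5) (nat_lit 70) (nat_lit 4) (nat_lit 477) (nat_lit 341) (nat_lit 322))))) (XT.nd (nat_lit 234) (nat_lit 532) (nat_lit 0) (XT.nd (nat_lit 78) (nat_lit 304) (nat_lit 0) (XT.lf (nat_lit 0) (nat_lit 276895155) (nat_lit 228) (nat_lit 12268863828) (nat_lit 228) (nat_lit 45056562) (nat_lit 63) (nat_lit 4) (nat_lit 66) (nat_lit 5) (nat_lit 66) (nat_lit 4) (nat_lit 478) (nat_lit 341) (nat_lit 321)) (XT.nd (nat_lit 78) (nat_lit 228) (nat_lit 0) (XT.lf (nat_lit 0) (nat_lit 3562902201) (nat_lit 304) (nat_lit 5519972063) (nat_lit 76) (nat_lit 3670685682) (nat_lit 62) (nat_lit 5) (nat_lit 66) (nat_lit 5) (nat_lit 63) (nat_lit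 4) (nat_lit 479) (nat_lit 341) (nat_lit 320)) (XT.lf (nat_lit 0) (nat_lit 1348432265) (nat_lit 228) (nat_lit 5854054318) (nat_lit 304) (nat_lit 5717890556) (nat_lit 59) (nat_lit 5) (nat_lit 62) (nat_lit 5) (nat_lit 63) (nat_lit 4) (nat_lit 480) (nat_lit 341) (nat_lit 319)))) (XT.nd (nat_lit 156) (nat_lit 228) (nat_lit 0) (XT.nd (nat_lit 78) (nat_lit 304) (nat_lit 0) (XT.lf (nat_lit 0) (nat_lit 8350738327) (nat_lit 228) (nat_lit 2552926816) (nat_lit 304) (nat_lit 2187114244) (nat_lit 59) (nat_lit 5) (nat_lit 62) (nat_lit 5) (nat_lit 63) (nat_lit 4) (nat_lit 481) (nat_lit 341) (nat_lit 318)) (XT.lf (nat_lit 0) (nat_lit 1367437104) (nat_lit 304) (nat_lit 11099977356) (nat_lit 76) (nat_lit 797581211) (nat_lit 55) (nat_lit 5) (nat_lit 59) (nat_lit 5) (nat_lit 56) (nat_lit 4) (nat_lit 482) (nat_lit 341) (nat_lit 317))) (XT.nd (nat_lit 78) (nat_lit 228) (nat_lit 0) (XT.lf (nat_lit 0) (nat_lit 4965358048) (nat_lit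 304) (nat_lit 4278908161) (nat_lit 76) (nat_lit 4198132988) (nat_lit 55) (nat_lit 5) (nat_lit 59) (nat_lit 5) (nat_lit 56) (nat_lit 4) (nat_lit 483) (nat_lit 341) (nat_lit 316)) (XT.lf (nat_lit 0) (nat_lit 2637012631) (nat_lit 228) (nat_lit 5968886244) (nat_lit 304) (nat_lit 5018061563) (nat_lit 52) (nat_lit 5) (nat_lit 55) (nat_lit 5) (nat_lit 56) (nat_lit 4) (nat_lit 484) (nat_lit 341) (nat_lit 315)))))) (XT.nd (nat_lit 546) (nat_lit 608) (nat_lit 0) (XT.nd (nat_lit 234) (nat_lit 456) (nat_lit 0) (XT.nd (nat_lit 78) (nat_lit 304) (nat_lit 0) (XT.lf (nat_lit 0) (nat_lit 9673599900) (nat_lit 228) (nat_lit 2628324355) (nat_lit 304) (nat_lit 1507597602) (nat_lit 52) (nat_lit 5) (nat_lit 55) (nat_lit 5) (nat_lit 56) (nat_lit 4) (nat_lit 485) (nat_lit 341) (nat_lit 314)) (XT.nd (nat_lit 78) (nat_lit 0) (nat_lit 0) (XT.lf (nat_lit 0) (nat_lit 2023689536) (nat_lit 304) (nat_lit 11203570469) (nat_lit 76) (nat_lit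 771730805) (nat_lit 48) (nat_lit 5) (nat_lit 52) (nat_lit 5) (nat_lit 49) (nat_lit 4) (nat_lit 486) (nat_lit 341) (nat_lit 313)) (XT.lf (nat_lit 0) (nat_lit 5605539787) (nat_lit 304) (nat_lit 4372851095) (nat_lit 76) (nat_lit 4213677609) (nat_lit 48) (nat_lit 5) (nat_lit 52) (nat_lit 5) (nat_lit 49) (nat_lit 4) (nat_lit 487) (nat_lit 341) (nat_lit 312)))) (XT.nd (nat_lit 156) (nat_lit 304) (nat_lit 0) (XT.nd (nat_lit 78) (nat_lit 0) (nat_lit 0) (XT.lf (nat_lit 0) (nat_lit 2554419615) (nat_lit 152) (nat_lit 6676840545) (nat_lit 228) (nat_lit 5158323621) (nat_lit 46) (nat_lit 5) (nat_lit 48) (nat_lit 5) (nat_lit 49) (nat_lit 4) (nat_lit 488) (nat_lit 341) (nat_lit 311)) (XT.lf (nat_lit 0) (nat_lit 9606430142) (nat_lit 152) (nat_lit 3308452218) (nat_lit 228) (nat_lit 1676479582) (nat_lit 46) (nat_lit 5) (nat_lit 48) (nat_lit 5) (nat_lit 49) (nat_lit 4) (nat_lit 489) (nat_lit 341) (nat_lit 310))) (XT.nd (nat_lit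 78) (nat_lit 0) (nat_lit 0) (XT.lf (nat_lit 0) (nat_lit 1820431619) (nat_lit 304) (nat_lit 12854995705) (nat_lit 76) (nat_lit 122123964) (nat_lit 42) (nat_lit 5) (nat_lit 46) (nat_lit 5) (nat_lit 43) (nat_lit 4) (nat_lit 490) (nat_lit 341) (nat_lit 309)) (XT.lf (nat_lit 0) (nat_lit 5377235747) (nat_lit 304) (nat_lit 6036726475) (nat_lit 76) (nat_lit 3593451655) (nat_lit 42) (nat_lit 5) (nat_lit 46) (nat_lit 5) (nat_lit 43) (nat_lit 4) (nat_lit 491) (nat_lit 341) (nat_lit 308))))) (XT.nd (nat_lit 234) (nat_lit 380) (nat_lit 0) (XT.nd (nat_lit 78) (nat_lit 76) (nat_lit 0) (XT.lf (nat_lit 0) (nat_lit 858121842) (nat_lit 152) (nat_lit 8110271152) (nat_lit 228) (nat_lit 6253835149) (nat_lit 40) (nat_lit 5) (nat_lit 42) (nat_lit 5) (nat_lit 43) (nat_lit 4) (nat_lit 492) (nat_lit 341) (nat_lit 307)) (XT.nd (nat_lit 78) (nat_lit 76) (nat_lit 0) (XT.lf (nat_lit 0) (nat_lit 7902123196) (nat_lit 152) (nat_lit 4727777614)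 (nat_lit 228) (nat_lit 2811485734) (nat_lit 40) (nat_lit 5) (nat_lit 42) (nat_lit 5) (nat_lit 43) (nat_lit 4) (nat_lit 493) (nat_lit 341) (nat_lit 306)) (XT.lf (nat_lit 0) (nat_lit 649084452) (nat_lit 228) (nat_lit 652224600) (nat_lit 76) (nat_lit 14364374872) (nat_lit 39) (nat_lit 5) (nat_lit 42) (nat_lit 5) (nat_lit 40) (nat_lit 5) (nat_lit 494) (nat_lit 341) (nat_lit 305)))) (XT.nd (nat_lit 156) (nat_lit 152) (nat_lit 0) (XT.nd (nat_lit 78) (nat_lit 0) (nat_lit 0) (XT.lf (nat_lit 0) (nat_lit 4156430909) (nat_lit 304) (nat_lit 9539480614) (nat_lit 76) (nat_lit 2197897173) (nat_lit 36) (nat_lit 5) (nat_lit 40) (nat_lit 5) (nat_lit 37) (nat_lit 4) (nat_lit 495) (nat_lit 341) (nat_lit 304)) (XT.lf (nat_lit 0) (nat_lit 7706487441) (nat_lit 304) (nat_lit 2693785829) (nat_lit 76) (nat_lit 5726788428) (nat_lit 36) (nat_lit 5) (nat_lit 40) (nat_lit 5) (nat_lit 37) (nat_lit 4) (nat_lit 496) (nat_lit 341) (nat_lit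 303))) (XT.nd (nat_lit 78) (nat_lit 0) (nat_lit 0) (XT.lf (nat_lit 0) (nat_lit 4277686885) (nat_lit 152) (nat_lit 7037964591) (nat_lit 228) (nat_lit 5049582821) (nat_lit 34) (nat_lit 5) (nat_lit 36) (nat_lit 5) (nat_lit 37) (nat_lit 4) (nat_lit 497) (nat_lit 341) (nat_lit 302)) (XT.lf (nat_lit 0) (nat_lit 11358307790) (nat_lit 152) (nat_lit 3617444617) (nat_lit 228) (nat_lit 1632859203) (nat_lit 34) (nat_lit 5) (nat_lit 36) (nat_lit 5) (nat_lit 37) (nat_lit 4) (nat_lit 498) (nat_lit 341) (nat_lit 301))))))))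
noncomputable def xc25 : XT := (XT.nd (nat_lit 2106) (nat_lit 228) (nat_lit 0) (XT.nd (nat_lit 1014) (nat_lit 608) (nat_lit 0) (XT.nd (nat_lit 468) (nat_lit 380) (nat_lit 0) (XT.nd (nat_lit 234) (nat_lit 380) (nat_lit 0) (XT.nd (nat_lit 78) (nat_lit 0) (nat_lit 0) (XT.lf (nat_lit 0) (nat_lit 1667510487) (nat_lit 152) (nat_lit 132399879) (nat_lit 228) (nat_lit 15057281224) (nat_lit 31) (nat_lit 5) (nat_lit 33) (nat_lit 5) (nat_lit 34) (nat_lit 5) (nat_lit 499) (nat_lit 341) (nat_lit 300)) (XT.nd (nat_lit 78) (nat_lit 0) (nat_lit 0) (XT.lf (nat_lit 0) (nat_lit 5298513867) (nat_lit 228) (nat_lit 8414648341) (nat_lit 76) (nat_lit 3396999642) (nat_lit 31) (nat_lit 5) (nat_lit 34) (nat_lit 5) (nat_lit 32) (nat_lit 4) (nat_lit 500) (nat_lit 341) (nat_lit 299)) (XT.lf (nat_lit 0) (nat_lit 8830060688) (nat_lit 228) (nat_lit 1569886886) (nat_lit 76) (nat_lit 6968999610) (nat_lit 31) (nat_lit 5) (nat_lit 34) (nat_lit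 5) (nat_lit 32) (nat_lit 4) (nat_lit 501) (nat_lit 341) (nat_lit 298)))) (XT.nd (nat_lit 78) (nat_lit 228) (nat_lit 0) (XT.lf (nat_lit 0) (nat_lit 5419221169) (nat_lit 152) (nat_lit 7011040129) (nat_lit 228) (nat_lit 5202701264) (nat_lit 29) (nat_lit 5) (nat_lit 31) (nat_lit 5) (nat_lit 32) (nat_lit 4) (nat_lit 502) (nat_lit 341) (nat_lit 297)) (XT.nd (nat_lit 78) (nat_lit 228) (nat_lit 0) (XT.lf (nat_lit 0) (nat_lit 12506187498) (nat_lit 152) (nat_lit 3569969177) (nat_lit 228) (nat_lit 1826642266) (nat_lit 29) (nat_lit 5) (nat_lit 31) (nat_lit 5) (nat_lit 32) (nat_lit 4) (nat_lit 503) (nat_lit 341) (nat_lit 296)) (XT.lf (nat_lit 0) (nat_lit 1503620964) (nat_lit 152) (nat_lit 65498186) (nat_lit 228) (nat_lit 16609249121) (nat_lit 26) (nat_lit 5) (nat_lit 28) (nat_lit 5) (nat_lit 29) (nat_lit 5) (nat_lit 504) (nat_lit 341) (nat_lit 295))))) (XT.nd (nat_lit 234) (nat_lit 228) (nat_lit 0) (XT.nd (nat_lit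 78) (nat_lit 152) (nat_lit 0) (XT.lf (nat_lit 0) (nat_lit 5031363809) (nat_lit 228) (nat_lit 9941451623) (nat_lit 76) (nat_lit 3485945210) (nat_lit 26) (nat_lit 5) (nat_lit 29) (nat_lit 5) (nat_lit 27) (nat_lit 4) (nat_lit 505) (nat_lit 341) (nat_lit 294)) (XT.nd (nat_lit 78) (nat_lit 152) (nat_lit 0) (XT.lf (nat_lit 0) (nat_lit 8527764375) (nat_lit 228) (nat_lit 3135313463) (nat_lit 76) (nat_lit 7082398203) (nat_lit 26) (nat_lit 5) (nat_lit 29) (nat_lit 5) (nat_lit 27) (nat_lit 4) (nat_lit 506) (nat_lit 341) (nat_lit 293)) (XT.lf (nat_lit 0) (nat_lit 3796553993) (nat_lit 152) (nat_lit 8287362482) (nat_lit 228) (nat_lit 6954225941) (nat_lit 24) (nat_lit 5) (nat_lit 26) (nat_lit 5) (nat_lit 27) (nat_lit 4) (nat_lit 507) (nat_lit 341) (nat_lit 292)))) (XT.nd (nat_lit 156) (nat_lit 228) (nat_lit 0) (XT.nd (nat_lit 78) (nat_lit 0) (nat_lit 0) (XT.lf (nat_lit 0) (nat_lit 10849768802) (nat_lit 152) (nat_lit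 4847930867) (nat_lit 228) (nat_lit 3639245171) (nat_lit 24) (nat_lit 5) (nat_lit 26) (nat_lit 5) (nat_lit 27) (nat_lit 4) (nat_lit 508) (nat_lit 341) (nat_lit 291)) (XT.lf (nat_lit 0) (nat_lit 17985430265) (nat_lit 152) (nat_lit 1364473798) (nat_lit 228) (nat_lit 292508966) (nat_lit 24) (nat_lit 5) (nat_lit 26) (nat_lit 5) (nat_lit 27) (nat_lit 4) (nat_lit 509) (nat_lit 341) (nat_lit 290))) (XT.nd (nat_lit 78) (nat_lit 0) (nat_lit 0) (XT.lf (nat_lit 0) (nat_lit 3095636514) (nat_lit 228) (nat_lit 14666840074) (nat_lit 76) (nat_lit 2190812658) (nat_lit 21) (nat_lit 5) (nat_lit 24) (nat_lit 5) (nat_lit 22) (nat_lit 4) (nat_lit 510) (nat_lit 341) (nat_lit 289)) (XT.lf (nat_lit 0) (nat_lit 6534561609) (nat_lit 228) (nat_lit 7948056832) (nat_lit 76) (nat_lit 5787999108) (nat_lit 21) (nat_lit 5) (nat_lit 24) (nat_lit 5) (nat_lit 22) (nat_lit 4) (nat_lit 511) (nat_lit 341) (nat_lit 288)))))) (XT.nd (nat_lit 546)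 (nat_lit 304) (nat_lit 0) (XT.nd (nat_lit 234) (nat_lit 228) (nat_lit 0) (XT.nd (nat_lit 78) (nat_lit 76) (nat_lit 0) (XT.lf (nat_lit 0) (nat_lit 10009618758) (nat_lit 228) (nat_lit 1151819282) (nat_lit 76) (nat_lit 9433518973) (nat_lit 21) (nat_lit 5) (nat_lit 24) (nat_lit 5) (nat_lit 22) (nat_lit 4) (nat_lit 512) (nat_lit 341) (nat_lit 287)) (XT.nd (nat_lit 78) (nat_lit 0) (nat_lit 0) (XT.lf (nat_lit 0) (nat_lit 5800613860) (nat_lit 76) (nat_lit 7759218302) (nat_lit 152) (nat_lit 7365849443) (nat_lit 20) (nat_lit 5) (nat_lit 21) (nat_lit 5) (nat_lit 22) (nat_lit 4) (nat_lit 513) (nat_lit 341) (nat_lit 286)) (XT.lf (nat_lit 0) (nat_lit 12852270767) (nat_lit 76) (nat_lit 4304769693) (nat_lit 152) (nat_lit 4106471628) (nat_lit 20) (nat_lit 5) (nat_lit 21) (nat_lit 5) (nat_lit 22) (nat_lit 4) (nat_lit 514) (nat_lit 341) (nat_lit 285)))) (XT.nd (nat_lit 156) (nat_lit 0) (nat_lit 0) (XT.nd (nat_lit 78) (nat_lit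 228) (nat_lit 0) (XT.lf (nat_lit 0) (nat_lit 19990609723) (nat_lit 76) (nat_lit 804466843) (nat_lit 152) (nat_lit 813655937) (nat_lit 20) (nat_lit 5) (nat_lit 21) (nat_lit 5) (nat_lit 22) (nat_lit 4) (nat_lit 515) (nat_lit 341) (nat_lit 284)) (XT.lf (nat_lit 0) (nat_lit 2533542856) (nat_lit 228) (nat_lit 16668333218) (nat_lit 76) (nat_lit 2758223238) (nat_lit 17) (nat_lit 5) (nat_lit 20) (nat_lit 5) (nat_lit 18) (nat_lit 4) (nat_lit 516) (nat_lit 341) (nat_lit 283))) (XT.nd (nat_lit 78) (nat_lit 0) (nat_lit 0) (XT.lf (nat_lit 0) (nat_lit 5922447357) (nat_lit 228) (nat_lit 10021099301) (nat_lit 76) (nat_lit 6375136461) (nat_lit 17) (nat_lit 5) (nat_lit 20) (nat_lit 5) (nat_lit 18) (nat_lit 4) (nat_lit 517) (nat_lit 341) (nat_lit 282)) (XT.lf (nat_lit 0) (nat_lit 9349118613) (nat_lit 228) (nat_lit 3293687262) (nat_lit 76) (nat_lit 10042243113) (nat_lit 17) (nat_lit 5) (nat_lit 20) (nat_lit 5) (nat_lit 18)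 (nat_lit 4) (nat_lit 518) (nat_lit 341) (nat_lit 281))))) (XT.nd (nat_lit 234) (nat_lit 228) (nat_lit 0) (XT.nd (nat_lit 78) (nat_lit 0) (nat_lit 0) (XT.lf (nat_lit 0) (nat_lit 3563274081) (nat_lit 76) (nat_lit 9274761474) (nat_lit 152) (nat_lit 10220842330) (nat_lit 16) (nat_lit 5) (nat_lit 17) (nat_lit 5) (nat_lit 18) (nat_lit 4) (nat_lit 519) (nat_lit 341) (nat_lit 280)) (XT.nd (nat_lit 78) (nat_lit 0) (nat_lit 0) (XT.lf (nat_lit 0) (nat_lit 10550629874) (nat_lit 76) (nat_lit 5839023711) (nat_lit 152) (nat_lit 7050681084) (nat_lit 16) (nat_lit 5) (nat_lit 17) (nat_lit 5) (nat_lit 18) (nat_lit 4) (nat_lit 520) (nat_lit 341) (nat_lit 279)) (XT.lf (nat_lit 0) (nat_lit 17627348886) (nat_lit 76) (nat_lit 2356347613) (nat_lit 152) (nat_lit 3846305810) (nat_lit 16) (nat_lit 5) (nat_lit 17) (nat_lit 5) (nat_lit 18) (nat_lit 4) (nat_lit 521) (nat_lit 341) (nat_lit 278)))) (XT.nd (nat_lit 156) (nat_lit 0) (nat_lit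 0) (XT.nd (nat_lit 78) (nat_lit 76) (nat_lit 0) (XT.lf (nat_lit 0) (nat_lit 567995553) (nat_lit 152) (nat_lit 23064892468) (nat_lit 152) (nat_lit 594919307) (nat_lit 14) (nat_lit 4) (nat_lit 16) (nat_lit 5) (nat_lit 16) (nat_lit 4) (nat_lit 522) (nat_lit 341) (nat_lit 277)) (XT.lf (nat_lit 0) (nat_lit 2715157599) (nat_lit 228) (nat_lit 17158033186) (nat_lit 76) (nat_lit 4759446177) (nat_lit 13) (nat_lit 5) (nat_lit 16) (nat_lit 5) (nat_lit 14) (nat_lit 4) (nat_lit 523) (nat_lit 341) (nat_lit 276))) (XT.nd (nat_lit 78) (nat_lit 0) (nat_lit 0) (XT.lf (nat_lit 0) (nat_lit 6055881344) (nat_lit 228) (nat_lit 10579063746) (nat_lit 76) (nat_lit 8411100067) (nat_lit 13) (nat_lit 5) (nat_lit 16) (nat_lit 5) (nat_lit 14) (nat_lit 4) (nat_lit 524) (nat_lit 341) (nat_lit 275)) (XT.lf (nat_lit 0) (nat_lit 9436364489) (nat_lit 228) (nat_lit 3916460858) (nat_lit 76) (nat_lit 12115445939) (nat_lit 13) (nat_lit 5) (nat_lit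 16) (nat_lit 5) (nat_lit 14) (nat_lit 4) (nat_lit 525) (nat_lit 341) (nat_lit 274))))))) (XT.nd (nat_lit 54600) (nat_lit 0) (nat_lit 4180) (XT.nd (nat_lit 54054) (nat_lit 0) (nat_lit 6764) (XT.nd (nat_lit 234) (nat_lit 152) (nat_lit 0) (XT.nd (nat_lit 78) (nat_lit 0) (nat_lit 0) (XT.lf (nat_lit 0) (nat_lit 2870029212) (nat_lit 76) (nat_lit 10006537633) (nat_lit 152) (nat_lit 13022541400) (nat_lit 12) (nat_lit 5) (nat_lit 13) (nat_lit 5) (nat_lit 14) (nat_lit 4) (nat_lit 526) (nat_lit 341) (nat_lit 273)) (XT.nd (nat_lit 78) (nat_lit 0) (nat_lit 0) (XT.lf (nat_lit 0) (nat_lit 9798641167) (nat_lit 76) (nat_lit 6586905917) (nat_lit 152) (nat_lit 9953023715) (nat_lit 12) (nat_lit 5) (nat_lit 13) (nat_lit 5) (nat_lit 14) (nat_lit 4) (nat_lit 527) (nat_lit 341) (nat_lit 272)) (XT.lf (nat_lit 0) (nat_lit 16820044406) (nat_lit 76) (nat_lit 3118870680) (nat_lit 152) (nat_lit 6848431524) (nat_lit 12) (nat_lit 5)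 (nat_lit 13) (nat_lit 5) (nat_lit 14) (nat_lit 4) (nat_lit 528) (nat_lit 341) (nat_lit 271)))) (XT.nd (nat_lit 53664) (nat_lit 0) (nat_lit 8284) (XT.nd (nat_lit 78) (nat_lit 152) (nat_lit 0) (XT.lf (nat_lit 0) (nat_lit 23540654435) (nat_lit 152) (nat_lit 3311209355) (nat_lit 0) (nat_lit 393696076) (nat_lit 12) (nat_lit 5) (nat_lit 14) (nat_lit 4) (nat_lit 12) (nat_lit 4) (nat_lit 529) (nat_lit 341) (nat_lit 270)) (XT.lf (nat_lit 0) (nat_lit 3458324992) (nat_lit 152) (nat_lit 23774297033) (nat_lit 152) (nat_lit 479959344) (nat_lit 10) (nat_lit 4) (nat_lit 12) (nat_lit 5) (nat_lit 12) (nat_lit 4) (nat_lit 530) (nat_lit 341) (nat_lit 269))) (XT.nd (nat_lit 78) (nat_lit 456) (nat_lit 0) (XT.lf (nat_lit 0) (nat_lit 2402176602) (nat_lit 380) (nat_lit 1241541745) (nat_lit 380) (nat_lit 1241541745) (nat_lit 125) (nat_lit 4) (nat_lit 130) (nat_lit 5) (nat_lit 130) (nat_lit 4) (nat_lit 456) (nat_lit 342) (nat_lit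 342)) (XT.lf (nat_lit 0) (nat_lit 1216305930) (nat_lit 456) (nat_lit 8280664512) (nat_lit 0) (nat_lit 374423016) (nat_lit 119) (nat_lit 5) (nat_lit 125) (nat_lit 4) (nat_lit 119) (nat_lit 4) (nat_lit 457) (nat_lit 342) (nat_lit 341))))) (XT.nd (nat_lit 234) (nat_lit 760) (nat_lit 0) (XT.nd (nat_lit 78) (nat_lit 760) (nat_lit 0) (XT.lf (nat_lit 0) (nat_lit 4946203576) (nat_lit 456) (nat_lit 1749055694) (nat_lit 0) (nat_lit 3278945255) (nat_lit 119) (nat_lit 5) (nat_lit 125) (nat_lit 4) (nat_lit 119) (nat_lit 4) (nat_lit 458) (nat_lit 342) (nat_lit 340)) (XT.nd (nat_lit 78) (nat_lit 380) (nat_lit 0) (XT.lf (nat_lit 0) (nat_lit 4890651303) (nat_lit 380) (nat_lit 3832729936) (nat_lit 380) (nat_lit 1356280040) (nat_lit 114) (nat_lit 4) (nat_lit 119) (nat_lit 5) (nat_lit 119) (nat_lit 4) (nat_lit 459) (nat_lit 342) (nat_lit 339)) (XT.lf (nat_lit 0) (nat_lit 1415921360) (nat_lit 304) (nat_lit 903730288) (nat_lit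 380) (nat_lit 7868064617) (nat_lit 109) (nat_lit 5) (nat_lit 113) (nat_lit 5) (nat_lit 114) (nat_lit 4) (nat_lit 460) (nat_lit 342) (nat_lit 338)))) (XT.nd (nat_lit 156) (nat_lit 380) (nat_lit 0) (XT.nd (nat_lit 78) (nat_lit 380) (nat_lit 0) (XT.lf (nat_lit 0) (nat_lit 6041050761) (nat_lit 380) (nat_lit 2184070991) (nat_lit 0) (nat_lit 2072869732) (nat_lit 109) (nat_lit 5) (nat_lit 114) (nat_lit 4) (nat_lit 109) (nat_lit 4) (nat_lit 461) (nat_lit 342) (nat_lit 337)) (XT.lf (nat_lit 0) (nat_lit 4502808497) (nat_lit 380) (nat_lit 5311947470) (nat_lit 380) (nat_lit 596198506) (nat_lit 104) (nat_lit 4) (nat_lit 109) (nat_lit 5) (nat_lit 109) (nat_lit 4) (nat_lit 462) (nat_lit 342) (nat_lit 336))) (XT.nd (nat_lit 78) (nat_lit 0) (nat_lit 0) (XT.lf (nat_lit 0) (nat_lit 730353177) (nat_lit 304) (nat_lit 2328563596) (nat_lit 380) (nat_lit 7467644571) (nat_lit 99) (nat_lit 5) (nat_lit 103) (nat_lit 5) (nat_lit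 104) (nat_lit 4) (nat_lit 463) (nat_lit 342) (nat_lit 335)) (XT.lf (nat_lit 0) (nat_lit 6766902924) (nat_lit 380) (nat_lit 3157150405) (nat_lit 0) (nat_lit 720630702) (nat_lit 99) (nat_lit 5) (nat_lit 104) (nat_lit 4) (nat_lit 99) (nat_lit 4) (nat_lit 464) (nat_lit 342) (nat_lit 334)))))) (XT.nd (nat_lit 546) (nat_lit 1292) (nat_lit 0) (XT.nd (nat_lit 234) (nat_lit 608) (nat_lit 0) (XT.nd (nat_lit 78) (nat_lit 380) (nat_lit 0) (XT.lf (nat_lit 0) (nat_lit 3561345889) (nat_lit 304) (nat_lit 6970556224) (nat_lit 304) (nat_lit 233646784) (nat_lit 95) (nat_lit 4) (nat_lit 99) (nat_lit 5) (nat_lit 99) (nat_lit 4) (nat_lit 465) (nat_lit 342) (nat_lit 333)) (XT.nd (nat_lit 78) (nat_lit 304) (nat_lit 0) (XT.lf (nat_lit 0) (nat_lit 3403466708) (nat_lit 380) (nat_lit 539001999) (nat_lit 76) (nat_lit 6946629762) (nat_lit 94) (nat_lit 5) (nat_lit 99) (nat_lit 5) (nat_lit 95) (nat_lit 4) (nat_lit 466) (nat_lit 342)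 (nat_lit 332)) (XT.lf (nat_lit 0) (nat_lit 6256832717) (nat_lit 304) (nat_lit 839531837) (nat_lit 380) (nat_lit 3919034850) (nat_lit 90) (nat_lit 5) (nat_lit 94) (nat_lit 5) (nat_lit 95) (nat_lit 4) (nat_lit 467) (nat_lit 342) (nat_lit 331)))) (XT.nd (nat_lit 156) (nat_lit 228) (nat_lit 0) (XT.nd (nat_lit 78) (nat_lit 76) (nat_lit 0) (XT.lf (nat_lit 0) (nat_lit 1979007767) (nat_lit 304) (nat_lit 8861590026) (nat_lit 304) (nat_lit 304113007) (nat_lit 86) (nat_lit 4) (nat_lit 90) (nat_lit 5) (nat_lit 90) (nat_lit 4) (nat_lit 468) (nat_lit 342) (nat_lit 330)) (XT.lf (nat_lit 0) (nat_lit 3322464249) (nat_lit 380) (nat_lit 2471630642) (nat_lit 76) (nat_lit 5482432357) (nat_lit 85) (nat_lit 5) (nat_lit 90) (nat_lit 5) (nat_lit 86) (nat_lit 4) (nat_lit 469) (nat_lit 342) (nat_lit 329))) (XT.nd (nat_lit 78) (nat_lit 0) (nat_lit 0) (XT.lf (nat_lit 0) (nat_lit 4328965204) (nat_lit 228) (nat_lit 2663727723) (nat_lit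 304) (nat_lit 4418775085) (nat_lit 82) (nat_lit 5) (nat_lit 85) (nat_lit 5) (nat_lit 86) (nat_lit 4) (nat_lit 470) (nat_lit 342) (nat_lit 328)) (XT.lf (nat_lit 0) (nat_lit 10703858385) (nat_lit 304) (nat_lit 335714493) (nat_lit 0) (nat_lit 510215473) (nat_lit 82) (nat_lit 5) (nat_lit 86) (nat_lit 4) (nat_lit 82) (nat_lit 4) (nat_lit 471) (nat_lit 342) (nat_lit 327))))) (XT.nd (nat_lit 234) (nat_lit 684) (nat_lit 0) (XT.nd (nat_lit 78) (nat_lit 228) (nat_lit 0) (XT.lf (nat_lit 0) (nat_lit 2770186766) (nat_lit 380) (nat_lit 5175759971) (nat_lit 76) (nat_lit 3744424847) (nat_lit 77) (nat_lit 5) (nat_lit 82) (nat_lit 5) (nat_lit 78) (nat_lit 4) (nat_lit 472) (nat_lit 342) (nat_lit 326)) (XT.nd (nat_lit 78) (nat_lit 0) (nat_lit 0) (XT.lf (nat_lit 0) (nat_lit 1607201691) (nat_lit 228) (nat_lit 4801363654) (nat_lit 304) (nat_lit 5425893567) (nat_lit 74) (nat_lit 5) (nat_lit 77) (nat_lit 5) (nat_lit 78) (nat_lit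 4) (nat_lit 473) (nat_lit 342) (nat_lit 325)) (XT.lf (nat_lit 0) (nat_lit 8515481032) (nat_lit 228) (nat_lit 1588001803) (nat_lit 304) (nat_lit 1878298737) (nat_lit 74) (nat_lit 5) (nat_lit 77) (nat_lit 5) (nat_lit 78) (nat_lit 4) (nat_lit 474) (nat_lit 342) (nat_lit 324)))) (XT.nd (nat_lit 156) (nat_lit 304) (nat_lit 0) (XT.nd (nat_lit 78) (nat_lit 0) (nat_lit 0) (XT.lf (nat_lit 0) (nat_lit 1700070967) (nat_lit 380) (nat_lit 8760089026) (nat_lit 76) (nat_lit 1672039666) (nat_lit 69) (nat_lit 5) (nat_lit 74) (nat_lit 5) (nat_lit 70) (nat_lit 4) (nat_lit 475) (nat_lit 342) (nat_lit 323)) (XT.lf (nat_lit 0) (nat_lit 5308775270) (nat_lit 380) (nat_lit 1993923032) (nat_lit 76) (nat_lit 4983028481) (nat_lit 69) (nat_lit 5) (nat_lit 74) (nat_lit 5) (nat_lit 70) (nat_lit 4) (nat_lit 476) (nat_lit 342) (nat_lit 322))) (XT.nd (nat_lit 78) (nat_lit 76) (nat_lit 0) (XT.lf (nat_lit 0) (nat_lit 4893381997) (nat_lit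 228) (nat_lit 4078986667) (nat_lit 304) (nat_lit 3470328288) (nat_lit 66) (nat_lit 5) (nat_lit 69) (nat_lit 5) (nat_lit 70) (nat_lit 4) (nat_lit 477) (nat_lit 342) (nat_lit 321)) (XT.lf (nat_lit 0) (nat_lit 69553063) (nat_lit 304) (nat_lit 736379827) (nat_lit 76) (nat_lit 11797595145) (nat_lit 65) (nat_lit 5) (nat_lit 69) (nat_lit 5) (nat_lit 66) (nat_lit 5) (nat_lit 478) (nat_lit 342) (nat_lit 320))))))))
noncomputable def xc26 : XT := (XT.nd (nat_lit 2106) (nat_lit 1064) (nat_lit 0) (XT.nd (nat_lit 1014) (nat_lit 1216) (nat_lit 0) (XT.nd (nat_lit 468) (nat_lit 760) (nat_lit 0) (XT.nd (nat_lit 234) (nat_lit 532) (nat_lit 0) (XT.nd (nat_lit 78) (nat_lit 228) (nat_lit 0) (XT.lf (nat_lit 0) (nat_lit 3642709717) (nat_lit 304) (nat_lit 6589884939) (nat_lit 76) (nat_lit 2534368655) (nat_lit 62) (nat_lit 5) (nat_lit 66) (nat_lit 5) (nat_lit 63) (nat_lit 4) (nat_lit 479) (nat_lit 342) (nat_lit 319)) (XT.nd (nat_lit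 78) (nat_lit 0) (nat_lit 0) (XT.lf (nat_lit 0) (nat_lit 225542876) (nat_lit 228) (nat_lit 7025831418) (nat_lit 304) (nat_lit 5683036865) (nat_lit 59) (nat_lit 5) (nat_lit 62) (nat_lit 5) (nat_lit 63) (nat_lit 4) (nat_lit 480) (nat_lit 342) (nat_lit 318)) (XT.lf (nat_lit 0) (nat_lit 7189850963) (nat_lit 228) (nat_lit 3739289240) (nat_lit 304) (nat_lit 2176153474) (nat_lit 59) (nat_lit 5) (nat_lit 62) (nat_lit 5) (nat_lit 63) (nat_lit 4) (nat_lit 481) (nat_lit 342) (nat_lit 317)))) (XT.nd (nat_lit 78) (nat_lit 228) (nat_lit 0) (XT.lf (nat_lit 0) (nat_lit 941205281) (nat_lit 228) (nat_lit 400703821) (nat_lit 304) (nat_lit 11938337887) (nat_lit 55) (nat_lit 5) (nat_lit 58) (nat_lit 5) (nat_lit 59) (nat_lit 5) (nat_lit 482) (nat_lit 342) (nat_lit 316)) (XT.nd (nat_lit 78) (nat_lit 228) (nat_lit 0) (XT.lf (nat_lit 0) (nat_lit 4914228525) (nat_lit 304) (nat_lit 5553071216) (nat_lit 76) (nat_lit 2990874128) (nat_lit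 55) (nat_lit 5) (nat_lit 59) (nat_lit 5) (nat_lit 56) (nat_lit 4) (nat_lit 483) (nat_lit 342) (nat_lit 315)) (XT.lf (nat_lit 0) (nat_lit 1308464310) (nat_lit 228) (nat_lit 7215130316) (nat_lit 304) (nat_lit 5116775081) (nat_lit 52) (nat_lit 5) (nat_lit 55) (nat_lit 5) (nat_lit 56) (nat_lit 4) (nat_lit 484) (nat_lit 342) (nat_lit 314))))) (XT.nd (nat_lit 234) (nat_lit 456) (nat_lit 0) (XT.nd (nat_lit 78) (nat_lit 304) (nat_lit 0) (XT.lf (nat_lit 0) (nat_lit 8308333629) (nat_lit 228) (nat_lit 3888941207) (nat_lit 304) (nat_lit 1629114078) (nat_lit 52) (nat_lit 5) (nat_lit 55) (nat_lit 5) (nat_lit 56) (nat_lit 4) (nat_lit 485) (nat_lit 342) (nat_lit 313)) (XT.nd (nat_lit 78) (nat_lit 0) (nat_lit 0) (XT.lf (nat_lit 0) (nat_lit 1364113276) (nat_lit 228) (nat_lit 503187058) (nat_lit 304) (nat_lit 12149313105) (nat_lit 48) (nat_lit 5) (nat_lit 51) (nat_lit 5) (nat_lit 52) (nat_lit 5) (nat_lit 486) (nat_lit 342)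 (nat_lit 312)) (XT.lf (nat_lit 0) (nat_lit 5423927190) (nat_lit 304) (nat_lit 5854931945) (nat_lit 76) (nat_lit 2931346708) (nat_lit 48) (nat_lit 5) (nat_lit 52) (nat_lit 5) (nat_lit 49) (nat_lit 4) (nat_lit 487) (nat_lit 342) (nat_lit 311)))) (XT.nd (nat_lit 156) (nat_lit 304) (nat_lit 0) (XT.nd (nat_lit 78) (nat_lit 0) (nat_lit 0) (XT.lf (nat_lit 0) (nat_lit 1016464103) (nat_lit 152) (nat_lit 8001672178) (nat_lit 228) (nat_lit 5390225133) (nat_lit 46) (nat_lit 5) (nat_lit 48) (nat_lit 5) (nat_lit 49) (nat_lit 4) (nat_lit 488) (nat_lit 342) (nat_lit 310)) (XT.lf (nat_lit 0) (nat_lit 8033005427) (nat_lit 152) (nat_lit 4647418987) (nat_lit 228) (nat_lit 1930151701) (nat_lit 46) (nat_lit 5) (nat_lit 48) (nat_lit 5) (nat_lit 49) (nat_lit 4) (nat_lit 489) (nat_lit 342) (nat_lit 309))) (XT.nd (nat_lit 78) (nat_lit 0) (nat_lit 0) (XT.lf (nat_lit 0) (nat_lit 295710672) (nat_lit 228) (nat_lit 1241810798) (nat_lit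 304) (nat_lit 13279937707) (nat_lit 42) (nat_lit 5) (nat_lit 45) (nat_lit 5) (nat_lit 46) (nat_lit 5) (nat_lit 490) (nat_lit 342) (nat_lit 308)) (XT.lf (nat_lit 0) (nat_lit 5065295386) (nat_lit 304) (nat_lit 7730585289) (nat_lit 76) (nat_lit 2232030986) (nat_lit 42) (nat_lit 5) (nat_lit 46) (nat_lit 5) (nat_lit 43) (nat_lit 4) (nat_lit 491) (nat_lit 342) (nat_lit 307)))))) (XT.nd (nat_lit 546) (nat_lit 608) (nat_lit 0) (XT.nd (nat_lit 234) (nat_lit 380) (nat_lit 0) (XT.nd (nat_lit 78) (nat_lit 228) (nat_lit 0) (XT.lf (nat_lit 0) (nat_lit 8630324711) (nat_lit 304) (nat_lit 881470485) (nat_lit 76) (nat_lit 5731462397) (nat_lit 42) (nat_lit 5) (nat_lit 46) (nat_lit 5) (nat_lit 43) (nat_lit 4) (nat_lit 492) (nat_lit 342) (nat_lit 306)) (XT.nd (nat_lit 78) (nat_lit 76) (nat_lit 0) (XT.lf (nat_lit 0) (nat_lit 6116564335) (nat_lit 152) (nat_lit 6149093297) (nat_lit 228) (nat_lit 3197290789) (nat_lit 40) (nat_lit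 5) (nat_lit 42) (nat_lit 5) (nat_lit 43) (nat_lit 4) (nat_lit 493) (nat_lit 342) (nat_lit 305)) (XT.lf (nat_lit 0) (nat_lit 248222145) (nat_lit 228) (nat_lit 2490697007) (nat_lit 76) (nat_lit 12948787673) (nat_lit 39) (nat_lit 5) (nat_lit 42) (nat_lit 5) (nat_lit 40) (nat_lit 5) (nat_lit 494) (nat_lit 342) (nat_lit 304)))) (XT.nd (nat_lit 156) (nat_lit 152) (nat_lit 0) (XT.nd (nat_lit 78) (nat_lit 0) (nat_lit 0) (XT.lf (nat_lit 0) (nat_lit 3714029394) (nat_lit 304) (nat_lit 11449188301) (nat_lit 76) (nat_lit 753453100) (nat_lit 36) (nat_lit 5) (nat_lit 40) (nat_lit 5) (nat_lit 37) (nat_lit 4) (nat_lit 495) (nat_lit 342) (nat_lit 303)) (XT.lf (nat_lit 0) (nat_lit 7244448694) (nat_lit 304) (nat_lit 4636779952) (nat_lit 76) (nat_lit 4269096146) (nat_lit 36) (nat_lit 5) (nat_lit 40) (nat_lit 5) (nat_lit 37) (nat_lit 4) (nat_lit 496) (nat_lit 342) (nat_lit 302))) (XT.nd (nat_lit 78) (nat_lit 0) (nat_lit 0)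 (XT.lf (nat_lit 0) (nat_lit 2275803948) (nat_lit 152) (nat_lit 8545559041) (nat_lit 228) (nat_lit 5567787483) (nat_lit 34) (nat_lit 5) (nat_lit 36) (nat_lit 5) (nat_lit 37) (nat_lit 4) (nat_lit 497) (nat_lit 342) (nat_lit 301)) (XT.lf (nat_lit 0) (nat_lit 9324005789) (nat_lit 152) (nat_lit 5138372951) (nat_lit 228) (nat_lit 2170538678) (nat_lit 34) (nat_lit 5) (nat_lit 36) (nat_lit 5) (nat_lit 37) (nat_lit 4) (nat_lit 498) (nat_lit 342) (nat_lit 300))))) (XT.nd (nat_lit 234) (nat_lit 380) (nat_lit 0) (XT.nd (nat_lit 78) (nat_lit 152) (nat_lit 0) (XT.lf (nat_lit 0) (nat_lit 1239613525) (nat_lit 228) (nat_lit 441517474) (nat_lit 76) (nat_lit 15201037222) (nat_lit 33) (nat_lit 5) (nat_lit 36) (nat_lit 5) (nat_lit 34) (nat_lit 5) (nat_lit 499) (nat_lit 342) (nat_lit 299)) (XT.nd (nat_lit 78) (nat_lit 0) (nat_lit 0) (XT.lf (nat_lit 0) (nat_lit 4706472546) (nat_lit 228) (nat_lit 10576630245) (nat_lit 76) (nat_lit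 1852678052) (nat_lit 31) (nat_lit 5) (nat_lit 34) (nat_lit 5) (nat_lit 32) (nat_lit 4) (nat_lit 500) (nat_lit 342) (nat_lit 298)) (XT.lf (nat_lit 0) (nat_lit 8219622176) (nat_lit 228) (nat_lit 3763365170) (nat_lit 76) (nat_lit 5411954099) (nat_lit 31) (nat_lit 5) (nat_lit 34) (nat_lit 5) (nat_lit 32) (nat_lit 4) (nat_lit 501) (nat_lit 342) (nat_lit 297)))) (XT.nd (nat_lit 156) (nat_lit 228) (nat_lit 0) (XT.nd (nat_lit 78) (nat_lit 0) (nat_lit 0) (XT.lf (nat_lit 0) (nat_lit 3165303546) (nat_lit 152) (nat_lit 8621848851) (nat_lit 228) (nat_lit 5872465015) (nat_lit 29) (nat_lit 5) (nat_lit 31) (nat_lit 5) (nat_lit 32) (nat_lit 4) (nat_lit 502) (nat_lit 342) (nat_lit 296)) (XT.lf (nat_lit 0) (nat_lit 10221594221) (nat_lit 152) (nat_lit 5193571582) (nat_lit 228) (nat_lit 2514652668) (nat_lit 29) (nat_lit 5) (nat_lit 31) (nat_lit 5) (nat_lit 32) (nat_lit 4) (nat_lit 503) (nat_lit 342) (nat_lit 295))) (XT.nd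 (nat_lit 78) (nat_lit 152) (nat_lit 0) (XT.lf (nat_lit 0) (nat_lit 862715366) (nat_lit 228) (nat_lit 853560636) (nat_lit 76) (nat_lit 16489756243) (nat_lit 28) (nat_lit 5) (nat_lit 31) (nat_lit 5) (nat_lit 29) (nat_lit 5) (nat_lit 504) (nat_lit 342) (nat_lit 294)) (XT.lf (nat_lit 0) (nat_lit 4291003841) (nat_lit 228) (nat_lit 12357388674) (nat_lit 76) (nat_lit 1838717858) (nat_lit 26) (nat_lit 5) (nat_lit 29) (nat_lit 5) (nat_lit 27) (nat_lit 4) (nat_lit 505) (nat_lit 342) (nat_lit 293))))))) (XT.nd (nat_lit 1014) (nat_lit 380) (nat_lit 0) (XT.nd (nat_lit 468) (nat_lit 304) (nat_lit 0) (XT.nd (nat_lit 234) (nat_lit 228) (nat_lit 0) (XT.nd (nat_lit 78) (nat_lit 152) (nat_lit 0) (XT.lf (nat_lit 0) (nat_lit 7770163702) (nat_lit 228) (nat_lit 5581045541) (nat_lit 76) (nat_lit 5422967847) (nat_lit 26) (nat_lit 5) (nat_lit 29) (nat_lit 5) (nat_lit 27) (nat_lit 4) (nat_lit 506) (nat_lit 342) (nat_lit 292)) (XT.nd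 (nat_lit 78) (nat_lit 0) (nat_lit 0) (XT.lf (nat_lit 0) (nat_lit 1288720415) (nat_lit 152) (nat_lit 10004410217) (nat_lit 228) (nat_lit 7774382914) (nat_lit 24) (nat_lit 5) (nat_lit 26) (nat_lit 5) (nat_lit 27) (nat_lit 4) (nat_lit 507) (nat_lit 342) (nat_lit 291)) (XT.lf (nat_lit 0) (nat_lit 8312916589) (nat_lit 152) (nat_lit 6577237602) (nat_lit 228) (nat_lit 4476503224) (nat_lit 24) (nat_lit 5) (nat_lit 26) (nat_lit 5) (nat_lit 27) (nat_lit 4) (nat_lit 508) (nat_lit 342) (nat_lit 290)))) (XT.nd (nat_lit 78) (nat_lit 228) (nat_lit 0) (XT.lf (nat_lit 0) (nat_lit 15420128410) (nat_lit 152) (nat_lit 3105799160) (nat_lit 228) (nat_lit 1146532784) (nat_lit 24) (nat_lit 5) (nat_lit 26) (nat_lit 5) (nat_lit 27) (nat_lit 4) (nat_lit 509) (nat_lit 342) (nat_lit 289)) (XT.nd (nat_lit 78) (nat_lit 0) (nat_lit 0) (XT.lf (nat_lit 0) (nat_lit 2207834951) (nat_lit 228) (nat_lit 17338847557) (nat_lit 76) (nat_lit 437670420)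 (nat_lit 21) (nat_lit 5) (nat_lit 24) (nat_lit 5) (nat_lit 22) (nat_lit 4) (nat_lit 510) (nat_lit 342) (nat_lit 288)) (XT.lf (nat_lit 0) (nat_lit 5630598438) (nat_lit 228) (nat_lit 10648243205) (nat_lit 76) (nat_lit 4023168596) (nat_lit 21) (nat_lit 5) (nat_lit 24) (nat_lit 5) (nat_lit 22) (nat_lit 4) (nat_lit 511) (nat_lit 342) (nat_lit 287))))) (XT.nd (nat_lit 234) (nat_lit 228) (nat_lit 0) (XT.nd (nat_lit 78) (nat_lit 76) (nat_lit 0) (XT.lf (nat_lit 0) (nat_lit 9089810874) (nat_lit 228) (nat_lit 3879632018) (nat_lit 76) (nat_lit 7657229369) (nat_lit 21) (nat_lit 5) (nat_lit 24) (nat_lit 5) (nat_lit 22) (nat_lit 4) (nat_lit 512) (nat_lit 342) (nat_lit 286)) (XT.nd (nat_lit 78) (nat_lit 0) (nat_lit 0) (XT.lf (nat_lit 0) (nat_lit 3009105319) (nat_lit 76) (nat_lit 9597260601) (nat_lit 152) (nat_lit 8351709650) (nat_lit 20) (nat_lit 5) (nat_lit 21) (nat_lit 5) (nat_lit 22) (nat_lit 4) (nat_lit 513) (nat_lit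 342) (nat_lit 285)) (XT.lf (nat_lit 0) (nat_lit 10033855746) (nat_lit 76) (nat_lit 6154314334) (nat_lit 152) (nat_lit 5108049499) (nat_lit 20) (nat_lit 5) (nat_lit 21) (nat_lit 5) (nat_lit 22) (nat_lit 4) (nat_lit 514) (nat_lit 342) (nat_lit 284)))) (XT.nd (nat_lit 156) (nat_lit 0) (nat_lit 0) (XT.nd (nat_lit 78) (nat_lit 228) (nat_lit 0) (XT.lf (nat_lit 0) (nat_lit 17145815799) (nat_lit 76) (nat_lit 2665288289) (nat_lit 152) (nat_lit 1830643283) (nat_lit 20) (nat_lit 5) (nat_lit 21) (nat_lit 5) (nat_lit 22) (nat_lit 4) (nat_lit 515) (nat_lit 342) (nat_lit 283)) (XT.lf (nat_lit 0) (nat_lit 1483599221) (nat_lit 228) (nat_lit 19625614572) (nat_lit 76) (nat_lit 884963461) (nat_lit 17) (nat_lit 5) (nat_lit 20) (nat_lit 5) (nat_lit 18) (nat_lit 4) (nat_lit 516) (nat_lit 342) (nat_lit 282))) (XT.nd (nat_lit 78) (nat_lit 0) (nat_lit 0) (XT.lf (nat_lit 0) (nat_lit 4857646625) (nat_lit 228) (nat_lit 13004502713)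 (nat_lit 76) (nat_lit 4490913894) (nat_lit 17) (nat_lit 5) (nat_lit 20) (nat_lit 5) (nat_lit 18) (nat_lit 4) (nat_lit 517) (nat_lit 342) (nat_lit 281)) (XT.lf (nat_lit 0) (nat_lit 8269752100) (nat_lit 228) (nat_lit 6302700533) (nat_lit 76) (nat_lit 8147272712) (nat_lit 17) (nat_lit 5) (nat_lit 20) (nat_lit 5) (nat_lit 18) (nat_lit 4) (nat_lit 518) (nat_lit 342) (nat_lit 280)))))) (XT.nd (nat_lit 546) (nat_lit 76) (nat_lit 0) (XT.nd (nat_lit 234) (nat_lit 228) (nat_lit 0) (XT.nd (nat_lit 78) (nat_lit 0) (nat_lit 0) (XT.lf (nat_lit 0) (nat_lit 488831233) (nat_lit 76) (nat_lit 11235596309) (nat_lit 152) (nat_lit 11369816363) (nat_lit 16) (nat_lit 5) (nat_lit 17) (nat_lit 5) (nat_lit 18) (nat_lit 4) (nat_lit 519) (nat_lit 342) (nat_lit 279)) (XT.nd (nat_lit 78) (nat_lit 0) (nat_lit 0) (XT.lf (nat_lit 0) (nat_lit 7451244503) (nat_lit 76) (nat_lit 7810638952) (nat_lit 152) (nat_lit 8214105214) (nat_lit 16)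 (nat_lit 5) (nat_lit 17) (nat_lit 5) (nat_lit 18) (nat_lit 4) (nat_lit 520) (nat_lit 342) (nat_lit 278)) (XT.lf (nat_lit 0) (nat_lit 14503510060) (nat_lit 76) (nat_lit 4338531880) (nat_lit 152) (nat_lit 5023896702) (nat_lit 16) (nat_lit 5) (nat_lit 17) (nat_lit 5) (nat_lit 18) (nat_lit 4) (nat_lit 521) (nat_lit 342) (nat_lit 277)))) (XT.nd (nat_lit 156) (nat_lit 0) (nat_lit 0) (XT.nd (nat_lit 78) (nat_lit 228) (nat_lit 0) (XT.lf (nat_lit 0) (nat_lit 21648393499) (nat_lit 76) (nat_lit 817913481) (nat_lit 152) (nat_lit 1797939766) (nat_lit 16) (nat_lit 5) (nat_lit 17) (nat_lit 5) (nat_lit 18) (nat_lit 4) (nat_lit 522) (nat_lit 342) (nat_lit 276)) (XT.lf (nat_lit 0) (nat_lit 1491619527) (nat_lit 228) (nat_lit 20424404022) (nat_lit 76) (nat_lit 2753939333) (nat_lit 13) (nat_lit 5) (nat_lit 16) (nat_lit 5) (nat_lit 14) (nat_lit 4) (nat_lit 523) (nat_lit 342) (nat_lit 275))) (XT.nd (nat_lit 78) (nat_lit 0)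 (nat_lit 0) (XT.lf (nat_lit 0) (nat_lit 4818949671) (nat_lit 228) (nat_lit 13869170197) (nat_lit 76) (nat_lit 6395523373) (nat_lit 13) (nat_lit 5) (nat_lit 16) (nat_lit 5) (nat_lit 14) (nat_lit 4) (nat_lit 524) (nat_lit 342) (nat_lit 274)) (XT.lf (nat_lit 0) (nat_lit 8186301833) (nat_lit 228) (nat_lit 7229837518) (nat_lit 76) (nat_lit 10089996845) (nat_lit 13) (nat_lit 5) (nat_lit 16) (nat_lit 5) (nat_lit 14) (nat_lit 4) (nat_lit 525) (nat_lit 342) (nat_lit 273))))) (XT.nd (nat_lit 234) (nat_lit 0) (nat_lit 0) (XT.nd (nat_lit 78) (nat_lit 76) (nat_lit 0) (XT.lf (nat_lit 0) (nat_lit 11594996546) (nat_lit 228) (nat_lit 503802327) (nat_lit 76) (nat_lit 13838808561) (nat_lit 13) (nat_lit 5) (nat_lit 16) (nat_lit 5) (nat_lit 14) (nat_lit 4) (nat_lit 526) (nat_lit 342) (nat_lit 272)) (XT.nd (nat_lit 78) (nat_lit 0) (nat_lit 0) (XT.lf (nat_lit 0) (nat_lit 6395450520) (nat_lit 76) (nat_lit 8692443537) (nat_lit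 152) (nat_lit 11289501630) (nat_lit 12) (nat_lit 5) (nat_lit 13) (nat_lit 5) (nat_lit 14) (nat_lit 4) (nat_lit 527) (nat_lit 342) (nat_lit 271)) (XT.lf (nat_lit 0) (nat_lit 13394634308) (nat_lit 76) (nat_lit 5234109870) (nat_lit 152) (nat_lit 8197681642) (nat_lit 12) (nat_lit 5) (nat_lit 13) (nat_lit 5) (nat_lit 14) (nat_lit 4) (nat_lit 528) (nat_lit 342) (nat_lit 270)))) (XT.nd (nat_lit 53508) (nat_lit 0) (nat_lit 8968) (XT.nd (nat_lit 78) (nat_lit 0) (nat_lit 0) (XT.lf (nat_lit 0) (nat_lit 20489798546) (nat_lit 76) (nat_lit 1725822441) (nat_lit 152) (nat_lit 5069319225) (nat_lit 12) (nat_lit 5) (nat_lit 13) (nat_lit 5) (nat_lit 14) (nat_lit 4) (nat_lit 529) (nat_lit 342) (nat_lit 269)) (XT.lf (nat_lit 0) (nat_lit 25861837316) (nat_lit 152) (nat_lit 81299235) (nat_lit 0) (nat_lit 1809744001) (nat_lit 12) (nat_lit 5) (nat_lit 14) (nat_lit 4) (nat_lit 12) (nat_lit 4) (nat_lit 530) (nat_lit 342) (nat_lit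 268))) (XT.nd (nat_lit 78) (nat_lit 0) (nat_lit 0) (XT.lf (nat_lit 0) (nat_lit 342533504) (nat_lit 456) (nat_lit 4102848942) (nat_lit 0) (nat_lit 342533504) (nat_lit 130) (nat_lit 5) (nat_lit 136) (nat_lit 4) (nat_lit 130) (nat_lit 4) (nat_lit 454) (nat_lit 343) (nat_lit 343)) (XT.lf (nat_lit 0) (nat_lit 4386656992) (nat_lit 456) (nat_lit 1774792231) (nat_lit 0) (nat_lit 3510762008) (nat_lit 130) (nat_lit 5) (nat_lit 136) (nat_lit 4) (nat_lit 130) (nat_lit 4) (nat_lit 455) (nat_lit 343) (nat_lit 342))))))))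
noncomputable def xc27 : XT := (XT.nd (nat_lit 2106) (nat_lit 2660) (nat_lit 0) (XT.nd (nat_lit 1014) (nat_lit 2052) (nat_lit 0) (XT.nd (nat_lit 468) (nat_lit 1824) (nat_lit 0) (XT.nd (nat_lit 234) (nat_lit 760) (nat_lit 0) (XT.nd (nat_lit 78) (nat_lit 456) (nat_lit 0) (XT.lf (nat_lit 0) (nat_lit 4761250367) (nat_lit 380) (nat_lit 3372252303) (nat_lit 380) (nat_lit 1637636745) (nat_lit 125) (nat_lit 4) (nat_lit 130) (nat_lit 5) (nat_lit 130) (nat_lit 4) (nat_lit 456) (nat_lit 343) (nat_lit 341)) (XT.nd (nat_lit 78) (nat_lit 0) (nat_lit 0) (XT.lf (nat_lit 0) (nat_lit 1500138233) (nat_lit 380) (nat_lit 517998749) (nat_lit 456) (nat_lit 7854438238) (nat_lit 119) (nat_lit 5) (nat_lit 124) (nat_lit 5) (nat_lit 125) (nat_lit 4) (nat_lit 457) (nat_lit 343) (nat_lit 340)) (XT.lf (nat_lit 0) (nat_lit 5715428225) (nat_lit 456) (nat_lit 1880373774) (nat_lit 0) (nat_lit 2380257756) (nat_lit 119) (nat_lit 5) (nat_lit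 125) (nat_lit 4) (nat_lit 119) (nat_lit 4) (nat_lit 458) (nat_lit 343) (nat_lit 339)))) (XT.nd (nat_lit 78) (nat_lit 380) (nat_lit 0) (XT.lf (nat_lit 0) (nat_lit 4714961573) (nat_lit 380) (nat_lit 4747833807) (nat_lit 380) (nat_lit 619338264) (nat_lit 114) (nat_lit 4) (nat_lit 119) (nat_lit 5) (nat_lit 119) (nat_lit 4) (nat_lit 459) (nat_lit 343) (nat_lit 338)) (XT.nd (nat_lit 78) (nat_lit 0) (nat_lit 0) (XT.lf (nat_lit 0) (nat_lit 1187791884) (nat_lit 304) (nat_lit 1829068069) (nat_lit 380) (nat_lit 7173854459) (nat_lit 109) (nat_lit 5) (nat_lit 113) (nat_lit 5) (nat_lit 114) (nat_lit 4) (nat_lit 460) (nat_lit 343) (nat_lit 337)) (XT.lf (nat_lit 0) (nat_lit 6703863993) (nat_lit 380) (nat_lit 2451601142) (nat_lit 0) (nat_lit 1146232114) (nat_lit 109) (nat_lit 5) (nat_lit 114) (nat_lit 4) (nat_lit 109) (nat_lit 4) (nat_lit 461) (nat_lit 343) (nat_lit 336))))) (XT.nd (nat_lit 234) (nat_lit 1064) (nat_lit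 0) (XT.nd (nat_lit 78) (nat_lit 304) (nat_lit 0) (XT.lf (nat_lit 0) (nat_lit 32002878) (nat_lit 456) (nat_lit 6225895804) (nat_lit 76) (nat_lit 4157373958) (nat_lit 103) (nat_lit 5) (nat_lit 109) (nat_lit 5) (nat_lit 104) (nat_lit 4) (nat_lit 462) (nat_lit 343) (nat_lit 335)) (XT.nd (nat_lit 78) (nat_lit 0) (nat_lit 0) (XT.lf (nat_lit 0) (nat_lit 362211458) (nat_lit 304) (nat_lit 3286943016) (nat_lit 380) (nat_lit 6882269086) (nat_lit 99) (nat_lit 5) (nat_lit 103) (nat_lit 5) (nat_lit 104) (nat_lit 4) (nat_lit 463) (nat_lit 343) (nat_lit 334)) (XT.lf (nat_lit 0) (nat_lit 7082809282) (nat_lit 304) (nat_lit 242111423) (nat_lit 380) (nat_lit 3325288154) (nat_lit 99) (nat_lit 5) (nat_lit 103) (nat_lit 5) (nat_lit 104) (nat_lit 4) (nat_lit 464) (nat_lit 343) (nat_lit 333)))) (XT.nd (nat_lit 156) (nat_lit 684) (nat_lit 0) (XT.nd (nat_lit 78) (nat_lit 0) (nat_lit 0) (XT.lf (nat_lit 0) (nat_lit 282878120) (nat_lit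 380) (nat_lit 7667966354) (nat_lit 76) (nat_lit 2820841083) (nat_lit 94) (nat_lit 5) (nat_lit 99) (nat_lit 5) (nat_lit 95) (nat_lit 4) (nat_lit 465) (nat_lit 343) (nat_lit 332)) (XT.lf (nat_lit 0) (nat_lit 3889968968) (nat_lit 380) (nat_lit 1045461775) (nat_lit 76) (nat_lit 5960330378) (nat_lit 94) (nat_lit 5) (nat_lit 99) (nat_lit 5) (nat_lit 95) (nat_lit 4) (nat_lit 466) (nat_lit 343) (nat_lit 331))) (XT.nd (nat_lit 78) (nat_lit 380) (nat_lit 0) (XT.lf (nat_lit 0) (nat_lit 5702733834) (nat_lit 304) (nat_lit 1850105670) (nat_lit 380) (nat_lit 3469839924) (nat_lit 90) (nat_lit 5) (nat_lit 94) (nat_lit 5) (nat_lit 95) (nat_lit 4) (nat_lit 467) (nat_lit 343) (nat_lit 330)) (XT.lf (nat_lit 0) (nat_lit 106178929) (nat_lit 380) (nat_lit 9777718562) (nat_lit 76) (nat_lit 1268830672) (nat_lit 85) (nat_lit 5) (nat_lit 90) (nat_lit 5) (nat_lit 86) (nat_lit 4) (nat_lit 468) (nat_lit 343) (nat_lit 329)))))) (XT.nd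 (nat_lit 546) (nat_lit 836) (nat_lit 0) (XT.nd (nat_lit 234) (nat_lit 988) (nat_lit 0) (XT.nd (nat_lit 78) (nat_lit 228) (nat_lit 0) (XT.lf (nat_lit 0) (nat_lit 3702570476) (nat_lit 380) (nat_lit 3126273722) (nat_lit 76) (nat_lit 4456200724) (nat_lit 85) (nat_lit 5) (nat_lit 90) (nat_lit 5) (nat_lit 86) (nat_lit 4) (nat_lit 469) (nat_lit 343) (nat_lit 328)) (XT.nd (nat_lit 78) (nat_lit 0) (nat_lit 0) (XT.lf (nat_lit 0) (nat_lit 3625236668) (nat_lit 228) (nat_lit 3717309872) (nat_lit 304) (nat_lit 4078059744) (nat_lit 82) (nat_lit 5) (nat_lit 85) (nat_lit 5) (nat_lit 86) (nat_lit 4) (nat_lit 470) (nat_lit 343) (nat_lit 327)) (XT.lf (nat_lit 0) (nat_lit 10474175417) (nat_lit 228) (nat_lit 550742888) (nat_lit 304) (nat_lit 534599433) (nat_lit 82) (nat_lit 5) (nat_lit 85) (nat_lit 5) (nat_lit 86) (nat_lit 4) (nat_lit 471) (nat_lit 343) (nat_lit 326)))) (XT.nd (nat_lit 156) (nat_lit 380) (nat_lit 0) (XT.nd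 (nat_lit 78) (nat_lit 228) (nat_lit 0) (XT.lf (nat_lit 0) (nat_lit 3043425203) (nat_lit 380) (nat_lit 5983706470) (nat_lit 76) (nat_lit 2673623700) (nat_lit 77) (nat_lit 5) (nat_lit 82) (nat_lit 5) (nat_lit 78) (nat_lit 4) (nat_lit 472) (nat_lit 343) (nat_lit 325)) (XT.lf (nat_lit 0) (nat_lit 748666352) (nat_lit 228) (nat_lit 5902593905) (nat_lit 304) (nat_lit 5194207676) (nat_lit 74) (nat_lit 5) (nat_lit 77) (nat_lit 5) (nat_lit 78) (nat_lit 4) (nat_lit 473) (nat_lit 343) (nat_lit 324))) (XT.nd (nat_lit 78) (nat_lit 380) (nat_lit 0) (XT.lf (nat_lit 0) (nat_lit 7617875443) (nat_lit 228) (nat_lit 2703568886) (nat_lit 304) (nat_lit 1671855013) (nat_lit 74) (nat_lit 5) (nat_lit 77) (nat_lit 5) (nat_lit 78) (nat_lit 4) (nat_lit 474) (nat_lit 343) (nat_lit 323)) (XT.lf (nat_lit 0) (nat_lit 1865772568) (nat_lit 380) (nat_lit 9726558171) (nat_lit 76) (nat_lit 552134108) (nat_lit 69) (nat_lit 5) (nat_lit 74)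 (nat_lit 5) (nat_lit 70) (nat_lit 4) (nat_lit 475) (nat_lit 343) (nat_lit 322))))) (XT.nd (nat_lit 234) (nat_lit 532) (nat_lit 0) (XT.nd (nat_lit 78) (nat_lit 304) (nat_lit 0) (XT.lf (nat_lit 0) (nat_lit 5450191684) (nat_lit 380) (nat_lit 2999185181) (nat_lit 76) (nat_lit 3849114077) (nat_lit 69) (nat_lit 5) (nat_lit 74) (nat_lit 5) (nat_lit 70) (nat_lit 4) (nat_lit 476) (nat_lit 343) (nat_lit 321)) (XT.nd (nat_lit 78) (nat_lit 76) (nat_lit 0) (XT.lf (nat_lit 0) (nat_lit 3836222654) (nat_lit 228) (nat_lit 5246889637) (nat_lit 304) (nat_lit 3372975284) (nat_lit 66) (nat_lit 5) (nat_lit 69) (nat_lit 5) (nat_lit 70) (nat_lit 4) (nat_lit 477) (nat_lit 343) (nat_lit 320)) (XT.lf (nat_lit 0) (nat_lit 141873000) (nat_lit 304) (nat_lit 1845672229) (nat_lit 76) (nat_lit 10629848416) (nat_lit 65) (nat_lit 5) (nat_lit 69) (nat_lit 5) (nat_lit 66) (nat_lit 5) (nat_lit 478) (nat_lit 343) (nat_lit 319)))) (XT.nd (nat_lit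 156) (nat_lit 304) (nat_lit 0) (XT.nd (nat_lit 78) (nat_lit 0) (nat_lit 0) (XT.lf (nat_lit 0) (nat_lit 3676382274) (nat_lit 304) (nat_lit 7758460298) (nat_lit 76) (nat_lit 1346771555) (nat_lit 62) (nat_lit 5) (nat_lit 66) (nat_lit 5) (nat_lit 63) (nat_lit 4) (nat_lit 479) (nat_lit 343) (nat_lit 318)) (XT.lf (nat_lit 0) (nat_lit 7260416534) (nat_lit 304) (nat_lit 983490142) (nat_lit 76) (nat_lit 4705659922) (nat_lit 62) (nat_lit 5) (nat_lit 66) (nat_lit 5) (nat_lit 63) (nat_lit 4) (nat_lit 480) (nat_lit 343) (nat_lit 317))) (XT.nd (nat_lit 78) (nat_lit 76) (nat_lit 0) (XT.lf (nat_lit 0) (nat_lit 5930494962) (nat_lit 228) (nat_lit 4978263571) (nat_lit 304) (nat_lit 2212290844) (nat_lit 59) (nat_lit 5) (nat_lit 62) (nat_lit 5) (nat_lit 63) (nat_lit 4) (nat_lit 481) (nat_lit 343) (nat_lit 316)) (XT.lf (nat_lit 0) (nat_lit 1277470813) (nat_lit 304) (nat_lit 382850852) (nat_lit 76) (nat_lit 11636272539) (nat_lit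 58) (nat_lit 5) (nat_lit 62) (nat_lit 5) (nat_lit 59) (nat_lit 5) (nat_lit 482) (nat_lit 343) (nat_lit 315))))))) (XT.nd (nat_lit 1092) (nat_lit 988) (nat_lit 0) (XT.nd (nat_lit 546) (nat_lit 760) (nat_lit 0) (XT.nd (nat_lit 234) (nat_lit 456) (nat_lit 0) (XT.nd (nat_lit 78) (nat_lit 228) (nat_lit 0) (XT.lf (nat_lit 0) (nat_lit 4816527617) (nat_lit 304) (nat_lit 6927378985) (nat_lit 76) (nat_lit 1731290836) (nat_lit 55) (nat_lit 5) (nat_lit 59) (nat_lit 5) (nat_lit 56) (nat_lit 4) (nat_lit 483) (nat_lit 343) (nat_lit 314)) (XT.nd (nat_lit 78) (nat_lit 228) (nat_lit 0) (XT.lf (nat_lit 0) (nat_lit 8395291527) (nat_lit 304) (nat_lit 119240591) (nat_lit 76) (nat_lit 5143484087) (nat_lit 55) (nat_lit 5) (nat_lit 59) (nat_lit 5) (nat_lit 56) (nat_lit 4) (nat_lit 484) (nat_lit 343) (nat_lit 313)) (XT.lf (nat_lit 0) (nat_lit 6843046092) (nat_lit 228) (nat_lit 5203234137) (nat_lit 304) (nat_lit 1798219685) (nat_lit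 52) (nat_lit 5) (nat_lit 55) (nat_lit 5) (nat_lit 56) (nat_lit 4) (nat_lit 485) (nat_lit 343) (nat_lit 312)))) (XT.nd (nat_lit 156) (nat_lit 152) (nat_lit 0) (XT.nd (nat_lit 78) (nat_lit 228) (nat_lit 0) (XT.lf (nat_lit 0) (nat_lit 1669925810) (nat_lit 304) (nat_lit 171667761) (nat_lit 76) (nat_lit 12193772818) (nat_lit 51) (nat_lit 5) (nat_lit 55) (nat_lit 5) (nat_lit 52) (nat_lit 5) (nat_lit 486) (nat_lit 343) (nat_lit 311)) (XT.lf (nat_lit 0) (nat_lit 5195200117) (nat_lit 304) (nat_lit 7438776691) (nat_lit 76) (nat_lit 1595619093) (nat_lit 48) (nat_lit 5) (nat_lit 52) (nat_lit 5) (nat_lit 49) (nat_lit 4) (nat_lit 487) (nat_lit 343) (nat_lit 310))) (XT.nd (nat_lit 78) (nat_lit 152) (nat_lit 0) (XT.lf (nat_lit 0) (nat_lit 8761705872) (nat_lit 304) (nat_lit 615715769) (nat_lit 76) (nat_lit 5050893757) (nat_lit 48) (nat_lit 5) (nat_lit 52) (nat_lit 5) (nat_lit 49) (nat_lit 4) (nat_lit 488) (nat_lit 343)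 (nat_lit 309)) (XT.lf (nat_lit 0) (nat_lit 6357869287) (nat_lit 152) (nat_lit 6041158201) (nat_lit 228) (nat_lit 2232011604) (nat_lit 46) (nat_lit 5) (nat_lit 48) (nat_lit 5) (nat_lit 49) (nat_lit 4) (nat_lit 489) (nat_lit 343) (nat_lit 308))))) (XT.nd (nat_lit 234) (nat_lit 456) (nat_lit 0) (XT.nd (nat_lit 78) (nat_lit 228) (nat_lit 0) (XT.lf (nat_lit 0) (nat_lit 1217049775) (nat_lit 228) (nat_lit 1436182487) (nat_lit 76) (nat_lit 12185189796) (nat_lit 45) (nat_lit 5) (nat_lit 48) (nat_lit 5) (nat_lit 46) (nat_lit 5) (nat_lit 490) (nat_lit 343) (nat_lit 307)) (XT.nd (nat_lit 78) (nat_lit 0) (nat_lit 0) (XT.lf (nat_lit 0) (nat_lit 4705592237) (nat_lit 304) (nat_lit 9527969044) (nat_lit 76) (nat_lit 816106997) (nat_lit 42) (nat_lit 5) (nat_lit 46) (nat_lit 5) (nat_lit 43) (nat_lit 4) (nat_lit 491) (nat_lit 343) (nat_lit 306)) (XT.lf (nat_lit 0) (nat_lit 8250468205) (nat_lit 304) (nat_lit 2712657269) (nat_lit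 76) (nat_lit 4302300733) (nat_lit 42) (nat_lit 5) (nat_lit 46) (nat_lit 5) (nat_lit 43) (nat_lit 4) (nat_lit 492) (nat_lit 343) (nat_lit 305)))) (XT.nd (nat_lit 156) (nat_lit 304) (nat_lit 0) (XT.nd (nat_lit 78) (nat_lit 0) (nat_lit 0) (XT.lf (nat_lit 0) (nat_lit 4227461399) (nat_lit 152) (nat_lit 7626316222) (nat_lit 228) (nat_lit 3631988637) (nat_lit 40) (nat_lit 5) (nat_lit 42) (nat_lit 5) (nat_lit 43) (nat_lit 4) (nat_lit 493) (nat_lit 343) (nat_lit 304)) (XT.lf (nat_lit 0) (nat_lit 11276650385) (nat_lit 152) (nat_lit 4231145445) (nat_lit 228) (nat_lit 203161766) (nat_lit 40) (nat_lit 5) (nat_lit 42) (nat_lit 5) (nat_lit 43) (nat_lit 4) (nat_lit 494) (nat_lit 343) (nat_lit 303))) (XT.nd (nat_lit 78) (nat_lit 0) (nat_lit 0) (XT.lf (nat_lit 0) (nat_lit 2471461048) (nat_lit 228) (nat_lit 756563705) (nat_lit 304) (nat_lit 12712677148) (nat_lit 36) (nat_lit 5) (nat_lit 39) (nat_lit 5) (nat_lit 40) (nat_lit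 5) (nat_lit 495) (nat_lit 343) (nat_lit 302)) (XT.lf (nat_lit 0) (nat_lit 6734279753) (nat_lit 304) (nat_lit 6684554151) (nat_lit 76) (nat_lit 2756013367) (nat_lit 36) (nat_lit 5) (nat_lit 40) (nat_lit 5) (nat_lit 37) (nat_lit 4) (nat_lit 496) (nat_lit 343) (nat_lit 301)))))) (XT.nd (nat_lit 546) (nat_lit 456) (nat_lit 0) (XT.nd (nat_lit 234) (nat_lit 304) (nat_lit 0) (XT.nd (nat_lit 78) (nat_lit 76) (nat_lit 0) (XT.lf (nat_lit 0) (nat_lit 168396843) (nat_lit 152) (nat_lit 10110239826) (nat_lit 228) (nat_lit 6135695359) (nat_lit 34) (nat_lit 5) (nat_lit 36) (nat_lit 5) (nat_lit 37) (nat_lit 4) (nat_lit 497) (nat_lit 343) (nat_lit 300)) (XT.nd (nat_lit 78) (nat_lit 76) (nat_lit 0) (XT.lf (nat_lit 0) (nat_lit 7184815288) (nat_lit 152) (nat_lit 6716126171) (nat_lit 228) (nat_lit 2757539507) (nat_lit 34) (nat_lit 5) (nat_lit 36) (nat_lit 5) (nat_lit 37) (nat_lit 4) (nat_lit 498) (nat_lit 343) (nat_lit 299))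 (XT.lf (nat_lit 0) (nat_lit 641838233) (nat_lit 228) (nat_lit 2633873486) (nat_lit 76) (nat_lit 13632473208) (nat_lit 33) (nat_lit 5) (nat_lit 36) (nat_lit 5) (nat_lit 34) (nat_lit 5) (nat_lit 499) (nat_lit 343) (nat_lit 298)))) (XT.nd (nat_lit 156) (nat_lit 152) (nat_lit 0) (XT.nd (nat_lit 78) (nat_lit 0) (nat_lit 0) (XT.lf (nat_lit 0) (nat_lit 4065428073) (nat_lit 228) (nat_lit 12845474474) (nat_lit 76) (nat_lit 251767710) (nat_lit 31) (nat_lit 5) (nat_lit 34) (nat_lit 5) (nat_lit 32) (nat_lit 4) (nat_lit 500) (nat_lit 343) (nat_lit 297)) (XT.lf (nat_lit 0) (nat_lit 7560541243) (nat_lit 228) (nat_lit 6063088204) (nat_lit 76) (nat_lit 3798569323) (nat_lit 31) (nat_lit 5) (nat_lit 34) (nat_lit 5) (nat_lit 32) (nat_lit 4) (nat_lit 501) (nat_lit 343) (nat_lit 296))) (XT.nd (nat_lit 78) (nat_lit 0) (nat_lit 0) (XT.lf (nat_lit 0) (nat_lit 804342749) (nat_lit 152) (nat_lit 10290716987) (nat_lit 228) (nat_lit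 6592482277) (nat_lit 29) (nat_lit 5) (nat_lit 31) (nat_lit 5) (nat_lit 32) (nat_lit 4) (nat_lit 502) (nat_lit 343) (nat_lit 295)) (XT.lf (nat_lit 0) (nat_lit 7830559252) (nat_lit 152) (nat_lit 6874982544) (nat_lit 228) (nat_lit 3252558805) (nat_lit 29) (nat_lit 5) (nat_lit 31) (nat_lit 5) (nat_lit 32) (nat_lit 4) (nat_lit 503) (nat_lit 343) (nat_lit 294))))) (XT.nd (nat_lit 234) (nat_lit 228) (nat_lit 0) (XT.nd (nat_lit 78) (nat_lit 152) (nat_lit 0) (XT.lf (nat_lit 0) (nat_lit 117178905) (nat_lit 228) (nat_lit 3297807890) (nat_lit 76) (nat_lit 14819776197) (nat_lit 28) (nat_lit 5) (nat_lit 31) (nat_lit 5) (nat_lit 29) (nat_lit 5) (nat_lit 504) (nat_lit 343) (nat_lit 293)) (XT.nd (nat_lit 78) (nat_lit 0) (nat_lit 0) (XT.lf (nat_lit 0) (nat_lit 3501010450) (nat_lit 228) (nat_lit 14881830422) (nat_lit 76) (nat_lit 133895890) (nat_lit 26) (nat_lit 5) (nat_lit 29) (nat_lit 5) (nat_lit 27) (nat_lit 4) (nat_lit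 505) (nat_lit 343) (nat_lit 292)) (XT.lf (nat_lit 0) (nat_lit 6963267660) (nat_lit 228) (nat_lit 8134698100) (nat_lit 76) (nat_lit 3706182150) (nat_lit 26) (nat_lit 5) (nat_lit 29) (nat_lit 5) (nat_lit 27) (nat_lit 4) (nat_lit 506) (nat_lit 343) (nat_lit 291)))) (XT.nd (nat_lit 156) (nat_lit 76) (nat_lit 0) (XT.nd (nat_lit 78) (nat_lit 152) (nat_lit 0) (XT.lf (nat_lit 0) (nat_lit 10461296136) (nat_lit 228) (nat_lit 1310471994) (nat_lit 76) (nat_lit 7326221257) (nat_lit 26) (nat_lit 5) (nat_lit 29) (nat_lit 5) (nat_lit 27) (nat_lit 4) (nat_lit 507) (nat_lit 343) (nat_lit 290)) (XT.lf (nat_lit 0) (nat_lit 5667859055) (nat_lit 152) (nat_lit 8365408098) (nat_lit 228) (nat_lit 5364373282) (nat_lit 24) (nat_lit 5) (nat_lit 26) (nat_lit 5) (nat_lit 27) (nat_lit 4) (nat_lit 508) (nat_lit 343) (nat_lit 289))) (XT.nd (nat_lit 78) (nat_lit 76) (nat_lit 0) (XT.lf (nat_lit 0) (nat_lit 12747179070) (nat_lit 152) (nat_lit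 4905752624) (nat_lit 228) (nat_lit 2050839866) (nat_lit 24) (nat_lit 5) (nat_lit 26) (nat_lit 5) (nat_lit 27) (nat_lit 4) (nat_lit 509) (nat_lit 343) (nat_lit 288)) (XT.lf (nat_lit 0) (nat_lit 1279409781) (nat_lit 228) (nat_lit 112243644) (nat_lit 76) (nat_lit 18624853477) (nat_lit 23) (nat_lit 5) (nat_lit 26) (nat_lit 5) (nat_lit 24) (nat_lit 5) (nat_lit 510) (nat_lit 343) (nat_lit 287))))))))
noncomputable def xc28 : XT := (XT.nd (nat_lit 55302) (nat_lit 0) (nat_lit 3040) (XT.nd (nat_lit 1014) (nat_lit 76) (nat_lit 0) (XT.nd (nat_lit 468) (nat_lit 456) (nat_lit 0) (XT.nd (nat_lit 234) (nat_lit 76) (nat_lit 0) (XT.nd (nat_lit 78) (nat_lit 76) (nat_lit 0) (XT.lf (nat_lit 0) (nat_lit 4676549682) (nat_lit 228) (nat_lit 13458238557) (nat_lit 76) (nat_lit 2199894107) (nat_lit 21) (nat_lit 5) (nat_lit 24) (nat_lit 5) (nat_lit 22) (nat_lit 4) (nat_lit 511) (nat_lit 343) (nat_lit 286)) (XT.nd (nat_lit 78) (nat_lit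 76) (nat_lit 0) (XT.lf (nat_lit 0) (nat_lit 8120228085) (nat_lit 228) (nat_lit 6716712039) (nat_lit 76) (nat_lit 5822720477) (nat_lit 21) (nat_lit 5) (nat_lit 24) (nat_lit 5) (nat_lit 22) (nat_lit 4) (nat_lit 512) (nat_lit 343) (nat_lit 285)) (XT.lf (nat_lit 0) (nat_lit 107415517) (nat_lit 76) (nat_lit 11495298475) (nat_lit 152) (nat_lit 9389036743) (nat_lit 20) (nat_lit 5) (nat_lit 21) (nat_lit 5) (nat_lit 22) (nat_lit 4) (nat_lit 513) (nat_lit 343) (nat_lit 284)))) (XT.nd (nat_lit 78) (nat_lit 76) (nat_lit 0) (XT.lf (nat_lit 0) (nat_lit 7105787042) (nat_lit 76) (nat_lit 8063629014) (nat_lit 152) (nat_lit 6160786066) (nat_lit 20) (nat_lit 5) (nat_lit 21) (nat_lit 5) (nat_lit 22) (nat_lit 4) (nat_lit 514) (nat_lit 343) (nat_lit 283)) (XT.nd (nat_lit 78) (nat_lit 76) (nat_lit 0) (XT.lf (nat_lit 0) (nat_lit 14191885427) (nat_lit 76) (nat_lit 4585658661) (nat_lit 152) (nat_lit 2898487178) (nat_lit 20) (nat_lit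 5) (nat_lit 21) (nat_lit 5) (nat_lit 22) (nat_lit 4) (nat_lit 515) (nat_lit 343) (nat_lit 282)) (XT.lf (nat_lit 0) (nat_lit 393904470) (nat_lit 152) (nat_lit 663475730) (nat_lit 76) (nat_lit 20971941756) (nat_lit 19) (nat_lit 5) (nat_lit 21) (nat_lit 5) (nat_lit 20) (nat_lit 5) (nat_lit 516) (nat_lit 343) (nat_lit 281))))) (XT.nd (nat_lit 234) (nat_lit 304) (nat_lit 0) (XT.nd (nat_lit 78) (nat_lit 0) (nat_lit 0) (XT.lf (nat_lit 0) (nat_lit 3742127001) (nat_lit 228) (nat_lit 16099306109) (nat_lit 76) (nat_lit 2547296251) (nat_lit 17) (nat_lit 5) (nat_lit 20) (nat_lit 5) (nat_lit 18) (nat_lit 4) (nat_lit 517) (nat_lit 343) (nat_lit 280)) (XT.nd (nat_lit 78) (nat_lit 0) (nat_lit 0) (XT.lf (nat_lit 0) (nat_lit 7139952298) (nat_lit 228) (nat_lit 9422611635) (nat_lit 76) (nat_lit 6193117977) (nat_lit 17) (nat_lit 5) (nat_lit 20) (nat_lit 5) (nat_lit 18) (nat_lit 4) (nat_lit 518) (nat_lit 343) (nat_lit 279))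 (XT.lf (nat_lit 0) (nat_lit 10577453751) (nat_lit 228) (nat_lit 2662106375) (nat_lit 76) (nat_lit 9890988563) (nat_lit 17) (nat_lit 5) (nat_lit 20) (nat_lit 5) (nat_lit 18) (nat_lit 4) (nat_lit 519) (nat_lit 343) (nat_lit 278)))) (XT.nd (nat_lit 156) (nat_lit 228) (nat_lit 0) (XT.nd (nat_lit 78) (nat_lit 0) (nat_lit 0) (XT.lf (nat_lit 0) (nat_lit 4240475447) (nat_lit 76) (nat_lit 9843035930) (nat_lit 152) (nat_lit 9429414687) (nat_lit 16) (nat_lit 5) (nat_lit 17) (nat_lit 5) (nat_lit 18) (nat_lit 4) (nat_lit 520) (nat_lit 343) (nat_lit 277)) (XT.lf (nat_lit 0) (nat_lit 11268767029) (nat_lit 76) (nat_lit 6381290647) (nat_lit 152) (nat_lit 6253095158) (nat_lit 16) (nat_lit 5) (nat_lit 17) (nat_lit 5) (nat_lit 18) (nat_lit 4) (nat_lit 521) (nat_lit 343) (nat_lit 276))) (XT.nd (nat_lit 78) (nat_lit 228) (nat_lit 0) (XT.lf (nat_lit 0) (nat_lit 18390146571) (nat_lit 76) (nat_lit 2870830866) (nat_lit 152) (nat_lit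 3040754872) (nat_lit 16) (nat_lit 5) (nat_lit 17) (nat_lit 5) (nat_lit 18) (nat_lit 4) (nat_lit 522) (nat_lit 343) (nat_lit 275)) (XT.lf (nat_lit 0) (nat_lit 216555619) (nat_lit 228) (nat_lit 23804048216) (nat_lit 76) (nat_lit 687981256) (nat_lit 13) (nat_lit 5) (nat_lit 16) (nat_lit 5) (nat_lit 14) (nat_lit 4) (nat_lit 523) (nat_lit 343) (nat_lit 274)))))) (XT.nd (nat_lit 53742) (nat_lit 0) (nat_lit 8132) (XT.nd (nat_lit 234) (nat_lit 76) (nat_lit 0) (XT.nd (nat_lit 78) (nat_lit 0) (nat_lit 0) (XT.lf (nat_lit 0) (nat_lit 3530754781) (nat_lit 228) (nat_lit 17272084600) (nat_lit 76) (nat_lit 4319692896) (nat_lit 13) (nat_lit 5) (nat_lit 16) (nat_lit 5) (nat_lit 14) (nat_lit 4) (nat_lit 524) (nat_lit 343) (nat_lit 273)) (XT.nd (nat_lit 78) (nat_lit 0) (nat_lit 0) (XT.lf (nat_lit 0) (nat_lit 6885233431) (nat_lit 228) (nat_lit 10655565853) (nat_lit 76) (nat_lit 8004487543) (nat_lit 13) (nat_lit 5) (nat_lit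 16) (nat_lit 5) (nat_lit 14) (nat_lit 4) (nat_lit 525) (nat_lit 343) (nat_lit 272)) (XT.lf (nat_lit 0) (nat_lit 10281307054) (nat_lit 228) (nat_lit 3951897261) (nat_lit 76) (nat_lit 11743810216) (nat_lit 13) (nat_lit 5) (nat_lit 16) (nat_lit 5) (nat_lit 14) (nat_lit 4) (nat_lit 526) (nat_lit 343) (nat_lit 271)))) (XT.nd (nat_lit 156) (nat_lit 0) (nat_lit 0) (XT.nd (nat_lit 78) (nat_lit 0) (nat_lit 0) (XT.lf (nat_lit 0) (nat_lit 2879312769) (nat_lit 76) (nat_lit 10859689080) (nat_lit 152) (nat_lit 12678508953) (nat_lit 12) (nat_lit 5) (nat_lit 13) (nat_lit 5) (nat_lit 14) (nat_lit 4) (nat_lit 527) (nat_lit 343) (nat_lit 270)) (XT.lf (nat_lit 0) (nat_lit 9856712782) (nat_lit 76) (nat_lit 7410866755) (nat_lit 152) (nat_lit 9599210733) (nat_lit 12) (nat_lit 5) (nat_lit 13) (nat_lit 5) (nat_lit 14) (nat_lit 4) (nat_lit 528) (nat_lit 343) (nat_lit 269))) (XT.nd (nat_lit 78) (nat_lit 0) (nat_lit 0) (XT.lf (nat_lit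 0) (nat_lit 16930520378) (nat_lit 76) (nat_lit 3911904172) (nat_lit 152) (nat_lit 6483124560) (nat_lit 12) (nat_lit 5) (nat_lit 13) (nat_lit 5) (nat_lit 14) (nat_lit 4) (nat_lit 529) (nat_lit 343) (nat_lit 268)) (XT.lf (nat_lit 0) (nat_lit 24103509600) (nat_lit 76) (nat_lit 361429189) (nat_lit 152) (nat_lit 3329028438) (nat_lit 12) (nat_lit 5) (nat_lit 13) (nat_lit 5) (nat_lit 14) (nat_lit 4) (nat_lit 530) (nat_lit 343) (nat_lit 267))))) (XT.nd (nat_lit 234) (nat_lit 836) (nat_lit 0) (XT.nd (nat_lit 78) (nat_lit 912) (nat_lit 0) (XT.lf (nat_lit 0) (nat_lit 1841615665) (nat_lit 532) (nat_lit 1011028679) (nat_lit 0) (nat_lit 1841615665) (nat_lit 142) (nat_lit 5) (nat_lit 149) (nat_lit 4) (nat_lit 142) (nat_lit 4) (nat_lit 452) (nat_lit 344) (nat_lit 344)) (XT.nd (nat_lit 78) (nat_lit 456) (nat_lit 0) (XT.lf (nat_lit 0) (nat_lit 4401041833) (nat_lit 456) (nat_lit 2995744327) (nat_lit 456) (nat_lit 2084463185)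 (nat_lit 136) (nat_lit 4) (nat_lit 142) (nat_lit 5) (nat_lit 142) (nat_lit 4) (nat_lit 453) (nat_lit 344) (nat_lit 343)) (XT.lf (nat_lit 0) (nat_lit 1325888823) (nat_lit 380) (nat_lit 223904666) (nat_lit 456) (nat_lit 8026635243) (nat_lit 130) (nat_lit 5) (nat_lit 135) (nat_lit 5) (nat_lit 136) (nat_lit 4) (nat_lit 454) (nat_lit 344) (nat_lit 342)))) (XT.nd (nat_lit 156) (nat_lit 456) (nat_lit 0) (XT.nd (nat_lit 78) (nat_lit 380) (nat_lit 0) (XT.lf (nat_lit 0) (nat_lit 5220380576) (nat_lit 456) (nat_lit 1860718054) (nat_lit 0) (nat_lit 2592352135) (nat_lit 130) (nat_lit 5) (nat_lit 136) (nat_lit 4) (nat_lit 130) (nat_lit 4) (nat_lit 455) (nat_lit 344) (nat_lit 341)) (XT.lf (nat_lit 0) (nat_lit 4631924951) (nat_lit 380) (nat_lit 4305491873) (nat_lit 380) (nat_lit 835580517) (nat_lit 125) (nat_lit 4) (nat_lit 130) (nat_lit 5) (nat_lit 130) (nat_lit 4) (nat_lit 456) (nat_lit 344) (nat_lit 340))) (XT.nd (nat_lit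 78) (nat_lit 0) (nat_lit 0) (XT.lf (nat_lit 0) (nat_lit 1319544621) (nat_lit 380) (nat_lit 1460074875) (nat_lit 456) (nat_lit 7095331934) (nat_lit 119) (nat_lit 5) (nat_lit 124) (nat_lit 5) (nat_lit 125) (nat_lit 4) (nat_lit 457) (nat_lit 344) (nat_lit 339)) (XT.lf (nat_lit 0) (nat_lit 6442124342) (nat_lit 456) (nat_lit 2099294460) (nat_lit 0) (nat_lit 1437733814) (nat_lit 119) (nat_lit 5) (nat_lit 125) (nat_lit 4) (nat_lit 119) (nat_lit 4) (nat_lit 458) (nat_lit 344) (nat_lit 338))))))) (XT.nd (nat_lit 1014) (nat_lit 2280) (nat_lit 0) (XT.nd (nat_lit 468) (nat_lit 1292) (nat_lit 0) (XT.nd (nat_lit 234) (nat_lit 760) (nat_lit 0) (XT.nd (nat_lit 78) (nat_lit 304) (nat_lit 0) (XT.lf (nat_lit 0) (nat_lit 72860552) (nat_lit 456) (nat_lit 5634981891) (nat_lit 76) (nat_lit 4377991373) (nat_lit 113) (nat_lit 5) (nat_lit 119) (nat_lit 5) (nat_lit 114) (nat_lit 4) (nat_lit 459) (nat_lit 344) (nat_lit 337)) (XT.nd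 (nat_lit 78) (nat_lit 0) (nat_lit 0) (XT.lf (nat_lit 0) (nat_lit 870435283) (nat_lit 304) (nat_lit 2800413619) (nat_lit 380) (nat_lit 6524106717) (nat_lit 109) (nat_lit 5) (nat_lit 113) (nat_lit 5) (nat_lit 114) (nat_lit 4) (nat_lit 460) (nat_lit 344) (nat_lit 336)) (XT.lf (nat_lit 0) (nat_lit 7323715767) (nat_lit 380) (nat_lit 2808471189) (nat_lit 0) (nat_lit 174453574) (nat_lit 109) (nat_lit 5) (nat_lit 114) (nat_lit 4) (nat_lit 109) (nat_lit 4) (nat_lit 461) (nat_lit 344) (nat_lit 335)))) (XT.nd (nat_lit 78) (nat_lit 304) (nat_lit 0) (XT.lf (nat_lit 0) (nat_lit 608729146) (nat_lit 456) (nat_lit 6638168278) (nat_lit 76) (nat_lit 3173859580) (nat_lit 103) (nat_lit 5) (nat_lit 109) (nat_lit 5) (nat_lit 104) (nat_lit 4) (nat_lit 462) (nat_lit 344) (nat_lit 334)) (XT.nd (nat_lit 78) (nat_lit 304) (nat_lit 0) (XT.lf (nat_lit 0) (nat_lit 4196319013) (nat_lit 456) (nat_lit 95686708) (nat_lit 76) (nat_lit 6245511651)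 (nat_lit 103) (nat_lit 5) (nat_lit 109) (nat_lit 5) (nat_lit 104) (nat_lit 4) (nat_lit 463) (nat_lit 344) (nat_lit 333)) (XT.lf (nat_lit 0) (nat_lit 6583033179) (nat_lit 304) (nat_lit 1261482421) (nat_lit 380) (nat_lit 2812356322) (nat_lit 99) (nat_lit 5) (nat_lit 103) (nat_lit 5) (nat_lit 104) (nat_lit 4) (nat_lit 464) (nat_lit 344) (nat_lit 332))))) (XT.nd (nat_lit 234) (nat_lit 608) (nat_lit 0) (XT.nd (nat_lit 78) (nat_lit 304) (nat_lit 0) (XT.lf (nat_lit 0) (nat_lit 752152098) (nat_lit 380) (nat_lit 8225734765) (nat_lit 76) (nat_lit 1801150928) (nat_lit 94) (nat_lit 5) (nat_lit 99) (nat_lit 5) (nat_lit 95) (nat_lit 4) (nat_lit 465) (nat_lit 344) (nat_lit 331)) (XT.nd (nat_lit 78) (nat_lit 304) (nat_lit 0) (XT.lf (nat_lit 0) (nat_lit 4332813214) (nat_lit 380) (nat_lit 1643602186) (nat_lit 76) (nat_lit 4927243376) (nat_lit 94) (nat_lit 5) (nat_lit 99) (nat_lit 5) (nat_lit 95) (nat_lit 4) (nat_lit 466)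 (nat_lit 344) (nat_lit 330)) (XT.lf (nat_lit 0) (nat_lit 5056538056) (nat_lit 304) (nat_lit 2909038662) (nat_lit 380) (nat_lit 3065619005) (nat_lit 90) (nat_lit 5) (nat_lit 94) (nat_lit 5) (nat_lit 95) (nat_lit 4) (nat_lit 467) (nat_lit 344) (nat_lit 329)))) (XT.nd (nat_lit 156) (nat_lit 228) (nat_lit 0) (XT.nd (nat_lit 78) (nat_lit 0) (nat_lit 0) (XT.lf (nat_lit 0) (nat_lit 467690069) (nat_lit 380) (nat_lit 10486107552) (nat_lit 76) (nat_lit 208158372) (nat_lit 85) (nat_lit 5) (nat_lit 90) (nat_lit 5) (nat_lit 86) (nat_lit 4) (nat_lit 468) (nat_lit 344) (nat_lit 328)) (XT.lf (nat_lit 0) (nat_lit 4038398074) (nat_lit 380) (nat_lit 3874518641) (nat_lit 76) (nat_lit 3381885253) (nat_lit 85) (nat_lit 5) (nat_lit 90) (nat_lit 5) (nat_lit 86) (nat_lit 4) (nat_lit 469) (nat_lit 344) (nat_lit 327))) (XT.nd (nat_lit 78) (nat_lit 0) (nat_lit 0) (XT.lf (nat_lit 0) (nat_lit 2827454249) (nat_lit 228) (nat_lit 4820560214)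 (nat_lit 304) (nat_lit 3782971302) (nat_lit 82) (nat_lit 5) (nat_lit 85) (nat_lit 5) (nat_lit 86) (nat_lit 4) (nat_lit 470) (nat_lit 344) (nat_lit 326)) (XT.lf (nat_lit 0) (nat_lit 9637575626) (nat_lit 228) (nat_lit 1667872354) (nat_lit 304) (nat_lit 264962945) (nat_lit 82) (nat_lit 5) (nat_lit 85) (nat_lit 5) (nat_lit 86) (nat_lit 4) (nat_lit 471) (nat_lit 344) (nat_lit 325)))))) (XT.nd (nat_lit 546) (nat_lit 988) (nat_lit 0) (XT.nd (nat_lit 234) (nat_lit 684) (nat_lit 0) (XT.nd (nat_lit 78) (nat_lit 228) (nat_lit 0) (XT.lf (nat_lit 0) (nat_lit 3271690335) (nat_lit 380) (nat_lit 6887256467) (nat_lit 76) (nat_lit 1553437809) (nat_lit 77) (nat_lit 5) (nat_lit 82) (nat_lit 5) (nat_lit 78) (nat_lit 4) (nat_lit 472) (nat_lit 344) (nat_lit 324)) (XT.nd (nat_lit 78) (nat_lit 228) (nat_lit 0) (XT.lf (nat_lit 0) (nat_lit 6850184803) (nat_lit 380) (nat_lit 203260374) (nat_lit 76) (nat_lit 4804252886) (nat_lit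 77) (nat_lit 5) (nat_lit 82) (nat_lit 5) (nat_lit 78) (nat_lit 4) (nat_lit 473) (nat_lit 344) (nat_lit 323)) (XT.lf (nat_lit 0) (nat_lit 6624943324) (nat_lit 228) (nat_lit 3869839860) (nat_lit 304) (nat_lit 1511271805) (nat_lit 74) (nat_lit 5) (nat_lit 77) (nat_lit 5) (nat_lit 78) (nat_lit 4) (nat_lit 474) (nat_lit 344) (nat_lit 322)))) (XT.nd (nat_lit 156) (nat_lit 304) (nat_lit 0) (XT.nd (nat_lit 78) (nat_lit 0) (nat_lit 0) (XT.lf (nat_lit 0) (nat_lit 1363114452) (nat_lit 304) (nat_lit 626686535) (nat_lit 380) (nat_lit 10168100897) (nat_lit 69) (nat_lit 5) (nat_lit 73) (nat_lit 5) (nat_lit 74) (nat_lit 5) (nat_lit 475) (nat_lit 344) (nat_lit 321)) (XT.lf (nat_lit 0) (nat_lit 5546342233) (nat_lit 380) (nat_lit 4101377937) (nat_lit 76) (nat_lit 2664778376) (nat_lit 69) (nat_lit 5) (nat_lit 74) (nat_lit 5) (nat_lit 70) (nat_lit 4) (nat_lit 476) (nat_lit 344) (nat_lit 320))) (XT.nd (nat_lit 78) (nat_lit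 76) (nat_lit 0) (XT.lf (nat_lit 0) (nat_lit 2681600192) (nat_lit 228) (nat_lit 6466823909) (nat_lit 304) (nat_lit 3322300605) (nat_lit 66) (nat_lit 5) (nat_lit 69) (nat_lit 5) (nat_lit 70) (nat_lit 4) (nat_lit 477) (nat_lit 344) (nat_lit 319)) (XT.lf (nat_lit 0) (nat_lit 168592617) (nat_lit 304) (nat_lit 3052623930) (nat_lit 76) (nat_lit 9411285716) (nat_lit 65) (nat_lit 5) (nat_lit 69) (nat_lit 5) (nat_lit 66) (nat_lit 5) (nat_lit 478) (nat_lit 344) (nat_lit 318))))) (XT.nd (nat_lit 234) (nat_lit 532) (nat_lit 0) (XT.nd (nat_lit 78) (nat_lit 228) (nat_lit 0) (XT.lf (nat_lit 0) (nat_lit 3663933077) (nat_lit 304) (nat_lit 9026156406) (nat_lit 76) (nat_lit 107428657) (nat_lit 62) (nat_lit 5) (nat_lit 66) (nat_lit 5) (nat_lit 63) (nat_lit 4) (nat_lit 479) (nat_lit 344) (nat_lit 317)) (XT.nd (nat_lit 78) (nat_lit 228) (nat_lit 0) (XT.lf (nat_lit 0) (nat_lit 7225255628) (nat_lit 304) (nat_lit 2287950587) (nat_lit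 76) (nat_lit 3452730411) (nat_lit 62) (nat_lit 5) (nat_lit 66) (nat_lit 5) (nat_lit 63) (nat_lit 4) (nat_lit 480) (nat_lit 344) (nat_lit 316)) (XT.lf (nat_lit 0) (nat_lit 4572176457) (nat_lit 228) (nat_lit 6270335684) (nat_lit 304) (nat_lit 2295540525) (nat_lit 59) (nat_lit 5) (nat_lit 62) (nat_lit 5) (nat_lit 63) (nat_lit 4) (nat_lit 481) (nat_lit 344) (nat_lit 315)))) (XT.nd (nat_lit 156) (nat_lit 228) (nat_lit 0) (XT.nd (nat_lit 78) (nat_lit 228) (nat_lit 0) (XT.lf (nat_lit 0) (nat_lit 1173093419) (nat_lit 304) (nat_lit 1793744861) (nat_lit 76) (nat_lit 10347225516) (nat_lit 58) (nat_lit 5) (nat_lit 62) (nat_lit 5) (nat_lit 59) (nat_lit 5) (nat_lit 482) (nat_lit 344) (nat_lit 314)) (XT.lf (nat_lit 0) (nat_lit 4672217008) (nat_lit 304) (nat_lit 8402370413) (nat_lit 76) (nat_lit 418889158) (nat_lit 55) (nat_lit 5) (nat_lit 59) (nat_lit 5) (nat_lit 56) (nat_lit 4) (nat_lit 483) (nat_lit 344) (nat_lit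 313))) (XT.nd (nat_lit 78) (nat_lit 228) (nat_lit 0) (XT.lf (nat_lit 0) (nat_lit 8229307611) (nat_lit 304) (nat_lit 1629757890) (nat_lit 76) (nat_lit 3817673983) (nat_lit 55) (nat_lit 5) (nat_lit 59) (nat_lit 5) (nat_lit 56) (nat_lit 4) (nat_lit 484) (nat_lit 344) (nat_lit 312)) (XT.lf (nat_lit 0) (nat_lit 5277162666) (nat_lit 228) (nat_lit 6571718553) (nat_lit 304) (nat_lit 2014980737) (nat_lit 52) (nat_lit 5) (nat_lit 55) (nat_lit 5) (nat_lit 56) (nat_lit 4) (nat_lit 485) (nat_lit 344) (nat_lit 311))))))))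
noncomputable def xc29 : XT := (XT.nd (nat_lit 2106) (nat_lit 684) (nat_lit 0) (XT.nd (nat_lit 1014) (nat_lit 988) (nat_lit 0) (XT.nd (nat_lit 468) (nat_lit 608) (nat_lit 0) (XT.nd (nat_lit 234) (nat_lit 456) (nat_lit 0) (XT.nd (nat_lit 78) (nat_lit 228) (nat_lit 0) (XT.lf (nat_lit 0) (nat_lit 1434801697) (nat_lit 304) (nat_lit 1790397888) (nat_lit 76) (nat_lit 10829991168) (nat_lit 51) (nat_lit 5) (nat_lit 55) (nat_lit 5) (nat_lit 52) (nat_lit 5) (nat_lit 486) (nat_lit 344) (nat_lit 310)) (XT.nd (nat_lit 78) (nat_lit 0) (nat_lit 0) (XT.lf (nat_lit 0) (nat_lit 4919268870) (nat_lit 304) (nat_lit 9125006447) (nat_lit 76) (nat_lit 205970948) (nat_lit 48) (nat_lit 5) (nat_lit 52) (nat_lit 5) (nat_lit 49) (nat_lit 4) (nat_lit 487) (nat_lit 344) (nat_lit 309)) (XT.lf (nat_lit 0) (nat_lit 8465084646) (nat_lit 304) (nat_lit 2336263190) (nat_lit 76) (nat_lit 3648041391) (nat_lit 48) (nat_lit 5) (nat_lit 52) (nat_lit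 5) (nat_lit 49) (nat_lit 4) (nat_lit 488) (nat_lit 344) (nat_lit 308)))) (XT.nd (nat_lit 78) (nat_lit 304) (nat_lit 0) (XT.lf (nat_lit 0) (nat_lit 4580364806) (nat_lit 152) (nat_lit 7490216427) (nat_lit 228) (nat_lit 2582177667) (nat_lit 46) (nat_lit 5) (nat_lit 48) (nat_lit 5) (nat_lit 49) (nat_lit 4) (nat_lit 489) (nat_lit 344) (nat_lit 307)) (XT.nd (nat_lit 78) (nat_lit 228) (nat_lit 0) (XT.lf (nat_lit 0) (nat_lit 851230330) (nat_lit 228) (nat_lit 3266834851) (nat_lit 76) (nat_lit 10742536178) (nat_lit 45) (nat_lit 5) (nat_lit 48) (nat_lit 5) (nat_lit 46) (nat_lit 5) (nat_lit 490) (nat_lit 344) (nat_lit 306)) (XT.lf (nat_lit 0) (nat_lit 3638715106) (nat_lit 228) (nat_lit 663578527) (nat_lit 304) (nat_lit 10770312459) (nat_lit 42) (nat_lit 5) (nat_lit 45) (nat_lit 5) (nat_lit 46) (nat_lit 5) (nat_lit 491) (nat_lit 344) (nat_lit 305))))) (XT.nd (nat_lit 234) (nat_lit 456) (nat_lit 0) (XT.nd (nat_lit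 78) (nat_lit 152) (nat_lit 0) (XT.lf (nat_lit 0) (nat_lit 7823103015) (nat_lit 304) (nat_lit 4647411046) (nat_lit 76) (nat_lit 2818340046) (nat_lit 42) (nat_lit 5) (nat_lit 46) (nat_lit 5) (nat_lit 43) (nat_lit 4) (nat_lit 492) (nat_lit 344) (nat_lit 304)) (XT.nd (nat_lit 78) (nat_lit 0) (nat_lit 0) (XT.lf (nat_lit 0) (nat_lit 2234073565) (nat_lit 152) (nat_lit 9160025691) (nat_lit 228) (nat_lit 4115749748) (nat_lit 40) (nat_lit 5) (nat_lit 42) (nat_lit 5) (nat_lit 43) (nat_lit 4) (nat_lit 493) (nat_lit 344) (nat_lit 303)) (XT.lf (nat_lit 0) (nat_lit 9250985886) (nat_lit 152) (nat_lit 5777931058) (nat_lit 228) (nat_lit 706515823) (nat_lit 40) (nat_lit 5) (nat_lit 42) (nat_lit 5) (nat_lit 43) (nat_lit 4) (nat_lit 494) (nat_lit 344) (nat_lit 302)))) (XT.nd (nat_lit 156) (nat_lit 152) (nat_lit 0) (XT.nd (nat_lit 78) (nat_lit 0) (nat_lit 0) (XT.lf (nat_lit 0) (nat_lit 365059853) (nat_lit 228) (nat_lit 2333579425)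 (nat_lit 304) (nat_lit 13267263904) (nat_lit 36) (nat_lit 5) (nat_lit 39) (nat_lit 5) (nat_lit 40) (nat_lit 5) (nat_lit 495) (nat_lit 344) (nat_lit 301)) (XT.lf (nat_lit 0) (nat_lit 6175780551) (nat_lit 304) (nat_lit 8837911476) (nat_lit 76) (nat_lit 1186946727) (nat_lit 36) (nat_lit 5) (nat_lit 40) (nat_lit 5) (nat_lit 37) (nat_lit 4) (nat_lit 496) (nat_lit 344) (nat_lit 300))) (XT.nd (nat_lit 78) (nat_lit 152) (nat_lit 0) (XT.lf (nat_lit 0) (nat_lit 9700539522) (nat_lit 304) (nat_lit 2018535588) (nat_lit 76) (nat_lit 4721448134) (nat_lit 36) (nat_lit 5) (nat_lit 40) (nat_lit 5) (nat_lit 37) (nat_lit 4) (nat_lit 497) (nat_lit 344) (nat_lit 299)) (XT.lf (nat_lit 0) (nat_lit 4939897389) (nat_lit 152) (nat_lit 8351323004) (nat_lit 228) (nat_lit 3394091888) (nat_lit 34) (nat_lit 5) (nat_lit 36) (nat_lit 5) (nat_lit 37) (nat_lit 4) (nat_lit 498) (nat_lit 344) (nat_lit 298)))))) (XT.nd (nat_lit 546) (nat_lit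 380) (nat_lit 0) (XT.nd (nat_lit 234) (nat_lit 380) (nat_lit 0) (XT.nd (nat_lit 78) (nat_lit 228) (nat_lit 0) (XT.lf (nat_lit 0) (nat_lit 12003151407) (nat_lit 152) (nat_lit 4927780442) (nat_lit 228) (nat_lit 4536006) (nat_lit 34) (nat_lit 5) (nat_lit 36) (nat_lit 5) (nat_lit 37) (nat_lit 4) (nat_lit 499) (nat_lit 344) (nat_lit 297)) (XT.nd (nat_lit 78) (nat_lit 0) (nat_lit 0) (XT.lf (nat_lit 0) (nat_lit 1959332457) (nat_lit 152) (nat_lit 1425048967) (nat_lit 228) (nat_lit 13806274170) (nat_lit 31) (nat_lit 5) (nat_lit 33) (nat_lit 5) (nat_lit 34) (nat_lit 5) (nat_lit 500) (nat_lit 344) (nat_lit 296)) (XT.lf (nat_lit 0) (nat_lit 6852559425) (nat_lit 228) (nat_lit 8469957841) (nat_lit 76) (nat_lit 2128212583) (nat_lit 31) (nat_lit 5) (nat_lit 34) (nat_lit 5) (nat_lit 32) (nat_lit 4) (nat_lit 501) (nat_lit 344) (nat_lit 295)))) (XT.nd (nat_lit 156) (nat_lit 228) (nat_lit 0) (XT.nd (nat_lit 78) (nat_lit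 152) (nat_lit 0) (XT.lf (nat_lit 0) (nat_lit 10364519509) (nat_lit 228) (nat_lit 1642755730) (nat_lit 76) (nat_lit 5709255925) (nat_lit 31) (nat_lit 5) (nat_lit 34) (nat_lit 5) (nat_lit 32) (nat_lit 4) (nat_lit 502) (nat_lit 344) (nat_lit 294)) (XT.lf (nat_lit 0) (nat_lit 5332144932) (nat_lit 152) (nat_lit 8614861441) (nat_lit 228) (nat_lit 4040650050) (nat_lit 29) (nat_lit 5) (nat_lit 31) (nat_lit 5) (nat_lit 32) (nat_lit 4) (nat_lit 503) (nat_lit 344) (nat_lit 293))) (XT.nd (nat_lit 78) (nat_lit 228) (nat_lit 0) (XT.lf (nat_lit 0) (nat_lit 12410420760) (nat_lit 152) (nat_lit 5167707797) (nat_lit 228) (nat_lit 686549320) (nat_lit 29) (nat_lit 5) (nat_lit 31) (nat_lit 5) (nat_lit 32) (nat_lit 4) (nat_lit 504) (nat_lit 344) (nat_lit 292)) (XT.lf (nat_lit 0) (nat_lit 1020951868) (nat_lit 152) (nat_lit 1650840318) (nat_lit 228) (nat_lit 15875644876) (nat_lit 26) (nat_lit 5) (nat_lit 28) (nat_lit 5) (nat_lit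 29) (nat_lit 5) (nat_lit 505) (nat_lit 344) (nat_lit 291))))) (XT.nd (nat_lit 234) (nat_lit 228) (nat_lit 0) (XT.nd (nat_lit 78) (nat_lit 152) (nat_lit 0) (XT.lf (nat_lit 0) (nat_lit 6106759818) (nat_lit 228) (nat_lit 10797272572) (nat_lit 76) (nat_lit 1931367861) (nat_lit 26) (nat_lit 5) (nat_lit 29) (nat_lit 5) (nat_lit 27) (nat_lit 4) (nat_lit 506) (nat_lit 344) (nat_lit 290)) (XT.nd (nat_lit 78) (nat_lit 152) (nat_lit 0) (XT.lf (nat_lit 0) (nat_lit 9588541993) (nat_lit 228) (nat_lit 4001122985) (nat_lit 76) (nat_lit 5539907806) (nat_lit 26) (nat_lit 5) (nat_lit 29) (nat_lit 5) (nat_lit 27) (nat_lit 4) (nat_lit 507) (nat_lit 344) (nat_lit 289)) (XT.lf (nat_lit 0) (nat_lit 2913558921) (nat_lit 152) (nat_lit 10213143599) (nat_lit 228) (nat_lit 6303203531) (nat_lit 24) (nat_lit 5) (nat_lit 26) (nat_lit 5) (nat_lit 27) (nat_lit 4) (nat_lit 508) (nat_lit 344) (nat_lit 288)))) (XT.nd (nat_lit 156) (nat_lit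 152) (nat_lit 0) (XT.nd (nat_lit 78) (nat_lit 76) (nat_lit 0) (XT.lf (nat_lit 0) (nat_lit 9965534029) (nat_lit 152) (nat_lit 6765040055) (nat_lit 228) (nat_lit 3005784844) (nat_lit 24) (nat_lit 5) (nat_lit 26) (nat_lit 5) (nat_lit 27) (nat_lit 4) (nat_lit 509) (nat_lit 344) (nat_lit 287)) (XT.lf (nat_lit 0) (nat_lit 321397527) (nat_lit 228) (nat_lit 2947297515) (nat_lit 76) (nat_lit 16780840723) (nat_lit 23) (nat_lit 5) (nat_lit 26) (nat_lit 5) (nat_lit 24) (nat_lit 5) (nat_lit 510) (nat_lit 344) (nat_lit 286))) (XT.nd (nat_lit 78) (nat_lit 0) (nat_lit 0) (XT.lf (nat_lit 0) (nat_lit 3672041205) (nat_lit 228) (nat_lit 16379144848) (nat_lit 76) (nat_lit 317460633) (nat_lit 21) (nat_lit 5) (nat_lit 24) (nat_lit 5) (nat_lit 22) (nat_lit 4) (nat_lit 511) (nat_lit 344) (nat_lit 285)) (XT.lf (nat_lit 0) (nat_lit 7100490165) (nat_lit 228) (nat_lit 9664171926) (nat_lit 76) (nat_lit 3929272881) (nat_lit 21) (nat_lit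 5) (nat_lit 24) (nat_lit 5) (nat_lit 22) (nat_lit 4) (nat_lit 512) (nat_lit 344) (nat_lit 284))))))) (XT.nd (nat_lit 1092) (nat_lit 76) (nat_lit 0) (XT.nd (nat_lit 546) (nat_lit 304) (nat_lit 0) (XT.nd (nat_lit 234) (nat_lit 228) (nat_lit 0) (XT.nd (nat_lit 78) (nat_lit 76) (nat_lit 0) (XT.lf (nat_lit 0) (nat_lit 10567347833) (nat_lit 228) (nat_lit 2867486081) (nat_lit 76) (nat_lit 7591509093) (nat_lit 21) (nat_lit 5) (nat_lit 24) (nat_lit 5) (nat_lit 22) (nat_lit 4) (nat_lit 513) (nat_lit 344) (nat_lit 283)) (XT.nd (nat_lit 78) (nat_lit 0) (nat_lit 0) (XT.lf (nat_lit 0) (nat_lit 4066916393) (nat_lit 76) (nat_lit 10033462486) (nat_lit 152) (nat_lit 7265094167) (nat_lit 20) (nat_lit 5) (nat_lit 21) (nat_lit 5) (nat_lit 22) (nat_lit 4) (nat_lit 514) (nat_lit 344) (nat_lit 282)) (XT.lf (nat_lit 0) (nat_lit 11127660200) (nat_lit 76) (nat_lit 6566331046) (nat_lit 152) (nat_lit 4017606385) (nat_lit 20) (nat_lit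 5) (nat_lit 21) (nat_lit 5) (nat_lit 22) (nat_lit 4) (nat_lit 515) (nat_lit 344) (nat_lit 281)))) (XT.nd (nat_lit 156) (nat_lit 0) (nat_lit 0) (XT.nd (nat_lit 78) (nat_lit 228) (nat_lit 0) (XT.lf (nat_lit 0) (nat_lit 18279406878) (nat_lit 76) (nat_lit 3051322277) (nat_lit 152) (nat_lit 734500645) (nat_lit 20) (nat_lit 5) (nat_lit 21) (nat_lit 5) (nat_lit 22) (nat_lit 4) (nat_lit 516) (nat_lit 344) (nat_lit 280)) (XT.lf (nat_lit 0) (nat_lit 2575451025) (nat_lit 228) (nat_lit 19306723139) (nat_lit 76) (nat_lit 543521330) (nat_lit 17) (nat_lit 5) (nat_lit 20) (nat_lit 5) (nat_lit 18) (nat_lit 4) (nat_lit 517) (nat_lit 344) (nat_lit 279))) (XT.nd (nat_lit 78) (nat_lit 0) (nat_lit 0) (XT.lf (nat_lit 0) (nat_lit 5959276149) (nat_lit 228) (nat_lit 12654644063) (nat_lit 76) (nat_lit 4179012573) (nat_lit 17) (nat_lit 5) (nat_lit 20) (nat_lit 5) (nat_lit 18) (nat_lit 4) (nat_lit 518) (nat_lit 344) (nat_lit 278))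 (XT.lf (nat_lit 0) (nat_lit 9383051941) (nat_lit 228) (nat_lit 5918271546) (nat_lit 76) (nat_lit 7866755236) (nat_lit 17) (nat_lit 5) (nat_lit 20) (nat_lit 5) (nat_lit 18) (nat_lit 4) (nat_lit 519) (nat_lit 344) (nat_lit 277))))) (XT.nd (nat_lit 234) (nat_lit 228) (nat_lit 0) (XT.nd (nat_lit 78) (nat_lit 0) (nat_lit 0) (XT.lf (nat_lit 0) (nat_lit 917063580) (nat_lit 76) (nat_lit 11937011662) (nat_lit 152) (nat_lit 10697086095) (nat_lit 16) (nat_lit 5) (nat_lit 17) (nat_lit 5) (nat_lit 18) (nat_lit 4) (nat_lit 520) (nat_lit 344) (nat_lit 276)) (XT.nd (nat_lit 78) (nat_lit 0) (nat_lit 0) (XT.lf (nat_lit 0) (nat_lit 7921851265) (nat_lit 76) (nat_lit 8485424998) (nat_lit 152) (nat_lit 7534383216) (nat_lit 16) (nat_lit 5) (nat_lit 17) (nat_lit 5) (nat_lit 18) (nat_lit 4) (nat_lit 521) (nat_lit 344) (nat_lit 275)) (XT.lf (nat_lit 0) (nat_lit 15020187771) (nat_lit 76) (nat_lit 4984924646) (nat_lit 152) (nat_lit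 4335392587) (nat_lit 16) (nat_lit 5) (nat_lit 17) (nat_lit 5) (nat_lit 18) (nat_lit 4) (nat_lit 522) (nat_lit 344) (nat_lit 274)))) (XT.nd (nat_lit 156) (nat_lit 0) (nat_lit 0) (XT.nd (nat_lit 78) (nat_lit 228) (nat_lit 0) (XT.lf (nat_lit 0) (nat_lit 22214856759) (nat_lit 76) (nat_lit 1434137862) (nat_lit 152) (nat_lit 1098859700) (nat_lit 16) (nat_lit 5) (nat_lit 17) (nat_lit 5) (nat_lit 18) (nat_lit 4) (nat_lit 523) (nat_lit 344) (nat_lit 273)) (XT.lf (nat_lit 0) (nat_lit 2190791499) (nat_lit 228) (nat_lit 20789141432) (nat_lit 76) (nat_lit 2182794584) (nat_lit 13) (nat_lit 5) (nat_lit 16) (nat_lit 5) (nat_lit 14) (nat_lit 4) (nat_lit 524) (nat_lit 344) (nat_lit 272))) (XT.nd (nat_lit 78) (nat_lit 0) (nat_lit 0) (XT.lf (nat_lit 0) (nat_lit 5532649060) (nat_lit 228) (nat_lit 14194989284) (nat_lit 76) (nat_lit 5858100188) (nat_lit 13) (nat_lit 5) (nat_lit 16) (nat_lit 5) (nat_lit 14) (nat_lit 4) (nat_lit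 525) (nat_lit 344) (nat_lit 271)) (XT.lf (nat_lit 0) (nat_lit 8916349064) (nat_lit 228) (nat_lit 7513248731) (nat_lit 76) (nat_lit 9588119876) (nat_lit 13) (nat_lit 5) (nat_lit 16) (nat_lit 5) (nat_lit 14) (nat_lit 4) (nat_lit 526) (nat_lit 344) (nat_lit 270)))))) (XT.nd (nat_lit 53586) (nat_lit 0) (nat_lit 7676) (XT.nd (nat_lit 234) (nat_lit 0) (nat_lit 0) (XT.nd (nat_lit 78) (nat_lit 76) (nat_lit 0) (XT.lf (nat_lit 0) (nat_lit 12343218454) (nat_lit 228) (nat_lit 741299482) (nat_lit 76) (nat_lit 13374316403) (nat_lit 13) (nat_lit 5) (nat_lit 16) (nat_lit 5) (nat_lit 14) (nat_lit 4) (nat_lit 527) (nat_lit 344) (nat_lit 269)) (XT.nd (nat_lit 78) (nat_lit 0) (nat_lit 0) (XT.lf (nat_lit 0) (nat_lit 6204892408) (nat_lit 76) (nat_lit 9649994967) (nat_lit 152) (nat_lit 11053568417) (nat_lit 12) (nat_lit 5) (nat_lit 13) (nat_lit 5) (nat_lit 14) (nat_lit 4) (nat_lit 528) (nat_lit 344) (nat_lit 268)) (XT.lf (nat_lit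 0) (nat_lit 13257762120) (nat_lit 76) (nat_lit 6160174390) (nat_lit 152) (nat_lit 7949517776) (nat_lit 12) (nat_lit 5) (nat_lit 13) (nat_lit 5) (nat_lit 14) (nat_lit 4) (nat_lit 529) (nat_lit 344) (nat_lit 267)))) (XT.nd (nat_lit 53196) (nat_lit 0) (nat_lit 9880) (XT.nd (nat_lit 53118) (nat_lit 0) (nat_lit 10412) (XT.lf (nat_lit 0) (nat_lit 20410224004) (nat_lit 76) (nat_lit 2618662157) (nat_lit 152) (nat_lit 4807221197) (nat_lit 12) (nat_lit 5) (nat_lit 13) (nat_lit 5) (nat_lit 14) (nat_lit 4) (nat_lit 530) (nat_lit 344) (nat_lit 266)) (XT.lf (nat_lit 0) (nat_lit 1933291067) (nat_lit 456) (nat_lit 1335611592) (nat_lit 456) (nat_lit 1335611592) (nat_lit 149) (nat_lit 4) (nat_lit 155) (nat_lit 5) (nat_lit 155) (nat_lit 4) (nat_lit 450) (nat_lit 345) (nat_lit 345))) (XT.nd (nat_lit 78) (nat_lit 0) (nat_lit 0) (XT.lf (nat_lit 0) (nat_lit 940850362) (nat_lit 532) (nat_lit 8346085507) (nat_lit 0) (nat_lit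 11343597) (nat_lit 142) (nat_lit 5) (nat_lit 149) (nat_lit 4) (nat_lit 142) (nat_lit 4) (nat_lit 451) (nat_lit 345) (nat_lit 344)) (XT.lf (nat_lit 0) (nat_lit 4582864263) (nat_lit 532) (nat_lit 2064200910) (nat_lit 0) (nat_lit 2742076356) (nat_lit 142) (nat_lit 5) (nat_lit 149) (nat_lit 4) (nat_lit 142) (nat_lit 4) (nat_lit 452) (nat_lit 345) (nat_lit 343))))) (XT.nd (nat_lit 234) (nat_lit 1292) (nat_lit 0) (XT.nd (nat_lit 78) (nat_lit 456) (nat_lit 0) (XT.lf (nat_lit 0) (nat_lit 4316471924) (nat_lit 456) (nat_lit 3950110013) (nat_lit 456) (nat_lit 1215909223) (nat_lit 136) (nat_lit 4) (nat_lit 142) (nat_lit 5) (nat_lit 142) (nat_lit 4) (nat_lit 453) (nat_lit 345) (nat_lit 342)) (XT.nd (nat_lit 78) (nat_lit 0) (nat_lit 0) (XT.lf (nat_lit 0) (nat_lit 1191215588) (nat_lit 380) (nat_lit 1185671225) (nat_lit 456) (nat_lit 7201294986) (nat_lit 130) (nat_lit 5) (nat_lit 135) (nat_lit 5) (nat_lit 136) (nat_lit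 4) (nat_lit 454) (nat_lit 345) (nat_lit 341)) (XT.lf (nat_lit 0) (nat_lit 6012259710) (nat_lit 456) (nat_lit 2032603397) (nat_lit 0) (nat_lit 1631067212) (nat_lit 130) (nat_lit 5) (nat_lit 136) (nat_lit 4) (nat_lit 130) (nat_lit 4) (nat_lit 455) (nat_lit 345) (nat_lit 340)))) (XT.nd (nat_lit 156) (nat_lit 456) (nat_lit 0) (XT.nd (nat_lit 78) (nat_lit 456) (nat_lit 0) (XT.lf (nat_lit 0) (nat_lit 4416326240) (nat_lit 380) (nat_lit 5283168179) (nat_lit 380) (nat_lit 76600275) (nat_lit 125) (nat_lit 4) (nat_lit 130) (nat_lit 5) (nat_lit 130) (nat_lit 4) (nat_lit 456) (nat_lit 345) (nat_lit 339)) (XT.lf (nat_lit 0) (nat_lit 1051389866) (nat_lit 380) (nat_lit 2447198918) (nat_lit 456) (nat_lit 6379983502) (nat_lit 119) (nat_lit 5) (nat_lit 124) (nat_lit 5) (nat_lit 125) (nat_lit 4) (nat_lit 457) (nat_lit 345) (nat_lit 338))) (XT.nd (nat_lit 78) (nat_lit 456) (nat_lit 0) (XT.lf (nat_lit 0) (nat_lit 7126576904)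 (nat_lit 456) (nat_lit 2405903603) (nat_lit 0) (nat_lit 451003813) (nat_lit 119) (nat_lit 5) (nat_lit 125) (nat_lit 4) (nat_lit 119) (nat_lit 4) (nat_lit 458) (nat_lit 345) (nat_lit 337)) (XT.lf (nat_lit 0) (nat_lit 714004334) (nat_lit 456) (nat_lit 5995803630) (nat_lit 76) (nat_lit 3380890099) (nat_lit 113) (nat_lit 5) (nat_lit 119) (nat_lit 5) (nat_lit 114) (nat_lit 4) (nat_lit 459) (nat_lit 345) (nat_lit 336))))))))
noncomputable def xc30 : XT := (XT.nd (nat_lit 2106) (nat_lit 2356) (nat_lit 0) (XT.nd (nat_lit 1014) (nat_lit 1976) (nat_lit 0) (XT.nd (nat_lit 468) (nat_lit 1292) (nat_lit 0) (XT.nd (nat_lit 234) (nat_lit 684) (nat_lit 0) (XT.nd (nat_lit 78) (nat_lit 456) (nat_lit 0) (XT.lf (nat_lit 0) (nat_lit 463727103) (nat_lit 304) (nat_lit 3818147858) (nat_lit 380) (nat_lit 5918566588) (nat_lit 109) (nat_lit 5) (nat_lit 113) (nat_lit 5) (nat_lit 114) (nat_lit 4) (nat_lit 460) (nat_lit 345) (nat_lit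 335)) (XT.nd (nat_lit 78) (nat_lit 456) (nat_lit 0) (XT.lf (nat_lit 0) (nat_lit 7052346239) (nat_lit 304) (nat_lit 854047968) (nat_lit 380) (nat_lit 2406318156) (nat_lit 109) (nat_lit 5) (nat_lit 113) (nat_lit 5) (nat_lit 114) (nat_lit 4) (nat_lit 461) (nat_lit 345) (nat_lit 334)) (XT.lf (nat_lit 0) (nat_lit 1142025714) (nat_lit 456) (nat_lit 7141254156) (nat_lit 76) (nat_lit 2144207261) (nat_lit 103) (nat_lit 5) (nat_lit 109) (nat_lit 5) (nat_lit 104) (nat_lit 4) (nat_lit 462) (nat_lit 345) (nat_lit 333)))) (XT.nd (nat_lit 78) (nat_lit 684) (nat_lit 0) (XT.lf (nat_lit 0) (nat_lit 4702939099) (nat_lit 456) (nat_lit 638846337) (nat_lit 76) (nat_lit 5203013452) (nat_lit 103) (nat_lit 5) (nat_lit 109) (nat_lit 5) (nat_lit 104) (nat_lit 4) (nat_lit 463) (nat_lit 345) (nat_lit 332)) (XT.nd (nat_lit 78) (nat_lit 380) (nat_lit 0) (XT.lf (nat_lit 0) (nat_lit 5992845137) (nat_lit 304) (nat_lit 2328305242) (nat_lit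 380) (nat_lit 2343620272) (nat_lit 99) (nat_lit 5) (nat_lit 103) (nat_lit 5) (nat_lit 104) (nat_lit 4) (nat_lit 464) (nat_lit 345) (nat_lit 331)) (XT.lf (nat_lit 0) (nat_lit 1177423498) (nat_lit 380) (nat_lit 8876209985) (nat_lit 76) (nat_lit 734005339) (nat_lit 94) (nat_lit 5) (nat_lit 99) (nat_lit 5) (nat_lit 95) (nat_lit 4) (nat_lit 465) (nat_lit 345) (nat_lit 330))))) (XT.nd (nat_lit 234) (nat_lit 912) (nat_lit 0) (XT.nd (nat_lit 78) (nat_lit 380) (nat_lit 0) (XT.lf (nat_lit 0) (nat_lit 4732173113) (nat_lit 380) (nat_lit 2333657799) (nat_lit 76) (nat_lit 3846963623) (nat_lit 94) (nat_lit 5) (nat_lit 99) (nat_lit 5) (nat_lit 95) (nat_lit 4) (nat_lit 466) (nat_lit 345) (nat_lit 329)) (XT.nd (nat_lit 78) (nat_lit 76) (nat_lit 0) (XT.lf (nat_lit 0) (nat_lit 4317991972) (nat_lit 304) (nat_lit 4016746080) (nat_lit 380) (nat_lit 2706213575) (nat_lit 90) (nat_lit 5) (nat_lit 94) (nat_lit 5) (nat_lit 95) (nat_lit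 4) (nat_lit 467) (nat_lit 345) (nat_lit 328)) (XT.lf (nat_lit 0) (nat_lit 791277389) (nat_lit 380) (nat_lit 121173674) (nat_lit 76) (nat_lit 10259851799) (nat_lit 89) (nat_lit 5) (nat_lit 94) (nat_lit 5) (nat_lit 90) (nat_lit 5) (nat_lit 468) (nat_lit 345) (nat_lit 327)))) (XT.nd (nat_lit 156) (nat_lit 380) (nat_lit 0) (XT.nd (nat_lit 78) (nat_lit 228) (nat_lit 0) (XT.lf (nat_lit 0) (nat_lit 4330078739) (nat_lit 380) (nat_lit 4716658828) (nat_lit 76) (nat_lit 2259064645) (nat_lit 85) (nat_lit 5) (nat_lit 90) (nat_lit 5) (nat_lit 86) (nat_lit 4) (nat_lit 469) (nat_lit 345) (nat_lit 326)) (XT.lf (nat_lit 0) (nat_lit 1935305090) (nat_lit 228) (nat_lit 5973911394) (nat_lit 304) (nat_lit 3533394039) (nat_lit 82) (nat_lit 5) (nat_lit 85) (nat_lit 5) (nat_lit 86) (nat_lit 4) (nat_lit 470) (nat_lit 345) (nat_lit 325))) (XT.nd (nat_lit 78) (nat_lit 380) (nat_lit 0) (XT.lf (nat_lit 0) (nat_lit 8707370221) (nat_lit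 228) (nat_lit 2834830520) (nat_lit 304) (nat_lit 40338578) (nat_lit 82) (nat_lit 5) (nat_lit 85) (nat_lit 5) (nat_lit 86) (nat_lit 4) (nat_lit 471) (nat_lit 345) (nat_lit 324)) (XT.lf (nat_lit 0) (nat_lit 3455071677) (nat_lit 380) (nat_lit 7886764295) (nat_lit 76) (nat_lit 383427885) (nat_lit 77) (nat_lit 5) (nat_lit 82) (nat_lit 5) (nat_lit 78) (nat_lit 4) (nat_lit 472) (nat_lit 345) (nat_lit 323)))))) (XT.nd (nat_lit 546) (nat_lit 836) (nat_lit 0) (XT.nd (nat_lit 234) (nat_lit 532) (nat_lit 0) (XT.nd (nat_lit 78) (nat_lit 608) (nat_lit 0) (XT.lf (nat_lit 0) (nat_lit 7009566392) (nat_lit 380) (nat_lit 1240570003) (nat_lit 76) (nat_lit 3620934714) (nat_lit 77) (nat_lit 5) (nat_lit 82) (nat_lit 5) (nat_lit 78) (nat_lit 4) (nat_lit 473) (nat_lit 345) (nat_lit 322)) (XT.nd (nat_lit 78) (nat_lit 380) (nat_lit 0) (XT.lf (nat_lit 0) (nat_lit 5536295292) (nat_lit 228) (nat_lit 5087272087) (nat_lit 304) (nat_lit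 1396486138) (nat_lit 74) (nat_lit 5) (nat_lit 77) (nat_lit 5) (nat_lit 78) (nat_lit 4) (nat_lit 474) (nat_lit 345) (nat_lit 321)) (XT.lf (nat_lit 0) (nat_lit 207423798) (nat_lit 304) (nat_lit 1864679615) (nat_lit 380) (nat_lit 10100414659) (nat_lit 69) (nat_lit 5) (nat_lit 73) (nat_lit 5) (nat_lit 74) (nat_lit 5) (nat_lit 475) (nat_lit 345) (nat_lit 320)))) (XT.nd (nat_lit 156) (nat_lit 304) (nat_lit 0) (XT.nd (nat_lit 78) (nat_lit 228) (nat_lit 0) (XT.lf (nat_lit 0) (nat_lit 5597264622) (nat_lit 380) (nat_lit 5300933531) (nat_lit 76) (nat_lit 1429556934) (nat_lit 69) (nat_lit 5) (nat_lit 74) (nat_lit 5) (nat_lit 70) (nat_lit 4) (nat_lit 476) (nat_lit 345) (nat_lit 319)) (XT.lf (nat_lit 0) (nat_lit 1429061817) (nat_lit 228) (nat_lit 7739267889) (nat_lit 304) (nat_lit 3318284379) (nat_lit 66) (nat_lit 5) (nat_lit 69) (nat_lit 5) (nat_lit 70) (nat_lit 4) (nat_lit 477) (nat_lit 345) (nat_lit 318))) (XT.nd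 (nat_lit 78) (nat_lit 228) (nat_lit 0) (XT.lf (nat_lit 0) (nat_lit 149722390) (nat_lit 304) (nat_lit 4357708245) (nat_lit 76) (nat_lit 8141429179) (nat_lit 65) (nat_lit 5) (nat_lit 69) (nat_lit 5) (nat_lit 66) (nat_lit 5) (nat_lit 478) (nat_lit 345) (nat_lit 317)) (XT.lf (nat_lit 0) (nat_lit 2413264944) (nat_lit 228) (nat_lit 1199882734) (nat_lit 304) (nat_lit 9201378098) (nat_lit 62) (nat_lit 5) (nat_lit 65) (nat_lit 5) (nat_lit 66) (nat_lit 5) (nat_lit 479) (nat_lit 345) (nat_lit 316))))) (XT.nd (nat_lit 234) (nat_lit 532) (nat_lit 0) (XT.nd (nat_lit 78) (nat_lit 304) (nat_lit 0) (XT.lf (nat_lit 0) (nat_lit 7144413413) (nat_lit 304) (nat_lit 3691308047) (nat_lit 76) (nat_lit 2147835490) (nat_lit 62) (nat_lit 5) (nat_lit 66) (nat_lit 5) (nat_lit 63) (nat_lit 4) (nat_lit 480) (nat_lit 345) (nat_lit 315)) (XT.nd (nat_lit 78) (nat_lit 76) (nat_lit 0) (XT.lf (nat_lit 0) (nat_lit 3114362776) (nat_lit 228)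 (nat_lit 7616012271) (nat_lit 304) (nat_lit 2425935164) (nat_lit 59) (nat_lit 5) (nat_lit 62) (nat_lit 5) (nat_lit 63) (nat_lit 4) (nat_lit 481) (nat_lit 345) (nat_lit 314)) (XT.lf (nat_lit 0) (nat_lit 1022625059) (nat_lit 304) (nat_lit 3304374115) (nat_lit 76) (nat_lit 9005785661) (nat_lit 58) (nat_lit 5) (nat_lit 62) (nat_lit 5) (nat_lit 59) (nat_lit 5) (nat_lit 482) (nat_lit 345) (nat_lit 313)))) (XT.nd (nat_lit 156) (nat_lit 304) (nat_lit 0) (XT.nd (nat_lit 78) (nat_lit 0) (nat_lit 0) (XT.lf (nat_lit 0) (nat_lit 3528040701) (nat_lit 228) (nat_lit 959428653) (nat_lit 304) (nat_lit 9025424522) (nat_lit 55) (nat_lit 5) (nat_lit 58) (nat_lit 5) (nat_lit 59) (nat_lit 5) (nat_lit 483) (nat_lit 345) (nat_lit 312)) (XT.lf (nat_lit 0) (nat_lit 8017082370) (nat_lit 304) (nat_lit 3240840689) (nat_lit 76) (nat_lit 2438793735) (nat_lit 55) (nat_lit 5) (nat_lit 59) (nat_lit 5) (nat_lit 56) (nat_lit 4) (nat_lit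 484) (nat_lit 345) (nat_lit 311))) (XT.nd (nat_lit 78) (nat_lit 76) (nat_lit 0) (XT.lf (nat_lit 0) (nat_lit 3610069280) (nat_lit 228) (nat_lit 7994931116) (nat_lit 304) (nat_lit 2279482239) (nat_lit 52) (nat_lit 5) (nat_lit 55) (nat_lit 5) (nat_lit 56) (nat_lit 4) (nat_lit 485) (nat_lit 345) (nat_lit 310)) (XT.lf (nat_lit 0) (nat_lit 1152979060) (nat_lit 304) (nat_lit 3510602493) (nat_lit 76) (nat_lit 9412689886) (nat_lit 51) (nat_lit 5) (nat_lit 55) (nat_lit 5) (nat_lit 52) (nat_lit 5) (nat_lit 486) (nat_lit 345) (nat_lit 309))))))) (XT.nd (nat_lit 1092) (nat_lit 988) (nat_lit 0) (XT.nd (nat_lit 546) (nat_lit 532) (nat_lit 0) (XT.nd (nat_lit 234) (nat_lit 456) (nat_lit 0) (XT.nd (nat_lit 78) (nat_lit 152) (nat_lit 0) (XT.lf (nat_lit 0) (nat_lit 3349573966) (nat_lit 228) (nat_lit 1254596950) (nat_lit 304) (nat_lit 9667831207) (nat_lit 48) (nat_lit 5) (nat_lit 51) (nat_lit 5) (nat_lit 52) (nat_lit 5) (nat_lit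 487) (nat_lit 345) (nat_lit 308)) (XT.nd (nat_lit 78) (nat_lit 152) (nat_lit 0) (XT.lf (nat_lit 0) (nat_lit 8121556725) (nat_lit 304) (nat_lit 4159183994) (nat_lit 76) (nat_lit 2190982442) (nat_lit 48) (nat_lit 5) (nat_lit 52) (nat_lit 5) (nat_lit 49) (nat_lit 4) (nat_lit 488) (nat_lit 345) (nat_lit 307)) (XT.lf (nat_lit 0) (nat_lit 2699794922) (nat_lit 152) (nat_lit 8995161920) (nat_lit 228) (nat_lit 2980787209) (nat_lit 46) (nat_lit 5) (nat_lit 48) (nat_lit 5) (nat_lit 49) (nat_lit 4) (nat_lit 489) (nat_lit 345) (nat_lit 306)))) (XT.nd (nat_lit 156) (nat_lit 152) (nat_lit 0) (XT.nd (nat_lit 78) (nat_lit 228) (nat_lit 0) (XT.lf (nat_lit 0) (nat_lit 437999729) (nat_lit 228) (nat_lit 5200842621) (nat_lit 76) (nat_lit 9245201830) (nat_lit 45) (nat_lit 5) (nat_lit 48) (nat_lit 5) (nat_lit 46) (nat_lit 5) (nat_lit 490) (nat_lit 345) (nat_lit 305)) (XT.lf (nat_lit 0) (nat_lit 1646181993) (nat_lit 228) (nat_lit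 2210484491) (nat_lit 304) (nat_lit 11240039113) (nat_lit 42) (nat_lit 5) (nat_lit 45) (nat_lit 5) (nat_lit 46) (nat_lit 5) (nat_lit 491) (nat_lit 345) (nat_lit 304))) (XT.nd (nat_lit 78) (nat_lit 152) (nat_lit 0) (XT.lf (nat_lit 0) (nat_lit 7348061547) (nat_lit 304) (nat_lit 6686490543) (nat_lit 76) (nat_lit 1278998391) (nat_lit 42) (nat_lit 5) (nat_lit 46) (nat_lit 5) (nat_lit 43) (nat_lit 4) (nat_lit 492) (nat_lit 345) (nat_lit 303)) (XT.lf (nat_lit 0) (nat_lit 135619110) (nat_lit 152) (nat_lit 10750823160) (nat_lit 228) (nat_lit 4648763832) (nat_lit 40) (nat_lit 5) (nat_lit 42) (nat_lit 5) (nat_lit 43) (nat_lit 4) (nat_lit 493) (nat_lit 345) (nat_lit 302))))) (XT.nd (nat_lit 234) (nat_lit 228) (nat_lit 0) (XT.nd (nat_lit 78) (nat_lit 304) (nat_lit 0) (XT.lf (nat_lit 0) (nat_lit 7120887642) (nat_lit 152) (nat_lit 7381548276) (nat_lit 228) (nat_lit 1258738677) (nat_lit 40) (nat_lit 5) (nat_lit 42) (nat_lit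 5) (nat_lit 43) (nat_lit 4) (nat_lit 494) (nat_lit 345) (nat_lit 301)) (XT.nd (nat_lit 78) (nat_lit 228) (nat_lit 0) (XT.lf (nat_lit 0) (nat_lit 2132703574) (nat_lit 228) (nat_lit 1823260885) (nat_lit 76) (nat_lit 12036179296) (nat_lit 39) (nat_lit 5) (nat_lit 42) (nat_lit 5) (nat_lit 40) (nat_lit 5) (nat_lit 495) (nat_lit 345) (nat_lit 300)) (XT.lf (nat_lit 0) (nat_lit 5127068939) (nat_lit 228) (nat_lit 444549440) (nat_lit 304) (nat_lit 10656033251) (nat_lit 36) (nat_lit 5) (nat_lit 39) (nat_lit 5) (nat_lit 40) (nat_lit 5) (nat_lit 496) (nat_lit 345) (nat_lit 299)))) (XT.nd (nat_lit 156) (nat_lit 76) (nat_lit 0) (XT.nd (nat_lit 78) (nat_lit 152) (nat_lit 0) (XT.lf (nat_lit 0) (nat_lit 9075349274) (nat_lit 304) (nat_lit 4309072013) (nat_lit 76) (nat_lit 3083543014) (nat_lit 36) (nat_lit 5) (nat_lit 40) (nat_lit 5) (nat_lit 37) (nat_lit 4) (nat_lit 497) (nat_lit 345) (nat_lit 298)) (XT.lf (nat_lit 0) (nat_lit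 2588371732) (nat_lit 152) (nat_lit 10044604704) (nat_lit 228) (nat_lit 4080445450) (nat_lit 34) (nat_lit 5) (nat_lit 36) (nat_lit 5) (nat_lit 37) (nat_lit 4) (nat_lit 498) (nat_lit 345) (nat_lit 297))) (XT.nd (nat_lit 78) (nat_lit 76) (nat_lit 0) (XT.lf (nat_lit 0) (nat_lit 9621675546) (nat_lit 152) (nat_lit 6633380589) (nat_lit 228) (nat_lit 708881283) (nat_lit 34) (nat_lit 5) (nat_lit 36) (nat_lit 5) (nat_lit 37) (nat_lit 4) (nat_lit 499) (nat_lit 345) (nat_lit 296)) (XT.lf (nat_lit 0) (nat_lit 2659144875) (nat_lit 228) (nat_lit 501338212) (nat_lit 76) (nat_lit 14059343149) (nat_lit 33) (nat_lit 5) (nat_lit 36) (nat_lit 5) (nat_lit 34) (nat_lit 5) (nat_lit 500) (nat_lit 345) (nat_lit 295)))))) (XT.nd (nat_lit 546) (nat_lit 456) (nat_lit 0) (XT.nd (nat_lit 234) (nat_lit 228) (nat_lit 0) (XT.nd (nat_lit 78) (nat_lit 152) (nat_lit 0) (XT.lf (nat_lit 0) (nat_lit 6095399084) (nat_lit 228) (nat_lit 10984917951)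 (nat_lit 76) (nat_lit 400228837) (nat_lit 31) (nat_lit 5) (nat_lit 34) (nat_lit 5) (nat_lit 32) (nat_lit 4) (nat_lit 501) (nat_lit 345) (nat_lit 294)) (XT.nd (nat_lit 78) (nat_lit 152) (nat_lit 0) (XT.lf (nat_lit 0) (nat_lit 9590363008) (nat_lit 228) (nat_lit 4186813627) (nat_lit 76) (nat_lit 3969517242) (nat_lit 31) (nat_lit 5) (nat_lit 34) (nat_lit 5) (nat_lit 32) (nat_lit 4) (nat_lit 502) (nat_lit 345) (nat_lit 293)) (XT.lf (nat_lit 0) (nat_lit 2725371491) (nat_lit 152) (nat_lit 10413890577) (nat_lit 228) (nat_lit 4879235458) (nat_lit 29) (nat_lit 5) (nat_lit 31) (nat_lit 5) (nat_lit 32) (nat_lit 4) (nat_lit 503) (nat_lit 345) (nat_lit 292)))) (XT.nd (nat_lit 156) (nat_lit 152) (nat_lit 0) (XT.nd (nat_lit 78) (nat_lit 76) (nat_lit 0) (XT.lf (nat_lit 0) (nat_lit 9775307755) (nat_lit 152) (nat_lit 6978556318) (nat_lit 228) (nat_lit 1541991815) (nat_lit 29) (nat_lit 5) (nat_lit 31) (nat_lit 5) (nat_lit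 32) (nat_lit 4) (nat_lit 504) (nat_lit 345) (nat_lit 291)) (XT.lf (nat_lit 0) (nat_lit 1804630471) (nat_lit 228) (nat_lit 1681181900) (nat_lit 76) (nat_lit 15093378805) (nat_lit 28) (nat_lit 5) (nat_lit 31) (nat_lit 5) (nat_lit 29) (nat_lit 5) (nat_lit 505) (nat_lit 345) (nat_lit 290))) (XT.nd (nat_lit 78) (nat_lit 0) (nat_lit 0) (XT.lf (nat_lit 0) (nat_lit 5200304292) (nat_lit 228) (nat_lit 13569813104) (nat_lit 76) (nat_lit 97828977) (nat_lit 26) (nat_lit 5) (nat_lit 29) (nat_lit 5) (nat_lit 27) (nat_lit 4) (nat_lit 506) (nat_lit 345) (nat_lit 289)) (XT.lf (nat_lit 0) (nat_lit 8666158720) (nat_lit 228) (nat_lit 6801189517) (nat_lit 76) (nat_lit 3695095232) (nat_lit 26) (nat_lit 5) (nat_lit 29) (nat_lit 5) (nat_lit 27) (nat_lit 4) (nat_lit 507) (nat_lit 345) (nat_lit 288))))) (XT.nd (nat_lit 234) (nat_lit 304) (nat_lit 0) (XT.nd (nat_lit 78) (nat_lit 0) (nat_lit 0) (XT.lf (nat_lit 0) (nat_lit 48936072)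 (nat_lit 152) (nat_lit 12121168707) (nat_lit 228) (nat_lit 7293362138) (nat_lit 24) (nat_lit 5) (nat_lit 26) (nat_lit 5) (nat_lit 27) (nat_lit 4) (nat_lit 508) (nat_lit 345) (nat_lit 287)) (XT.nd (nat_lit 78) (nat_lit 0) (nat_lit 0) (XT.lf (nat_lit 0) (nat_lit 7074102446) (nat_lit 152) (nat_lit 8684390584) (nat_lit 228) (nat_lit 4011742205) (nat_lit 24) (nat_lit 5) (nat_lit 26) (nat_lit 5) (nat_lit 27) (nat_lit 4) (nat_lit 509) (nat_lit 345) (nat_lit 286)) (XT.lf (nat_lit 0) (nat_lit 14186680342) (nat_lit 152) (nat_lit 5201305672) (nat_lit 228) (nat_lit 695777604) (nat_lit 24) (nat_lit 5) (nat_lit 26) (nat_lit 5) (nat_lit 27) (nat_lit 4) (nat_lit 510) (nat_lit 345) (nat_lit 285)))) (XT.nd (nat_lit 156) (nat_lit 76) (nat_lit 0) (XT.nd (nat_lit 78) (nat_lit 0) (nat_lit 0) (XT.lf (nat_lit 0) (nat_lit 980905313) (nat_lit 152) (nat_lit 1646463703) (nat_lit 228) (nat_lit 17776333760) (nat_lit 21) (nat_lit 5)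 (nat_lit 23) (nat_lit 5) (nat_lit 24) (nat_lit 5) (nat_lit 511) (nat_lit 345) (nat_lit 284)) (XT.lf (nat_lit 0) (nat_lit 6030197215) (nat_lit 228) (nat_lit 12723167546) (nat_lit 76) (nat_lit 1976144052) (nat_lit 21) (nat_lit 5) (nat_lit 24) (nat_lit 5) (nat_lit 22) (nat_lit 4) (nat_lit 512) (nat_lit 345) (nat_lit 283))) (XT.nd (nat_lit 78) (nat_lit 76) (nat_lit 0) (XT.lf (nat_lit 0) (nat_lit 9482416817) (nat_lit 228) (nat_lit 5952004190) (nat_lit 76) (nat_lit 5627793835) (nat_lit 21) (nat_lit 5) (nat_lit 24) (nat_lit 5) (nat_lit 22) (nat_lit 4) (nat_lit 513) (nat_lit 345) (nat_lit 282)) (XT.lf (nat_lit 0) (nat_lit 916052085) (nat_lit 76) (nat_lit 12064587232) (nat_lit 152) (nat_lit 8421406863) (nat_lit 20) (nat_lit 5) (nat_lit 21) (nat_lit 5) (nat_lit 22) (nat_lit 4) (nat_lit 514) (nat_lit 345) (nat_lit 281))))))))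
noncomputable def xc31 : XT := (XT.nd (nat_lit 54990) (nat_lit 0) (nat_lit 2964) (XT.nd (nat_lit 1014) (nat_lit 76) (nat_lit 0) (XT.nd (nat_lit 468) (nat_lit 304) (nat_lit 0) (XT.nd (nat_lit 234) (nat_lit 152) (nat_lit 0) (XT.nd (nat_lit 78) (nat_lit 76) (nat_lit 0) (XT.lf (nat_lit 0) (nat_lit 7951938463) (nat_lit 76) (nat_lit 8608082178) (nat_lit 152) (nat_lit 5188439773) (nat_lit 20) (nat_lit 5) (nat_lit 21) (nat_lit 5) (nat_lit 22) (nat_lit 4) (nat_lit 515) (nat_lit 345) (nat_lit 280)) (XT.nd (nat_lit 78) (nat_lit 76) (nat_lit 0) (XT.lf (nat_lit 0) (nat_lit 15079315113) (nat_lit 76) (nat_lit 5103491434) (nat_lit 152) (nat_lit 1919570005) (nat_lit 20) (nat_lit 5) (nat_lit 21) (nat_lit 5) (nat_lit 22) (nat_lit 4) (nat_lit 516) (nat_lit 345) (nat_lit 279)) (XT.lf (nat_lit 0) (nat_lit 1368300357) (nat_lit 152) (nat_lit 171958279) (nat_lit 76) (nat_lit 20923494709) (nat_lit 19) (nat_lit 5) (nat_lit 21)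 (nat_lit 5) (nat_lit 20) (nat_lit 5) (nat_lit 517) (nat_lit 345) (nat_lit 278)))) (XT.nd (nat_lit 78) (nat_lit 0) (nat_lit 0) (XT.lf (nat_lit 0) (nat_lit 4727260643) (nat_lit 228) (nat_lit 16000065280) (nat_lit 76) (nat_lit 2104166655) (nat_lit 17) (nat_lit 5) (nat_lit 20) (nat_lit 5) (nat_lit 18) (nat_lit 4) (nat_lit 518) (nat_lit 345) (nat_lit 277)) (XT.nd (nat_lit 78) (nat_lit 0) (nat_lit 0) (XT.lf (nat_lit 0) (nat_lit 8137579904) (nat_lit 228) (nat_lit 9287352314) (nat_lit 76) (nat_lit 5781979981) (nat_lit 17) (nat_lit 5) (nat_lit 20) (nat_lit 5) (nat_lit 18) (nat_lit 4) (nat_lit 519) (nat_lit 345) (nat_lit 276)) (XT.lf (nat_lit 0) (nat_lit 11589456345) (nat_lit 228) (nat_lit 2487240281) (nat_lit 76) (nat_lit 9513685591) (nat_lit 17) (nat_lit 5) (nat_lit 20) (nat_lit 5) (nat_lit 18) (nat_lit 4) (nat_lit 520) (nat_lit 345) (nat_lit 275))))) (XT.nd (nat_lit 234) (nat_lit 228) (nat_lit 0) (XT.nd (nat_lit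 78) (nat_lit 0) (nat_lit 0) (XT.lf (nat_lit 0) (nat_lit 4461450253) (nat_lit 76) (nat_lit 10651760081) (nat_lit 152) (nat_lit 8868263342) (nat_lit 16) (nat_lit 5) (nat_lit 17) (nat_lit 5) (nat_lit 18) (nat_lit 4) (nat_lit 521) (nat_lit 345) (nat_lit 274)) (XT.nd (nat_lit 78) (nat_lit 0) (nat_lit 0) (XT.lf (nat_lit 0) (nat_lit 11537195547) (nat_lit 76) (nat_lit 7161023875) (nat_lit 152) (nat_lit 5682360611) (nat_lit 16) (nat_lit 5) (nat_lit 17) (nat_lit 5) (nat_lit 18) (nat_lit 4) (nat_lit 522) (nat_lit 345) (nat_lit 273)) (XT.lf (nat_lit 0) (nat_lit 18709716288) (nat_lit 76) (nat_lit 3619809784) (nat_lit 152) (nat_lit 2458658998) (nat_lit 16) (nat_lit 5) (nat_lit 17) (nat_lit 5) (nat_lit 18) (nat_lit 4) (nat_lit 523) (nat_lit 345) (nat_lit 272)))) (XT.nd (nat_lit 156) (nat_lit 0) (nat_lit 0) (XT.nd (nat_lit 78) (nat_lit 0) (nat_lit 0) (XT.lf (nat_lit 0) (nat_lit 782417356) (nat_lit 152) (nat_lit 16222319)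 (nat_lit 228) (nat_lit 24405602937) (nat_lit 13) (nat_lit 5) (nat_lit 15) (nat_lit 5) (nat_lit 16) (nat_lit 5) (nat_lit 524) (nat_lit 345) (nat_lit 271)) (XT.lf (nat_lit 0) (nat_lit 4128018293) (nat_lit 228) (nat_lit 17849495821) (nat_lit 76) (nat_lit 3649993058) (nat_lit 13) (nat_lit 5) (nat_lit 16) (nat_lit 5) (nat_lit 14) (nat_lit 4) (nat_lit 525) (nat_lit 345) (nat_lit 270))) (XT.nd (nat_lit 78) (nat_lit 0) (nat_lit 0) (XT.lf (nat_lit 0) (nat_lit 7499587300) (nat_lit 228) (nat_lit 11189253345) (nat_lit 76) (nat_lit 7370892174) (nat_lit 13) (nat_lit 5) (nat_lit 16) (nat_lit 5) (nat_lit 14) (nat_lit 4) (nat_lit 526) (nat_lit 345) (nat_lit 269)) (XT.lf (nat_lit 0) (nat_lit 10914563555) (nat_lit 228) (nat_lit 4438380642) (nat_lit 76) (nat_lit 11148146963) (nat_lit 13) (nat_lit 5) (nat_lit 16) (nat_lit 5) (nat_lit 14) (nat_lit 4) (nat_lit 527) (nat_lit 345) (nat_lit 268)))))) (XT.nd (nat_lit 53430) (nat_lit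 0) (nat_lit 8132) (XT.nd (nat_lit 53118) (nat_lit 0) (nat_lit 9880) (XT.nd (nat_lit 78) (nat_lit 0) (nat_lit 0) (XT.lf (nat_lit 0) (nat_lit 2437741101) (nat_lit 76) (nat_lit 11952372594) (nat_lit 152) (nat_lit 12561325031) (nat_lit 12) (nat_lit 5) (nat_lit 13) (nat_lit 5) (nat_lit 14) (nat_lit 4) (nat_lit 528) (nat_lit 345) (nat_lit 267)) (XT.nd (nat_lit 78) (nat_lit 0) (nat_lit 0) (XT.lf (nat_lit 0) (nat_lit 9470083475) (nat_lit 76) (nat_lit 8471514767) (nat_lit 152) (nat_lit 9469073932) (nat_lit 12) (nat_lit 5) (nat_lit 13) (nat_lit 5) (nat_lit 14) (nat_lit 4) (nat_lit 529) (nat_lit 345) (nat_lit 266)) (XT.lf (nat_lit 0) (nat_lit 16602420518) (nat_lit 76) (nat_lit 4938789545) (nat_lit 152) (nat_lit 6338345530) (nat_lit 12) (nat_lit 5) (nat_lit 13) (nat_lit 5) (nat_lit 14) (nat_lit 4) (nat_lit 530) (nat_lit 345) (nat_lit 265)))) (XT.nd (nat_lit 156) (nat_lit 988) (nat_lit 0) (XT.nd (nat_lit 78) (nat_lit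 0) (nat_lit 0) (XT.lf (nat_lit 0) (nat_lit 107773563) (nat_lit 532) (nat_lit 4303049925) (nat_lit 0) (nat_lit 107773563) (nat_lit 155) (nat_lit 5) (nat_lit 162) (nat_lit 4) (nat_lit 155) (nat_lit 4) (nat_lit 448) (nat_lit 346) (nat_lit 346)) (XT.lf (nat_lit 0) (nat_lit 3826651579) (nat_lit 532) (nat_lit 2435953058) (nat_lit 0) (nat_lit 2859592741) (nat_lit 155) (nat_lit 5) (nat_lit 162) (nat_lit 4) (nat_lit 155) (nat_lit 4) (nat_lit 449) (nat_lit 346) (nat_lit 345))) (XT.nd (nat_lit 78) (nat_lit 532) (nat_lit 0) (XT.lf (nat_lit 0) (nat_lit 3825131192) (nat_lit 456) (nat_lit 3649837977) (nat_lit 456) (nat_lit 1734682239) (nat_lit 149) (nat_lit 4) (nat_lit 155) (nat_lit 5) (nat_lit 155) (nat_lit 4) (nat_lit 450) (nat_lit 346) (nat_lit 344)) (XT.lf (nat_lit 0) (nat_lit 861875433) (nat_lit 456) (nat_lit 973044336) (nat_lit 532) (nat_lit 7464488795) (nat_lit 142) (nat_lit 5) (nat_lit 148) (nat_lit 5) (nat_lit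 149) (nat_lit 4) (nat_lit 451) (nat_lit 346) (nat_lit 343))))) (XT.nd (nat_lit 234) (nat_lit 836) (nat_lit 0) (XT.nd (nat_lit 78) (nat_lit 912) (nat_lit 0) (XT.lf (nat_lit 0) (nat_lit 5441327951) (nat_lit 532) (nat_lit 2190648093) (nat_lit 0) (nat_lit 1759030261) (nat_lit 142) (nat_lit 5) (nat_lit 149) (nat_lit 4) (nat_lit 142) (nat_lit 4) (nat_lit 452) (nat_lit 346) (nat_lit 342)) (XT.nd (nat_lit 78) (nat_lit 456) (nat_lit 0) (XT.lf (nat_lit 0) (nat_lit 4147298941) (nat_lit 456) (nat_lit 4947934507) (nat_lit 456) (nat_lit 389741832) (nat_lit 136) (nat_lit 4) (nat_lit 142) (nat_lit 5) (nat_lit 142) (nat_lit 4) (nat_lit 453) (nat_lit 346) (nat_lit 341)) (XT.lf (nat_lit 0) (nat_lit 970658661) (nat_lit 380) (nat_lit 2191505650) (nat_lit 456) (nat_lit 6419017622) (nat_lit 130) (nat_lit 5) (nat_lit 135) (nat_lit 5) (nat_lit 136) (nat_lit 4) (nat_lit 454) (nat_lit 346) (nat_lit 340)))) (XT.nd (nat_lit 156)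 (nat_lit 380) (nat_lit 0) (XT.nd (nat_lit 78) (nat_lit 456) (nat_lit 0) (XT.lf (nat_lit 0) (nat_lit 6762604935) (nat_lit 456) (nat_lit 2290515665) (nat_lit 0) (nat_lit 626530266) (nat_lit 130) (nat_lit 5) (nat_lit 136) (nat_lit 4) (nat_lit 130) (nat_lit 4) (nat_lit 455) (nat_lit 346) (nat_lit 339)) (XT.lf (nat_lit 0) (nat_lit 631213130) (nat_lit 456) (nat_lit 5670215721) (nat_lit 76) (nat_lit 3478920785) (nat_lit 124) (nat_lit 5) (nat_lit 130) (nat_lit 5) (nat_lit 125) (nat_lit 4) (nat_lit 456) (nat_lit 346) (nat_lit 338))) (XT.nd (nat_lit 78) (nat_lit 0) (nat_lit 0) (XT.lf (nat_lit 0) (nat_lit 695568808) (nat_lit 380) (nat_lit 3479757986) (nat_lit 456) (nat_lit 5708112414) (nat_lit 119) (nat_lit 5) (nat_lit 124) (nat_lit 5) (nat_lit 125) (nat_lit 4) (nat_lit 457) (nat_lit 346) (nat_lit 337)) (XT.lf (nat_lit 0) (nat_lit 7184840875) (nat_lit 380) (nat_lit 588031338) (nat_lit 456) (nat_lit 2216107992) (nat_lit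 119) (nat_lit 5) (nat_lit 124) (nat_lit 5) (nat_lit 125) (nat_lit 4) (nat_lit 458) (nat_lit 346) (nat_lit 336))))))) (XT.nd (nat_lit 1092) (nat_lit 1976) (nat_lit 0) (XT.nd (nat_lit 546) (nat_lit 1292) (nat_lit 0) (XT.nd (nat_lit 234) (nat_lit 1140) (nat_lit 0) (XT.nd (nat_lit 78) (nat_lit 304) (nat_lit 0) (XT.lf (nat_lit 0) (nat_lit 1312467242) (nat_lit 456) (nat_lit 6445757631) (nat_lit 76) (nat_lit 2338583841) (nat_lit 113) (nat_lit 5) (nat_lit 119) (nat_lit 5) (nat_lit 114) (nat_lit 4) (nat_lit 459) (nat_lit 346) (nat_lit 335)) (XT.nd (nat_lit 78) (nat_lit 304) (nat_lit 0) (XT.lf (nat_lit 0) (nat_lit 4850388710) (nat_lit 456) (nat_lit 32066007) (nat_lit 76) (nat_lit 5324715419) (nat_lit 113) (nat_lit 5) (nat_lit 119) (nat_lit 5) (nat_lit 114) (nat_lit 4) (nat_lit 460) (nat_lit 346) (nat_lit 334)) (XT.lf (nat_lit 0) (nat_lit 6516631303) (nat_lit 304) (nat_lit 1931399126) (nat_lit 380) (nat_lit 1871966650)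 (nat_lit 109) (nat_lit 5) (nat_lit 113) (nat_lit 5) (nat_lit 114) (nat_lit 4) (nat_lit 461) (nat_lit 346) (nat_lit 333)))) (XT.nd (nat_lit 156) (nat_lit 684) (nat_lit 0) (XT.nd (nat_lit 78) (nat_lit 0) (nat_lit 0) (XT.lf (nat_lit 0) (nat_lit 1632101719) (nat_lit 456) (nat_lit 7735350728) (nat_lit 76) (nat_lit 1068013217) (nat_lit 103) (nat_lit 5) (nat_lit 109) (nat_lit 5) (nat_lit 104) (nat_lit 4) (nat_lit 462) (nat_lit 346) (nat_lit 332)) (XT.lf (nat_lit 0) (nat_lit 5166861689) (nat_lit 456) (nat_lit 1272230900) (nat_lit 76) (nat_lit 4114225407) (nat_lit 103) (nat_lit 5) (nat_lit 109) (nat_lit 5) (nat_lit 104) (nat_lit 4) (nat_lit 463) (nat_lit 346) (nat_lit 331))) (XT.nd (nat_lit 78) (nat_lit 380) (nat_lit 0) (XT.lf (nat_lit 0) (nat_lit 5312013710) (nat_lit 304) (nat_lit 3442998248) (nat_lit 380) (nat_lit 1918896186) (nat_lit 99) (nat_lit 5) (nat_lit 103) (nat_lit 5) (nat_lit 104) (nat_lit 4) (nat_lit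 464) (nat_lit 346) (nat_lit 330)) (XT.lf (nat_lit 0) (nat_lit 1175288116) (nat_lit 304) (nat_lit 386077649) (nat_lit 380) (nat_lit 9236076126) (nat_lit 94) (nat_lit 5) (nat_lit 98) (nat_lit 5) (nat_lit 99) (nat_lit 5) (nat_lit 465) (nat_lit 346) (nat_lit 329))))) (XT.nd (nat_lit 234) (nat_lit 912) (nat_lit 0) (XT.nd (nat_lit 78) (nat_lit 380) (nat_lit 0) (XT.lf (nat_lit 0) (nat_lit 5088205275) (nat_lit 380) (nat_lit 3115899223) (nat_lit 76) (nat_lit 2719067482) (nat_lit 94) (nat_lit 5) (nat_lit 99) (nat_lit 5) (nat_lit 95) (nat_lit 4) (nat_lit 466) (nat_lit 346) (nat_lit 328)) (XT.nd (nat_lit 78) (nat_lit 76) (nat_lit 0) (XT.lf (nat_lit 0) (nat_lit 3486805957) (nat_lit 304) (nat_lit 5173662320) (nat_lit 380) (nat_lit 2391482690) (nat_lit 90) (nat_lit 5) (nat_lit 94) (nat_lit 5) (nat_lit 95) (nat_lit 4) (nat_lit 467) (nat_lit 346) (nat_lit 327)) (XT.lf (nat_lit 0) (nat_lit 1077039487) (nat_lit 380) (nat_lit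 1003540989) (nat_lit 76) (nat_lit 9103192919) (nat_lit 89) (nat_lit 5) (nat_lit 94) (nat_lit 5) (nat_lit 90) (nat_lit 5) (nat_lit 468) (nat_lit 346) (nat_lit 326)))) (XT.nd (nat_lit 156) (nat_lit 380) (nat_lit 0) (XT.nd (nat_lit 78) (nat_lit 228) (nat_lit 0) (XT.lf (nat_lit 0) (nat_lit 4577726856) (nat_lit 380) (nat_lit 5653024534) (nat_lit 76) (nat_lit 1087298577) (nat_lit 85) (nat_lit 5) (nat_lit 90) (nat_lit 5) (nat_lit 86) (nat_lit 4) (nat_lit 469) (nat_lit 346) (nat_lit 325)) (XT.lf (nat_lit 0) (nat_lit 948439330) (nat_lit 228) (nat_lit 7177815709) (nat_lit 304) (nat_lit 3329230080) (nat_lit 82) (nat_lit 5) (nat_lit 85) (nat_lit 5) (nat_lit 86) (nat_lit 4) (nat_lit 470) (nat_lit 346) (nat_lit 324))) (XT.nd (nat_lit 78) (nat_lit 304) (nat_lit 0) (XT.lf (nat_lit 0) (nat_lit 137534002) (nat_lit 304) (nat_lit 3913618089) (nat_lit 76) (nat_lit 7544737487) (nat_lit 81) (nat_lit 5) (nat_lit 85) (nat_lit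 5) (nat_lit 82) (nat_lit 5) (nat_lit 471) (nat_lit 346) (nat_lit 323)) (XT.lf (nat_lit 0) (nat_lit 2751160442) (nat_lit 304) (nat_lit 847986392) (nat_lit 380) (nat_lit 8140141214) (nat_lit 77) (nat_lit 5) (nat_lit 81) (nat_lit 5) (nat_lit 82) (nat_lit 5) (nat_lit 472) (nat_lit 346) (nat_lit 322)))))) (XT.nd (nat_lit 546) (nat_lit 836) (nat_lit 0) (XT.nd (nat_lit 234) (nat_lit 836) (nat_lit 0) (XT.nd (nat_lit 78) (nat_lit 304) (nat_lit 0) (XT.lf (nat_lit 0) (nat_lit 7124606690) (nat_lit 380) (nat_lit 2373488214) (nat_lit 76) (nat_lit 2387594628) (nat_lit 77) (nat_lit 5) (nat_lit 82) (nat_lit 5) (nat_lit 78) (nat_lit 4) (nat_lit 473) (nat_lit 346) (nat_lit 321)) (XT.nd (nat_lit 78) (nat_lit 76) (nat_lit 0) (XT.lf (nat_lit 0) (nat_lit 4351504424) (nat_lit 228) (nat_lit 6356342991) (nat_lit 304) (nat_lit 1327452999) (nat_lit 74) (nat_lit 5) (nat_lit 77) (nat_lit 5) (nat_lit 78) (nat_lit 4) (nat_lit 474) (nat_lit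 346) (nat_lit 320)) (XT.lf (nat_lit 0) (nat_lit 2115870421) (nat_lit 304) (nat_lit 1032196045) (nat_lit 76) (nat_lit 9040189507) (nat_lit 73) (nat_lit 5) (nat_lit 77) (nat_lit 5) (nat_lit 74) (nat_lit 5) (nat_lit 475) (nat_lit 346) (nat_lit 319)))) (XT.nd (nat_lit 156) (nat_lit 304) (nat_lit 0) (XT.nd (nat_lit 78) (nat_lit 228) (nat_lit 0) (XT.lf (nat_lit 0) (nat_lit 5602978822) (nat_lit 380) (nat_lit 6598322377) (nat_lit 76) (nat_lit 142965348) (nat_lit 69) (nat_lit 5) (nat_lit 74) (nat_lit 5) (nat_lit 70) (nat_lit 4) (nat_lit 476) (nat_lit 346) (nat_lit 318)) (XT.lf (nat_lit 0) (nat_lit 78116338) (nat_lit 228) (nat_lit 9064720575) (nat_lit 304) (nat_lit 3360925030) (nat_lit 66) (nat_lit 5) (nat_lit 69) (nat_lit 5) (nat_lit 70) (nat_lit 4) (nat_lit 477) (nat_lit 346) (nat_lit 317))) (XT.nd (nat_lit 78) (nat_lit 228) (nat_lit 0) (XT.lf (nat_lit 0) (nat_lit 85254920) (nat_lit 304) (nat_lit 5761436970)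 (nat_lit 76) (nat_lit 6819780822) (nat_lit 65) (nat_lit 5) (nat_lit 69) (nat_lit 5) (nat_lit 66) (nat_lit 5) (nat_lit 478) (nat_lit 346) (nat_lit 316)) (XT.lf (nat_lit 0) (nat_lit 955205427) (nat_lit 228) (nat_lit 2562060974) (nat_lit 304) (nat_lit 9315512098) (nat_lit 62) (nat_lit 5) (nat_lit 65) (nat_lit 5) (nat_lit 66) (nat_lit 5) (nat_lit 479) (nat_lit 346) (nat_lit 315))))) (XT.nd (nat_lit 234) (nat_lit 532) (nat_lit 0) (XT.nd (nat_lit 78) (nat_lit 304) (nat_lit 0) (XT.lf (nat_lit 0) (nat_lit 7017858187) (nat_lit 304) (nat_lit 5194112857) (nat_lit 76) (nat_lit 790463434) (nat_lit 62) (nat_lit 5) (nat_lit 66) (nat_lit 5) (nat_lit 63) (nat_lit 4) (nat_lit 480) (nat_lit 346) (nat_lit 314)) (XT.nd (nat_lit 78) (nat_lit 76) (nat_lit 0) (XT.lf (nat_lit 0) (nat_lit 1556482226) (nat_lit 228) (nat_lit 9015821051) (nat_lit 304) (nat_lit 2603525896) (nat_lit 59) (nat_lit 5) (nat_lit 62) (nat_lit 5) (nat_lit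 63) (nat_lit 4) (nat_lit 481) (nat_lit 346) (nat_lit 313)) (XT.lf (nat_lit 0) (nat_lit 826006726) (nat_lit 304) (nat_lit 4915331017) (nat_lit 76) (nat_lit 7611426921) (nat_lit 58) (nat_lit 5) (nat_lit 62) (nat_lit 5) (nat_lit 59) (nat_lit 5) (nat_lit 482) (nat_lit 346) (nat_lit 312)))) (XT.nd (nat_lit 156) (nat_lit 304) (nat_lit 0) (XT.nd (nat_lit 78) (nat_lit 0) (nat_lit 0) (XT.lf (nat_lit 0) (nat_lit 1861192961) (nat_lit 228) (nat_lit 2397897803) (nat_lit 304) (nat_lit 9274428608) (nat_lit 55) (nat_lit 5) (nat_lit 58) (nat_lit 5) (nat_lit 59) (nat_lit 5) (nat_lit 483) (nat_lit 346) (nat_lit 311)) (XT.lf (nat_lit 0) (nat_lit 7758532577) (nat_lit 304) (nat_lit 4953120786) (nat_lit 76) (nat_lit 1006302607) (nat_lit 55) (nat_lit 5) (nat_lit 59) (nat_lit 5) (nat_lit 56) (nat_lit 4) (nat_lit 484) (nat_lit 346) (nat_lit 310))) (XT.nd (nat_lit 78) (nat_lit 76) (nat_lit 0) (XT.lf (nat_lit 0) (nat_lit 1841112171)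 (nat_lit 228) (nat_lit 9473429948) (nat_lit 304) (nat_lit 2591827918) (nat_lit 52) (nat_lit 5) (nat_lit 55) (nat_lit 5) (nat_lit 56) (nat_lit 4) (nat_lit 485) (nat_lit 346) (nat_lit 309)) (XT.lf (nat_lit 0) (nat_lit 824347381) (nat_lit 304) (nat_lit 5332956165) (nat_lit 76) (nat_lit 7941313168) (nat_lit 51) (nat_lit 5) (nat_lit 55) (nat_lit 5) (nat_lit 52) (nat_lit 5) (nat_lit 486) (nat_lit 346) (nat_lit 308))))))))
noncomputable def xc32 : XT := (XT.nd (nat_lit 2106) (nat_lit 684) (nat_lit 0) (XT.nd (nat_lit 1014) (nat_lit 988) (nat_lit 0) (XT.nd (nat_lit 468) (nat_lit 608) (nat_lit 0) (XT.nd (nat_lit 234) (nat_lit 304) (nat_lit 0) (XT.nd (nat_lit 78) (nat_lit 152) (nat_lit 0) (XT.lf (nat_lit 0) (nat_lit 1469685696) (nat_lit 228) (nat_lit 2773665247) (nat_lit 304) (nat_lit 10051649697) (nat_lit 48) (nat_lit 5) (nat_lit 51) (nat_lit 5) (nat_lit 52) (nat_lit 5) (nat_lit 487) (nat_lit 346) (nat_lit 307))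 (XT.nd (nat_lit 78) (nat_lit 152) (nat_lit 0) (XT.lf (nat_lit 0) (nat_lit 7730987391) (nat_lit 304) (nat_lit 6085193050) (nat_lit 76) (nat_lit 679145513) (nat_lit 48) (nat_lit 5) (nat_lit 52) (nat_lit 5) (nat_lit 49) (nat_lit 4) (nat_lit 488) (nat_lit 346) (nat_lit 306)) (XT.lf (nat_lit 0) (nat_lit 715422158) (nat_lit 152) (nat_lit 10556584857) (nat_lit 228) (nat_lit 3427996548) (nat_lit 46) (nat_lit 5) (nat_lit 48) (nat_lit 5) (nat_lit 49) (nat_lit 4) (nat_lit 489) (nat_lit 346) (nat_lit 305)))) (XT.nd (nat_lit 78) (nat_lit 304) (nat_lit 0) (XT.lf (nat_lit 0) (nat_lit 7669642454) (nat_lit 152) (nat_lit 7216007123) (nat_lit 228) (nat_lit 23107133) (nat_lit 46) (nat_lit 5) (nat_lit 48) (nat_lit 5) (nat_lit 49) (nat_lit 4) (nat_lit 490) (nat_lit 346) (nat_lit 304)) (XT.nd (nat_lit 78) (nat_lit 228) (nat_lit 0) (XT.lf (nat_lit 0) (nat_lit 3366096432) (nat_lit 228) (nat_lit 445287346) (nat_lit 76) (nat_lit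 11310641258) (nat_lit 45) (nat_lit 5) (nat_lit 48) (nat_lit 5) (nat_lit 46) (nat_lit 5) (nat_lit 491) (nat_lit 346) (nat_lit 303)) (XT.lf (nat_lit 0) (nat_lit 6506706891) (nat_lit 228) (nat_lit 320531725) (nat_lit 304) (nat_lit 8512244776) (nat_lit 42) (nat_lit 5) (nat_lit 45) (nat_lit 5) (nat_lit 46) (nat_lit 5) (nat_lit 492) (nat_lit 346) (nat_lit 302))))) (XT.nd (nat_lit 234) (nat_lit 380) (nat_lit 0) (XT.nd (nat_lit 78) (nat_lit 228) (nat_lit 0) (XT.lf (nat_lit 0) (nat_lit 10344039118) (nat_lit 304) (nat_lit 2041593187) (nat_lit 76) (nat_lit 3175946562) (nat_lit 42) (nat_lit 5) (nat_lit 46) (nat_lit 5) (nat_lit 43) (nat_lit 4) (nat_lit 493) (nat_lit 346) (nat_lit 301)) (XT.nd (nat_lit 78) (nat_lit 76) (nat_lit 0) (XT.lf (nat_lit 0) (nat_lit 4885520322) (nat_lit 152) (nat_lit 9042625967) (nat_lit 228) (nat_lit 1860046887) (nat_lit 40) (nat_lit 5) (nat_lit 42) (nat_lit 5) (nat_lit 43) (nat_lit 4) (nat_lit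 494) (nat_lit 346) (nat_lit 300)) (XT.lf (nat_lit 0) (nat_lit 1521060902) (nat_lit 228) (nat_lit 4112407635) (nat_lit 76) (nat_lit 10386144069) (nat_lit 39) (nat_lit 5) (nat_lit 42) (nat_lit 5) (nat_lit 40) (nat_lit 5) (nat_lit 495) (nat_lit 346) (nat_lit 299)))) (XT.nd (nat_lit 156) (nat_lit 152) (nat_lit 0) (XT.nd (nat_lit 78) (nat_lit 0) (nat_lit 0) (XT.lf (nat_lit 0) (nat_lit 2777037438) (nat_lit 228) (nat_lit 2149816849) (nat_lit 304) (nat_lit 11328936244) (nat_lit 36) (nat_lit 5) (nat_lit 39) (nat_lit 5) (nat_lit 40) (nat_lit 5) (nat_lit 496) (nat_lit 346) (nat_lit 298)) (XT.lf (nat_lit 0) (nat_lit 8401727409) (nat_lit 304) (nat_lit 6706319238) (nat_lit 76) (nat_lit 1388641182) (nat_lit 36) (nat_lit 5) (nat_lit 40) (nat_lit 5) (nat_lit 37) (nat_lit 4) (nat_lit 497) (nat_lit 346) (nat_lit 297))) (XT.nd (nat_lit 78) (nat_lit 0) (nat_lit 0) (XT.lf (nat_lit 0) (nat_lit 129316149) (nat_lit 152) (nat_lit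 11796635302) (nat_lit 228) (nat_lit 4816869350) (nat_lit 34) (nat_lit 5) (nat_lit 36) (nat_lit 5) (nat_lit 37) (nat_lit 4) (nat_lit 498) (nat_lit 346) (nat_lit 296)) (XT.lf (nat_lit 0) (nat_lit 7133257018) (nat_lit 152) (nat_lit 8397488097) (nat_lit 228) (nat_lit 1462944121) (nat_lit 34) (nat_lit 5) (nat_lit 36) (nat_lit 5) (nat_lit 37) (nat_lit 4) (nat_lit 499) (nat_lit 346) (nat_lit 295)))))) (XT.nd (nat_lit 546) (nat_lit 380) (nat_lit 0) (XT.nd (nat_lit 234) (nat_lit 380) (nat_lit 0) (XT.nd (nat_lit 78) (nat_lit 152) (nat_lit 0) (XT.lf (nat_lit 0) (nat_lit 1897905433) (nat_lit 228) (nat_lit 3043633586) (nat_lit 76) (nat_lit 12308485180) (nat_lit 33) (nat_lit 5) (nat_lit 36) (nat_lit 5) (nat_lit 34) (nat_lit 5) (nat_lit 500) (nat_lit 346) (nat_lit 294)) (XT.nd (nat_lit 78) (nat_lit 0) (nat_lit 0) (XT.lf (nat_lit 0) (nat_lit 3893402547) (nat_lit 152) (nat_lit 1404479557) (nat_lit 228) (nat_lit 12213594048)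 (nat_lit 31) (nat_lit 5) (nat_lit 33) (nat_lit 5) (nat_lit 34) (nat_lit 5) (nat_lit 501) (nat_lit 346) (nat_lit 293)) (XT.lf (nat_lit 0) (nat_lit 8767064314) (nat_lit 228) (nat_lit 6839377711) (nat_lit 76) (nat_lit 2171704401) (nat_lit 31) (nat_lit 5) (nat_lit 34) (nat_lit 5) (nat_lit 32) (nat_lit 4) (nat_lit 502) (nat_lit 346) (nat_lit 292)))) (XT.nd (nat_lit 156) (nat_lit 228) (nat_lit 0) (XT.nd (nat_lit 78) (nat_lit 0) (nat_lit 0) (XT.lf (nat_lit 0) (nat_lit 9216663) (nat_lit 152) (nat_lit 12272775454) (nat_lit 228) (nat_lit 5768643888) (nat_lit 29) (nat_lit 5) (nat_lit 31) (nat_lit 5) (nat_lit 32) (nat_lit 4) (nat_lit 503) (nat_lit 346) (nat_lit 291)) (XT.lf (nat_lit 0) (nat_lit 7031369042) (nat_lit 152) (nat_lit 8849028828) (nat_lit 228) (nat_lit 2447926799) (nat_lit 29) (nat_lit 5) (nat_lit 31) (nat_lit 5) (nat_lit 32) (nat_lit 4) (nat_lit 504) (nat_lit 346) (nat_lit 290))) (XT.nd (nat_lit 78) (nat_lit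 152) (nat_lit 0) (XT.lf (nat_lit 0) (nat_lit 894586981) (nat_lit 228) (nat_lit 4479165195) (nat_lit 76) (nat_lit 13238351349) (nat_lit 28) (nat_lit 5) (nat_lit 31) (nat_lit 5) (nat_lit 29) (nat_lit 5) (nat_lit 505) (nat_lit 346) (nat_lit 289)) (XT.lf (nat_lit 0) (nat_lit 2436345645) (nat_lit 152) (nat_lit 1819010183) (nat_lit 228) (nat_lit 14646207003) (nat_lit 26) (nat_lit 5) (nat_lit 28) (nat_lit 5) (nat_lit 29) (nat_lit 5) (nat_lit 506) (nat_lit 346) (nat_lit 288))))) (XT.nd (nat_lit 234) (nat_lit 228) (nat_lit 0) (XT.nd (nat_lit 78) (nat_lit 152) (nat_lit 0) (XT.lf (nat_lit 0) (nat_lit 7693784599) (nat_lit 228) (nat_lit 9711769653) (nat_lit 76) (nat_lit 1791060079) (nat_lit 26) (nat_lit 5) (nat_lit 29) (nat_lit 5) (nat_lit 27) (nat_lit 4) (nat_lit 507) (nat_lit 346) (nat_lit 287)) (XT.nd (nat_lit 78) (nat_lit 152) (nat_lit 0) (XT.lf (nat_lit 0) (nat_lit 11182103680) (nat_lit 228) (nat_lit 2888743001)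 (nat_lit 76) (nat_lit 5427109413) (nat_lit 26) (nat_lit 5) (nat_lit 29) (nat_lit 5) (nat_lit 27) (nat_lit 4) (nat_lit 508) (nat_lit 346) (nat_lit 286)) (XT.lf (nat_lit 0) (nat_lit 4071750426) (nat_lit 152) (nat_lit 10664556898) (nat_lit 228) (nat_lit 5069106443) (nat_lit 24) (nat_lit 5) (nat_lit 26) (nat_lit 5) (nat_lit 27) (nat_lit 4) (nat_lit 509) (nat_lit 346) (nat_lit 285)))) (XT.nd (nat_lit 156) (nat_lit 152) (nat_lit 0) (XT.nd (nat_lit 78) (nat_lit 76) (nat_lit 0) (XT.lf (nat_lit 0) (nat_lit 11158560606) (nat_lit 152) (nat_lit 7192357627) (nat_lit 228) (nat_lit 1768327111) (nat_lit 24) (nat_lit 5) (nat_lit 26) (nat_lit 5) (nat_lit 27) (nat_lit 4) (nat_lit 510) (nat_lit 346) (nat_lit 284)) (XT.lf (nat_lit 0) (nat_lit 1547825235) (nat_lit 228) (nat_lit 2114060251) (nat_lit 76) (nat_lit 16777864846) (nat_lit 23) (nat_lit 5) (nat_lit 26) (nat_lit 5) (nat_lit 24) (nat_lit 5) (nat_lit 511) (nat_lit 346)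 (nat_lit 283))) (XT.nd (nat_lit 78) (nat_lit 0) (nat_lit 0) (XT.lf (nat_lit 0) (nat_lit 4871246385) (nat_lit 152) (nat_lit 37929390) (nat_lit 228) (nat_lit 15857215378) (nat_lit 21) (nat_lit 5) (nat_lit 23) (nat_lit 5) (nat_lit 24) (nat_lit 5) (nat_lit 512) (nat_lit 346) (nat_lit 282)) (XT.lf (nat_lit 0) (nat_lit 8346798070) (nat_lit 228) (nat_lit 9148757196) (nat_lit 76) (nat_lit 3603838990) (nat_lit 21) (nat_lit 5) (nat_lit 24) (nat_lit 5) (nat_lit 22) (nat_lit 4) (nat_lit 513) (nat_lit 346) (nat_lit 281))))))) (XT.nd (nat_lit 1014) (nat_lit 76) (nat_lit 0) (XT.nd (nat_lit 468) (nat_lit 304) (nat_lit 0) (XT.nd (nat_lit 234) (nat_lit 228) (nat_lit 0) (XT.nd (nat_lit 78) (nat_lit 76) (nat_lit 0) (XT.lf (nat_lit 0) (nat_lit 11825003301) (nat_lit 228) (nat_lit 2317246527) (nat_lit 76) (nat_lit 7297381139) (nat_lit 21) (nat_lit 5) (nat_lit 24) (nat_lit 5) (nat_lit 22) (nat_lit 4) (nat_lit 514) (nat_lit 346)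 (nat_lit 280)) (XT.nd (nat_lit 78) (nat_lit 0) (nat_lit 0) (XT.lf (nat_lit 0) (nat_lit 4663474835) (nat_lit 76) (nat_lit 10711712744) (nat_lit 152) (nat_lit 6411446493) (nat_lit 20) (nat_lit 5) (nat_lit 21) (nat_lit 5) (nat_lit 22) (nat_lit 4) (nat_lit 515) (nat_lit 346) (nat_lit 279)) (XT.lf (nat_lit 0) (nat_lit 11766959300) (nat_lit 76) (nat_lit 7217335751) (nat_lit 152) (nat_lit 3156533562) (nat_lit 20) (nat_lit 5) (nat_lit 21) (nat_lit 5) (nat_lit 22) (nat_lit 4) (nat_lit 516) (nat_lit 346) (nat_lit 278)))) (XT.nd (nat_lit 78) (nat_lit 152) (nat_lit 0) (XT.lf (nat_lit 0) (nat_lit 134056085) (nat_lit 152) (nat_lit 3538342776) (nat_lit 76) (nat_lit 18830241886) (nat_lit 19) (nat_lit 5) (nat_lit 21) (nat_lit 5) (nat_lit 20) (nat_lit 5) (nat_lit 517) (nat_lit 346) (nat_lit 277)) (XT.nd (nat_lit 78) (nat_lit 0) (nat_lit 0) (XT.lf (nat_lit 0) (nat_lit 3410972891) (nat_lit 152) (nat_lit 32661806) (nat_lit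 228) (nat_lit 19427737471) (nat_lit 17) (nat_lit 5) (nat_lit 19) (nat_lit 5) (nat_lit 20) (nat_lit 5) (nat_lit 518) (nat_lit 346) (nat_lit 276)) (XT.lf (nat_lit 0) (nat_lit 6840549220) (nat_lit 228) (nat_lit 12770669890) (nat_lit 76) (nat_lit 3635845239) (nat_lit 17) (nat_lit 5) (nat_lit 20) (nat_lit 5) (nat_lit 18) (nat_lit 4) (nat_lit 519) (nat_lit 346) (nat_lit 275))))) (XT.nd (nat_lit 234) (nat_lit 228) (nat_lit 0) (XT.nd (nat_lit 78) (nat_lit 76) (nat_lit 0) (XT.lf (nat_lit 0) (nat_lit 10279491664) (nat_lit 228) (nat_lit 5993298679) (nat_lit 76) (nat_lit 7358007081) (nat_lit 17) (nat_lit 5) (nat_lit 20) (nat_lit 5) (nat_lit 18) (nat_lit 4) (nat_lit 520) (nat_lit 346) (nat_lit 274)) (XT.nd (nat_lit 78) (nat_lit 0) (nat_lit 0) (XT.lf (nat_lit 0) (nat_lit 886206972) (nat_lit 76) (nat_lit 12881145442) (nat_lit 152) (nat_lit 10255258626) (nat_lit 16) (nat_lit 5) (nat_lit 17) (nat_lit 5) (nat_lit 18) (nat_lit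 4) (nat_lit 521) (nat_lit 346) (nat_lit 273)) (XT.lf (nat_lit 0) (nat_lit 7939804019) (nat_lit 76) (nat_lit 9399981928) (nat_lit 152) (nat_lit 7082187168) (nat_lit 16) (nat_lit 5) (nat_lit 17) (nat_lit 5) (nat_lit 18) (nat_lit 4) (nat_lit 522) (nat_lit 346) (nat_lit 272)))) (XT.nd (nat_lit 156) (nat_lit 228) (nat_lit 0) (XT.nd (nat_lit 78) (nat_lit 0) (nat_lit 0) (XT.lf (nat_lit 0) (nat_lit 15090610792) (nat_lit 76) (nat_lit 5868152829) (nat_lit 152) (nat_lit 3871065234) (nat_lit 16) (nat_lit 5) (nat_lit 17) (nat_lit 5) (nat_lit 18) (nat_lit 4) (nat_lit 523) (nat_lit 346) (nat_lit 271)) (XT.lf (nat_lit 0) (nat_lit 22341431529) (nat_lit 76) (nat_lit 2284273112) (nat_lit 152) (nat_lit 620633561) (nat_lit 16) (nat_lit 5) (nat_lit 17) (nat_lit 5) (nat_lit 18) (nat_lit 4) (nat_lit 524) (nat_lit 346) (nat_lit 270))) (XT.nd (nat_lit 78) (nat_lit 0) (nat_lit 0) (XT.lf (nat_lit 0) (nat_lit 2670790296) (nat_lit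 228) (nat_lit 21620518605) (nat_lit 76) (nat_lit 1379300230) (nat_lit 13) (nat_lit 5) (nat_lit 16) (nat_lit 5) (nat_lit 14) (nat_lit 4) (nat_lit 525) (nat_lit 346) (nat_lit 269)) (XT.lf (nat_lit 0) (nat_lit 6030466168) (nat_lit 228) (nat_lit 14981352675) (nat_lit 76) (nat_lit 5091257608) (nat_lit 13) (nat_lit 5) (nat_lit 16) (nat_lit 5) (nat_lit 14) (nat_lit 4) (nat_lit 526) (nat_lit 346) (nat_lit 268)))))) (XT.nd (nat_lit 53274) (nat_lit 0) (nat_lit 8968) (XT.nd (nat_lit 234) (nat_lit 0) (nat_lit 0) (XT.nd (nat_lit 78) (nat_lit 76) (nat_lit 0) (XT.lf (nat_lit 0) (nat_lit 9433782486) (nat_lit 228) (nat_lit 8251143252) (nat_lit 76) (nat_lit 8859745987) (nat_lit 13) (nat_lit 5) (nat_lit 16) (nat_lit 5) (nat_lit 14) (nat_lit 4) (nat_lit 527) (nat_lit 346) (nat_lit 267)) (XT.nd (nat_lit 78) (nat_lit 76) (nat_lit 0) (XT.lf (nat_lit 0) (nat_lit 12882073885) (nat_lit 228) (nat_lit 1427251039) (nat_lit 76) (nat_lit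 12686243206) (nat_lit 13) (nat_lit 5) (nat_lit 16) (nat_lit 5) (nat_lit 14) (nat_lit 4) (nat_lit 528) (nat_lit 346) (nat_lit 266)) (XT.lf (nat_lit 0) (nat_lit 5565999078) (nat_lit 76) (nat_lit 10846831714) (nat_lit 152) (nat_lit 11042388929) (nat_lit 12) (nat_lit 5) (nat_lit 13) (nat_lit 5) (nat_lit 14) (nat_lit 4) (nat_lit 529) (nat_lit 346) (nat_lit 265)))) (XT.nd (nat_lit 52884) (nat_lit 0) (nat_lit 10868) (XT.nd (nat_lit 52806) (nat_lit 0) (nat_lit 11932) (XT.lf (nat_lit 0) (nat_lit 12678605885) (nat_lit 76) (nat_lit 7322721208) (nat_lit 152) (nat_lit 7923001879) (nat_lit 12) (nat_lit 5) (nat_lit 13) (nat_lit 5) (nat_lit 14) (nat_lit 4) (nat_lit 530) (nat_lit 346) (nat_lit 264)) (XT.lf (nat_lit 0) (nat_lit 1486317498) (nat_lit 532) (nat_lit 1463247592) (nat_lit 0) (nat_lit 1486317498) (nat_lit 169) (nat_lit 5) (nat_lit 176) (nat_lit 4) (nat_lit 169) (nat_lit 4) (nat_lit 446) (nat_lit 347) (nat_lit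 347))) (XT.nd (nat_lit 78) (nat_lit 532) (nat_lit 0) (XT.lf (nat_lit 0) (nat_lit 3208851594) (nat_lit 532) (nat_lit 3375437254) (nat_lit 532) (nat_lit 2369309239) (nat_lit 162) (nat_lit 4) (nat_lit 169) (nat_lit 5) (nat_lit 169) (nat_lit 4) (nat_lit 447) (nat_lit 347) (nat_lit 346)) (XT.lf (nat_lit 0) (nat_lit 384752855) (nat_lit 456) (nat_lit 792118869) (nat_lit 532) (nat_lit 7860849393) (nat_lit 155) (nat_lit 5) (nat_lit 161) (nat_lit 5) (nat_lit 162) (nat_lit 4) (nat_lit 448) (nat_lit 347) (nat_lit 345))))) (XT.nd (nat_lit 234) (nat_lit 912) (nat_lit 0) (XT.nd (nat_lit 78) (nat_lit 988) (nat_lit 0) (XT.lf (nat_lit 0) (nat_lit 4753207354) (nat_lit 532) (nat_lit 2518585817) (nat_lit 0) (nat_lit 1851651602) (nat_lit 155) (nat_lit 5) (nat_lit 162) (nat_lit 4) (nat_lit 155) (nat_lit 4) (nat_lit 449) (nat_lit 347) (nat_lit 344)) (XT.nd (nat_lit 78) (nat_lit 532) (nat_lit 0) (XT.lf (nat_lit 0) (nat_lit 3700762108)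 (nat_lit 456) (nat_lit 4670910388) (nat_lit 456) (nat_lit 839847870) (nat_lit 149) (nat_lit 4) (nat_lit 155) (nat_lit 5) (nat_lit 155) (nat_lit 4) (nat_lit 450) (nat_lit 347) (nat_lit 343)) (XT.lf (nat_lit 0) (nat_lit 687288169) (nat_lit 456) (nat_lit 2000648379) (nat_lit 532) (nat_lit 6613849973) (nat_lit 142) (nat_lit 5) (nat_lit 148) (nat_lit 5) (nat_lit 149) (nat_lit 4) (nat_lit 451) (nat_lit 347) (nat_lit 342)))) (XT.nd (nat_lit 156) (nat_lit 380) (nat_lit 0) (XT.nd (nat_lit 78) (nat_lit 532) (nat_lit 0) (XT.lf (nat_lit 0) (nat_lit 6258959047) (nat_lit 532) (nat_lit 2401448493) (nat_lit 0) (nat_lit 733707535) (nat_lit 142) (nat_lit 5) (nat_lit 149) (nat_lit 4) (nat_lit 142) (nat_lit 4) (nat_lit 452) (nat_lit 347) (nat_lit 341)) (XT.lf (nat_lit 0) (nat_lit 389190834) (nat_lit 532) (nat_lit 5597806601) (nat_lit 76) (nat_lit 3501654032) (nat_lit 135) (nat_lit 5) (nat_lit 142) (nat_lit 5) (nat_lit 136)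 (nat_lit 4) (nat_lit 453) (nat_lit 347) (nat_lit 340))) (XT.nd (nat_lit 78) (nat_lit 0) (nat_lit 0) (XT.lf (nat_lit 0) (nat_lit 664131548) (nat_lit 380) (nat_lit 3241802386) (nat_lit 456) (nat_lit 5679496374) (nat_lit 130) (nat_lit 5) (nat_lit 135) (nat_lit 5) (nat_lit 136) (nat_lit 4) (nat_lit 454) (nat_lit 347) (nat_lit 339)) (XT.lf (nat_lit 0) (nat_lit 7047228353) (nat_lit 380) (nat_lit 427256181) (nat_lit 456) (nat_lit 2210073850) (nat_lit 130) (nat_lit 5) (nat_lit 135) (nat_lit 5) (nat_lit 136) (nat_lit 4) (nat_lit 455) (nat_lit 347) (nat_lit 338))))))))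
noncomputable def xc33 : XT := (XT.nd (nat_lit 2106) (nat_lit 2584) (nat_lit 0) (XT.nd (nat_lit 1014) (nat_lit 2356) (nat_lit 0) (XT.nd (nat_lit 468) (nat_lit 1520) (nat_lit 0) (XT.nd (nat_lit 234) (nat_lit 760) (nat_lit 0) (XT.nd (nat_lit 78) (nat_lit 380) (nat_lit 0) (XT.lf (nat_lit 0) (nat_lit 1296081788) (nat_lit 456) (nat_lit 6068603004) (nat_lit 76) (nat_lit 2421157698) (nat_lit 124) (nat_lit 5) (nat_lit 130) (nat_lit 5) (nat_lit 125) (nat_lit 4) (nat_lit 456) (nat_lit 347) (nat_lit 337)) (XT.nd (nat_lit 78) (nat_lit 0) (nat_lit 0) (XT.lf (nat_lit 0) (nat_lit 251941910) (nat_lit 380) (nat_lit 4558157004) (nat_lit 456) (nat_lit 5079455190) (nat_lit 119) (nat_lit 5) (nat_lit 124) (nat_lit 5) (nat_lit 125) (nat_lit 4) (nat_lit 457) (nat_lit 347) (nat_lit 336)) (XT.lf (nat_lit 0) (nat_lit 6702051960) (nat_lit 380) (nat_lit 1678655540) (nat_lit 456) (nat_lit 1614946054) (nat_lit 119) (nat_lit 5) (nat_lit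 124) (nat_lit 5) (nat_lit 125) (nat_lit 4) (nat_lit 458) (nat_lit 347) (nat_lit 335)))) (XT.nd (nat_lit 78) (nat_lit 304) (nat_lit 0) (XT.lf (nat_lit 0) (nat_lit 1868483969) (nat_lit 456) (nat_lit 6985020349) (nat_lit 76) (nat_lit 1250663851) (nat_lit 113) (nat_lit 5) (nat_lit 119) (nat_lit 5) (nat_lit 114) (nat_lit 4) (nat_lit 459) (nat_lit 347) (nat_lit 334)) (XT.nd (nat_lit 78) (nat_lit 304) (nat_lit 0) (XT.lf (nat_lit 0) (nat_lit 5379995303) (nat_lit 456) (nat_lit 610306416) (nat_lit 76) (nat_lit 4224774652) (nat_lit 113) (nat_lit 5) (nat_lit 119) (nat_lit 5) (nat_lit 114) (nat_lit 4) (nat_lit 460) (nat_lit 347) (nat_lit 333)) (XT.lf (nat_lit 0) (nat_lit 5891985124) (nat_lit 304) (nat_lit 3055703992) (nat_lit 380) (nat_lit 1380831371) (nat_lit 109) (nat_lit 5) (nat_lit 113) (nat_lit 5) (nat_lit 114) (nat_lit 4) (nat_lit 461) (nat_lit 347) (nat_lit 332))))) (XT.nd (nat_lit 234) (nat_lit 760) (nat_lit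 0) (XT.nd (nat_lit 78) (nat_lit 304) (nat_lit 0) (XT.lf (nat_lit 0) (nat_lit 2023634709) (nat_lit 380) (nat_lit 55877431) (nat_lit 456) (nat_lit 8365176335) (nat_lit 103) (nat_lit 5) (nat_lit 108) (nat_lit 5) (nat_lit 109) (nat_lit 5) (nat_lit 462) (nat_lit 347) (nat_lit 331)) (XT.nd (nat_lit 78) (nat_lit 304) (nat_lit 0) (XT.lf (nat_lit 0) (nat_lit 5588268715) (nat_lit 456) (nat_lit 1996088783) (nat_lit 76) (nat_lit 2978720541) (nat_lit 103) (nat_lit 5) (nat_lit 109) (nat_lit 5) (nat_lit 104) (nat_lit 4) (nat_lit 463) (nat_lit 347) (nat_lit 330)) (XT.lf (nat_lit 0) (nat_lit 4540271904) (nat_lit 304) (nat_lit 4605998574) (nat_lit 380) (nat_lit 1538017505) (nat_lit 99) (nat_lit 5) (nat_lit 103) (nat_lit 5) (nat_lit 104) (nat_lit 4) (nat_lit 464) (nat_lit 347) (nat_lit 329)))) (XT.nd (nat_lit 156) (nat_lit 380) (nat_lit 0) (XT.nd (nat_lit 78) (nat_lit 0) (nat_lit 0) (XT.lf (nat_lit 0) (nat_lit 341900232)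 (nat_lit 304) (nat_lit 1564868396) (nat_lit 380) (nat_lit 8901629429) (nat_lit 94) (nat_lit 5) (nat_lit 98) (nat_lit 5) (nat_lit 99) (nat_lit 5) (nat_lit 465) (nat_lit 347) (nat_lit 328)) (XT.lf (nat_lit 0) (nat_lit 5401049320) (nat_lit 380) (nat_lit 3990633220) (nat_lit 76) (nat_lit 1543112639) (nat_lit 94) (nat_lit 5) (nat_lit 99) (nat_lit 5) (nat_lit 95) (nat_lit 4) (nat_lit 466) (nat_lit 347) (nat_lit 327))) (XT.nd (nat_lit 78) (nat_lit 76) (nat_lit 0) (XT.lf (nat_lit 0) (nat_lit 2562654054) (nat_lit 304) (nat_lit 6380241075) (nat_lit 380) (nat_lit 2121302928) (nat_lit 90) (nat_lit 5) (nat_lit 94) (nat_lit 5) (nat_lit 95) (nat_lit 4) (nat_lit 467) (nat_lit 347) (nat_lit 326)) (XT.lf (nat_lit 0) (nat_lit 1319321839) (nat_lit 380) (nat_lit 1979084871) (nat_lit 76) (nat_lit 7898080713) (nat_lit 89) (nat_lit 5) (nat_lit 94) (nat_lit 5) (nat_lit 90) (nat_lit 5) (nat_lit 468) (nat_lit 347) (nat_lit 325))))))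 (XT.nd (nat_lit 546) (nat_lit 1140) (nat_lit 0) (XT.nd (nat_lit 234) (nat_lit 608) (nat_lit 0) (XT.nd (nat_lit 78) (nat_lit 304) (nat_lit 0) (XT.lf (nat_lit 0) (nat_lit 4646668721) (nat_lit 304) (nat_lit 135651560) (nat_lit 380) (nat_lit 6549212141) (nat_lit 85) (nat_lit 5) (nat_lit 89) (nat_lit 5) (nat_lit 90) (nat_lit 5) (nat_lit 469) (nat_lit 347) (nat_lit 324)) (XT.nd (nat_lit 78) (nat_lit 304) (nat_lit 0) (XT.lf (nat_lit 0) (nat_lit 8300082205) (nat_lit 380) (nat_lit 131778767) (nat_lit 76) (nat_lit 3037736290) (nat_lit 85) (nat_lit 5) (nat_lit 90) (nat_lit 5) (nat_lit 86) (nat_lit 4) (nat_lit 470) (nat_lit 347) (nat_lit 323)) (XT.lf (nat_lit 0) (nat_lit 270612236) (nat_lit 304) (nat_lit 5047655007) (nat_lit 76) (nat_lit 6292218383) (nat_lit 81) (nat_lit 5) (nat_lit 85) (nat_lit 5) (nat_lit 82) (nat_lit 5) (nat_lit 471) (nat_lit 347) (nat_lit 322)))) (XT.nd (nat_lit 156) (nat_lit 304) (nat_lit 0)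 (XT.nd (nat_lit 78) (nat_lit 0) (nat_lit 0) (XT.lf (nat_lit 0) (nat_lit 1565388743) (nat_lit 304) (nat_lit 2135932224) (nat_lit 380) (nat_lit 8053194747) (nat_lit 77) (nat_lit 5) (nat_lit 81) (nat_lit 5) (nat_lit 82) (nat_lit 5) (nat_lit 472) (nat_lit 347) (nat_lit 321)) (XT.lf (nat_lit 0) (nat_lit 7195350810) (nat_lit 380) (nat_lit 3602459290) (nat_lit 76) (nat_lit 1103748965) (nat_lit 77) (nat_lit 5) (nat_lit 82) (nat_lit 5) (nat_lit 78) (nat_lit 4) (nat_lit 473) (nat_lit 347) (nat_lit 320))) (XT.nd (nat_lit 78) (nat_lit 76) (nat_lit 0) (XT.lf (nat_lit 0) (nat_lit 3070106097) (nat_lit 228) (nat_lit 7677550246) (nat_lit 304) (nat_lit 1304145315) (nat_lit 74) (nat_lit 5) (nat_lit 77) (nat_lit 5) (nat_lit 78) (nat_lit 4) (nat_lit 474) (nat_lit 347) (nat_lit 319)) (XT.lf (nat_lit 0) (nat_lit 2116309658) (nat_lit 304) (nat_lit 2365946426) (nat_lit 76) (nat_lit 7722961865) (nat_lit 73) (nat_lit 5) (nat_lit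 77) (nat_lit 5) (nat_lit 74) (nat_lit 5) (nat_lit 475) (nat_lit 347) (nat_lit 318))))) (XT.nd (nat_lit 234) (nat_lit 608) (nat_lit 0) (XT.nd (nat_lit 78) (nat_lit 228) (nat_lit 0) (XT.lf (nat_lit 0) (nat_lit 4359963707) (nat_lit 304) (nat_lit 1211388503) (nat_lit 380) (nat_lit 6790529889) (nat_lit 69) (nat_lit 5) (nat_lit 73) (nat_lit 5) (nat_lit 74) (nat_lit 5) (nat_lit 476) (nat_lit 347) (nat_lit 317)) (XT.nd (nat_lit 78) (nat_lit 228) (nat_lit 0) (XT.lf (nat_lit 0) (nat_lit 9080842140) (nat_lit 380) (nat_lit 1353775069) (nat_lit 76) (nat_lit 2087379668) (nat_lit 69) (nat_lit 5) (nat_lit 74) (nat_lit 5) (nat_lit 70) (nat_lit 4) (nat_lit 477) (nat_lit 347) (nat_lit 316)) (XT.lf (nat_lit 0) (nat_lit 5420820619) (nat_lit 228) (nat_lit 7239358858) (nat_lit 304) (nat_lit 25165119) (nat_lit 66) (nat_lit 5) (nat_lit 69) (nat_lit 5) (nat_lit 70) (nat_lit 4) (nat_lit 478) (nat_lit 347) (nat_lit 315)))) (XT.nd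 (nat_lit 156) (nat_lit 304) (nat_lit 0) (XT.nd (nat_lit 78) (nat_lit 228) (nat_lit 0) (XT.lf (nat_lit 0) (nat_lit 3379457800) (nat_lit 304) (nat_lit 594763605) (nat_lit 76) (nat_lit 8877997944) (nat_lit 65) (nat_lit 5) (nat_lit 69) (nat_lit 5) (nat_lit 66) (nat_lit 5) (nat_lit 479) (nat_lit 347) (nat_lit 314)) (XT.lf (nat_lit 0) (nat_lit 6221462285) (nat_lit 228) (nat_lit 628156443) (nat_lit 304) (nat_lit 6172876318) (nat_lit 62) (nat_lit 5) (nat_lit 65) (nat_lit 5) (nat_lit 66) (nat_lit 5) (nat_lit 480) (nat_lit 347) (nat_lit 313))) (XT.nd (nat_lit 78) (nat_lit 304) (nat_lit 0) (XT.lf (nat_lit 0) (nat_lit 10368897587) (nat_lit 304) (nat_lit 100737379) (nat_lit 76) (nat_lit 2726968984) (nat_lit 62) (nat_lit 5) (nat_lit 66) (nat_lit 5) (nat_lit 63) (nat_lit 4) (nat_lit 481) (nat_lit 347) (nat_lit 312)) (XT.lf (nat_lit 0) (nat_lit 583161314) (nat_lit 304) (nat_lit 6627247315) (nat_lit 76) (nat_lit 6163602487)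 (nat_lit 58) (nat_lit 5) (nat_lit 62) (nat_lit 5) (nat_lit 59) (nat_lit 5) (nat_lit 482) (nat_lit 347) (nat_lit 311))))))) (XT.nd (nat_lit 1092) (nat_lit 912) (nat_lit 0) (XT.nd (nat_lit 546) (nat_lit 912) (nat_lit 0) (XT.nd (nat_lit 234) (nat_lit 532) (nat_lit 0) (XT.nd (nat_lit 78) (nat_lit 0) (nat_lit 0) (XT.lf (nat_lit 0) (nat_lit 92720246) (nat_lit 228) (nat_lit 3891515580) (nat_lit 304) (nat_lit 9571180445) (nat_lit 55) (nat_lit 5) (nat_lit 58) (nat_lit 5) (nat_lit 59) (nat_lit 5) (nat_lit 483) (nat_lit 347) (nat_lit 310)) (XT.nd (nat_lit 78) (nat_lit 0) (nat_lit 0) (XT.lf (nat_lit 0) (nat_lit 6969972202) (nat_lit 228) (nat_lit 486744910) (nat_lit 304) (nat_lit 6283685024) (nat_lit 55) (nat_lit 5) (nat_lit 58) (nat_lit 5) (nat_lit 59) (nat_lit 5) (nat_lit 484) (nat_lit 347) (nat_lit 309)) (XT.lf (nat_lit 0) (nat_lit 10977589877) (nat_lit 304) (nat_lit 30003636) (nat_lit 76) (nat_lit 2921935283)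 (nat_lit 55) (nat_lit 5) (nat_lit 59) (nat_lit 5) (nat_lit 56) (nat_lit 4) (nat_lit 485) (nat_lit 347) (nat_lit 308)))) (XT.nd (nat_lit 156) (nat_lit 228) (nat_lit 0) (XT.nd (nat_lit 78) (nat_lit 0) (nat_lit 0) (XT.lf (nat_lit 0) (nat_lit 448777786) (nat_lit 304) (nat_lit 7258173553) (nat_lit 76) (nat_lit 6415284003) (nat_lit 51) (nat_lit 5) (nat_lit 55) (nat_lit 5) (nat_lit 52) (nat_lit 5) (nat_lit 486) (nat_lit 347) (nat_lit 307)) (XT.lf (nat_lit 0) (nat_lit 3838648180) (nat_lit 304) (nat_lit 507041712) (nat_lit 76) (nat_lit 9973521329) (nat_lit 51) (nat_lit 5) (nat_lit 55) (nat_lit 5) (nat_lit 52) (nat_lit 5) (nat_lit 487) (nat_lit 347) (nat_lit 306))) (XT.nd (nat_lit 78) (nat_lit 0) (nat_lit 0) (XT.lf (nat_lit 0) (nat_lit 6399201844) (nat_lit 228) (nat_lit 899864150) (nat_lit 304) (nat_lit 7221024022) (nat_lit 48) (nat_lit 5) (nat_lit 51) (nat_lit 5) (nat_lit 52) (nat_lit 5) (nat_lit 488) (nat_lit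 347) (nat_lit 305)) (XT.lf (nat_lit 0) (nat_lit 10810483767) (nat_lit 304) (nat_lit 1355517556) (nat_lit 76) (nat_lit 2559367268) (nat_lit 48) (nat_lit 5) (nat_lit 52) (nat_lit 5) (nat_lit 49) (nat_lit 4) (nat_lit 489) (nat_lit 347) (nat_lit 304))))) (XT.nd (nat_lit 234) (nat_lit 456) (nat_lit 0) (XT.nd (nat_lit 78) (nat_lit 304) (nat_lit 0) (XT.lf (nat_lit 0) (nat_lit 5549192987) (nat_lit 152) (nat_lit 8847071422) (nat_lit 228) (nat_lit 538423322) (nat_lit 46) (nat_lit 5) (nat_lit 48) (nat_lit 5) (nat_lit 49) (nat_lit 4) (nat_lit 490) (nat_lit 347) (nat_lit 303)) (XT.nd (nat_lit 78) (nat_lit 228) (nat_lit 0) (XT.lf (nat_lit 0) (nat_lit 2838834650) (nat_lit 228) (nat_lit 2619457116) (nat_lit 76) (nat_lit 9690113701) (nat_lit 45) (nat_lit 5) (nat_lit 48) (nat_lit 5) (nat_lit 46) (nat_lit 5) (nat_lit 491) (nat_lit 347) (nat_lit 302)) (XT.lf (nat_lit 0) (nat_lit 4272713328) (nat_lit 228) (nat_lit 1994421627)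 (nat_lit 304) (nat_lit 9099393954) (nat_lit 42) (nat_lit 5) (nat_lit 45) (nat_lit 5) (nat_lit 46) (nat_lit 5) (nat_lit 492) (nat_lit 347) (nat_lit 301)))) (XT.nd (nat_lit 156) (nat_lit 304) (nat_lit 0) (XT.nd (nat_lit 78) (nat_lit 152) (nat_lit 0) (XT.lf (nat_lit 0) (nat_lit 9754813937) (nat_lit 304) (nat_lit 4322380710) (nat_lit 76) (nat_lit 1512020256) (nat_lit 42) (nat_lit 5) (nat_lit 46) (nat_lit 5) (nat_lit 43) (nat_lit 4) (nat_lit 493) (nat_lit 347) (nat_lit 300)) (XT.lf (nat_lit 0) (nat_lit 2544007311) (nat_lit 152) (nat_lit 10761815536) (nat_lit 228) (nat_lit 2510676260) (nat_lit 40) (nat_lit 5) (nat_lit 42) (nat_lit 5) (nat_lit 43) (nat_lit 4) (nat_lit 494) (nat_lit 347) (nat_lit 299))) (XT.nd (nat_lit 78) (nat_lit 228) (nat_lit 0) (XT.lf (nat_lit 0) (nat_lit 861101193) (nat_lit 228) (nat_lit 6508065925) (nat_lit 76) (nat_lit 8679200795) (nat_lit 39) (nat_lit 5) (nat_lit 42) (nat_lit 5) (nat_lit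 40) (nat_lit 5) (nat_lit 495) (nat_lit 347) (nat_lit 298)) (XT.lf (nat_lit 0) (nat_lit 319676231) (nat_lit 228) (nat_lit 3913750334) (nat_lit 304) (nat_lit 12051796104) (nat_lit 36) (nat_lit 5) (nat_lit 39) (nat_lit 5) (nat_lit 40) (nat_lit 5) (nat_lit 496) (nat_lit 347) (nat_lit 297)))))) (XT.nd (nat_lit 546) (nat_lit 532) (nat_lit 0) (XT.nd (nat_lit 234) (nat_lit 228) (nat_lit 0) (XT.nd (nat_lit 78) (nat_lit 152) (nat_lit 0) (XT.lf (nat_lit 0) (nat_lit 7313045625) (nat_lit 228) (nat_lit 368758360) (nat_lit 304) (nat_lit 8844853222) (nat_lit 36) (nat_lit 5) (nat_lit 39) (nat_lit 5) (nat_lit 40) (nat_lit 5) (nat_lit 497) (nat_lit 347) (nat_lit 296)) (XT.nd (nat_lit 78) (nat_lit 152) (nat_lit 0) (XT.lf (nat_lit 0) (nat_lit 11185698806) (nat_lit 304) (nat_lit 2406255820) (nat_lit 76) (nat_lit 3181249318) (nat_lit 36) (nat_lit 5) (nat_lit 40) (nat_lit 5) (nat_lit 37) (nat_lit 4) (nat_lit 498) (nat_lit 347)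 (nat_lit 295)) (XT.lf (nat_lit 0) (nat_lit 4536919974) (nat_lit 152) (nat_lit 10220794771) (nat_lit 228) (nat_lit 2267020229) (nat_lit 34) (nat_lit 5) (nat_lit 36) (nat_lit 5) (nat_lit 37) (nat_lit 4) (nat_lit 499) (nat_lit 347) (nat_lit 294)))) (XT.nd (nat_lit 156) (nat_lit 0) (nat_lit 0) (XT.nd (nat_lit 78) (nat_lit 152) (nat_lit 0) (XT.lf (nat_lit 0) (nat_lit 1087643287) (nat_lit 228) (nat_lit 5694247641) (nat_lit 76) (nat_lit 10499624822) (nat_lit 33) (nat_lit 5) (nat_lit 36) (nat_lit 5) (nat_lit 34) (nat_lit 5) (nat_lit 500) (nat_lit 347) (nat_lit 293)) (XT.lf (nat_lit 0) (nat_lit 1179298541) (nat_lit 152) (nat_lit 3274296083) (nat_lit 228) (nat_lit 13090060220) (nat_lit 31) (nat_lit 5) (nat_lit 33) (nat_lit 5) (nat_lit 34) (nat_lit 5) (nat_lit 501) (nat_lit 347) (nat_lit 292))) (XT.nd (nat_lit 78) (nat_lit 0) (nat_lit 0) (XT.lf (nat_lit 0) (nat_lit 7894300567) (nat_lit 228) (nat_lit 9601488204)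 (nat_lit 76) (nat_lit 315112377) (nat_lit 31) (nat_lit 5) (nat_lit 34) (nat_lit 5) (nat_lit 32) (nat_lit 4) (nat_lit 502) (nat_lit 347) (nat_lit 291)) (XT.lf (nat_lit 0) (nat_lit 11393152668) (nat_lit 228) (nat_lit 2780434202) (nat_lit 76) (nat_lit 3910131748) (nat_lit 31) (nat_lit 5) (nat_lit 34) (nat_lit 5) (nat_lit 32) (nat_lit 4) (nat_lit 503) (nat_lit 347) (nat_lit 290))))) (XT.nd (nat_lit 234) (nat_lit 304) (nat_lit 0) (XT.nd (nat_lit 78) (nat_lit 76) (nat_lit 0) (XT.lf (nat_lit 0) (nat_lit 4177528566) (nat_lit 152) (nat_lit 10779858845) (nat_lit 228) (nat_lit 3404709543) (nat_lit 29) (nat_lit 5) (nat_lit 31) (nat_lit 5) (nat_lit 32) (nat_lit 4) (nat_lit 504) (nat_lit 347) (nat_lit 289)) (XT.nd (nat_lit 78) (nat_lit 76) (nat_lit 0) (XT.lf (nat_lit 0) (nat_lit 11258396001) (nat_lit 152) (nat_lit 7321723015) (nat_lit 228) (nat_lit 66191979) (nat_lit 29) (nat_lit 5) (nat_lit 31) (nat_lit 5) (nat_lit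 32) (nat_lit 4) (nat_lit 505) (nat_lit 347) (nat_lit 288)) (XT.lf (nat_lit 0) (nat_lit 3264257521) (nat_lit 228) (nat_lit 530319016) (nat_lit 76) (nat_lit 15141831999) (nat_lit 28) (nat_lit 5) (nat_lit 31) (nat_lit 5) (nat_lit 29) (nat_lit 5) (nat_lit 506) (nat_lit 347) (nat_lit 287)))) (XT.nd (nat_lit 156) (nat_lit 152) (nat_lit 0) (XT.nd (nat_lit 78) (nat_lit 0) (nat_lit 0) (XT.lf (nat_lit 0) (nat_lit 6496933426) (nat_lit 152) (nat_lit 175242670) (nat_lit 228) (nat_lit 12559899919) (nat_lit 26) (nat_lit 5) (nat_lit 28) (nat_lit 5) (nat_lit 29) (nat_lit 5) (nat_lit 507) (nat_lit 347) (nat_lit 286)) (XT.lf (nat_lit 0) (nat_lit 10144348316) (nat_lit 228) (nat_lit 5936916511) (nat_lit 76) (nat_lit 3452481552) (nat_lit 26) (nat_lit 5) (nat_lit 29) (nat_lit 5) (nat_lit 27) (nat_lit 4) (nat_lit 508) (nat_lit 347) (nat_lit 285))) (XT.nd (nat_lit 78) (nat_lit 0) (nat_lit 0) (XT.lf (nat_lit 0) (nat_lit 957300578)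 (nat_lit 152) (nat_lit 12706315532) (nat_lit 228) (nat_lit 6178292210) (nat_lit 24) (nat_lit 5) (nat_lit 26) (nat_lit 5) (nat_lit 27) (nat_lit 4) (nat_lit 509) (nat_lit 347) (nat_lit 284)) (XT.lf (nat_lit 0) (nat_lit 8018848289) (nat_lit 152) (nat_lit 9244788459) (nat_lit 228) (nat_lit 2892400397) (nat_lit 24) (nat_lit 5) (nat_lit 26) (nat_lit 5) (nat_lit 27) (nat_lit 4) (nat_lit 510) (nat_lit 347) (nat_lit 283))))))))
noncomputable def xc34 : XT := (XT.nd (nat_lit 54678) (nat_lit 0) (nat_lit 4332) (XT.nd (nat_lit 1014) (nat_lit 304) (nat_lit 0) (XT.nd (nat_lit 468) (nat_lit 304) (nat_lit 0) (XT.nd (nat_lit 234) (nat_lit 76) (nat_lit 0) (XT.nd (nat_lit 78) (nat_lit 152) (nat_lit 0) (XT.lf (nat_lit 0) (nat_lit 424090190) (nat_lit 228) (nat_lit 5308229920) (nat_lit 76) (nat_lit 14744661303) (nat_lit 23) (nat_lit 5) (nat_lit 26) (nat_lit 5) (nat_lit 24) (nat_lit 5) (nat_lit 511) (nat_lit 347) (nat_lit 282))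 (XT.nd (nat_lit 78) (nat_lit 0) (nat_lit 0) (XT.lf (nat_lit 0) (nat_lit 1609828337) (nat_lit 152) (nat_lit 2140315356) (nat_lit 228) (nat_lit 17054189610) (nat_lit 21) (nat_lit 5) (nat_lit 23) (nat_lit 5) (nat_lit 24) (nat_lit 5) (nat_lit 512) (nat_lit 347) (nat_lit 281)) (XT.lf (nat_lit 0) (nat_lit 7160046251) (nat_lit 228) (nat_lit 12458998730) (nat_lit 76) (nat_lit 1518850848) (nat_lit 21) (nat_lit 5) (nat_lit 24) (nat_lit 5) (nat_lit 22) (nat_lit 4) (nat_lit 513) (nat_lit 347) (nat_lit 280)))) (XT.nd (nat_lit 78) (nat_lit 76) (nat_lit 0) (XT.lf (nat_lit 0) (nat_lit 10624457705) (nat_lit 228) (nat_lit 5651538472) (nat_lit 76) (nat_lit 5202417169) (nat_lit 21) (nat_lit 5) (nat_lit 24) (nat_lit 5) (nat_lit 22) (nat_lit 4) (nat_lit 514) (nat_lit 347) (nat_lit 279)) (XT.nd (nat_lit 78) (nat_lit 0) (nat_lit 0) (XT.lf (nat_lit 0) (nat_lit 1260979721) (nat_lit 76) (nat_lit 12878047697) (nat_lit 152) (nat_lit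 7687106156) (nat_lit 20) (nat_lit 5) (nat_lit 21) (nat_lit 5) (nat_lit 22) (nat_lit 4) (nat_lit 515) (nat_lit 347) (nat_lit 278)) (XT.lf (nat_lit 0) (nat_lit 8341040476) (nat_lit 76) (nat_lit 9393684184) (nat_lit 152) (nat_lit 4445876397) (nat_lit 20) (nat_lit 5) (nat_lit 21) (nat_lit 5) (nat_lit 22) (nat_lit 4) (nat_lit 516) (nat_lit 347) (nat_lit 277))))) (XT.nd (nat_lit 234) (nat_lit 76) (nat_lit 0) (XT.nd (nat_lit 78) (nat_lit 228) (nat_lit 0) (XT.lf (nat_lit 0) (nat_lit 15516314313) (nat_lit 76) (nat_lit 5859464020) (nat_lit 152) (nat_lit 1166920089) (nat_lit 20) (nat_lit 5) (nat_lit 21) (nat_lit 5) (nat_lit 22) (nat_lit 4) (nat_lit 517) (nat_lit 347) (nat_lit 276)) (XT.nd (nat_lit 78) (nat_lit 152) (nat_lit 0) (XT.lf (nat_lit 0) (nat_lit 2122837241) (nat_lit 152) (nat_lit 136918638) (nat_lit 76) (nat_lit 20652532470) (nat_lit 19) (nat_lit 5) (nat_lit 21) (nat_lit 5) (nat_lit 20) (nat_lit 5) (nat_lit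 518) (nat_lit 347) (nat_lit 275)) (XT.lf (nat_lit 0) (nat_lit 5491451249) (nat_lit 228) (nat_lit 16369590278) (nat_lit 76) (nat_lit 1427509390) (nat_lit 17) (nat_lit 5) (nat_lit 20) (nat_lit 5) (nat_lit 18) (nat_lit 4) (nat_lit 519) (nat_lit 347) (nat_lit 274)))) (XT.nd (nat_lit 156) (nat_lit 76) (nat_lit 0) (XT.nd (nat_lit 78) (nat_lit 0) (nat_lit 0) (XT.lf (nat_lit 0) (nat_lit 8917713304) (nat_lit 228) (nat_lit 9614513991) (nat_lit 76) (nat_lit 5140314596) (nat_lit 17) (nat_lit 5) (nat_lit 20) (nat_lit 5) (nat_lit 18) (nat_lit 4) (nat_lit 520) (nat_lit 347) (nat_lit 273)) (XT.lf (nat_lit 0) (nat_lit 12387388457) (nat_lit 228) (nat_lit 2768488872) (nat_lit 76) (nat_lit 8908846097) (nat_lit 17) (nat_lit 5) (nat_lit 20) (nat_lit 5) (nat_lit 18) (nat_lit 4) (nat_lit 521) (nat_lit 347) (nat_lit 272))) (XT.nd (nat_lit 78) (nat_lit 0) (nat_lit 0) (XT.lf (nat_lit 0) (nat_lit 4226602446) (nat_lit 76) (nat_lit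 11702676826) (nat_lit 152) (nat_lit 8535421209) (nat_lit 16) (nat_lit 5) (nat_lit 17) (nat_lit 5) (nat_lit 18) (nat_lit 4) (nat_lit 522) (nat_lit 347) (nat_lit 271)) (XT.lf (nat_lit 0) (nat_lit 11356121016) (nat_lit 76) (nat_lit 8180048699) (nat_lit 152) (nat_lit 5336632295) (nat_lit 16) (nat_lit 5) (nat_lit 17) (nat_lit 5) (nat_lit 18) (nat_lit 4) (nat_lit 523) (nat_lit 347) (nat_lit 270)))))) (XT.nd (nat_lit 53118) (nat_lit 0) (nat_lit 10336) (XT.nd (nat_lit 234) (nat_lit 76) (nat_lit 0) (XT.nd (nat_lit 78) (nat_lit 228) (nat_lit 0) (XT.lf (nat_lit 0) (nat_lit 18586070965) (nat_lit 76) (nat_lit 4605189545) (nat_lit 152) (nat_lit 2098291817) (nat_lit 16) (nat_lit 5) (nat_lit 17) (nat_lit 5) (nat_lit 18) (nat_lit 4) (nat_lit 524) (nat_lit 347) (nat_lit 269)) (XT.nd (nat_lit 78) (nat_lit 0) (nat_lit 0) (XT.lf (nat_lit 0) (nat_lit 199117169) (nat_lit 152) (nat_lit 967558468) (nat_lit 228) (nat_lit 24548260030)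 (nat_lit 13) (nat_lit 5) (nat_lit 15) (nat_lit 5) (nat_lit 16) (nat_lit 5) (nat_lit 525) (nat_lit 347) (nat_lit 268)) (XT.lf (nat_lit 0) (nat_lit 4508409542) (nat_lit 228) (nat_lit 18891033817) (nat_lit 76) (nat_lit 2748322204) (nat_lit 13) (nat_lit 5) (nat_lit 16) (nat_lit 5) (nat_lit 14) (nat_lit 4) (nat_lit 526) (nat_lit 347) (nat_lit 267)))) (XT.nd (nat_lit 156) (nat_lit 76) (nat_lit 0) (XT.nd (nat_lit 78) (nat_lit 0) (nat_lit 0) (XT.lf (nat_lit 0) (nat_lit 7900294550) (nat_lit 228) (nat_lit 12181082512) (nat_lit 76) (nat_lit 6508216064) (nat_lit 13) (nat_lit 5) (nat_lit 16) (nat_lit 5) (nat_lit 14) (nat_lit 4) (nat_lit 527) (nat_lit 347) (nat_lit 266)) (XT.lf (nat_lit 0) (nat_lit 11337378782) (nat_lit 228) (nat_lit 5377051200) (nat_lit 76) (nat_lit 10326287283) (nat_lit 13) (nat_lit 5) (nat_lit 16) (nat_lit 5) (nat_lit 14) (nat_lit 4) (nat_lit 528) (nat_lit 347) (nat_lit 265))) (XT.nd (nat_lit 78)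 (nat_lit 0) (nat_lit 0) (XT.lf (nat_lit 0) (nat_lit 1543977916) (nat_lit 76) (nat_lit 13287056726) (nat_lit 152) (nat_lit 12670079756) (nat_lit 12) (nat_lit 5) (nat_lit 13) (nat_lit 5) (nat_lit 14) (nat_lit 4) (nat_lit 529) (nat_lit 347) (nat_lit 264)) (XT.lf (nat_lit 0) (nat_lit 8637241354) (nat_lit 76) (nat_lit 9771392020) (nat_lit 152) (nat_lit 9561811677) (nat_lit 12) (nat_lit 5) (nat_lit 13) (nat_lit 5) (nat_lit 14) (nat_lit 4) (nat_lit 530) (nat_lit 347) (nat_lit 263))))) (XT.nd (nat_lit 234) (nat_lit 1596) (nat_lit 0) (XT.nd (nat_lit 78) (nat_lit 532) (nat_lit 0) (XT.lf (nat_lit 0) (nat_lit 1256802370) (nat_lit 532) (nat_lit 1549980953) (nat_lit 532) (nat_lit 1549980953) (nat_lit 176) (nat_lit 4) (nat_lit 183) (nat_lit 5) (nat_lit 183) (nat_lit 4) (nat_lit 444) (nat_lit 348) (nat_lit 348)) (XT.nd (nat_lit 78) (nat_lit 456) (nat_lit 0) (XT.lf (nat_lit 0) (nat_lit 424335164) (nat_lit 608) (nat_lit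 189618553) (nat_lit 76) (nat_lit 8178309929) (nat_lit 175) (nat_lit 5) (nat_lit 183) (nat_lit 5) (nat_lit 176) (nat_lit 4) (nat_lit 445) (nat_lit 348) (nat_lit 347)) (XT.lf (nat_lit 0) (nat_lit 3968901244) (nat_lit 532) (nat_lit 2966967499) (nat_lit 0) (nat_lit 1936522654) (nat_lit 169) (nat_lit 5) (nat_lit 176) (nat_lit 4) (nat_lit 169) (nat_lit 4) (nat_lit 446) (nat_lit 348) (nat_lit 346)))) (XT.nd (nat_lit 156) (nat_lit 532) (nat_lit 0) (XT.nd (nat_lit 78) (nat_lit 532) (nat_lit 0) (XT.lf (nat_lit 0) (nat_lit 3127635372) (nat_lit 532) (nat_lit 4422996016) (nat_lit 532) (nat_lit 1404217411) (nat_lit 162) (nat_lit 4) (nat_lit 169) (nat_lit 5) (nat_lit 169) (nat_lit 4) (nat_lit 447) (nat_lit 348) (nat_lit 345)) (XT.lf (nat_lit 0) (nat_lit 254479346) (nat_lit 456) (nat_lit 1844687380) (nat_lit 532) (nat_lit 6940307576) (nat_lit 155) (nat_lit 5) (nat_lit 161) (nat_lit 5) (nat_lit 162) (nat_lit 4) (nat_lit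 448) (nat_lit 348) (nat_lit 344))) (XT.nd (nat_lit 78) (nat_lit 532) (nat_lit 0) (XT.lf (nat_lit 0) (nat_lit 5639623422) (nat_lit 532) (nat_lit 2683883740) (nat_lit 0) (nat_lit 802432890) (nat_lit 155) (nat_lit 5) (nat_lit 162) (nat_lit 4) (nat_lit 155) (nat_lit 4) (nat_lit 449) (nat_lit 348) (nat_lit 343)) (XT.lf (nat_lit 0) (nat_lit 13452065) (nat_lit 532) (nat_lit 5721298501) (nat_lit 76) (nat_lit 3479883774) (nat_lit 148) (nat_lit 5) (nat_lit 155) (nat_lit 5) (nat_lit 149) (nat_lit 4) (nat_lit 450) (nat_lit 348) (nat_lit 342))))))) (XT.nd (nat_lit 1014) (nat_lit 2584) (nat_lit 0) (XT.nd (nat_lit 468) (nat_lit 1596) (nat_lit 0) (XT.nd (nat_lit 234) (nat_lit 836) (nat_lit 0) (XT.nd (nat_lit 78) (nat_lit 532) (nat_lit 0) (XT.lf (nat_lit 0) (nat_lit 428439823) (nat_lit 456) (nat_lit 3071720761) (nat_lit 532) (nat_lit 5805255178) (nat_lit 142) (nat_lit 5) (nat_lit 148) (nat_lit 5) (nat_lit 149) (nat_lit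 4) (nat_lit 451) (nat_lit 348) (nat_lit 341)) (XT.nd (nat_lit 78) (nat_lit 532) (nat_lit 0) (XT.lf (nat_lit 0) (nat_lit 6699540996) (nat_lit 456) (nat_lit 338736498) (nat_lit 532) (nat_lit 2360147582) (nat_lit 142) (nat_lit 5) (nat_lit 148) (nat_lit 5) (nat_lit 149) (nat_lit 4) (nat_lit 452) (nat_lit 348) (nat_lit 340)) (XT.lf (nat_lit 0) (nat_lit 1121804500) (nat_lit 532) (nat_lit 5946209924) (nat_lit 76) (nat_lit 2425512781) (nat_lit 135) (nat_lit 5) (nat_lit 142) (nat_lit 5) (nat_lit 136) (nat_lit 4) (nat_lit 453) (nat_lit 348) (nat_lit 339)))) (XT.nd (nat_lit 78) (nat_lit 456) (nat_lit 0) (XT.lf (nat_lit 0) (nat_lit 271514044) (nat_lit 380) (nat_lit 4336973314) (nat_lit 456) (nat_lit 4982441235) (nat_lit 130) (nat_lit 5) (nat_lit 135) (nat_lit 5) (nat_lit 136) (nat_lit 4) (nat_lit 454) (nat_lit 348) (nat_lit 338)) (XT.nd (nat_lit 78) (nat_lit 456) (nat_lit 0) (XT.lf (nat_lit 0) (nat_lit 6615802924)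 (nat_lit 380) (nat_lit 1534011392) (nat_lit 456) (nat_lit 1540807748) (nat_lit 130) (nat_lit 5) (nat_lit 135) (nat_lit 5) (nat_lit 136) (nat_lit 4) (nat_lit 455) (nat_lit 348) (nat_lit 337)) (XT.lf (nat_lit 0) (nat_lit 1919271058) (nat_lit 456) (nat_lit 6554589196) (nat_lit 76) (nat_lit 1318725106) (nat_lit 124) (nat_lit 5) (nat_lit 130) (nat_lit 5) (nat_lit 125) (nat_lit 4) (nat_lit 456) (nat_lit 348) (nat_lit 336))))) (XT.nd (nat_lit 234) (nat_lit 760) (nat_lit 0) (XT.nd (nat_lit 78) (nat_lit 836) (nat_lit 0) (XT.lf (nat_lit 0) (nat_lit 5404969843) (nat_lit 456) (nat_lit 275996945) (nat_lit 76) (nat_lit 4215916269) (nat_lit 124) (nat_lit 5) (nat_lit 130) (nat_lit 5) (nat_lit 125) (nat_lit 4) (nat_lit 457) (nat_lit 348) (nat_lit 335)) (XT.nd (nat_lit 78) (nat_lit 456) (nat_lit 0) (XT.lf (nat_lit 0) (nat_lit 6132051117) (nat_lit 380) (nat_lit 2815302883) (nat_lit 456) (nat_lit 1056212325) (nat_lit 119)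 (nat_lit 5) (nat_lit 124) (nat_lit 5) (nat_lit 125) (nat_lit 4) (nat_lit 458) (nat_lit 348) (nat_lit 334)) (XT.lf (nat_lit 0) (nat_lit 2382272559) (nat_lit 456) (nat_lit 7613803258) (nat_lit 76) (nat_lit 116703493) (nat_lit 113) (nat_lit 5) (nat_lit 119) (nat_lit 5) (nat_lit 114) (nat_lit 4) (nat_lit 459) (nat_lit 348) (nat_lit 333)))) (XT.nd (nat_lit 156) (nat_lit 456) (nat_lit 0) (XT.nd (nat_lit 78) (nat_lit 304) (nat_lit 0) (XT.lf (nat_lit 0) (nat_lit 5867891605) (nat_lit 456) (nat_lit 1277302748) (nat_lit 76) (nat_lit 3079029220) (nat_lit 113) (nat_lit 5) (nat_lit 119) (nat_lit 5) (nat_lit 114) (nat_lit 4) (nat_lit 460) (nat_lit 348) (nat_lit 332)) (XT.lf (nat_lit 0) (nat_lit 5178162743) (nat_lit 304) (nat_lit 4227403470) (nat_lit 380) (nat_lit 932719717) (nat_lit 109) (nat_lit 5) (nat_lit 113) (nat_lit 5) (nat_lit 114) (nat_lit 4) (nat_lit 461) (nat_lit 348) (nat_lit 331))) (XT.nd (nat_lit 78) (nat_lit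 0) (nat_lit 0) (XT.lf (nat_lit 0) (nat_lit 1249412163) (nat_lit 380) (nat_lit 1241995607) (nat_lit 456) (nat_lit 7963611904) (nat_lit 103) (nat_lit 5) (nat_lit 108) (nat_lit 5) (nat_lit 109) (nat_lit 5) (nat_lit 462) (nat_lit 348) (nat_lit 330)) (XT.lf (nat_lit 0) (nat_lit 5967325433) (nat_lit 456) (nat_lit 2810703852) (nat_lit 76) (nat_lit 1796053557) (nat_lit 103) (nat_lit 5) (nat_lit 109) (nat_lit 5) (nat_lit 104) (nat_lit 4) (nat_lit 463) (nat_lit 348) (nat_lit 329)))))) (XT.nd (nat_lit 546) (nat_lit 1216) (nat_lit 0) (XT.nd (nat_lit 234) (nat_lit 684) (nat_lit 0) (XT.nd (nat_lit 78) (nat_lit 380) (nat_lit 0) (XT.lf (nat_lit 0) (nat_lit 3677317077) (nat_lit 304) (nat_lit 5817762299) (nat_lit 380) (nat_lit 1200834866) (nat_lit 99) (nat_lit 5) (nat_lit 103) (nat_lit 5) (nat_lit 104) (nat_lit 4) (nat_lit 464) (nat_lit 348) (nat_lit 328)) (XT.nd (nat_lit 78) (nat_lit 304) (nat_lit 0) (XT.lf (nat_lit 0)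 (nat_lit 2212731158) (nat_lit 380) (nat_lit 576475020) (nat_lit 76) (nat_lit 8031326168) (nat_lit 98) (nat_lit 5) (nat_lit 103) (nat_lit 5) (nat_lit 99) (nat_lit 5) (nat_lit 465) (nat_lit 348) (nat_lit 327)) (XT.lf (nat_lit 0) (nat_lit 5670827934) (nat_lit 380) (nat_lit 4958202821) (nat_lit 76) (nat_lit 318637936) (nat_lit 94) (nat_lit 5) (nat_lit 99) (nat_lit 5) (nat_lit 95) (nat_lit 4) (nat_lit 466) (nat_lit 348) (nat_lit 326)))) (XT.nd (nat_lit 156) (nat_lit 304) (nat_lit 0) (XT.nd (nat_lit 78) (nat_lit 76) (nat_lit 0) (XT.lf (nat_lit 0) (nat_lit 1545173851) (nat_lit 304) (nat_lit 7636955512) (nat_lit 380) (nat_lit 1895568334) (nat_lit 90) (nat_lit 5) (nat_lit 94) (nat_lit 5) (nat_lit 95) (nat_lit 4) (nat_lit 467) (nat_lit 348) (nat_lit 325)) (XT.lf (nat_lit 0) (nat_lit 1518219456) (nat_lit 380) (nat_lit 3048187885) (nat_lit 76) (nat_lit 6644042587) (nat_lit 89) (nat_lit 5) (nat_lit 94) (nat_lit 5)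 (nat_lit 90) (nat_lit 5) (nat_lit 468) (nat_lit 348) (nat_lit 324))) (XT.nd (nat_lit 78) (nat_lit 0) (nat_lit 0) (XT.lf (nat_lit 0) (nat_lit 3526941506) (nat_lit 304) (nat_lit 1423598120) (nat_lit 380) (nat_lit 6395583231) (nat_lit 85) (nat_lit 5) (nat_lit 89) (nat_lit 5) (nat_lit 90) (nat_lit 5) (nat_lit 469) (nat_lit 348) (nat_lit 323)) (XT.lf (nat_lit 0) (nat_lit 8436676972) (nat_lit 380) (nat_lit 1293832956) (nat_lit 76) (nat_lit 1754324341) (nat_lit 85) (nat_lit 5) (nat_lit 90) (nat_lit 5) (nat_lit 86) (nat_lit 4) (nat_lit 470) (nat_lit 348) (nat_lit 322))))) (XT.nd (nat_lit 234) (nat_lit 608) (nat_lit 0) (XT.nd (nat_lit 78) (nat_lit 304) (nat_lit 0) (XT.lf (nat_lit 0) (nat_lit 359477359) (nat_lit 304) (nat_lit 6277462670) (nat_lit 76) (nat_lit 4989398400) (nat_lit 81) (nat_lit 5) (nat_lit 85) (nat_lit 5) (nat_lit 82) (nat_lit 5) (nat_lit 471) (nat_lit 348) (nat_lit 321)) (XT.nd (nat_lit 78) (nat_lit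 0) (nat_lit 0) (XT.lf (nat_lit 0) (nat_lit 283292460) (nat_lit 304) (nat_lit 3475819130) (nat_lit 380) (nat_lit 8011891683) (nat_lit 77) (nat_lit 5) (nat_lit 81) (nat_lit 5) (nat_lit 82) (nat_lit 5) (nat_lit 472) (nat_lit 348) (nat_lit 320)) (XT.lf (nat_lit 0) (nat_lit 6989169911) (nat_lit 304) (nat_lit 234177016) (nat_lit 380) (nat_lit 4695308596) (nat_lit 77) (nat_lit 5) (nat_lit 81) (nat_lit 5) (nat_lit 82) (nat_lit 5) (nat_lit 473) (nat_lit 348) (nat_lit 319)))) (XT.nd (nat_lit 156) (nat_lit 304) (nat_lit 0) (XT.nd (nat_lit 78) (nat_lit 76) (nat_lit 0) (XT.lf (nat_lit 0) (nat_lit 1691597802) (nat_lit 228) (nat_lit 9051411974) (nat_lit 304) (nat_lit 1326553947) (nat_lit 74) (nat_lit 5) (nat_lit 77) (nat_lit 5) (nat_lit 78) (nat_lit 4) (nat_lit 474) (nat_lit 348) (nat_lit 318)) (XT.lf (nat_lit 0) (nat_lit 2072074565) (nat_lit 304) (nat_lit 3797070784) (nat_lit 76) (nat_lit 6354292240) (nat_lit 73) (nat_lit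 5) (nat_lit 77) (nat_lit 5) (nat_lit 74) (nat_lit 5) (nat_lit 475) (nat_lit 348) (nat_lit 317))) (XT.nd (nat_lit 78) (nat_lit 0) (nat_lit 0) (XT.lf (nat_lit 0) (nat_lit 2875051228) (nat_lit 304) (nat_lit 2620738230) (nat_lit 380) (nat_lit 6884950851) (nat_lit 69) (nat_lit 5) (nat_lit 73) (nat_lit 5) (nat_lit 74) (nat_lit 5) (nat_lit 476) (nat_lit 348) (nat_lit 316)) (XT.lf (nat_lit 0) (nat_lit 8974564404) (nat_lit 380) (nat_lit 2882842403) (nat_lit 76) (nat_lit 684074362) (nat_lit 69) (nat_lit 5) (nat_lit 74) (nat_lit 5) (nat_lit 70) (nat_lit 4) (nat_lit 477) (nat_lit 348) (nat_lit 315))))))))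
noncomputable def xc35 : XT := (XT.nd (nat_lit 2106) (nat_lit 1292) (nat_lit 0) (XT.nd (nat_lit 1014) (nat_lit 1292) (nat_lit 0) (XT.nd (nat_lit 468) (nat_lit 912) (nat_lit 0) (XT.nd (nat_lit 234) (nat_lit 304) (nat_lit 0) (XT.nd (nat_lit 78) (nat_lit 304) (nat_lit 0) (XT.lf (nat_lit 0) (nat_lit 3837212333) (nat_lit 228) (nat_lit 8685265857) (nat_lit 304) (nat_lit 182990721) (nat_lit 66) (nat_lit 5) (nat_lit 69) (nat_lit 5) (nat_lit 70) (nat_lit 4) (nat_lit 478) (nat_lit 348) (nat_lit 314)) (XT.nd (nat_lit 78) (nat_lit 228) (nat_lit 0) (XT.lf (nat_lit 0) (nat_lit 3202607226) (nat_lit 304) (nat_lit 2231312403) (nat_lit 76) (nat_lit 7438877528) (nat_lit 65) (nat_lit 5) (nat_lit 69) (nat_lit 5) (nat_lit 66) (nat_lit 5) (nat_lit 479) (nat_lit 348) (nat_lit 313)) (XT.lf (nat_lit 0) (nat_lit 4529546346) (nat_lit 228) (nat_lit 2111555509) (nat_lit 304) (nat_lit 6402615210) (nat_lit 62) (nat_lit 5) (nat_lit 65)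 (nat_lit 5) (nat_lit 66) (nat_lit 5) (nat_lit 480) (nat_lit 348) (nat_lit 312)))) (XT.nd (nat_lit 78) (nat_lit 304) (nat_lit 0) (XT.lf (nat_lit 0) (nat_lit 10130178809) (nat_lit 304) (nat_lit 1837542719) (nat_lit 76) (nat_lit 1250719150) (nat_lit 62) (nat_lit 5) (nat_lit 66) (nat_lit 5) (nat_lit 63) (nat_lit 4) (nat_lit 481) (nat_lit 348) (nat_lit 311)) (XT.nd (nat_lit 78) (nat_lit 0) (nat_lit 0) (XT.lf (nat_lit 0) (nat_lit 293993590) (nat_lit 304) (nat_lit 8440794348) (nat_lit 76) (nat_lit 4661744585) (nat_lit 58) (nat_lit 5) (nat_lit 62) (nat_lit 5) (nat_lit 59) (nat_lit 5) (nat_lit 482) (nat_lit 348) (nat_lit 310)) (XT.lf (nat_lit 0) (nat_lit 3674341173) (nat_lit 304) (nat_lit 1754751240) (nat_lit 76) (nat_lit 8149269861) (nat_lit 58) (nat_lit 5) (nat_lit 62) (nat_lit 5) (nat_lit 59) (nat_lit 5) (nat_lit 483) (nat_lit 348) (nat_lit 309))))) (XT.nd (nat_lit 234) (nat_lit 380) (nat_lit 0) (XT.nd (nat_lit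 78) (nat_lit 304) (nat_lit 0) (XT.lf (nat_lit 0) (nat_lit 5066687771) (nat_lit 228) (nat_lit 2048648981) (nat_lit 304) (nat_lit 6648650960) (nat_lit 55) (nat_lit 5) (nat_lit 58) (nat_lit 5) (nat_lit 59) (nat_lit 5) (nat_lit 484) (nat_lit 348) (nat_lit 308)) (XT.nd (nat_lit 78) (nat_lit 304) (nat_lit 0) (XT.lf (nat_lit 0) (nat_lit 10606438418) (nat_lit 304) (nat_lit 1978909601) (nat_lit 76) (nat_lit 1368371441) (nat_lit 55) (nat_lit 5) (nat_lit 59) (nat_lit 5) (nat_lit 56) (nat_lit 4) (nat_lit 485) (nat_lit 348) (nat_lit 307)) (XT.lf (nat_lit 0) (nat_lit 26122992) (nat_lit 304) (nat_lit 9287009643) (nat_lit 76) (nat_lit 4834003949) (nat_lit 51) (nat_lit 5) (nat_lit 55) (nat_lit 5) (nat_lit 52) (nat_lit 5) (nat_lit 486) (nat_lit 348) (nat_lit 306)))) (XT.nd (nat_lit 156) (nat_lit 152) (nat_lit 0) (XT.nd (nat_lit 78) (nat_lit 228) (nat_lit 0) (XT.lf (nat_lit 0) (nat_lit 3396786529) (nat_lit 304) (nat_lit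 2567480577) (nat_lit 76) (nat_lit 8380238603) (nat_lit 51) (nat_lit 5) (nat_lit 55) (nat_lit 5) (nat_lit 52) (nat_lit 5) (nat_lit 487) (nat_lit 348) (nat_lit 305)) (XT.lf (nat_lit 0) (nat_lit 4279985971) (nat_lit 228) (nat_lit 2544628766) (nat_lit 304) (nat_lit 7721430488) (nat_lit 48) (nat_lit 5) (nat_lit 51) (nat_lit 5) (nat_lit 52) (nat_lit 5) (nat_lit 488) (nat_lit 348) (nat_lit 304))) (XT.nd (nat_lit 78) (nat_lit 152) (nat_lit 0) (XT.lf (nat_lit 0) (nat_lit 10306614056) (nat_lit 304) (nat_lit 3521092301) (nat_lit 76) (nat_lit 924214566) (nat_lit 48) (nat_lit 5) (nat_lit 52) (nat_lit 5) (nat_lit 49) (nat_lit 4) (nat_lit 489) (nat_lit 348) (nat_lit 303)) (XT.lf (nat_lit 0) (nat_lit 3323960818) (nat_lit 152) (nat_lit 10535614087) (nat_lit 228) (nat_lit 1102330136) (nat_lit 46) (nat_lit 5) (nat_lit 48) (nat_lit 5) (nat_lit 49) (nat_lit 4) (nat_lit 490) (nat_lit 348) (nat_lit 302)))))) (XT.nd (nat_lit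 546) (nat_lit 532) (nat_lit 0) (XT.nd (nat_lit 234) (nat_lit 456) (nat_lit 0) (XT.nd (nat_lit 78) (nat_lit 228) (nat_lit 0) (XT.lf (nat_lit 0) (nat_lit 2263986265) (nat_lit 228) (nat_lit 4898769904) (nat_lit 76) (nat_lit 8013314829) (nat_lit 45) (nat_lit 5) (nat_lit 48) (nat_lit 5) (nat_lit 46) (nat_lit 5) (nat_lit 491) (nat_lit 348) (nat_lit 301)) (XT.nd (nat_lit 78) (nat_lit 0) (nat_lit 0) (XT.lf (nat_lit 0) (nat_lit 1932785927) (nat_lit 228) (nat_lit 3726330527) (nat_lit 304) (nat_lit 9735749476) (nat_lit 42) (nat_lit 5) (nat_lit 45) (nat_lit 5) (nat_lit 46) (nat_lit 5) (nat_lit 492) (nat_lit 348) (nat_lit 300)) (XT.lf (nat_lit 0) (nat_lit 8907324082) (nat_lit 228) (nat_lit 211705579) (nat_lit 304) (nat_lit 6499085508) (nat_lit 42) (nat_lit 5) (nat_lit 45) (nat_lit 5) (nat_lit 46) (nat_lit 5) (nat_lit 493) (nat_lit 348) (nat_lit 299)))) (XT.nd (nat_lit 156) (nat_lit 228) (nat_lit 0) (XT.nd (nat_lit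 78) (nat_lit 76) (nat_lit 0) (XT.lf (nat_lit 0) (nat_lit 95430368) (nat_lit 152) (nat_lit 12539791173) (nat_lit 228) (nat_lit 3210881944) (nat_lit 40) (nat_lit 5) (nat_lit 42) (nat_lit 5) (nat_lit 43) (nat_lit 4) (nat_lit 494) (nat_lit 348) (nat_lit 298)) (XT.lf (nat_lit 0) (nat_lit 152565639) (nat_lit 228) (nat_lit 9011175229) (nat_lit 76) (nat_lit 6914680083) (nat_lit 39) (nat_lit 5) (nat_lit 42) (nat_lit 5) (nat_lit 40) (nat_lit 5) (nat_lit 495) (nat_lit 348) (nat_lit 297))) (XT.nd (nat_lit 78) (nat_lit 228) (nat_lit 0) (XT.lf (nat_lit 0) (nat_lit 3505645663) (nat_lit 228) (nat_lit 2216521941) (nat_lit 76) (nat_lit 10593500335) (nat_lit 39) (nat_lit 5) (nat_lit 42) (nat_lit 5) (nat_lit 40) (nat_lit 5) (nat_lit 496) (nat_lit 348) (nat_lit 296)) (XT.lf (nat_lit 0) (nat_lit 4718684891) (nat_lit 228) (nat_lit 2203736296) (nat_lit 304) (nat_lit 9635320509) (nat_lit 36) (nat_lit 5) (nat_lit 39) (nat_lit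 5) (nat_lit 40) (nat_lit 5) (nat_lit 497) (nat_lit 348) (nat_lit 295))))) (XT.nd (nat_lit 234) (nat_lit 304) (nat_lit 0) (XT.nd (nat_lit 78) (nat_lit 228) (nat_lit 0) (XT.lf (nat_lit 0) (nat_lit 10397641926) (nat_lit 304) (nat_lit 5048196801) (nat_lit 76) (nat_lit 1359030229) (nat_lit 36) (nat_lit 5) (nat_lit 40) (nat_lit 5) (nat_lit 37) (nat_lit 4) (nat_lit 498) (nat_lit 348) (nat_lit 294)) (XT.nd (nat_lit 78) (nat_lit 76) (nat_lit 0) (XT.lf (nat_lit 0) (nat_lit 1831646242) (nat_lit 152) (nat_lit 12104015635) (nat_lit 228) (nat_lit 3121424931) (nat_lit 34) (nat_lit 5) (nat_lit 36) (nat_lit 5) (nat_lit 37) (nat_lit 4) (nat_lit 499) (nat_lit 348) (nat_lit 293)) (XT.lf (nat_lit 0) (nat_lit 228040686) (nat_lit 228) (nat_lit 8454219834) (nat_lit 76) (nat_lit 8632052718) (nat_lit 33) (nat_lit 5) (nat_lit 36) (nat_lit 5) (nat_lit 34) (nat_lit 5) (nat_lit 500) (nat_lit 348) (nat_lit 292)))) (XT.nd (nat_lit 156)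 (nat_lit 152) (nat_lit 0) (XT.nd (nat_lit 78) (nat_lit 152) (nat_lit 0) (XT.lf (nat_lit 0) (nat_lit 3570253304) (nat_lit 228) (nat_lit 1623487410) (nat_lit 76) (nat_lit 12383192896) (nat_lit 33) (nat_lit 5) (nat_lit 36) (nat_lit 5) (nat_lit 34) (nat_lit 5) (nat_lit 501) (nat_lit 348) (nat_lit 291)) (XT.lf (nat_lit 0) (nat_lit 5359999136) (nat_lit 152) (nat_lit 1622263177) (nat_lit 228) (nat_lit 10862497917) (nat_lit 31) (nat_lit 5) (nat_lit 33) (nat_lit 5) (nat_lit 34) (nat_lit 5) (nat_lit 502) (nat_lit 348) (nat_lit 290))) (XT.nd (nat_lit 78) (nat_lit 152) (nat_lit 0) (XT.lf (nat_lit 0) (nat_lit 10454879781) (nat_lit 228) (nat_lit 5680056141) (nat_lit 76) (nat_lit 1983172722) (nat_lit 31) (nat_lit 5) (nat_lit 34) (nat_lit 5) (nat_lit 32) (nat_lit 4) (nat_lit 503) (nat_lit 348) (nat_lit 289)) (XT.lf (nat_lit 0) (nat_lit 1212667175) (nat_lit 152) (nat_lit 12771803558) (nat_lit 228) (nat_lit 4412715253)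 (nat_lit 29) (nat_lit 5) (nat_lit 31) (nat_lit 5) (nat_lit 32) (nat_lit 4) (nat_lit 504) (nat_lit 348) (nat_lit 288))))))) (XT.nd (nat_lit 1092) (nat_lit 532) (nat_lit 0) (XT.nd (nat_lit 546) (nat_lit 380) (nat_lit 0) (XT.nd (nat_lit 234) (nat_lit 152) (nat_lit 0) (XT.nd (nat_lit 78) (nat_lit 228) (nat_lit 0) (XT.lf (nat_lit 0) (nat_lit 8267353234) (nat_lit 152) (nat_lit 9324587012) (nat_lit 228) (nat_lit 1089771031) (nat_lit 29) (nat_lit 5) (nat_lit 31) (nat_lit 5) (nat_lit 32) (nat_lit 4) (nat_lit 505) (nat_lit 348) (nat_lit 287)) (XT.nd (nat_lit 78) (nat_lit 152) (nat_lit 0) (XT.lf (nat_lit 0) (nat_lit 2239035153) (nat_lit 228) (nat_lit 3575990345) (nat_lit 76) (nat_lit 13157223366) (nat_lit 28) (nat_lit 5) (nat_lit 31) (nat_lit 5) (nat_lit 29) (nat_lit 5) (nat_lit 506) (nat_lit 348) (nat_lit 286)) (XT.lf (nat_lit 0) (nat_lit 3385082919) (nat_lit 152) (nat_lit 2226894319) (nat_lit 228) (nat_lit 13656644299)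 (nat_lit 26) (nat_lit 5) (nat_lit 28) (nat_lit 5) (nat_lit 29) (nat_lit 5) (nat_lit 507) (nat_lit 348) (nat_lit 285)))) (XT.nd (nat_lit 156) (nat_lit 152) (nat_lit 0) (XT.nd (nat_lit 78) (nat_lit 0) (nat_lit 0) (XT.lf (nat_lit 0) (nat_lit 9056113998) (nat_lit 228) (nat_lit 9097421624) (nat_lit 76) (nat_lit 1417322538) (nat_lit 26) (nat_lit 5) (nat_lit 29) (nat_lit 5) (nat_lit 27) (nat_lit 4) (nat_lit 508) (nat_lit 348) (nat_lit 284)) (XT.lf (nat_lit 0) (nat_lit 12554740112) (nat_lit 228) (nat_lit 2240690850) (nat_lit 76) (nat_lit 5084007415) (nat_lit 26) (nat_lit 5) (nat_lit 29) (nat_lit 5) (nat_lit 27) (nat_lit 4) (nat_lit 509) (nat_lit 348) (nat_lit 283))) (XT.nd (nat_lit 78) (nat_lit 0) (nat_lit 0) (XT.lf (nat_lit 0) (nat_lit 4766312132) (nat_lit 152) (nat_lit 11359403042) (nat_lit 228) (nat_lit 4068438275) (nat_lit 24) (nat_lit 5) (nat_lit 26) (nat_lit 5) (nat_lit 27) (nat_lit 4) (nat_lit 510) (nat_lit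 348) (nat_lit 282)) (XT.lf (nat_lit 0) (nat_lit 11894779709) (nat_lit 152) (nat_lit 7860038345) (nat_lit 228) (nat_lit 760621170) (nat_lit 24) (nat_lit 5) (nat_lit 26) (nat_lit 5) (nat_lit 27) (nat_lit 4) (nat_lit 511) (nat_lit 348) (nat_lit 281))))) (XT.nd (nat_lit 234) (nat_lit 152) (nat_lit 0) (XT.nd (nat_lit 78) (nat_lit 152) (nat_lit 0) (XT.lf (nat_lit 0) (nat_lit 2551111091) (nat_lit 228) (nat_lit 1742770396) (nat_lit 76) (nat_lit 16549499364) (nat_lit 23) (nat_lit 5) (nat_lit 26) (nat_lit 5) (nat_lit 24) (nat_lit 5) (nat_lit 512) (nat_lit 348) (nat_lit 280)) (XT.nd (nat_lit 78) (nat_lit 0) (nat_lit 0) (XT.lf (nat_lit 0) (nat_lit 5289493605) (nat_lit 152) (nat_lit 636333863) (nat_lit 228) (nat_lit 15251824561) (nat_lit 21) (nat_lit 5) (nat_lit 23) (nat_lit 5) (nat_lit 24) (nat_lit 5) (nat_lit 513) (nat_lit 348) (nat_lit 279)) (XT.lf (nat_lit 0) (nat_lit 9372584111) (nat_lit 228) (nat_lit 9100145500)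 (nat_lit 76) (nat_lit 3045797865) (nat_lit 21) (nat_lit 5) (nat_lit 24) (nat_lit 5) (nat_lit 22) (nat_lit 4) (nat_lit 514) (nat_lit 348) (nat_lit 278)))) (XT.nd (nat_lit 156) (nat_lit 76) (nat_lit 0) (XT.nd (nat_lit 78) (nat_lit 76) (nat_lit 0) (XT.lf (nat_lit 0) (nat_lit 12865708560) (nat_lit 228) (nat_lit 2227281786) (nat_lit 76) (nat_lit 6773691002) (nat_lit 21) (nat_lit 5) (nat_lit 24) (nat_lit 5) (nat_lit 22) (nat_lit 4) (nat_lit 515) (nat_lit 348) (nat_lit 277)) (XT.lf (nat_lit 0) (nat_lit 4800215143) (nat_lit 76) (nat_lit 11633390205) (nat_lit 152) (nat_lit 5788104136) (nat_lit 20) (nat_lit 5) (nat_lit 21) (nat_lit 5) (nat_lit 22) (nat_lit 4) (nat_lit 516) (nat_lit 348) (nat_lit 276))) (XT.nd (nat_lit 78) (nat_lit 76) (nat_lit 0) (XT.lf (nat_lit 0) (nat_lit 11952974842) (nat_lit 76) (nat_lit 8108794685) (nat_lit 152) (nat_lit 2522299667) (nat_lit 20) (nat_lit 5) (nat_lit 21) (nat_lit 5) (nat_lit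 22) (nat_lit 4) (nat_lit 517) (nat_lit 348) (nat_lit 275)) (XT.lf (nat_lit 0) (nat_lit 772508858) (nat_lit 152) (nat_lit 3755075027) (nat_lit 76) (nat_lit 18426510110) (nat_lit 19) (nat_lit 5) (nat_lit 21) (nat_lit 5) (nat_lit 20) (nat_lit 5) (nat_lit 518) (nat_lit 348) (nat_lit 274)))))) (XT.nd (nat_lit 546) (nat_lit 304) (nat_lit 0) (XT.nd (nat_lit 234) (nat_lit 76) (nat_lit 0) (XT.nd (nat_lit 78) (nat_lit 0) (nat_lit 0) (XT.lf (nat_lit 0) (nat_lit 3240200384) (nat_lit 152) (nat_lit 855108481) (nat_lit 228) (nat_lit 19235968271) (nat_lit 17) (nat_lit 5) (nat_lit 19) (nat_lit 5) (nat_lit 20) (nat_lit 5) (nat_lit 519) (nat_lit 348) (nat_lit 273)) (XT.nd (nat_lit 78) (nat_lit 0) (nat_lit 0) (XT.lf (nat_lit 0) (nat_lit 7503587235) (nat_lit 228) (nat_lit 13352306303) (nat_lit 76) (nat_lit 2859738453) (nat_lit 17) (nat_lit 5) (nat_lit 20) (nat_lit 5) (nat_lit 18) (nat_lit 4) (nat_lit 520) (nat_lit 348) (nat_lit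 272)) (XT.lf (nat_lit 0) (nat_lit 10961074394) (nat_lit 228) (nat_lit 6527710369) (nat_lit 76) (nat_lit 6619276647) (nat_lit 17) (nat_lit 5) (nat_lit 20) (nat_lit 5) (nat_lit 18) (nat_lit 4) (nat_lit 521) (nat_lit 348) (nat_lit 271)))) (XT.nd (nat_lit 156) (nat_lit 0) (nat_lit 0) (XT.nd (nat_lit 78) (nat_lit 0) (nat_lit 0) (XT.lf (nat_lit 0) (nat_lit 396134670) (nat_lit 76) (nat_lit 14070011587) (nat_lit 152) (nat_lit 10042632630) (nat_lit 16) (nat_lit 5) (nat_lit 17) (nat_lit 5) (nat_lit 18) (nat_lit 4) (nat_lit 522) (nat_lit 348) (nat_lit 270)) (XT.lf (nat_lit 0) (nat_lit 7504782452) (nat_lit 76) (nat_lit 10556404022) (nat_lit 152) (nat_lit 6855934911) (nat_lit 16) (nat_lit 5) (nat_lit 17) (nat_lit 5) (nat_lit 18) (nat_lit 4) (nat_lit 523) (nat_lit 348) (nat_lit 269))) (XT.nd (nat_lit 78) (nat_lit 0) (nat_lit 0) (XT.lf (nat_lit 0) (nat_lit 14714270845) (nat_lit 76) (nat_lit 6990388556) (nat_lit 152)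 (nat_lit 3629448546) (nat_lit 16) (nat_lit 5) (nat_lit 17) (nat_lit 5) (nat_lit 18) (nat_lit 4) (nat_lit 524) (nat_lit 348) (nat_lit 268)) (XT.lf (nat_lit 0) (nat_lit 22027427099) (nat_lit 76) (nat_lit 3370566750) (nat_lit 152) (nat_lit 361908247) (nat_lit 16) (nat_lit 5) (nat_lit 17) (nat_lit 5) (nat_lit 18) (nat_lit 4) (nat_lit 525) (nat_lit 348) (nat_lit 267))))) (XT.nd (nat_lit 234) (nat_lit 76) (nat_lit 0) (XT.nd (nat_lit 78) (nat_lit 0) (nat_lit 0) (XT.lf (nat_lit 0) (nat_lit 2932820537) (nat_lit 228) (nat_lit 22919829981) (nat_lit 76) (nat_lit 341167163) (nat_lit 13) (nat_lit 5) (nat_lit 16) (nat_lit 5) (nat_lit 14) (nat_lit 4) (nat_lit 526) (nat_lit 348) (nat_lit 266)) (XT.nd (nat_lit 78) (nat_lit 0) (nat_lit 0) (XT.lf (nat_lit 0) (nat_lit 6313498379) (nat_lit 228) (nat_lit 16229739576) (nat_lit 76) (nat_lit 4092635024) (nat_lit 13) (nat_lit 5) (nat_lit 16) (nat_lit 5) (nat_lit 14) (nat_lit 4)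 (nat_lit 527) (nat_lit 348) (nat_lit 265)) (XT.lf (nat_lit 0) (nat_lit 9739595192) (nat_lit 228) (nat_lit 9445179734) (nat_lit 76) (nat_lit 7902445460) (nat_lit 13) (nat_lit 5) (nat_lit 16) (nat_lit 5) (nat_lit 14) (nat_lit 4) (nat_lit 528) (nat_lit 348) (nat_lit 264)))) (XT.nd (nat_lit 52572) (nat_lit 0) (nat_lit 12996) (XT.nd (nat_lit 78) (nat_lit 76) (nat_lit 0) (XT.lf (nat_lit 0) (nat_lit 13212454545) (nat_lit 228) (nat_lit 2563489842) (nat_lit 76) (nat_lit 11772092513) (nat_lit 13) (nat_lit 5) (nat_lit 16) (nat_lit 5) (nat_lit 14) (nat_lit 4) (nat_lit 529) (nat_lit 348) (nat_lit 263)) (XT.lf (nat_lit 0) (nat_lit 4476742077) (nat_lit 76) (nat_lit 12285762244) (nat_lit 152) (nat_lit 11255417596) (nat_lit 12) (nat_lit 5) (nat_lit 13) (nat_lit 5) (nat_lit 14) (nat_lit 4) (nat_lit 530) (nat_lit 348) (nat_lit 262))) (XT.nd (nat_lit 78) (nat_lit 608) (nat_lit 0) (XT.lf (nat_lit 0) (nat_lit 3872467407) (nat_lit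 608) (nat_lit 204314714) (nat_lit 608) (nat_lit 204314714) (nat_lit 191) (nat_lit 4) (nat_lit 199) (nat_lit 5) (nat_lit 199) (nat_lit 4) (nat_lit 442) (nat_lit 349) (nat_lit 349)) (XT.lf (nat_lit 0) (nat_lit 3106811978) (nat_lit 608) (nat_lit 3491154321) (nat_lit 0) (nat_lit 2039100879) (nat_lit 183) (nat_lit 5) (nat_lit 191) (nat_lit 4) (nat_lit 183) (nat_lit 4) (nat_lit 443) (nat_lit 349) (nat_lit 348))))))))
noncomputable def xc36 : XT := (XT.nd (nat_lit 2106) (nat_lit 3724) (nat_lit 0) (XT.nd (nat_lit 1014) (nat_lit 2964) (nat_lit 0) (XT.nd (nat_lit 468) (nat_lit 2356) (nat_lit 0) (XT.nd (nat_lit 234) (nat_lit 1064) (nat_lit 0) (XT.nd (nat_lit 78) (nat_lit 532) (nat_lit 0) (XT.lf (nat_lit 0) (nat_lit 2473857269) (nat_lit 532) (nat_lit 4177393063) (nat_lit 532) (nat_lit 2062906377) (nat_lit 176) (nat_lit 4) (nat_lit 183) (nat_lit 5) (nat_lit 183) (nat_lit 4) (nat_lit 444) (nat_lit 349) (nat_lit 347))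 (XT.nd (nat_lit 78) (nat_lit 456) (nat_lit 0) (XT.lf (nat_lit 0) (nat_lit 1418129213) (nat_lit 608) (nat_lit 276116248) (nat_lit 76) (nat_lit 7099131417) (nat_lit 175) (nat_lit 5) (nat_lit 183) (nat_lit 5) (nat_lit 176) (nat_lit 4) (nat_lit 445) (nat_lit 349) (nat_lit 346)) (XT.lf (nat_lit 0) (nat_lit 4925712091) (nat_lit 532) (nat_lit 3088400319) (nat_lit 0) (nat_lit 860157899) (nat_lit 169) (nat_lit 5) (nat_lit 176) (nat_lit 4) (nat_lit 169) (nat_lit 4) (nat_lit 446) (nat_lit 349) (nat_lit 345)))) (XT.nd (nat_lit 78) (nat_lit 532) (nat_lit 0) (XT.lf (nat_lit 0) (nat_lit 2965171077) (nat_lit 532) (nat_lit 5512396331) (nat_lit 532) (nat_lit 479783302) (nat_lit 162) (nat_lit 4) (nat_lit 169) (nat_lit 5) (nat_lit 169) (nat_lit 4) (nat_lit 447) (nat_lit 349) (nat_lit 344)) (XT.nd (nat_lit 78) (nat_lit 0) (nat_lit 0) (XT.lf (nat_lit 0) (nat_lit 41669076) (nat_lit 456) (nat_lit 2939706668) (nat_lit 532) (nat_lit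 6061106963) (nat_lit 155) (nat_lit 5) (nat_lit 161) (nat_lit 5) (nat_lit 162) (nat_lit 4) (nat_lit 448) (nat_lit 349) (nat_lit 343)) (XT.lf (nat_lit 0) (nat_lit 6195836724) (nat_lit 456) (nat_lit 292308532) (nat_lit 532) (nat_lit 2641500979) (nat_lit 155) (nat_lit 5) (nat_lit 161) (nat_lit 5) (nat_lit 162) (nat_lit 4) (nat_lit 449) (nat_lit 349) (nat_lit 342))))) (XT.nd (nat_lit 234) (nat_lit 1368) (nat_lit 0) (XT.nd (nat_lit 78) (nat_lit 456) (nat_lit 0) (XT.lf (nat_lit 0) (nat_lit 815254280) (nat_lit 532) (nat_lit 6021321487) (nat_lit 76) (nat_lit 2382316825) (nat_lit 148) (nat_lit 5) (nat_lit 155) (nat_lit 5) (nat_lit 149) (nat_lit 4) (nat_lit 450) (nat_lit 349) (nat_lit 341)) (XT.nd (nat_lit 78) (nat_lit 0) (nat_lit 0) (XT.lf (nat_lit 0) (nat_lit 85228885) (nat_lit 456) (nat_lit 4186681512) (nat_lit 532) (nat_lit 5038387312) (nat_lit 142) (nat_lit 5) (nat_lit 148) (nat_lit 5) (nat_lit 149) (nat_lit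 4) (nat_lit 451) (nat_lit 349) (nat_lit 340)) (XT.lf (nat_lit 0) (nat_lit 6317897897) (nat_lit 456) (nat_lit 1464601403) (nat_lit 532) (nat_lit 1621380486) (nat_lit 142) (nat_lit 5) (nat_lit 148) (nat_lit 5) (nat_lit 149) (nat_lit 4) (nat_lit 452) (nat_lit 349) (nat_lit 339)))) (XT.nd (nat_lit 156) (nat_lit 836) (nat_lit 0) (XT.nd (nat_lit 78) (nat_lit 0) (nat_lit 0) (XT.lf (nat_lit 0) (nat_lit 1813498000) (nat_lit 532) (nat_lit 6380492475) (nat_lit 76) (nat_lit 1305664541) (nat_lit 135) (nat_lit 5) (nat_lit 142) (nat_lit 5) (nat_lit 136) (nat_lit 4) (nat_lit 453) (nat_lit 349) (nat_lit 338)) (XT.lf (nat_lit 0) (nat_lit 5271446335) (nat_lit 532) (nat_lit 204628414) (nat_lit 76) (nat_lit 4121577269) (nat_lit 135) (nat_lit 5) (nat_lit 142) (nat_lit 5) (nat_lit 136) (nat_lit 4) (nat_lit 454) (nat_lit 349) (nat_lit 337))) (XT.nd (nat_lit 78) (nat_lit 456) (nat_lit 0) (XT.lf (nat_lit 0) (nat_lit 6098894075)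 (nat_lit 380) (nat_lit 2685843132) (nat_lit 456) (nat_lit 913189517) (nat_lit 130) (nat_lit 5) (nat_lit 135) (nat_lit 5) (nat_lit 136) (nat_lit 4) (nat_lit 455) (nat_lit 349) (nat_lit 336)) (XT.lf (nat_lit 0) (nat_lit 2501025328) (nat_lit 456) (nat_lit 7128364880) (nat_lit 76) (nat_lit 171190682) (nat_lit 124) (nat_lit 5) (nat_lit 130) (nat_lit 5) (nat_lit 125) (nat_lit 4) (nat_lit 456) (nat_lit 349) (nat_lit 335)))))) (XT.nd (nat_lit 546) (nat_lit 1368) (nat_lit 0) (XT.nd (nat_lit 234) (nat_lit 760) (nat_lit 0) (XT.nd (nat_lit 78) (nat_lit 836) (nat_lit 0) (XT.lf (nat_lit 0) (nat_lit 5960564734) (nat_lit 456) (nat_lit 887663216) (nat_lit 76) (nat_lit 3057193155) (nat_lit 124) (nat_lit 5) (nat_lit 130) (nat_lit 5) (nat_lit 125) (nat_lit 4) (nat_lit 457) (nat_lit 349) (nat_lit 334)) (XT.nd (nat_lit 78) (nat_lit 456) (nat_lit 0) (XT.lf (nat_lit 0) (nat_lit 5474614815) (nat_lit 380) (nat_lit 3998419112)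 (nat_lit 456) (nat_lit 539687695) (nat_lit 119) (nat_lit 5) (nat_lit 124) (nat_lit 5) (nat_lit 125) (nat_lit 4) (nat_lit 458) (nat_lit 349) (nat_lit 333)) (XT.lf (nat_lit 0) (nat_lit 1783154310) (nat_lit 380) (nat_lit 1077878491) (nat_lit 456) (nat_lit 7261472750) (nat_lit 113) (nat_lit 5) (nat_lit 118) (nat_lit 5) (nat_lit 119) (nat_lit 5) (nat_lit 459) (nat_lit 349) (nat_lit 332)))) (XT.nd (nat_lit 156) (nat_lit 456) (nat_lit 0) (XT.nd (nat_lit 78) (nat_lit 304) (nat_lit 0) (XT.lf (nat_lit 0) (nat_lit 6314268948) (nat_lit 456) (nat_lit 2033316570) (nat_lit 76) (nat_lit 1887029811) (nat_lit 113) (nat_lit 5) (nat_lit 119) (nat_lit 5) (nat_lit 114) (nat_lit 4) (nat_lit 460) (nat_lit 349) (nat_lit 331)) (XT.lf (nat_lit 0) (nat_lit 4374884229) (nat_lit 304) (nat_lit 5446957051) (nat_lit 380) (nat_lit 527455959) (nat_lit 109) (nat_lit 5) (nat_lit 113) (nat_lit 5) (nat_lit 114) (nat_lit 4) (nat_lit 461) (nat_lit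 349) (nat_lit 330))) (XT.nd (nat_lit 78) (nat_lit 0) (nat_lit 0) (XT.lf (nat_lit 0) (nat_lit 384310612) (nat_lit 380) (nat_lit 2476613121) (nat_lit 456) (nat_lit 7605680105) (nat_lit 103) (nat_lit 5) (nat_lit 108) (nat_lit 5) (nat_lit 109) (nat_lit 5) (nat_lit 462) (nat_lit 349) (nat_lit 329)) (XT.lf (nat_lit 0) (nat_lit 6304180494) (nat_lit 456) (nat_lit 3716395563) (nat_lit 76) (nat_lit 565760666) (nat_lit 103) (nat_lit 5) (nat_lit 109) (nat_lit 5) (nat_lit 104) (nat_lit 4) (nat_lit 463) (nat_lit 349) (nat_lit 328))))) (XT.nd (nat_lit 234) (nat_lit 684) (nat_lit 0) (XT.nd (nat_lit 78) (nat_lit 380) (nat_lit 0) (XT.lf (nat_lit 0) (nat_lit 2722810814) (nat_lit 304) (nat_lit 7078764623) (nat_lit 380) (nat_lit 907216040) (nat_lit 99) (nat_lit 5) (nat_lit 103) (nat_lit 5) (nat_lit 104) (nat_lit 4) (nat_lit 464) (nat_lit 349) (nat_lit 327)) (XT.nd (nat_lit 78) (nat_lit 304) (nat_lit 0) (XT.lf (nat_lit 0)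 (nat_lit 2478402986) (nat_lit 380) (nat_lit 1582157898) (nat_lit 76) (nat_lit 6773308037) (nat_lit 98) (nat_lit 5) (nat_lit 103) (nat_lit 5) (nat_lit 99) (nat_lit 5) (nat_lit 465) (nat_lit 349) (nat_lit 326)) (XT.lf (nat_lit 0) (nat_lit 4936402641) (nat_lit 304) (nat_lit 967526090) (nat_lit 380) (nat_lit 5057743198) (nat_lit 94) (nat_lit 5) (nat_lit 98) (nat_lit 5) (nat_lit 99) (nat_lit 5) (nat_lit 466) (nat_lit 349) (nat_lit 325)))) (XT.nd (nat_lit 156) (nat_lit 304) (nat_lit 0) (XT.nd (nat_lit 78) (nat_lit 76) (nat_lit 0) (XT.lf (nat_lit 0) (nat_lit 433966338) (nat_lit 304) (nat_lit 8944298462) (nat_lit 380) (nat_lit 1714190386) (nat_lit 90) (nat_lit 5) (nat_lit 94) (nat_lit 5) (nat_lit 95) (nat_lit 4) (nat_lit 467) (nat_lit 349) (nat_lit 324)) (XT.lf (nat_lit 0) (nat_lit 1673810339) (nat_lit 380) (nat_lit 4211269289) (nat_lit 76) (nat_lit 5340586763) (nat_lit 89) (nat_lit 5) (nat_lit 94) (nat_lit 5)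 (nat_lit 90) (nat_lit 5) (nat_lit 468) (nat_lit 349) (nat_lit 323))) (XT.nd (nat_lit 78) (nat_lit 0) (nat_lit 0) (XT.lf (nat_lit 0) (nat_lit 2312701025) (nat_lit 304) (nat_lit 2762596553) (nat_lit 380) (nat_lit 6286672479) (nat_lit 85) (nat_lit 5) (nat_lit 89) (nat_lit 5) (nat_lit 90) (nat_lit 5) (nat_lit 469) (nat_lit 349) (nat_lit 322)) (XT.lf (nat_lit 0) (nat_lit 8529935008) (nat_lit 380) (nat_lit 2550617896) (nat_lit 76) (nat_lit 420772368) (nat_lit 85) (nat_lit 5) (nat_lit 90) (nat_lit 5) (nat_lit 86) (nat_lit 4) (nat_lit 470) (nat_lit 349) (nat_lit 321))))))) (XT.nd (nat_lit 1014) (nat_lit 1672) (nat_lit 0) (XT.nd (nat_lit 468) (nat_lit 836) (nat_lit 0) (XT.nd (nat_lit 234) (nat_lit 608) (nat_lit 0) (XT.nd (nat_lit 78) (nat_lit 304) (nat_lit 0) (XT.lf (nat_lit 0) (nat_lit 404164219) (nat_lit 304) (nat_lit 7603523354) (nat_lit 76) (nat_lit 3635766627) (nat_lit 81) (nat_lit 5) (nat_lit 85) (nat_lit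 5) (nat_lit 82) (nat_lit 5) (nat_lit 471) (nat_lit 349) (nat_lit 320)) (XT.nd (nat_lit 78) (nat_lit 304) (nat_lit 0) (XT.lf (nat_lit 0) (nat_lit 3779654933) (nat_lit 304) (nat_lit 1081261789) (nat_lit 76) (nat_lit 6927698202) (nat_lit 81) (nat_lit 5) (nat_lit 85) (nat_lit 5) (nat_lit 82) (nat_lit 5) (nat_lit 472) (nat_lit 349) (nat_lit 319)) (XT.lf (nat_lit 0) (nat_lit 5575696930) (nat_lit 304) (nat_lit 1638988599) (nat_lit 380) (nat_lit 4722178492) (nat_lit 77) (nat_lit 5) (nat_lit 81) (nat_lit 5) (nat_lit 82) (nat_lit 5) (nat_lit 473) (nat_lit 349) (nat_lit 318)))) (XT.nd (nat_lit 78) (nat_lit 380) (nat_lit 0) (XT.lf (nat_lit 0) (nat_lit 215438947) (nat_lit 228) (nat_lit 10478466944) (nat_lit 304) (nat_lit 1394687683) (nat_lit 74) (nat_lit 5) (nat_lit 77) (nat_lit 5) (nat_lit 78) (nat_lit 4) (nat_lit 474) (nat_lit 349) (nat_lit 317)) (XT.nd (nat_lit 78) (nat_lit 304) (nat_lit 0) (XT.lf (nat_lit 0) (nat_lit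 1983147794) (nat_lit 304) (nat_lit 5326130346) (nat_lit 76) (nat_lit 4933643897) (nat_lit 73) (nat_lit 5) (nat_lit 77) (nat_lit 5) (nat_lit 74) (nat_lit 5) (nat_lit 475) (nat_lit 349) (nat_lit 316)) (XT.lf (nat_lit 0) (nat_lit 1291583790) (nat_lit 304) (nat_lit 4083736583) (nat_lit 380) (nat_lit 7025547013) (nat_lit 69) (nat_lit 5) (nat_lit 73) (nat_lit 5) (nat_lit 74) (nat_lit 5) (nat_lit 476) (nat_lit 349) (nat_lit 315))))) (XT.nd (nat_lit 234) (nat_lit 532) (nat_lit 0) (XT.nd (nat_lit 78) (nat_lit 304) (nat_lit 0) (XT.lf (nat_lit 0) (nat_lit 8046342728) (nat_lit 304) (nat_lit 782190618) (nat_lit 380) (nat_lit 3733597689) (nat_lit 69) (nat_lit 5) (nat_lit 73) (nat_lit 5) (nat_lit 74) (nat_lit 5) (nat_lit 477) (nat_lit 349) (nat_lit 314)) (XT.nd (nat_lit 78) (nat_lit 76) (nat_lit 0) (XT.lf (nat_lit 0) (nat_lit 2154161964) (nat_lit 228) (nat_lit 10185552015) (nat_lit 304) (nat_lit 387150785) (nat_lit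 66) (nat_lit 5) (nat_lit 69) (nat_lit 5) (nat_lit 70) (nat_lit 4) (nat_lit 478) (nat_lit 349) (nat_lit 313)) (XT.lf (nat_lit 0) (nat_lit 2980443500) (nat_lit 304) (nat_lit 3967610442) (nat_lit 76) (nat_lit 5946590090) (nat_lit 65) (nat_lit 5) (nat_lit 69) (nat_lit 5) (nat_lit 66) (nat_lit 5) (nat_lit 479) (nat_lit 349) (nat_lit 312)))) (XT.nd (nat_lit 156) (nat_lit 304) (nat_lit 0) (XT.nd (nat_lit 78) (nat_lit 0) (nat_lit 0) (XT.lf (nat_lit 0) (nat_lit 2737214734) (nat_lit 228) (nat_lit 3649810646) (nat_lit 304) (nat_lit 6679187485) (nat_lit 62) (nat_lit 5) (nat_lit 65) (nat_lit 5) (nat_lit 66) (nat_lit 5) (nat_lit 480) (nat_lit 349) (nat_lit 311)) (XT.lf (nat_lit 0) (nat_lit 9564646502) (nat_lit 228) (nat_lit 283139441) (nat_lit 304) (nat_lit 3393727327) (nat_lit 62) (nat_lit 5) (nat_lit 65) (nat_lit 5) (nat_lit 66) (nat_lit 5) (nat_lit 481) (nat_lit 349) (nat_lit 310))) (XT.nd (nat_lit 78) (nat_lit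 76) (nat_lit 0) (XT.lf (nat_lit 0) (nat_lit 3063375185) (nat_lit 228) (nat_lit 10314794244) (nat_lit 304) (nat_lit 42162816) (nat_lit 59) (nat_lit 5) (nat_lit 62) (nat_lit 5) (nat_lit 63) (nat_lit 4) (nat_lit 482) (nat_lit 349) (nat_lit 309)) (XT.lf (nat_lit 0) (nat_lit 3319007415) (nat_lit 304) (nat_lit 3702707273) (nat_lit 76) (nat_lit 6580857246) (nat_lit 58) (nat_lit 5) (nat_lit 62) (nat_lit 5) (nat_lit 59) (nat_lit 5) (nat_lit 483) (nat_lit 349) (nat_lit 308)))))) (XT.nd (nat_lit 546) (nat_lit 760) (nat_lit 0) (XT.nd (nat_lit 234) (nat_lit 456) (nat_lit 0) (XT.nd (nat_lit 78) (nat_lit 228) (nat_lit 0) (XT.lf (nat_lit 0) (nat_lit 3060988325) (nat_lit 228) (nat_lit 3666648885) (nat_lit 304) (nat_lit 7061217144) (nat_lit 55) (nat_lit 5) (nat_lit 58) (nat_lit 5) (nat_lit 59) (nat_lit 5) (nat_lit 484) (nat_lit 349) (nat_lit 307)) (XT.nd (nat_lit 78) (nat_lit 228) (nat_lit 0) (XT.lf (nat_lit 0) (nat_lit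 9947061433) (nat_lit 228) (nat_lit 243508053) (nat_lit 304) (nat_lit 3788589479) (nat_lit 55) (nat_lit 5) (nat_lit 58) (nat_lit 5) (nat_lit 59) (nat_lit 5) (nat_lit 485) (nat_lit 349) (nat_lit 306)) (XT.lf (nat_lit 0) (nat_lit 2750092132) (nat_lit 228) (nat_lit 10973499294) (nat_lit 304) (nat_lit 449680387) (nat_lit 52) (nat_lit 5) (nat_lit 55) (nat_lit 5) (nat_lit 56) (nat_lit 4) (nat_lit 486) (nat_lit 349) (nat_lit 305)))) (XT.nd (nat_lit 156) (nat_lit 152) (nat_lit 0) (XT.nd (nat_lit 78) (nat_lit 228) (nat_lit 0) (XT.lf (nat_lit 0) (nat_lit 2908050537) (nat_lit 304) (nat_lit 4731714104) (nat_lit 76) (nat_lit 6731320224) (nat_lit 51) (nat_lit 5) (nat_lit 55) (nat_lit 5) (nat_lit 52) (nat_lit 5) (nat_lit 487) (nat_lit 349) (nat_lit 304)) (XT.lf (nat_lit 0) (nat_lit 2056211644) (nat_lit 228) (nat_lit 4246767852) (nat_lit 304) (nat_lit 8270311624) (nat_lit 48) (nat_lit 5) (nat_lit 51) (nat_lit 5) (nat_lit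 52) (nat_lit 5) (nat_lit 488) (nat_lit 349) (nat_lit 303))) (XT.nd (nat_lit 78) (nat_lit 152) (nat_lit 0) (XT.lf (nat_lit 0) (nat_lit 8983080502) (nat_lit 228) (nat_lit 777522983) (nat_lit 304) (nat_lit 5019059423) (nat_lit 48) (nat_lit 5) (nat_lit 51) (nat_lit 5) (nat_lit 52) (nat_lit 5) (nat_lit 489) (nat_lit 349) (nat_lit 302)) (XT.lf (nat_lit 0) (nat_lit 993073307) (nat_lit 152) (nat_lit 12282297293) (nat_lit 228) (nat_lit 1715048714) (nat_lit 46) (nat_lit 5) (nat_lit 48) (nat_lit 5) (nat_lit 49) (nat_lit 4) (nat_lit 490) (nat_lit 349) (nat_lit 301))))) (XT.nd (nat_lit 234) (nat_lit 456) (nat_lit 0) (XT.nd (nat_lit 78) (nat_lit 228) (nat_lit 0) (XT.lf (nat_lit 0) (nat_lit 1641325846) (nat_lit 228) (nat_lit 7284119557) (nat_lit 76) (nat_lit 6279587075) (nat_lit 45) (nat_lit 5) (nat_lit 48) (nat_lit 5) (nat_lit 46) (nat_lit 5) (nat_lit 491) (nat_lit 349) (nat_lit 300)) (XT.nd (nat_lit 78) (nat_lit 228)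 (nat_lit 0) (XT.lf (nat_lit 0) (nat_lit 5006281856) (nat_lit 228) (nat_lit 507251820) (nat_lit 76) (nat_lit 9910905146) (nat_lit 45) (nat_lit 5) (nat_lit 48) (nat_lit 5) (nat_lit 46) (nat_lit 5) (nat_lit 492) (nat_lit 349) (nat_lit 299)) (XT.lf (nat_lit 0) (nat_lit 6431398986) (nat_lit 228) (nat_lit 2013989999) (nat_lit 304) (nat_lit 7202722970) (nat_lit 42) (nat_lit 5) (nat_lit 45) (nat_lit 5) (nat_lit 46) (nat_lit 5) (nat_lit 493) (nat_lit 349) (nat_lit 298)))) (XT.nd (nat_lit 156) (nat_lit 304) (nat_lit 0) (XT.nd (nat_lit 78) (nat_lit 152) (nat_lit 0) (XT.lf (nat_lit 0) (nat_lit 11932058945) (nat_lit 304) (nat_lit 2428892035) (nat_lit 76) (nat_lit 1515747351) (nat_lit 42) (nat_lit 5) (nat_lit 46) (nat_lit 5) (nat_lit 43) (nat_lit 4) (nat_lit 494) (nat_lit 349) (nat_lit 297)) (XT.lf (nat_lit 0) (nat_lit 4483007662) (nat_lit 152) (nat_lit 11013834857) (nat_lit 228) (nat_lit 612861405) (nat_lit 40) (nat_lit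 5) (nat_lit 42) (nat_lit 5) (nat_lit 43) (nat_lit 4) (nat_lit 495) (nat_lit 349) (nat_lit 296))) (XT.nd (nat_lit 78) (nat_lit 228) (nat_lit 0) (XT.lf (nat_lit 0) (nat_lit 2731423271) (nat_lit 228) (nat_lit 4856393536) (nat_lit 76) (nat_lit 8759557532) (nat_lit 39) (nat_lit 5) (nat_lit 42) (nat_lit 5) (nat_lit 40) (nat_lit 5) (nat_lit 496) (nat_lit 349) (nat_lit 295)) (XT.lf (nat_lit 0) (nat_lit 2015587508) (nat_lit 228) (nat_lit 4098557912) (nat_lit 304) (nat_lit 10475990784) (nat_lit 36) (nat_lit 5) (nat_lit 39) (nat_lit 5) (nat_lit 40) (nat_lit 5) (nat_lit 497) (nat_lit 349) (nat_lit 294))))))))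
noncomputable def xc37 : XT := (XT.nd (nat_lit 2106) (nat_lit 228) (nat_lit 0) (XT.nd (nat_lit 1014) (nat_lit 608) (nat_lit 0) (XT.nd (nat_lit 468) (nat_lit 532) (nat_lit 0) (XT.nd (nat_lit 234) (nat_lit 228) (nat_lit 0) (XT.nd (nat_lit 78) (nat_lit 152) (nat_lit 0) (XT.lf (nat_lit 0) (nat_lit 9035103125) (nat_lit 228) (nat_lit 528963420) (nat_lit 304) (nat_lit 7273709814) (nat_lit 36) (nat_lit 5) (nat_lit 39) (nat_lit 5) (nat_lit 40) (nat_lit 5) (nat_lit 498) (nat_lit 349) (nat_lit 293)) (XT.nd (nat_lit 78) (nat_lit 152) (nat_lit 0) (XT.lf (nat_lit 0) (nat_lit 13070650484) (nat_lit 304) (nat_lit 970724649) (nat_lit 76) (nat_lit 3049254566) (nat_lit 36) (nat_lit 5) (nat_lit 40) (nat_lit 5) (nat_lit 37) (nat_lit 4) (nat_lit 499) (nat_lit 349) (nat_lit 292)) (XT.lf (nat_lit 0) (nat_lit 6019225543) (nat_lit 152) (nat_lit 10638821562) (nat_lit 228) (nat_lit 690292782) (nat_lit 34) (nat_lit 5) (nat_lit 36)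 (nat_lit 5) (nat_lit 37) (nat_lit 4) (nat_lit 500) (nat_lit 349) (nat_lit 291)))) (XT.nd (nat_lit 78) (nat_lit 152) (nat_lit 0) (XT.lf (nat_lit 0) (nat_lit 2645206550) (nat_lit 228) (nat_lit 4520710913) (nat_lit 76) (nat_lit 10445454143) (nat_lit 33) (nat_lit 5) (nat_lit 36) (nat_lit 5) (nat_lit 34) (nat_lit 5) (nat_lit 501) (nat_lit 349) (nat_lit 290)) (XT.nd (nat_lit 78) (nat_lit 0) (nat_lit 0) (XT.lf (nat_lit 0) (nat_lit 2397638614) (nat_lit 152) (nat_lit 3624885885) (nat_lit 228) (nat_lit 11857373799) (nat_lit 31) (nat_lit 5) (nat_lit 33) (nat_lit 5) (nat_lit 34) (nat_lit 5) (nat_lit 502) (nat_lit 349) (nat_lit 289)) (XT.lf (nat_lit 0) (nat_lit 9462887915) (nat_lit 152) (nat_lit 3882962) (nat_lit 228) (nat_lit 8687049386) (nat_lit 31) (nat_lit 5) (nat_lit 33) (nat_lit 5) (nat_lit 34) (nat_lit 5) (nat_lit 503) (nat_lit 349) (nat_lit 288))))) (XT.nd (nat_lit 234) (nat_lit 304) (nat_lit 0) (XT.nd (nat_lit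 78) (nat_lit 228) (nat_lit 0) (XT.lf (nat_lit 0) (nat_lit 12973371075) (nat_lit 228) (nat_lit 1839926172) (nat_lit 76) (nat_lit 3620066182) (nat_lit 31) (nat_lit 5) (nat_lit 34) (nat_lit 5) (nat_lit 32) (nat_lit 4) (nat_lit 504) (nat_lit 349) (nat_lit 287)) (XT.nd (nat_lit 78) (nat_lit 76) (nat_lit 0) (XT.lf (nat_lit 0) (nat_lit 5164640221) (nat_lit 152) (nat_lit 11389132756) (nat_lit 228) (nat_lit 2164662987) (nat_lit 29) (nat_lit 5) (nat_lit 31) (nat_lit 5) (nat_lit 32) (nat_lit 4) (nat_lit 505) (nat_lit 349) (nat_lit 286)) (XT.lf (nat_lit 0) (nat_lit 1163468304) (nat_lit 228) (nat_lit 6733815833) (nat_lit 76) (nat_lit 11112130100) (nat_lit 28) (nat_lit 5) (nat_lit 31) (nat_lit 5) (nat_lit 29) (nat_lit 5) (nat_lit 506) (nat_lit 349) (nat_lit 285)))) (XT.nd (nat_lit 156) (nat_lit 152) (nat_lit 0) (XT.nd (nat_lit 78) (nat_lit 0) (nat_lit 0) (XT.lf (nat_lit 0) (nat_lit 160091779) (nat_lit 152) (nat_lit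 4340897188) (nat_lit 228) (nat_lit 14805511923) (nat_lit 26) (nat_lit 5) (nat_lit 28) (nat_lit 5) (nat_lit 29) (nat_lit 5) (nat_lit 507) (nat_lit 349) (nat_lit 284)) (XT.lf (nat_lit 0) (nat_lit 7233250677) (nat_lit 152) (nat_lit 688191486) (nat_lit 228) (nat_lit 11687774464) (nat_lit 26) (nat_lit 5) (nat_lit 28) (nat_lit 5) (nat_lit 29) (nat_lit 5) (nat_lit 508) (nat_lit 349) (nat_lit 283))) (XT.nd (nat_lit 78) (nat_lit 152) (nat_lit 0) (XT.lf (nat_lit 0) (nat_lit 11401456699) (nat_lit 228) (nat_lit 5539209282) (nat_lit 76) (nat_lit 2977508431) (nat_lit 26) (nat_lit 5) (nat_lit 29) (nat_lit 5) (nat_lit 27) (nat_lit 4) (nat_lit 509) (nat_lit 349) (nat_lit 282)) (XT.lf (nat_lit 0) (nat_lit 1399676631) (nat_lit 152) (nat_lit 13537030638) (nat_lit 228) (nat_lit 5296901936) (nat_lit 24) (nat_lit 5) (nat_lit 26) (nat_lit 5) (nat_lit 27) (nat_lit 4) (nat_lit 510) (nat_lit 349) (nat_lit 281)))))) (XT.nd (nat_lit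 546) (nat_lit 304) (nat_lit 0) (XT.nd (nat_lit 234) (nat_lit 76) (nat_lit 0) (XT.nd (nat_lit 78) (nat_lit 228) (nat_lit 0) (XT.lf (nat_lit 0) (nat_lit 8504338820) (nat_lit 152) (nat_lit 10047722590) (nat_lit 228) (nat_lit 2003113673) (nat_lit 24) (nat_lit 5) (nat_lit 26) (nat_lit 5) (nat_lit 27) (nat_lit 4) (nat_lit 511) (nat_lit 349) (nat_lit 280)) (XT.nd (nat_lit 78) (nat_lit 152) (nat_lit 0) (XT.lf (nat_lit 0) (nat_lit 1311340718) (nat_lit 228) (nat_lit 5188403987) (nat_lit 76) (nat_lit 14383809745) (nat_lit 23) (nat_lit 5) (nat_lit 26) (nat_lit 5) (nat_lit 24) (nat_lit 5) (nat_lit 512) (nat_lit 349) (nat_lit 279)) (XT.lf (nat_lit 0) (nat_lit 1774700191) (nat_lit 152) (nat_lit 2875229295) (nat_lit 228) (nat_lit 16568623527) (nat_lit 21) (nat_lit 5) (nat_lit 23) (nat_lit 5) (nat_lit 24) (nat_lit 5) (nat_lit 513) (nat_lit 349) (nat_lit 278)))) (XT.nd (nat_lit 156) (nat_lit 76) (nat_lit 0) (XT.nd (nat_lit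 78) (nat_lit 0) (nat_lit 0) (XT.lf (nat_lit 0) (nat_lit 8068891587) (nat_lit 228) (nat_lit 12664420006) (nat_lit 76) (nat_lit 826677494) (nat_lit 21) (nat_lit 5) (nat_lit 24) (nat_lit 5) (nat_lit 22) (nat_lit 4) (nat_lit 514) (nat_lit 349) (nat_lit 277)) (XT.lf (nat_lit 0) (nat_lit 11549017853) (nat_lit 228) (nat_lit 5814219532) (nat_lit 76) (nat_lit 4545170184) (nat_lit 21) (nat_lit 5) (nat_lit 24) (nat_lit 5) (nat_lit 22) (nat_lit 4) (nat_lit 515) (nat_lit 349) (nat_lit 276))) (XT.nd (nat_lit 78) (nat_lit 0) (nat_lit 0) (XT.lf (nat_lit 0) (nat_lit 1143094743) (nat_lit 76) (nat_lit 13937332129) (nat_lit 152) (nat_lit 7183743143) (nat_lit 20) (nat_lit 5) (nat_lit 21) (nat_lit 5) (nat_lit 22) (nat_lit 4) (nat_lit 516) (nat_lit 349) (nat_lit 275)) (XT.lf (nat_lit 0) (nat_lit 8273781756) (nat_lit 76) (nat_lit 10422172536) (nat_lit 152) (nat_lit 3930832632) (nat_lit 20) (nat_lit 5) (nat_lit 21) (nat_lit 5)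 (nat_lit 22) (nat_lit 4) (nat_lit 517) (nat_lit 349) (nat_lit 274))))) (XT.nd (nat_lit 234) (nat_lit 76) (nat_lit 0) (XT.nd (nat_lit 78) (nat_lit 228) (nat_lit 0) (XT.lf (nat_lit 0) (nat_lit 15503369937) (nat_lit 76) (nat_lit 6855396586) (nat_lit 152) (nat_lit 638399006) (nat_lit 20) (nat_lit 5) (nat_lit 21) (nat_lit 5) (nat_lit 22) (nat_lit 4) (nat_lit 518) (nat_lit 349) (nat_lit 273)) (XT.nd (nat_lit 78) (nat_lit 152) (nat_lit 0) (XT.lf (nat_lit 0) (nat_lit 2659505456) (nat_lit 152) (nat_lit 558253405) (nat_lit 76) (nat_lit 20157342279) (nat_lit 19) (nat_lit 5) (nat_lit 21) (nat_lit 5) (nat_lit 20) (nat_lit 5) (nat_lit 519) (nat_lit 349) (nat_lit 272)) (XT.lf (nat_lit 0) (nat_lit 6036558896) (nat_lit 228) (nat_lit 17208141415) (nat_lit 76) (nat_lit 515384307) (nat_lit 17) (nat_lit 5) (nat_lit 20) (nat_lit 5) (nat_lit 18) (nat_lit 4) (nat_lit 520) (nat_lit 349) (nat_lit 271)))) (XT.nd (nat_lit 156) (nat_lit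 76) (nat_lit 0) (XT.nd (nat_lit 78) (nat_lit 0) (nat_lit 0) (XT.lf (nat_lit 0) (nat_lit 9482097042) (nat_lit 228) (nat_lit 10404554486) (nat_lit 76) (nat_lit 4266105535) (nat_lit 17) (nat_lit 5) (nat_lit 20) (nat_lit 5) (nat_lit 18) (nat_lit 4) (nat_lit 521) (nat_lit 349) (nat_lit 270)) (XT.lf (nat_lit 0) (nat_lit 12972882218) (nat_lit 228) (nat_lit 3506501887) (nat_lit 76) (nat_lit 8074380134) (nat_lit 17) (nat_lit 5) (nat_lit 20) (nat_lit 5) (nat_lit 18) (nat_lit 4) (nat_lit 522) (nat_lit 349) (nat_lit 269))) (XT.nd (nat_lit 78) (nat_lit 0) (nat_lit 0) (XT.lf (nat_lit 0) (nat_lit 3535084773) (nat_lit 76) (nat_lit 12998150701) (nat_lit 152) (nat_lit 8429568889) (nat_lit 16) (nat_lit 5) (nat_lit 17) (nat_lit 5) (nat_lit 18) (nat_lit 4) (nat_lit 523) (nat_lit 349) (nat_lit 268)) (XT.lf (nat_lit 0) (nat_lit 10724512816) (nat_lit 76) (nat_lit 9440805517) (nat_lit 152) (nat_lit 5214704203) (nat_lit 16) (nat_lit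 5) (nat_lit 17) (nat_lit 5) (nat_lit 18) (nat_lit 4) (nat_lit 524) (nat_lit 349) (nat_lit 267))))))) (XT.nd (nat_lit 53430) (nat_lit 0) (nat_lit 7220) (XT.nd (nat_lit 52884) (nat_lit 0) (nat_lit 11248) (XT.nd (nat_lit 234) (nat_lit 0) (nat_lit 0) (XT.nd (nat_lit 78) (nat_lit 228) (nat_lit 0) (XT.lf (nat_lit 0) (nat_lit 18018002060) (nat_lit 76) (nat_lit 5829483987) (nat_lit 152) (nat_lit 1958557707) (nat_lit 16) (nat_lit 5) (nat_lit 17) (nat_lit 5) (nat_lit 18) (nat_lit 4) (nat_lit 525) (nat_lit 349) (nat_lit 266)) (XT.nd (nat_lit 78) (nat_lit 152) (nat_lit 0) (XT.lf (nat_lit 0) (nat_lit 1322571243) (nat_lit 152) (nat_lit 831323516) (nat_lit 76) (nat_lit 24086966306) (nat_lit 15) (nat_lit 5) (nat_lit 17) (nat_lit 5) (nat_lit 16) (nat_lit 5) (nat_lit 526) (nat_lit 349) (nat_lit 265)) (XT.lf (nat_lit 0) (nat_lit 4672771699) (nat_lit 228) (nat_lit 20398702152) (nat_lit 76) (nat_lit 1612055580) (nat_lit 13)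 (nat_lit 5) (nat_lit 16) (nat_lit 5) (nat_lit 14) (nat_lit 4) (nat_lit 527) (nat_lit 349) (nat_lit 264)))) (XT.nd (nat_lit 52494) (nat_lit 0) (nat_lit 13528) (XT.nd (nat_lit 78) (nat_lit 0) (nat_lit 0) (XT.lf (nat_lit 0) (nat_lit 8088096534) (nat_lit 228) (nat_lit 13633231986) (nat_lit 76) (nat_lit 5413767209) (nat_lit 13) (nat_lit 5) (nat_lit 16) (nat_lit 5) (nat_lit 14) (nat_lit 4) (nat_lit 528) (nat_lit 349) (nat_lit 263)) (XT.lf (nat_lit 0) (nat_lit 11550395123) (nat_lit 228) (nat_lit 6770257465) (nat_lit 76) (nat_lit 9275474256) (nat_lit 13) (nat_lit 5) (nat_lit 16) (nat_lit 5) (nat_lit 14) (nat_lit 4) (nat_lit 529) (nat_lit 349) (nat_lit 262))) (XT.nd (nat_lit 78) (nat_lit 608) (nat_lit 0) (XT.lf (nat_lit 0) (nat_lit 1091493596) (nat_lit 608) (nat_lit 2025394261) (nat_lit 0) (nat_lit 1091493596) (nat_lit 199) (nat_lit 5) (nat_lit 207) (nat_lit 4) (nat_lit 199) (nat_lit 4) (nat_lit 440) (nat_lit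 350) (nat_lit 350)) (XT.lf (nat_lit 0) (nat_lit 1780931604) (nat_lit 608) (nat_lit 3909313401) (nat_lit 608) (nat_lit 2798466774) (nat_lit 191) (nat_lit 4) (nat_lit 199) (nat_lit 5) (nat_lit 199) (nat_lit 4) (nat_lit 441) (nat_lit 350) (nat_lit 349))))) (XT.nd (nat_lit 234) (nat_lit 1140) (nat_lit 0) (XT.nd (nat_lit 78) (nat_lit 1064) (nat_lit 0) (XT.lf (nat_lit 0) (nat_lit 662958082) (nat_lit 684) (nat_lit 860736621) (nat_lit 76) (nat_lit 7039036930) (nat_lit 190) (nat_lit 5) (nat_lit 199) (nat_lit 5) (nat_lit 191) (nat_lit 4) (nat_lit 442) (nat_lit 350) (nat_lit 348)) (XT.nd (nat_lit 78) (nat_lit 532) (nat_lit 0) (XT.lf (nat_lit 0) (nat_lit 4135743217) (nat_lit 608) (nat_lit 3570391198) (nat_lit 0) (nat_lit 932191211) (nat_lit 183) (nat_lit 5) (nat_lit 191) (nat_lit 4) (nat_lit 183) (nat_lit 4) (nat_lit 443) (nat_lit 350) (nat_lit 347)) (XT.lf (nat_lit 0) (nat_lit 2354599265) (nat_lit 532) (nat_lit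 5295622369) (nat_lit 532) (nat_lit 1065819788) (nat_lit 176) (nat_lit 4) (nat_lit 183) (nat_lit 5) (nat_lit 183) (nat_lit 4) (nat_lit 444) (nat_lit 350) (nat_lit 346)))) (XT.nd (nat_lit 156) (nat_lit 608) (nat_lit 0) (XT.nd (nat_lit 78) (nat_lit 456) (nat_lit 0) (XT.lf (nat_lit 0) (nat_lit 2373060097) (nat_lit 608) (nat_lit 442349198) (nat_lit 76) (nat_lit 5980330411) (nat_lit 175) (nat_lit 5) (nat_lit 183) (nat_lit 5) (nat_lit 176) (nat_lit 4) (nat_lit 445) (nat_lit 350) (nat_lit 345)) (XT.lf (nat_lit 0) (nat_lit 5584837575) (nat_lit 456) (nat_lit 260295190) (nat_lit 532) (nat_lit 3032236081) (nat_lit 169) (nat_lit 5) (nat_lit 175) (nat_lit 5) (nat_lit 176) (nat_lit 4) (nat_lit 446) (nat_lit 350) (nat_lit 344))) (XT.nd (nat_lit 78) (nat_lit 0) (nat_lit 0) (XT.lf (nat_lit 0) (nat_lit 399052414) (nat_lit 608) (nat_lit 6242335151) (nat_lit 76) (nat_lit 2319664734) (nat_lit 161) (nat_lit 5) (nat_lit 169)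 (nat_lit 5) (nat_lit 162) (nat_lit 4) (nat_lit 447) (nat_lit 350) (nat_lit 343)) (XT.lf (nat_lit 0) (nat_lit 3825492331) (nat_lit 608) (nat_lit 250433282) (nat_lit 76) (nat_lit 4970788948) (nat_lit 161) (nat_lit 5) (nat_lit 169) (nat_lit 5) (nat_lit 162) (nat_lit 4) (nat_lit 448) (nat_lit 350) (nat_lit 342)))))) (XT.nd (nat_lit 546) (nat_lit 1672) (nat_lit 0) (XT.nd (nat_lit 234) (nat_lit 1368) (nat_lit 0) (XT.nd (nat_lit 78) (nat_lit 532) (nat_lit 0) (XT.lf (nat_lit 0) (nat_lit 5862372841) (nat_lit 456) (nat_lit 1440390413) (nat_lit 532) (nat_lit 1831728368) (nat_lit 155) (nat_lit 5) (nat_lit 161) (nat_lit 5) (nat_lit 162) (nat_lit 4) (nat_lit 449) (nat_lit 350) (nat_lit 341)) (XT.nd (nat_lit 78) (nat_lit 0) (nat_lit 0) (XT.lf (nat_lit 0) (nat_lit 1576887960) (nat_lit 532) (nat_lit 6405492023) (nat_lit 76) (nat_lit 1242025865) (nat_lit 148) (nat_lit 5) (nat_lit 155) (nat_lit 5) (nat_lit 149) (nat_lit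 4) (nat_lit 450) (nat_lit 350) (nat_lit 340)) (XT.lf (nat_lit 0) (nat_lit 5005712236) (nat_lit 532) (nat_lit 337987559) (nat_lit 76) (nat_lit 3972690010) (nat_lit 148) (nat_lit 5) (nat_lit 155) (nat_lit 5) (nat_lit 149) (nat_lit 4) (nat_lit 451) (nat_lit 350) (nat_lit 339)))) (XT.nd (nat_lit 156) (nat_lit 380) (nat_lit 0) (XT.nd (nat_lit 78) (nat_lit 532) (nat_lit 0) (XT.lf (nat_lit 0) (nat_lit 5852511186) (nat_lit 456) (nat_lit 2634578110) (nat_lit 532) (nat_lit 923488593) (nat_lit 142) (nat_lit 5) (nat_lit 148) (nat_lit 5) (nat_lit 149) (nat_lit 4) (nat_lit 452) (nat_lit 350) (nat_lit 338)) (XT.lf (nat_lit 0) (nat_lit 2464542586) (nat_lit 532) (nat_lit 6900824562) (nat_lit 76) (nat_lit 141670157) (nat_lit 135) (nat_lit 5) (nat_lit 142) (nat_lit 5) (nat_lit 136) (nat_lit 4) (nat_lit 453) (nat_lit 350) (nat_lit 337))) (XT.nd (nat_lit 78) (nat_lit 380) (nat_lit 0) (XT.lf (nat_lit 0) (nat_lit 5896048102)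 (nat_lit 532) (nat_lit 762508493) (nat_lit 76) (nat_lit 2947027080) (nat_lit 135) (nat_lit 5) (nat_lit 142) (nat_lit 5) (nat_lit 136) (nat_lit 4) (nat_lit 454) (nat_lit 350) (nat_lit 336)) (XT.lf (nat_lit 0) (nat_lit 5496299097) (nat_lit 380) (nat_lit 3883203099) (nat_lit 456) (nat_lit 326973031) (nat_lit 130) (nat_lit 5) (nat_lit 135) (nat_lit 5) (nat_lit 136) (nat_lit 4) (nat_lit 455) (nat_lit 350) (nat_lit 335))))) (XT.nd (nat_lit 234) (nat_lit 836) (nat_lit 0) (XT.nd (nat_lit 78) (nat_lit 380) (nat_lit 0) (XT.lf (nat_lit 0) (nat_lit 2012819694) (nat_lit 380) (nat_lit 1035476040) (nat_lit 456) (nat_lit 6761402021) (nat_lit 124) (nat_lit 5) (nat_lit 129) (nat_lit 5) (nat_lit 130) (nat_lit 5) (nat_lit 456) (nat_lit 350) (nat_lit 334)) (XT.nd (nat_lit 78) (nat_lit 380) (nat_lit 0) (XT.lf (nat_lit 0) (nat_lit 6475465692) (nat_lit 456) (nat_lit 1586601036) (nat_lit 76) (nat_lit 1853137581) (nat_lit 124)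 (nat_lit 5) (nat_lit 130) (nat_lit 5) (nat_lit 125) (nat_lit 4) (nat_lit 457) (nat_lit 350) (nat_lit 333)) (XT.lf (nat_lit 0) (nat_lit 4729485237) (nat_lit 380) (nat_lit 5228468195) (nat_lit 456) (nat_lit 65169603) (nat_lit 119) (nat_lit 5) (nat_lit 124) (nat_lit 5) (nat_lit 125) (nat_lit 4) (nat_lit 458) (nat_lit 350) (nat_lit 332)))) (XT.nd (nat_lit 156) (nat_lit 380) (nat_lit 0) (XT.nd (nat_lit 78) (nat_lit 0) (nat_lit 0) (XT.lf (nat_lit 0) (nat_lit 977444755) (nat_lit 380) (nat_lit 2321583296) (nat_lit 456) (nat_lit 6834441141) (nat_lit 113) (nat_lit 5) (nat_lit 118) (nat_lit 5) (nat_lit 119) (nat_lit 5) (nat_lit 459) (nat_lit 350) (nat_lit 331)) (XT.lf (nat_lit 0) (nat_lit 6719302383) (nat_lit 456) (nat_lit 2878644358) (nat_lit 76) (nat_lit 648308973) (nat_lit 113) (nat_lit 5) (nat_lit 119) (nat_lit 5) (nat_lit 114) (nat_lit 4) (nat_lit 460) (nat_lit 350) (nat_lit 330))) (XT.nd (nat_lit 78) (nat_lit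 76) (nat_lit 0) (XT.lf (nat_lit 0) (nat_lit 3481834572) (nat_lit 304) (nat_lit 6714842991) (nat_lit 380) (nat_lit 164881168) (nat_lit 109) (nat_lit 5) (nat_lit 113) (nat_lit 5) (nat_lit 114) (nat_lit 4) (nat_lit 461) (nat_lit 350) (nat_lit 329)) (XT.lf (nat_lit 0) (nat_lit 3191918802) (nat_lit 380) (nat_lit 564507194) (nat_lit 76) (nat_lit 6722945240) (nat_lit 108) (nat_lit 5) (nat_lit 113) (nat_lit 5) (nat_lit 109) (nat_lit 5) (nat_lit 462) (nat_lit 350) (nat_lit 328))))))))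
noncomputable def xc38 : XT := (XT.nd (nat_lit 2106) (nat_lit 2128) (nat_lit 0) (XT.nd (nat_lit 1014) (nat_lit 1900) (nat_lit 0) (XT.nd (nat_lit 468) (nat_lit 1216) (nat_lit 0) (XT.nd (nat_lit 234) (nat_lit 684) (nat_lit 0) (XT.nd (nat_lit 78) (nat_lit 380) (nat_lit 0) (XT.lf (nat_lit 0) (nat_lit 5881543203) (nat_lit 380) (nat_lit 722111219) (nat_lit 456) (nat_lit 3996096295) (nat_lit 103) (nat_lit 5) (nat_lit 108) (nat_lit 5) (nat_lit 109) (nat_lit 5) (nat_lit 463) (nat_lit 350) (nat_lit 327)) (XT.nd (nat_lit 78) (nat_lit 76) (nat_lit 0) (XT.lf (nat_lit 0) (nat_lit 1676378799) (nat_lit 304) (nat_lit 8389500057) (nat_lit 380) (nat_lit 657045881) (nat_lit 99) (nat_lit 5) (nat_lit 103) (nat_lit 5) (nat_lit 104) (nat_lit 4) (nat_lit 464) (nat_lit 350) (nat_lit 326)) (XT.lf (nat_lit 0) (nat_lit 2701668457) (nat_lit 380) (nat_lit 2680026868) (nat_lit 76) (nat_lit 5466762086) (nat_lit 98) (nat_lit 5) (nat_lit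 103) (nat_lit 5) (nat_lit 99) (nat_lit 5) (nat_lit 465) (nat_lit 350) (nat_lit 325)))) (XT.nd (nat_lit 78) (nat_lit 380) (nat_lit 0) (XT.lf (nat_lit 0) (nat_lit 3788498880) (nat_lit 304) (nat_lit 2308081918) (nat_lit 380) (nat_lit 4880306832) (nat_lit 94) (nat_lit 5) (nat_lit 98) (nat_lit 5) (nat_lit 99) (nat_lit 5) (nat_lit 466) (nat_lit 350) (nat_lit 324)) (XT.nd (nat_lit 78) (nat_lit 380) (nat_lit 0) (XT.lf (nat_lit 0) (nat_lit 9536386820) (nat_lit 380) (nat_lit 761287148) (nat_lit 76) (nat_lit 810702169) (nat_lit 94) (nat_lit 5) (nat_lit 99) (nat_lit 5) (nat_lit 95) (nat_lit 4) (nat_lit 467) (nat_lit 350) (nat_lit 323)) (XT.lf (nat_lit 0) (nat_lit 1786155502) (nat_lit 380) (nat_lit 5468785192) (nat_lit 76) (nat_lit 3987202081) (nat_lit 89) (nat_lit 5) (nat_lit 94) (nat_lit 5) (nat_lit 90) (nat_lit 5) (nat_lit 468) (nat_lit 350) (nat_lit 322))))) (XT.nd (nat_lit 234) (nat_lit 608) (nat_lit 0) (XT.nd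 (nat_lit 78) (nat_lit 304) (nat_lit 0) (XT.lf (nat_lit 0) (nat_lit 1003471106) (nat_lit 304) (nat_lit 4153171957) (nat_lit 380) (nat_lit 6222437177) (nat_lit 85) (nat_lit 5) (nat_lit 89) (nat_lit 5) (nat_lit 90) (nat_lit 5) (nat_lit 469) (nat_lit 350) (nat_lit 321)) (XT.nd (nat_lit 78) (nat_lit 304) (nat_lit 0) (XT.lf (nat_lit 0) (nat_lit 7609985089) (nat_lit 304) (nat_lit 976246235) (nat_lit 380) (nat_lit 2932718648) (nat_lit 85) (nat_lit 5) (nat_lit 89) (nat_lit 5) (nat_lit 90) (nat_lit 5) (nat_lit 470) (nat_lit 350) (nat_lit 320)) (XT.lf (nat_lit 0) (nat_lit 404690341) (nat_lit 304) (nat_lit 9026357083) (nat_lit 76) (nat_lit 2230792228) (nat_lit 81) (nat_lit 5) (nat_lit 85) (nat_lit 5) (nat_lit 82) (nat_lit 5) (nat_lit 471) (nat_lit 350) (nat_lit 319)))) (XT.nd (nat_lit 156) (nat_lit 304) (nat_lit 0) (XT.nd (nat_lit 78) (nat_lit 304) (nat_lit 0) (XT.lf (nat_lit 0) (nat_lit 3758314196) (nat_lit 304)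 (nat_lit 2538191728) (nat_lit 76) (nat_lit 5510944541) (nat_lit 81) (nat_lit 5) (nat_lit 85) (nat_lit 5) (nat_lit 82) (nat_lit 5) (nat_lit 472) (nat_lit 350) (nat_lit 318)) (XT.lf (nat_lit 0) (nat_lit 4065533265) (nat_lit 304) (nat_lit 3096568447) (nat_lit 380) (nat_lit 4794235217) (nat_lit 77) (nat_lit 5) (nat_lit 81) (nat_lit 5) (nat_lit 82) (nat_lit 5) (nat_lit 473) (nat_lit 350) (nat_lit 317))) (XT.nd (nat_lit 78) (nat_lit 304) (nat_lit 0) (XT.lf (nat_lit 0) (nat_lit 10609148633) (nat_lit 380) (nat_lit 1341126487) (nat_lit 76) (nat_lit 158447089) (nat_lit 77) (nat_lit 5) (nat_lit 82) (nat_lit 5) (nat_lit 78) (nat_lit 4) (nat_lit 474) (nat_lit 350) (nat_lit 316)) (XT.lf (nat_lit 0) (nat_lit 1849494472) (nat_lit 304) (nat_lit 6953724741) (nat_lit 76) (nat_lit 3460459721) (nat_lit 73) (nat_lit 5) (nat_lit 77) (nat_lit 5) (nat_lit 74) (nat_lit 5) (nat_lit 475) (nat_lit 350) (nat_lit 315)))))) (XT.nd (nat_lit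 546) (nat_lit 836) (nat_lit 0) (XT.nd (nat_lit 234) (nat_lit 532) (nat_lit 0) (XT.nd (nat_lit 78) (nat_lit 532) (nat_lit 0) (XT.lf (nat_lit 0) (nat_lit 5212436728) (nat_lit 304) (nat_lit 385930760) (nat_lit 76) (nat_lit 6823852952) (nat_lit 73) (nat_lit 5) (nat_lit 77) (nat_lit 5) (nat_lit 74) (nat_lit 5) (nat_lit 476) (nat_lit 350) (nat_lit 314)) (XT.nd (nat_lit 78) (nat_lit 228) (nat_lit 0) (XT.lf (nat_lit 0) (nat_lit 6330935539) (nat_lit 304) (nat_lit 2311526631) (nat_lit 380) (nat_lit 3941496994) (nat_lit 69) (nat_lit 5) (nat_lit 73) (nat_lit 5) (nat_lit 74) (nat_lit 5) (nat_lit 477) (nat_lit 350) (nat_lit 313)) (XT.lf (nat_lit 0) (nat_lit 371009493) (nat_lit 228) (nat_lit 11740805680) (nat_lit 304) (nat_lit 637725375) (nat_lit 66) (nat_lit 5) (nat_lit 69) (nat_lit 5) (nat_lit 70) (nat_lit 4) (nat_lit 478) (nat_lit 350) (nat_lit 312)))) (XT.nd (nat_lit 156) (nat_lit 228) (nat_lit 0) (XT.nd (nat_lit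 78) (nat_lit 228) (nat_lit 0) (XT.lf (nat_lit 0) (nat_lit 2712879498) (nat_lit 304) (nat_lit 5804338622) (nat_lit 76) (nat_lit 4400550420) (nat_lit 65) (nat_lit 5) (nat_lit 69) (nat_lit 5) (nat_lit 66) (nat_lit 5) (nat_lit 479) (nat_lit 350) (nat_lit 311)) (XT.lf (nat_lit 0) (nat_lit 843764573) (nat_lit 228) (nat_lit 5243525091) (nat_lit 304) (nat_lit 7002701605) (nat_lit 62) (nat_lit 5) (nat_lit 65) (nat_lit 5) (nat_lit 66) (nat_lit 5) (nat_lit 480) (nat_lit 350) (nat_lit 310))) (XT.nd (nat_lit 78) (nat_lit 228) (nat_lit 0) (XT.lf (nat_lit 0) (nat_lit 7639517096) (nat_lit 228) (nat_lit 1888839037) (nat_lit 304) (nat_lit 3737339679) (nat_lit 62) (nat_lit 5) (nat_lit 65) (nat_lit 5) (nat_lit 66) (nat_lit 5) (nat_lit 481) (nat_lit 350) (nat_lit 309)) (XT.lf (nat_lit 0) (nat_lit 1066926714) (nat_lit 228) (nat_lit 11949041146) (nat_lit 304) (nat_lit 429412419) (nat_lit 59) (nat_lit 5) (nat_lit 62) (nat_lit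 5) (nat_lit 63) (nat_lit 4) (nat_lit 482) (nat_lit 350) (nat_lit 308))))) (XT.nd (nat_lit 234) (nat_lit 532) (nat_lit 0) (XT.nd (nat_lit 78) (nat_lit 228) (nat_lit 0) (XT.lf (nat_lit 0) (nat_lit 2917493207) (nat_lit 304) (nat_lit 5753127800) (nat_lit 76) (nat_lit 4957445782) (nat_lit 58) (nat_lit 5) (nat_lit 62) (nat_lit 5) (nat_lit 59) (nat_lit 5) (nat_lit 483) (nat_lit 350) (nat_lit 307)) (XT.nd (nat_lit 78) (nat_lit 0) (nat_lit 0) (XT.lf (nat_lit 0) (nat_lit 952087316) (nat_lit 228) (nat_lit 5341379132) (nat_lit 304) (nat_lit 7521545367) (nat_lit 55) (nat_lit 5) (nat_lit 58) (nat_lit 5) (nat_lit 59) (nat_lit 5) (nat_lit 484) (nat_lit 350) (nat_lit 306)) (XT.lf (nat_lit 0) (nat_lit 7807541334) (nat_lit 228) (nat_lit 1930066267) (nat_lit 304) (nat_lit 4268093937) (nat_lit 55) (nat_lit 5) (nat_lit 58) (nat_lit 5) (nat_lit 59) (nat_lit 5) (nat_lit 485) (nat_lit 350) (nat_lit 305)))) (XT.nd (nat_lit 156)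 (nat_lit 228) (nat_lit 0) (XT.nd (nat_lit 78) (nat_lit 76) (nat_lit 0) (XT.lf (nat_lit 0) (nat_lit 535615466) (nat_lit 228) (nat_lit 12691188010) (nat_lit 304) (nat_lit 973896539) (nat_lit 52) (nat_lit 5) (nat_lit 55) (nat_lit 5) (nat_lit 56) (nat_lit 4) (nat_lit 486) (nat_lit 350) (nat_lit 304)) (XT.lf (nat_lit 0) (nat_lit 2372248543) (nat_lit 304) (nat_lit 7000591012) (nat_lit 76) (nat_lit 5026119558) (nat_lit 51) (nat_lit 5) (nat_lit 55) (nat_lit 5) (nat_lit 52) (nat_lit 5) (nat_lit 487) (nat_lit 350) (nat_lit 303))) (XT.nd (nat_lit 78) (nat_lit 228) (nat_lit 0) (XT.lf (nat_lit 0) (nat_lit 5735728162) (nat_lit 304) (nat_lit 269412849) (nat_lit 76) (nat_lit 8596661926) (nat_lit 51) (nat_lit 5) (nat_lit 55) (nat_lit 5) (nat_lit 52) (nat_lit 5) (nat_lit 488) (nat_lit 350) (nat_lit 302)) (XT.lf (nat_lit 0) (nat_lit 6624291575) (nat_lit 228) (nat_lit 2549351877) (nat_lit 304) (nat_lit 5634933861) (nat_lit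 48) (nat_lit 5) (nat_lit 51) (nat_lit 5) (nat_lit 52) (nat_lit 5) (nat_lit 489) (nat_lit 350) (nat_lit 301))))))) (XT.nd (nat_lit 1092) (nat_lit 836) (nat_lit 0) (XT.nd (nat_lit 546) (nat_lit 608) (nat_lit 0) (XT.nd (nat_lit 234) (nat_lit 456) (nat_lit 0) (XT.nd (nat_lit 78) (nat_lit 228) (nat_lit 0) (XT.lf (nat_lit 0) (nat_lit 12652800291) (nat_lit 304) (nat_lit 1425440268) (nat_lit 76) (nat_lit 941813616) (nat_lit 48) (nat_lit 5) (nat_lit 52) (nat_lit 5) (nat_lit 49) (nat_lit 4) (nat_lit 490) (nat_lit 350) (nat_lit 300)) (XT.nd (nat_lit 78) (nat_lit 0) (nat_lit 0) (XT.lf (nat_lit 0) (nat_lit 970609211) (nat_lit 228) (nat_lit 9776441508) (nat_lit 76) (nat_lit 4488250544) (nat_lit 45) (nat_lit 5) (nat_lit 48) (nat_lit 5) (nat_lit 46) (nat_lit 5) (nat_lit 491) (nat_lit 350) (nat_lit 299)) (XT.lf (nat_lit 0) (nat_lit 4318285564) (nat_lit 228) (nat_lit 3028337751) (nat_lit 76) (nat_lit 8108437659) (nat_lit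 45) (nat_lit 5) (nat_lit 48) (nat_lit 5) (nat_lit 46) (nat_lit 5) (nat_lit 492) (nat_lit 350) (nat_lit 298)))) (XT.nd (nat_lit 156) (nat_lit 228) (nat_lit 0) (XT.nd (nat_lit 78) (nat_lit 0) (nat_lit 0) (XT.lf (nat_lit 0) (nat_lit 3848234407) (nat_lit 228) (nat_lit 3875445827) (nat_lit 304) (nat_lit 7955735743) (nat_lit 42) (nat_lit 5) (nat_lit 45) (nat_lit 5) (nat_lit 46) (nat_lit 5) (nat_lit 493) (nat_lit 350) (nat_lit 297)) (XT.lf (nat_lit 0) (nat_lit 10846798727) (nat_lit 228) (nat_lit 336788890) (nat_lit 304) (nat_lit 4724957460) (nat_lit 42) (nat_lit 5) (nat_lit 45) (nat_lit 5) (nat_lit 46) (nat_lit 5) (nat_lit 494) (nat_lit 350) (nat_lit 296))) (XT.nd (nat_lit 78) (nat_lit 76) (nat_lit 0) (XT.lf (nat_lit 0) (nat_lit 1789281036) (nat_lit 152) (nat_lit 12922881265) (nat_lit 228) (nat_lit 1430119871) (nat_lit 40) (nat_lit 5) (nat_lit 42) (nat_lit 5) (nat_lit 43) (nat_lit 4) (nat_lit 495) (nat_lit 350)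 (nat_lit 295)) (XT.lf (nat_lit 0) (nat_lit 1908380223) (nat_lit 228) (nat_lit 7605166406) (nat_lit 76) (nat_lit 6866849184) (nat_lit 39) (nat_lit 5) (nat_lit 42) (nat_lit 5) (nat_lit 40) (nat_lit 5) (nat_lit 496) (nat_lit 350) (nat_lit 294))))) (XT.nd (nat_lit 234) (nat_lit 380) (nat_lit 0) (XT.nd (nat_lit 78) (nat_lit 228) (nat_lit 0) (XT.lf (nat_lit 0) (nat_lit 5261836357) (nat_lit 228) (nat_lit 786849743) (nat_lit 76) (nat_lit 10575063800) (nat_lit 39) (nat_lit 5) (nat_lit 42) (nat_lit 5) (nat_lit 40) (nat_lit 5) (nat_lit 497) (nat_lit 350) (nat_lit 293)) (XT.nd (nat_lit 78) (nat_lit 0) (nat_lit 0) (XT.lf (nat_lit 0) (nat_lit 6195158607) (nat_lit 228) (nat_lit 2495384363) (nat_lit 304) (nat_lit 8181278143) (nat_lit 36) (nat_lit 5) (nat_lit 39) (nat_lit 5) (nat_lit 40) (nat_lit 5) (nat_lit 498) (nat_lit 350) (nat_lit 292)) (XT.lf (nat_lit 0) (nat_lit 12168566100) (nat_lit 304) (nat_lit 3858717662) (nat_lit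 76) (nat_lit 1097968541) (nat_lit 36) (nat_lit 5) (nat_lit 40) (nat_lit 5) (nat_lit 37) (nat_lit 4) (nat_lit 499) (nat_lit 350) (nat_lit 291)))) (XT.nd (nat_lit 156) (nat_lit 152) (nat_lit 0) (XT.nd (nat_lit 78) (nat_lit 76) (nat_lit 0) (XT.lf (nat_lit 0) (nat_lit 3066257699) (nat_lit 152) (nat_lit 12655048573) (nat_lit 228) (nat_lit 1662355853) (nat_lit 34) (nat_lit 5) (nat_lit 36) (nat_lit 5) (nat_lit 37) (nat_lit 4) (nat_lit 500) (nat_lit 350) (nat_lit 290)) (XT.lf (nat_lit 0) (nat_lit 1670434811) (nat_lit 228) (nat_lit 7528974845) (nat_lit 76) (nat_lit 8447725815) (nat_lit 33) (nat_lit 5) (nat_lit 36) (nat_lit 5) (nat_lit 34) (nat_lit 5) (nat_lit 501) (nat_lit 350) (nat_lit 289))) (XT.nd (nat_lit 78) (nat_lit 152) (nat_lit 0) (XT.lf (nat_lit 0) (nat_lit 5017031337) (nat_lit 228) (nat_lit 667840512) (nat_lit 76) (nat_lit 12231410871) (nat_lit 33) (nat_lit 5) (nat_lit 36) (nat_lit 5) (nat_lit 34) (nat_lit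 5) (nat_lit 502) (nat_lit 350) (nat_lit 288)) (XT.lf (nat_lit 0) (nat_lit 6362933343) (nat_lit 152) (nat_lit 2078927251) (nat_lit 228) (nat_lit 9748738443) (nat_lit 31) (nat_lit 5) (nat_lit 33) (nat_lit 5) (nat_lit 34) (nat_lit 5) (nat_lit 503) (nat_lit 350) (nat_lit 287)))))) (XT.nd (nat_lit 546) (nat_lit 456) (nat_lit 0) (XT.nd (nat_lit 234) (nat_lit 152) (nat_lit 0) (XT.nd (nat_lit 78) (nat_lit 228) (nat_lit 0) (XT.lf (nat_lit 0) (nat_lit 11920192048) (nat_lit 228) (nat_lit 4988518329) (nat_lit 76) (nat_lit 1562003092) (nat_lit 31) (nat_lit 5) (nat_lit 34) (nat_lit 5) (nat_lit 32) (nat_lit 4) (nat_lit 504) (nat_lit 350) (nat_lit 286)) (XT.nd (nat_lit 78) (nat_lit 76) (nat_lit 0) (XT.lf (nat_lit 0) (nat_lit 1949040211) (nat_lit 152) (nat_lit 13516169873) (nat_lit 228) (nat_lit 3291289374) (nat_lit 29) (nat_lit 5) (nat_lit 31) (nat_lit 5) (nat_lit 32) (nat_lit 4) (nat_lit 505) (nat_lit 350) (nat_lit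 285)) (XT.lf (nat_lit 0) (nat_lit 37135185) (nat_lit 228) (nat_lit 10005033844) (nat_lit 76) (nat_lit 9005750203) (nat_lit 28) (nat_lit 5) (nat_lit 31) (nat_lit 5) (nat_lit 29) (nat_lit 5) (nat_lit 506) (nat_lit 350) (nat_lit 284)))) (XT.nd (nat_lit 156) (nat_lit 0) (nat_lit 0) (XT.nd (nat_lit 78) (nat_lit 152) (nat_lit 0) (XT.lf (nat_lit 0) (nat_lit 3359417758) (nat_lit 228) (nat_lit 3137607543) (nat_lit 76) (nat_lit 12848290787) (nat_lit 28) (nat_lit 5) (nat_lit 31) (nat_lit 5) (nat_lit 29) (nat_lit 5) (nat_lit 507) (nat_lit 350) (nat_lit 283)) (XT.lf (nat_lit 0) (nat_lit 3869632927) (nat_lit 152) (nat_lit 2875518349) (nat_lit 228) (nat_lit 12903580279) (nat_lit 26) (nat_lit 5) (nat_lit 28) (nat_lit 5) (nat_lit 29) (nat_lit 5) (nat_lit 508) (nat_lit 350) (nat_lit 282))) (XT.nd (nat_lit 78) (nat_lit 0) (nat_lit 0) (XT.lf (nat_lit 0) (nat_lit 10197098174) (nat_lit 228) (nat_lit 8952103421) (nat_lit 76)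 (nat_lit 809054328) (nat_lit 26) (nat_lit 5) (nat_lit 29) (nat_lit 5) (nat_lit 27) (nat_lit 4) (nat_lit 509) (nat_lit 350) (nat_lit 281)) (XT.lf (nat_lit 0) (nat_lit 13709666938) (nat_lit 228) (nat_lit 2055067694) (nat_lit 76) (nat_lit 4509414850) (nat_lit 26) (nat_lit 5) (nat_lit 29) (nat_lit 5) (nat_lit 27) (nat_lit 4) (nat_lit 510) (nat_lit 350) (nat_lit 280))))) (XT.nd (nat_lit 234) (nat_lit 228) (nat_lit 0) (XT.nd (nat_lit 78) (nat_lit 76) (nat_lit 0) (XT.lf (nat_lit 0) (nat_lit 4998945110) (nat_lit 152) (nat_lit 12299076630) (nat_lit 228) (nat_lit 3298238634) (nat_lit 24) (nat_lit 5) (nat_lit 26) (nat_lit 5) (nat_lit 27) (nat_lit 4) (nat_lit 511) (nat_lit 350) (nat_lit 279)) (XT.nd (nat_lit 78) (nat_lit 0) (nat_lit 0) (XT.lf (nat_lit 0) (nat_lit 19894315) (nat_lit 228) (nat_lit 8749536852) (nat_lit 76) (nat_lit 12155647727) (nat_lit 23) (nat_lit 5) (nat_lit 26) (nat_lit 5) (nat_lit 24) (nat_lit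 5) (nat_lit 512) (nat_lit 350) (nat_lit 278)) (XT.lf (nat_lit 0) (nat_lit 3333914240) (nat_lit 228) (nat_lit 1832318651) (nat_lit 76) (nat_lit 16094340681) (nat_lit 23) (nat_lit 5) (nat_lit 26) (nat_lit 5) (nat_lit 24) (nat_lit 5) (nat_lit 513) (nat_lit 350) (nat_lit 277)))) (XT.nd (nat_lit 156) (nat_lit 76) (nat_lit 0) (XT.nd (nat_lit 78) (nat_lit 0) (nat_lit 0) (XT.lf (nat_lit 0) (nat_lit 5247285417) (nat_lit 152) (nat_lit 1475161190) (nat_lit 228) (nat_lit 14880176281) (nat_lit 21) (nat_lit 5) (nat_lit 23) (nat_lit 5) (nat_lit 24) (nat_lit 5) (nat_lit 514) (nat_lit 350) (nat_lit 276)) (XT.lf (nat_lit 0) (nat_lit 10180251831) (nat_lit 228) (nat_lit 9517778134) (nat_lit 76) (nat_lit 2253462379) (nat_lit 21) (nat_lit 5) (nat_lit 24) (nat_lit 5) (nat_lit 22) (nat_lit 4) (nat_lit 515) (nat_lit 350) (nat_lit 275))) (XT.nd (nat_lit 78) (nat_lit 76) (nat_lit 0) (XT.lf (nat_lit 0) (nat_lit 13691745673) (nat_lit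 228) (nat_lit 2597238949) (nat_lit 76) (nat_lit 6018672937) (nat_lit 21) (nat_lit 5) (nat_lit 24) (nat_lit 5) (nat_lit 22) (nat_lit 4) (nat_lit 516) (nat_lit 350) (nat_lit 274)) (XT.lf (nat_lit 0) (nat_lit 4477292236) (nat_lit 76) (nat_lit 12800504778) (nat_lit 152) (nat_lit 5393071352) (nat_lit 20) (nat_lit 5) (nat_lit 21) (nat_lit 5) (nat_lit 22) (nat_lit 4) (nat_lit 517) (nat_lit 350) (nat_lit 273))))))))
noncomputable def xc39 : XT := (XT.nd (nat_lit 54288) (nat_lit 0) (nat_lit 3952) (XT.nd (nat_lit 53196) (nat_lit 0) (nat_lit 9804) (XT.nd (nat_lit 468) (nat_lit 304) (nat_lit 0) (XT.nd (nat_lit 234) (nat_lit 0) (nat_lit 0) (XT.nd (nat_lit 78) (nat_lit 228) (nat_lit 0) (XT.lf (nat_lit 0) (nat_lit 11685664841) (nat_lit 76) (nat_lit 9242798346) (nat_lit 152) (nat_lit 2113030997) (nat_lit 20) (nat_lit 5) (nat_lit 21) (nat_lit 5) (nat_lit 22) (nat_lit 4) (nat_lit 518) (nat_lit 350) (nat_lit 272)) (XT.nd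 (nat_lit 78) (nat_lit 152) (nat_lit 0) (XT.lf (nat_lit 0) (nat_lit 1192222617) (nat_lit 152) (nat_lit 4431675930) (nat_lit 76) (nat_lit 17795966678) (nat_lit 19) (nat_lit 5) (nat_lit 21) (nat_lit 5) (nat_lit 20) (nat_lit 5) (nat_lit 519) (nat_lit 350) (nat_lit 271)) (XT.lf (nat_lit 0) (nat_lit 2609678286) (nat_lit 152) (nat_lit 1918833034) (nat_lit 228) (nat_lit 19277156722) (nat_lit 17) (nat_lit 5) (nat_lit 19) (nat_lit 5) (nat_lit 20) (nat_lit 5) (nat_lit 520) (nat_lit 350) (nat_lit 270)))) (XT.nd (nat_lit 78) (nat_lit 0) (nat_lit 0) (XT.lf (nat_lit 0) (nat_lit 7949876410) (nat_lit 228) (nat_lit 14400541554) (nat_lit 76) (nat_lit 1848409947) (nat_lit 17) (nat_lit 5) (nat_lit 20) (nat_lit 5) (nat_lit 18) (nat_lit 4) (nat_lit 521) (nat_lit 350) (nat_lit 269)) (XT.nd (nat_lit 78) (nat_lit 0) (nat_lit 0) (XT.lf (nat_lit 0) (nat_lit 11429176567) (nat_lit 228) (nat_lit 7522682154) (nat_lit 76) (nat_lit 5648209953)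 (nat_lit 17) (nat_lit 5) (nat_lit 20) (nat_lit 5) (nat_lit 18) (nat_lit 4) (nat_lit 522) (nat_lit 350) (nat_lit 268)) (XT.lf (nat_lit 0) (nat_lit 14955317886) (nat_lit 228) (nat_lit 547256021) (nat_lit 76) (nat_lit 9507222941) (nat_lit 17) (nat_lit 5) (nat_lit 20) (nat_lit 5) (nat_lit 18) (nat_lit 4) (nat_lit 523) (nat_lit 350) (nat_lit 267))))) (XT.nd (nat_lit 234) (nat_lit 228) (nat_lit 0) (XT.nd (nat_lit 78) (nat_lit 0) (nat_lit 0) (XT.lf (nat_lit 0) (nat_lit 6615232267) (nat_lit 76) (nat_lit 11957401376) (nat_lit 152) (nat_lit 6854680456) (nat_lit 16) (nat_lit 5) (nat_lit 17) (nat_lit 5) (nat_lit 18) (nat_lit 4) (nat_lit 524) (nat_lit 350) (nat_lit 266)) (XT.nd (nat_lit 78) (nat_lit 0) (nat_lit 0) (XT.lf (nat_lit 0) (nat_lit 13889440129) (nat_lit 76) (nat_lit 8354413451) (nat_lit 152) (nat_lit 3609704356) (nat_lit 16) (nat_lit 5) (nat_lit 17) (nat_lit 5) (nat_lit 18) (nat_lit 4) (nat_lit 525) (nat_lit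 350) (nat_lit 265)) (XT.lf (nat_lit 0) (nat_lit 21270947452) (nat_lit 76) (nat_lit 4695869573) (nat_lit 152) (nat_lit 321950497) (nat_lit 16) (nat_lit 5) (nat_lit 17) (nat_lit 5) (nat_lit 18) (nat_lit 4) (nat_lit 526) (nat_lit 350) (nat_lit 264)))) (XT.nd (nat_lit 156) (nat_lit 0) (nat_lit 0) (XT.nd (nat_lit 78) (nat_lit 0) (nat_lit 0) (XT.lf (nat_lit 0) (nat_lit 2036705093) (nat_lit 152) (nat_lit 946913989) (nat_lit 228) (nat_lit 23748839131) (nat_lit 13) (nat_lit 5) (nat_lit 15) (nat_lit 5) (nat_lit 16) (nat_lit 5) (nat_lit 527) (nat_lit 350) (nat_lit 263)) (XT.lf (nat_lit 0) (nat_lit 6382235160) (nat_lit 228) (nat_lit 17942850331) (nat_lit 76) (nat_lit 2859276579) (nat_lit 13) (nat_lit 5) (nat_lit 16) (nat_lit 5) (nat_lit 14) (nat_lit 4) (nat_lit 528) (nat_lit 350) (nat_lit 262))) (XT.nd (nat_lit 52260) (nat_lit 0) (nat_lit 14744) (XT.lf (nat_lit 0) (nat_lit 9834180059) (nat_lit 228) (nat_lit 11098224210)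 (nat_lit 76) (nat_lit 6713199305) (nat_lit 13) (nat_lit 5) (nat_lit 16) (nat_lit 5) (nat_lit 14) (nat_lit 4) (nat_lit 529) (nat_lit 350) (nat_lit 261)) (XT.lf (nat_lit 0) (nat_lit 543211609) (nat_lit 608) (nat_lit 1797856212) (nat_lit 608) (nat_lit 1797856212) (nat_lit 207) (nat_lit 4) (nat_lit 215) (nat_lit 5) (nat_lit 215) (nat_lit 4) (nat_lit 438) (nat_lit 351) (nat_lit 351)))))) (XT.nd (nat_lit 546) (nat_lit 2508) (nat_lit 0) (XT.nd (nat_lit 234) (nat_lit 1216) (nat_lit 0) (XT.nd (nat_lit 78) (nat_lit 1216) (nat_lit 0) (XT.lf (nat_lit 0) (nat_lit 6881825660) (nat_lit 608) (nat_lit 1310382875) (nat_lit 608) (nat_lit 154658045) (nat_lit 207) (nat_lit 4) (nat_lit 215) (nat_lit 5) (nat_lit 215) (nat_lit 4) (nat_lit 439) (nat_lit 351) (nat_lit 350)) (XT.nd (nat_lit 78) (nat_lit 608) (nat_lit 0) (XT.lf (nat_lit 0) (nat_lit 3285885629) (nat_lit 608) (nat_lit 4089534435) (nat_lit 0) (nat_lit 1041975442) (nat_lit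 199) (nat_lit 5) (nat_lit 207) (nat_lit 4) (nat_lit 199) (nat_lit 4) (nat_lit 440) (nat_lit 351) (nat_lit 349)) (XT.lf (nat_lit 0) (nat_lit 1703179775) (nat_lit 608) (nat_lit 5059885202) (nat_lit 608) (nat_lit 1726909695) (nat_lit 191) (nat_lit 4) (nat_lit 199) (nat_lit 5) (nat_lit 199) (nat_lit 4) (nat_lit 441) (nat_lit 351) (nat_lit 348)))) (XT.nd (nat_lit 156) (nat_lit 608) (nat_lit 0) (XT.nd (nat_lit 78) (nat_lit 532) (nat_lit 0) (XT.lf (nat_lit 0) (nat_lit 1691001290) (nat_lit 684) (nat_lit 984863999) (nat_lit 76) (nat_lit 5888606902) (nat_lit 190) (nat_lit 5) (nat_lit 199) (nat_lit 5) (nat_lit 191) (nat_lit 4) (nat_lit 442) (nat_lit 351) (nat_lit 347)) (XT.lf (nat_lit 0) (nat_lit 4910508582) (nat_lit 532) (nat_lit 217199721) (nat_lit 608) (nat_lit 3513106509) (nat_lit 183) (nat_lit 5) (nat_lit 190) (nat_lit 5) (nat_lit 191) (nat_lit 4) (nat_lit 443) (nat_lit 351) (nat_lit 346))) (XT.nd (nat_lit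 78) (nat_lit 76) (nat_lit 0) (XT.lf (nat_lit 0) (nat_lit 2155783962) (nat_lit 532) (nat_lit 6455088346) (nat_lit 532) (nat_lit 108311123) (nat_lit 176) (nat_lit 4) (nat_lit 183) (nat_lit 5) (nat_lit 183) (nat_lit 4) (nat_lit 444) (nat_lit 351) (nat_lit 345)) (XT.lf (nat_lit 0) (nat_lit 3289502299) (nat_lit 608) (nat_lit 688382591) (nat_lit 76) (nat_lit 4821468166) (nat_lit 175) (nat_lit 5) (nat_lit 183) (nat_lit 5) (nat_lit 176) (nat_lit 4) (nat_lit 445) (nat_lit 351) (nat_lit 344))))) (XT.nd (nat_lit 234) (nat_lit 1444) (nat_lit 0) (XT.nd (nat_lit 78) (nat_lit 608) (nat_lit 0) (XT.lf (nat_lit 0) (nat_lit 5297924302) (nat_lit 456) (nat_lit 1433838260) (nat_lit 532) (nat_lit 2149840886) (nat_lit 169) (nat_lit 5) (nat_lit 175) (nat_lit 5) (nat_lit 176) (nat_lit 4) (nat_lit 446) (nat_lit 351) (nat_lit 343)) (XT.nd (nat_lit 78) (nat_lit 0) (nat_lit 0) (XT.lf (nat_lit 0) (nat_lit 1232171142) (nat_lit 608)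 (nat_lit 6578007404) (nat_lit 76) (nat_lit 1155771881) (nat_lit 161) (nat_lit 5) (nat_lit 169) (nat_lit 5) (nat_lit 162) (nat_lit 4) (nat_lit 447) (nat_lit 351) (nat_lit 342)) (XT.lf (nat_lit 0) (nat_lit 4631006998) (nat_lit 608) (nat_lit 623640117) (nat_lit 76) (nat_lit 3797541219) (nat_lit 161) (nat_lit 5) (nat_lit 169) (nat_lit 5) (nat_lit 162) (nat_lit 4) (nat_lit 448) (nat_lit 351) (nat_lit 341)))) (XT.nd (nat_lit 156) (nat_lit 456) (nat_lit 0) (XT.nd (nat_lit 78) (nat_lit 532) (nat_lit 0) (XT.lf (nat_lit 0) (nat_lit 5446918640) (nat_lit 456) (nat_lit 2631599072) (nat_lit 532) (nat_lit 1062065988) (nat_lit 155) (nat_lit 5) (nat_lit 161) (nat_lit 5) (nat_lit 162) (nat_lit 4) (nat_lit 449) (nat_lit 351) (nat_lit 340)) (XT.lf (nat_lit 0) (nat_lit 2298651786) (nat_lit 532) (nat_lit 6873960766) (nat_lit 76) (nat_lit 58563719) (nat_lit 148) (nat_lit 5) (nat_lit 155) (nat_lit 5) (nat_lit 149) (nat_lit 4)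 (nat_lit 450) (nat_lit 351) (nat_lit 339))) (XT.nd (nat_lit 78) (nat_lit 456) (nat_lit 0) (XT.lf (nat_lit 0) (nat_lit 5700732455) (nat_lit 532) (nat_lit 843640730) (nat_lit 76) (nat_lit 2779343685) (nat_lit 148) (nat_lit 5) (nat_lit 155) (nat_lit 5) (nat_lit 149) (nat_lit 4) (nat_lit 451) (nat_lit 351) (nat_lit 338)) (XT.lf (nat_lit 0) (nat_lit 5303198358) (nat_lit 456) (nat_lit 3849125431) (nat_lit 532) (nat_lit 266198219) (nat_lit 142) (nat_lit 5) (nat_lit 148) (nat_lit 5) (nat_lit 149) (nat_lit 4) (nat_lit 452) (nat_lit 351) (nat_lit 337))))))) (XT.nd (nat_lit 1092) (nat_lit 2204) (nat_lit 0) (XT.nd (nat_lit 546) (nat_lit 1444) (nat_lit 0) (XT.nd (nat_lit 234) (nat_lit 1216) (nat_lit 0) (XT.nd (nat_lit 78) (nat_lit 456) (nat_lit 0) (XT.lf (nat_lit 0) (nat_lit 2001107088) (nat_lit 456) (nat_lit 1081105737) (nat_lit 532) (nat_lit 6433323754) (nat_lit 135) (nat_lit 5) (nat_lit 141) (nat_lit 5) (nat_lit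 142) (nat_lit 5) (nat_lit 453) (nat_lit 351) (nat_lit 336)) (XT.nd (nat_lit 78) (nat_lit 456) (nat_lit 0) (XT.lf (nat_lit 0) (nat_lit 6480774753) (nat_lit 532) (nat_lit 1405905924) (nat_lit 76) (nat_lit 1728081254) (nat_lit 135) (nat_lit 5) (nat_lit 142) (nat_lit 5) (nat_lit 136) (nat_lit 4) (nat_lit 454) (nat_lit 351) (nat_lit 335)) (XT.lf (nat_lit 0) (nat_lit 215211549) (nat_lit 456) (nat_lit 4909905114) (nat_lit 76) (nat_lit 4591125945) (nat_lit 129) (nat_lit 5) (nat_lit 135) (nat_lit 5) (nat_lit 130) (nat_lit 5) (nat_lit 455) (nat_lit 351) (nat_lit 334)))) (XT.nd (nat_lit 156) (nat_lit 836) (nat_lit 0) (XT.nd (nat_lit 78) (nat_lit 0) (nat_lit 0) (XT.lf (nat_lit 0) (nat_lit 1264951177) (nat_lit 380) (nat_lit 2291049097) (nat_lit 456) (nat_lit 6264045189) (nat_lit 124) (nat_lit 5) (nat_lit 129) (nat_lit 5) (nat_lit 130) (nat_lit 5) (nat_lit 456) (nat_lit 351) (nat_lit 333)) (XT.lf (nat_lit 0) (nat_lit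 6949874640) (nat_lit 456) (nat_lit 2373084497) (nat_lit 76) (nat_lit 603277370) (nat_lit 124) (nat_lit 5) (nat_lit 130) (nat_lit 5) (nat_lit 125) (nat_lit 4) (nat_lit 457) (nat_lit 351) (nat_lit 332))) (XT.nd (nat_lit 78) (nat_lit 380) (nat_lit 0) (XT.lf (nat_lit 0) (nat_lit 362707837) (nat_lit 456) (nat_lit 6140790705) (nat_lit 76) (nat_lit 3531228376) (nat_lit 118) (nat_lit 5) (nat_lit 124) (nat_lit 5) (nat_lit 119) (nat_lit 5) (nat_lit 458) (nat_lit 351) (nat_lit 331)) (XT.lf (nat_lit 0) (nat_lit 82314568) (nat_lit 380) (nat_lit 3613347719) (nat_lit 456) (nat_lit 6450027602) (nat_lit 113) (nat_lit 5) (nat_lit 118) (nat_lit 5) (nat_lit 119) (nat_lit 5) (nat_lit 459) (nat_lit 351) (nat_lit 330))))) (XT.nd (nat_lit 234) (nat_lit 1064) (nat_lit 0) (XT.nd (nat_lit 78) (nat_lit 380) (nat_lit 0) (XT.lf (nat_lit 0) (nat_lit 6441252920) (nat_lit 380) (nat_lit 646092687) (nat_lit 456) (nat_lit 3171719788) (nat_lit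 113) (nat_lit 5) (nat_lit 118) (nat_lit 5) (nat_lit 119) (nat_lit 5) (nat_lit 460) (nat_lit 351) (nat_lit 329)) (XT.nd (nat_lit 78) (nat_lit 0) (nat_lit 0) (XT.lf (nat_lit 0) (nat_lit 153112060) (nat_lit 380) (nat_lit 7877418975) (nat_lit 76) (nat_lit 2344524032) (nat_lit 108) (nat_lit 5) (nat_lit 113) (nat_lit 5) (nat_lit 109) (nat_lit 5) (nat_lit 461) (nat_lit 351) (nat_lit 328)) (XT.lf (nat_lit 0) (nat_lit 3483897341) (nat_lit 380) (nat_lit 1598676723) (nat_lit 76) (nat_lit 5410765318) (nat_lit 108) (nat_lit 5) (nat_lit 113) (nat_lit 5) (nat_lit 109) (nat_lit 5) (nat_lit 462) (nat_lit 351) (nat_lit 327)))) (XT.nd (nat_lit 156) (nat_lit 380) (nat_lit 0) (XT.nd (nat_lit 78) (nat_lit 304) (nat_lit 0) (XT.lf (nat_lit 0) (nat_lit 4798458832) (nat_lit 380) (nat_lit 2066757474) (nat_lit 456) (nat_lit 3749126747) (nat_lit 103) (nat_lit 5) (nat_lit 108) (nat_lit 5) (nat_lit 109) (nat_lit 5) (nat_lit 463) (nat_lit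 351) (nat_lit 326)) (XT.lf (nat_lit 0) (nat_lit 537610667) (nat_lit 304) (nat_lit 9750482616) (nat_lit 380) (nat_lit 450226286) (nat_lit 99) (nat_lit 5) (nat_lit 103) (nat_lit 5) (nat_lit 104) (nat_lit 4) (nat_lit 464) (nat_lit 351) (nat_lit 325))) (XT.nd (nat_lit 78) (nat_lit 304) (nat_lit 0) (XT.lf (nat_lit 0) (nat_lit 2882615125) (nat_lit 380) (nat_lit 3870512468) (nat_lit 76) (nat_lit 4111175945) (nat_lit 98) (nat_lit 5) (nat_lit 103) (nat_lit 5) (nat_lit 99) (nat_lit 5) (nat_lit 465) (nat_lit 351) (nat_lit 324)) (XT.lf (nat_lit 0) (nat_lit 2547442657) (nat_lit 304) (nat_lit 3699320724) (nat_lit 380) (nat_lit 4746600307) (nat_lit 94) (nat_lit 5) (nat_lit 98) (nat_lit 5) (nat_lit 99) (nat_lit 5) (nat_lit 466) (nat_lit 351) (nat_lit 323)))))) (XT.nd (nat_lit 546) (nat_lit 912) (nat_lit 0) (XT.nd (nat_lit 234) (nat_lit 912) (nat_lit 0) (XT.nd (nat_lit 78) (nat_lit 380) (nat_lit 0) (XT.lf (nat_lit 0)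 (nat_lit 9077404674) (nat_lit 304) (nat_lit 581348864) (nat_lit 380) (nat_lit 1466669335) (nat_lit 94) (nat_lit 5) (nat_lit 98) (nat_lit 5) (nat_lit 99) (nat_lit 5) (nat_lit 467) (nat_lit 351) (nat_lit 322)) (XT.nd (nat_lit 78) (nat_lit 0) (nat_lit 0) (XT.lf (nat_lit 0) (nat_lit 1855299004) (nat_lit 380) (nat_lit 6821228738) (nat_lit 76) (nat_lit 2583357802) (nat_lit 89) (nat_lit 5) (nat_lit 94) (nat_lit 5) (nat_lit 90) (nat_lit 5) (nat_lit 468) (nat_lit 351) (nat_lit 321)) (XT.lf (nat_lit 0) (nat_lit 5197213237) (nat_lit 380) (nat_lit 395999056) (nat_lit 76) (nat_lit 5804195716) (nat_lit 89) (nat_lit 5) (nat_lit 94) (nat_lit 5) (nat_lit 90) (nat_lit 5) (nat_lit 469) (nat_lit 351) (nat_lit 320)))) (XT.nd (nat_lit 156) (nat_lit 304) (nat_lit 0) (XT.nd (nat_lit 78) (nat_lit 304) (nat_lit 0) (XT.lf (nat_lit 0) (nat_lit 6171609198) (nat_lit 304) (nat_lit 2430742995) (nat_lit 380) (nat_lit 2935427802) (nat_lit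 85) (nat_lit 5) (nat_lit 89) (nat_lit 5) (nat_lit 90) (nat_lit 5) (nat_lit 470) (nat_lit 351) (nat_lit 319)) (XT.lf (nat_lit 0) (nat_lit 361055931) (nat_lit 304) (nat_lit 10546521832) (nat_lit 76) (nat_lit 773924233) (nat_lit 81) (nat_lit 5) (nat_lit 85) (nat_lit 5) (nat_lit 82) (nat_lit 5) (nat_lit 471) (nat_lit 351) (nat_lit 318))) (XT.nd (nat_lit 78) (nat_lit 304) (nat_lit 0) (XT.lf (nat_lit 0) (nat_lit 3693241690) (nat_lit 304) (nat_lit 4091784134) (nat_lit 76) (nat_lit 4042528251) (nat_lit 81) (nat_lit 5) (nat_lit 85) (nat_lit 5) (nat_lit 82) (nat_lit 5) (nat_lit 472) (nat_lit 351) (nat_lit 317)) (XT.lf (nat_lit 0) (nat_lit 2458086696) (nat_lit 304) (nat_lit 4607488159) (nat_lit 380) (nat_lit 4911507028) (nat_lit 77) (nat_lit 5) (nat_lit 81) (nat_lit 5) (nat_lit 82) (nat_lit 5) (nat_lit 473) (nat_lit 351) (nat_lit 316))))) (XT.nd (nat_lit 234) (nat_lit 608) (nat_lit 0) (XT.nd (nat_lit 78) (nat_lit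 304) (nat_lit 0) (XT.lf (nat_lit 0) (nat_lit 9128655810) (nat_lit 304) (nat_lit 1362106542) (nat_lit 380) (nat_lit 1639154017) (nat_lit 77) (nat_lit 5) (nat_lit 81) (nat_lit 5) (nat_lit 82) (nat_lit 5) (nat_lit 474) (nat_lit 351) (nat_lit 315)) (XT.nd (nat_lit 78) (nat_lit 0) (nat_lit 0) (XT.lf (nat_lit 0) (nat_lit 1671062185) (nat_lit 304) (nat_lit 8680492242) (nat_lit 76) (nat_lit 1934161991) (nat_lit 73) (nat_lit 5) (nat_lit 77) (nat_lit 5) (nat_lit 74) (nat_lit 5) (nat_lit 475) (nat_lit 351) (nat_lit 314)) (XT.lf (nat_lit 0) (nat_lit 5013568653) (nat_lit 304) (nat_lit 2145032380) (nat_lit 76) (nat_lit 5286076931) (nat_lit 73) (nat_lit 5) (nat_lit 77) (nat_lit 5) (nat_lit 74) (nat_lit 5) (nat_lit 476) (nat_lit 351) (nat_lit 313)))) (XT.nd (nat_lit 156) (nat_lit 304) (nat_lit 0) (XT.nd (nat_lit 78) (nat_lit 0) (nat_lit 0) (XT.lf (nat_lit 0) (nat_lit 4516334989) (nat_lit 304) (nat_lit 3895442429) (nat_lit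 380) (nat_lit 4195286706) (nat_lit 69) (nat_lit 5) (nat_lit 73) (nat_lit 5) (nat_lit 74) (nat_lit 5) (nat_lit 477) (nat_lit 351) (nat_lit 312)) (XT.lf (nat_lit 0) (nat_lit 11276393228) (nat_lit 304) (nat_lit 575861082) (nat_lit 380) (nat_lit 920979606) (nat_lit 69) (nat_lit 5) (nat_lit 73) (nat_lit 5) (nat_lit 74) (nat_lit 5) (nat_lit 478) (nat_lit 351) (nat_lit 311))) (XT.nd (nat_lit 78) (nat_lit 0) (nat_lit 0) (XT.lf (nat_lit 0) (nat_lit 2399810293) (nat_lit 304) (nat_lit 7742217229) (nat_lit 76) (nat_lit 2800152227) (nat_lit 65) (nat_lit 5) (nat_lit 69) (nat_lit 5) (nat_lit 66) (nat_lit 5) (nat_lit 479) (nat_lit 351) (nat_lit 310)) (XT.lf (nat_lit 0) (nat_lit 5749253770) (nat_lit 304) (nat_lit 1136443923) (nat_lit 76) (nat_lit 6229214377) (nat_lit 65) (nat_lit 5) (nat_lit 69) (nat_lit 5) (nat_lit 66) (nat_lit 5) (nat_lit 480) (nat_lit 351) (nat_lit 309))))))))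
noncomputable def xc40 : XT := (XT.nd (nat_lit 2106) (nat_lit 1140) (nat_lit 0) (XT.nd (nat_lit 1014) (nat_lit 1064) (nat_lit 0) (XT.nd (nat_lit 468) (nat_lit 988) (nat_lit 0) (XT.nd (nat_lit 234) (nat_lit 228) (nat_lit 0) (XT.nd (nat_lit 78) (nat_lit 304) (nat_lit 0) (XT.lf (nat_lit 0) (nat_lit 5613147773) (nat_lit 228) (nat_lit 3550387924) (nat_lit 304) (nat_lit 4127626661) (nat_lit 62) (nat_lit 5) (nat_lit 65) (nat_lit 5) (nat_lit 66) (nat_lit 5) (nat_lit 481) (nat_lit 351) (nat_lit 308)) (XT.nd (nat_lit 78) (nat_lit 304) (nat_lit 0) (XT.lf (nat_lit 0) (nat_lit 12451628917) (nat_lit 228) (nat_lit 163863201) (nat_lit 304) (nat_lit 856077672) (nat_lit 62) (nat_lit 5) (nat_lit 65) (nat_lit 5) (nat_lit 66) (nat_lit 5) (nat_lit 482) (nat_lit 351) (nat_lit 307)) (XT.lf (nat_lit 0) (nat_lit 2469641091) (nat_lit 304) (nat_lit 7906816906) (nat_lit 76) (nat_lit 3278398835) (nat_lit 58) (nat_lit 5) (nat_lit 62)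 (nat_lit 5) (nat_lit 59) (nat_lit 5) (nat_lit 483) (nat_lit 351) (nat_lit 306)))) (XT.nd (nat_lit 78) (nat_lit 228) (nat_lit 0) (XT.lf (nat_lit 0) (nat_lit 5820840426) (nat_lit 304) (nat_lit 1244306101) (nat_lit 76) (nat_lit 6777160099) (nat_lit 58) (nat_lit 5) (nat_lit 62) (nat_lit 5) (nat_lit 59) (nat_lit 5) (nat_lit 484) (nat_lit 351) (nat_lit 305)) (XT.nd (nat_lit 78) (nat_lit 0) (nat_lit 0) (XT.lf (nat_lit 0) (nat_lit 5564593026) (nat_lit 228) (nat_lit 3673779659) (nat_lit 304) (nat_lit 4795164951) (nat_lit 55) (nat_lit 5) (nat_lit 58) (nat_lit 5) (nat_lit 59) (nat_lit 5) (nat_lit 485) (nat_lit 351) (nat_lit 304)) (XT.lf (nat_lit 0) (nat_lit 12467088203) (nat_lit 228) (nat_lit 229033224) (nat_lit 304) (nat_lit 1533052558) (nat_lit 55) (nat_lit 5) (nat_lit 58) (nat_lit 5) (nat_lit 59) (nat_lit 5) (nat_lit 486) (nat_lit 351) (nat_lit 303))))) (XT.nd (nat_lit 234) (nat_lit 456) (nat_lit 0) (XT.nd (nat_lit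 78) (nat_lit 228) (nat_lit 0) (XT.lf (nat_lit 0) (nat_lit 1789170428) (nat_lit 304) (nat_lit 9375001058) (nat_lit 76) (nat_lit 3263967898) (nat_lit 51) (nat_lit 5) (nat_lit 55) (nat_lit 5) (nat_lit 52) (nat_lit 5) (nat_lit 487) (nat_lit 351) (nat_lit 302)) (XT.nd (nat_lit 78) (nat_lit 228) (nat_lit 0) (XT.lf (nat_lit 0) (nat_lit 5134905881) (nat_lit 304) (nat_lit 2673018973) (nat_lit 76) (nat_lit 6823421652) (nat_lit 51) (nat_lit 5) (nat_lit 55) (nat_lit 5) (nat_lit 52) (nat_lit 5) (nat_lit 488) (nat_lit 351) (nat_lit 301)) (XT.lf (nat_lit 0) (nat_lit 4159738792) (nat_lit 228) (nat_lit 4379684625) (nat_lit 304) (nat_lit 6299373669) (nat_lit 48) (nat_lit 5) (nat_lit 51) (nat_lit 5) (nat_lit 52) (nat_lit 5) (nat_lit 489) (nat_lit 351) (nat_lit 300)))) (XT.nd (nat_lit 156) (nat_lit 228) (nat_lit 0) (XT.nd (nat_lit 78) (nat_lit 228) (nat_lit 0) (XT.lf (nat_lit 0) (nat_lit 11107945897) (nat_lit 228) (nat_lit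 887198457) (nat_lit 304) (nat_lit 3055606399) (nat_lit 48) (nat_lit 5) (nat_lit 51) (nat_lit 5) (nat_lit 52) (nat_lit 5) (nat_lit 490) (nat_lit 351) (nat_lit 299)) (XT.lf (nat_lit 0) (nat_lit 251573336) (nat_lit 228) (nat_lit 12376713137) (nat_lit 76) (nat_lit 2638602751) (nat_lit 45) (nat_lit 5) (nat_lit 48) (nat_lit 5) (nat_lit 46) (nat_lit 5) (nat_lit 491) (nat_lit 351) (nat_lit 298))) (XT.nd (nat_lit 78) (nat_lit 228) (nat_lit 0) (XT.lf (nat_lit 0) (nat_lit 3582308848) (nat_lit 228) (nat_lit 5656809360) (nat_lit 76) (nat_lit 6247877165) (nat_lit 45) (nat_lit 5) (nat_lit 48) (nat_lit 5) (nat_lit 46) (nat_lit 5) (nat_lit 492) (nat_lit 351) (nat_lit 297)) (XT.lf (nat_lit 0) (nat_lit 1156817340) (nat_lit 228) (nat_lit 5796803047) (nat_lit 304) (nat_lit 8758419124) (nat_lit 42) (nat_lit 5) (nat_lit 45) (nat_lit 5) (nat_lit 46) (nat_lit 5) (nat_lit 493) (nat_lit 351) (nat_lit 296)))))) (XT.nd (nat_lit 546)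 (nat_lit 456) (nat_lit 0) (XT.nd (nat_lit 234) (nat_lit 380) (nat_lit 0) (XT.nd (nat_lit 78) (nat_lit 228) (nat_lit 0) (XT.lf (nat_lit 0) (nat_lit 8127916508) (nat_lit 228) (nat_lit 2269149931) (nat_lit 304) (nat_lit 5544438723) (nat_lit 42) (nat_lit 5) (nat_lit 45) (nat_lit 5) (nat_lit 46) (nat_lit 5) (nat_lit 494) (nat_lit 351) (nat_lit 295)) (XT.nd (nat_lit 78) (nat_lit 228) (nat_lit 0) (XT.lf (nat_lit 0) (nat_lit 13885269153) (nat_lit 304) (nat_lit 1000668368) (nat_lit 76) (nat_lit 1290119357) (nat_lit 42) (nat_lit 5) (nat_lit 46) (nat_lit 5) (nat_lit 43) (nat_lit 4) (nat_lit 495) (nat_lit 351) (nat_lit 294)) (XT.lf (nat_lit 0) (nat_lit 1036193756) (nat_lit 228) (nat_lit 10463918504) (nat_lit 76) (nat_lit 4914633050) (nat_lit 39) (nat_lit 5) (nat_lit 42) (nat_lit 5) (nat_lit 40) (nat_lit 5) (nat_lit 496) (nat_lit 351) (nat_lit 293)))) (XT.nd (nat_lit 156) (nat_lit 152) (nat_lit 0) (XT.nd (nat_lit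 78) (nat_lit 228) (nat_lit 0) (XT.lf (nat_lit 0) (nat_lit 4373787651) (nat_lit 228) (nat_lit 3672297516) (nat_lit 76) (nat_lit 8612338243) (nat_lit 39) (nat_lit 5) (nat_lit 42) (nat_lit 5) (nat_lit 40) (nat_lit 5) (nat_lit 497) (nat_lit 351) (nat_lit 292)) (XT.lf (nat_lit 0) (nat_lit 3244844707) (nat_lit 228) (nat_lit 4522942948) (nat_lit 304) (nat_lit 9139407735) (nat_lit 36) (nat_lit 5) (nat_lit 39) (nat_lit 5) (nat_lit 40) (nat_lit 5) (nat_lit 498) (nat_lit 351) (nat_lit 291))) (XT.nd (nat_lit 78) (nat_lit 152) (nat_lit 0) (XT.lf (nat_lit 0) (nat_lit 10297588643) (nat_lit 228) (nat_lit 925583565) (nat_lit 304) (nat_lit 5937913647) (nat_lit 36) (nat_lit 5) (nat_lit 39) (nat_lit 5) (nat_lit 40) (nat_lit 5) (nat_lit 499) (nat_lit 351) (nat_lit 290)) (XT.lf (nat_lit 0) (nat_lit 1562120) (nat_lit 152) (nat_lit 14733262504) (nat_lit 228) (nat_lit 2685499186) (nat_lit 34) (nat_lit 5) (nat_lit 36) (nat_lit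 5) (nat_lit 37) (nat_lit 4) (nat_lit 500) (nat_lit 351) (nat_lit 289))))) (XT.nd (nat_lit 234) (nat_lit 228) (nat_lit 0) (XT.nd (nat_lit 78) (nat_lit 152) (nat_lit 0) (XT.lf (nat_lit 0) (nat_lit 645555823) (nat_lit 228) (nat_lit 10649458917) (nat_lit 76) (nat_lit 6389224490) (nat_lit 33) (nat_lit 5) (nat_lit 36) (nat_lit 5) (nat_lit 34) (nat_lit 5) (nat_lit 501) (nat_lit 351) (nat_lit 288)) (XT.nd (nat_lit 78) (nat_lit 152) (nat_lit 0) (XT.lf (nat_lit 0) (nat_lit 3977295130) (nat_lit 228) (nat_lit 3813589029) (nat_lit 76) (nat_lit 10162805474) (nat_lit 33) (nat_lit 5) (nat_lit 36) (nat_lit 5) (nat_lit 34) (nat_lit 5) (nat_lit 502) (nat_lit 351) (nat_lit 287)) (XT.lf (nat_lit 0) (nat_lit 3150281253) (nat_lit 152) (nat_lit 4216418566) (nat_lit 228) (nat_lit 10862020514) (nat_lit 31) (nat_lit 5) (nat_lit 33) (nat_lit 5) (nat_lit 34) (nat_lit 5) (nat_lit 503) (nat_lit 351) (nat_lit 286)))) (XT.nd (nat_lit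 156) (nat_lit 228) (nat_lit 0) (XT.nd (nat_lit 78) (nat_lit 0) (nat_lit 0) (XT.lf (nat_lit 0) (nat_lit 10255418805) (nat_lit 152) (nat_lit 564896077) (nat_lit 228) (nat_lit 7689019986) (nat_lit 31) (nat_lit 5) (nat_lit 33) (nat_lit 5) (nat_lit 34) (nat_lit 5) (nat_lit 504) (nat_lit 351) (nat_lit 285)) (XT.lf (nat_lit 0) (nat_lit 14334789150) (nat_lit 228) (nat_lit 1362599583) (nat_lit 76) (nat_lit 3098348661) (nat_lit 31) (nat_lit 5) (nat_lit 34) (nat_lit 5) (nat_lit 32) (nat_lit 4) (nat_lit 505) (nat_lit 351) (nat_lit 284))) (XT.nd (nat_lit 78) (nat_lit 76) (nat_lit 0) (XT.lf (nat_lit 0) (nat_lit 5689199014) (nat_lit 152) (nat_lit 12242868578) (nat_lit 228) (nat_lit 1155561299) (nat_lit 29) (nat_lit 5) (nat_lit 31) (nat_lit 5) (nat_lit 32) (nat_lit 4) (nat_lit 506) (nat_lit 351) (nat_lit 283)) (XT.lf (nat_lit 0) (nat_lit 2167956405) (nat_lit 228) (nat_lit 6547404514) (nat_lit 76) (nat_lit 10670098624)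 (nat_lit 28) (nat_lit 5) (nat_lit 31) (nat_lit 5) (nat_lit 29) (nat_lit 5) (nat_lit 507) (nat_lit 351) (nat_lit 282))))))) (XT.nd (nat_lit 1014) (nat_lit 456) (nat_lit 0) (XT.nd (nat_lit 468) (nat_lit 304) (nat_lit 0) (XT.nd (nat_lit 234) (nat_lit 228) (nat_lit 0) (XT.nd (nat_lit 78) (nat_lit 0) (nat_lit 0) (XT.lf (nat_lit 0) (nat_lit 390775202) (nat_lit 152) (nat_lit 5126680354) (nat_lit 228) (nat_lit 14172149373) (nat_lit 26) (nat_lit 5) (nat_lit 28) (nat_lit 5) (nat_lit 29) (nat_lit 5) (nat_lit 508) (nat_lit 351) (nat_lit 281)) (XT.nd (nat_lit 78) (nat_lit 0) (nat_lit 0) (XT.lf (nat_lit 0) (nat_lit 7509443226) (nat_lit 152) (nat_lit 1441105626) (nat_lit 228) (nat_lit 11048962646) (nat_lit 26) (nat_lit 5) (nat_lit 28) (nat_lit 5) (nat_lit 29) (nat_lit 5) (nat_lit 509) (nat_lit 351) (nat_lit 280)) (XT.lf (nat_lit 0) (nat_lit 12440433378) (nat_lit 228) (nat_lit 5606708457) (nat_lit 76) (nat_lit 2268721935)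 (nat_lit 26) (nat_lit 5) (nat_lit 29) (nat_lit 5) (nat_lit 27) (nat_lit 4) (nat_lit 510) (nat_lit 351) (nat_lit 279)))) (XT.nd (nat_lit 78) (nat_lit 76) (nat_lit 0) (XT.lf (nat_lit 0) (nat_lit 1377223915) (nat_lit 152) (nat_lit 14614983349) (nat_lit 228) (nat_lit 4646503946) (nat_lit 24) (nat_lit 5) (nat_lit 26) (nat_lit 5) (nat_lit 27) (nat_lit 4) (nat_lit 511) (nat_lit 351) (nat_lit 278)) (XT.nd (nat_lit 78) (nat_lit 76) (nat_lit 0) (XT.lf (nat_lit 0) (nat_lit 8531522000) (nat_lit 152) (nat_lit 11094947993) (nat_lit 228) (nat_lit 1341326301) (nat_lit 24) (nat_lit 5) (nat_lit 26) (nat_lit 5) (nat_lit 27) (nat_lit 4) (nat_lit 512) (nat_lit 351) (nat_lit 277)) (XT.lf (nat_lit 0) (nat_lit 1977494856) (nat_lit 228) (nat_lit 5532514437) (nat_lit 76) (nat_lit 13793716311) (nat_lit 23) (nat_lit 5) (nat_lit 26) (nat_lit 5) (nat_lit 24) (nat_lit 5) (nat_lit 513) (nat_lit 351) (nat_lit 276))))) (XT.nd (nat_lit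 234) (nat_lit 152) (nat_lit 0) (XT.nd (nat_lit 78) (nat_lit 0) (nat_lit 0) (XT.lf (nat_lit 0) (nat_lit 1475894690) (nat_lit 152) (nat_lit 3853106455) (nat_lit 228) (nat_lit 16317518851) (nat_lit 21) (nat_lit 5) (nat_lit 23) (nat_lit 5) (nat_lit 24) (nat_lit 5) (nat_lit 514) (nat_lit 351) (nat_lit 275)) (XT.nd (nat_lit 78) (nat_lit 0) (nat_lit 0) (XT.lf (nat_lit 0) (nat_lit 8655855906) (nat_lit 152) (nat_lit 103691047) (nat_lit 228) (nat_lit 13236392152) (nat_lit 21) (nat_lit 5) (nat_lit 23) (nat_lit 5) (nat_lit 24) (nat_lit 5) (nat_lit 515) (nat_lit 351) (nat_lit 274)) (XT.lf (nat_lit 0) (nat_lit 12258119086) (nat_lit 228) (nat_lit 6440226861) (nat_lit 76) (nat_lit 3654021185) (nat_lit 21) (nat_lit 5) (nat_lit 24) (nat_lit 5) (nat_lit 22) (nat_lit 4) (nat_lit 516) (nat_lit 351) (nat_lit 273)))) (XT.nd (nat_lit 156) (nat_lit 76) (nat_lit 0) (XT.nd (nat_lit 78) (nat_lit 0) (nat_lit 0) (XT.lf (nat_lit 0)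 (nat_lit 562017462) (nat_lit 76) (nat_lit 15244724092) (nat_lit 152) (nat_lit 6909589254) (nat_lit 20) (nat_lit 5) (nat_lit 21) (nat_lit 5) (nat_lit 22) (nat_lit 4) (nat_lit 517) (nat_lit 351) (nat_lit 272)) (XT.lf (nat_lit 0) (nat_lit 7749590482) (nat_lit 76) (nat_lit 11695909344) (nat_lit 152) (nat_lit 3641699164) (nat_lit 20) (nat_lit 5) (nat_lit 21) (nat_lit 5) (nat_lit 22) (nat_lit 4) (nat_lit 518) (nat_lit 351) (nat_lit 271))) (XT.nd (nat_lit 78) (nat_lit 76) (nat_lit 0) (XT.lf (nat_lit 0) (nat_lit 15039723629) (nat_lit 76) (nat_lit 8093727324) (nat_lit 152) (nat_lit 332513563) (nat_lit 20) (nat_lit 5) (nat_lit 21) (nat_lit 5) (nat_lit 22) (nat_lit 4) (nat_lit 519) (nat_lit 351) (nat_lit 270)) (XT.lf (nat_lit 0) (nat_lit 2979667062) (nat_lit 152) (nat_lit 1437103213) (nat_lit 76) (nat_lit 19435613581) (nat_lit 19) (nat_lit 5) (nat_lit 21) (nat_lit 5) (nat_lit 20) (nat_lit 5) (nat_lit 520) (nat_lit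 351) (nat_lit 269)))))) (XT.nd (nat_lit 546) (nat_lit 152) (nat_lit 0) (XT.nd (nat_lit 234) (nat_lit 152) (nat_lit 0) (XT.nd (nat_lit 78) (nat_lit 0) (nat_lit 0) (XT.lf (nat_lit 0) (nat_lit 5724793835) (nat_lit 152) (nat_lit 643193833) (nat_lit 228) (nat_lit 17878220834) (nat_lit 17) (nat_lit 5) (nat_lit 19) (nat_lit 5) (nat_lit 20) (nat_lit 5) (nat_lit 521) (nat_lit 351) (nat_lit 268)) (XT.nd (nat_lit 78) (nat_lit 0) (nat_lit 0) (XT.lf (nat_lit 0) (nat_lit 9831851962) (nat_lit 228) (nat_lit 11659176482) (nat_lit 76) (nat_lit 3156733350) (nat_lit 17) (nat_lit 5) (nat_lit 20) (nat_lit 5) (nat_lit 18) (nat_lit 4) (nat_lit 522) (nat_lit 351) (nat_lit 267)) (XT.lf (nat_lit 0) (nat_lit 13346954239) (nat_lit 228) (nat_lit 4703159422) (nat_lit 76) (nat_lit 7007600823) (nat_lit 17) (nat_lit 5) (nat_lit 20) (nat_lit 5) (nat_lit 18) (nat_lit 4) (nat_lit 523) (nat_lit 351) (nat_lit 266)))) (XT.nd (nat_lit 156) (nat_lit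 76) (nat_lit 0) (XT.nd (nat_lit 78) (nat_lit 0) (nat_lit 0) (XT.lf (nat_lit 0) (nat_lit 2384817715) (nat_lit 76) (nat_lit 14541163033) (nat_lit 152) (nat_lit 8550020434) (nat_lit 16) (nat_lit 5) (nat_lit 17) (nat_lit 5) (nat_lit 18) (nat_lit 4) (nat_lit 524) (nat_lit 351) (nat_lit 265)) (XT.lf (nat_lit 0) (nat_lit 9640122262) (nat_lit 76) (nat_lit 10946345309) (nat_lit 152) (nat_lit 5315995701) (nat_lit 16) (nat_lit 5) (nat_lit 17) (nat_lit 5) (nat_lit 18) (nat_lit 4) (nat_lit 525) (nat_lit 351) (nat_lit 264))) (XT.nd (nat_lit 78) (nat_lit 76) (nat_lit 0) (XT.lf (nat_lit 0) (nat_lit 17003096923) (nat_lit 76) (nat_lit 7295811432) (nat_lit 152) (nat_lit 2038978478) (nat_lit 16) (nat_lit 5) (nat_lit 17) (nat_lit 5) (nat_lit 18) (nat_lit 4) (nat_lit 526) (nat_lit 351) (nat_lit 263)) (XT.lf (nat_lit 0) (nat_lit 1265498530) (nat_lit 152) (nat_lit 2314139127) (nat_lit 76) (nat_lit 23202638445) (nat_lit 15) (nat_lit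 5) (nat_lit 17) (nat_lit 5) (nat_lit 16) (nat_lit 5) (nat_lit 527) (nat_lit 351) (nat_lit 262))))) (XT.nd (nat_lit 52260) (nat_lit 0) (nat_lit 14136) (XT.nd (nat_lit 78) (nat_lit 0) (nat_lit 0) (XT.lf (nat_lit 0) (nat_lit 4621342105) (nat_lit 228) (nat_lit 22375724813) (nat_lit 76) (nat_lit 237971809) (nat_lit 13) (nat_lit 5) (nat_lit 16) (nat_lit 5) (nat_lit 14) (nat_lit 4) (nat_lit 528) (nat_lit 351) (nat_lit 261)) (XT.nd (nat_lit 52104) (nat_lit 0) (nat_lit 16036) (XT.lf (nat_lit 0) (nat_lit 8063136328) (nat_lit 228) (nat_lit 15549087322) (nat_lit 76) (nat_lit 4084262848) (nat_lit 13) (nat_lit 5) (nat_lit 16) (nat_lit 5) (nat_lit 14) (nat_lit 4) (nat_lit 529) (nat_lit 351) (nat_lit 260)) (XT.lf (nat_lit 0) (nat_lit 3043726801) (nat_lit 684) (nat_lit 514408201) (nat_lit 684) (nat_lit 514408201) (nat_lit 224) (nat_lit 4) (nat_lit 233) (nat_lit 5) (nat_lit 233) (nat_lit 4) (nat_lit 436) (nat_lit 352)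 (nat_lit 352)))) (XT.nd (nat_lit 156) (nat_lit 608) (nat_lit 0) (XT.nd (nat_lit 78) (nat_lit 608) (nat_lit 0) (XT.lf (nat_lit 0) (nat_lit 2390180179) (nat_lit 684) (nat_lit 4609313131) (nat_lit 0) (nat_lit 1211340851) (nat_lit 215) (nat_lit 5) (nat_lit 224) (nat_lit 4) (nat_lit 215) (nat_lit 4) (nat_lit 437) (nat_lit 352) (nat_lit 351)) (XT.lf (nat_lit 0) (nat_lit 1048438521) (nat_lit 608) (nat_lit 4782304413) (nat_lit 608) (nat_lit 2447740255) (nat_lit 207) (nat_lit 4) (nat_lit 215) (nat_lit 5) (nat_lit 215) (nat_lit 4) (nat_lit 438) (nat_lit 352) (nat_lit 350))) (XT.nd (nat_lit 78) (nat_lit 532) (nat_lit 0) (XT.lf (nat_lit 0) (nat_lit 950421602) (nat_lit 684) (nat_lit 1547776080) (nat_lit 76) (nat_lit 5849801632) (nat_lit 206) (nat_lit 5) (nat_lit 215) (nat_lit 5) (nat_lit 207) (nat_lit 4) (nat_lit 439) (nat_lit 352) (nat_lit 349)) (XT.lf (nat_lit 0) (nat_lit 4212582838) (nat_lit 532) (nat_lit 139425667)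 (nat_lit 608) (nat_lit 4067266942) (nat_lit 199) (nat_lit 5) (nat_lit 206) (nat_lit 5) (nat_lit 207) (nat_lit 4) (nat_lit 440) (nat_lit 352) (nat_lit 348))))))))
noncomputable def xc41 : XT := (XT.nd (nat_lit 2106) (nat_lit 3952) (nat_lit 0) (XT.nd (nat_lit 1014) (nat_lit 3116) (nat_lit 0) (XT.nd (nat_lit 468) (nat_lit 2584) (nat_lit 0) (XT.nd (nat_lit 234) (nat_lit 1064) (nat_lit 0) (XT.nd (nat_lit 78) (nat_lit 608) (nat_lit 0) (XT.lf (nat_lit 0) (nat_lit 1547645624) (nat_lit 608) (nat_lit 6250633381) (nat_lit 608) (nat_lit 694221945) (nat_lit 191) (nat_lit 4) (nat_lit 199) (nat_lit 5) (nat_lit 199) (nat_lit 4) (nat_lit 441) (nat_lit 352) (nat_lit 347)) (XT.nd (nat_lit 78) (nat_lit 532) (nat_lit 0) (XT.lf (nat_lit 0) (nat_lit 2681262598) (nat_lit 684) (nat_lit 1187036574) (nat_lit 76) (nat_lit 4699169916) (nat_lit 190) (nat_lit 5) (nat_lit 199) (nat_lit 5) (nat_lit 191) (nat_lit 4) (nat_lit 442) (nat_lit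 352) (nat_lit 346)) (XT.lf (nat_lit 0) (nat_lit 4668488088) (nat_lit 532) (nat_lit 1419593934) (nat_lit 608) (nat_lit 2556353975) (nat_lit 183) (nat_lit 5) (nat_lit 190) (nat_lit 5) (nat_lit 191) (nat_lit 4) (nat_lit 443) (nat_lit 352) (nat_lit 345)))) (XT.nd (nat_lit 78) (nat_lit 456) (nat_lit 0) (XT.lf (nat_lit 0) (nat_lit 799371877) (nat_lit 608) (nat_lit 6851509603) (nat_lit 76) (nat_lit 1072597308) (nat_lit 175) (nat_lit 5) (nat_lit 183) (nat_lit 5) (nat_lit 176) (nat_lit 4) (nat_lit 444) (nat_lit 352) (nat_lit 344)) (XT.nd (nat_lit 78) (nat_lit 456) (nat_lit 0) (XT.lf (nat_lit 0) (nat_lit 4167815208) (nat_lit 608) (nat_lit 1014312913) (nat_lit 76) (nat_lit 3622090225) (nat_lit 175) (nat_lit 5) (nat_lit 183) (nat_lit 5) (nat_lit 176) (nat_lit 4) (nat_lit 445) (nat_lit 352) (nat_lit 343)) (XT.lf (nat_lit 0) (nat_lit 4930789769) (nat_lit 456) (nat_lit 2649500480) (nat_lit 532) (nat_lit 1306798708)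 (nat_lit 169) (nat_lit 5) (nat_lit 175) (nat_lit 5) (nat_lit 176) (nat_lit 4) (nat_lit 446) (nat_lit 352) (nat_lit 342))))) (XT.nd (nat_lit 234) (nat_lit 1520) (nat_lit 0) (XT.nd (nat_lit 78) (nat_lit 456) (nat_lit 0) (XT.lf (nat_lit 0) (nat_lit 1975558851) (nat_lit 532) (nat_lit 50964082) (nat_lit 608) (nat_lit 6945579768) (nat_lit 161) (nat_lit 5) (nat_lit 168) (nat_lit 5) (nat_lit 169) (nat_lit 5) (nat_lit 447) (nat_lit 352) (nat_lit 341)) (XT.nd (nat_lit 78) (nat_lit 456) (nat_lit 0) (XT.lf (nat_lit 0) (nat_lit 5397965091) (nat_lit 608) (nat_lit 1078644281) (nat_lit 76) (nat_lit 2582302211) (nat_lit 161) (nat_lit 5) (nat_lit 169) (nat_lit 5) (nat_lit 162) (nat_lit 4) (nat_lit 448) (nat_lit 352) (nat_lit 340)) (XT.lf (nat_lit 0) (nat_lit 4949311196) (nat_lit 456) (nat_lit 3866401648) (nat_lit 532) (nat_lit 332212011) (nat_lit 155) (nat_lit 5) (nat_lit 161) (nat_lit 5) (nat_lit 162) (nat_lit 4) (nat_lit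 449) (nat_lit 352) (nat_lit 339)))) (XT.nd (nat_lit 156) (nat_lit 988) (nat_lit 0) (XT.nd (nat_lit 78) (nat_lit 0) (nat_lit 0) (XT.lf (nat_lit 0) (nat_lit 1804453614) (nat_lit 456) (nat_lit 1184062910) (nat_lit 532) (nat_lit 6250536238) (nat_lit 148) (nat_lit 5) (nat_lit 154) (nat_lit 5) (nat_lit 155) (nat_lit 5) (nat_lit 450) (nat_lit 352) (nat_lit 338)) (XT.lf (nat_lit 0) (nat_lit 6356690249) (nat_lit 532) (nat_lit 1433046712) (nat_lit 76) (nat_lit 1542555879) (nat_lit 148) (nat_lit 5) (nat_lit 155) (nat_lit 5) (nat_lit 149) (nat_lit 4) (nat_lit 451) (nat_lit 352) (nat_lit 337))) (XT.nd (nat_lit 78) (nat_lit 456) (nat_lit 0) (XT.lf (nat_lit 0) (nat_lit 346148268) (nat_lit 532) (nat_lit 4760248556) (nat_lit 76) (nat_lit 4321272891) (nat_lit 141) (nat_lit 5) (nat_lit 148) (nat_lit 5) (nat_lit 142) (nat_lit 5) (nat_lit 452) (nat_lit 352) (nat_lit 336)) (XT.lf (nat_lit 0) (nat_lit 1309517560) (nat_lit 456)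 (nat_lit 2351439970) (nat_lit 532) (nat_lit 5864314510) (nat_lit 135) (nat_lit 5) (nat_lit 141) (nat_lit 5) (nat_lit 142) (nat_lit 5) (nat_lit 453) (nat_lit 352) (nat_lit 335)))))) (XT.nd (nat_lit 546) (nat_lit 1444) (nat_lit 0) (XT.nd (nat_lit 234) (nat_lit 836) (nat_lit 0) (XT.nd (nat_lit 78) (nat_lit 836) (nat_lit 0) (XT.lf (nat_lit 0) (nat_lit 7025855593) (nat_lit 532) (nat_lit 2135073020) (nat_lit 76) (nat_lit 464261773) (nat_lit 135) (nat_lit 5) (nat_lit 142) (nat_lit 5) (nat_lit 136) (nat_lit 4) (nat_lit 454) (nat_lit 352) (nat_lit 334)) (XT.nd (nat_lit 78) (nat_lit 380) (nat_lit 0) (XT.lf (nat_lit 0) (nat_lit 712686879) (nat_lit 456) (nat_lit 5698934580) (nat_lit 76) (nat_lit 3315602427) (nat_lit 129) (nat_lit 5) (nat_lit 135) (nat_lit 5) (nat_lit 130) (nat_lit 5) (nat_lit 455) (nat_lit 352) (nat_lit 333)) (XT.lf (nat_lit 0) (nat_lit 429465958) (nat_lit 380) (nat_lit 3593745835) (nat_lit 456)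 (nat_lit 5808438804) (nat_lit 124) (nat_lit 5) (nat_lit 129) (nat_lit 5) (nat_lit 130) (nat_lit 5) (nat_lit 456) (nat_lit 352) (nat_lit 332)))) (XT.nd (nat_lit 156) (nat_lit 380) (nat_lit 0) (XT.nd (nat_lit 78) (nat_lit 456) (nat_lit 0) (XT.lf (nat_lit 0) (nat_lit 6686450427) (nat_lit 380) (nat_lit 702085598) (nat_lit 456) (nat_lit 2549894833) (nat_lit 124) (nat_lit 5) (nat_lit 129) (nat_lit 5) (nat_lit 130) (nat_lit 5) (nat_lit 457) (nat_lit 352) (nat_lit 331)) (XT.lf (nat_lit 0) (nat_lit 748626056) (nat_lit 456) (nat_lit 7077663271) (nat_lit 76) (nat_lit 2221293183) (nat_lit 118) (nat_lit 5) (nat_lit 124) (nat_lit 5) (nat_lit 119) (nat_lit 5) (nat_lit 458) (nat_lit 352) (nat_lit 330))) (XT.nd (nat_lit 78) (nat_lit 380) (nat_lit 0) (XT.lf (nat_lit 0) (nat_lit 4056951246) (nat_lit 456) (nat_lit 890749689) (nat_lit 76) (nat_lit 5211354296) (nat_lit 118) (nat_lit 5) (nat_lit 124) (nat_lit 5) (nat_lit 119)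 (nat_lit 5) (nat_lit 459) (nat_lit 352) (nat_lit 329)) (XT.lf (nat_lit 0) (nat_lit 5421469947) (nat_lit 380) (nat_lit 1997455581) (nat_lit 456) (nat_lit 2854116218) (nat_lit 113) (nat_lit 5) (nat_lit 118) (nat_lit 5) (nat_lit 119) (nat_lit 5) (nat_lit 460) (nat_lit 352) (nat_lit 328))))) (XT.nd (nat_lit 234) (nat_lit 684) (nat_lit 0) (XT.nd (nat_lit 78) (nat_lit 380) (nat_lit 0) (XT.lf (nat_lit 0) (nat_lit 427077926) (nat_lit 380) (nat_lit 8967676091) (nat_lit 76) (nat_lit 995041779) (nat_lit 108) (nat_lit 5) (nat_lit 113) (nat_lit 5) (nat_lit 109) (nat_lit 5) (nat_lit 461) (nat_lit 352) (nat_lit 327)) (XT.nd (nat_lit 78) (nat_lit 380) (nat_lit 0) (XT.lf (nat_lit 0) (nat_lit 3734478653) (nat_lit 380) (nat_lit 2723643834) (nat_lit 76) (nat_lit 4050441170) (nat_lit 108) (nat_lit 5) (nat_lit 113) (nat_lit 5) (nat_lit 109) (nat_lit 5) (nat_lit 462) (nat_lit 352) (nat_lit 326)) (XT.lf (nat_lit 0) (nat_lit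 3624059860) (nat_lit 380) (nat_lit 3461186749) (nat_lit 456) (nat_lit 3544947287) (nat_lit 103) (nat_lit 5) (nat_lit 108) (nat_lit 5) (nat_lit 109) (nat_lit 5) (nat_lit 463) (nat_lit 352) (nat_lit 325)))) (XT.nd (nat_lit 156) (nat_lit 304) (nat_lit 0) (XT.nd (nat_lit 78) (nat_lit 380) (nat_lit 0) (XT.lf (nat_lit 0) (nat_lit 10067350168) (nat_lit 380) (nat_lit 408110939) (nat_lit 456) (nat_lit 279377795) (nat_lit 103) (nat_lit 5) (nat_lit 108) (nat_lit 5) (nat_lit 109) (nat_lit 5) (nat_lit 464) (nat_lit 352) (nat_lit 324)) (XT.lf (nat_lit 0) (nat_lit 3021313950) (nat_lit 380) (nat_lit 5154081555) (nat_lit 76) (nat_lit 2706018010) (nat_lit 98) (nat_lit 5) (nat_lit 103) (nat_lit 5) (nat_lit 99) (nat_lit 5) (nat_lit 465) (nat_lit 352) (nat_lit 323))) (XT.nd (nat_lit 78) (nat_lit 0) (nat_lit 0) (XT.lf (nat_lit 0) (nat_lit 1212747283) (nat_lit 304) (nat_lit 5141788092) (nat_lit 380) (nat_lit 4656571187) (nat_lit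 94) (nat_lit 5) (nat_lit 98) (nat_lit 5) (nat_lit 99) (nat_lit 5) (nat_lit 466) (nat_lit 352) (nat_lit 322)) (XT.lf (nat_lit 0) (nat_lit 7709308977) (nat_lit 304) (nat_lit 2035175087) (nat_lit 380) (nat_lit 1399136594) (nat_lit 94) (nat_lit 5) (nat_lit 98) (nat_lit 5) (nat_lit 99) (nat_lit 5) (nat_lit 467) (nat_lit 352) (nat_lit 321))))))) (XT.nd (nat_lit 1092) (nat_lit 1520) (nat_lit 0) (XT.nd (nat_lit 546) (nat_lit 1140) (nat_lit 0) (XT.nd (nat_lit 234) (nat_lit 608) (nat_lit 0) (XT.nd (nat_lit 78) (nat_lit 304) (nat_lit 0) (XT.lf (nat_lit 0) (nat_lit 1881267959) (nat_lit 380) (nat_lit 8269130297) (nat_lit 76) (nat_lit 1128503399) (nat_lit 89) (nat_lit 5) (nat_lit 94) (nat_lit 5) (nat_lit 90) (nat_lit 5) (nat_lit 468) (nat_lit 352) (nat_lit 320)) (XT.nd (nat_lit 78) (nat_lit 304) (nat_lit 0) (XT.lf (nat_lit 0) (nat_lit 5201556577) (nat_lit 380) (nat_lit 1877102489) (nat_lit 76) (nat_lit 4338210833)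 (nat_lit 89) (nat_lit 5) (nat_lit 94) (nat_lit 5) (nat_lit 90) (nat_lit 5) (nat_lit 469) (nat_lit 352) (nat_lit 319)) (XT.lf (nat_lit 0) (nat_lit 4637839238) (nat_lit 304) (nat_lit 3937696459) (nat_lit 380) (nat_lit 2982342394) (nat_lit 85) (nat_lit 5) (nat_lit 89) (nat_lit 5) (nat_lit 90) (nat_lit 5) (nat_lit 470) (nat_lit 352) (nat_lit 318)))) (XT.nd (nat_lit 156) (nat_lit 304) (nat_lit 0) (XT.nd (nat_lit 78) (nat_lit 228) (nat_lit 0) (XT.lf (nat_lit 0) (nat_lit 281114815) (nat_lit 380) (nat_lit 460973681) (nat_lit 76) (nat_lit 10960203028) (nat_lit 84) (nat_lit 5) (nat_lit 89) (nat_lit 5) (nat_lit 85) (nat_lit 5) (nat_lit 471) (nat_lit 352) (nat_lit 317)) (XT.lf (nat_lit 0) (nat_lit 3584411895) (nat_lit 304) (nat_lit 5742648258) (nat_lit 76) (nat_lit 2521873481) (nat_lit 81) (nat_lit 5) (nat_lit 85) (nat_lit 5) (nat_lit 82) (nat_lit 5) (nat_lit 472) (nat_lit 352) (nat_lit 316))) (XT.nd (nat_lit 78)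 (nat_lit 0) (nat_lit 0) (XT.lf (nat_lit 0) (nat_lit 752726851) (nat_lit 304) (nat_lit 6172340253) (nat_lit 380) (nat_lit 5074039915) (nat_lit 77) (nat_lit 5) (nat_lit 81) (nat_lit 5) (nat_lit 82) (nat_lit 5) (nat_lit 473) (nat_lit 352) (nat_lit 315)) (XT.lf (nat_lit 0) (nat_lit 7391377723) (nat_lit 304) (nat_lit 2938468045) (nat_lit 380) (nat_lit 1822515694) (nat_lit 77) (nat_lit 5) (nat_lit 81) (nat_lit 5) (nat_lit 82) (nat_lit 5) (nat_lit 474) (nat_lit 352) (nat_lit 314))))) (XT.nd (nat_lit 234) (nat_lit 532) (nat_lit 0) (XT.nd (nat_lit 78) (nat_lit 304) (nat_lit 0) (XT.lf (nat_lit 0) (nat_lit 1447780961) (nat_lit 304) (nat_lit 10507110014) (nat_lit 76) (nat_lit 354152160) (nat_lit 73) (nat_lit 5) (nat_lit 77) (nat_lit 5) (nat_lit 74) (nat_lit 5) (nat_lit 475) (nat_lit 352) (nat_lit 313)) (XT.nd (nat_lit 78) (nat_lit 304) (nat_lit 0) (XT.lf (nat_lit 0) (nat_lit 4770252343) (nat_lit 304) (nat_lit 4003350268)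 (nat_lit 76) (nat_lit 3694813874) (nat_lit 73) (nat_lit 5) (nat_lit 77) (nat_lit 5) (nat_lit 74) (nat_lit 5) (nat_lit 476) (nat_lit 352) (nat_lit 312)) (XT.lf (nat_lit 0) (nat_lit 2601829472) (nat_lit 304) (nat_lit 5534559155) (nat_lit 380) (nat_lit 4495066352) (nat_lit 69) (nat_lit 5) (nat_lit 73) (nat_lit 5) (nat_lit 74) (nat_lit 5) (nat_lit 477) (nat_lit 352) (nat_lit 311)))) (XT.nd (nat_lit 156) (nat_lit 228) (nat_lit 0) (XT.nd (nat_lit 78) (nat_lit 304) (nat_lit 0) (XT.lf (nat_lit 0) (nat_lit 9331013629) (nat_lit 304) (nat_lit 2226394335) (nat_lit 380) (nat_lit 1240616629) (nat_lit 69) (nat_lit 5) (nat_lit 73) (nat_lit 5) (nat_lit 74) (nat_lit 5) (nat_lit 478) (nat_lit 352) (nat_lit 310)) (XT.lf (nat_lit 0) (nat_lit 2041113114) (nat_lit 304) (nat_lit 9782006216) (nat_lit 76) (nat_lit 1144767904) (nat_lit 65) (nat_lit 5) (nat_lit 69) (nat_lit 5) (nat_lit 66) (nat_lit 5) (nat_lit 479) (nat_lit 352)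 (nat_lit 309))) (XT.nd (nat_lit 78) (nat_lit 228) (nat_lit 0) (XT.lf (nat_lit 0) (nat_lit 5371450305) (nat_lit 304) (nat_lit 3206883661) (nat_lit 76) (nat_lit 4562677770) (nat_lit 65) (nat_lit 5) (nat_lit 69) (nat_lit 5) (nat_lit 66) (nat_lit 5) (nat_lit 480) (nat_lit 352) (nat_lit 308)) (XT.lf (nat_lit 0) (nat_lit 3484743880) (nat_lit 228) (nat_lit 5268437691) (nat_lit 304) (nat_lit 4564741326) (nat_lit 62) (nat_lit 5) (nat_lit 65) (nat_lit 5) (nat_lit 66) (nat_lit 5) (nat_lit 481) (nat_lit 352) (nat_lit 307)))))) (XT.nd (nat_lit 546) (nat_lit 684) (nat_lit 0) (XT.nd (nat_lit 234) (nat_lit 532) (nat_lit 0) (XT.nd (nat_lit 78) (nat_lit 304) (nat_lit 0) (XT.lf (nat_lit 0) (nat_lit 10293372963) (nat_lit 228) (nat_lit 1893206843) (nat_lit 304) (nat_lit 1312131351) (nat_lit 62) (nat_lit 5) (nat_lit 65) (nat_lit 5) (nat_lit 66) (nat_lit 5) (nat_lit 482) (nat_lit 352) (nat_lit 306)) (XT.nd (nat_lit 78) (nat_lit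 0) (nat_lit 0) (XT.lf (nat_lit 0) (nat_lit 1975275440) (nat_lit 304) (nat_lit 10164619177) (nat_lit 76) (nat_lit 1543057958) (nat_lit 58) (nat_lit 5) (nat_lit 62) (nat_lit 5) (nat_lit 59) (nat_lit 5) (nat_lit 483) (nat_lit 352) (nat_lit 305)) (XT.lf (nat_lit 0) (nat_lit 5308247006) (nat_lit 304) (nat_lit 3531733387) (nat_lit 76) (nat_lit 5030795638) (nat_lit 58) (nat_lit 5) (nat_lit 62) (nat_lit 5) (nat_lit 59) (nat_lit 5) (nat_lit 484) (nat_lit 352) (nat_lit 304)))) (XT.nd (nat_lit 156) (nat_lit 304) (nat_lit 0) (XT.nd (nat_lit 78) (nat_lit 0) (nat_lit 0) (XT.lf (nat_lit 0) (nat_lit 3217336921) (nat_lit 228) (nat_lit 5475332039) (nat_lit 304) (nat_lit 5370009215) (nat_lit 55) (nat_lit 5) (nat_lit 58) (nat_lit 5) (nat_lit 59) (nat_lit 5) (nat_lit 485) (nat_lit 352) (nat_lit 303)) (XT.lf (nat_lit 0) (nat_lit 10090979046) (nat_lit 228) (nat_lit 2041731362) (nat_lit 304) (nat_lit 2125967017) (nat_lit 55)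 (nat_lit 5) (nat_lit 58) (nat_lit 5) (nat_lit 59) (nat_lit 5) (nat_lit 486) (nat_lit 352) (nat_lit 302))) (XT.nd (nat_lit 78) (nat_lit 0) (nat_lit 0) (XT.lf (nat_lit 0) (nat_lit 1158587534) (nat_lit 304) (nat_lit 11855875383) (nat_lit 76) (nat_lit 1444174205) (nat_lit 51) (nat_lit 5) (nat_lit 55) (nat_lit 5) (nat_lit 52) (nat_lit 5) (nat_lit 487) (nat_lit 352) (nat_lit 301)) (XT.lf (nat_lit 0) (nat_lit 4486926745) (nat_lit 304) (nat_lit 5182516903) (nat_lit 76) (nat_lit 4992756769) (nat_lit 51) (nat_lit 5) (nat_lit 55) (nat_lit 5) (nat_lit 52) (nat_lit 5) (nat_lit 488) (nat_lit 352) (nat_lit 300))))) (XT.nd (nat_lit 234) (nat_lit 304) (nat_lit 0) (XT.nd (nat_lit 78) (nat_lit 152) (nat_lit 0) (XT.lf (nat_lit 0) (nat_lit 1588455662) (nat_lit 228) (nat_lit 6269239005) (nat_lit 304) (nat_lit 7012639411) (nat_lit 48) (nat_lit 5) (nat_lit 51) (nat_lit 5) (nat_lit 52) (nat_lit 5) (nat_lit 489) (nat_lit 352)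 (nat_lit 299)) (XT.nd (nat_lit 78) (nat_lit 152) (nat_lit 0) (XT.lf (nat_lit 0) (nat_lit 8508785029) (nat_lit 228) (nat_lit 2787728850) (nat_lit 304) (nat_lit 3786119830) (nat_lit 48) (nat_lit 5) (nat_lit 51) (nat_lit 5) (nat_lit 52) (nat_lit 5) (nat_lit 490) (nat_lit 352) (nat_lit 298)) (XT.lf (nat_lit 0) (nat_lit 210391532) (nat_lit 152) (nat_lit 14566427345) (nat_lit 228) (nat_lit 522921970) (nat_lit 46) (nat_lit 5) (nat_lit 48) (nat_lit 5) (nat_lit 49) (nat_lit 4) (nat_lit 491) (nat_lit 352) (nat_lit 297)))) (XT.nd (nat_lit 156) (nat_lit 228) (nat_lit 0) (XT.nd (nat_lit 78) (nat_lit 0) (nat_lit 0) (XT.lf (nat_lit 0) (nat_lit 2798063089) (nat_lit 228) (nat_lit 8393697421) (nat_lit 76) (nat_lit 4328494033) (nat_lit 45) (nat_lit 5) (nat_lit 48) (nat_lit 5) (nat_lit 46) (nat_lit 5) (nat_lit 492) (nat_lit 352) (nat_lit 296)) (XT.lf (nat_lit 0) (nat_lit 6145580795) (nat_lit 228) (nat_lit 1622347529) (nat_lit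 76) (nat_lit 7977853558) (nat_lit 45) (nat_lit 5) (nat_lit 48) (nat_lit 5) (nat_lit 46) (nat_lit 5) (nat_lit 493) (nat_lit 352) (nat_lit 295))) (XT.nd (nat_lit 78) (nat_lit 0) (nat_lit 0) (XT.lf (nat_lit 0) (nat_lit 5300264876) (nat_lit 228) (nat_lit 4261950075) (nat_lit 304) (nat_lit 6413576002) (nat_lit 42) (nat_lit 5) (nat_lit 45) (nat_lit 5) (nat_lit 46) (nat_lit 5) (nat_lit 494) (nat_lit 352) (nat_lit 294)) (XT.lf (nat_lit 0) (nat_lit 12329995612) (nat_lit 228) (nat_lit 696112309) (nat_lit 304) (nat_lit 3184727983) (nat_lit 42) (nat_lit 5) (nat_lit 45) (nat_lit 5) (nat_lit 46) (nat_lit 5) (nat_lit 495) (nat_lit 352) (nat_lit 293))))))))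
noncomputable def xc42 : XT := (XT.nd (nat_lit 2106) (nat_lit 304) (nat_lit 0) (XT.nd (nat_lit 1014) (nat_lit 836) (nat_lit 0) (XT.nd (nat_lit 468) (nat_lit 456) (nat_lit 0) (XT.nd (nat_lit 234) (nat_lit 152) (nat_lit 0) (XT.nd (nat_lit 78) (nat_lit 228) (nat_lit 0) (XT.lf (nat_lit 0) (nat_lit 114521837) (nat_lit 228) (nat_lit 13433770907) (nat_lit 76) (nat_lit 2902143558) (nat_lit 39) (nat_lit 5) (nat_lit 42) (nat_lit 5) (nat_lit 40) (nat_lit 5) (nat_lit 496) (nat_lit 352) (nat_lit 292)) (XT.nd (nat_lit 78) (nat_lit 228) (nat_lit 0) (XT.lf (nat_lit 0) (nat_lit 3436564518) (nat_lit 228) (nat_lit 6668322150) (nat_lit 76) (nat_lit 6589545393) (nat_lit 39) (nat_lit 5) (nat_lit 42) (nat_lit 5) (nat_lit 40) (nat_lit 5) (nat_lit 497) (nat_lit 352) (nat_lit 291)) (XT.lf (nat_lit 0) (nat_lit 183004437) (nat_lit 228) (nat_lit 6612434297) (nat_lit 304) (nat_lit 10148474326) (nat_lit 36) (nat_lit 5) (nat_lit 39)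 (nat_lit 5) (nat_lit 40) (nat_lit 5) (nat_lit 498) (nat_lit 352) (nat_lit 290)))) (XT.nd (nat_lit 78) (nat_lit 152) (nat_lit 0) (XT.lf (nat_lit 0) (nat_lit 7210258134) (nat_lit 228) (nat_lit 3025452312) (nat_lit 304) (nat_lit 6962401714) (nat_lit 36) (nat_lit 5) (nat_lit 39) (nat_lit 5) (nat_lit 40) (nat_lit 5) (nat_lit 499) (nat_lit 352) (nat_lit 289)) (XT.nd (nat_lit 78) (nat_lit 152) (nat_lit 0) (XT.lf (nat_lit 0) (nat_lit 13718836411) (nat_lit 304) (nat_lit 3134408398) (nat_lit 76) (nat_lit 604682086) (nat_lit 36) (nat_lit 5) (nat_lit 40) (nat_lit 5) (nat_lit 37) (nat_lit 4) (nat_lit 500) (nat_lit 352) (nat_lit 288)) (XT.lf (nat_lit 0) (nat_lit 3836426186) (nat_lit 152) (nat_lit 13450670121) (nat_lit 228) (nat_lit 435544571) (nat_lit 34) (nat_lit 5) (nat_lit 36) (nat_lit 5) (nat_lit 37) (nat_lit 4) (nat_lit 501) (nat_lit 352) (nat_lit 287))))) (XT.nd (nat_lit 234) (nat_lit 228) (nat_lit 0) (XT.nd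 (nat_lit 78) (nat_lit 152) (nat_lit 0) (XT.lf (nat_lit 0) (nat_lit 2887341080) (nat_lit 228) (nat_lit 7072286024) (nat_lit 76) (nat_lit 8032817943) (nat_lit 33) (nat_lit 5) (nat_lit 36) (nat_lit 5) (nat_lit 34) (nat_lit 5) (nat_lit 502) (nat_lit 352) (nat_lit 286)) (XT.nd (nat_lit 78) (nat_lit 152) (nat_lit 0) (XT.lf (nat_lit 0) (nat_lit 6242011759) (nat_lit 228) (nat_lit 174015641) (nat_lit 76) (nat_lit 11852148803) (nat_lit 33) (nat_lit 5) (nat_lit 36) (nat_lit 5) (nat_lit 34) (nat_lit 5) (nat_lit 503) (nat_lit 352) (nat_lit 285)) (XT.lf (nat_lit 0) (nat_lit 6904685697) (nat_lit 152) (nat_lit 2775639370) (nat_lit 228) (nat_lit 8868777370) (nat_lit 31) (nat_lit 5) (nat_lit 33) (nat_lit 5) (nat_lit 34) (nat_lit 5) (nat_lit 504) (nat_lit 352) (nat_lit 284)))) (XT.nd (nat_lit 156) (nat_lit 76) (nat_lit 0) (XT.nd (nat_lit 78) (nat_lit 152) (nat_lit 0) (XT.lf (nat_lit 0) (nat_lit 13166502951) (nat_lit 228)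 (nat_lit 4762616967) (nat_lit 76) (nat_lit 906956523) (nat_lit 31) (nat_lit 5) (nat_lit 34) (nat_lit 5) (nat_lit 32) (nat_lit 4) (nat_lit 505) (nat_lit 352) (nat_lit 283)) (XT.lf (nat_lit 0) (nat_lit 2220283910) (nat_lit 152) (nat_lit 14507305603) (nat_lit 228) (nat_lit 2401107706) (nat_lit 29) (nat_lit 5) (nat_lit 31) (nat_lit 5) (nat_lit 32) (nat_lit 4) (nat_lit 506) (nat_lit 352) (nat_lit 282))) (XT.nd (nat_lit 78) (nat_lit 0) (nat_lit 0) (XT.lf (nat_lit 0) (nat_lit 925098248) (nat_lit 228) (nat_lit 10072735941) (nat_lit 76) (nat_lit 8429133597) (nat_lit 28) (nat_lit 5) (nat_lit 31) (nat_lit 5) (nat_lit 29) (nat_lit 5) (nat_lit 507) (nat_lit 352) (nat_lit 281)) (XT.lf (nat_lit 0) (nat_lit 4258680506) (nat_lit 228) (nat_lit 3162656712) (nat_lit 76) (nat_lit 12310099420) (nat_lit 28) (nat_lit 5) (nat_lit 31) (nat_lit 5) (nat_lit 29) (nat_lit 5) (nat_lit 508) (nat_lit 352) (nat_lit 280)))))) (XT.nd (nat_lit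 546) (nat_lit 304) (nat_lit 0) (XT.nd (nat_lit 234) (nat_lit 380) (nat_lit 0) (XT.nd (nat_lit 78) (nat_lit 0) (nat_lit 0) (XT.lf (nat_lit 0) (nat_lit 3891157021) (nat_lit 152) (nat_lit 3766544265) (nat_lit 228) (nat_lit 12384328401) (nat_lit 26) (nat_lit 5) (nat_lit 28) (nat_lit 5) (nat_lit 29) (nat_lit 5) (nat_lit 509) (nat_lit 352) (nat_lit 279)) (XT.nd (nat_lit 78) (nat_lit 0) (nat_lit 0) (XT.lf (nat_lit 0) (nat_lit 11083716713) (nat_lit 152) (nat_lit 35937840) (nat_lit 228) (nat_lit 9239290959) (nat_lit 26) (nat_lit 5) (nat_lit 28) (nat_lit 5) (nat_lit 29) (nat_lit 5) (nat_lit 510) (nat_lit 352) (nat_lit 278)) (XT.lf (nat_lit 0) (nat_lit 14649443160) (nat_lit 228) (nat_lit 2331263778) (nat_lit 76) (nat_lit 3701530553) (nat_lit 26) (nat_lit 5) (nat_lit 29) (nat_lit 5) (nat_lit 27) (nat_lit 4) (nat_lit 511) (nat_lit 352) (nat_lit 277)))) (XT.nd (nat_lit 156) (nat_lit 152) (nat_lit 0) (XT.nd (nat_lit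 78) (nat_lit 76) (nat_lit 0) (XT.lf (nat_lit 0) (nat_lit 4770060538) (nat_lit 152) (nat_lit 13485606379) (nat_lit 228) (nat_lit 2756221176) (nat_lit 24) (nat_lit 5) (nat_lit 26) (nat_lit 5) (nat_lit 27) (nat_lit 4) (nat_lit 512) (nat_lit 352) (nat_lit 276)) (XT.lf (nat_lit 0) (nat_lit 568616875) (nat_lit 228) (nat_lit 9350613735) (nat_lit 76) (nat_lit 11429025871) (nat_lit 23) (nat_lit 5) (nat_lit 26) (nat_lit 5) (nat_lit 24) (nat_lit 5) (nat_lit 513) (nat_lit 352) (nat_lit 275))) (XT.nd (nat_lit 78) (nat_lit 152) (nat_lit 0) (XT.lf (nat_lit 0) (nat_lit 3898246844) (nat_lit 228) (nat_lit 2382867578) (nat_lit 76) (nat_lit 15410378439) (nat_lit 23) (nat_lit 5) (nat_lit 26) (nat_lit 5) (nat_lit 24) (nat_lit 5) (nat_lit 514) (nat_lit 352) (nat_lit 274)) (XT.lf (nat_lit 0) (nat_lit 4744260407) (nat_lit 152) (nat_lit 2556665284) (nat_lit 228) (nat_lit 14740547997) (nat_lit 21) (nat_lit 5) (nat_lit 23) (nat_lit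 5) (nat_lit 24) (nat_lit 5) (nat_lit 515) (nat_lit 352) (nat_lit 273))))) (XT.nd (nat_lit 234) (nat_lit 228) (nat_lit 0) (XT.nd (nat_lit 78) (nat_lit 76) (nat_lit 0) (XT.lf (nat_lit 0) (nat_lit 10771563175) (nat_lit 228) (nat_lit 10402367937) (nat_lit 76) (nat_lit 1224533587) (nat_lit 21) (nat_lit 5) (nat_lit 24) (nat_lit 5) (nat_lit 22) (nat_lit 4) (nat_lit 516) (nat_lit 352) (nat_lit 272)) (XT.nd (nat_lit 78) (nat_lit 76) (nat_lit 0) (XT.lf (nat_lit 0) (nat_lit 14304763799) (nat_lit 228) (nat_lit 3428021367) (nat_lit 76) (nat_lit 5029955854) (nat_lit 21) (nat_lit 5) (nat_lit 24) (nat_lit 5) (nat_lit 22) (nat_lit 4) (nat_lit 517) (nat_lit 352) (nat_lit 271)) (XT.lf (nat_lit 0) (nat_lit 3693603303) (nat_lit 76) (nat_lit 14215691584) (nat_lit 152) (nat_lit 5225002984) (nat_lit 20) (nat_lit 5) (nat_lit 21) (nat_lit 5) (nat_lit 22) (nat_lit 4) (nat_lit 518) (nat_lit 352) (nat_lit 270)))) (XT.nd (nat_lit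 156) (nat_lit 152) (nat_lit 0) (XT.nd (nat_lit 78) (nat_lit 76) (nat_lit 0) (XT.lf (nat_lit 0) (nat_lit 10963744538) (nat_lit 76) (nat_lit 10622055973) (nat_lit 152) (nat_lit 1927495839) (nat_lit 20) (nat_lit 5) (nat_lit 21) (nat_lit 5) (nat_lit 22) (nat_lit 4) (nat_lit 519) (nat_lit 352) (nat_lit 269)) (XT.lf (nat_lit 0) (nat_lit 1394303960) (nat_lit 152) (nat_lit 5569812417) (nat_lit 76) (nat_lit 16936036300) (nat_lit 19) (nat_lit 5) (nat_lit 21) (nat_lit 5) (nat_lit 20) (nat_lit 5) (nat_lit 520) (nat_lit 352) (nat_lit 268))) (XT.nd (nat_lit 78) (nat_lit 0) (nat_lit 0) (XT.lf (nat_lit 0) (nat_lit 1517539099) (nat_lit 152) (nat_lit 3226691429) (nat_lit 228) (nat_lit 19550518487) (nat_lit 17) (nat_lit 5) (nat_lit 19) (nat_lit 5) (nat_lit 20) (nat_lit 5) (nat_lit 521) (nat_lit 352) (nat_lit 267)) (XT.lf (nat_lit 0) (nat_lit 8180282001) (nat_lit 228) (nat_lit 15917607024) (nat_lit 76) (nat_lit 598973275)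 (nat_lit 17) (nat_lit 5) (nat_lit 20) (nat_lit 5) (nat_lit 18) (nat_lit 4) (nat_lit 522) (nat_lit 352) (nat_lit 266))))))) (XT.nd (nat_lit 52884) (nat_lit 0) (nat_lit 9272) (XT.nd (nat_lit 468) (nat_lit 0) (nat_lit 0) (XT.nd (nat_lit 234) (nat_lit 228) (nat_lit 0) (XT.nd (nat_lit 78) (nat_lit 76) (nat_lit 0) (XT.lf (nat_lit 0) (nat_lit 11684561688) (nat_lit 228) (nat_lit 8980618467) (nat_lit 76) (nat_lit 4441854949) (nat_lit 17) (nat_lit 5) (nat_lit 20) (nat_lit 5) (nat_lit 18) (nat_lit 4) (nat_lit 523) (nat_lit 352) (nat_lit 265)) (XT.nd (nat_lit 78) (nat_lit 76) (nat_lit 0) (XT.lf (nat_lit 0) (nat_lit 15237493998) (nat_lit 228) (nat_lit 1942574037) (nat_lit 76) (nat_lit 8345779243) (nat_lit 17) (nat_lit 5) (nat_lit 20) (nat_lit 5) (nat_lit 18) (nat_lit 4) (nat_lit 524) (nat_lit 352) (nat_lit 264)) (XT.lf (nat_lit 0) (nat_lit 5268382060) (nat_lit 76) (nat_lit 13606296006) (nat_lit 152) (nat_lit 7078100877)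 (nat_lit 16) (nat_lit 5) (nat_lit 17) (nat_lit 5) (nat_lit 18) (nat_lit 4) (nat_lit 525) (nat_lit 352) (nat_lit 263)))) (XT.nd (nat_lit 78) (nat_lit 228) (nat_lit 0) (XT.lf (nat_lit 0) (nat_lit 12613187444) (nat_lit 76) (nat_lit 9963615070) (nat_lit 152) (nat_lit 3811609768) (nat_lit 16) (nat_lit 5) (nat_lit 17) (nat_lit 5) (nat_lit 18) (nat_lit 4) (nat_lit 526) (nat_lit 352) (nat_lit 262)) (XT.nd (nat_lit 78) (nat_lit 228) (nat_lit 0) (XT.lf (nat_lit 0) (nat_lit 20068906641) (nat_lit 76) (nat_lit 6263632420) (nat_lit 152) (nat_lit 500634668) (nat_lit 16) (nat_lit 5) (nat_lit 17) (nat_lit 5) (nat_lit 18) (nat_lit 4) (nat_lit 527) (nat_lit 352) (nat_lit 261)) (XT.lf (nat_lit 0) (nat_lit 337103085) (nat_lit 152) (nat_lit 2483749890) (nat_lit 228) (nat_lit 24465970077) (nat_lit 13) (nat_lit 5) (nat_lit 15) (nat_lit 5) (nat_lit 16) (nat_lit 5) (nat_lit 528) (nat_lit 352) (nat_lit 260))))) (XT.nd (nat_lit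 52104) (nat_lit 0) (nat_lit 14668) (XT.nd (nat_lit 51948) (nat_lit 0) (nat_lit 16036) (XT.lf (nat_lit 0) (nat_lit 6236569403) (nat_lit 228) (nat_lit 20124592236) (nat_lit 76) (nat_lit 1387633928) (nat_lit 13) (nat_lit 5) (nat_lit 16) (nat_lit 5) (nat_lit 14) (nat_lit 4) (nat_lit 529) (nat_lit 352) (nat_lit 259)) (XT.nd (nat_lit 78) (nat_lit 684) (nat_lit 0) (XT.lf (nat_lit 0) (nat_lit 730369121) (nat_lit 684) (nat_lit 2548289760) (nat_lit 0) (nat_lit 730369121) (nat_lit 233) (nat_lit 5) (nat_lit 242) (nat_lit 4) (nat_lit 233) (nat_lit 4) (nat_lit 434) (nat_lit 353) (nat_lit 353)) (XT.lf (nat_lit 0) (nat_lit 424408125) (nat_lit 684) (nat_lit 4441508822) (nat_lit 684) (nat_lit 3215044385) (nat_lit 224) (nat_lit 4) (nat_lit 233) (nat_lit 5) (nat_lit 233) (nat_lit 4) (nat_lit 435) (nat_lit 353) (nat_lit 352)))) (XT.nd (nat_lit 156) (nat_lit 684) (nat_lit 0) (XT.nd (nat_lit 78) (nat_lit 608) (nat_lit 0) (XT.lf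 (nat_lit 0) (nat_lit 164761215) (nat_lit 760) (nat_lit 2096062895) (nat_lit 76) (nat_lit 5884873616) (nat_lit 223) (nat_lit 5) (nat_lit 233) (nat_lit 5) (nat_lit 224) (nat_lit 4) (nat_lit 436) (nat_lit 353) (nat_lit 351)) (XT.lf (nat_lit 0) (nat_lit 3527037992) (nat_lit 608) (nat_lit 5020358) (nat_lit 684) (nat_lit 4680048141) (nat_lit 215) (nat_lit 5) (nat_lit 223) (nat_lit 5) (nat_lit 224) (nat_lit 4) (nat_lit 437) (nat_lit 353) (nat_lit 350))) (XT.nd (nat_lit 78) (nat_lit 76) (nat_lit 0) (XT.lf (nat_lit 0) (nat_lit 934469534) (nat_lit 608) (nat_lit 6007981550) (nat_lit 608) (nat_lit 1337937719) (nat_lit 207) (nat_lit 4) (nat_lit 215) (nat_lit 5) (nat_lit 215) (nat_lit 4) (nat_lit 438) (nat_lit 353) (nat_lit 349)) (XT.lf (nat_lit 0) (nat_lit 2016389438) (nat_lit 684) (nat_lit 1707783791) (nat_lit 76) (nat_lit 4626201898) (nat_lit 206) (nat_lit 5) (nat_lit 215) (nat_lit 5) (nat_lit 207) (nat_lit 4) (nat_lit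 439) (nat_lit 353) (nat_lit 348)))))) (XT.nd (nat_lit 546) (nat_lit 2584) (nat_lit 0) (XT.nd (nat_lit 234) (nat_lit 1596) (nat_lit 0) (XT.nd (nat_lit 78) (nat_lit 684) (nat_lit 0) (XT.lf (nat_lit 0) (nat_lit 4013764117) (nat_lit 532) (nat_lit 1374216028) (nat_lit 608) (nat_lit 3034299199) (nat_lit 199) (nat_lit 5) (nat_lit 206) (nat_lit 5) (nat_lit 207) (nat_lit 4) (nat_lit 440) (nat_lit 353) (nat_lit 347)) (XT.nd (nat_lit 78) (nat_lit 0) (nat_lit 0) (XT.lf (nat_lit 0) (nat_lit 296066878) (nat_lit 684) (nat_lit 7183971256) (nat_lit 76) (nat_lit 1016214516) (nat_lit 190) (nat_lit 5) (nat_lit 199) (nat_lit 5) (nat_lit 191) (nat_lit 4) (nat_lit 441) (nat_lit 353) (nat_lit 346)) (XT.lf (nat_lit 0) (nat_lit 3634130344) (nat_lit 684) (nat_lit 1467333629) (nat_lit 76) (nat_lit 3470259527) (nat_lit 190) (nat_lit 5) (nat_lit 199) (nat_lit 5) (nat_lit 191) (nat_lit 4) (nat_lit 442) (nat_lit 353) (nat_lit 345))))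 (XT.nd (nat_lit 156) (nat_lit 456) (nat_lit 0) (XT.nd (nat_lit 78) (nat_lit 608) (nat_lit 0) (XT.lf (nat_lit 0) (nat_lit 4348033531) (nat_lit 532) (nat_lit 2663074623) (nat_lit 608) (nat_lit 1638205103) (nat_lit 183) (nat_lit 5) (nat_lit 190) (nat_lit 5) (nat_lit 191) (nat_lit 4) (nat_lit 443) (nat_lit 353) (nat_lit 344)) (XT.lf (nat_lit 0) (nat_lit 1506880557) (nat_lit 532) (nat_lit 161469280) (nat_lit 608) (nat_lit 7060654576) (nat_lit 175) (nat_lit 5) (nat_lit 182) (nat_lit 5) (nat_lit 183) (nat_lit 5) (nat_lit 444) (nat_lit 353) (nat_lit 343))) (XT.nd (nat_lit 78) (nat_lit 456) (nat_lit 0) (XT.lf (nat_lit 0) (nat_lit 5008343261) (nat_lit 608) (nat_lit 1420267977) (nat_lit 76) (nat_lit 2381726245) (nat_lit 175) (nat_lit 5) (nat_lit 183) (nat_lit 5) (nat_lit 176) (nat_lit 4) (nat_lit 445) (nat_lit 353) (nat_lit 342)) (XT.lf (nat_lit 0) (nat_lit 4483290001) (nat_lit 456) (nat_lit 3907758578) (nat_lit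 532) (nat_lit 502778942) (nat_lit 169) (nat_lit 5) (nat_lit 175) (nat_lit 5) (nat_lit 176) (nat_lit 4) (nat_lit 446) (nat_lit 353) (nat_lit 341))))) (XT.nd (nat_lit 234) (nat_lit 1444) (nat_lit 0) (XT.nd (nat_lit 78) (nat_lit 532) (nat_lit 0) (XT.lf (nat_lit 0) (nat_lit 1473698528) (nat_lit 532) (nat_lit 1316274086) (nat_lit 608) (nat_lit 6189387853) (nat_lit 161) (nat_lit 5) (nat_lit 168) (nat_lit 5) (nat_lit 169) (nat_lit 5) (nat_lit 447) (nat_lit 353) (nat_lit 340)) (XT.nd (nat_lit 78) (nat_lit 532) (nat_lit 0) (XT.lf (nat_lit 0) (nat_lit 6126667377) (nat_lit 608) (nat_lit 1615624206) (nat_lit 76) (nat_lit 1324595360) (nat_lit 161) (nat_lit 5) (nat_lit 169) (nat_lit 5) (nat_lit 162) (nat_lit 4) (nat_lit 448) (nat_lit 353) (nat_lit 339)) (XT.lf (nat_lit 0) (nat_lit 353422976) (nat_lit 532) (nat_lit 4789487747) (nat_lit 76) (nat_lit 4013560741) (nat_lit 154) (nat_lit 5) (nat_lit 161) (nat_lit 5) (nat_lit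 155) (nat_lit 5) (nat_lit 449) (nat_lit 353) (nat_lit 338)))) (XT.nd (nat_lit 156) (nat_lit 988) (nat_lit 0) (XT.nd (nat_lit 78) (nat_lit 0) (nat_lit 0) (XT.lf (nat_lit 0) (nat_lit 1167566892) (nat_lit 456) (nat_lit 2472170610) (nat_lit 532) (nat_lit 5608441212) (nat_lit 148) (nat_lit 5) (nat_lit 154) (nat_lit 5) (nat_lit 155) (nat_lit 5) (nat_lit 450) (nat_lit 353) (nat_lit 337)) (XT.lf (nat_lit 0) (nat_lit 6973842857) (nat_lit 532) (nat_lit 2106436647) (nat_lit 76) (nat_lit 261841578) (nat_lit 148) (nat_lit 5) (nat_lit 155) (nat_lit 5) (nat_lit 149) (nat_lit 4) (nat_lit 451) (nat_lit 353) (nat_lit 336))) (XT.nd (nat_lit 78) (nat_lit 456) (nat_lit 0) (XT.lf (nat_lit 0) (nat_lit 915427642) (nat_lit 532) (nat_lit 5492284114) (nat_lit 76) (nat_lit 3030329043) (nat_lit 141) (nat_lit 5) (nat_lit 148) (nat_lit 5) (nat_lit 142) (nat_lit 5) (nat_lit 452) (nat_lit 353) (nat_lit 335)) (XT.lf (nat_lit 0) (nat_lit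 532123628) (nat_lit 456) (nat_lit 3667947990) (nat_lit 532) (nat_lit 5336194529) (nat_lit 135) (nat_lit 5) (nat_lit 141) (nat_lit 5) (nat_lit 142) (nat_lit 5) (nat_lit 453) (nat_lit 353) (nat_lit 334))))))))
noncomputable def xc43 : XT := (XT.nd (nat_lit 2106) (nat_lit 2812) (nat_lit 0) (XT.nd (nat_lit 1014) (nat_lit 2508) (nat_lit 0) (XT.nd (nat_lit 468) (nat_lit 1520) (nat_lit 0) (XT.nd (nat_lit 234) (nat_lit 836) (nat_lit 0) (XT.nd (nat_lit 78) (nat_lit 456) (nat_lit 0) (XT.lf (nat_lit 0) (nat_lit 6680907497) (nat_lit 456) (nat_lit 856155613) (nat_lit 532) (nat_lit 2099698844) (nat_lit 135) (nat_lit 5) (nat_lit 141) (nat_lit 5) (nat_lit 142) (nat_lit 5) (nat_lit 454) (nat_lit 353) (nat_lit 333)) (XT.nd (nat_lit 78) (nat_lit 0) (nat_lit 0) (XT.lf (nat_lit 0) (nat_lit 1169936357) (nat_lit 456) (nat_lit 6575451027) (nat_lit 76) (nat_lit 1994078443) (nat_lit 129) (nat_lit 5) (nat_lit 135) (nat_lit 5) (nat_lit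 130) (nat_lit 5) (nat_lit 455) (nat_lit 353) (nat_lit 332)) (XT.lf (nat_lit 0) (nat_lit 4453320652) (nat_lit 456) (nat_lit 487485181) (nat_lit 76) (nat_lit 4903647731) (nat_lit 129) (nat_lit 5) (nat_lit 135) (nat_lit 5) (nat_lit 130) (nat_lit 5) (nat_lit 456) (nat_lit 353) (nat_lit 331)))) (XT.nd (nat_lit 78) (nat_lit 456) (nat_lit 0) (XT.lf (nat_lit 0) (nat_lit 5728447657) (nat_lit 380) (nat_lit 2062890869) (nat_lit 456) (nat_lit 2160459285) (nat_lit 124) (nat_lit 5) (nat_lit 129) (nat_lit 5) (nat_lit 130) (nat_lit 5) (nat_lit 457) (nat_lit 353) (nat_lit 330)) (XT.nd (nat_lit 78) (nat_lit 0) (nat_lit 0) (XT.lf (nat_lit 0) (nat_lit 1093591105) (nat_lit 456) (nat_lit 8104199773) (nat_lit 76) (nat_lit 863912439) (nat_lit 118) (nat_lit 5) (nat_lit 124) (nat_lit 5) (nat_lit 119) (nat_lit 5) (nat_lit 458) (nat_lit 353) (nat_lit 329)) (XT.lf (nat_lit 0) (nat_lit 4378293923) (nat_lit 456) (nat_lit 1951709840)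 (nat_lit 76) (nat_lit 3843661549) (nat_lit 118) (nat_lit 5) (nat_lit 124) (nat_lit 5) (nat_lit 119) (nat_lit 5) (nat_lit 459) (nat_lit 353) (nat_lit 328))))) (XT.nd (nat_lit 234) (nat_lit 760) (nat_lit 0) (XT.nd (nat_lit 78) (nat_lit 380) (nat_lit 0) (XT.lf (nat_lit 0) (nat_lit 4312213017) (nat_lit 380) (nat_lit 3397693967) (nat_lit 456) (nat_lit 2578368564) (nat_lit 113) (nat_lit 5) (nat_lit 118) (nat_lit 5) (nat_lit 119) (nat_lit 5) (nat_lit 460) (nat_lit 353) (nat_lit 327)) (XT.nd (nat_lit 78) (nat_lit 0) (nat_lit 0) (XT.lf (nat_lit 0) (nat_lit 253249004) (nat_lit 304) (nat_lit 408690798) (nat_lit 380) (nat_lit 9743815233) (nat_lit 108) (nat_lit 5) (nat_lit 112) (nat_lit 5) (nat_lit 113) (nat_lit 5) (nat_lit 461) (nat_lit 353) (nat_lit 326)) (XT.lf (nat_lit 0) (nat_lit 3943761006) (nat_lit 380) (nat_lit 3939849691) (nat_lit 76) (nat_lit 2641439337) (nat_lit 108) (nat_lit 5) (nat_lit 113) (nat_lit 5)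 (nat_lit 109) (nat_lit 5) (nat_lit 462) (nat_lit 353) (nat_lit 325)))) (XT.nd (nat_lit 156) (nat_lit 380) (nat_lit 0) (XT.nd (nat_lit 78) (nat_lit 0) (nat_lit 0) (XT.lf (nat_lit 0) (nat_lit 2357885738) (nat_lit 380) (nat_lit 4905945878) (nat_lit 456) (nat_lit 3383477843) (nat_lit 103) (nat_lit 5) (nat_lit 108) (nat_lit 5) (nat_lit 109) (nat_lit 5) (nat_lit 463) (nat_lit 353) (nat_lit 324)) (XT.lf (nat_lit 0) (nat_lit 8768033370) (nat_lit 380) (nat_lit 1863761773) (nat_lit 456) (nat_lit 140619284) (nat_lit 103) (nat_lit 5) (nat_lit 108) (nat_lit 5) (nat_lit 109) (nat_lit 5) (nat_lit 464) (nat_lit 353) (nat_lit 323))) (XT.nd (nat_lit 78) (nat_lit 0) (nat_lit 0) (XT.lf (nat_lit 0) (nat_lit 3117819323) (nat_lit 380) (nat_lit 6531237488) (nat_lit 76) (nat_lit 1250737238) (nat_lit 98) (nat_lit 5) (nat_lit 103) (nat_lit 5) (nat_lit 99) (nat_lit 5) (nat_lit 465) (nat_lit 353) (nat_lit 322)) (XT.lf (nat_lit 0)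 (nat_lit 6421342178) (nat_lit 380) (nat_lit 213276320) (nat_lit 76) (nat_lit 4395476652) (nat_lit 98) (nat_lit 5) (nat_lit 103) (nat_lit 5) (nat_lit 99) (nat_lit 5) (nat_lit 466) (nat_lit 353) (nat_lit 321)))))) (XT.nd (nat_lit 546) (nat_lit 1216) (nat_lit 0) (XT.nd (nat_lit 234) (nat_lit 608) (nat_lit 0) (XT.nd (nat_lit 78) (nat_lit 380) (nat_lit 0) (XT.lf (nat_lit 0) (nat_lit 6247705628) (nat_lit 304) (nat_lit 3540572823) (nat_lit 380) (nat_lit 1374804847) (nat_lit 94) (nat_lit 5) (nat_lit 98) (nat_lit 5) (nat_lit 99) (nat_lit 5) (nat_lit 467) (nat_lit 353) (nat_lit 320)) (XT.nd (nat_lit 78) (nat_lit 0) (nat_lit 0) (XT.lf (nat_lit 0) (nat_lit 1483604770) (nat_lit 304) (nat_lit 382954172) (nat_lit 380) (nat_lit 9432589894) (nat_lit 89) (nat_lit 5) (nat_lit 93) (nat_lit 5) (nat_lit 94) (nat_lit 5) (nat_lit 468) (nat_lit 353) (nat_lit 319)) (XT.lf (nat_lit 0) (nat_lit 5163159586) (nat_lit 380) (nat_lit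 3453580723) (nat_lit 76) (nat_lit 2820863541) (nat_lit 89) (nat_lit 5) (nat_lit 94) (nat_lit 5) (nat_lit 90) (nat_lit 5) (nat_lit 469) (nat_lit 353) (nat_lit 318)))) (XT.nd (nat_lit 156) (nat_lit 228) (nat_lit 0) (XT.nd (nat_lit 78) (nat_lit 76) (nat_lit 0) (XT.lf (nat_lit 0) (nat_lit 3008073732) (nat_lit 304) (nat_lit 5497697590) (nat_lit 380) (nat_lit 3073480820) (nat_lit 85) (nat_lit 5) (nat_lit 89) (nat_lit 5) (nat_lit 90) (nat_lit 5) (nat_lit 470) (nat_lit 353) (nat_lit 317)) (XT.lf (nat_lit 0) (nat_lit 170438893) (nat_lit 380) (nat_lit 2143511946) (nat_lit 76) (nat_lit 9410153483) (nat_lit 84) (nat_lit 5) (nat_lit 89) (nat_lit 5) (nat_lit 85) (nat_lit 5) (nat_lit 471) (nat_lit 353) (nat_lit 316))) (XT.nd (nat_lit 78) (nat_lit 0) (nat_lit 0) (XT.lf (nat_lit 0) (nat_lit 3431782134) (nat_lit 304) (nat_lit 7491431497) (nat_lit 76) (nat_lit 948383896) (nat_lit 81) (nat_lit 5) (nat_lit 85) (nat_lit 5)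 (nat_lit 82) (nat_lit 5) (nat_lit 472) (nat_lit 353) (nat_lit 315)) (XT.lf (nat_lit 0) (nat_lit 6747348543) (nat_lit 304) (nat_lit 1037428164) (nat_lit 76) (nat_lit 4237507762) (nat_lit 81) (nat_lit 5) (nat_lit 85) (nat_lit 5) (nat_lit 82) (nat_lit 5) (nat_lit 473) (nat_lit 353) (nat_lit 314))))) (XT.nd (nat_lit 234) (nat_lit 608) (nat_lit 0) (XT.nd (nat_lit 78) (nat_lit 304) (nat_lit 0) (XT.lf (nat_lit 0) (nat_lit 5556143440) (nat_lit 304) (nat_lit 4569149924) (nat_lit 380) (nat_lit 2050793777) (nat_lit 77) (nat_lit 5) (nat_lit 81) (nat_lit 5) (nat_lit 82) (nat_lit 5) (nat_lit 474) (nat_lit 353) (nat_lit 313)) (XT.nd (nat_lit 78) (nat_lit 228) (nat_lit 0) (XT.lf (nat_lit 0) (nat_lit 1188694645) (nat_lit 380) (nat_lit 107784491) (nat_lit 76) (nat_lit 11037006466) (nat_lit 76) (nat_lit 5) (nat_lit 81) (nat_lit 5) (nat_lit 77) (nat_lit 5) (nat_lit 475) (nat_lit 353) (nat_lit 312)) (XT.lf (nat_lit 0) (nat_lit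 4482392378) (nat_lit 304) (nat_lit 5961613175) (nat_lit 76) (nat_lit 2049439755) (nat_lit 73) (nat_lit 5) (nat_lit 77) (nat_lit 5) (nat_lit 74) (nat_lit 5) (nat_lit 476) (nat_lit 353) (nat_lit 311)))) (XT.nd (nat_lit 156) (nat_lit 304) (nat_lit 0) (XT.nd (nat_lit 78) (nat_lit 0) (nat_lit 0) (XT.lf (nat_lit 0) (nat_lit 586668199) (nat_lit 304) (nat_lit 7229519600) (nat_lit 380) (nat_lit 4840953493) (nat_lit 69) (nat_lit 5) (nat_lit 73) (nat_lit 5) (nat_lit 74) (nat_lit 5) (nat_lit 477) (nat_lit 353) (nat_lit 310)) (XT.lf (nat_lit 0) (nat_lit 7285583649) (nat_lit 304) (nat_lit 3932547453) (nat_lit 380) (nat_lit 1605971786) (nat_lit 69) (nat_lit 5) (nat_lit 73) (nat_lit 5) (nat_lit 74) (nat_lit 5) (nat_lit 478) (nat_lit 353) (nat_lit 309))) (XT.nd (nat_lit 78) (nat_lit 0) (nat_lit 0) (XT.lf (nat_lit 0) (nat_lit 1066595729) (nat_lit 228) (nat_lit 573776905) (nat_lit 304) (nat_lit 11354453934) (nat_lit 65)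 (nat_lit 5) (nat_lit 68) (nat_lit 5) (nat_lit 69) (nat_lit 5) (nat_lit 479) (nat_lit 353) (nat_lit 308)) (XT.lf (nat_lit 0) (nat_lit 4948252834) (nat_lit 304) (nat_lit 5379432700) (nat_lit 76) (nat_lit 2840724535) (nat_lit 65) (nat_lit 5) (nat_lit 69) (nat_lit 5) (nat_lit 66) (nat_lit 5) (nat_lit 480) (nat_lit 353) (nat_lit 307))))))) (XT.nd (nat_lit 1092) (nat_lit 1064) (nat_lit 0) (XT.nd (nat_lit 546) (nat_lit 684) (nat_lit 0) (XT.nd (nat_lit 234) (nat_lit 532) (nat_lit 0) (XT.nd (nat_lit 78) (nat_lit 304) (nat_lit 0) (XT.lf (nat_lit 0) (nat_lit 1253470748) (nat_lit 228) (nat_lit 7043662081) (nat_lit 304) (nat_lit 5048855091) (nat_lit 62) (nat_lit 5) (nat_lit 65) (nat_lit 5) (nat_lit 66) (nat_lit 5) (nat_lit 481) (nat_lit 353) (nat_lit 306)) (XT.nd (nat_lit 78) (nat_lit 304) (nat_lit 0) (XT.lf (nat_lit 0) (nat_lit 8032833105) (nat_lit 228) (nat_lit 3679503661) (nat_lit 304) (nat_lit 1814812776) (nat_lit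 62) (nat_lit 5) (nat_lit 65) (nat_lit 5) (nat_lit 66) (nat_lit 5) (nat_lit 482) (nat_lit 353) (nat_lit 305)) (XT.lf (nat_lit 0) (nat_lit 1183272358) (nat_lit 228) (nat_lit 252569876) (nat_lit 304) (nat_lit 12276489999) (nat_lit 58) (nat_lit 5) (nat_lit 61) (nat_lit 5) (nat_lit 62) (nat_lit 5) (nat_lit 483) (nat_lit 353) (nat_lit 304)))) (XT.nd (nat_lit 156) (nat_lit 304) (nat_lit 0) (XT.nd (nat_lit 78) (nat_lit 228) (nat_lit 0) (XT.lf (nat_lit 0) (nat_lit 4749303589) (nat_lit 304) (nat_lit 5923578367) (nat_lit 76) (nat_lit 3227672867) (nat_lit 58) (nat_lit 5) (nat_lit 62) (nat_lit 5) (nat_lit 59) (nat_lit 5) (nat_lit 484) (nat_lit 353) (nat_lit 303)) (XT.lf (nat_lit 0) (nat_lit 764852528) (nat_lit 228) (nat_lit 7335429898) (nat_lit 304) (nat_lit 5992852159) (nat_lit 55) (nat_lit 5) (nat_lit 58) (nat_lit 5) (nat_lit 59) (nat_lit 5) (nat_lit 485) (nat_lit 353) (nat_lit 302))) (XT.nd (nat_lit 78) (nat_lit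 304) (nat_lit 0) (XT.lf (nat_lit 0) (nat_lit 7610207345) (nat_lit 228) (nat_lit 3912756435) (nat_lit 304) (nat_lit 2766525838) (nat_lit 55) (nat_lit 5) (nat_lit 58) (nat_lit 5) (nat_lit 59) (nat_lit 5) (nat_lit 486) (nat_lit 353) (nat_lit 301)) (XT.lf (nat_lit 0) (nat_lit 43365207) (nat_lit 228) (nat_lit 439742467) (nat_lit 304) (nat_lit 14007299510) (nat_lit 51) (nat_lit 5) (nat_lit 54) (nat_lit 5) (nat_lit 55) (nat_lit 5) (nat_lit 487) (nat_lit 353) (nat_lit 300))))) (XT.nd (nat_lit 234) (nat_lit 456) (nat_lit 0) (XT.nd (nat_lit 78) (nat_lit 228) (nat_lit 0) (XT.lf (nat_lit 0) (nat_lit 3791536646) (nat_lit 304) (nat_lit 7798890757) (nat_lit 76) (nat_lit 3103949369) (nat_lit 51) (nat_lit 5) (nat_lit 55) (nat_lit 5) (nat_lit 52) (nat_lit 5) (nat_lit 488) (nat_lit 353) (nat_lit 299)) (XT.nd (nat_lit 78) (nat_lit 228) (nat_lit 0) (XT.lf (nat_lit 0) (nat_lit 7135270537) (nat_lit 304) (nat_lit 1076263189)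 (nat_lit 76) (nat_lit 6691525316) (nat_lit 51) (nat_lit 5) (nat_lit 55) (nat_lit 5) (nat_lit 52) (nat_lit 5) (nat_lit 489) (nat_lit 353) (nat_lit 298)) (XT.lf (nat_lit 0) (nat_lit 5802432090) (nat_lit 228) (nat_lit 4748006660) (nat_lit 304) (nat_lit 4565400716) (nat_lit 48) (nat_lit 5) (nat_lit 51) (nat_lit 5) (nat_lit 52) (nat_lit 5) (nat_lit 490) (nat_lit 353) (nat_lit 297)))) (XT.nd (nat_lit 156) (nat_lit 228) (nat_lit 0) (XT.nd (nat_lit 78) (nat_lit 228) (nat_lit 0) (XT.lf (nat_lit 0) (nat_lit 12779163980) (nat_lit 228) (nat_lit 1229152912) (nat_lit 304) (nat_lit 1325085870) (nat_lit 48) (nat_lit 5) (nat_lit 51) (nat_lit 5) (nat_lit 52) (nat_lit 5) (nat_lit 491) (nat_lit 353) (nat_lit 296)) (XT.lf (nat_lit 0) (nat_lit 1965240741) (nat_lit 228) (nat_lit 11240075223) (nat_lit 76) (nat_lit 2349535562) (nat_lit 45) (nat_lit 5) (nat_lit 48) (nat_lit 5) (nat_lit 46) (nat_lit 5) (nat_lit 492) (nat_lit 353)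 (nat_lit 295))) (XT.nd (nat_lit 78) (nat_lit 228) (nat_lit 0) (XT.lf (nat_lit 0) (nat_lit 5296794714) (nat_lit 228) (nat_lit 4495298802) (nat_lit 76) (nat_lit 5988611805) (nat_lit 45) (nat_lit 5) (nat_lit 48) (nat_lit 5) (nat_lit 46) (nat_lit 5) (nat_lit 493) (nat_lit 353) (nat_lit 294)) (XT.lf (nat_lit 0) (nat_lit 2362734946) (nat_lit 228) (nat_lit 6315970813) (nat_lit 304) (nat_lit 7332710137) (nat_lit 42) (nat_lit 5) (nat_lit 45) (nat_lit 5) (nat_lit 46) (nat_lit 5) (nat_lit 494) (nat_lit 353) (nat_lit 293)))))) (XT.nd (nat_lit 546) (nat_lit 456) (nat_lit 0) (XT.nd (nat_lit 234) (nat_lit 380) (nat_lit 0) (XT.nd (nat_lit 78) (nat_lit 228) (nat_lit 0) (XT.lf (nat_lit 0) (nat_lit 9366584657) (nat_lit 228) (nat_lit 2760502194) (nat_lit 304) (nat_lit 4119691136) (nat_lit 42) (nat_lit 5) (nat_lit 45) (nat_lit 5) (nat_lit 46) (nat_lit 5) (nat_lit 495) (nat_lit 353) (nat_lit 292)) (XT.nd (nat_lit 78) (nat_lit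 228) (nat_lit 0) (XT.lf (nat_lit 0) (nat_lit 15619205776) (nat_lit 304) (nat_lit 33708412) (nat_lit 76) (nat_lit 834451399) (nat_lit 42) (nat_lit 5) (nat_lit 46) (nat_lit 5) (nat_lit 43) (nat_lit 4) (nat_lit 496) (nat_lit 353) (nat_lit 291)) (XT.lf (nat_lit 0) (nat_lit 2449799417) (nat_lit 228) (nat_lit 9776098557) (nat_lit 76) (nat_lit 4505892000) (nat_lit 39) (nat_lit 5) (nat_lit 42) (nat_lit 5) (nat_lit 40) (nat_lit 5) (nat_lit 497) (nat_lit 353) (nat_lit 290)))) (XT.nd (nat_lit 156) (nat_lit 152) (nat_lit 0) (XT.nd (nat_lit 78) (nat_lit 228) (nat_lit 0) (XT.lf (nat_lit 0) (nat_lit 5792538106) (nat_lit 228) (nat_lit 2952328036) (nat_lit 76) (nat_lit 8236733919) (nat_lit 39) (nat_lit 5) (nat_lit 42) (nat_lit 5) (nat_lit 40) (nat_lit 5) (nat_lit 498) (nat_lit 353) (nat_lit 289)) (XT.lf (nat_lit 0) (nat_lit 4010700343) (nat_lit 228) (nat_lit 5187869752) (nat_lit 304) (nat_lit 8037920112) (nat_lit 36)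 (nat_lit 5) (nat_lit 39) (nat_lit 5) (nat_lit 40) (nat_lit 5) (nat_lit 499) (nat_lit 353) (nat_lit 288))) (XT.nd (nat_lit 78) (nat_lit 152) (nat_lit 0) (XT.lf (nat_lit 0) (nat_lit 11103518019) (nat_lit 228) (nat_lit 1559673878) (nat_lit 304) (nat_lit 4833489258) (nat_lit 36) (nat_lit 5) (nat_lit 39) (nat_lit 5) (nat_lit 40) (nat_lit 5) (nat_lit 500) (nat_lit 353) (nat_lit 287)) (XT.lf (nat_lit 0) (nat_lit 520055725) (nat_lit 152) (nat_lit 15665432894) (nat_lit 228) (nat_lit 1576831790) (nat_lit 34) (nat_lit 5) (nat_lit 36) (nat_lit 5) (nat_lit 37) (nat_lit 4) (nat_lit 501) (nat_lit 353) (nat_lit 286))))) (XT.nd (nat_lit 234) (nat_lit 228) (nat_lit 0) (XT.nd (nat_lit 78) (nat_lit 152) (nat_lit 0) (XT.lf (nat_lit 0) (nat_lit 1746741753) (nat_lit 228) (nat_lit 10445209417) (nat_lit 76) (nat_lit 5840612990) (nat_lit 33) (nat_lit 5) (nat_lit 36) (nat_lit 5) (nat_lit 34) (nat_lit 5) (nat_lit 502) (nat_lit 353)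 (nat_lit 285)) (XT.nd (nat_lit 78) (nat_lit 152) (nat_lit 0) (XT.lf (nat_lit 0) (nat_lit 5087412143) (nat_lit 228) (nat_lit 3570746285) (nat_lit 76) (nat_lit 9650422556) (nat_lit 33) (nat_lit 5) (nat_lit 36) (nat_lit 5) (nat_lit 34) (nat_lit 5) (nat_lit 503) (nat_lit 353) (nat_lit 284)) (XT.lf (nat_lit 0) (nat_lit 3439163666) (nat_lit 152) (nat_lit 5050335543) (nat_lit 228) (nat_lit 10100738085) (nat_lit 31) (nat_lit 5) (nat_lit 33) (nat_lit 5) (nat_lit 34) (nat_lit 5) (nat_lit 504) (nat_lit 353) (nat_lit 283)))) (XT.nd (nat_lit 156) (nat_lit 228) (nat_lit 0) (XT.nd (nat_lit 78) (nat_lit 0) (nat_lit 0) (XT.lf (nat_lit 0) (nat_lit 10590836714) (nat_lit 152) (nat_lit 1365266375) (nat_lit 228) (nat_lit 6921505133) (nat_lit 31) (nat_lit 5) (nat_lit 33) (nat_lit 5) (nat_lit 34) (nat_lit 5) (nat_lit 505) (nat_lit 353) (nat_lit 282)) (XT.lf (nat_lit 0) (nat_lit 15480508524) (nat_lit 228) (nat_lit 1347069245)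 (nat_lit 76) (nat_lit 2343390189) (nat_lit 31) (nat_lit 5) (nat_lit 34) (nat_lit 5) (nat_lit 32) (nat_lit 4) (nat_lit 506) (nat_lit 353) (nat_lit 281))) (XT.nd (nat_lit 78) (nat_lit 76) (nat_lit 0) (XT.lf (nat_lit 0) (nat_lit 5752392281) (nat_lit 152) (nat_lit 13342859691) (nat_lit 228) (nat_lit 374556485) (nat_lit 29) (nat_lit 5) (nat_lit 31) (nat_lit 5) (nat_lit 32) (nat_lit 4) (nat_lit 507) (nat_lit 353) (nat_lit 280)) (XT.lf (nat_lit 0) (nat_lit 2950820774) (nat_lit 228) (nat_lit 6827429981) (nat_lit 76) (nat_lit 9996342567) (nat_lit 28) (nat_lit 5) (nat_lit 31) (nat_lit 5) (nat_lit 29) (nat_lit 5) (nat_lit 508) (nat_lit 353) (nat_lit 279))))))))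
noncomputable def xc44 : XT := (XT.nd (nat_lit 53820) (nat_lit 0) (nat_lit 6840) (XT.nd (nat_lit 1014) (nat_lit 456) (nat_lit 0) (XT.nd (nat_lit 468) (nat_lit 304) (nat_lit 0) (XT.nd (nat_lit 234) (nat_lit 228) (nat_lit 0) (XT.nd (nat_lit 78) (nat_lit 0) (nat_lit 0) (XT.lf (nat_lit 0) (nat_lit 155304130) (nat_lit 152) (nat_lit 6157421617) (nat_lit 228) (nat_lit 13773207868) (nat_lit 26) (nat_lit 5) (nat_lit 28) (nat_lit 5) (nat_lit 29) (nat_lit 5) (nat_lit 509) (nat_lit 353) (nat_lit 278)) (XT.nd (nat_lit 78) (nat_lit 0) (nat_lit 0) (XT.lf (nat_lit 0) (nat_lit 7325925869) (nat_lit 152) (nat_lit 2436002701) (nat_lit 228) (nat_lit 10641180714) (nat_lit 26) (nat_lit 5) (nat_lit 28) (nat_lit 5) (nat_lit 29) (nat_lit 5) (nat_lit 510) (nat_lit 353) (nat_lit 277)) (XT.lf (nat_lit 0) (nat_lit 13263575444) (nat_lit 228) (nat_lit 6139339644) (nat_lit 76) (nat_lit 1324053747) (nat_lit 26) (nat_lit 5) (nat_lit 29)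 (nat_lit 5) (nat_lit 27) (nat_lit 4) (nat_lit 511) (nat_lit 353) (nat_lit 276)))) (XT.nd (nat_lit 78) (nat_lit 76) (nat_lit 0) (XT.lf (nat_lit 0) (nat_lit 889816075) (nat_lit 152) (nat_lit 15942477340) (nat_lit 228) (nat_lit 4225080784) (nat_lit 24) (nat_lit 5) (nat_lit 26) (nat_lit 5) (nat_lit 27) (nat_lit 4) (nat_lit 512) (nat_lit 353) (nat_lit 275)) (XT.nd (nat_lit 78) (nat_lit 76) (nat_lit 0) (XT.lf (nat_lit 0) (nat_lit 8100075498) (nat_lit 152) (nat_lit 12388847307) (nat_lit 228) (nat_lit 905143323) (nat_lit 24) (nat_lit 5) (nat_lit 26) (nat_lit 5) (nat_lit 27) (nat_lit 4) (nat_lit 513) (nat_lit 353) (nat_lit 274)) (XT.lf (nat_lit 0) (nat_lit 2424304987) (nat_lit 228) (nat_lit 6341256258) (nat_lit 76) (nat_lit 12972104233) (nat_lit 23) (nat_lit 5) (nat_lit 26) (nat_lit 5) (nat_lit 24) (nat_lit 5) (nat_lit 514) (nat_lit 353) (nat_lit 273))))) (XT.nd (nat_lit 234) (nat_lit 152) (nat_lit 0) (XT.nd (nat_lit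 78) (nat_lit 0) (nat_lit 0) (XT.lf (nat_lit 0) (nat_lit 712515676) (nat_lit 152) (nat_lit 5076474950) (nat_lit 228) (nat_lit 16299419834) (nat_lit 21) (nat_lit 5) (nat_lit 23) (nat_lit 5) (nat_lit 24) (nat_lit 5) (nat_lit 515) (nat_lit 353) (nat_lit 272)) (XT.nd (nat_lit 78) (nat_lit 0) (nat_lit 0) (XT.lf (nat_lit 0) (nat_lit 7952225031) (nat_lit 152) (nat_lit 1287630096) (nat_lit 228) (nat_lit 13205946010) (nat_lit 21) (nat_lit 5) (nat_lit 23) (nat_lit 5) (nat_lit 24) (nat_lit 5) (nat_lit 516) (nat_lit 353) (nat_lit 271)) (XT.lf (nat_lit 0) (nat_lit 12753153588) (nat_lit 228) (nat_lit 7530993696) (nat_lit 76) (nat_lit 2526332343) (nat_lit 21) (nat_lit 5) (nat_lit 24) (nat_lit 5) (nat_lit 22) (nat_lit 4) (nat_lit 517) (nat_lit 353) (nat_lit 270)))) (XT.nd (nat_lit 156) (nat_lit 76) (nat_lit 0) (XT.nd (nat_lit 78) (nat_lit 76) (nat_lit 0) (XT.lf (nat_lit 0) (nat_lit 16322387653) (nat_lit 228) (nat_lit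 477541011) (nat_lit 76) (nat_lit 6382817799) (nat_lit 21) (nat_lit 5) (nat_lit 24) (nat_lit 5) (nat_lit 22) (nat_lit 4) (nat_lit 518) (nat_lit 353) (nat_lit 269)) (XT.lf (nat_lit 0) (nat_lit 6766654042) (nat_lit 76) (nat_lit 13217876437) (nat_lit 152) (nat_lit 3577505683) (nat_lit 20) (nat_lit 5) (nat_lit 21) (nat_lit 5) (nat_lit 22) (nat_lit 4) (nat_lit 519) (nat_lit 353) (nat_lit 268))) (XT.nd (nat_lit 78) (nat_lit 76) (nat_lit 0) (XT.lf (nat_lit 0) (nat_lit 14123390677) (nat_lit 76) (nat_lit 9577507897) (nat_lit 152) (nat_lit 248401284) (nat_lit 20) (nat_lit 5) (nat_lit 21) (nat_lit 5) (nat_lit 22) (nat_lit 4) (nat_lit 520) (nat_lit 353) (nat_lit 267)) (XT.lf (nat_lit 0) (nat_lit 3084069702) (nat_lit 152) (nat_lit 2775834568) (nat_lit 76) (nat_lit 18484442187) (nat_lit 19) (nat_lit 5) (nat_lit 21) (nat_lit 5) (nat_lit 20) (nat_lit 5) (nat_lit 521) (nat_lit 353) (nat_lit 266)))))) (XT.nd (nat_lit 546)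 (nat_lit 152) (nat_lit 0) (XT.nd (nat_lit 234) (nat_lit 152) (nat_lit 0) (XT.nd (nat_lit 78) (nat_lit 0) (nat_lit 0) (XT.lf (nat_lit 0) (nat_lit 4434149676) (nat_lit 152) (nat_lit 2052998763) (nat_lit 228) (nat_lit 18259974419) (nat_lit 17) (nat_lit 5) (nat_lit 19) (nat_lit 5) (nat_lit 20) (nat_lit 5) (nat_lit 522) (nat_lit 353) (nat_lit 265)) (XT.nd (nat_lit 78) (nat_lit 0) (nat_lit 0) (XT.lf (nat_lit 0) (nat_lit 9967488315) (nat_lit 228) (nat_lit 13381310591) (nat_lit 76) (nat_lit 1808979144) (nat_lit 17) (nat_lit 5) (nat_lit 20) (nat_lit 5) (nat_lit 18) (nat_lit 4) (nat_lit 523) (nat_lit 353) (nat_lit 264)) (XT.lf (nat_lit 0) (nat_lit 13510018289) (nat_lit 228) (nat_lit 6361555764) (nat_lit 76) (nat_lit 5705227737) (nat_lit 17) (nat_lit 5) (nat_lit 20) (nat_lit 5) (nat_lit 18) (nat_lit 4) (nat_lit 524) (nat_lit 353) (nat_lit 263)))) (XT.nd (nat_lit 156) (nat_lit 76) (nat_lit 0) (XT.nd (nat_lit 78)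 (nat_lit 0) (nat_lit 0) (XT.lf (nat_lit 0) (nat_lit 772505115) (nat_lit 76) (nat_lit 16335308659) (nat_lit 152) (nat_lit 8896710906) (nat_lit 16) (nat_lit 5) (nat_lit 17) (nat_lit 5) (nat_lit 18) (nat_lit 4) (nat_lit 525) (nat_lit 353) (nat_lit 262)) (XT.lf (nat_lit 0) (nat_lit 8099497482) (nat_lit 76) (nat_lit 12700326685) (nat_lit 152) (nat_lit 5640539515) (nat_lit 16) (nat_lit 5) (nat_lit 17) (nat_lit 5) (nat_lit 18) (nat_lit 4) (nat_lit 526) (nat_lit 353) (nat_lit 261))) (XT.nd (nat_lit 78) (nat_lit 76) (nat_lit 0) (XT.lf (nat_lit 0) (nat_lit 15537752938) (nat_lit 76) (nat_lit 9007892038) (nat_lit 152) (nat_lit 2339681786) (nat_lit 16) (nat_lit 5) (nat_lit 17) (nat_lit 5) (nat_lit 18) (nat_lit 4) (nat_lit 527) (nat_lit 353) (nat_lit 260)) (XT.lf (nat_lit 0) (nat_lit 993947691) (nat_lit 152) (nat_lit 4255939098) (nat_lit 76) (nat_lit 22089570842) (nat_lit 15) (nat_lit 5) (nat_lit 17) (nat_lit 5) (nat_lit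 16) (nat_lit 5) (nat_lit 528) (nat_lit 353) (nat_lit 259))))) (XT.nd (nat_lit 51948) (nat_lit 0) (nat_lit 15352) (XT.nd (nat_lit 51792) (nat_lit 0) (nat_lit 17404) (XT.lf (nat_lit 0) (nat_lit 2966772636) (nat_lit 152) (nat_lit 1396054459) (nat_lit 228) (nat_lit 23439542919) (nat_lit 13) (nat_lit 5) (nat_lit 15) (nat_lit 5) (nat_lit 16) (nat_lit 5) (nat_lit 529) (nat_lit 353) (nat_lit 258)) (XT.nd (nat_lit 78) (nat_lit 684) (nat_lit 0) (XT.lf (nat_lit 0) (nat_lit 1940172258) (nat_lit 760) (nat_lit 68076963) (nat_lit 0) (nat_lit 1940172258) (nat_lit 251) (nat_lit 5) (nat_lit 261) (nat_lit 4) (nat_lit 251) (nat_lit 4) (nat_lit 432) (nat_lit 354) (nat_lit 354)) (XT.lf (nat_lit 0) (nat_lit 5354705469) (nat_lit 684) (nat_lit 1939112335) (nat_lit 684) (nat_lit 663098736) (nat_lit 242) (nat_lit 4) (nat_lit 251) (nat_lit 5) (nat_lit 251) (nat_lit 4) (nat_lit 433) (nat_lit 354) (nat_lit 353)))) (XT.nd (nat_lit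 156) (nat_lit 684) (nat_lit 0) (XT.nd (nat_lit 78) (nat_lit 684) (nat_lit 0) (XT.lf (nat_lit 0) (nat_lit 2681309585) (nat_lit 684) (nat_lit 5133535791) (nat_lit 0) (nat_lit 203851424) (nat_lit 233) (nat_lit 5) (nat_lit 242) (nat_lit 4) (nat_lit 233) (nat_lit 4) (nat_lit 434) (nat_lit 354) (nat_lit 352)) (XT.lf (nat_lit 0) (nat_lit 350247589) (nat_lit 684) (nat_lit 5705933336) (nat_lit 684) (nat_lit 2026059061) (nat_lit 224) (nat_lit 4) (nat_lit 233) (nat_lit 5) (nat_lit 233) (nat_lit 4) (nat_lit 435) (nat_lit 354) (nat_lit 351))) (XT.nd (nat_lit 78) (nat_lit 608) (nat_lit 0) (XT.lf (nat_lit 0) (nat_lit 1308452167) (nat_lit 760) (nat_lit 2215640223) (nat_lit 76) (nat_lit 4623354088) (nat_lit 223) (nat_lit 5) (nat_lit 233) (nat_lit 5) (nat_lit 224) (nat_lit 4) (nat_lit 436) (nat_lit 354) (nat_lit 350)) (XT.lf (nat_lit 0) (nat_lit 3369692682) (nat_lit 608) (nat_lit 1275916780) (nat_lit 684) (nat_lit 3568878462)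 (nat_lit 215) (nat_lit 5) (nat_lit 223) (nat_lit 5) (nat_lit 224) (nat_lit 4) (nat_lit 437) (nat_lit 354) (nat_lit 349))))))) (XT.nd (nat_lit 1014) (nat_lit 3420) (nat_lit 0) (XT.nd (nat_lit 468) (nat_lit 2660) (nat_lit 0) (XT.nd (nat_lit 234) (nat_lit 1216) (nat_lit 0) (XT.nd (nat_lit 78) (nat_lit 608) (nat_lit 0) (XT.lf (nat_lit 0) (nat_lit 744471562) (nat_lit 608) (nat_lit 7273224494) (nat_lit 608) (nat_lit 265869600) (nat_lit 207) (nat_lit 4) (nat_lit 215) (nat_lit 5) (nat_lit 215) (nat_lit 4) (nat_lit 438) (nat_lit 354) (nat_lit 348)) (XT.nd (nat_lit 78) (nat_lit 532) (nat_lit 0) (XT.lf (nat_lit 0) (nat_lit 3045691858) (nat_lit 684) (nat_lit 1944122659) (nat_lit 76) (nat_lit 3364200516) (nat_lit 206) (nat_lit 5) (nat_lit 215) (nat_lit 5) (nat_lit 207) (nat_lit 4) (nat_lit 439) (nat_lit 354) (nat_lit 347)) (XT.lf (nat_lit 0) (nat_lit 3738319144) (nat_lit 532) (nat_lit 2649032567) (nat_lit 608) (nat_lit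 2039193765) (nat_lit 199) (nat_lit 5) (nat_lit 206) (nat_lit 5) (nat_lit 207) (nat_lit 4) (nat_lit 440) (nat_lit 354) (nat_lit 346)))) (XT.nd (nat_lit 78) (nat_lit 532) (nat_lit 0) (XT.lf (nat_lit 0) (nat_lit 992992642) (nat_lit 608) (nat_lit 248295202) (nat_lit 684) (nat_lit 7259864924) (nat_lit 190) (nat_lit 5) (nat_lit 198) (nat_lit 5) (nat_lit 199) (nat_lit 5) (nat_lit 441) (nat_lit 354) (nat_lit 345)) (XT.nd (nat_lit 78) (nat_lit 532) (nat_lit 0) (XT.lf (nat_lit 0) (nat_lit 4549978201) (nat_lit 684) (nat_lit 1825865085) (nat_lit 76) (nat_lit 2201393808) (nat_lit 190) (nat_lit 5) (nat_lit 199) (nat_lit 5) (nat_lit 191) (nat_lit 4) (nat_lit 442) (nat_lit 354) (nat_lit 344)) (XT.lf (nat_lit 0) (nat_lit 3949019241) (nat_lit 532) (nat_lit 3948129426) (nat_lit 608) (nat_lit 758299836) (nat_lit 183) (nat_lit 5) (nat_lit 190) (nat_lit 5) (nat_lit 191) (nat_lit 4) (nat_lit 443) (nat_lit 354) (nat_lit 343)))))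 (XT.nd (nat_lit 234) (nat_lit 1520) (nat_lit 0) (XT.nd (nat_lit 78) (nat_lit 532) (nat_lit 0) (XT.lf (nat_lit 0) (nat_lit 1054684845) (nat_lit 532) (nat_lit 1451980922) (nat_lit 608) (nat_lit 6228985134) (nat_lit 175) (nat_lit 5) (nat_lit 182) (nat_lit 5) (nat_lit 183) (nat_lit 5) (nat_lit 444) (nat_lit 354) (nat_lit 342)) (XT.nd (nat_lit 78) (nat_lit 532) (nat_lit 0) (XT.lf (nat_lit 0) (nat_lit 5811416076) (nat_lit 608) (nat_lit 1906406983) (nat_lit 76) (nat_lit 1099889808) (nat_lit 175) (nat_lit 5) (nat_lit 183) (nat_lit 5) (nat_lit 176) (nat_lit 4) (nat_lit 445) (nat_lit 354) (nat_lit 341)) (XT.lf (nat_lit 0) (nat_lit 259090535) (nat_lit 532) (nat_lit 4948276820) (nat_lit 76) (nat_lit 3694420339) (nat_lit 168) (nat_lit 5) (nat_lit 175) (nat_lit 5) (nat_lit 169) (nat_lit 5) (nat_lit 446) (nat_lit 354) (nat_lit 340)))) (XT.nd (nat_lit 156) (nat_lit 988) (nat_lit 0) (XT.nd (nat_lit 78) (nat_lit 0) (nat_lit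 0) (XT.lf (nat_lit 0) (nat_lit 889921084) (nat_lit 532) (nat_lit 2625294730) (nat_lit 608) (nat_lit 5472662831) (nat_lit 161) (nat_lit 5) (nat_lit 168) (nat_lit 5) (nat_lit 169) (nat_lit 5) (nat_lit 447) (nat_lit 354) (nat_lit 339)) (XT.lf (nat_lit 0) (nat_lit 6817399623) (nat_lit 608) (nat_lit 2234790473) (nat_lit 76) (nat_lit 23927448) (nat_lit 161) (nat_lit 5) (nat_lit 169) (nat_lit 5) (nat_lit 162) (nat_lit 4) (nat_lit 448) (nat_lit 354) (nat_lit 338))) (XT.nd (nat_lit 78) (nat_lit 456) (nat_lit 0) (XT.lf (nat_lit 0) (nat_lit 995964266) (nat_lit 532) (nat_lit 5466095071) (nat_lit 76) (nat_lit 2704176020) (nat_lit 154) (nat_lit 5) (nat_lit 161) (nat_lit 5) (nat_lit 155) (nat_lit 5) (nat_lit 449) (nat_lit 354) (nat_lit 337)) (XT.lf (nat_lit 0) (nat_lit 446698574) (nat_lit 456) (nat_lit 3805486237) (nat_lit 532) (nat_lit 5006380599) (nat_lit 148) (nat_lit 5) (nat_lit 154) (nat_lit 5) (nat_lit 155) (nat_lit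 5) (nat_lit 450) (nat_lit 354) (nat_lit 336)))))) (XT.nd (nat_lit 546) (nat_lit 1596) (nat_lit 0) (XT.nd (nat_lit 234) (nat_lit 1292) (nat_lit 0) (XT.nd (nat_lit 78) (nat_lit 532) (nat_lit 0) (XT.lf (nat_lit 0) (nat_lit 6481995528) (nat_lit 456) (nat_lit 1077432175) (nat_lit 532) (nat_lit 1793637837) (nat_lit 148) (nat_lit 5) (nat_lit 154) (nat_lit 5) (nat_lit 155) (nat_lit 5) (nat_lit 451) (nat_lit 354) (nat_lit 335)) (XT.nd (nat_lit 78) (nat_lit 0) (nat_lit 0) (XT.lf (nat_lit 0) (nat_lit 1445354388) (nat_lit 532) (nat_lit 6309989062) (nat_lit 76) (nat_lit 1694330447) (nat_lit 141) (nat_lit 5) (nat_lit 148) (nat_lit 5) (nat_lit 142) (nat_lit 5) (nat_lit 452) (nat_lit 354) (nat_lit 334)) (XT.lf (nat_lit 0) (nat_lit 4701918043) (nat_lit 532) (nat_lit 327033464) (nat_lit 76) (nat_lit 4519528673) (nat_lit 141) (nat_lit 5) (nat_lit 148) (nat_lit 5) (nat_lit 142) (nat_lit 5) (nat_lit 453) (nat_lit 354) (nat_lit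 333)))) (XT.nd (nat_lit 156) (nat_lit 380) (nat_lit 0) (XT.nd (nat_lit 78) (nat_lit 456) (nat_lit 0) (XT.lf (nat_lit 0) (nat_lit 5783157851) (nat_lit 456) (nat_lit 2229235228) (nat_lit 532) (nat_lit 1637132188) (nat_lit 135) (nat_lit 5) (nat_lit 141) (nat_lit 5) (nat_lit 142) (nat_lit 5) (nat_lit 454) (nat_lit 354) (nat_lit 332)) (XT.lf (nat_lit 0) (nat_lit 1587139296) (nat_lit 456) (nat_lit 7539798187) (nat_lit 76) (nat_lit 626035747) (nat_lit 129) (nat_lit 5) (nat_lit 135) (nat_lit 5) (nat_lit 130) (nat_lit 5) (nat_lit 455) (nat_lit 354) (nat_lit 331))) (XT.nd (nat_lit 78) (nat_lit 380) (nat_lit 0) (XT.lf (nat_lit 0) (nat_lit 4846648844) (nat_lit 456) (nat_lit 1485952116) (nat_lit 76) (nat_lit 3525855360) (nat_lit 129) (nat_lit 5) (nat_lit 135) (nat_lit 5) (nat_lit 130) (nat_lit 5) (nat_lit 456) (nat_lit 354) (nat_lit 330)) (XT.lf (nat_lit 0) (nat_lit 4682816319) (nat_lit 380) (nat_lit 3471654851) (nat_lit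 456) (nat_lit 1811950814) (nat_lit 124) (nat_lit 5) (nat_lit 129) (nat_lit 5) (nat_lit 130) (nat_lit 5) (nat_lit 457) (nat_lit 354) (nat_lit 329))))) (XT.nd (nat_lit 234) (nat_lit 760) (nat_lit 0) (XT.nd (nat_lit 78) (nat_lit 380) (nat_lit 0) (XT.lf (nat_lit 0) (nat_lit 852658710) (nat_lit 380) (nat_lit 548641698) (nat_lit 456) (nat_lit 8675723223) (nat_lit 118) (nat_lit 5) (nat_lit 123) (nat_lit 5) (nat_lit 124) (nat_lit 5) (nat_lit 458) (nat_lit 354) (nat_lit 328)) (XT.nd (nat_lit 78) (nat_lit 380) (nat_lit 0) (XT.lf (nat_lit 0) (nat_lit 4659281893) (nat_lit 456) (nat_lit 3102061518) (nat_lit 76) (nat_lit 2428193141) (nat_lit 118) (nat_lit 5) (nat_lit 124) (nat_lit 5) (nat_lit 119) (nat_lit 5) (nat_lit 459) (nat_lit 354) (nat_lit 327)) (XT.lf (nat_lit 0) (nat_lit 3113047127) (nat_lit 380) (nat_lit 4847356961) (nat_lit 456) (nat_lit 2344368692) (nat_lit 113) (nat_lit 5) (nat_lit 118) (nat_lit 5) (nat_lit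 119) (nat_lit 5) (nat_lit 460) (nat_lit 354) (nat_lit 326)))) (XT.nd (nat_lit 156) (nat_lit 380) (nat_lit 0) (XT.nd (nat_lit 78) (nat_lit 304) (nat_lit 0) (XT.lf (nat_lit 0) (nat_lit 868588689) (nat_lit 456) (nat_lit 1000440453) (nat_lit 76) (nat_lit 8553693925) (nat_lit 112) (nat_lit 5) (nat_lit 118) (nat_lit 5) (nat_lit 113) (nat_lit 5) (nat_lit 461) (nat_lit 354) (nat_lit 325)) (XT.lf (nat_lit 0) (nat_lit 4111826470) (nat_lit 380) (nat_lit 5247771236) (nat_lit 76) (nat_lit 1183207269) (nat_lit 108) (nat_lit 5) (nat_lit 113) (nat_lit 5) (nat_lit 109) (nat_lit 5) (nat_lit 462) (nat_lit 354) (nat_lit 324))) (XT.nd (nat_lit 78) (nat_lit 0) (nat_lit 0) (XT.lf (nat_lit 0) (nat_lit 999439928) (nat_lit 380) (nat_lit 6401601434) (nat_lit 456) (nat_lit 3264655095) (nat_lit 103) (nat_lit 5) (nat_lit 108) (nat_lit 5) (nat_lit 109) (nat_lit 5) (nat_lit 463) (nat_lit 354) (nat_lit 323)) (XT.lf (nat_lit 0) (nat_lit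 7377094740) (nat_lit 380) (nat_lit 3370095472) (nat_lit 456) (nat_lit 44062156) (nat_lit 103) (nat_lit 5) (nat_lit 108) (nat_lit 5) (nat_lit 109) (nat_lit 5) (nat_lit 464) (nat_lit 354) (nat_lit 322))))))))
noncomputable def xc45 : XT := (XT.nd (nat_lit 2106) (nat_lit 2128) (nat_lit 0) (XT.nd (nat_lit 1014) (nat_lit 1900) (nat_lit 0) (XT.nd (nat_lit 468) (nat_lit 912) (nat_lit 0) (XT.nd (nat_lit 234) (nat_lit 684) (nat_lit 0) (XT.nd (nat_lit 78) (nat_lit 304) (nat_lit 0) (XT.lf (nat_lit 0) (nat_lit 2915219248) (nat_lit 304) (nat_lit 258629032) (nat_lit 380) (nat_lit 7745570488) (nat_lit 98) (nat_lit 5) (nat_lit 102) (nat_lit 5) (nat_lit 103) (nat_lit 5) (nat_lit 465) (nat_lit 354) (nat_lit 321)) (XT.nd (nat_lit 78) (nat_lit 304) (nat_lit 0) (XT.lf (nat_lit 0) (nat_lit 6454295267) (nat_lit 380) (nat_lit 1716875115) (nat_lit 76) (nat_lit 2879024809) (nat_lit 98) (nat_lit 5) (nat_lit 103) (nat_lit 5) (nat_lit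 99) (nat_lit 5) (nat_lit 466) (nat_lit 354) (nat_lit 320)) (XT.lf (nat_lit 0) (nat_lit 4692021449) (nat_lit 304) (nat_lit 5098132423) (nat_lit 380) (nat_lit 1393664554) (nat_lit 94) (nat_lit 5) (nat_lit 98) (nat_lit 5) (nat_lit 99) (nat_lit 5) (nat_lit 467) (nat_lit 354) (nat_lit 319)))) (XT.nd (nat_lit 78) (nat_lit 608) (nat_lit 0) (XT.lf (nat_lit 0) (nat_lit 1817393226) (nat_lit 380) (nat_lit 143914735) (nat_lit 76) (nat_lit 9359202528) (nat_lit 93) (nat_lit 5) (nat_lit 98) (nat_lit 5) (nat_lit 94) (nat_lit 5) (nat_lit 468) (nat_lit 354) (nat_lit 318)) (XT.nd (nat_lit 78) (nat_lit 304) (nat_lit 0) (XT.lf (nat_lit 0) (nat_lit 5082007205) (nat_lit 380) (nat_lit 5126051984) (nat_lit 76) (nat_lit 1251558799) (nat_lit 89) (nat_lit 5) (nat_lit 94) (nat_lit 5) (nat_lit 90) (nat_lit 5) (nat_lit 469) (nat_lit 354) (nat_lit 317)) (XT.lf (nat_lit 0) (nat_lit 1281673554) (nat_lit 304) (nat_lit 7111358152) (nat_lit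 380) (nat_lit 3208878822) (nat_lit 85) (nat_lit 5) (nat_lit 89) (nat_lit 5) (nat_lit 90) (nat_lit 5) (nat_lit 470) (nat_lit 354) (nat_lit 316))))) (XT.nd (nat_lit 234) (nat_lit 608) (nat_lit 0) (XT.nd (nat_lit 78) (nat_lit 228) (nat_lit 0) (XT.lf (nat_lit 0) (nat_lit 16490393) (nat_lit 380) (nat_lit 3923054593) (nat_lit 76) (nat_lit 7807653848) (nat_lit 84) (nat_lit 5) (nat_lit 89) (nat_lit 5) (nat_lit 85) (nat_lit 5) (nat_lit 471) (nat_lit 354) (nat_lit 315)) (XT.nd (nat_lit 78) (nat_lit 0) (nat_lit 0) (XT.lf (nat_lit 0) (nat_lit 2552181514) (nat_lit 228) (nat_lit 687575230) (nat_lit 304) (nat_lit 8655708614) (nat_lit 81) (nat_lit 5) (nat_lit 84) (nat_lit 5) (nat_lit 85) (nat_lit 5) (nat_lit 472) (nat_lit 354) (nat_lit 314)) (XT.lf (nat_lit 0) (nat_lit 6531053472) (nat_lit 304) (nat_lit 2915698305) (nat_lit 76) (nat_lit 2599897468) (nat_lit 81) (nat_lit 5) (nat_lit 85) (nat_lit 5) (nat_lit 82) (nat_lit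 5) (nat_lit 473) (nat_lit 354) (nat_lit 313)))) (XT.nd (nat_lit 156) (nat_lit 228) (nat_lit 0) (XT.nd (nat_lit 78) (nat_lit 76) (nat_lit 0) (XT.lf (nat_lit 0) (nat_lit 3622233260) (nat_lit 304) (nat_lit 6254791661) (nat_lit 380) (nat_lit 2324077788) (nat_lit 77) (nat_lit 5) (nat_lit 81) (nat_lit 5) (nat_lit 82) (nat_lit 5) (nat_lit 474) (nat_lit 354) (nat_lit 312)) (XT.lf (nat_lit 0) (nat_lit 899624787) (nat_lit 380) (nat_lit 2095281470) (nat_lit 76) (nat_lit 9364028684) (nat_lit 76) (nat_lit 5) (nat_lit 81) (nat_lit 5) (nat_lit 77) (nat_lit 5) (nat_lit 475) (nat_lit 354) (nat_lit 311))) (XT.nd (nat_lit 78) (nat_lit 0) (nat_lit 0) (XT.lf (nat_lit 0) (nat_lit 4149875873) (nat_lit 304) (nat_lit 8020589049) (nat_lit 76) (nat_lit 349309330) (nat_lit 73) (nat_lit 5) (nat_lit 77) (nat_lit 5) (nat_lit 74) (nat_lit 5) (nat_lit 476) (nat_lit 354) (nat_lit 310)) (XT.lf (nat_lit 0) (nat_lit 7460982746) (nat_lit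 304) (nat_lit 1509873660) (nat_lit 76) (nat_lit 3713078062) (nat_lit 73) (nat_lit 5) (nat_lit 77) (nat_lit 5) (nat_lit 74) (nat_lit 5) (nat_lit 477) (nat_lit 354) (nat_lit 309)))))) (XT.nd (nat_lit 546) (nat_lit 760) (nat_lit 0) (XT.nd (nat_lit 234) (nat_lit 532) (nat_lit 0) (XT.nd (nat_lit 78) (nat_lit 304) (nat_lit 0) (XT.lf (nat_lit 0) (nat_lit 5139301159) (nat_lit 304) (nat_lit 5694989516) (nat_lit 380) (nat_lit 2017188353) (nat_lit 69) (nat_lit 5) (nat_lit 73) (nat_lit 5) (nat_lit 74) (nat_lit 5) (nat_lit 478) (nat_lit 354) (nat_lit 308)) (XT.nd (nat_lit 78) (nat_lit 228) (nat_lit 0) (XT.lf (nat_lit 0) (nat_lit 1209157562) (nat_lit 380) (nat_lit 1147730212) (nat_lit 76) (nat_lit 10665886025) (nat_lit 68) (nat_lit 5) (nat_lit 73) (nat_lit 5) (nat_lit 69) (nat_lit 5) (nat_lit 479) (nat_lit 354) (nat_lit 307)) (XT.lf (nat_lit 0) (nat_lit 4479495395) (nat_lit 304) (nat_lit 7654943021) (nat_lit 76) (nat_lit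 1062679397) (nat_lit 65) (nat_lit 5) (nat_lit 69) (nat_lit 5) (nat_lit 66) (nat_lit 5) (nat_lit 480) (nat_lit 354) (nat_lit 306)))) (XT.nd (nat_lit 156) (nat_lit 304) (nat_lit 0) (XT.nd (nat_lit 78) (nat_lit 228) (nat_lit 0) (XT.lf (nat_lit 0) (nat_lit 7802232747) (nat_lit 304) (nat_lit 1067361954) (nat_lit 76) (nat_lit 4505633291) (nat_lit 65) (nat_lit 5) (nat_lit 69) (nat_lit 5) (nat_lit 66) (nat_lit 5) (nat_lit 481) (nat_lit 354) (nat_lit 305)) (XT.lf (nat_lit 0) (nat_lit 5669122856) (nat_lit 228) (nat_lit 5523454162) (nat_lit 304) (nat_lit 2364319079) (nat_lit 62) (nat_lit 5) (nat_lit 65) (nat_lit 5) (nat_lit 66) (nat_lit 5) (nat_lit 482) (nat_lit 354) (nat_lit 304))) (XT.nd (nat_lit 78) (nat_lit 228) (nat_lit 0) (XT.lf (nat_lit 0) (nat_lit 868247623) (nat_lit 304) (nat_lit 1250508770) (nat_lit 76) (nat_lit 11623908583) (nat_lit 61) (nat_lit 5) (nat_lit 65) (nat_lit 5) (nat_lit 62) (nat_lit 5) (nat_lit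 483) (nat_lit 354) (nat_lit 303)) (XT.lf (nat_lit 0) (nat_lit 4143790980) (nat_lit 304) (nat_lit 8420779019) (nat_lit 76) (nat_lit 1367084682) (nat_lit 58) (nat_lit 5) (nat_lit 62) (nat_lit 5) (nat_lit 59) (nat_lit 5) (nat_lit 484) (nat_lit 354) (nat_lit 302))))) (XT.nd (nat_lit 234) (nat_lit 532) (nat_lit 0) (XT.nd (nat_lit 78) (nat_lit 228) (nat_lit 0) (XT.lf (nat_lit 0) (nat_lit 7472627454) (nat_lit 304) (nat_lit 1770295616) (nat_lit 76) (nat_lit 4881762802) (nat_lit 58) (nat_lit 5) (nat_lit 62) (nat_lit 5) (nat_lit 59) (nat_lit 5) (nat_lit 485) (nat_lit 354) (nat_lit 301)) (XT.nd (nat_lit 78) (nat_lit 0) (nat_lit 0) (XT.lf (nat_lit 0) (nat_lit 5023800250) (nat_lit 228) (nat_lit 5842842177) (nat_lit 304) (nat_lit 3454980220) (nat_lit 55) (nat_lit 5) (nat_lit 58) (nat_lit 5) (nat_lit 59) (nat_lit 5) (nat_lit 486) (nat_lit 354) (nat_lit 300)) (XT.lf (nat_lit 0) (nat_lit 11922853327) (nat_lit 228) (nat_lit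 2383858310) (nat_lit 304) (nat_lit 216239706) (nat_lit 55) (nat_lit 5) (nat_lit 58) (nat_lit 5) (nat_lit 59) (nat_lit 5) (nat_lit 487) (nat_lit 354) (nat_lit 299)))) (XT.nd (nat_lit 156) (nat_lit 228) (nat_lit 0) (XT.nd (nat_lit 78) (nat_lit 0) (nat_lit 0) (XT.lf (nat_lit 0) (nat_lit 3048462882) (nat_lit 304) (nat_lit 10523166563) (nat_lit 76) (nat_lit 1156258742) (nat_lit 51) (nat_lit 5) (nat_lit 55) (nat_lit 5) (nat_lit 52) (nat_lit 5) (nat_lit 488) (nat_lit 354) (nat_lit 298)) (XT.lf (nat_lit 0) (nat_lit 6375803905) (nat_lit 304) (nat_lit 3827511658) (nat_lit 76) (nat_lit 4733590524) (nat_lit 51) (nat_lit 5) (nat_lit 55) (nat_lit 5) (nat_lit 52) (nat_lit 5) (nat_lit 489) (nat_lit 354) (nat_lit 297))) (XT.nd (nat_lit 78) (nat_lit 0) (nat_lit 0) (XT.lf (nat_lit 0) (nat_lit 2987825766) (nat_lit 228) (nat_lit 6768800624) (nat_lit 304) (nat_lit 5393754658) (nat_lit 48) (nat_lit 5) (nat_lit 51) (nat_lit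 5) (nat_lit 52) (nat_lit 5) (nat_lit 490) (nat_lit 354) (nat_lit 296)) (XT.lf (nat_lit 0) (nat_lit 9938287840) (nat_lit 228) (nat_lit 3260289818) (nat_lit 304) (nat_lit 2169692695) (nat_lit 48) (nat_lit 5) (nat_lit 51) (nat_lit 5) (nat_lit 52) (nat_lit 5) (nat_lit 491) (nat_lit 354) (nat_lit 295))))))) (XT.nd (nat_lit 1092) (nat_lit 836) (nat_lit 0) (XT.nd (nat_lit 546) (nat_lit 608) (nat_lit 0) (XT.nd (nat_lit 234) (nat_lit 456) (nat_lit 0) (XT.nd (nat_lit 78) (nat_lit 0) (nat_lit 0) (XT.lf (nat_lit 0) (nat_lit 1083515205) (nat_lit 228) (nat_lit 14197058994) (nat_lit 76) (nat_lit 310225692) (nat_lit 45) (nat_lit 5) (nat_lit 48) (nat_lit 5) (nat_lit 46) (nat_lit 5) (nat_lit 492) (nat_lit 354) (nat_lit 294)) (XT.nd (nat_lit 78) (nat_lit 0) (nat_lit 0) (XT.lf (nat_lit 0) (nat_lit 4399418461) (nat_lit 228) (nat_lit 7478334996) (nat_lit 76) (nat_lit 3939220285) (nat_lit 45) (nat_lit 5) (nat_lit 48) (nat_lit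 5) (nat_lit 46) (nat_lit 5) (nat_lit 493) (nat_lit 354) (nat_lit 293)) (XT.lf (nat_lit 0) (nat_lit 7750645222) (nat_lit 228) (nat_lit 676830531) (nat_lit 76) (nat_lit 7620829150) (nat_lit 45) (nat_lit 5) (nat_lit 48) (nat_lit 5) (nat_lit 46) (nat_lit 5) (nat_lit 494) (nat_lit 354) (nat_lit 292)))) (XT.nd (nat_lit 156) (nat_lit 228) (nat_lit 0) (XT.nd (nat_lit 78) (nat_lit 0) (nat_lit 0) (XT.lf (nat_lit 0) (nat_lit 6292650904) (nat_lit 228) (nat_lit 4886714854) (nat_lit 304) (nat_lit 5104701216) (nat_lit 42) (nat_lit 5) (nat_lit 45) (nat_lit 5) (nat_lit 46) (nat_lit 5) (nat_lit 495) (nat_lit 354) (nat_lit 291)) (XT.lf (nat_lit 0) (nat_lit 13360446996) (nat_lit 228) (nat_lit 1290638341) (nat_lit 304) (nat_lit 1873983857) (nat_lit 42) (nat_lit 5) (nat_lit 45) (nat_lit 5) (nat_lit 46) (nat_lit 5) (nat_lit 496) (nat_lit 354) (nat_lit 290))) (XT.nd (nat_lit 78) (nat_lit 0) (nat_lit 0) (XT.lf (nat_lit 0) (nat_lit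 1413105384) (nat_lit 228) (nat_lit 12996845472) (nat_lit 76) (nat_lit 2360560943) (nat_lit 39) (nat_lit 5) (nat_lit 42) (nat_lit 5) (nat_lit 40) (nat_lit 5) (nat_lit 497) (nat_lit 354) (nat_lit 289)) (XT.lf (nat_lit 0) (nat_lit 4741189815) (nat_lit 228) (nat_lit 6197737629) (nat_lit 76) (nat_lit 6081693779) (nat_lit 39) (nat_lit 5) (nat_lit 42) (nat_lit 5) (nat_lit 40) (nat_lit 5) (nat_lit 498) (nat_lit 354) (nat_lit 288))))) (XT.nd (nat_lit 234) (nat_lit 380) (nat_lit 0) (XT.nd (nat_lit 78) (nat_lit 0) (nat_lit 0) (XT.lf (nat_lit 0) (nat_lit 697660542) (nat_lit 228) (nat_lit 7413683892) (nat_lit 304) (nat_lit 9164890612) (nat_lit 36) (nat_lit 5) (nat_lit 39) (nat_lit 5) (nat_lit 40) (nat_lit 5) (nat_lit 499) (nat_lit 354) (nat_lit 287)) (XT.nd (nat_lit 78) (nat_lit 0) (nat_lit 0) (XT.lf (nat_lit 0) (nat_lit 7766458195) (nat_lit 228) (nat_lit 3795266872) (nat_lit 304) (nat_lit 5974991758) (nat_lit 36)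 (nat_lit 5) (nat_lit 39) (nat_lit 5) (nat_lit 40) (nat_lit 5) (nat_lit 500) (nat_lit 354) (nat_lit 286)) (XT.lf (nat_lit 0) (nat_lit 14929062738) (nat_lit 228) (nat_lit 123847477) (nat_lit 304) (nat_lit 2750073988) (nat_lit 36) (nat_lit 5) (nat_lit 39) (nat_lit 5) (nat_lit 40) (nat_lit 5) (nat_lit 501) (nat_lit 354) (nat_lit 285)))) (XT.nd (nat_lit 156) (nat_lit 152) (nat_lit 0) (XT.nd (nat_lit 78) (nat_lit 0) (nat_lit 0) (XT.lf (nat_lit 0) (nat_lit 555049856) (nat_lit 228) (nat_lit 13933681925) (nat_lit 76) (nat_lit 3585330926) (nat_lit 33) (nat_lit 5) (nat_lit 36) (nat_lit 5) (nat_lit 34) (nat_lit 5) (nat_lit 502) (nat_lit 354) (nat_lit 284)) (XT.lf (nat_lit 0) (nat_lit 3881994472) (nat_lit 228) (nat_lit 7082559234) (nat_lit 76) (nat_lit 7385805891) (nat_lit 33) (nat_lit 5) (nat_lit 36) (nat_lit 5) (nat_lit 34) (nat_lit 5) (nat_lit 503) (nat_lit 354) (nat_lit 283))) (XT.nd (nat_lit 78) (nat_lit 152)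 (nat_lit 0) (XT.lf (nat_lit 0) (nat_lit 7248295566) (nat_lit 228) (nat_lit 140637317) (nat_lit 76) (nat_lit 11243804185) (nat_lit 33) (nat_lit 5) (nat_lit 36) (nat_lit 5) (nat_lit 34) (nat_lit 5) (nat_lit 504) (nat_lit 354) (nat_lit 282)) (XT.lf (nat_lit 0) (nat_lit 6986434492) (nat_lit 152) (nat_lit 3714199330) (nat_lit 228) (nat_lit 8219764823) (nat_lit 31) (nat_lit 5) (nat_lit 33) (nat_lit 5) (nat_lit 34) (nat_lit 5) (nat_lit 505) (nat_lit 354) (nat_lit 281)))))) (XT.nd (nat_lit 546) (nat_lit 456) (nat_lit 0) (XT.nd (nat_lit 234) (nat_lit 152) (nat_lit 0) (XT.nd (nat_lit 78) (nat_lit 228) (nat_lit 0) (XT.lf (nat_lit 0) (nat_lit 14196649842) (nat_lit 228) (nat_lit 5001504595) (nat_lit 76) (nat_lit 16176963) (nat_lit 31) (nat_lit 5) (nat_lit 34) (nat_lit 5) (nat_lit 32) (nat_lit 4) (nat_lit 506) (nat_lit 354) (nat_lit 280)) (XT.nd (nat_lit 78) (nat_lit 76) (nat_lit 0) (XT.lf (nat_lit 0) (nat_lit 2027045857)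 (nat_lit 152) (nat_lit 15747279048) (nat_lit 228) (nat_lit 1739593491) (nat_lit 29) (nat_lit 5) (nat_lit 31) (nat_lit 5) (nat_lit 32) (nat_lit 4) (nat_lit 507) (nat_lit 354) (nat_lit 279)) (XT.lf (nat_lit 0) (nat_lit 1590826303) (nat_lit 228) (nat_lit 10610106857) (nat_lit 76) (nat_lit 7618209489) (nat_lit 28) (nat_lit 5) (nat_lit 31) (nat_lit 5) (nat_lit 29) (nat_lit 5) (nat_lit 508) (nat_lit 354) (nat_lit 278)))) (XT.nd (nat_lit 156) (nat_lit 0) (nat_lit 0) (XT.nd (nat_lit 78) (nat_lit 152) (nat_lit 0) (XT.lf (nat_lit 0) (nat_lit 4939114930) (nat_lit 228) (nat_lit 3651059820) (nat_lit 76) (nat_lit 11540585353) (nat_lit 28) (nat_lit 5) (nat_lit 31) (nat_lit 5) (nat_lit 29) (nat_lit 5) (nat_lit 509) (nat_lit 354) (nat_lit 277)) (XT.lf (nat_lit 0) (nat_lit 3449533456) (nat_lit 152) (nat_lit 4902263727) (nat_lit 228) (nat_lit 12096873737) (nat_lit 26) (nat_lit 5) (nat_lit 28) (nat_lit 5) (nat_lit 29) (nat_lit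 5) (nat_lit 510) (nat_lit 354) (nat_lit 276))) (XT.nd (nat_lit 78) (nat_lit 0) (nat_lit 0) (XT.lf (nat_lit 0) (nat_lit 10699035800) (nat_lit 152) (nat_lit 1133442046) (nat_lit 228) (nat_lit 8940476594) (nat_lit 26) (nat_lit 5) (nat_lit 28) (nat_lit 5) (nat_lit 29) (nat_lit 5) (nat_lit 511) (nat_lit 354) (nat_lit 275)) (XT.lf (nat_lit 0) (nat_lit 15375988244) (nat_lit 228) (nat_lit 3069935229) (nat_lit 76) (nat_lit 2657945037) (nat_lit 26) (nat_lit 5) (nat_lit 29) (nat_lit 5) (nat_lit 27) (nat_lit 4) (nat_lit 512) (nat_lit 354) (nat_lit 274))))) (XT.nd (nat_lit 234) (nat_lit 228) (nat_lit 0) (XT.nd (nat_lit 78) (nat_lit 76) (nat_lit 0) (XT.lf (nat_lit 0) (nat_lit 4078802347) (nat_lit 152) (nat_lit 14921649240) (nat_lit 228) (nat_lit 2440756638) (nat_lit 24) (nat_lit 5) (nat_lit 26) (nat_lit 5) (nat_lit 27) (nat_lit 4) (nat_lit 513) (nat_lit 354) (nat_lit 273)) (XT.nd (nat_lit 78) (nat_lit 0) (nat_lit 0)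 (XT.lf (nat_lit 0) (nat_lit 897015070) (nat_lit 228) (nat_lit 10420180281) (nat_lit 76) (nat_lit 10468052249) (nat_lit 23) (nat_lit 5) (nat_lit 26) (nat_lit 5) (nat_lit 24) (nat_lit 5) (nat_lit 514) (nat_lit 354) (nat_lit 272)) (XT.lf (nat_lit 0) (nat_lit 4245489833) (nat_lit 228) (nat_lit 3395830564) (nat_lit 76) (nat_lit 14495000610) (nat_lit 23) (nat_lit 5) (nat_lit 26) (nat_lit 5) (nat_lit 24) (nat_lit 5) (nat_lit 515) (nat_lit 354) (nat_lit 271)))) (XT.nd (nat_lit 156) (nat_lit 76) (nat_lit 0) (XT.nd (nat_lit 78) (nat_lit 0) (nat_lit 0) (XT.lf (nat_lit 0) (nat_lit 3778804632) (nat_lit 152) (nat_lit 3883721613) (nat_lit 228) (nat_lit 14831866126) (nat_lit 21) (nat_lit 5) (nat_lit 23) (nat_lit 5) (nat_lit 24) (nat_lit 5) (nat_lit 516) (nat_lit 354) (nat_lit 270)) (XT.lf (nat_lit 0) (nat_lit 11103464280) (nat_lit 152) (nat_lit 44477957) (nat_lit 228) (nat_lit 11711690317) (nat_lit 21) (nat_lit 5) (nat_lit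 23) (nat_lit 5) (nat_lit 24) (nat_lit 5) (nat_lit 517) (nat_lit 354) (nat_lit 269))) (XT.nd (nat_lit 78) (nat_lit 76) (nat_lit 0) (XT.lf (nat_lit 0) (nat_lit 14705793696) (nat_lit 228) (nat_lit 4721769665) (nat_lit 76) (nat_lit 3804567644) (nat_lit 21) (nat_lit 5) (nat_lit 24) (nat_lit 5) (nat_lit 22) (nat_lit 4) (nat_lit 518) (nat_lit 354) (nat_lit 268)) (XT.lf (nat_lit 0) (nat_lit 2446806222) (nat_lit 76) (nat_lit 15882206684) (nat_lit 152) (nat_lit 5283190158) (nat_lit 20) (nat_lit 5) (nat_lit 21) (nat_lit 5) (nat_lit 22) (nat_lit 4) (nat_lit 519) (nat_lit 354) (nat_lit 267))))))))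
noncomputable def xc46 : XT := (XT.nd (nat_lit 53664) (nat_lit 0) (nat_lit 4712) (XT.nd (nat_lit 52572) (nat_lit 0) (nat_lit 11628) (XT.nd (nat_lit 468) (nat_lit 152) (nat_lit 0) (XT.nd (nat_lit 234) (nat_lit 152) (nat_lit 0) (XT.nd (nat_lit 78) (nat_lit 76) (nat_lit 0) (XT.lf (nat_lit 0) (nat_lit 9784704033) (nat_lit 76) (nat_lit 12249891617) (nat_lit 152) (nat_lit 1965090629) (nat_lit 20) (nat_lit 5) (nat_lit 21) (nat_lit 5) (nat_lit 22) (nat_lit 4) (nat_lit 520) (nat_lit 354) (nat_lit 266)) (XT.nd (nat_lit 78) (nat_lit 0) (nat_lit 0) (XT.lf (nat_lit 0) (nat_lit 1379247460) (nat_lit 152) (nat_lit 7172376346) (nat_lit 76) (nat_lit 15843548603) (nat_lit 19) (nat_lit 5) (nat_lit 21) (nat_lit 5) (nat_lit 20) (nat_lit 5) (nat_lit 521) (nat_lit 354) (nat_lit 265)) (XT.lf (nat_lit 0) (nat_lit 4743097945) (nat_lit 152) (nat_lit 38796379) (nat_lit 76) (nat_lit 20016842642) (nat_lit 19) (nat_lit 5) (nat_lit 21)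 (nat_lit 5) (nat_lit 20) (nat_lit 5) (nat_lit 522) (nat_lit 354) (nat_lit 264)))) (XT.nd (nat_lit 78) (nat_lit 0) (nat_lit 0) (XT.lf (nat_lit 0) (nat_lit 7297015478) (nat_lit 152) (nat_lit 903914087) (nat_lit 228) (nat_lit 17008916278) (nat_lit 17) (nat_lit 5) (nat_lit 19) (nat_lit 5) (nat_lit 20) (nat_lit 5) (nat_lit 523) (nat_lit 354) (nat_lit 263)) (XT.nd (nat_lit 78) (nat_lit 0) (nat_lit 0) (XT.lf (nat_lit 0) (nat_lit 11727392362) (nat_lit 228) (nat_lit 10905137712) (nat_lit 76) (nat_lit 2996664305) (nat_lit 17) (nat_lit 5) (nat_lit 20) (nat_lit 5) (nat_lit 18) (nat_lit 4) (nat_lit 524) (nat_lit 354) (nat_lit 262)) (XT.lf (nat_lit 0) (nat_lit 15310173831) (nat_lit 228) (nat_lit 3798787771) (nat_lit 76) (nat_lit 6948259329) (nat_lit 17) (nat_lit 5) (nat_lit 20) (nat_lit 5) (nat_lit 18) (nat_lit 4) (nat_lit 525) (nat_lit 354) (nat_lit 261))))) (XT.nd (nat_lit 234) (nat_lit 76) (nat_lit 0) (XT.nd (nat_lit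 78) (nat_lit 0) (nat_lit 0) (XT.lf (nat_lit 0) (nat_lit 3460256963) (nat_lit 76) (nat_lit 15507019498) (nat_lit 152) (nat_lit 7526484947) (nat_lit 16) (nat_lit 5) (nat_lit 17) (nat_lit 5) (nat_lit 18) (nat_lit 4) (nat_lit 526) (nat_lit 354) (nat_lit 260)) (XT.nd (nat_lit 78) (nat_lit 0) (nat_lit 0) (XT.lf (nat_lit 0) (nat_lit 10881391103) (nat_lit 76) (nat_lit 11821984853) (nat_lit 152) (nat_lit 4235546210) (nat_lit 16) (nat_lit 5) (nat_lit 17) (nat_lit 5) (nat_lit 18) (nat_lit 4) (nat_lit 527) (nat_lit 354) (nat_lit 259)) (XT.lf (nat_lit 0) (nat_lit 18417041008) (nat_lit 76) (nat_lit 8077904421) (nat_lit 152) (nat_lit 898432192) (nat_lit 16) (nat_lit 5) (nat_lit 17) (nat_lit 5) (nat_lit 18) (nat_lit 4) (nat_lit 528) (nat_lit 354) (nat_lit 258)))) (XT.nd (nat_lit 51714) (nat_lit 0) (nat_lit 17936) (XT.nd (nat_lit 51636) (nat_lit 0) (nat_lit 18696) (XT.lf (nat_lit 0) (nat_lit 2453559268) (nat_lit 152)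 (nat_lit 1803285994) (nat_lit 76) (nat_lit 23600137892) (nat_lit 15) (nat_lit 5) (nat_lit 17) (nat_lit 5) (nat_lit 16) (nat_lit 5) (nat_lit 529) (nat_lit 354) (nat_lit 257)) (XT.lf (nat_lit 0) (nat_lit 2373524111) (nat_lit 760) (nat_lit 758539687) (nat_lit 760) (nat_lit 758539687) (nat_lit 261) (nat_lit 4) (nat_lit 271) (nat_lit 5) (nat_lit 271) (nat_lit 4) (nat_lit 430) (nat_lit 355) (nat_lit 355))) (XT.nd (nat_lit 78) (nat_lit 0) (nat_lit 0) (XT.lf (nat_lit 0) (nat_lit 1809453317) (nat_lit 760) (nat_lit 5521158827) (nat_lit 0) (nat_lit 507919445) (nat_lit 251) (nat_lit 5) (nat_lit 261) (nat_lit 4) (nat_lit 251) (nat_lit 4) (nat_lit 431) (nat_lit 355) (nat_lit 354)) (XT.lf (nat_lit 0) (nat_lit 5151597901) (nat_lit 760) (nat_lit 171833890) (nat_lit 0) (nat_lit 2574050430) (nat_lit 251) (nat_lit 5) (nat_lit 261) (nat_lit 4) (nat_lit 251) (nat_lit 4) (nat_lit 432) (nat_lit 355) (nat_lit 353)))))) (XT.nd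 (nat_lit 546) (nat_lit 2888) (nat_lit 0) (XT.nd (nat_lit 234) (nat_lit 1368) (nat_lit 0) (XT.nd (nat_lit 78) (nat_lit 1292) (nat_lit 0) (XT.lf (nat_lit 0) (nat_lit 569163849) (nat_lit 760) (nat_lit 2678830218) (nat_lit 76) (nat_lit 4710122871) (nat_lit 241) (nat_lit 5) (nat_lit 251) (nat_lit 5) (nat_lit 242) (nat_lit 4) (nat_lit 433) (nat_lit 355) (nat_lit 352)) (XT.nd (nat_lit 78) (nat_lit 684) (nat_lit 0) (XT.lf (nat_lit 0) (nat_lit 2768886914) (nat_lit 608) (nat_lit 1104327217) (nat_lit 684) (nat_lit 4147261901) (nat_lit 233) (nat_lit 5) (nat_lit 241) (nat_lit 5) (nat_lit 242) (nat_lit 4) (nat_lit 434) (nat_lit 355) (nat_lit 351)) (XT.lf (nat_lit 0) (nat_lit 201897434) (nat_lit 684) (nat_lit 7008813780) (nat_lit 684) (nat_lit 874086579) (nat_lit 224) (nat_lit 4) (nat_lit 233) (nat_lit 5) (nat_lit 233) (nat_lit 4) (nat_lit 435) (nat_lit 355) (nat_lit 350)))) (XT.nd (nat_lit 156) (nat_lit 684) (nat_lit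 0) (XT.nd (nat_lit 78) (nat_lit 608) (nat_lit 0) (XT.lf (nat_lit 0) (nat_lit 2416198072) (nat_lit 760) (nat_lit 2409731925) (nat_lit 76) (nat_lit 3324536950) (nat_lit 223) (nat_lit 5) (nat_lit 233) (nat_lit 5) (nat_lit 224) (nat_lit 4) (nat_lit 436) (nat_lit 355) (nat_lit 349)) (XT.lf (nat_lit 0) (nat_lit 3137552130) (nat_lit 608) (nat_lit 2585748721) (nat_lit 684) (nat_lit 2494837928) (nat_lit 215) (nat_lit 5) (nat_lit 223) (nat_lit 5) (nat_lit 224) (nat_lit 4) (nat_lit 437) (nat_lit 355) (nat_lit 348))) (XT.nd (nat_lit 78) (nat_lit 0) (nat_lit 0) (XT.lf (nat_lit 0) (nat_lit 471362142) (nat_lit 608) (nat_lit 289316757) (nat_lit 684) (nat_lit 7527198683) (nat_lit 206) (nat_lit 5) (nat_lit 214) (nat_lit 5) (nat_lit 215) (nat_lit 5) (nat_lit 438) (nat_lit 355) (nat_lit 347)) (XT.lf (nat_lit 0) (nat_lit 4038732510) (nat_lit 684) (nat_lit 2256885366) (nat_lit 76) (nat_lit 2063302586) (nat_lit 206) (nat_lit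 5) (nat_lit 215) (nat_lit 5) (nat_lit 207) (nat_lit 4) (nat_lit 439) (nat_lit 355) (nat_lit 346))))) (XT.nd (nat_lit 234) (nat_lit 1672) (nat_lit 0) (XT.nd (nat_lit 78) (nat_lit 684) (nat_lit 0) (XT.lf (nat_lit 0) (nat_lit 3386139901) (nat_lit 532) (nat_lit 3964375210) (nat_lit 608) (nat_lit 1081560404) (nat_lit 199) (nat_lit 5) (nat_lit 206) (nat_lit 5) (nat_lit 207) (nat_lit 4) (nat_lit 440) (nat_lit 355) (nat_lit 345)) (XT.nd (nat_lit 78) (nat_lit 0) (nat_lit 0) (XT.lf (nat_lit 0) (nat_lit 588804841) (nat_lit 608) (nat_lit 1567451645) (nat_lit 684) (nat_lit 6350930088) (nat_lit 190) (nat_lit 5) (nat_lit 198) (nat_lit 5) (nat_lit 199) (nat_lit 5) (nat_lit 441) (nat_lit 355) (nat_lit 344)) (XT.lf (nat_lit 0) (nat_lit 5429165327) (nat_lit 684) (nat_lit 2262771543) (nat_lit 76) (nat_lit 892075166) (nat_lit 190) (nat_lit 5) (nat_lit 199) (nat_lit 5) (nat_lit 191) (nat_lit 4) (nat_lit 442) (nat_lit 355)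 (nat_lit 343)))) (XT.nd (nat_lit 156) (nat_lit 532) (nat_lit 0) (XT.nd (nat_lit 78) (nat_lit 532) (nat_lit 0) (XT.lf (nat_lit 0) (nat_lit 82609056) (nat_lit 608) (nat_lit 5192098882) (nat_lit 76) (nat_lit 3388125337) (nat_lit 182) (nat_lit 5) (nat_lit 190) (nat_lit 5) (nat_lit 183) (nat_lit 5) (nat_lit 443) (nat_lit 355) (nat_lit 342)) (XT.lf (nat_lit 0) (nat_lit 522402410) (nat_lit 532) (nat_lit 2785189445) (nat_lit 608) (nat_lit 5435970135) (nat_lit 175) (nat_lit 5) (nat_lit 182) (nat_lit 5) (nat_lit 183) (nat_lit 5) (nat_lit 444) (nat_lit 355) (nat_lit 341))) (XT.nd (nat_lit 78) (nat_lit 532) (nat_lit 0) (XT.lf (nat_lit 0) (nat_lit 6351924184) (nat_lit 532) (nat_lit 226897569) (nat_lit 608) (nat_lit 2247496173) (nat_lit 175) (nat_lit 5) (nat_lit 182) (nat_lit 5) (nat_lit 183) (nat_lit 5) (nat_lit 445) (nat_lit 355) (nat_lit 340)) (XT.lf (nat_lit 0) (nat_lit 976462703) (nat_lit 532) (nat_lit 5571037764)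 (nat_lit 76) (nat_lit 2363445934) (nat_lit 168) (nat_lit 5) (nat_lit 175) (nat_lit 5) (nat_lit 169) (nat_lit 5) (nat_lit 446) (nat_lit 355) (nat_lit 339))))))) (XT.nd (nat_lit 1092) (nat_lit 2736) (nat_lit 0) (XT.nd (nat_lit 546) (nat_lit 2128) (nat_lit 0) (XT.nd (nat_lit 234) (nat_lit 988) (nat_lit 0) (XT.nd (nat_lit 78) (nat_lit 532) (nat_lit 0) (XT.lf (nat_lit 0) (nat_lit 223997586) (nat_lit 532) (nat_lit 3978539356) (nat_lit 608) (nat_lit 4795123634) (nat_lit 161) (nat_lit 5) (nat_lit 168) (nat_lit 5) (nat_lit 169) (nat_lit 5) (nat_lit 447) (nat_lit 355) (nat_lit 338)) (XT.nd (nat_lit 78) (nat_lit 532) (nat_lit 0) (XT.lf (nat_lit 0) (nat_lit 6141361799) (nat_lit 532) (nat_lit 1337756507) (nat_lit 608) (nat_lit 1607314987) (nat_lit 161) (nat_lit 5) (nat_lit 168) (nat_lit 5) (nat_lit 169) (nat_lit 5) (nat_lit 448) (nat_lit 355) (nat_lit 337)) (XT.lf (nat_lit 0) (nat_lit 1600020858) (nat_lit 532) (nat_lit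 6226544027) (nat_lit 76) (nat_lit 1350698619) (nat_lit 154) (nat_lit 5) (nat_lit 161) (nat_lit 5) (nat_lit 155) (nat_lit 5) (nat_lit 449) (nat_lit 355) (nat_lit 336)))) (XT.nd (nat_lit 156) (nat_lit 532) (nat_lit 0) (XT.nd (nat_lit 78) (nat_lit 456) (nat_lit 0) (XT.lf (nat_lit 0) (nat_lit 4828425819) (nat_lit 532) (nat_lit 353733105) (nat_lit 76) (nat_lit 4088011456) (nat_lit 154) (nat_lit 5) (nat_lit 161) (nat_lit 5) (nat_lit 155) (nat_lit 5) (nat_lit 450) (nat_lit 355) (nat_lit 335)) (XT.lf (nat_lit 0) (nat_lit 5642963230) (nat_lit 456) (nat_lit 2465731405) (nat_lit 532) (nat_lit 1256535467) (nat_lit 148) (nat_lit 5) (nat_lit 154) (nat_lit 5) (nat_lit 155) (nat_lit 5) (nat_lit 451) (nat_lit 355) (nat_lit 334))) (XT.nd (nat_lit 78) (nat_lit 0) (nat_lit 0) (XT.lf (nat_lit 0) (nat_lit 1936136318) (nat_lit 532) (nat_lit 7213684069) (nat_lit 76) (nat_lit 312753181) (nat_lit 141) (nat_lit 5) (nat_lit 148)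 (nat_lit 5) (nat_lit 142) (nat_lit 5) (nat_lit 452) (nat_lit 355) (nat_lit 333)) (XT.lf (nat_lit 0) (nat_lit 5168557405) (nat_lit 532) (nat_lit 1264525773) (nat_lit 76) (nat_lit 3128798476) (nat_lit 141) (nat_lit 5) (nat_lit 148) (nat_lit 5) (nat_lit 142) (nat_lit 5) (nat_lit 453) (nat_lit 355) (nat_lit 332))))) (XT.nd (nat_lit 234) (nat_lit 1216) (nat_lit 0) (XT.nd (nat_lit 78) (nat_lit 456) (nat_lit 0) (XT.lf (nat_lit 0) (nat_lit 4799631812) (nat_lit 456) (nat_lit 3649345739) (nat_lit 532) (nat_lit 1214568866) (nat_lit 135) (nat_lit 5) (nat_lit 141) (nat_lit 5) (nat_lit 142) (nat_lit 5) (nat_lit 454) (nat_lit 355) (nat_lit 331)) (XT.nd (nat_lit 78) (nat_lit 0) (nat_lit 0) (XT.lf (nat_lit 0) (nat_lit 1170102137) (nat_lit 380) (nat_lit 799548366) (nat_lit 456) (nat_lit 7797997067) (nat_lit 129) (nat_lit 5) (nat_lit 134) (nat_lit 5) (nat_lit 135) (nat_lit 5) (nat_lit 455) (nat_lit 355) (nat_lit 330)) (XT.lf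 (nat_lit 0) (nat_lit 5200562238) (nat_lit 456) (nat_lit 2571958924) (nat_lit 76) (nat_lit 2101198961) (nat_lit 129) (nat_lit 5) (nat_lit 135) (nat_lit 5) (nat_lit 130) (nat_lit 5) (nat_lit 456) (nat_lit 355) (nat_lit 329)))) (XT.nd (nat_lit 156) (nat_lit 760) (nat_lit 0) (XT.nd (nat_lit 78) (nat_lit 76) (nat_lit 0) (XT.lf (nat_lit 0) (nat_lit 3549146364) (nat_lit 380) (nat_lit 4928930003) (nat_lit 456) (nat_lit 1504232749) (nat_lit 124) (nat_lit 5) (nat_lit 129) (nat_lit 5) (nat_lit 130) (nat_lit 5) (nat_lit 457) (nat_lit 355) (nat_lit 328)) (XT.lf (nat_lit 0) (nat_lit 1676570438) (nat_lit 456) (nat_lit 342978675) (nat_lit 76) (nat_lit 8073906434) (nat_lit 123) (nat_lit 5) (nat_lit 129) (nat_lit 5) (nat_lit 124) (nat_lit 5) (nat_lit 458) (nat_lit 355) (nat_lit 327))) (XT.nd (nat_lit 78) (nat_lit 380) (nat_lit 0) (XT.lf (nat_lit 0) (nat_lit 4900025348) (nat_lit 456) (nat_lit 4342255840) (nat_lit 76) (nat_lit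 964393984) (nat_lit 118) (nat_lit 5) (nat_lit 124) (nat_lit 5) (nat_lit 119) (nat_lit 5) (nat_lit 459) (nat_lit 355) (nat_lit 326)) (XT.lf (nat_lit 0) (nat_lit 1823502015) (nat_lit 380) (nat_lit 6347013057) (nat_lit 456) (nat_lit 2152024835) (nat_lit 113) (nat_lit 5) (nat_lit 118) (nat_lit 5) (nat_lit 119) (nat_lit 5) (nat_lit 460) (nat_lit 355) (nat_lit 325)))))) (XT.nd (nat_lit 546) (nat_lit 1292) (nat_lit 0) (XT.nd (nat_lit 234) (nat_lit 1064) (nat_lit 0) (XT.nd (nat_lit 78) (nat_lit 304) (nat_lit 0) (XT.lf (nat_lit 0) (nat_lit 1036216023) (nat_lit 456) (nat_lit 2341536466) (nat_lit 76) (nat_lit 7063171848) (nat_lit 112) (nat_lit 5) (nat_lit 118) (nat_lit 5) (nat_lit 113) (nat_lit 5) (nat_lit 461) (nat_lit 355) (nat_lit 324)) (XT.nd (nat_lit 78) (nat_lit 0) (nat_lit 0) (XT.lf (nat_lit 0) (nat_lit 3911734306) (nat_lit 304) (nat_lit 329143667) (nat_lit 380) (nat_lit 6320914731) (nat_lit 108) (nat_lit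 5) (nat_lit 112) (nat_lit 5) (nat_lit 113) (nat_lit 5) (nat_lit 462) (nat_lit 355) (nat_lit 323)) (XT.lf (nat_lit 0) (nat_lit 7499863108) (nat_lit 380) (nat_lit 445884720) (nat_lit 76) (nat_lit 2739555604) (nat_lit 108) (nat_lit 5) (nat_lit 113) (nat_lit 5) (nat_lit 109) (nat_lit 5) (nat_lit 463) (nat_lit 355) (nat_lit 322)))) (XT.nd (nat_lit 156) (nat_lit 304) (nat_lit 0) (XT.nd (nat_lit 78) (nat_lit 304) (nat_lit 0) (XT.lf (nat_lit 0) (nat_lit 10195954) (nat_lit 456) (nat_lit 4917438378) (nat_lit 76) (nat_lit 5883724438) (nat_lit 102) (nat_lit 5) (nat_lit 108) (nat_lit 5) (nat_lit 103) (nat_lit 5) (nat_lit 464) (nat_lit 355) (nat_lit 321)) (XT.lf (nat_lit 0) (nat_lit 1359726281) (nat_lit 304) (nat_lit 1836582594) (nat_lit 380) (nat_lit 7743848771) (nat_lit 98) (nat_lit 5) (nat_lit 102) (nat_lit 5) (nat_lit 103) (nat_lit 5) (nat_lit 465) (nat_lit 355) (nat_lit 320))) (XT.nd (nat_lit 78) (nat_lit 304)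 (nat_lit 0) (XT.lf (nat_lit 0) (nat_lit 6445533607) (nat_lit 380) (nat_lit 3314544145) (nat_lit 76) (nat_lit 1311494295) (nat_lit 98) (nat_lit 5) (nat_lit 103) (nat_lit 5) (nat_lit 99) (nat_lit 5) (nat_lit 466) (nat_lit 355) (nat_lit 319)) (XT.lf (nat_lit 0) (nat_lit 3041646367) (nat_lit 304) (nat_lit 6708464696) (nat_lit 380) (nat_lit 1455723110) (nat_lit 94) (nat_lit 5) (nat_lit 98) (nat_lit 5) (nat_lit 99) (nat_lit 5) (nat_lit 467) (nat_lit 355) (nat_lit 318))))) (XT.nd (nat_lit 234) (nat_lit 912) (nat_lit 0) (XT.nd (nat_lit 78) (nat_lit 304) (nat_lit 0) (XT.lf (nat_lit 0) (nat_lit 1735637978) (nat_lit 380) (nat_lit 1847044702) (nat_lit 76) (nat_lit 7760274579) (nat_lit 93) (nat_lit 5) (nat_lit 98) (nat_lit 5) (nat_lit 94) (nat_lit 5) (nat_lit 468) (nat_lit 355) (nat_lit 317)) (XT.nd (nat_lit 78) (nat_lit 0) (nat_lit 0) (XT.lf (nat_lit 0) (nat_lit 4585263772) (nat_lit 304) (nat_lit 375240146) (nat_lit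 380) (nat_lit 6522368304) (nat_lit 89) (nat_lit 5) (nat_lit 93) (nat_lit 5) (nat_lit 94) (nat_lit 5) (nat_lit 469) (nat_lit 355) (nat_lit 316)) (XT.lf (nat_lit 0) (nat_lit 8240791912) (nat_lit 380) (nat_lit 534929383) (nat_lit 76) (nat_lit 2850070455) (nat_lit 89) (nat_lit 5) (nat_lit 94) (nat_lit 5) (nat_lit 90) (nat_lit 5) (nat_lit 470) (nat_lit 355) (nat_lit 315)))) (XT.nd (nat_lit 156) (nat_lit 304) (nat_lit 0) (XT.nd (nat_lit 78) (nat_lit 304) (nat_lit 0) (XT.lf (nat_lit 0) (nat_lit 5970071431) (nat_lit 304) (nat_lit 5618295221) (nat_lit 380) (nat_lit 183193674) (nat_lit 85) (nat_lit 5) (nat_lit 89) (nat_lit 5) (nat_lit 90) (nat_lit 5) (nat_lit 471) (nat_lit 355) (nat_lit 314)) (XT.lf (nat_lit 0) (nat_lit 619443109) (nat_lit 228) (nat_lit 2390946593) (nat_lit 304) (nat_lit 8910114200) (nat_lit 81) (nat_lit 5) (nat_lit 84) (nat_lit 5) (nat_lit 85) (nat_lit 5) (nat_lit 472) (nat_lit 355) (nat_lit 313)))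 (XT.nd (nat_lit 78) (nat_lit 304) (nat_lit 0) (XT.lf (nat_lit 0) (nat_lit 6271209868) (nat_lit 304) (nat_lit 4892692295) (nat_lit 76) (nat_lit 908406480) (nat_lit 81) (nat_lit 5) (nat_lit 85) (nat_lit 5) (nat_lit 82) (nat_lit 5) (nat_lit 473) (nat_lit 355) (nat_lit 312)) (XT.lf (nat_lit 0) (nat_lit 1588888788) (nat_lit 304) (nat_lit 7996054291) (nat_lit 380) (nat_lit 2642474896) (nat_lit 77) (nat_lit 5) (nat_lit 81) (nat_lit 5) (nat_lit 82) (nat_lit 5) (nat_lit 474) (nat_lit 355) (nat_lit 311))))))))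
noncomputable def xc47 : XT := (XT.nd (nat_lit 2106) (nat_lit 1596) (nat_lit 0) (XT.nd (nat_lit 1014) (nat_lit 1444) (nat_lit 0) (XT.nd (nat_lit 468) (nat_lit 760) (nat_lit 0) (XT.nd (nat_lit 234) (nat_lit 608) (nat_lit 0) (XT.nd (nat_lit 78) (nat_lit 228) (nat_lit 0) (XT.lf (nat_lit 0) (nat_lit 566413302) (nat_lit 380) (nat_lit 4182624526) (nat_lit 76) (nat_lit 7636644200) (nat_lit 76) (nat_lit 5) (nat_lit 81) (nat_lit 5) (nat_lit 77) (nat_lit 5) (nat_lit 475) (nat_lit 355) (nat_lit 310)) (XT.nd (nat_lit 78) (nat_lit 0) (nat_lit 0) (XT.lf (nat_lit 0) (nat_lit 2356891672) (nat_lit 228) (nat_lit 1424932363) (nat_lit 304) (nat_lit 8765404573) (nat_lit 73) (nat_lit 5) (nat_lit 76) (nat_lit 5) (nat_lit 77) (nat_lit 5) (nat_lit 476) (nat_lit 355) (nat_lit 309)) (XT.lf (nat_lit 0) (nat_lit 7065169979) (nat_lit 304) (nat_lit 3699655949) (nat_lit 76) (nat_lit 1947128371) (nat_lit 73) (nat_lit 5) (nat_lit 77)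 (nat_lit 5) (nat_lit 74) (nat_lit 5) (nat_lit 477) (nat_lit 355) (nat_lit 308)))) (XT.nd (nat_lit 78) (nat_lit 304) (nat_lit 0) (XT.lf (nat_lit 0) (nat_lit 2891324480) (nat_lit 304) (nat_lit 7514411678) (nat_lit 380) (nat_lit 2474427593) (nat_lit 69) (nat_lit 5) (nat_lit 73) (nat_lit 5) (nat_lit 74) (nat_lit 5) (nat_lit 478) (nat_lit 355) (nat_lit 307)) (XT.nd (nat_lit 78) (nat_lit 228) (nat_lit 0) (XT.lf (nat_lit 0) (nat_lit 739810551) (nat_lit 380) (nat_lit 3450196056) (nat_lit 76) (nat_lit 8861883044) (nat_lit 68) (nat_lit 5) (nat_lit 73) (nat_lit 5) (nat_lit 69) (nat_lit 5) (nat_lit 479) (nat_lit 355) (nat_lit 306)) (XT.lf (nat_lit 0) (nat_lit 3187657679) (nat_lit 228) (nat_lit 782416449) (nat_lit 304) (nat_lit 9256970497) (nat_lit 65) (nat_lit 5) (nat_lit 68) (nat_lit 5) (nat_lit 69) (nat_lit 5) (nat_lit 480) (nat_lit 355) (nat_lit 305))))) (XT.nd (nat_lit 234) (nat_lit 456) (nat_lit 0) (XT.nd (nat_lit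 78) (nat_lit 304) (nat_lit 0) (XT.lf (nat_lit 0) (nat_lit 7270080260) (nat_lit 304) (nat_lit 3475042469) (nat_lit 76) (nat_lit 2660495990) (nat_lit 65) (nat_lit 5) (nat_lit 69) (nat_lit 5) (nat_lit 66) (nat_lit 5) (nat_lit 481) (nat_lit 355) (nat_lit 304)) (XT.nd (nat_lit 78) (nat_lit 76) (nat_lit 0) (XT.lf (nat_lit 0) (nat_lit 3201315271) (nat_lit 228) (nat_lit 7425781465) (nat_lit 304) (nat_lit 2960865752) (nat_lit 62) (nat_lit 5) (nat_lit 65) (nat_lit 5) (nat_lit 66) (nat_lit 5) (nat_lit 482) (nat_lit 355) (nat_lit 303)) (XT.lf (nat_lit 0) (nat_lit 262257518) (nat_lit 304) (nat_lit 3773326486) (nat_lit 76) (nat_lit 9738578925) (nat_lit 61) (nat_lit 5) (nat_lit 65) (nat_lit 5) (nat_lit 62) (nat_lit 5) (nat_lit 483) (nat_lit 355) (nat_lit 302)))) (XT.nd (nat_lit 156) (nat_lit 228) (nat_lit 0) (XT.nd (nat_lit 78) (nat_lit 0) (nat_lit 0) (XT.lf (nat_lit 0) (nat_lit 2936070975) (nat_lit 228) (nat_lit 559030345)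 (nat_lit 304) (nat_lit 10468913888) (nat_lit 58) (nat_lit 5) (nat_lit 61) (nat_lit 5) (nat_lit 62) (nat_lit 5) (nat_lit 484) (nat_lit 355) (nat_lit 301)) (XT.lf (nat_lit 0) (nat_lit 6803468558) (nat_lit 304) (nat_lit 4401200169) (nat_lit 76) (nat_lit 2952795470) (nat_lit 58) (nat_lit 5) (nat_lit 62) (nat_lit 5) (nat_lit 59) (nat_lit 5) (nat_lit 485) (nat_lit 355) (nat_lit 300))) (XT.nd (nat_lit 78) (nat_lit 0) (nat_lit 0) (XT.lf (nat_lit 0) (nat_lit 2330743483) (nat_lit 228) (nat_lit 7832745485) (nat_lit 304) (nat_lit 4191600144) (nat_lit 55) (nat_lit 5) (nat_lit 58) (nat_lit 5) (nat_lit 59) (nat_lit 5) (nat_lit 486) (nat_lit 355) (nat_lit 299)) (XT.lf (nat_lit 0) (nat_lit 9203140800) (nat_lit 228) (nat_lit 4384058576) (nat_lit 304) (nat_lit 969553697) (nat_lit 55) (nat_lit 5) (nat_lit 58) (nat_lit 5) (nat_lit 59) (nat_lit 5) (nat_lit 487) (nat_lit 355) (nat_lit 298)))))) (XT.nd (nat_lit 546) (nat_lit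 684) (nat_lit 0) (XT.nd (nat_lit 234) (nat_lit 228) (nat_lit 0) (XT.nd (nat_lit 78) (nat_lit 228) (nat_lit 0) (XT.lf (nat_lit 0) (nat_lit 1400623953) (nat_lit 228) (nat_lit 862389301) (nat_lit 304) (nat_lit 12499622567) (nat_lit 51) (nat_lit 5) (nat_lit 54) (nat_lit 5) (nat_lit 55) (nat_lit 5) (nat_lit 488) (nat_lit 355) (nat_lit 297)) (XT.nd (nat_lit 78) (nat_lit 228) (nat_lit 0) (XT.lf (nat_lit 0) (nat_lit 5568683636) (nat_lit 304) (nat_lit 6687201547) (nat_lit 76) (nat_lit 2716209572) (nat_lit 51) (nat_lit 5) (nat_lit 55) (nat_lit 5) (nat_lit 52) (nat_lit 5) (nat_lit 489) (nat_lit 355) (nat_lit 296)) (XT.lf (nat_lit 0) (nat_lit 63862288) (nat_lit 228) (nat_lit 8850903210) (nat_lit 304) (nat_lit 6271506501) (nat_lit 48) (nat_lit 5) (nat_lit 51) (nat_lit 5) (nat_lit 52) (nat_lit 5) (nat_lit 490) (nat_lit 355) (nat_lit 295)))) (XT.nd (nat_lit 156) (nat_lit 152) (nat_lit 0) (XT.nd (nat_lit 78) (nat_lit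 76) (nat_lit 0) (XT.lf (nat_lit 0) (nat_lit 6988569642) (nat_lit 228) (nat_lit 5352532543) (nat_lit 304) (nat_lit 3063378736) (nat_lit 48) (nat_lit 5) (nat_lit 51) (nat_lit 5) (nat_lit 52) (nat_lit 5) (nat_lit 491) (nat_lit 355) (nat_lit 294)) (XT.lf (nat_lit 0) (nat_lit 175029571) (nat_lit 304) (nat_lit 1628071802) (nat_lit 76) (nat_lit 13824562583) (nat_lit 47) (nat_lit 5) (nat_lit 51) (nat_lit 5) (nat_lit 48) (nat_lit 5) (nat_lit 492) (nat_lit 355) (nat_lit 293))) (XT.nd (nat_lit 78) (nat_lit 0) (nat_lit 0) (XT.lf (nat_lit 0) (nat_lit 3453100123) (nat_lit 228) (nat_lit 10572625926) (nat_lit 76) (nat_lit 1828875315) (nat_lit 45) (nat_lit 5) (nat_lit 48) (nat_lit 5) (nat_lit 46) (nat_lit 5) (nat_lit 493) (nat_lit 355) (nat_lit 292)) (XT.lf (nat_lit 0) (nat_lit 6789283902) (nat_lit 228) (nat_lit 3796162237) (nat_lit 76) (nat_lit 5500794013) (nat_lit 45) (nat_lit 5) (nat_lit 48) (nat_lit 5) (nat_lit 46)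 (nat_lit 5) (nat_lit 494) (nat_lit 355) (nat_lit 291))))) (XT.nd (nat_lit 234) (nat_lit 228) (nat_lit 0) (XT.nd (nat_lit 78) (nat_lit 228) (nat_lit 0) (XT.lf (nat_lit 0) (nat_lit 3106988887) (nat_lit 228) (nat_lit 7075584098) (nat_lit 304) (nat_lit 6140144501) (nat_lit 42) (nat_lit 5) (nat_lit 45) (nat_lit 5) (nat_lit 46) (nat_lit 5) (nat_lit 495) (nat_lit 355) (nat_lit 290)) (XT.nd (nat_lit 78) (nat_lit 228) (nat_lit 0) (XT.lf (nat_lit 0) (nat_lit 10150396712) (nat_lit 228) (nat_lit 3489278664) (nat_lit 304) (nat_lit 2924343180) (nat_lit 42) (nat_lit 5) (nat_lit 45) (nat_lit 5) (nat_lit 46) (nat_lit 5) (nat_lit 496) (nat_lit 355) (nat_lit 289)) (XT.lf (nat_lit 0) (nat_lit 326075870) (nat_lit 228) (nat_lit 16331825935) (nat_lit 76) (nat_lit 152710916) (nat_lit 39) (nat_lit 5) (nat_lit 42) (nat_lit 5) (nat_lit 40) (nat_lit 5) (nat_lit 497) (nat_lit 355) (nat_lit 288)))) (XT.nd (nat_lit 156) (nat_lit 228)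 (nat_lit 0) (XT.nd (nat_lit 78) (nat_lit 0) (nat_lit 0) (XT.lf (nat_lit 0) (nat_lit 3639793383) (nat_lit 228) (nat_lit 9556897186) (nat_lit 76) (nat_lit 3864325043) (nat_lit 39) (nat_lit 5) (nat_lit 42) (nat_lit 5) (nat_lit 40) (nat_lit 5) (nat_lit 498) (nat_lit 355) (nat_lit 287)) (XT.lf (nat_lit 0) (nat_lit 6991333113) (nat_lit 228) (nat_lit 2694353954) (nat_lit 76) (nat_lit 7631320675) (nat_lit 39) (nat_lit 5) (nat_lit 42) (nat_lit 5) (nat_lit 40) (nat_lit 5) (nat_lit 499) (nat_lit 355) (nat_lit 286))) (XT.nd (nat_lit 78) (nat_lit 0) (nat_lit 0) (XT.lf (nat_lit 0) (nat_lit 4315088111) (nat_lit 228) (nat_lit 6094937693) (nat_lit 304) (nat_lit 7168103369) (nat_lit 36) (nat_lit 5) (nat_lit 39) (nat_lit 5) (nat_lit 40) (nat_lit 5) (nat_lit 500) (nat_lit 355) (nat_lit 285)) (XT.lf (nat_lit 0) (nat_lit 11454605358) (nat_lit 228) (nat_lit 2432917427) (nat_lit 304) (nat_lit 3957153305) (nat_lit 36) (nat_lit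 5) (nat_lit 39) (nat_lit 5) (nat_lit 40) (nat_lit 5) (nat_lit 501) (nat_lit 355) (nat_lit 284))))))) (XT.nd (nat_lit 1092) (nat_lit 608) (nat_lit 0) (XT.nd (nat_lit 546) (nat_lit 380) (nat_lit 0) (XT.nd (nat_lit 234) (nat_lit 380) (nat_lit 0) (XT.nd (nat_lit 78) (nat_lit 76) (nat_lit 0) (XT.lf (nat_lit 0) (nat_lit 573267187) (nat_lit 152) (nat_lit 16846251435) (nat_lit 228) (nat_lit 697347783) (nat_lit 34) (nat_lit 5) (nat_lit 36) (nat_lit 5) (nat_lit 37) (nat_lit 4) (nat_lit 502) (nat_lit 355) (nat_lit 283)) (XT.nd (nat_lit 78) (nat_lit 0) (nat_lit 0) (XT.lf (nat_lit 0) (nat_lit 2625286033) (nat_lit 228) (nat_lit 10710831670) (nat_lit 76) (nat_lit 5057410722) (nat_lit 33) (nat_lit 5) (nat_lit 36) (nat_lit 5) (nat_lit 34) (nat_lit 5) (nat_lit 503) (nat_lit 355) (nat_lit 282)) (XT.lf (nat_lit 0) (nat_lit 5978394342) (nat_lit 228) (nat_lit 3791343857) (nat_lit 76) (nat_lit 8906436889) (nat_lit 33) (nat_lit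 5) (nat_lit 36) (nat_lit 5) (nat_lit 34) (nat_lit 5) (nat_lit 504) (nat_lit 355) (nat_lit 281)))) (XT.nd (nat_lit 156) (nat_lit 228) (nat_lit 0) (XT.nd (nat_lit 78) (nat_lit 0) (nat_lit 0) (XT.lf (nat_lit 0) (nat_lit 3264925473) (nat_lit 152) (nat_lit 6128710517) (nat_lit 228) (nat_lit 9570947838) (nat_lit 31) (nat_lit 5) (nat_lit 33) (nat_lit 5) (nat_lit 34) (nat_lit 5) (nat_lit 505) (nat_lit 355) (nat_lit 280)) (XT.lf (nat_lit 0) (nat_lit 10469576823) (nat_lit 152) (nat_lit 2407146405) (nat_lit 228) (nat_lit 6382057060) (nat_lit 31) (nat_lit 5) (nat_lit 33) (nat_lit 5) (nat_lit 34) (nat_lit 5) (nat_lit 506) (nat_lit 355) (nat_lit 279))) (XT.nd (nat_lit 78) (nat_lit 228) (nat_lit 0) (XT.lf (nat_lit 0) (nat_lit 16412980177) (nat_lit 228) (nat_lit 1793229376) (nat_lit 76) (nat_lit 1352991120) (nat_lit 31) (nat_lit 5) (nat_lit 34) (nat_lit 5) (nat_lit 32) (nat_lit 4) (nat_lit 507) (nat_lit 355) (nat_lit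 278)) (XT.lf (nat_lit 0) (nat_lit 178163761) (nat_lit 228) (nat_lit 14512170743) (nat_lit 76) (nat_lit 5174767583) (nat_lit 28) (nat_lit 5) (nat_lit 31) (nat_lit 5) (nat_lit 29) (nat_lit 5) (nat_lit 508) (nat_lit 355) (nat_lit 277))))) (XT.nd (nat_lit 234) (nat_lit 228) (nat_lit 0) (XT.nd (nat_lit 78) (nat_lit 152) (nat_lit 0) (XT.lf (nat_lit 0) (nat_lit 3514091594) (nat_lit 228) (nat_lit 7574349425) (nat_lit 76) (nat_lit 9088530477) (nat_lit 28) (nat_lit 5) (nat_lit 31) (nat_lit 5) (nat_lit 29) (nat_lit 5) (nat_lit 509) (nat_lit 355) (nat_lit 276)) (XT.nd (nat_lit 78) (nat_lit 152) (nat_lit 0) (XT.lf (nat_lit 0) (nat_lit 6892258762) (nat_lit 228) (nat_lit 539806929) (nat_lit 76) (nat_lit 13063511569) (nat_lit 28) (nat_lit 5) (nat_lit 31) (nat_lit 5) (nat_lit 29) (nat_lit 5) (nat_lit 510) (nat_lit 355) (nat_lit 275)) (XT.lf (nat_lit 0) (nat_lit 6681849041) (nat_lit 152) (nat_lit 3675523993) (nat_lit 228)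 (nat_lit 10462803629) (nat_lit 26) (nat_lit 5) (nat_lit 28) (nat_lit 5) (nat_lit 29) (nat_lit 5) (nat_lit 511) (nat_lit 355) (nat_lit 274)))) (XT.nd (nat_lit 156) (nat_lit 228) (nat_lit 0) (XT.nd (nat_lit 78) (nat_lit 0) (nat_lit 0) (XT.lf (nat_lit 0) (nat_lit 13872544000) (nat_lit 228) (nat_lit 7138291552) (nat_lit 76) (nat_lit 140826434) (nat_lit 26) (nat_lit 5) (nat_lit 29) (nat_lit 5) (nat_lit 27) (nat_lit 4) (nat_lit 512) (nat_lit 355) (nat_lit 273)) (XT.lf (nat_lit 0) (nat_lit 17458922552) (nat_lit 228) (nat_lit 63099401) (nat_lit 76) (nat_lit 3967745820) (nat_lit 26) (nat_lit 5) (nat_lit 29) (nat_lit 5) (nat_lit 27) (nat_lit 4) (nat_lit 513) (nat_lit 355) (nat_lit 272))) (XT.nd (nat_lit 78) (nat_lit 76) (nat_lit 0) (XT.lf (nat_lit 0) (nat_lit 7208427173) (nat_lit 152) (nat_lit 13932425893) (nat_lit 228) (nat_lit 693314791) (nat_lit 24) (nat_lit 5) (nat_lit 26) (nat_lit 5) (nat_lit 27) (nat_lit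 4) (nat_lit 514) (nat_lit 355) (nat_lit 271)) (XT.lf (nat_lit 0) (nat_lit 2652895319) (nat_lit 228) (nat_lit 7616573279) (nat_lit 76) (nat_lit 11916093972) (nat_lit 23) (nat_lit 5) (nat_lit 26) (nat_lit 5) (nat_lit 24) (nat_lit 5) (nat_lit 515) (nat_lit 355) (nat_lit 270)))))) (XT.nd (nat_lit 546) (nat_lit 304) (nat_lit 0) (XT.nd (nat_lit 234) (nat_lit 152) (nat_lit 0) (XT.nd (nat_lit 78) (nat_lit 152) (nat_lit 0) (XT.lf (nat_lit 0) (nat_lit 6034262323) (nat_lit 228) (nat_lit 510795599) (nat_lit 76) (nat_lit 15999293444) (nat_lit 23) (nat_lit 5) (nat_lit 26) (nat_lit 5) (nat_lit 24) (nat_lit 5) (nat_lit 516) (nat_lit 355) (nat_lit 269)) (XT.nd (nat_lit 78) (nat_lit 0) (nat_lit 0) (XT.lf (nat_lit 0) (nat_lit 6787904987) (nat_lit 152) (nat_lit 2717371788) (nat_lit 228) (nat_lit 13404606769) (nat_lit 21) (nat_lit 5) (nat_lit 23) (nat_lit 5) (nat_lit 24) (nat_lit 5) (nat_lit 517) (nat_lit 355) (nat_lit 268))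 (XT.lf (nat_lit 0) (nat_lit 13034897738) (nat_lit 228) (nat_lit 9089189334) (nat_lit 76) (nat_lit 1158863422) (nat_lit 21) (nat_lit 5) (nat_lit 24) (nat_lit 5) (nat_lit 22) (nat_lit 4) (nat_lit 518) (nat_lit 355) (nat_lit 267)))) (XT.nd (nat_lit 156) (nat_lit 76) (nat_lit 0) (XT.nd (nat_lit 78) (nat_lit 76) (nat_lit 0) (XT.lf (nat_lit 0) (nat_lit 16631567622) (nat_lit 228) (nat_lit 1971295499) (nat_lit 76) (nat_lit 5060694229) (nat_lit 21) (nat_lit 5) (nat_lit 24) (nat_lit 5) (nat_lit 22) (nat_lit 4) (nat_lit 519) (nat_lit 355) (nat_lit 266)) (XT.lf (nat_lit 0) (nat_lit 5321935395) (nat_lit 76) (nat_lit 14991672045) (nat_lit 152) (nat_lit 3737907718) (nat_lit 20) (nat_lit 5) (nat_lit 21) (nat_lit 5) (nat_lit 22) (nat_lit 4) (nat_lit 520) (nat_lit 355) (nat_lit 265))) (XT.nd (nat_lit 78) (nat_lit 76) (nat_lit 0) (XT.lf (nat_lit 0) (nat_lit 12751175612) (nat_lit 76) (nat_lit 11310400457) (nat_lit 152) (nat_lit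 385817693) (nat_lit 20) (nat_lit 5) (nat_lit 21) (nat_lit 5) (nat_lit 22) (nat_lit 4) (nat_lit 521) (nat_lit 355) (nat_lit 264)) (XT.lf (nat_lit 0) (nat_lit 2972858732) (nat_lit 152) (nat_lit 4578024970) (nat_lit 76) (nat_lit 17300332920) (nat_lit 19) (nat_lit 5) (nat_lit 21) (nat_lit 5) (nat_lit 20) (nat_lit 5) (nat_lit 522) (nat_lit 355) (nat_lit 263))))) (XT.nd (nat_lit 234) (nat_lit 152) (nat_lit 0) (XT.nd (nat_lit 78) (nat_lit 0) (nat_lit 0) (XT.lf (nat_lit 0) (nat_lit 2679688865) (nat_lit 152) (nat_lit 3710989281) (nat_lit 228) (nat_lit 18872451049) (nat_lit 17) (nat_lit 5) (nat_lit 19) (nat_lit 5) (nat_lit 20) (nat_lit 5) (nat_lit 523) (nat_lit 355) (nat_lit 262)) (XT.nd (nat_lit 78) (nat_lit 0) (nat_lit 0) (XT.lf (nat_lit 0) (nat_lit 9888917148) (nat_lit 228) (nat_lit 15575101679) (nat_lit 76) (nat_lit 219026764) (nat_lit 17) (nat_lit 5) (nat_lit 20) (nat_lit 5) (nat_lit 18) (nat_lit 4) (nat_lit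 524) (nat_lit 355) (nat_lit 261)) (XT.lf (nat_lit 0) (nat_lit 13461896265) (nat_lit 228) (nat_lit 8485986439) (nat_lit 76) (nat_lit 4163388804) (nat_lit 17) (nat_lit 5) (nat_lit 20) (nat_lit 5) (nat_lit 18) (nat_lit 4) (nat_lit 525) (nat_lit 355) (nat_lit 260)))) (XT.nd (nat_lit 156) (nat_lit 76) (nat_lit 0) (XT.nd (nat_lit 78) (nat_lit 76) (nat_lit 0) (XT.lf (nat_lit 0) (nat_lit 17086922461) (nat_lit 228) (nat_lit 1289220363) (nat_lit 76) (nat_lit 8172313941) (nat_lit 17) (nat_lit 5) (nat_lit 20) (nat_lit 5) (nat_lit 18) (nat_lit 4) (nat_lit 526) (nat_lit 355) (nat_lit 259)) (XT.lf (nat_lit 0) (nat_lit 6097995114) (nat_lit 76) (nat_lit 14707014431) (nat_lit 152) (nat_lit 6188971416) (nat_lit 16) (nat_lit 5) (nat_lit 17) (nat_lit 5) (nat_lit 18) (nat_lit 4) (nat_lit 527) (nat_lit 355) (nat_lit 258))) (XT.nd (nat_lit 78) (nat_lit 76) (nat_lit 0) (XT.lf (nat_lit 0) (nat_lit 13617188545) (nat_lit 76) (nat_lit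 10970046650) (nat_lit 152) (nat_lit 2861391222) (nat_lit 16) (nat_lit 5) (nat_lit 17) (nat_lit 5) (nat_lit 18) (nat_lit 4) (nat_lit 528) (nat_lit 355) (nat_lit 257)) (XT.lf (nat_lit 0) (nat_lit 507120497) (nat_lit 152) (nat_lit 6661901810) (nat_lit 76) (nat_lit 20743652030) (nat_lit 15) (nat_lit 5) (nat_lit 17) (nat_lit 5) (nat_lit 16) (nat_lit 5) (nat_lit 529) (nat_lit 355) (nat_lit 256))))))))
noncomputable def xc48 : XT := (XT.nd (nat_lit 2106) (nat_lit 5320) (nat_lit 0) (XT.nd (nat_lit 1014) (nat_lit 4864) (nat_lit 0) (XT.nd (nat_lit 468) (nat_lit 3192) (nat_lit 0) (XT.nd (nat_lit 234) (nat_lit 1520) (nat_lit 0) (XT.nd (nat_lit 78) (nat_lit 760) (nat_lit 0) (XT.lf (nat_lit 0) (nat_lit 462684643) (nat_lit 760) (nat_lit 2910197204) (nat_lit 0) (nat_lit 462684643) (nat_lit 271) (nat_lit 5) (nat_lit 281) (nat_lit 4) (nat_lit 271) (nat_lit 4) (nat_lit 428) (nat_lit 356) (nat_lit 356)) (XT.nd (nat_lit 78)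 (nat_lit 760) (nat_lit 0) (XT.lf (nat_lit 0) (nat_lit 4238644583) (nat_lit 760) (nat_lit 602434624) (nat_lit 0) (nat_lit 2884528743) (nat_lit 271) (nat_lit 5) (nat_lit 281) (nat_lit 4) (nat_lit 271) (nat_lit 4) (nat_lit 429) (nat_lit 356) (nat_lit 355)) (XT.lf (nat_lit 0) (nat_lit 4712184584) (nat_lit 760) (nat_lit 2875672756) (nat_lit 760) (nat_lit 193992367) (nat_lit 261) (nat_lit 4) (nat_lit 271) (nat_lit 5) (nat_lit 271) (nat_lit 4) (nat_lit 430) (nat_lit 356) (nat_lit 354)))) (XT.nd (nat_lit 78) (nat_lit 760) (nat_lit 0) (XT.lf (nat_lit 0) (nat_lit 2241025770) (nat_lit 684) (nat_lit 840281175) (nat_lit 760) (nat_lit 4758406842) (nat_lit 251) (nat_lit 5) (nat_lit 260) (nat_lit 5) (nat_lit 261) (nat_lit 4) (nat_lit 431) (nat_lit 356) (nat_lit 353)) (XT.nd (nat_lit 78) (nat_lit 760) (nat_lit 0) (XT.lf (nat_lit 0) (nat_lit 6388309115) (nat_lit 760) (nat_lit 278887775) (nat_lit 0) (nat_lit 1232203371)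 (nat_lit 251) (nat_lit 5) (nat_lit 261) (nat_lit 4) (nat_lit 251) (nat_lit 4) (nat_lit 432) (nat_lit 356) (nat_lit 352)) (XT.lf (nat_lit 0) (nat_lit 1757497081) (nat_lit 760) (nat_lit 2832426075) (nat_lit 76) (nat_lit 3370588500) (nat_lit 241) (nat_lit 5) (nat_lit 251) (nat_lit 5) (nat_lit 242) (nat_lit 4) (nat_lit 433) (nat_lit 356) (nat_lit 351))))) (XT.nd (nat_lit 234) (nat_lit 1824) (nat_lit 0) (XT.nd (nat_lit 78) (nat_lit 760) (nat_lit 0) (XT.lf (nat_lit 0) (nat_lit 2578306537) (nat_lit 608) (nat_lit 2453026547) (nat_lit 684) (nat_lit 2992173041) (nat_lit 233) (nat_lit 5) (nat_lit 241) (nat_lit 5) (nat_lit 242) (nat_lit 4) (nat_lit 434) (nat_lit 356) (nat_lit 350)) (XT.nd (nat_lit 78) (nat_lit 684) (nat_lit 0) (XT.lf (nat_lit 0) (nat_lit 240029463) (nat_lit 684) (nat_lit 23731132) (nat_lit 76) (nat_lit 7824806435) (nat_lit 232) (nat_lit 5) (nat_lit 241) (nat_lit 5) (nat_lit 233) (nat_lit 5) (nat_lit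 435) (nat_lit 356) (nat_lit 349)) (XT.lf (nat_lit 0) (nat_lit 3488433339) (nat_lit 760) (nat_lit 2678414116) (nat_lit 76) (nat_lit 1987912861) (nat_lit 223) (nat_lit 5) (nat_lit 233) (nat_lit 5) (nat_lit 224) (nat_lit 4) (nat_lit 436) (nat_lit 356) (nat_lit 348)))) (XT.nd (nat_lit 156) (nat_lit 532) (nat_lit 0) (XT.nd (nat_lit 78) (nat_lit 684) (nat_lit 0) (XT.lf (nat_lit 0) (nat_lit 2830525301) (nat_lit 608) (nat_lit 3935029842) (nat_lit 684) (nat_lit 1457505348) (nat_lit 215) (nat_lit 5) (nat_lit 223) (nat_lit 5) (nat_lit 224) (nat_lit 4) (nat_lit 437) (nat_lit 356) (nat_lit 347)) (XT.lf (nat_lit 0) (nat_lit 113494907) (nat_lit 608) (nat_lit 1640717159) (nat_lit 684) (nat_lit 6539084024) (nat_lit 206) (nat_lit 5) (nat_lit 214) (nat_lit 5) (nat_lit 215) (nat_lit 5) (nat_lit 438) (nat_lit 356) (nat_lit 346))) (XT.nd (nat_lit 78) (nat_lit 532) (nat_lit 0) (XT.lf (nat_lit 0) (nat_lit 4995900821) (nat_lit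 684) (nat_lit 2646194564) (nat_lit 76) (nat_lit 722997950) (nat_lit 206) (nat_lit 5) (nat_lit 215) (nat_lit 5) (nat_lit 207) (nat_lit 4) (nat_lit 439) (nat_lit 356) (nat_lit 345)) (XT.lf (nat_lit 0) (nat_lit 2957088278) (nat_lit 532) (nat_lit 5320759779) (nat_lit 608) (nat_lit 161023573) (nat_lit 199) (nat_lit 5) (nat_lit 206) (nat_lit 5) (nat_lit 207) (nat_lit 4) (nat_lit 440) (nat_lit 356) (nat_lit 344)))))) (XT.nd (nat_lit 546) (nat_lit 2508) (nat_lit 0) (XT.nd (nat_lit 234) (nat_lit 1064) (nat_lit 0) (XT.nd (nat_lit 78) (nat_lit 608) (nat_lit 0) (XT.lf (nat_lit 0) (nat_lit 106378820) (nat_lit 608) (nat_lit 2928267173) (nat_lit 684) (nat_lit 5479844153) (nat_lit 190) (nat_lit 5) (nat_lit 198) (nat_lit 5) (nat_lit 199) (nat_lit 5) (nat_lit 441) (nat_lit 356) (nat_lit 343)) (XT.nd (nat_lit 78) (nat_lit 608) (nat_lit 0) (XT.lf (nat_lit 0) (nat_lit 5810751813) (nat_lit 608) (nat_lit 464299224) (nat_lit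 684) (nat_lit 2316939652) (nat_lit 190) (nat_lit 5) (nat_lit 198) (nat_lit 5) (nat_lit 199) (nat_lit 5) (nat_lit 442) (nat_lit 356) (nat_lit 342)) (XT.lf (nat_lit 0) (nat_lit 876497080) (nat_lit 608) (nat_lit 5762614816) (nat_lit 76) (nat_lit 2032275855) (nat_lit 182) (nat_lit 5) (nat_lit 190) (nat_lit 5) (nat_lit 183) (nat_lit 5) (nat_lit 443) (nat_lit 356) (nat_lit 341)))) (XT.nd (nat_lit 156) (nat_lit 532) (nat_lit 0) (XT.nd (nat_lit 78) (nat_lit 532) (nat_lit 0) (XT.lf (nat_lit 0) (nat_lit 4072027670) (nat_lit 608) (nat_lit 88992817) (nat_lit 76) (nat_lit 4591708585) (nat_lit 182) (nat_lit 5) (nat_lit 190) (nat_lit 5) (nat_lit 183) (nat_lit 5) (nat_lit 444) (nat_lit 356) (nat_lit 340)) (XT.lf (nat_lit 0) (nat_lit 5705542264) (nat_lit 532) (nat_lit 1611360909) (nat_lit 608) (nat_lit 1519132024) (nat_lit 175) (nat_lit 5) (nat_lit 182) (nat_lit 5) (nat_lit 183) (nat_lit 5) (nat_lit 445) (nat_lit 356)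 (nat_lit 339))) (XT.nd (nat_lit 78) (nat_lit 0) (nat_lit 0) (XT.lf (nat_lit 0) (nat_lit 1656212921) (nat_lit 532) (nat_lit 6275800198) (nat_lit 76) (nat_lit 989359403) (nat_lit 168) (nat_lit 5) (nat_lit 175) (nat_lit 5) (nat_lit 169) (nat_lit 5) (nat_lit 446) (nat_lit 356) (nat_lit 338)) (XT.lf (nat_lit 0) (nat_lit 4855609856) (nat_lit 532) (nat_lit 517456387) (nat_lit 76) (nat_lit 3635575768) (nat_lit 168) (nat_lit 5) (nat_lit 175) (nat_lit 5) (nat_lit 169) (nat_lit 5) (nat_lit 447) (nat_lit 356) (nat_lit 337))))) (XT.nd (nat_lit 234) (nat_lit 1444) (nat_lit 0) (XT.nd (nat_lit 78) (nat_lit 532) (nat_lit 0) (XT.lf (nat_lit 0) (nat_lit 5359499394) (nat_lit 532) (nat_lit 2744341401) (nat_lit 608) (nat_lit 994162282) (nat_lit 161) (nat_lit 5) (nat_lit 168) (nat_lit 5) (nat_lit 169) (nat_lit 5) (nat_lit 448) (nat_lit 356) (nat_lit 336)) (XT.nd (nat_lit 78) (nat_lit 0) (nat_lit 0) (XT.lf (nat_lit 0) (nat_lit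 2118109303) (nat_lit 456) (nat_lit 48032187) (nat_lit 532) (nat_lit 7023412499) (nat_lit 154) (nat_lit 5) (nat_lit 160) (nat_lit 5) (nat_lit 161) (nat_lit 5) (nat_lit 449) (nat_lit 356) (nat_lit 335)) (XT.lf (nat_lit 0) (nat_lit 5369807811) (nat_lit 532) (nat_lit 1231776998) (nat_lit 76) (nat_lit 2681390940) (nat_lit 154) (nat_lit 5) (nat_lit 161) (nat_lit 5) (nat_lit 155) (nat_lit 5) (nat_lit 450) (nat_lit 356) (nat_lit 334)))) (XT.nd (nat_lit 156) (nat_lit 456) (nat_lit 0) (XT.nd (nat_lit 78) (nat_lit 532) (nat_lit 0) (XT.lf (nat_lit 0) (nat_lit 4720015604) (nat_lit 456) (nat_lit 3900120807) (nat_lit 532) (nat_lit 758517581) (nat_lit 148) (nat_lit 5) (nat_lit 154) (nat_lit 5) (nat_lit 155) (nat_lit 5) (nat_lit 451) (nat_lit 356) (nat_lit 333)) (XT.lf (nat_lit 0) (nat_lit 1265539485) (nat_lit 456) (nat_lit 1129761575) (nat_lit 532) (nat_lit 7081297112) (nat_lit 141) (nat_lit 5) (nat_lit 147) (nat_lit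 5) (nat_lit 148) (nat_lit 5) (nat_lit 452) (nat_lit 356) (nat_lit 332))) (XT.nd (nat_lit 78) (nat_lit 456) (nat_lit 0) (XT.lf (nat_lit 0) (nat_lit 5596717800) (nat_lit 532) (nat_lit 2287699839) (nat_lit 76) (nat_lit 1692127284) (nat_lit 141) (nat_lit 5) (nat_lit 148) (nat_lit 5) (nat_lit 142) (nat_lit 5) (nat_lit 453) (nat_lit 356) (nat_lit 331)) (XT.lf (nat_lit 0) (nat_lit 3729943683) (nat_lit 456) (nat_lit 5117044054) (nat_lit 532) (nat_lit 831843167) (nat_lit 135) (nat_lit 5) (nat_lit 141) (nat_lit 5) (nat_lit 142) (nat_lit 5) (nat_lit 454) (nat_lit 356) (nat_lit 330))))))) (XT.nd (nat_lit 1014) (nat_lit 2204) (nat_lit 0) (XT.nd (nat_lit 468) (nat_lit 1444) (nat_lit 0) (XT.nd (nat_lit 234) (nat_lit 836) (nat_lit 0) (XT.nd (nat_lit 78) (nat_lit 380) (nat_lit 0) (XT.lf (nat_lit 0) (nat_lit 35163611) (nat_lit 380) (nat_lit 2281695019) (nat_lit 456) (nat_lit 7466651197) (nat_lit 129) (nat_lit 5) (nat_lit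 134) (nat_lit 5) (nat_lit 135) (nat_lit 5) (nat_lit 455) (nat_lit 356) (nat_lit 329)) (XT.nd (nat_lit 78) (nat_lit 380) (nat_lit 0) (XT.lf (nat_lit 0) (nat_lit 5515199625) (nat_lit 456) (nat_lit 3745931490) (nat_lit 76) (nat_lit 629119844) (nat_lit 129) (nat_lit 5) (nat_lit 135) (nat_lit 5) (nat_lit 130) (nat_lit 5) (nat_lit 456) (nat_lit 356) (nat_lit 328)) (XT.lf (nat_lit 0) (nat_lit 2326993214) (nat_lit 380) (nat_lit 6435287803) (nat_lit 456) (nat_lit 1237184416) (nat_lit 124) (nat_lit 5) (nat_lit 129) (nat_lit 5) (nat_lit 130) (nat_lit 5) (nat_lit 457) (nat_lit 356) (nat_lit 327)))) (XT.nd (nat_lit 78) (nat_lit 760) (nat_lit 0) (XT.lf (nat_lit 0) (nat_lit 1917688706) (nat_lit 456) (nat_lit 1616276524) (nat_lit 76) (nat_lit 6577076685) (nat_lit 123) (nat_lit 5) (nat_lit 129) (nat_lit 5) (nat_lit 124) (nat_lit 5) (nat_lit 458) (nat_lit 356) (nat_lit 326)) (XT.nd (nat_lit 78) (nat_lit 380) (nat_lit 0)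 (XT.lf (nat_lit 0) (nat_lit 4548629290) (nat_lit 380) (nat_lit 555596709) (nat_lit 456) (nat_lit 5120789751) (nat_lit 118) (nat_lit 5) (nat_lit 123) (nat_lit 5) (nat_lit 124) (nat_lit 5) (nat_lit 459) (nat_lit 356) (nat_lit 325)) (XT.lf (nat_lit 0) (nat_lit 443071979) (nat_lit 380) (nat_lit 7897250355) (nat_lit 456) (nat_lit 2001261565) (nat_lit 113) (nat_lit 5) (nat_lit 118) (nat_lit 5) (nat_lit 119) (nat_lit 5) (nat_lit 460) (nat_lit 356) (nat_lit 324))))) (XT.nd (nat_lit 234) (nat_lit 1064) (nat_lit 0) (XT.nd (nat_lit 78) (nat_lit 304) (nat_lit 0) (XT.lf (nat_lit 0) (nat_lit 1163243281) (nat_lit 456) (nat_lit 3773886359) (nat_lit 76) (nat_lit 5523269228) (nat_lit 112) (nat_lit 5) (nat_lit 118) (nat_lit 5) (nat_lit 113) (nat_lit 5) (nat_lit 461) (nat_lit 356) (nat_lit 323)) (XT.nd (nat_lit 78) (nat_lit 0) (nat_lit 0) (XT.lf (nat_lit 0) (nat_lit 2428662075) (nat_lit 304) (nat_lit 1908281985) (nat_lit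 380) (nat_lit 6244957048) (nat_lit 108) (nat_lit 5) (nat_lit 112) (nat_lit 5) (nat_lit 113) (nat_lit 5) (nat_lit 462) (nat_lit 356) (nat_lit 322)) (XT.lf (nat_lit 0) (nat_lit 7564496271) (nat_lit 380) (nat_lit 1970250454) (nat_lit 76) (nat_lit 1171308131) (nat_lit 108) (nat_lit 5) (nat_lit 113) (nat_lit 5) (nat_lit 109) (nat_lit 5) (nat_lit 463) (nat_lit 356) (nat_lit 321)))) (XT.nd (nat_lit 156) (nat_lit 608) (nat_lit 0) (XT.nd (nat_lit 78) (nat_lit 0) (nat_lit 0) (XT.lf (nat_lit 0) (nat_lit 22286698) (nat_lit 456) (nat_lit 6514758190) (nat_lit 76) (nat_lit 4295697722) (nat_lit 102) (nat_lit 5) (nat_lit 108) (nat_lit 5) (nat_lit 103) (nat_lit 5) (nat_lit 464) (nat_lit 356) (nat_lit 320)) (XT.lf (nat_lit 0) (nat_lit 3178865158) (nat_lit 456) (nat_lit 286334003) (nat_lit 76) (nat_lit 7496946548) (nat_lit 102) (nat_lit 5) (nat_lit 108) (nat_lit 5) (nat_lit 103) (nat_lit 5) (nat_lit 465) (nat_lit 356) (nat_lit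 319))) (XT.nd (nat_lit 78) (nat_lit 304) (nat_lit 0) (XT.lf (nat_lit 0) (nat_lit 6085259126) (nat_lit 304) (nat_lit 311819170) (nat_lit 380) (nat_lit 4697115314) (nat_lit 98) (nat_lit 5) (nat_lit 102) (nat_lit 5) (nat_lit 103) (nat_lit 5) (nat_lit 466) (nat_lit 356) (nat_lit 318)) (XT.lf (nat_lit 0) (nat_lit 1295933178) (nat_lit 304) (nat_lit 8372201144) (nat_lit 380) (nat_lit 1561004852) (nat_lit 94) (nat_lit 5) (nat_lit 98) (nat_lit 5) (nat_lit 99) (nat_lit 5) (nat_lit 467) (nat_lit 356) (nat_lit 317)))))) (XT.nd (nat_lit 546) (nat_lit 1216) (nat_lit 0) (XT.nd (nat_lit 234) (nat_lit 608) (nat_lit 0) (XT.nd (nat_lit 78) (nat_lit 304) (nat_lit 0) (XT.lf (nat_lit 0) (nat_lit 1611628593) (nat_lit 380) (nat_lit 3645910769) (nat_lit 76) (nat_lit 6109151241) (nat_lit 93) (nat_lit 5) (nat_lit 98) (nat_lit 5) (nat_lit 94) (nat_lit 5) (nat_lit 468) (nat_lit 356) (nat_lit 316)) (XT.nd (nat_lit 78) (nat_lit 0)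 (nat_lit 0) (XT.lf (nat_lit 0) (nat_lit 2732161152) (nat_lit 304) (nat_lit 2072587662) (nat_lit 380) (nat_lit 6702503925) (nat_lit 89) (nat_lit 5) (nat_lit 93) (nat_lit 5) (nat_lit 94) (nat_lit 5) (nat_lit 469) (nat_lit 356) (nat_lit 315)) (XT.lf (nat_lit 0) (nat_lit 8054429515) (nat_lit 380) (nat_lit 2431464174) (nat_lit 76) (nat_lit 1164902741) (nat_lit 89) (nat_lit 5) (nat_lit 94) (nat_lit 5) (nat_lit 90) (nat_lit 5) (nat_lit 470) (nat_lit 356) (nat_lit 314)))) (XT.nd (nat_lit 156) (nat_lit 228) (nat_lit 0) (XT.nd (nat_lit 78) (nat_lit 76) (nat_lit 0) (XT.lf (nat_lit 0) (nat_lit 4018458572) (nat_lit 304) (nat_lit 7351671590) (nat_lit 380) (nat_lit 427084106) (nat_lit 85) (nat_lit 5) (nat_lit 89) (nat_lit 5) (nat_lit 90) (nat_lit 5) (nat_lit 471) (nat_lit 356) (nat_lit 313)) (XT.lf (nat_lit 0) (nat_lit 2746522206) (nat_lit 380) (nat_lit 1393918522) (nat_lit 76) (nat_lit 7806223625) (nat_lit 84) (nat_lit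 5) (nat_lit 89) (nat_lit 5) (nat_lit 85) (nat_lit 5) (nat_lit 472) (nat_lit 356) (nat_lit 312))) (XT.nd (nat_lit 78) (nat_lit 0) (nat_lit 0) (XT.lf (nat_lit 0) (nat_lit 5124466373) (nat_lit 228) (nat_lit 848760171) (nat_lit 304) (nat_lit 6125935970) (nat_lit 81) (nat_lit 5) (nat_lit 84) (nat_lit 5) (nat_lit 85) (nat_lit 5) (nat_lit 473) (nat_lit 356) (nat_lit 311)) (XT.lf (nat_lit 0) (nat_lit 9252469769) (nat_lit 304) (nat_lit 537543693) (nat_lit 76) (nat_lit 2464959068) (nat_lit 81) (nat_lit 5) (nat_lit 85) (nat_lit 5) (nat_lit 82) (nat_lit 5) (nat_lit 474) (nat_lit 356) (nat_lit 310))))) (XT.nd (nat_lit 234) (nat_lit 608) (nat_lit 0) (XT.nd (nat_lit 78) (nat_lit 228) (nat_lit 0) (XT.lf (nat_lit 0) (nat_lit 188929519) (nat_lit 380) (nat_lit 6370632223) (nat_lit 76) (nat_lit 5854175608) (nat_lit 76) (nat_lit 5) (nat_lit 81) (nat_lit 5) (nat_lit 77) (nat_lit 5) (nat_lit 475) (nat_lit 356) (nat_lit 309))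 (XT.nd (nat_lit 78) (nat_lit 0) (nat_lit 0) (XT.lf (nat_lit 0) (nat_lit 110831176) (nat_lit 228) (nat_lit 3260673362) (nat_lit 304) (nat_lit 9204446364) (nat_lit 73) (nat_lit 5) (nat_lit 76) (nat_lit 5) (nat_lit 77) (nat_lit 5) (nat_lit 476) (nat_lit 356) (nat_lit 308)) (XT.lf (nat_lit 0) (nat_lit 6624785239) (nat_lit 304) (nat_lit 5991231663) (nat_lit 76) (nat_lit 125271052) (nat_lit 73) (nat_lit 5) (nat_lit 77) (nat_lit 5) (nat_lit 74) (nat_lit 5) (nat_lit 477) (nat_lit 356) (nat_lit 307)))) (XT.nd (nat_lit 156) (nat_lit 228) (nat_lit 0) (XT.nd (nat_lit 78) (nat_lit 76) (nat_lit 0) (XT.lf (nat_lit 0) (nat_lit 540772052) (nat_lit 304) (nat_lit 9391527438) (nat_lit 380) (nat_lit 2977868813) (nat_lit 69) (nat_lit 5) (nat_lit 73) (nat_lit 5) (nat_lit 74) (nat_lit 5) (nat_lit 478) (nat_lit 356) (nat_lit 306)) (XT.lf (nat_lit 0) (nat_lit 225222496) (nat_lit 380) (nat_lit 5855693327) (nat_lit 76) (nat_lit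 7001408220) (nat_lit 68) (nat_lit 5) (nat_lit 73) (nat_lit 5) (nat_lit 69) (nat_lit 5) (nat_lit 479) (nat_lit 356) (nat_lit 305))) (XT.nd (nat_lit 78) (nat_lit 0) (nat_lit 0) (XT.lf (nat_lit 0) (nat_lit 722169236) (nat_lit 228) (nat_lit 2699907726) (nat_lit 304) (nat_lit 9836079527) (nat_lit 65) (nat_lit 5) (nat_lit 68) (nat_lit 5) (nat_lit 69) (nat_lit 5) (nat_lit 480) (nat_lit 356) (nat_lit 304)) (XT.lf (nat_lit 0) (nat_lit 6692328318) (nat_lit 304) (nat_lit 5986954481) (nat_lit 76) (nat_lit 758051989) (nat_lit 65) (nat_lit 5) (nat_lit 69) (nat_lit 5) (nat_lit 66) (nat_lit 5) (nat_lit 481) (nat_lit 356) (nat_lit 303))))))))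
noncomputable def xc49 : XT := (XT.nd (nat_lit 2106) (nat_lit 988) (nat_lit 0) (XT.nd (nat_lit 1014) (nat_lit 1216) (nat_lit 0) (XT.nd (nat_lit 468) (nat_lit 760) (nat_lit 0) (XT.nd (nat_lit 234) (nat_lit 228) (nat_lit 0) (XT.nd (nat_lit 78) (nat_lit 304) (nat_lit 0) (XT.lf (nat_lit 0) (nat_lit 628442582) (nat_lit 228) (nat_lit 9387231581) (nat_lit 304) (nat_lit 3604686735) (nat_lit 62) (nat_lit 5) (nat_lit 65) (nat_lit 5) (nat_lit 66) (nat_lit 5) (nat_lit 482) (nat_lit 356) (nat_lit 302)) (XT.nd (nat_lit 78) (nat_lit 304) (nat_lit 0) (XT.lf (nat_lit 0) (nat_lit 7402685710) (nat_lit 228) (nat_lit 6009023217) (nat_lit 304) (nat_lit 395231847) (nat_lit 62) (nat_lit 5) (nat_lit 65) (nat_lit 5) (nat_lit 66) (nat_lit 5) (nat_lit 483) (nat_lit 356) (nat_lit 301)) (XT.lf (nat_lit 0) (nat_lit 245686880) (nat_lit 228) (nat_lit 2563044111) (nat_lit 304) (nat_lit 11188803088) (nat_lit 58) (nat_lit 5) (nat_lit 61)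 (nat_lit 5) (nat_lit 62) (nat_lit 5) (nat_lit 484) (nat_lit 356) (nat_lit 300)))) (XT.nd (nat_lit 78) (nat_lit 228) (nat_lit 0) (XT.lf (nat_lit 0) (nat_lit 6087577392) (nat_lit 304) (nat_lit 7138924038) (nat_lit 76) (nat_lit 965080305) (nat_lit 58) (nat_lit 5) (nat_lit 62) (nat_lit 5) (nat_lit 59) (nat_lit 5) (nat_lit 485) (nat_lit 356) (nat_lit 299)) (XT.nd (nat_lit 78) (nat_lit 228) (nat_lit 0) (XT.lf (nat_lit 0) (nat_lit 9416279335) (nat_lit 304) (nat_lit 463854670) (nat_lit 76) (nat_lit 4509707103) (nat_lit 58) (nat_lit 5) (nat_lit 62) (nat_lit 5) (nat_lit 59) (nat_lit 5) (nat_lit 486) (nat_lit 356) (nat_lit 298)) (XT.lf (nat_lit 0) (nat_lit 6376245161) (nat_lit 228) (nat_lit 6444654861) (nat_lit 304) (nat_lit 1770994768) (nat_lit 55) (nat_lit 5) (nat_lit 58) (nat_lit 5) (nat_lit 59) (nat_lit 5) (nat_lit 487) (nat_lit 356) (nat_lit 297))))) (XT.nd (nat_lit 234) (nat_lit 456) (nat_lit 0) (XT.nd (nat_lit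 78) (nat_lit 228) (nat_lit 0) (XT.lf (nat_lit 0) (nat_lit 1447154075) (nat_lit 304) (nat_lit 1500418100) (nat_lit 76) (nat_lit 11850815637) (nat_lit 54) (nat_lit 5) (nat_lit 58) (nat_lit 5) (nat_lit 55) (nat_lit 5) (nat_lit 488) (nat_lit 356) (nat_lit 296)) (XT.nd (nat_lit 78) (nat_lit 0) (nat_lit 0) (XT.lf (nat_lit 0) (nat_lit 4713593211) (nat_lit 304) (nat_lit 9656454303) (nat_lit 76) (nat_lit 638591330) (nat_lit 51) (nat_lit 5) (nat_lit 55) (nat_lit 5) (nat_lit 52) (nat_lit 5) (nat_lit 489) (nat_lit 356) (nat_lit 295)) (XT.lf (nat_lit 0) (nat_lit 8043813072) (nat_lit 304) (nat_lit 2931644975) (nat_lit 76) (nat_lit 4247682605) (nat_lit 51) (nat_lit 5) (nat_lit 55) (nat_lit 5) (nat_lit 52) (nat_lit 5) (nat_lit 490) (nat_lit 356) (nat_lit 294)))) (XT.nd (nat_lit 156) (nat_lit 228) (nat_lit 0) (XT.nd (nat_lit 78) (nat_lit 0) (nat_lit 0) (XT.lf (nat_lit 0) (nat_lit 3928852633) (nat_lit 228) (nat_lit 7506701574)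 (nat_lit 304) (nat_lit 4006494460) (nat_lit 48) (nat_lit 5) (nat_lit 51) (nat_lit 5) (nat_lit 52) (nat_lit 5) (nat_lit 491) (nat_lit 356) (nat_lit 293)) (XT.lf (nat_lit 0) (nat_lit 10916295053) (nat_lit 228) (nat_lit 3968191331) (nat_lit 304) (nat_lit 781075554) (nat_lit 48) (nat_lit 5) (nat_lit 51) (nat_lit 5) (nat_lit 52) (nat_lit 5) (nat_lit 492) (nat_lit 356) (nat_lit 292))) (XT.nd (nat_lit 78) (nat_lit 0) (nat_lit 0) (XT.lf (nat_lit 0) (nat_lit 2111914511) (nat_lit 152) (nat_lit 347812312) (nat_lit 228) (nat_lit 13433830958) (nat_lit 45) (nat_lit 5) (nat_lit 47) (nat_lit 5) (nat_lit 48) (nat_lit 5) (nat_lit 493) (nat_lit 356) (nat_lit 291)) (XT.lf (nat_lit 0) (nat_lit 5778904352) (nat_lit 228) (nat_lit 7027471133) (nat_lit 76) (nat_lit 3319167843) (nat_lit 45) (nat_lit 5) (nat_lit 48) (nat_lit 5) (nat_lit 46) (nat_lit 5) (nat_lit 494) (nat_lit 356) (nat_lit 290)))))) (XT.nd (nat_lit 546) (nat_lit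 532) (nat_lit 0) (XT.nd (nat_lit 234) (nat_lit 456) (nat_lit 0) (XT.nd (nat_lit 78) (nat_lit 228) (nat_lit 0) (XT.lf (nat_lit 0) (nat_lit 9137561960) (nat_lit 228) (nat_lit 189137137) (nat_lit 76) (nat_lit 7036020700) (nat_lit 45) (nat_lit 5) (nat_lit 48) (nat_lit 5) (nat_lit 46) (nat_lit 5) (nat_lit 495) (nat_lit 356) (nat_lit 289)) (XT.nd (nat_lit 78) (nat_lit 0) (nat_lit 0) (XT.lf (nat_lit 0) (nat_lit 6827847087) (nat_lit 228) (nat_lit 5751242362) (nat_lit 304) (nat_lit 4025249292) (nat_lit 42) (nat_lit 5) (nat_lit 45) (nat_lit 5) (nat_lit 46) (nat_lit 5) (nat_lit 496) (nat_lit 356) (nat_lit 288)) (XT.lf (nat_lit 0) (nat_lit 13940383491) (nat_lit 228) (nat_lit 2121953042) (nat_lit 304) (nat_lit 789008378) (nat_lit 42) (nat_lit 5) (nat_lit 45) (nat_lit 5) (nat_lit 46) (nat_lit 5) (nat_lit 497) (nat_lit 356) (nat_lit 287)))) (XT.nd (nat_lit 156) (nat_lit 228) (nat_lit 0) (XT.nd (nat_lit 78) (nat_lit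 0) (nat_lit 0) (XT.lf (nat_lit 0) (nat_lit 2487916890) (nat_lit 228) (nat_lit 13031124026) (nat_lit 76) (nat_lit 1583758156) (nat_lit 39) (nat_lit 5) (nat_lit 42) (nat_lit 5) (nat_lit 40) (nat_lit 5) (nat_lit 498) (nat_lit 356) (nat_lit 286)) (XT.lf (nat_lit 0) (nat_lit 5825647586) (nat_lit 228) (nat_lit 6191820986) (nat_lit 76) (nat_lit 5341604702) (nat_lit 39) (nat_lit 5) (nat_lit 42) (nat_lit 5) (nat_lit 40) (nat_lit 5) (nat_lit 499) (nat_lit 356) (nat_lit 285))) (XT.nd (nat_lit 78) (nat_lit 0) (nat_lit 0) (XT.lf (nat_lit 0) (nat_lit 748054287) (nat_lit 228) (nat_lit 8459588171) (nat_lit 304) (nat_lit 8413291978) (nat_lit 36) (nat_lit 5) (nat_lit 39) (nat_lit 5) (nat_lit 40) (nat_lit 5) (nat_lit 500) (nat_lit 356) (nat_lit 284)) (XT.lf (nat_lit 0) (nat_lit 7864936930) (nat_lit 228) (nat_lit 4806782739) (nat_lit 304) (nat_lit 5216035742) (nat_lit 36) (nat_lit 5) (nat_lit 39) (nat_lit 5) (nat_lit 40)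 (nat_lit 5) (nat_lit 501) (nat_lit 356) (nat_lit 283))))) (XT.nd (nat_lit 234) (nat_lit 304) (nat_lit 0) (XT.nd (nat_lit 78) (nat_lit 228) (nat_lit 0) (XT.lf (nat_lit 0) (nat_lit 15079331835) (nat_lit 228) (nat_lit 1099170180) (nat_lit 304) (nat_lit 1981953532) (nat_lit 36) (nat_lit 5) (nat_lit 39) (nat_lit 5) (nat_lit 40) (nat_lit 5) (nat_lit 502) (nat_lit 356) (nat_lit 282)) (XT.nd (nat_lit 78) (nat_lit 0) (nat_lit 0) (XT.lf (nat_lit 0) (nat_lit 1316793999) (nat_lit 228) (nat_lit 14456986443) (nat_lit 76) (nat_lit 2664323953) (nat_lit 33) (nat_lit 5) (nat_lit 36) (nat_lit 5) (nat_lit 34) (nat_lit 5) (nat_lit 503) (nat_lit 356) (nat_lit 281)) (XT.lf (nat_lit 0) (nat_lit 4656968205) (nat_lit 228) (nat_lit 7559492850) (nat_lit 76) (nat_lit 6504553917) (nat_lit 33) (nat_lit 5) (nat_lit 36) (nat_lit 5) (nat_lit 34) (nat_lit 5) (nat_lit 504) (nat_lit 356) (nat_lit 280)))) (XT.nd (nat_lit 156) (nat_lit 152)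 (nat_lit 0) (XT.nd (nat_lit 78) (nat_lit 152) (nat_lit 0) (XT.lf (nat_lit 0) (nat_lit 8038331298) (nat_lit 228) (nat_lit 567606564) (nat_lit 76) (nat_lit 10404168549) (nat_lit 33) (nat_lit 5) (nat_lit 36) (nat_lit 5) (nat_lit 34) (nat_lit 5) (nat_lit 505) (nat_lit 356) (nat_lit 279)) (XT.lf (nat_lit 0) (nat_lit 6608080494) (nat_lit 152) (nat_lit 4897032852) (nat_lit 228) (nat_lit 7799520657) (nat_lit 31) (nat_lit 5) (nat_lit 33) (nat_lit 5) (nat_lit 34) (nat_lit 5) (nat_lit 506) (nat_lit 356) (nat_lit 278))) (XT.nd (nat_lit 78) (nat_lit 152) (nat_lit 0) (XT.lf (nat_lit 0) (nat_lit 13892553174) (nat_lit 152) (nat_lit 1127591416) (nat_lit 228) (nat_lit 4585339243) (nat_lit 31) (nat_lit 5) (nat_lit 33) (nat_lit 5) (nat_lit 34) (nat_lit 5) (nat_lit 507) (nat_lit 356) (nat_lit 277)) (XT.lf (nat_lit 0) (nat_lit 1368696519) (nat_lit 152) (nat_lit 17238789740) (nat_lit 228) (nat_lit 1304833967) (nat_lit 29) (nat_lit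 5) (nat_lit 31) (nat_lit 5) (nat_lit 32) (nat_lit 4) (nat_lit 508) (nat_lit 356) (nat_lit 276))))))) (XT.nd (nat_lit 1092) (nat_lit 228) (nat_lit 0) (XT.nd (nat_lit 546) (nat_lit 304) (nat_lit 0) (XT.nd (nat_lit 234) (nat_lit 228) (nat_lit 0) (XT.nd (nat_lit 78) (nat_lit 152) (nat_lit 0) (XT.lf (nat_lit 0) (nat_lit 2036088571) (nat_lit 228) (nat_lit 11618140070) (nat_lit 76) (nat_lit 6570377444) (nat_lit 28) (nat_lit 5) (nat_lit 31) (nat_lit 5) (nat_lit 29) (nat_lit 5) (nat_lit 509) (nat_lit 356) (nat_lit 275)) (XT.nd (nat_lit 78) (nat_lit 152) (nat_lit 0) (XT.lf (nat_lit 0) (nat_lit 5402374930) (nat_lit 228) (nat_lit 4603999072) (nat_lit 76) (nat_lit 10537080017) (nat_lit 28) (nat_lit 5) (nat_lit 31) (nat_lit 5) (nat_lit 29) (nat_lit 5) (nat_lit 510) (nat_lit 356) (nat_lit 274)) (XT.lf (nat_lit 0) (nat_lit 2543378644) (nat_lit 152) (nat_lit 6285593010) (nat_lit 228) (nat_lit 12039856584) (nat_lit 26)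 (nat_lit 5) (nat_lit 28) (nat_lit 5) (nat_lit 29) (nat_lit 5) (nat_lit 511) (nat_lit 356) (nat_lit 273)))) (XT.nd (nat_lit 156) (nat_lit 228) (nat_lit 0) (XT.nd (nat_lit 78) (nat_lit 0) (nat_lit 0) (XT.lf (nat_lit 0) (nat_lit 9855975176) (nat_lit 152) (nat_lit 2475692481) (nat_lit 228) (nat_lit 8868899780) (nat_lit 26) (nat_lit 5) (nat_lit 28) (nat_lit 5) (nat_lit 29) (nat_lit 5) (nat_lit 512) (nat_lit 356) (nat_lit 272)) (XT.lf (nat_lit 0) (nat_lit 15890597373) (nat_lit 228) (nat_lit 4272984311) (nat_lit 76) (nat_lit 1375644809) (nat_lit 26) (nat_lit 5) (nat_lit 29) (nat_lit 5) (nat_lit 27) (nat_lit 4) (nat_lit 513) (nat_lit 356) (nat_lit 271))) (XT.nd (nat_lit 78) (nat_lit 76) (nat_lit 0) (XT.lf (nat_lit 0) (nat_lit 2923066398) (nat_lit 152) (nat_lit 16610486123) (nat_lit 228) (nat_lit 2350857770) (nat_lit 24) (nat_lit 5) (nat_lit 26) (nat_lit 5) (nat_lit 27) (nat_lit 4) (nat_lit 514) (nat_lit 356)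 (nat_lit 270)) (XT.lf (nat_lit 0) (nat_lit 1005956412) (nat_lit 228) (nat_lit 11960712434) (nat_lit 76) (nat_lit 9269578138) (nat_lit 23) (nat_lit 5) (nat_lit 26) (nat_lit 5) (nat_lit 24) (nat_lit 5) (nat_lit 515) (nat_lit 356) (nat_lit 269))))) (XT.nd (nat_lit 234) (nat_lit 152) (nat_lit 0) (XT.nd (nat_lit 78) (nat_lit 152) (nat_lit 0) (XT.lf (nat_lit 0) (nat_lit 4376406846) (nat_lit 228) (nat_lit 4873854180) (nat_lit 76) (nat_lit 13344997050) (nat_lit 23) (nat_lit 5) (nat_lit 26) (nat_lit 5) (nat_lit 24) (nat_lit 5) (nat_lit 516) (nat_lit 356) (nat_lit 268)) (XT.nd (nat_lit 78) (nat_lit 0) (nat_lit 0) (XT.lf (nat_lit 0) (nat_lit 2348068698) (nat_lit 152) (nat_lit 5459823719) (nat_lit 228) (nat_lit 15153692302) (nat_lit 21) (nat_lit 5) (nat_lit 23) (nat_lit 5) (nat_lit 24) (nat_lit 5) (nat_lit 517) (nat_lit 356) (nat_lit 267)) (XT.lf (nat_lit 0) (nat_lit 9743275027) (nat_lit 152) (nat_lit 1576001946)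 (nat_lit 228) (nat_lit 12015743234) (nat_lit 21) (nat_lit 5) (nat_lit 23) (nat_lit 5) (nat_lit 24) (nat_lit 5) (nat_lit 518) (nat_lit 356) (nat_lit 266)))) (XT.nd (nat_lit 156) (nat_lit 76) (nat_lit 0) (XT.nd (nat_lit 78) (nat_lit 76) (nat_lit 0) (XT.lf (nat_lit 0) (nat_lit 14895260449) (nat_lit 228) (nat_lit 6481846101) (nat_lit 76) (nat_lit 2338937977) (nat_lit 21) (nat_lit 5) (nat_lit 24) (nat_lit 5) (nat_lit 22) (nat_lit 4) (nat_lit 519) (nat_lit 356) (nat_lit 265)) (XT.lf (nat_lit 0) (nat_lit 733334659) (nat_lit 76) (nat_lit 17803924390) (nat_lit 152) (nat_lit 5567547773) (nat_lit 20) (nat_lit 5) (nat_lit 21) (nat_lit 5) (nat_lit 22) (nat_lit 4) (nat_lit 520) (nat_lit 356) (nat_lit 264))) (XT.nd (nat_lit 78) (nat_lit 76) (nat_lit 0) (XT.lf (nat_lit 0) (nat_lit 8144822631) (nat_lit 76) (nat_lit 14130241768) (nat_lit 152) (nat_lit 2225827883) (nat_lit 20) (nat_lit 5) (nat_lit 21) (nat_lit 5) (nat_lit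 22) (nat_lit 4) (nat_lit 521) (nat_lit 356) (nat_lit 263)) (XT.lf (nat_lit 0) (nat_lit 1146947147) (nat_lit 152) (nat_lit 9243470858) (nat_lit 76) (nat_lit 14514740190) (nat_lit 19) (nat_lit 5) (nat_lit 21) (nat_lit 5) (nat_lit 20) (nat_lit 5) (nat_lit 522) (nat_lit 356) (nat_lit 262)))))) (XT.nd (nat_lit 51792) (nat_lit 0) (nat_lit 17860) (XT.nd (nat_lit 234) (nat_lit 76) (nat_lit 0) (XT.nd (nat_lit 78) (nat_lit 152) (nat_lit 0) (XT.lf (nat_lit 0) (nat_lit 4537531519) (nat_lit 152) (nat_lit 2038098636) (nat_lit 76) (nat_lit 18741988698) (nat_lit 19) (nat_lit 5) (nat_lit 21) (nat_lit 5) (nat_lit 20) (nat_lit 5) (nat_lit 523) (nat_lit 356) (nat_lit 261)) (XT.nd (nat_lit 78) (nat_lit 0) (nat_lit 0) (XT.lf (nat_lit 0) (nat_lit 5347457063) (nat_lit 152) (nat_lit 2663709180) (nat_lit 228) (nat_lit 17726864407) (nat_lit 17) (nat_lit 5) (nat_lit 19) (nat_lit 5) (nat_lit 20) (nat_lit 5) (nat_lit 524) (nat_lit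 356) (nat_lit 260)) (XT.lf (nat_lit 0) (nat_lit 11557240644) (nat_lit 228) (nat_lit 13301060548) (nat_lit 76) (nat_lit 1308496723) (nat_lit 17) (nat_lit 5) (nat_lit 20) (nat_lit 5) (nat_lit 18) (nat_lit 4) (nat_lit 525) (nat_lit 356) (nat_lit 259)))) (XT.nd (nat_lit 156) (nat_lit 0) (nat_lit 0) (XT.nd (nat_lit 78) (nat_lit 76) (nat_lit 0) (XT.lf (nat_lit 0) (nat_lit 15172845125) (nat_lit 228) (nat_lit 6120859929) (nat_lit 76) (nat_lit 5310469742) (nat_lit 17) (nat_lit 5) (nat_lit 20) (nat_lit 5) (nat_lit 18) (nat_lit 4) (nat_lit 526) (nat_lit 356) (nat_lit 258)) (XT.lf (nat_lit 0) (nat_lit 1185689127) (nat_lit 76) (nat_lit 17664112156) (nat_lit 152) (nat_lit 8200723452) (nat_lit 16) (nat_lit 5) (nat_lit 17) (nat_lit 5) (nat_lit 18) (nat_lit 4) (nat_lit 527) (nat_lit 356) (nat_lit 257))) (XT.nd (nat_lit 78) (nat_lit 0) (nat_lit 0) (XT.lf (nat_lit 0) (nat_lit 8688748760) (nat_lit 76) (nat_lit 13934117563)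 (nat_lit 152) (nat_lit 4882490146) (nat_lit 16) (nat_lit 5) (nat_lit 17) (nat_lit 5) (nat_lit 18) (nat_lit 4) (nat_lit 528) (nat_lit 356) (nat_lit 256)) (XT.lf (nat_lit 0) (nat_lit 16309918340) (nat_lit 76) (nat_lit 10143332724) (nat_lit 152) (nat_lit 1516402676) (nat_lit 16) (nat_lit 5) (nat_lit 17) (nat_lit 5) (nat_lit 18) (nat_lit 4) (nat_lit 529) (nat_lit 356) (nat_lit 255))))) (XT.nd (nat_lit 234) (nat_lit 1520) (nat_lit 0) (XT.nd (nat_lit 78) (nat_lit 1520) (nat_lit 0) (XT.lf (nat_lit 0) (nat_lit 1661384675) (nat_lit 836) (nat_lit 460340664) (nat_lit 0) (nat_lit 1661384675) (nat_lit 291) (nat_lit 5) (nat_lit 302) (nat_lit 4) (nat_lit 291) (nat_lit 4) (nat_lit 426) (nat_lit 357) (nat_lit 357)) (XT.nd (nat_lit 78) (nat_lit 760) (nat_lit 0) (XT.lf (nat_lit 0) (nat_lit 4253885803) (nat_lit 760) (nat_lit 2386534594) (nat_lit 760) (nat_lit 977712474) (nat_lit 281) (nat_lit 4) (nat_lit 291) (nat_lit 5)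 (nat_lit 291) (nat_lit 4) (nat_lit 427) (nat_lit 357) (nat_lit 356)) (XT.lf (nat_lit 0) (nat_lit 1813211469) (nat_lit 684) (nat_lit 465616127) (nat_lit 760) (nat_lit 5392895893) (nat_lit 271) (nat_lit 5) (nat_lit 280) (nat_lit 5) (nat_lit 281) (nat_lit 4) (nat_lit 428) (nat_lit 357) (nat_lit 355)))) (XT.nd (nat_lit 156) (nat_lit 684) (nat_lit 0) (XT.nd (nat_lit 78) (nat_lit 836) (nat_lit 0) (XT.lf (nat_lit 0) (nat_lit 5558920065) (nat_lit 760) (nat_lit 671935544) (nat_lit 0) (nat_lit 1496041520) (nat_lit 271) (nat_lit 5) (nat_lit 281) (nat_lit 4) (nat_lit 271) (nat_lit 4) (nat_lit 429) (nat_lit 357) (nat_lit 354)) (XT.lf (nat_lit 0) (nat_lit 1079757711) (nat_lit 836) (nat_lit 3183301838) (nat_lit 76) (nat_lit 3520576540) (nat_lit 260) (nat_lit 5) (nat_lit 271) (nat_lit 5) (nat_lit 261) (nat_lit 4) (nat_lit 430) (nat_lit 357) (nat_lit 353))) (XT.nd (nat_lit 78) (nat_lit 0) (nat_lit 0) (XT.lf (nat_lit 0)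 (nat_lit 2090217672) (nat_lit 684) (nat_lit 2231883163) (nat_lit 760) (nat_lit 3520015376) (nat_lit 251) (nat_lit 5) (nat_lit 260) (nat_lit 5) (nat_lit 261) (nat_lit 4) (nat_lit 431) (nat_lit 357) (nat_lit 352)) (XT.lf (nat_lit 0) (nat_lit 7444262390) (nat_lit 684) (nat_lit 147659456) (nat_lit 760) (nat_lit 310656808) (nat_lit 251) (nat_lit 5) (nat_lit 260) (nat_lit 5) (nat_lit 261) (nat_lit 4) (nat_lit 432) (nat_lit 357) (nat_lit 351))))))))
noncomputable def xc50 : XT := (XT.nd (nat_lit 2106) (nat_lit 4560) (nat_lit 0) (XT.nd (nat_lit 1014) (nat_lit 4332) (nat_lit 0) (XT.nd (nat_lit 468) (nat_lit 2964) (nat_lit 0) (XT.nd (nat_lit 234) (nat_lit 1368) (nat_lit 0) (XT.nd (nat_lit 78) (nat_lit 684) (nat_lit 0) (XT.lf (nat_lit 0) (nat_lit 2911063631) (nat_lit 760) (nat_lit 3058753597) (nat_lit 76) (nat_lit 1994370509) (nat_lit 241) (nat_lit 5) (nat_lit 251) (nat_lit 5) (nat_lit 242) (nat_lit 4) (nat_lit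 433) (nat_lit 357) (nat_lit 350)) (XT.nd (nat_lit 78) (nat_lit 76) (nat_lit 0) (XT.lf (nat_lit 0) (nat_lit 2314713092) (nat_lit 608) (nat_lit 3840066389) (nat_lit 684) (nat_lit 1873035609) (nat_lit 233) (nat_lit 5) (nat_lit 241) (nat_lit 5) (nat_lit 242) (nat_lit 4) (nat_lit 434) (nat_lit 357) (nat_lit 349)) (XT.lf (nat_lit 0) (nat_lit 1316204062) (nat_lit 684) (nat_lit 332891337) (nat_lit 76) (nat_lit 6444230272) (nat_lit 232) (nat_lit 5) (nat_lit 241) (nat_lit 5) (nat_lit 233) (nat_lit 5) (nat_lit 435) (nat_lit 357) (nat_lit 348)))) (XT.nd (nat_lit 78) (nat_lit 684) (nat_lit 0) (XT.lf (nat_lit 0) (nat_lit 4525578453) (nat_lit 760) (nat_lit 3021792161) (nat_lit 76) (nat_lit 612957655) (nat_lit 223) (nat_lit 5) (nat_lit 233) (nat_lit 5) (nat_lit 224) (nat_lit 4) (nat_lit 436) (nat_lit 357) (nat_lit 347)) (XT.nd (nat_lit 78) (nat_lit 76) (nat_lit 0) (XT.lf (nat_lit 0) (nat_lit 2448491792) (nat_lit 608)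 (nat_lit 5324289272) (nat_lit 684) (nat_lit 456473924) (nat_lit 215) (nat_lit 5) (nat_lit 223) (nat_lit 5) (nat_lit 224) (nat_lit 4) (nat_lit 437) (nat_lit 357) (nat_lit 346)) (XT.lf (nat_lit 0) (nat_lit 2714053296) (nat_lit 684) (nat_lit 316534835) (nat_lit 76) (nat_lit 5269360766) (nat_lit 214) (nat_lit 5) (nat_lit 223) (nat_lit 5) (nat_lit 215) (nat_lit 5) (nat_lit 438) (nat_lit 357) (nat_lit 345))))) (XT.nd (nat_lit 234) (nat_lit 1748) (nat_lit 0) (XT.nd (nat_lit 78) (nat_lit 608) (nat_lit 0) (XT.lf (nat_lit 0) (nat_lit 5255922730) (nat_lit 608) (nat_lit 665973361) (nat_lit 684) (nat_lit 2450553503) (nat_lit 206) (nat_lit 5) (nat_lit 214) (nat_lit 5) (nat_lit 215) (nat_lit 5) (nat_lit 439) (nat_lit 357) (nat_lit 344)) (XT.nd (nat_lit 78) (nat_lit 0) (nat_lit 0) (XT.lf (nat_lit 0) (nat_lit 713298362) (nat_lit 608) (nat_lit 6000633219) (nat_lit 76) (nat_lit 1732911050) (nat_lit 198) (nat_lit 5) (nat_lit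 206) (nat_lit 5) (nat_lit 199) (nat_lit 5) (nat_lit 440) (nat_lit 357) (nat_lit 343)) (XT.lf (nat_lit 0) (nat_lit 3879751582) (nat_lit 608) (nat_lit 448514091) (nat_lit 76) (nat_lit 4194741659) (nat_lit 198) (nat_lit 5) (nat_lit 206) (nat_lit 5) (nat_lit 199) (nat_lit 5) (nat_lit 441) (nat_lit 357) (nat_lit 342)))) (XT.nd (nat_lit 156) (nat_lit 532) (nat_lit 0) (XT.nd (nat_lit 78) (nat_lit 608) (nat_lit 0) (XT.lf (nat_lit 0) (nat_lit 5216517058) (nat_lit 608) (nat_lit 1874576189) (nat_lit 684) (nat_lit 1510020410) (nat_lit 190) (nat_lit 5) (nat_lit 198) (nat_lit 5) (nat_lit 199) (nat_lit 5) (nat_lit 442) (nat_lit 357) (nat_lit 341)) (XT.lf (nat_lit 0) (nat_lit 1633620804) (nat_lit 608) (nat_lit 6413277410) (nat_lit 76) (nat_lit 634315539) (nat_lit 182) (nat_lit 5) (nat_lit 190) (nat_lit 5) (nat_lit 183) (nat_lit 5) (nat_lit 443) (nat_lit 357) (nat_lit 340))) (XT.nd (nat_lit 78) (nat_lit 532) (nat_lit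 0) (XT.lf (nat_lit 0) (nat_lit 4803601957) (nat_lit 608) (nat_lit 773016089) (nat_lit 76) (nat_lit 3186471118) (nat_lit 182) (nat_lit 5) (nat_lit 190) (nat_lit 5) (nat_lit 183) (nat_lit 5) (nat_lit 444) (nat_lit 357) (nat_lit 339)) (XT.lf (nat_lit 0) (nat_lit 4979287482) (nat_lit 532) (nat_lit 3039426182) (nat_lit 608) (nat_lit 828299549) (nat_lit 175) (nat_lit 5) (nat_lit 182) (nat_lit 5) (nat_lit 183) (nat_lit 5) (nat_lit 445) (nat_lit 357) (nat_lit 338)))))) (XT.nd (nat_lit 546) (nat_lit 1748) (nat_lit 0) (XT.nd (nat_lit 234) (nat_lit 1520) (nat_lit 0) (XT.nd (nat_lit 78) (nat_lit 532) (nat_lit 0) (XT.lf (nat_lit 0) (nat_lit 1867355003) (nat_lit 456) (nat_lit 434071030) (nat_lit 532) (nat_lit 6631587746) (nat_lit 168) (nat_lit 5) (nat_lit 174) (nat_lit 5) (nat_lit 175) (nat_lit 5) (nat_lit 446) (nat_lit 357) (nat_lit 337)) (XT.nd (nat_lit 78) (nat_lit 532) (nat_lit 0) (XT.lf (nat_lit 0) (nat_lit 5473276296)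 (nat_lit 532) (nat_lit 1337588621) (nat_lit 76) (nat_lit 2209990626) (nat_lit 168) (nat_lit 5) (nat_lit 175) (nat_lit 5) (nat_lit 169) (nat_lit 5) (nat_lit 447) (nat_lit 357) (nat_lit 336)) (XT.lf (nat_lit 0) (nat_lit 4495593811) (nat_lit 532) (nat_lit 4196060850) (nat_lit 608) (nat_lit 419179922) (nat_lit 161) (nat_lit 5) (nat_lit 168) (nat_lit 5) (nat_lit 169) (nat_lit 5) (nat_lit 448) (nat_lit 357) (nat_lit 335)))) (XT.nd (nat_lit 156) (nat_lit 988) (nat_lit 0) (XT.nd (nat_lit 78) (nat_lit 0) (nat_lit 0) (XT.lf (nat_lit 0) (nat_lit 1192934446) (nat_lit 456) (nat_lit 1510485107) (nat_lit 532) (nat_lit 6499514656) (nat_lit 154) (nat_lit 5) (nat_lit 160) (nat_lit 5) (nat_lit 161) (nat_lit 5) (nat_lit 449) (nat_lit 357) (nat_lit 334)) (XT.lf (nat_lit 0) (nat_lit 5873642831) (nat_lit 532) (nat_lit 2193635968) (nat_lit 76) (nat_lit 1229765746) (nat_lit 154) (nat_lit 5) (nat_lit 161) (nat_lit 5) (nat_lit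 155) (nat_lit 5) (nat_lit 450) (nat_lit 357) (nat_lit 333))) (XT.nd (nat_lit 78) (nat_lit 532) (nat_lit 0) (XT.lf (nat_lit 0) (nat_lit 3712790711) (nat_lit 456) (nat_lit 5381162886) (nat_lit 532) (nat_lit 299388877) (nat_lit 148) (nat_lit 5) (nat_lit 154) (nat_lit 5) (nat_lit 155) (nat_lit 5) (nat_lit 451) (nat_lit 357) (nat_lit 332)) (XT.lf (nat_lit 0) (nat_lit 194321971) (nat_lit 456) (nat_lit 2623733360) (nat_lit 532) (nat_lit 6673797339) (nat_lit 141) (nat_lit 5) (nat_lit 147) (nat_lit 5) (nat_lit 148) (nat_lit 5) (nat_lit 452) (nat_lit 357) (nat_lit 331))))) (XT.nd (nat_lit 234) (nat_lit 1216) (nat_lit 0) (XT.nd (nat_lit 78) (nat_lit 532) (nat_lit 0) (XT.lf (nat_lit 0) (nat_lit 5986567133) (nat_lit 532) (nat_lit 3396956906) (nat_lit 76) (nat_lit 208951696) (nat_lit 141) (nat_lit 5) (nat_lit 148) (nat_lit 5) (nat_lit 142) (nat_lit 5) (nat_lit 453) (nat_lit 357) (nat_lit 330)) (XT.nd (nat_lit 78) (nat_lit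 76) (nat_lit 0) (XT.lf (nat_lit 0) (nat_lit 2573673979) (nat_lit 456) (nat_lit 6632905740) (nat_lit 532) (nat_lit 488805002) (nat_lit 135) (nat_lit 5) (nat_lit 141) (nat_lit 5) (nat_lit 142) (nat_lit 5) (nat_lit 454) (nat_lit 357) (nat_lit 329)) (XT.lf (nat_lit 0) (nat_lit 2632493716) (nat_lit 532) (nat_lit 1172305257) (nat_lit 76) (nat_lit 5995695372) (nat_lit 134) (nat_lit 5) (nat_lit 141) (nat_lit 5) (nat_lit 135) (nat_lit 5) (nat_lit 455) (nat_lit 357) (nat_lit 328)))) (XT.nd (nat_lit 156) (nat_lit 456) (nat_lit 0) (XT.nd (nat_lit 78) (nat_lit 380) (nat_lit 0) (XT.lf (nat_lit 0) (nat_lit 4893746310) (nat_lit 380) (nat_lit 902799654) (nat_lit 456) (nat_lit 4111392114) (nat_lit 129) (nat_lit 5) (nat_lit 134) (nat_lit 5) (nat_lit 135) (nat_lit 5) (nat_lit 456) (nat_lit 357) (nat_lit 327)) (XT.lf (nat_lit 0) (nat_lit 1015877594) (nat_lit 380) (nat_lit 7991318982) (nat_lit 456) (nat_lit 1010701092) (nat_lit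 124) (nat_lit 5) (nat_lit 129) (nat_lit 5) (nat_lit 130) (nat_lit 5) (nat_lit 457) (nat_lit 357) (nat_lit 326))) (XT.nd (nat_lit 78) (nat_lit 380) (nat_lit 0) (XT.lf (nat_lit 0) (nat_lit 2119213742) (nat_lit 456) (nat_lit 2978916943) (nat_lit 76) (nat_lit 5031769670) (nat_lit 123) (nat_lit 5) (nat_lit 129) (nat_lit 5) (nat_lit 124) (nat_lit 5) (nat_lit 458) (nat_lit 357) (nat_lit 325)) (XT.lf (nat_lit 0) (nat_lit 3136466053) (nat_lit 380) (nat_lit 2138559498) (nat_lit 456) (nat_lit 4969478694) (nat_lit 118) (nat_lit 5) (nat_lit 123) (nat_lit 5) (nat_lit 124) (nat_lit 5) (nat_lit 459) (nat_lit 357) (nat_lit 324))))))) (XT.nd (nat_lit 1014) (nat_lit 1976) (nat_lit 0) (XT.nd (nat_lit 468) (nat_lit 1368) (nat_lit 0) (XT.nd (nat_lit 234) (nat_lit 456) (nat_lit 0) (XT.nd (nat_lit 78) (nat_lit 760) (nat_lit 0) (XT.lf (nat_lit 0) (nat_lit 8476572014) (nat_lit 456) (nat_lit 1015291636) (nat_lit 76) (nat_lit 869914982)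 (nat_lit 118) (nat_lit 5) (nat_lit 124) (nat_lit 5) (nat_lit 119) (nat_lit 5) (nat_lit 460) (nat_lit 357) (nat_lit 323)) (XT.nd (nat_lit 78) (nat_lit 304) (nat_lit 0) (XT.lf (nat_lit 0) (nat_lit 1249720278) (nat_lit 456) (nat_lit 5298051839) (nat_lit 76) (nat_lit 3933382180) (nat_lit 112) (nat_lit 5) (nat_lit 118) (nat_lit 5) (nat_lit 113) (nat_lit 5) (nat_lit 461) (nat_lit 357) (nat_lit 322)) (XT.lf (nat_lit 0) (nat_lit 853175394) (nat_lit 304) (nat_lit 3539102753) (nat_lit 380) (nat_lit 6211015611) (nat_lit 108) (nat_lit 5) (nat_lit 112) (nat_lit 5) (nat_lit 113) (nat_lit 5) (nat_lit 462) (nat_lit 357) (nat_lit 321)))) (XT.nd (nat_lit 78) (nat_lit 456) (nat_lit 0) (XT.lf (nat_lit 0) (nat_lit 7137721105) (nat_lit 304) (nat_lit 453701801) (nat_lit 380) (nat_lit 3136606829) (nat_lit 108) (nat_lit 5) (nat_lit 112) (nat_lit 5) (nat_lit 113) (nat_lit 5) (nat_lit 463) (nat_lit 357) (nat_lit 320)) (XT.nd (nat_lit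 78) (nat_lit 76) (nat_lit 0) (XT.lf (nat_lit 0) (nat_lit 2648912249) (nat_lit 380) (nat_lit 8199201718) (nat_lit 456) (nat_lit 7303081) (nat_lit 103) (nat_lit 5) (nat_lit 108) (nat_lit 5) (nat_lit 109) (nat_lit 5) (nat_lit 464) (nat_lit 357) (nat_lit 319)) (XT.lf (nat_lit 0) (nat_lit 3129070946) (nat_lit 456) (nat_lit 2008334586) (nat_lit 76) (nat_lit 5847834836) (nat_lit 102) (nat_lit 5) (nat_lit 108) (nat_lit 5) (nat_lit 103) (nat_lit 5) (nat_lit 465) (nat_lit 357) (nat_lit 318))))) (XT.nd (nat_lit 234) (nat_lit 684) (nat_lit 0) (XT.nd (nat_lit 78) (nat_lit 380) (nat_lit 0) (XT.lf (nat_lit 0) (nat_lit 4310272022) (nat_lit 304) (nat_lit 2005585500) (nat_lit 380) (nat_lit 4802072287) (nat_lit 98) (nat_lit 5) (nat_lit 102) (nat_lit 5) (nat_lit 103) (nat_lit 5) (nat_lit 466) (nat_lit 357) (nat_lit 317)) (XT.nd (nat_lit 78) (nat_lit 380) (nat_lit 0) (XT.lf (nat_lit 0) (nat_lit 9547735213) (nat_lit 380) (nat_lit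 538644412) (nat_lit 76) (nat_lit 1167292068) (nat_lit 98) (nat_lit 5) (nat_lit 103) (nat_lit 5) (nat_lit 99) (nat_lit 5) (nat_lit 467) (nat_lit 357) (nat_lit 316)) (XT.lf (nat_lit 0) (nat_lit 1445316440) (nat_lit 380) (nat_lit 5541218372) (nat_lit 76) (nat_lit 4405185015) (nat_lit 93) (nat_lit 5) (nat_lit 98) (nat_lit 5) (nat_lit 94) (nat_lit 5) (nat_lit 468) (nat_lit 357) (nat_lit 315)))) (XT.nd (nat_lit 156) (nat_lit 380) (nat_lit 0) (XT.nd (nat_lit 78) (nat_lit 0) (nat_lit 0) (XT.lf (nat_lit 0) (nat_lit 781930055) (nat_lit 304) (nat_lit 3824516814) (nat_lit 380) (nat_lit 6926486906) (nat_lit 89) (nat_lit 5) (nat_lit 93) (nat_lit 5) (nat_lit 94) (nat_lit 5) (nat_lit 469) (nat_lit 357) (nat_lit 314)) (XT.lf (nat_lit 0) (nat_lit 7247765472) (nat_lit 304) (nat_lit 581560360) (nat_lit 380) (nat_lit 3847699450) (nat_lit 89) (nat_lit 5) (nat_lit 93) (nat_lit 5) (nat_lit 94) (nat_lit 5) (nat_lit 470) (nat_lit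 357) (nat_lit 313))) (XT.nd (nat_lit 78) (nat_lit 76) (nat_lit 0) (XT.lf (nat_lit 0) (nat_lit 1968650986) (nat_lit 304) (nat_lit 9140464509) (nat_lit 380) (nat_lit 715057397) (nat_lit 85) (nat_lit 5) (nat_lit 89) (nat_lit 5) (nat_lit 90) (nat_lit 5) (nat_lit 471) (nat_lit 357) (nat_lit 312)) (XT.lf (nat_lit 0) (nat_lit 2443547408) (nat_lit 380) (nat_lit 3497789745) (nat_lit 76) (nat_lit 6032709887) (nat_lit 84) (nat_lit 5) (nat_lit 89) (nat_lit 5) (nat_lit 85) (nat_lit 5) (nat_lit 472) (nat_lit 357) (nat_lit 311)))))) (XT.nd (nat_lit 546) (nat_lit 836) (nat_lit 0) (XT.nd (nat_lit 234) (nat_lit 608) (nat_lit 0) (XT.nd (nat_lit 78) (nat_lit 304) (nat_lit 0) (XT.lf (nat_lit 0) (nat_lit 2963851705) (nat_lit 228) (nat_lit 2673961771) (nat_lit 304) (nat_lit 6489391375) (nat_lit 81) (nat_lit 5) (nat_lit 84) (nat_lit 5) (nat_lit 85) (nat_lit 5) (nat_lit 473) (nat_lit 357) (nat_lit 310)) (XT.nd (nat_lit 78) (nat_lit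 304) (nat_lit 0) (XT.lf (nat_lit 0) (nat_lit 8886909073) (nat_lit 304) (nat_lit 2742880461) (nat_lit 76) (nat_lit 653838957) (nat_lit 81) (nat_lit 5) (nat_lit 85) (nat_lit 5) (nat_lit 82) (nat_lit 5) (nat_lit 474) (nat_lit 357) (nat_lit 309)) (XT.lf (nat_lit 0) (nat_lit 3781385926) (nat_lit 304) (nat_lit 8425624627) (nat_lit 380) (nat_lit 236070703) (nat_lit 77) (nat_lit 5) (nat_lit 81) (nat_lit 5) (nat_lit 82) (nat_lit 5) (nat_lit 475) (nat_lit 357) (nat_lit 308)))) (XT.nd (nat_lit 156) (nat_lit 304) (nat_lit 0) (XT.nd (nat_lit 78) (nat_lit 228) (nat_lit 0) (XT.lf (nat_lit 0) (nat_lit 2930985934) (nat_lit 380) (nat_lit 2208187395) (nat_lit 76) (nat_lit 7466534480) (nat_lit 76) (nat_lit 5) (nat_lit 81) (nat_lit 5) (nat_lit 77) (nat_lit 5) (nat_lit 476) (nat_lit 357) (nat_lit 307)) (XT.lf (nat_lit 0) (nat_lit 4374682525) (nat_lit 228) (nat_lit 1776507566) (nat_lit 304) (nat_lit 6620526159) (nat_lit 73)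 (nat_lit 5) (nat_lit 76) (nat_lit 5) (nat_lit 77) (nat_lit 5) (nat_lit 477) (nat_lit 357) (nat_lit 306))) (XT.nd (nat_lit 78) (nat_lit 304) (nat_lit 0) (XT.lf (nat_lit 0) (nat_lit 9426217277) (nat_lit 304) (nat_lit 1888184926) (nat_lit 76) (nat_lit 1626853802) (nat_lit 73) (nat_lit 5) (nat_lit 77) (nat_lit 5) (nat_lit 74) (nat_lit 5) (nat_lit 478) (nat_lit 357) (nat_lit 305)) (XT.lf (nat_lit 0) (nat_lit 4746676815) (nat_lit 304) (nat_lit 8028110215) (nat_lit 380) (nat_lit 339257827) (nat_lit 69) (nat_lit 5) (nat_lit 73) (nat_lit 5) (nat_lit 74) (nat_lit 5) (nat_lit 479) (nat_lit 357) (nat_lit 304))))) (XT.nd (nat_lit 234) (nat_lit 532) (nat_lit 0) (XT.nd (nat_lit 78) (nat_lit 228) (nat_lit 0) (XT.lf (nat_lit 0) (nat_lit 2840296946) (nat_lit 380) (nat_lit 1823887747) (nat_lit 76) (nat_lit 8626180754) (nat_lit 68) (nat_lit 5) (nat_lit 73) (nat_lit 5) (nat_lit 69) (nat_lit 5) (nat_lit 480) (nat_lit 357)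 (nat_lit 303)) (XT.nd (nat_lit 78) (nat_lit 0) (nat_lit 0) (XT.lf (nat_lit 0) (nat_lit 4858236545) (nat_lit 228) (nat_lit 1218424626) (nat_lit 304) (nat_lit 7393569246) (nat_lit 65) (nat_lit 5) (nat_lit 68) (nat_lit 5) (nat_lit 69) (nat_lit 5) (nat_lit 481) (nat_lit 357) (nat_lit 302)) (XT.lf (nat_lit 0) (nat_lit 9371382759) (nat_lit 304) (nat_lit 2023611449) (nat_lit 76) (nat_lit 2258843560) (nat_lit 65) (nat_lit 5) (nat_lit 69) (nat_lit 5) (nat_lit 66) (nat_lit 5) (nat_lit 482) (nat_lit 357) (nat_lit 301)))) (XT.nd (nat_lit 156) (nat_lit 228) (nat_lit 0) (XT.nd (nat_lit 78) (nat_lit 76) (nat_lit 0) (XT.lf (nat_lit 0) (nat_lit 4697231173) (nat_lit 228) (nat_lit 8040393980) (nat_lit 304) (nat_lit 1103396921) (nat_lit 62) (nat_lit 5) (nat_lit 65) (nat_lit 5) (nat_lit 66) (nat_lit 5) (nat_lit 483) (nat_lit 357) (nat_lit 300)) (XT.lf (nat_lit 0) (nat_lit 2091987155) (nat_lit 304) (nat_lit 2518685806) (nat_lit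 76) (nat_lit 9421399953) (nat_lit 61) (nat_lit 5) (nat_lit 65) (nat_lit 5) (nat_lit 62) (nat_lit 5) (nat_lit 484) (nat_lit 357) (nat_lit 299))) (XT.nd (nat_lit 78) (nat_lit 0) (nat_lit 0) (XT.lf (nat_lit 0) (nat_lit 4235249147) (nat_lit 228) (nat_lit 1096543556) (nat_lit 304) (nat_lit 8895116772) (nat_lit 58) (nat_lit 5) (nat_lit 61) (nat_lit 5) (nat_lit 62) (nat_lit 5) (nat_lit 485) (nat_lit 357) (nat_lit 298)) (XT.lf (nat_lit 0) (nat_lit 8637506789) (nat_lit 304) (nat_lit 3335261830) (nat_lit 76) (nat_lit 2452867915) (nat_lit 58) (nat_lit 5) (nat_lit 62) (nat_lit 5) (nat_lit 59) (nat_lit 5) (nat_lit 486) (nat_lit 357) (nat_lit 297))))))))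
noncomputable def xc51 : XT := (XT.nd (nat_lit 2106) (nat_lit 760) (nat_lit 0) (XT.nd (nat_lit 1014) (nat_lit 988) (nat_lit 0) (XT.nd (nat_lit 468) (nat_lit 684) (nat_lit 0) (XT.nd (nat_lit 234) (nat_lit 228) (nat_lit 0) (XT.nd (nat_lit 78) (nat_lit 304) (nat_lit 0) (XT.lf (nat_lit 0) (nat_lit 3441057826) (nat_lit 228) (nat_lit 8566455243) (nat_lit 304) (nat_lit 2620877209) (nat_lit 55) (nat_lit 5) (nat_lit 58) (nat_lit 5) (nat_lit 59) (nat_lit 5) (nat_lit 487) (nat_lit 357) (nat_lit 296)) (XT.nd (nat_lit 78) (nat_lit 228) (nat_lit 0) (XT.lf (nat_lit 0) (nat_lit 592893121) (nat_lit 304) (nat_lit 4491915030) (nat_lit 76) (nat_lit 9750503478) (nat_lit 54) (nat_lit 5) (nat_lit 58) (nat_lit 5) (nat_lit 55) (nat_lit 5) (nat_lit 488) (nat_lit 357) (nat_lit 295)) (XT.lf (nat_lit 0) (nat_lit 2300052026) (nat_lit 228) (nat_lit 1520014214) (nat_lit 304) (nat_lit 11226289065) (nat_lit 51) (nat_lit 5) (nat_lit 54)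 (nat_lit 5) (nat_lit 55) (nat_lit 5) (nat_lit 489) (nat_lit 357) (nat_lit 294)))) (XT.nd (nat_lit 78) (nat_lit 228) (nat_lit 0) (XT.lf (nat_lit 0) (nat_lit 7125272686) (nat_lit 304) (nat_lit 6036543582) (nat_lit 76) (nat_lit 2099548295) (nat_lit 51) (nat_lit 5) (nat_lit 55) (nat_lit 5) (nat_lit 52) (nat_lit 5) (nat_lit 490) (nat_lit 357) (nat_lit 293)) (XT.nd (nat_lit 78) (nat_lit 0) (nat_lit 0) (XT.lf (nat_lit 0) (nat_lit 757936924) (nat_lit 228) (nat_lit 9723641684) (nat_lit 304) (nat_lit 4999409714) (nat_lit 48) (nat_lit 5) (nat_lit 51) (nat_lit 5) (nat_lit 52) (nat_lit 5) (nat_lit 491) (nat_lit 357) (nat_lit 292)) (XT.lf (nat_lit 0) (nat_lit 7721110096) (nat_lit 228) (nat_lit 6194686721) (nat_lit 304) (nat_lit 1789005960) (nat_lit 48) (nat_lit 5) (nat_lit 51) (nat_lit 5) (nat_lit 52) (nat_lit 5) (nat_lit 492) (nat_lit 357) (nat_lit 291))))) (XT.nd (nat_lit 234) (nat_lit 456) (nat_lit 0) (XT.nd (nat_lit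 78) (nat_lit 152) (nat_lit 0) (XT.lf (nat_lit 0) (nat_lit 1436775985) (nat_lit 304) (nat_lit 1167658350) (nat_lit 76) (nat_lit 13329066593) (nat_lit 47) (nat_lit 5) (nat_lit 51) (nat_lit 5) (nat_lit 48) (nat_lit 5) (nat_lit 493) (nat_lit 357) (nat_lit 290)) (XT.nd (nat_lit 78) (nat_lit 0) (nat_lit 0) (XT.lf (nat_lit 0) (nat_lit 4719110346) (nat_lit 228) (nat_lit 10372024398) (nat_lit 76) (nat_lit 1075095101) (nat_lit 45) (nat_lit 5) (nat_lit 48) (nat_lit 5) (nat_lit 46) (nat_lit 5) (nat_lit 494) (nat_lit 357) (nat_lit 289)) (XT.lf (nat_lit 0) (nat_lit 8063592616) (nat_lit 228) (nat_lit 3557286884) (nat_lit 76) (nat_lit 4782816697) (nat_lit 45) (nat_lit 5) (nat_lit 48) (nat_lit 5) (nat_lit 46) (nat_lit 5) (nat_lit 495) (nat_lit 357) (nat_lit 288)))) (XT.nd (nat_lit 156) (nat_lit 228) (nat_lit 0) (XT.nd (nat_lit 78) (nat_lit 0) (nat_lit 0) (XT.lf (nat_lit 0) (nat_lit 3391495160) (nat_lit 228) (nat_lit 8077416478)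 (nat_lit 304) (nat_lit 5177133923) (nat_lit 42) (nat_lit 5) (nat_lit 45) (nat_lit 5) (nat_lit 46) (nat_lit 5) (nat_lit 496) (nat_lit 357) (nat_lit 287)) (XT.lf (nat_lit 0) (nat_lit 10481049955) (nat_lit 228) (nat_lit 4457334665) (nat_lit 304) (nat_lit 1954948724) (nat_lit 42) (nat_lit 5) (nat_lit 45) (nat_lit 5) (nat_lit 46) (nat_lit 5) (nat_lit 497) (nat_lit 357) (nat_lit 286))) (XT.nd (nat_lit 78) (nat_lit 0) (nat_lit 0) (XT.lf (nat_lit 0) (nat_lit 519101347) (nat_lit 152) (nat_lit 771013199) (nat_lit 228) (nat_lit 15855773320) (nat_lit 39) (nat_lit 5) (nat_lit 41) (nat_lit 5) (nat_lit 42) (nat_lit 5) (nat_lit 498) (nat_lit 357) (nat_lit 285)) (XT.lf (nat_lit 0) (nat_lit 4609301046) (nat_lit 228) (nat_lit 9805262052) (nat_lit 76) (nat_lit 2987975630) (nat_lit 39) (nat_lit 5) (nat_lit 42) (nat_lit 5) (nat_lit 40) (nat_lit 5) (nat_lit 499) (nat_lit 357) (nat_lit 284)))))) (XT.nd (nat_lit 546) (nat_lit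 380) (nat_lit 0) (XT.nd (nat_lit 234) (nat_lit 380) (nat_lit 0) (XT.nd (nat_lit 78) (nat_lit 228) (nat_lit 0) (XT.lf (nat_lit 0) (nat_lit 7973166242) (nat_lit 228) (nat_lit 2897535391) (nat_lit 76) (nat_lit 6794066513) (nat_lit 39) (nat_lit 5) (nat_lit 42) (nat_lit 5) (nat_lit 40) (nat_lit 5) (nat_lit 500) (nat_lit 357) (nat_lit 283)) (XT.nd (nat_lit 78) (nat_lit 0) (nat_lit 0) (XT.lf (nat_lit 0) (nat_lit 4158649743) (nat_lit 228) (nat_lit 7246374338) (nat_lit 304) (nat_lit 6527214979) (nat_lit 36) (nat_lit 5) (nat_lit 39) (nat_lit 5) (nat_lit 40) (nat_lit 5) (nat_lit 501) (nat_lit 357) (nat_lit 282)) (XT.lf (nat_lit 0) (nat_lit 11351288973) (nat_lit 228) (nat_lit 3547618789) (nat_lit 304) (nat_lit 3306294850) (nat_lit 36) (nat_lit 5) (nat_lit 39) (nat_lit 5) (nat_lit 40) (nat_lit 5) (nat_lit 502) (nat_lit 357) (nat_lit 281)))) (XT.nd (nat_lit 156) (nat_lit 152) (nat_lit 0) (XT.nd (nat_lit 78) (nat_lit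 76) (nat_lit 0) (XT.lf (nat_lit 0) (nat_lit 161317127) (nat_lit 152) (nat_lit 18278202645) (nat_lit 228) (nat_lit 44579430) (nat_lit 34) (nat_lit 5) (nat_lit 36) (nat_lit 5) (nat_lit 37) (nat_lit 4) (nat_lit 503) (nat_lit 357) (nat_lit 280)) (XT.lf (nat_lit 0) (nat_lit 3283498949) (nat_lit 228) (nat_lit 11446562002) (nat_lit 76) (nat_lit 4037213354) (nat_lit 33) (nat_lit 5) (nat_lit 36) (nat_lit 5) (nat_lit 34) (nat_lit 5) (nat_lit 504) (nat_lit 357) (nat_lit 279))) (XT.nd (nat_lit 78) (nat_lit 152) (nat_lit 0) (XT.lf (nat_lit 0) (nat_lit 6652430187) (nat_lit 228) (nat_lit 4475815874) (nat_lit 76) (nat_lit 7928373350) (nat_lit 33) (nat_lit 5) (nat_lit 36) (nat_lit 5) (nat_lit 34) (nat_lit 5) (nat_lit 505) (nat_lit 357) (nat_lit 278)) (XT.lf (nat_lit 0) (nat_lit 2626932062) (nat_lit 152) (nat_lit 7454243821) (nat_lit 228) (nat_lit 9270736775) (nat_lit 31) (nat_lit 5) (nat_lit 33) (nat_lit 5) (nat_lit 34)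 (nat_lit 5) (nat_lit 506) (nat_lit 357) (nat_lit 277))))) (XT.nd (nat_lit 234) (nat_lit 152) (nat_lit 0) (XT.nd (nat_lit 78) (nat_lit 228) (nat_lit 0) (XT.lf (nat_lit 0) (nat_lit 9890815451) (nat_lit 152) (nat_lit 3693308885) (nat_lit 228) (nat_lit 6068884641) (nat_lit 31) (nat_lit 5) (nat_lit 33) (nat_lit 5) (nat_lit 34) (nat_lit 5) (nat_lit 507) (nat_lit 357) (nat_lit 276)) (XT.nd (nat_lit 78) (nat_lit 228) (nat_lit 0) (XT.lf (nat_lit 0) (nat_lit 17134021160) (nat_lit 228) (nat_lit 2702231796) (nat_lit 76) (nat_lit 124346049) (nat_lit 31) (nat_lit 5) (nat_lit 34) (nat_lit 5) (nat_lit 32) (nat_lit 4) (nat_lit 508) (nat_lit 357) (nat_lit 275)) (XT.lf (nat_lit 0) (nat_lit 504526252) (nat_lit 228) (nat_lit 15784017556) (nat_lit 76) (nat_lit 3985138742) (nat_lit 28) (nat_lit 5) (nat_lit 31) (nat_lit 5) (nat_lit 29) (nat_lit 5) (nat_lit 509) (nat_lit 357) (nat_lit 274)))) (XT.nd (nat_lit 156) (nat_lit 152)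 (nat_lit 0) (XT.nd (nat_lit 78) (nat_lit 0) (nat_lit 0) (XT.lf (nat_lit 0) (nat_lit 3859164758) (nat_lit 228) (nat_lit 8789878027) (nat_lit 76) (nat_lit 7943725120) (nat_lit 28) (nat_lit 5) (nat_lit 31) (nat_lit 5) (nat_lit 29) (nat_lit 5) (nat_lit 510) (nat_lit 357) (nat_lit 273)) (XT.lf (nat_lit 0) (nat_lit 7257828719) (nat_lit 228) (nat_lit 1695466462) (nat_lit 76) (nat_lit 11965409977) (nat_lit 28) (nat_lit 5) (nat_lit 31) (nat_lit 5) (nat_lit 29) (nat_lit 5) (nat_lit 511) (nat_lit 357) (nat_lit 272))) (XT.nd (nat_lit 78) (nat_lit 0) (nat_lit 0) (XT.lf (nat_lit 0) (nat_lit 5575117937) (nat_lit 152) (nat_lit 5162930368) (nat_lit 228) (nat_lit 10512849871) (nat_lit 26) (nat_lit 5) (nat_lit 28) (nat_lit 5) (nat_lit 29) (nat_lit 5) (nat_lit 512) (nat_lit 357) (nat_lit 271)) (XT.lf (nat_lit 0) (nat_lit 12975517935) (nat_lit 152) (nat_lit 1301309760) (nat_lit 228) (nat_lit 7313136751) (nat_lit 26) (nat_lit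 5) (nat_lit 28) (nat_lit 5) (nat_lit 29) (nat_lit 5) (nat_lit 513) (nat_lit 357) (nat_lit 270))))))) (XT.nd (nat_lit 1092) (nat_lit 76) (nat_lit 0) (XT.nd (nat_lit 546) (nat_lit 304) (nat_lit 0) (XT.nd (nat_lit 234) (nat_lit 152) (nat_lit 0) (XT.nd (nat_lit 78) (nat_lit 228) (nat_lit 0) (XT.lf (nat_lit 0) (nat_lit 17881422098) (nat_lit 228) (nat_lit 1467178069) (nat_lit 76) (nat_lit 2587319417) (nat_lit 26) (nat_lit 5) (nat_lit 29) (nat_lit 5) (nat_lit 27) (nat_lit 4) (nat_lit 514) (nat_lit 357) (nat_lit 269)) (XT.nd (nat_lit 78) (nat_lit 76) (nat_lit 0) (XT.lf (nat_lit 0) (nat_lit 5853772168) (nat_lit 152) (nat_lit 15729308525) (nat_lit 228) (nat_lit 705221856) (nat_lit 24) (nat_lit 5) (nat_lit 26) (nat_lit 5) (nat_lit 27) (nat_lit 4) (nat_lit 515) (nat_lit 357) (nat_lit 268)) (XT.lf (nat_lit 0) (nat_lit 2663775168) (nat_lit 228) (nat_lit 9361641816) (nat_lit 76) (nat_lit 10622206169) (nat_lit 23) (nat_lit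 5) (nat_lit 26) (nat_lit 5) (nat_lit 24) (nat_lit 5) (nat_lit 516) (nat_lit 357) (nat_lit 267)))) (XT.nd (nat_lit 156) (nat_lit 0) (nat_lit 0) (XT.nd (nat_lit 78) (nat_lit 152) (nat_lit 0) (XT.lf (nat_lit 0) (nat_lit 6069522853) (nat_lit 228) (nat_lit 2188699041) (nat_lit 76) (nat_lit 14756246470) (nat_lit 23) (nat_lit 5) (nat_lit 26) (nat_lit 5) (nat_lit 24) (nat_lit 5) (nat_lit 517) (nat_lit 357) (nat_lit 266)) (XT.lf (nat_lit 0) (nat_lit 5159355503) (nat_lit 152) (nat_lit 4396748351) (nat_lit 228) (nat_lit 13832299805) (nat_lit 21) (nat_lit 5) (nat_lit 23) (nat_lit 5) (nat_lit 24) (nat_lit 5) (nat_lit 518) (nat_lit 357) (nat_lit 265))) (XT.nd (nat_lit 78) (nat_lit 0) (nat_lit 0) (XT.lf (nat_lit 0) (nat_lit 12648263500) (nat_lit 152) (nat_lit 458235865) (nat_lit 228) (nat_lit 10663444036) (nat_lit 21) (nat_lit 5) (nat_lit 23) (nat_lit 5) (nat_lit 24) (nat_lit 5) (nat_lit 519) (nat_lit 357) (nat_lit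 264)) (XT.lf (nat_lit 0) (nat_lit 16730713482) (nat_lit 228) (nat_lit 3930661206) (nat_lit 76) (nat_lit 3497690290) (nat_lit 21) (nat_lit 5) (nat_lit 24) (nat_lit 5) (nat_lit 22) (nat_lit 4) (nat_lit 520) (nat_lit 357) (nat_lit 263))))) (XT.nd (nat_lit 234) (nat_lit 152) (nat_lit 0) (XT.nd (nat_lit 78) (nat_lit 76) (nat_lit 0) (XT.lf (nat_lit 0) (nat_lit 3411186184) (nat_lit 76) (nat_lit 17021509036) (nat_lit 152) (nat_lit 4123175211) (nat_lit 20) (nat_lit 5) (nat_lit 21) (nat_lit 5) (nat_lit 22) (nat_lit 4) (nat_lit 521) (nat_lit 357) (nat_lit 262)) (XT.nd (nat_lit 78) (nat_lit 76) (nat_lit 0) (XT.lf (nat_lit 0) (nat_lit 10918684605) (nat_lit 76) (nat_lit 13296676170) (nat_lit 152) (nat_lit 745125305) (nat_lit 20) (nat_lit 5) (nat_lit 21) (nat_lit 5) (nat_lit 22) (nat_lit 4) (nat_lit 522) (nat_lit 357) (nat_lit 261)) (XT.lf (nat_lit 0) (nat_lit 2645587670) (nat_lit 152) (nat_lit 6848451222) (nat_lit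 76) (nat_lit 15879200798) (nat_lit 19) (nat_lit 5) (nat_lit 21) (nat_lit 5) (nat_lit 20) (nat_lit 5) (nat_lit 523) (nat_lit 357) (nat_lit 260)))) (XT.nd (nat_lit 156) (nat_lit 0) (nat_lit 0) (XT.nd (nat_lit 78) (nat_lit 0) (nat_lit 0) (XT.lf (nat_lit 0) (nat_lit 456428526) (nat_lit 152) (nat_lit 5621583315) (nat_lit 228) (nat_lit 19716467111) (nat_lit 17) (nat_lit 5) (nat_lit 19) (nat_lit 5) (nat_lit 20) (nat_lit 5) (nat_lit 524) (nat_lit 357) (nat_lit 259)) (XT.lf (nat_lit 0) (nat_lit 7967069046) (nat_lit 152) (nat_lit 1639032685) (nat_lit 228) (nat_lit 16617507364) (nat_lit 17) (nat_lit 5) (nat_lit 19) (nat_lit 5) (nat_lit 20) (nat_lit 5) (nat_lit 525) (nat_lit 357) (nat_lit 258))) (XT.nd (nat_lit 78) (nat_lit 0) (nat_lit 0) (XT.lf (nat_lit 0) (nat_lit 13201827549) (nat_lit 228) (nat_lit 11081938387) (nat_lit 76) (nat_lit 2377620738) (nat_lit 17) (nat_lit 5) (nat_lit 20) (nat_lit 5) (nat_lit 18) (nat_lit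 4) (nat_lit 526) (nat_lit 357) (nat_lit 257)) (XT.lf (nat_lit 0) (nat_lit 16862029569) (nat_lit 228) (nat_lit 3806862057) (nat_lit 76) (nat_lit 6439183136) (nat_lit 17) (nat_lit 5) (nat_lit 20) (nat_lit 5) (nat_lit 18) (nat_lit 4) (nat_lit 527) (nat_lit 357) (nat_lit 256)))))) (XT.nd (nat_lit 51636) (nat_lit 0) (nat_lit 16416) (XT.nd (nat_lit 51324) (nat_lit 0) (nat_lit 19380) (XT.nd (nat_lit 78) (nat_lit 0) (nat_lit 0) (XT.lf (nat_lit 0) (nat_lit 3629788933) (nat_lit 76) (nat_lit 16971279540) (nat_lit 152) (nat_lit 6962521551) (nat_lit 16) (nat_lit 5) (nat_lit 17) (nat_lit 5) (nat_lit 18) (nat_lit 4) (nat_lit 528) (nat_lit 357) (nat_lit 255)) (XT.nd (nat_lit 51168) (nat_lit 0) (nat_lit 21736) (XT.lf (nat_lit 0) (nat_lit 11235451210) (nat_lit 76) (nat_lit 13187197111) (nat_lit 152) (nat_lit 3605418017) (nat_lit 16) (nat_lit 5) (nat_lit 17) (nat_lit 5) (nat_lit 18) (nat_lit 4) (nat_lit 529) (nat_lit 357)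 (nat_lit 254)) (XT.lf (nat_lit 0) (nat_lit 1966073378) (nat_lit 836) (nat_lit 883620730) (nat_lit 836) (nat_lit 883620730) (nat_lit 302) (nat_lit 4) (nat_lit 313) (nat_lit 5) (nat_lit 313) (nat_lit 4) (nat_lit 424) (nat_lit 358) (nat_lit 358)))) (XT.nd (nat_lit 156) (nat_lit 1520) (nat_lit 0) (XT.nd (nat_lit 78) (nat_lit 0) (nat_lit 0) (XT.lf (nat_lit 0) (nat_lit 1473524196) (nat_lit 836) (nat_lit 6006021730) (nat_lit 0) (nat_lit 36525634) (nat_lit 291) (nat_lit 5) (nat_lit 302) (nat_lit 4) (nat_lit 291) (nat_lit 4) (nat_lit 425) (nat_lit 358) (nat_lit 357)) (XT.lf (nat_lit 0) (nat_lit 4729106233) (nat_lit 836) (nat_lit 954478633) (nat_lit 0) (nat_lit 1883285551) (nat_lit 291) (nat_lit 5) (nat_lit 302) (nat_lit 4) (nat_lit 291) (nat_lit 4) (nat_lit 426) (nat_lit 358) (nat_lit 356))) (XT.nd (nat_lit 78) (nat_lit 684) (nat_lit 0) (XT.lf (nat_lit 0) (nat_lit 391622310) (nat_lit 836) (nat_lit 3435941770)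 (nat_lit 76) (nat_lit 3791814094) (nat_lit 280) (nat_lit 5) (nat_lit 291) (nat_lit 5) (nat_lit 281) (nat_lit 4) (nat_lit 427) (nat_lit 358) (nat_lit 355)) (XT.lf (nat_lit 0) (nat_lit 1700339259) (nat_lit 684) (nat_lit 1904350808) (nat_lit 760) (nat_lit 4068799768) (nat_lit 271) (nat_lit 5) (nat_lit 280) (nat_lit 5) (nat_lit 281) (nat_lit 4) (nat_lit 428) (nat_lit 358) (nat_lit 354))))) (XT.nd (nat_lit 234) (nat_lit 1444) (nat_lit 0) (XT.nd (nat_lit 78) (nat_lit 1520) (nat_lit 0) (XT.lf (nat_lit 0) (nat_lit 6845872944) (nat_lit 760) (nat_lit 810964640) (nat_lit 0) (nat_lit 72638409) (nat_lit 271) (nat_lit 5) (nat_lit 281) (nat_lit 4) (nat_lit 271) (nat_lit 4) (nat_lit 429) (nat_lit 358) (nat_lit 353)) (XT.nd (nat_lit 78) (nat_lit 684) (nat_lit 0) (XT.lf (nat_lit 0) (nat_lit 2316933409) (nat_lit 836) (nat_lit 3369042646) (nat_lit 76) (nat_lit 2100712180) (nat_lit 260) (nat_lit 5) (nat_lit 271) (nat_lit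 5) (nat_lit 261) (nat_lit 4) (nat_lit 430) (nat_lit 358) (nat_lit 352)) (XT.lf (nat_lit 0) (nat_lit 1868297734) (nat_lit 684) (nat_lit 3660682262) (nat_lit 760) (nat_lit 2316826639) (nat_lit 251) (nat_lit 5) (nat_lit 260) (nat_lit 5) (nat_lit 261) (nat_lit 4) (nat_lit 431) (nat_lit 358) (nat_lit 351)))) (XT.nd (nat_lit 156) (nat_lit 684) (nat_lit 0) (XT.nd (nat_lit 78) (nat_lit 684) (nat_lit 0) (XT.lf (nat_lit 0) (nat_lit 852101676) (nat_lit 760) (nat_lit 723184097) (nat_lit 76) (nat_lit 6331472988) (nat_lit 250) (nat_lit 5) (nat_lit 260) (nat_lit 5) (nat_lit 251) (nat_lit 5) (nat_lit 432) (nat_lit 358) (nat_lit 350)) (XT.lf (nat_lit 0) (nat_lit 4030315878) (nat_lit 760) (nat_lit 3357901541) (nat_lit 76) (nat_lit 580929204) (nat_lit 241) (nat_lit 5) (nat_lit 251) (nat_lit 5) (nat_lit 242) (nat_lit 4) (nat_lit 433) (nat_lit 358) (nat_lit 349))) (XT.nd (nat_lit 78) (nat_lit 76) (nat_lit 0) (XT.lf (nat_lit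 0) (nat_lit 1978003208) (nat_lit 608) (nat_lit 5265990680) (nat_lit 684) (nat_lit 789410728) (nat_lit 233) (nat_lit 5) (nat_lit 241) (nat_lit 5) (nat_lit 242) (nat_lit 4) (nat_lit 434) (nat_lit 358) (nat_lit 348)) (XT.lf (nat_lit 0) (nat_lit 2357886474) (nat_lit 684) (nat_lit 715551468) (nat_lit 76) (nat_lit 5025919875) (nat_lit 232) (nat_lit 5) (nat_lit 241) (nat_lit 5) (nat_lit 233) (nat_lit 5) (nat_lit 435) (nat_lit 358) (nat_lit 347))))))))
noncomputable def xc52 : XT := (XT.nd (nat_lit 2106) (nat_lit 4408) (nat_lit 0) (XT.nd (nat_lit 1014) (nat_lit 3648) (nat_lit 0) (XT.nd (nat_lit 468) (nat_lit 2888) (nat_lit 0) (XT.nd (nat_lit 234) (nat_lit 1216) (nat_lit 0) (XT.nd (nat_lit 78) (nat_lit 684) (nat_lit 0) (XT.lf (nat_lit 0) (nat_lit 4721798028) (nat_lit 684) (nat_lit 811510977) (nat_lit 760) (nat_lit 2633758609) (nat_lit 223) (nat_lit 5) (nat_lit 232) (nat_lit 5) (nat_lit 233) (nat_lit 5) (nat_lit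 436) (nat_lit 358) (nat_lit 346)) (XT.nd (nat_lit 78) (nat_lit 0) (nat_lit 0) (XT.lf (nat_lit 0) (nat_lit 501977883) (nat_lit 684) (nat_lit 6248725398) (nat_lit 76) (nat_lit 1485955368) (nat_lit 214) (nat_lit 5) (nat_lit 223) (nat_lit 5) (nat_lit 215) (nat_lit 5) (nat_lit 437) (nat_lit 358) (nat_lit 345)) (XT.lf (nat_lit 0) (nat_lit 3639729538) (nat_lit 684) (nat_lit 820611624) (nat_lit 76) (nat_lit 3847514433) (nat_lit 214) (nat_lit 5) (nat_lit 223) (nat_lit 5) (nat_lit 215) (nat_lit 5) (nat_lit 438) (nat_lit 358) (nat_lit 344)))) (XT.nd (nat_lit 78) (nat_lit 608) (nat_lit 0) (XT.lf (nat_lit 0) (nat_lit 4712214269) (nat_lit 608) (nat_lit 2105564392) (nat_lit 684) (nat_lit 1563199521) (nat_lit 206) (nat_lit 5) (nat_lit 214) (nat_lit 5) (nat_lit 215) (nat_lit 5) (nat_lit 439) (nat_lit 358) (nat_lit 343)) (XT.nd (nat_lit 78) (nat_lit 0) (nat_lit 0) (XT.lf (nat_lit 0) (nat_lit 1549596746) (nat_lit 608) (nat_lit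 6598803303) (nat_lit 76) (nat_lit 307669304) (nat_lit 198) (nat_lit 5) (nat_lit 206) (nat_lit 5) (nat_lit 199) (nat_lit 5) (nat_lit 440) (nat_lit 358) (nat_lit 342)) (XT.lf (nat_lit 0) (nat_lit 4690154072) (nat_lit 608) (nat_lit 1079627700) (nat_lit 76) (nat_lit 2762994715) (nat_lit 198) (nat_lit 5) (nat_lit 206) (nat_lit 5) (nat_lit 199) (nat_lit 5) (nat_lit 441) (nat_lit 358) (nat_lit 341))))) (XT.nd (nat_lit 234) (nat_lit 1672) (nat_lit 0) (XT.nd (nat_lit 78) (nat_lit 608) (nat_lit 0) (XT.lf (nat_lit 0) (nat_lit 4544289490) (nat_lit 608) (nat_lit 3327453568) (nat_lit 684) (nat_lit 739758841) (nat_lit 190) (nat_lit 5) (nat_lit 198) (nat_lit 5) (nat_lit 199) (nat_lit 5) (nat_lit 442) (nat_lit 358) (nat_lit 340)) (XT.nd (nat_lit 78) (nat_lit 0) (nat_lit 0) (XT.lf (nat_lit 0) (nat_lit 1542562587) (nat_lit 532) (nat_lit 817019181) (nat_lit 608) (nat_lit 6332627276) (nat_lit 182) (nat_lit 5) (nat_lit 189)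 (nat_lit 5) (nat_lit 190) (nat_lit 5) (nat_lit 443) (nat_lit 358) (nat_lit 339)) (XT.lf (nat_lit 0) (nat_lit 5499209823) (nat_lit 608) (nat_lit 1536787054) (nat_lit 76) (nat_lit 1738717288) (nat_lit 182) (nat_lit 5) (nat_lit 190) (nat_lit 5) (nat_lit 183) (nat_lit 5) (nat_lit 444) (nat_lit 358) (nat_lit 338)))) (XT.nd (nat_lit 156) (nat_lit 608) (nat_lit 0) (XT.nd (nat_lit 78) (nat_lit 532) (nat_lit 0) (XT.lf (nat_lit 0) (nat_lit 4172875030) (nat_lit 532) (nat_lit 4511653413) (nat_lit 608) (nat_lit 174727835) (nat_lit 175) (nat_lit 5) (nat_lit 182) (nat_lit 5) (nat_lit 183) (nat_lit 5) (nat_lit 445) (nat_lit 358) (nat_lit 337)) (XT.lf (nat_lit 0) (nat_lit 1000891485) (nat_lit 456) (nat_lit 1915443976) (nat_lit 532) (nat_lit 6029459667) (nat_lit 168) (nat_lit 5) (nat_lit 174) (nat_lit 5) (nat_lit 175) (nat_lit 5) (nat_lit 446) (nat_lit 358) (nat_lit 336))) (XT.nd (nat_lit 78) (nat_lit 608) (nat_lit 0)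 (XT.lf (nat_lit 0) (nat_lit 6054324143) (nat_lit 532) (nat_lit 2239658504) (nat_lit 76) (nat_lit 740352399) (nat_lit 168) (nat_lit 5) (nat_lit 175) (nat_lit 5) (nat_lit 169) (nat_lit 5) (nat_lit 447) (nat_lit 358) (nat_lit 335)) (XT.lf (nat_lit 0) (nat_lit 116311854) (nat_lit 608) (nat_lit 5576391788) (nat_lit 76) (nat_lit 3432213895) (nat_lit 160) (nat_lit 5) (nat_lit 168) (nat_lit 5) (nat_lit 161) (nat_lit 5) (nat_lit 448) (nat_lit 358) (nat_lit 334)))))) (XT.nd (nat_lit 546) (nat_lit 1672) (nat_lit 0) (XT.nd (nat_lit 234) (nat_lit 988) (nat_lit 0) (XT.nd (nat_lit 78) (nat_lit 532) (nat_lit 0) (XT.lf (nat_lit 0) (nat_lit 183895990) (nat_lit 456) (nat_lit 3019283575) (nat_lit 532) (nat_lit 6014407565) (nat_lit 154) (nat_lit 5) (nat_lit 160) (nat_lit 5) (nat_lit 161) (nat_lit 5) (nat_lit 449) (nat_lit 358) (nat_lit 333)) (XT.nd (nat_lit 78) (nat_lit 532) (nat_lit 0) (XT.lf (nat_lit 0) (nat_lit 6070900453)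 (nat_lit 456) (nat_lit 270987438) (nat_lit 532) (nat_lit 2970459205) (nat_lit 154) (nat_lit 5) (nat_lit 160) (nat_lit 5) (nat_lit 161) (nat_lit 5) (nat_lit 450) (nat_lit 358) (nat_lit 332)) (XT.lf (nat_lit 0) (nat_lit 119443354) (nat_lit 532) (nat_lit 6789193561) (nat_lit 76) (nat_lit 2500648677) (nat_lit 147) (nat_lit 5) (nat_lit 154) (nat_lit 5) (nat_lit 148) (nat_lit 5) (nat_lit 451) (nat_lit 358) (nat_lit 331)))) (XT.nd (nat_lit 156) (nat_lit 532) (nat_lit 0) (XT.nd (nat_lit 78) (nat_lit 456) (nat_lit 0) (XT.lf (nat_lit 0) (nat_lit 3208760318) (nat_lit 532) (nat_lit 950453360) (nat_lit 76) (nat_lit 5349045462) (nat_lit 147) (nat_lit 5) (nat_lit 154) (nat_lit 5) (nat_lit 148) (nat_lit 5) (nat_lit 452) (nat_lit 358) (nat_lit 330)) (XT.lf (nat_lit 0) (nat_lit 5008081676) (nat_lit 456) (nat_lit 1338869438) (nat_lit 532) (nat_lit 3262555368) (nat_lit 141) (nat_lit 5) (nat_lit 147) (nat_lit 5) (nat_lit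 148) (nat_lit 5) (nat_lit 453) (nat_lit 358) (nat_lit 329))) (XT.nd (nat_lit 78) (nat_lit 76) (nat_lit 0) (XT.lf (nat_lit 0) (nat_lit 1330369260) (nat_lit 456) (nat_lit 8197525252) (nat_lit 532) (nat_lit 185319848) (nat_lit 135) (nat_lit 5) (nat_lit 141) (nat_lit 5) (nat_lit 142) (nat_lit 5) (nat_lit 454) (nat_lit 358) (nat_lit 328)) (XT.lf (nat_lit 0) (nat_lit 2909767464) (nat_lit 532) (nat_lit 2466740374) (nat_lit 76) (nat_lit 4442238187) (nat_lit 134) (nat_lit 5) (nat_lit 141) (nat_lit 5) (nat_lit 135) (nat_lit 5) (nat_lit 455) (nat_lit 358) (nat_lit 327))))) (XT.nd (nat_lit 234) (nat_lit 836) (nat_lit 0) (XT.nd (nat_lit 78) (nat_lit 456) (nat_lit 0) (XT.lf (nat_lit 0) (nat_lit 3550984620) (nat_lit 380) (nat_lit 2492321755) (nat_lit 456) (nat_lit 3883510149) (nat_lit 129) (nat_lit 5) (nat_lit 134) (nat_lit 5) (nat_lit 135) (nat_lit 5) (nat_lit 456) (nat_lit 358) (nat_lit 326)) (XT.nd (nat_lit 78) (nat_lit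 456) (nat_lit 0) (XT.lf (nat_lit 0) (nat_lit 9215416909) (nat_lit 456) (nat_lit 379669057) (nat_lit 76) (nat_lit 442477121) (nat_lit 129) (nat_lit 5) (nat_lit 135) (nat_lit 5) (nat_lit 130) (nat_lit 5) (nat_lit 457) (nat_lit 358) (nat_lit 325)) (XT.lf (nat_lit 0) (nat_lit 2281224575) (nat_lit 456) (nat_lit 4431434299) (nat_lit 76) (nat_lit 3437379385) (nat_lit 123) (nat_lit 5) (nat_lit 129) (nat_lit 5) (nat_lit 124) (nat_lit 5) (nat_lit 458) (nat_lit 358) (nat_lit 324)))) (XT.nd (nat_lit 156) (nat_lit 456) (nat_lit 0) (XT.nd (nat_lit 78) (nat_lit 0) (nat_lit 0) (XT.lf (nat_lit 0) (nat_lit 1633847422) (nat_lit 380) (nat_lit 3772298863) (nat_lit 456) (nat_lit 4859128907) (nat_lit 118) (nat_lit 5) (nat_lit 123) (nat_lit 5) (nat_lit 124) (nat_lit 5) (nat_lit 459) (nat_lit 358) (nat_lit 323)) (XT.lf (nat_lit 0) (nat_lit 7819511754) (nat_lit 380) (nat_lit 761542121) (nat_lit 456) (nat_lit 1802043424) (nat_lit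 118) (nat_lit 5) (nat_lit 123) (nat_lit 5) (nat_lit 124) (nat_lit 5) (nat_lit 460) (nat_lit 358) (nat_lit 322))) (XT.nd (nat_lit 78) (nat_lit 0) (nat_lit 0) (XT.lf (nat_lit 0) (nat_lit 1295680927) (nat_lit 456) (nat_lit 6914630617) (nat_lit 76) (nat_lit 2292887221) (nat_lit 112) (nat_lit 5) (nat_lit 118) (nat_lit 5) (nat_lit 113) (nat_lit 5) (nat_lit 461) (nat_lit 358) (nat_lit 321)) (XT.lf (nat_lit 0) (nat_lit 4412195684) (nat_lit 456) (nat_lit 804650197) (nat_lit 76) (nat_lit 5409027288) (nat_lit 112) (nat_lit 5) (nat_lit 118) (nat_lit 5) (nat_lit 113) (nat_lit 5) (nat_lit 462) (nat_lit 358) (nat_lit 320))))))) (XT.nd (nat_lit 1014) (nat_lit 1748) (nat_lit 0) (XT.nd (nat_lit 468) (nat_lit 1216) (nat_lit 0) (XT.nd (nat_lit 234) (nat_lit 684) (nat_lit 0) (XT.nd (nat_lit 78) (nat_lit 456) (nat_lit 0) (XT.lf (nat_lit 0) (nat_lit 5439342616) (nat_lit 304) (nat_lit 2146408510) (nat_lit 380) (nat_lit 3165383610)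 (nat_lit 108) (nat_lit 5) (nat_lit 112) (nat_lit 5) (nat_lit 113) (nat_lit 5) (nat_lit 463) (nat_lit 358) (nat_lit 319)) (XT.nd (nat_lit 78) (nat_lit 76) (nat_lit 0) (XT.lf (nat_lit 0) (nat_lit 885669035) (nat_lit 380) (nat_lit 9914376341) (nat_lit 456) (nat_lit 79338143) (nat_lit 103) (nat_lit 5) (nat_lit 108) (nat_lit 5) (nat_lit 109) (nat_lit 5) (nat_lit 464) (nat_lit 358) (nat_lit 318)) (XT.lf (nat_lit 0) (nat_lit 3038078469) (nat_lit 456) (nat_lit 3824783818) (nat_lit 76) (nat_lit 4146764959) (nat_lit 102) (nat_lit 5) (nat_lit 108) (nat_lit 5) (nat_lit 103) (nat_lit 5) (nat_lit 465) (nat_lit 358) (nat_lit 317)))) (XT.nd (nat_lit 78) (nat_lit 380) (nat_lit 0) (XT.lf (nat_lit 0) (nat_lit 2440171333) (nat_lit 304) (nat_lit 3753039846) (nat_lit 380) (nat_lit 4949751336) (nat_lit 98) (nat_lit 5) (nat_lit 102) (nat_lit 5) (nat_lit 103) (nat_lit 5) (nat_lit 466) (nat_lit 358) (nat_lit 316)) (XT.nd (nat_lit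 78) (nat_lit 380) (nat_lit 0) (XT.lf (nat_lit 0) (nat_lit 8823826596) (nat_lit 304) (nat_lit 574265524) (nat_lit 380) (nat_lit 1881164717) (nat_lit 98) (nat_lit 5) (nat_lit 102) (nat_lit 5) (nat_lit 103) (nat_lit 5) (nat_lit 467) (nat_lit 358) (nat_lit 315)) (XT.lf (nat_lit 0) (nat_lit 1236636297) (nat_lit 380) (nat_lit 7533710769) (nat_lit 76) (nat_lit 2647707678) (nat_lit 93) (nat_lit 5) (nat_lit 98) (nat_lit 5) (nat_lit 94) (nat_lit 5) (nat_lit 468) (nat_lit 358) (nat_lit 314))))) (XT.nd (nat_lit 234) (nat_lit 912) (nat_lit 0) (XT.nd (nat_lit 78) (nat_lit 304) (nat_lit 0) (XT.lf (nat_lit 0) (nat_lit 4373741293) (nat_lit 380) (nat_lit 1249587949) (nat_lit 76) (nat_lit 5936431741) (nat_lit 93) (nat_lit 5) (nat_lit 98) (nat_lit 5) (nat_lit 94) (nat_lit 5) (nat_lit 469) (nat_lit 358) (nat_lit 313)) (XT.nd (nat_lit 78) (nat_lit 0) (nat_lit 0) (XT.lf (nat_lit 0) (nat_lit 5171059928) (nat_lit 304) (nat_lit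 2398576705) (nat_lit 380) (nat_lit 4134767082) (nat_lit 89) (nat_lit 5) (nat_lit 93) (nat_lit 5) (nat_lit 94) (nat_lit 5) (nat_lit 470) (nat_lit 358) (nat_lit 312)) (XT.lf (nat_lit 0) (nat_lit 10806389978) (nat_lit 380) (nat_lit 177792406) (nat_lit 76) (nat_lit 868240991) (nat_lit 89) (nat_lit 5) (nat_lit 94) (nat_lit 5) (nat_lit 90) (nat_lit 5) (nat_lit 471) (nat_lit 358) (nat_lit 311)))) (XT.nd (nat_lit 156) (nat_lit 304) (nat_lit 0) (XT.nd (nat_lit 78) (nat_lit 228) (nat_lit 0) (XT.lf (nat_lit 0) (nat_lit 2097324658) (nat_lit 380) (nat_lit 5701119714) (nat_lit 76) (nat_lit 4204298764) (nat_lit 84) (nat_lit 5) (nat_lit 89) (nat_lit 5) (nat_lit 85) (nat_lit 5) (nat_lit 472) (nat_lit 358) (nat_lit 310)) (XT.lf (nat_lit 0) (nat_lit 703020931) (nat_lit 228) (nat_lit 4555841839) (nat_lit 304) (nat_lit 6897703408) (nat_lit 81) (nat_lit 5) (nat_lit 84) (nat_lit 5) (nat_lit 85) (nat_lit 5) (nat_lit 473) (nat_lit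 358) (nat_lit 309))) (XT.nd (nat_lit 78) (nat_lit 304) (nat_lit 0) (XT.lf (nat_lit 0) (nat_lit 7256638478) (nat_lit 228) (nat_lit 1229143450) (nat_lit 304) (nat_lit 3827661881) (nat_lit 81) (nat_lit 5) (nat_lit 84) (nat_lit 5) (nat_lit 85) (nat_lit 5) (nat_lit 474) (nat_lit 358) (nat_lit 308)) (XT.lf (nat_lit 0) (nat_lit 1417009932) (nat_lit 304) (nat_lit 10347955258) (nat_lit 380) (nat_lit 708760005) (nat_lit 77) (nat_lit 5) (nat_lit 81) (nat_lit 5) (nat_lit 82) (nat_lit 5) (nat_lit 475) (nat_lit 358) (nat_lit 307)))))) (XT.nd (nat_lit 546) (nat_lit 836) (nat_lit 0) (XT.nd (nat_lit 234) (nat_lit 608) (nat_lit 0) (XT.nd (nat_lit 78) (nat_lit 228) (nat_lit 0) (XT.lf (nat_lit 0) (nat_lit 2446952016) (nat_lit 380) (nat_lit 4627623236) (nat_lit 76) (nat_lit 5562198615) (nat_lit 76) (nat_lit 5) (nat_lit 81) (nat_lit 5) (nat_lit 77) (nat_lit 5) (nat_lit 476) (nat_lit 358) (nat_lit 306)) (XT.nd (nat_lit 78)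 (nat_lit 0) (nat_lit 0) (XT.lf (nat_lit 0) (nat_lit 1895789556) (nat_lit 228) (nat_lit 3738071979) (nat_lit 304) (nat_lit 7169596331) (nat_lit 73) (nat_lit 5) (nat_lit 76) (nat_lit 5) (nat_lit 77) (nat_lit 5) (nat_lit 477) (nat_lit 358) (nat_lit 305)) (XT.lf (nat_lit 0) (nat_lit 8558326431) (nat_lit 228) (nat_lit 322822738) (nat_lit 304) (nat_lit 4092412719) (nat_lit 73) (nat_lit 5) (nat_lit 76) (nat_lit 5) (nat_lit 77) (nat_lit 5) (nat_lit 478) (nat_lit 358) (nat_lit 304)))) (XT.nd (nat_lit 156) (nat_lit 228) (nat_lit 0) (XT.nd (nat_lit 78) (nat_lit 76) (nat_lit 0) (XT.lf (nat_lit 0) (nat_lit 2161289199) (nat_lit 304) (nat_lit 10032783229) (nat_lit 380) (nat_lit 953000531) (nat_lit 69) (nat_lit 5) (nat_lit 73) (nat_lit 5) (nat_lit 74) (nat_lit 5) (nat_lit 479) (nat_lit 358) (nat_lit 303)) (XT.lf (nat_lit 0) (nat_lit 2217877785) (nat_lit 380) (nat_lit 4464900578) (nat_lit 76) (nat_lit 6641038329) (nat_lit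 68) (nat_lit 5) (nat_lit 73) (nat_lit 5) (nat_lit 69) (nat_lit 5) (nat_lit 480) (nat_lit 358) (nat_lit 302))) (XT.nd (nat_lit 78) (nat_lit 0) (nat_lit 0) (XT.lf (nat_lit 0) (nat_lit 2155718987) (nat_lit 228) (nat_lit 3264578640) (nat_lit 304) (nat_lit 8084071676) (nat_lit 65) (nat_lit 5) (nat_lit 68) (nat_lit 5) (nat_lit 69) (nat_lit 5) (nat_lit 481) (nat_lit 358) (nat_lit 301)) (XT.lf (nat_lit 0) (nat_lit 8685427195) (nat_lit 304) (nat_lit 4773143025) (nat_lit 76) (nat_lit 230006857) (nat_lit 65) (nat_lit 5) (nat_lit 69) (nat_lit 5) (nat_lit 66) (nat_lit 5) (nat_lit 482) (nat_lit 358) (nat_lit 300))))) (XT.nd (nat_lit 234) (nat_lit 304) (nat_lit 0) (XT.nd (nat_lit 78) (nat_lit 304) (nat_lit 0) (XT.lf (nat_lit 0) (nat_lit 1885171755) (nat_lit 228) (nat_lit 10132252795) (nat_lit 304) (nat_lit 1859030149) (nat_lit 62) (nat_lit 5) (nat_lit 65) (nat_lit 5) (nat_lit 66) (nat_lit 5) (nat_lit 483) (nat_lit 358)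 (nat_lit 299)) (XT.nd (nat_lit 78) (nat_lit 228) (nat_lit 0) (XT.lf (nat_lit 0) (nat_lit 1330311924) (nat_lit 304) (nat_lit 5386970307) (nat_lit 76) (nat_lit 7350648561) (nat_lit 61) (nat_lit 5) (nat_lit 65) (nat_lit 5) (nat_lit 62) (nat_lit 5) (nat_lit 484) (nat_lit 358) (nat_lit 298)) (XT.lf (nat_lit 0) (nat_lit 1303317194) (nat_lit 228) (nat_lit 3232124753) (nat_lit 304) (nat_lit 9728026846) (nat_lit 58) (nat_lit 5) (nat_lit 61) (nat_lit 5) (nat_lit 62) (nat_lit 5) (nat_lit 485) (nat_lit 358) (nat_lit 297)))) (XT.nd (nat_lit 156) (nat_lit 76) (nat_lit 0) (XT.nd (nat_lit 78) (nat_lit 228) (nat_lit 0) (XT.lf (nat_lit 0) (nat_lit 7811733198) (nat_lit 304) (nat_lit 6315172158) (nat_lit 76) (nat_lit 335886726) (nat_lit 58) (nat_lit 5) (nat_lit 62) (nat_lit 5) (nat_lit 59) (nat_lit 5) (nat_lit 486) (nat_lit 358) (nat_lit 296)) (XT.lf (nat_lit 0) (nat_lit 396427740) (nat_lit 228) (nat_lit 10750291799) (nat_lit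 304) (nat_lit 3519534307) (nat_lit 55) (nat_lit 5) (nat_lit 58) (nat_lit 5) (nat_lit 59) (nat_lit 5) (nat_lit 487) (nat_lit 358) (nat_lit 295))) (XT.nd (nat_lit 78) (nat_lit 76) (nat_lit 0) (XT.lf (nat_lit 0) (nat_lit 7278119335) (nat_lit 228) (nat_lit 7282136130) (nat_lit 304) (nat_lit 313307475) (nat_lit 55) (nat_lit 5) (nat_lit 58) (nat_lit 5) (nat_lit 59) (nat_lit 5) (nat_lit 488) (nat_lit 358) (nat_lit 294)) (XT.lf (nat_lit 0) (nat_lit 2888119239) (nat_lit 304) (nat_lit 855956376) (nat_lit 76) (nat_lit 11341175977) (nat_lit 54) (nat_lit 5) (nat_lit 58) (nat_lit 5) (nat_lit 55) (nat_lit 5) (nat_lit 489) (nat_lit 358) (nat_lit 293))))))))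
noncomputable def xc53 : XT := (XT.nd (nat_lit 2106) (nat_lit 532) (nat_lit 0) (XT.nd (nat_lit 1014) (nat_lit 988) (nat_lit 0) (XT.nd (nat_lit 468) (nat_lit 684) (nat_lit 0) (XT.nd (nat_lit 234) (nat_lit 228) (nat_lit 0) (XT.nd (nat_lit 78) (nat_lit 228) (nat_lit 0) (XT.lf (nat_lit 0) (nat_lit 6047338198) (nat_lit 228) (nat_lit 111756893) (nat_lit 304) (nat_lit 9141857411) (nat_lit 51) (nat_lit 5) (nat_lit 54) (nat_lit 5) (nat_lit 55) (nat_lit 5) (nat_lit 490) (nat_lit 358) (nat_lit 292)) (XT.nd (nat_lit 78) (nat_lit 228) (nat_lit 0) (XT.lf (nat_lit 0) (nat_lit 9495197989) (nat_lit 304) (nat_lit 2492299630) (nat_lit 76) (nat_lit 3533489606) (nat_lit 51) (nat_lit 5) (nat_lit 55) (nat_lit 5) (nat_lit 52) (nat_lit 5) (nat_lit 491) (nat_lit 358) (nat_lit 291)) (XT.lf (nat_lit 0) (nat_lit 4413958809) (nat_lit 228) (nat_lit 8484635219) (nat_lit 304) (nat_lit 2846830861) (nat_lit 48) (nat_lit 5) (nat_lit 51)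 (nat_lit 5) (nat_lit 52) (nat_lit 5) (nat_lit 492) (nat_lit 358) (nat_lit 290)))) (XT.nd (nat_lit 78) (nat_lit 152) (nat_lit 0) (XT.lf (nat_lit 0) (nat_lit 378581833) (nat_lit 304) (nat_lit 4532086277) (nat_lit 76) (nat_lit 11063883655) (nat_lit 47) (nat_lit 5) (nat_lit 51) (nat_lit 5) (nat_lit 48) (nat_lit 5) (nat_lit 493) (nat_lit 358) (nat_lit 289)) (XT.nd (nat_lit 78) (nat_lit 0) (nat_lit 0) (XT.lf (nat_lit 0) (nat_lit 2368912624) (nat_lit 152) (nat_lit 1248680917) (nat_lit 228) (nat_lit 12590559969) (nat_lit 45) (nat_lit 5) (nat_lit 47) (nat_lit 5) (nat_lit 48) (nat_lit 5) (nat_lit 494) (nat_lit 358) (nat_lit 288)) (XT.lf (nat_lit 0) (nat_lit 6940071157) (nat_lit 228) (nat_lit 7039529914) (nat_lit 76) (nat_lit 2466465136) (nat_lit 45) (nat_lit 5) (nat_lit 48) (nat_lit 5) (nat_lit 46) (nat_lit 5) (nat_lit 495) (nat_lit 358) (nat_lit 287))))) (XT.nd (nat_lit 234) (nat_lit 380) (nat_lit 0) (XT.nd (nat_lit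 78) (nat_lit 304) (nat_lit 0) (XT.lf (nat_lit 0) (nat_lit 10309745452) (nat_lit 228) (nat_lit 157908139) (nat_lit 76) (nat_lit 6221481005) (nat_lit 45) (nat_lit 5) (nat_lit 48) (nat_lit 5) (nat_lit 46) (nat_lit 5) (nat_lit 496) (nat_lit 358) (nat_lit 286)) (XT.nd (nat_lit 78) (nat_lit 76) (nat_lit 0) (XT.lf (nat_lit 0) (nat_lit 6907017148) (nat_lit 228) (nat_lit 6857658392) (nat_lit 304) (nat_lit 3172043705) (nat_lit 42) (nat_lit 5) (nat_lit 45) (nat_lit 5) (nat_lit 46) (nat_lit 5) (nat_lit 497) (nat_lit 358) (nat_lit 285)) (XT.lf (nat_lit 0) (nat_lit 72278905) (nat_lit 304) (nat_lit 3119495446) (nat_lit 76) (nat_lit 13997997297) (nat_lit 41) (nat_lit 5) (nat_lit 45) (nat_lit 5) (nat_lit 42) (nat_lit 5) (nat_lit 498) (nat_lit 358) (nat_lit 284)))) (XT.nd (nat_lit 156) (nat_lit 228) (nat_lit 0) (XT.nd (nat_lit 78) (nat_lit 0) (nat_lit 0) (XT.lf (nat_lit 0) (nat_lit 3341816495) (nat_lit 228) (nat_lit 13536094188)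 (nat_lit 76) (nat_lit 569510469) (nat_lit 39) (nat_lit 5) (nat_lit 42) (nat_lit 5) (nat_lit 40) (nat_lit 5) (nat_lit 499) (nat_lit 358) (nat_lit 283)) (XT.lf (nat_lit 0) (nat_lit 6692669130) (nat_lit 228) (nat_lit 6650267278) (nat_lit 76) (nat_lit 4366979964) (nat_lit 39) (nat_lit 5) (nat_lit 42) (nat_lit 5) (nat_lit 40) (nat_lit 5) (nat_lit 500) (nat_lit 358) (nat_lit 282))) (XT.nd (nat_lit 78) (nat_lit 0) (nat_lit 0) (XT.lf (nat_lit 0) (nat_lit 334290349) (nat_lit 228) (nat_lit 9752648930) (nat_lit 304) (nat_lit 7891205204) (nat_lit 36) (nat_lit 5) (nat_lit 39) (nat_lit 5) (nat_lit 40) (nat_lit 5) (nat_lit 501) (nat_lit 358) (nat_lit 281)) (XT.lf (nat_lit 0) (nat_lit 7505600487) (nat_lit 228) (nat_lit 6062576723) (nat_lit 304) (nat_lit 4683189076) (nat_lit 36) (nat_lit 5) (nat_lit 39) (nat_lit 5) (nat_lit 40) (nat_lit 5) (nat_lit 502) (nat_lit 358) (nat_lit 280)))))) (XT.nd (nat_lit 546) (nat_lit 456)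 (nat_lit 0) (XT.nd (nat_lit 234) (nat_lit 304) (nat_lit 0) (XT.nd (nat_lit 78) (nat_lit 228) (nat_lit 0) (XT.lf (nat_lit 0) (nat_lit 14778096859) (nat_lit 228) (nat_lit 2315899497) (nat_lit 304) (nat_lit 1436567608) (nat_lit 36) (nat_lit 5) (nat_lit 39) (nat_lit 5) (nat_lit 40) (nat_lit 5) (nat_lit 503) (nat_lit 358) (nat_lit 279)) (XT.nd (nat_lit 78) (nat_lit 0) (nat_lit 0) (XT.lf (nat_lit 0) (nat_lit 1857447959) (nat_lit 228) (nat_lit 15454075655) (nat_lit 76) (nat_lit 1503447615) (nat_lit 33) (nat_lit 5) (nat_lit 36) (nat_lit 5) (nat_lit 34) (nat_lit 5) (nat_lit 504) (nat_lit 358) (nat_lit 278)) (XT.lf (nat_lit 0) (nat_lit 5214191102) (nat_lit 228) (nat_lit 8504055171) (nat_lit 76) (nat_lit 5386318753) (nat_lit 33) (nat_lit 5) (nat_lit 36) (nat_lit 5) (nat_lit 34) (nat_lit 5) (nat_lit 505) (nat_lit 358) (nat_lit 277)))) (XT.nd (nat_lit 156) (nat_lit 152) (nat_lit 0) (XT.nd (nat_lit 78) (nat_lit 152)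 (nat_lit 0) (XT.lf (nat_lit 0) (nat_lit 8613931902) (nat_lit 228) (nat_lit 1456079180) (nat_lit 76) (nat_lit 9330432123) (nat_lit 33) (nat_lit 5) (nat_lit 36) (nat_lit 5) (nat_lit 34) (nat_lit 5) (nat_lit 506) (nat_lit 358) (nat_lit 276)) (XT.lf (nat_lit 0) (nat_lit 5768268103) (nat_lit 152) (nat_lit 6327186910) (nat_lit 228) (nat_lit 7606517756) (nat_lit 31) (nat_lit 5) (nat_lit 33) (nat_lit 5) (nat_lit 34) (nat_lit 5) (nat_lit 507) (nat_lit 358) (nat_lit 275))) (XT.nd (nat_lit 78) (nat_lit 152) (nat_lit 0) (XT.lf (nat_lit 0) (nat_lit 13116864505) (nat_lit 152) (nat_lit 2516055663) (nat_lit 228) (nat_lit 4376895908) (nat_lit 31) (nat_lit 5) (nat_lit 33) (nat_lit 5) (nat_lit 34) (nat_lit 5) (nat_lit 508) (nat_lit 358) (nat_lit 274)) (XT.lf (nat_lit 0) (nat_lit 243349183) (nat_lit 152) (nat_lit 18985164190) (nat_lit 228) (nat_lit 1095564500) (nat_lit 29) (nat_lit 5) (nat_lit 31) (nat_lit 5) (nat_lit 32)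 (nat_lit 4) (nat_lit 509) (nat_lit 358) (nat_lit 273))))) (XT.nd (nat_lit 234) (nat_lit 228) (nat_lit 0) (XT.nd (nat_lit 78) (nat_lit 152) (nat_lit 0) (XT.lf (nat_lit 0) (nat_lit 2262023067) (nat_lit 228) (nat_lit 13099085315) (nat_lit 76) (nat_lit 5282429877) (nat_lit 28) (nat_lit 5) (nat_lit 31) (nat_lit 5) (nat_lit 29) (nat_lit 5) (nat_lit 510) (nat_lit 358) (nat_lit 272)) (XT.nd (nat_lit 78) (nat_lit 152) (nat_lit 0) (XT.lf (nat_lit 0) (nat_lit 5649491475) (nat_lit 228) (nat_lit 6023898537) (nat_lit 76) (nat_lit 9296313701) (nat_lit 28) (nat_lit 5) (nat_lit 31) (nat_lit 5) (nat_lit 29) (nat_lit 5) (nat_lit 511) (nat_lit 358) (nat_lit 271)) (XT.lf (nat_lit 0) (nat_lit 1170064969) (nat_lit 152) (nat_lit 7920069536) (nat_lit 228) (nat_lit 12212557965) (nat_lit 26) (nat_lit 5) (nat_lit 28) (nat_lit 5) (nat_lit 29) (nat_lit 5) (nat_lit 512) (nat_lit 358) (nat_lit 270)))) (XT.nd (nat_lit 156) (nat_lit 228)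 (nat_lit 0) (XT.nd (nat_lit 78) (nat_lit 0) (nat_lit 0) (XT.lf (nat_lit 0) (nat_lit 8551741134) (nat_lit 152) (nat_lit 4066290377) (nat_lit 228) (nat_lit 9023949001) (nat_lit 26) (nat_lit 5) (nat_lit 28) (nat_lit 5) (nat_lit 29) (nat_lit 5) (nat_lit 513) (nat_lit 358) (nat_lit 269)) (XT.lf (nat_lit 0) (nat_lit 16043970291) (nat_lit 152) (nat_lit 150964781) (nat_lit 228) (nat_lit 5793558439) (nat_lit 26) (nat_lit 5) (nat_lit 28) (nat_lit 5) (nat_lit 29) (nat_lit 5) (nat_lit 514) (nat_lit 358) (nat_lit 268))) (XT.nd (nat_lit 78) (nat_lit 76) (nat_lit 0) (XT.lf (nat_lit 0) (nat_lit 1299516307) (nat_lit 152) (nat_lit 18556019206) (nat_lit 228) (nat_lit 2486166091) (nat_lit 24) (nat_lit 5) (nat_lit 26) (nat_lit 5) (nat_lit 27) (nat_lit 4) (nat_lit 515) (nat_lit 358) (nat_lit 267)) (XT.lf (nat_lit 0) (nat_lit 895695671) (nat_lit 228) (nat_lit 13975918423) (nat_lit 76) (nat_lit 7829853040) (nat_lit 23) (nat_lit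 5) (nat_lit 26) (nat_lit 5) (nat_lit 24) (nat_lit 5) (nat_lit 516) (nat_lit 358) (nat_lit 266))))))) (XT.nd (nat_lit 52026) (nat_lit 0) (nat_lit 15732) (XT.nd (nat_lit 546) (nat_lit 228) (nat_lit 0) (XT.nd (nat_lit 234) (nat_lit 152) (nat_lit 0) (XT.nd (nat_lit 78) (nat_lit 152) (nat_lit 0) (XT.lf (nat_lit 0) (nat_lit 4291156427) (nat_lit 228) (nat_lit 6820803846) (nat_lit 76) (nat_lit 11956561546) (nat_lit 23) (nat_lit 5) (nat_lit 26) (nat_lit 5) (nat_lit 24) (nat_lit 5) (nat_lit 517) (nat_lit 358) (nat_lit 265)) (XT.nd (nat_lit 78) (nat_lit 0) (nat_lit 0) (XT.lf (nat_lit 0) (nat_lit 447981557) (nat_lit 152) (nat_lit 7289081283) (nat_lit 228) (nat_lit 15706211429) (nat_lit 21) (nat_lit 5) (nat_lit 23) (nat_lit 5) (nat_lit 24) (nat_lit 5) (nat_lit 518) (nat_lit 358) (nat_lit 264)) (XT.lf (nat_lit 0) (nat_lit 7919525920) (nat_lit 152) (nat_lit 3357932221) (nat_lit 228) (nat_lit 12547559466) (nat_lit 21)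 (nat_lit 5) (nat_lit 23) (nat_lit 5) (nat_lit 24) (nat_lit 5) (nat_lit 519) (nat_lit 358) (nat_lit 263)))) (XT.nd (nat_lit 156) (nat_lit 152) (nat_lit 0) (XT.nd (nat_lit 78) (nat_lit 0) (nat_lit 0) (XT.lf (nat_lit 0) (nat_lit 14872994506) (nat_lit 228) (nat_lit 8712822142) (nat_lit 76) (nat_lit 628899610) (nat_lit 21) (nat_lit 5) (nat_lit 24) (nat_lit 5) (nat_lit 22) (nat_lit 4) (nat_lit 520) (nat_lit 358) (nat_lit 262)) (XT.lf (nat_lit 0) (nat_lit 18543170720) (nat_lit 228) (nat_lit 1432552192) (nat_lit 76) (nat_lit 4636438362) (nat_lit 21) (nat_lit 5) (nat_lit 24) (nat_lit 5) (nat_lit 22) (nat_lit 4) (nat_lit 521) (nat_lit 358) (nat_lit 261))) (XT.nd (nat_lit 78) (nat_lit 76) (nat_lit 0) (XT.lf (nat_lit 0) (nat_lit 6039180027) (nat_lit 76) (nat_lit 16267654478) (nat_lit 152) (nat_lit 2710325837) (nat_lit 20) (nat_lit 5) (nat_lit 21) (nat_lit 5) (nat_lit 22) (nat_lit 4) (nat_lit 522) (nat_lit 358) (nat_lit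 260)) (XT.lf (nat_lit 0) (nat_lit 696706344) (nat_lit 152) (nat_lit 11788399908) (nat_lit 76) (nat_lit 12945255234) (nat_lit 19) (nat_lit 5) (nat_lit 21) (nat_lit 5) (nat_lit 20) (nat_lit 5) (nat_lit 523) (nat_lit 358) (nat_lit 259))))) (XT.nd (nat_lit 234) (nat_lit 76) (nat_lit 0) (XT.nd (nat_lit 78) (nat_lit 152) (nat_lit 0) (XT.lf (nat_lit 0) (nat_lit 4116897713) (nat_lit 152) (nat_lit 4505711430) (nat_lit 76) (nat_lit 17229239450) (nat_lit 19) (nat_lit 5) (nat_lit 21) (nat_lit 5) (nat_lit 20) (nat_lit 5) (nat_lit 524) (nat_lit 358) (nat_lit 258)) (XT.nd (nat_lit 78) (nat_lit 0) (nat_lit 0) (XT.lf (nat_lit 0) (nat_lit 2928952040) (nat_lit 152) (nat_lit 4677200590) (nat_lit 228) (nat_lit 18675605932) (nat_lit 17) (nat_lit 5) (nat_lit 19) (nat_lit 5) (nat_lit 20) (nat_lit 5) (nat_lit 525) (nat_lit 358) (nat_lit 257)) (XT.lf (nat_lit 0) (nat_lit 10541503509) (nat_lit 152) (nat_lit 635720799) (nat_lit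 228) (nat_lit 15542807981) (nat_lit 17) (nat_lit 5) (nat_lit 19) (nat_lit 5) (nat_lit 20) (nat_lit 5) (nat_lit 526) (nat_lit 358) (nat_lit 256)))) (XT.nd (nat_lit 156) (nat_lit 76) (nat_lit 0) (XT.nd (nat_lit 78) (nat_lit 0) (nat_lit 0) (XT.lf (nat_lit 0) (nat_lit 14824420514) (nat_lit 228) (nat_lit 8914934929) (nat_lit 76) (nat_lit 3427628054) (nat_lit 17) (nat_lit 5) (nat_lit 20) (nat_lit 5) (nat_lit 18) (nat_lit 4) (nat_lit 527) (nat_lit 358) (nat_lit 255)) (XT.lf (nat_lit 0) (nat_lit 18531188212) (nat_lit 228) (nat_lit 1541193194) (nat_lit 76) (nat_lit 7550765723) (nat_lit 17) (nat_lit 5) (nat_lit 20) (nat_lit 5) (nat_lit 18) (nat_lit 4) (nat_lit 528) (nat_lit 358) (nat_lit 254))) (XT.nd (nat_lit 51012) (nat_lit 0) (nat_lit 22572) (XT.lf (nat_lit 0) (nat_lit 6028784197) (nat_lit 76) (nat_lit 16305212186) (nat_lit 152) (nat_lit 5754005382) (nat_lit 16) (nat_lit 5) (nat_lit 17) (nat_lit 5) (nat_lit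 18) (nat_lit 4) (nat_lit 529) (nat_lit 358) (nat_lit 253)) (XT.lf (nat_lit 0) (nat_lit 337660187) (nat_lit 912) (nat_lit 3010830023) (nat_lit 0) (nat_lit 337660187) (nat_lit 313) (nat_lit 5) (nat_lit 325) (nat_lit 4) (nat_lit 313) (nat_lit 4) (nat_lit 422) (nat_lit 359) (nat_lit 359)))))) (XT.nd (nat_lit 546) (nat_lit 3572) (nat_lit 0) (XT.nd (nat_lit 234) (nat_lit 1596) (nat_lit 0) (XT.nd (nat_lit 78) (nat_lit 1672) (nat_lit 0) (XT.lf (nat_lit 0) (nat_lit 3905412148) (nat_lit 912) (nat_lit 1103151668) (nat_lit 0) (nat_lit 2410358844) (nat_lit 313) (nat_lit 5) (nat_lit 325) (nat_lit 4) (nat_lit 313) (nat_lit 4) (nat_lit 423) (nat_lit 359) (nat_lit 358)) (XT.nd (nat_lit 78) (nat_lit 836) (nat_lit 0) (XT.lf (nat_lit 0) (nat_lit 3899213924) (nat_lit 836) (nat_lit 3264431089) (nat_lit 836) (nat_lit 303639252) (nat_lit 302) (nat_lit 4) (nat_lit 313) (nat_lit 5) (nat_lit 313) (nat_lit 4) (nat_lit 424) (nat_lit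 359) (nat_lit 357)) (XT.lf (nat_lit 0) (nat_lit 1433468603) (nat_lit 760) (nat_lit 1453293279) (nat_lit 836) (nat_lit 4630434750) (nat_lit 291) (nat_lit 5) (nat_lit 301) (nat_lit 5) (nat_lit 302) (nat_lit 4) (nat_lit 425) (nat_lit 359) (nat_lit 356)))) (XT.nd (nat_lit 156) (nat_lit 760) (nat_lit 0) (XT.nd (nat_lit 78) (nat_lit 836) (nat_lit 0) (XT.lf (nat_lit 0) (nat_lit 6102847706) (nat_lit 836) (nat_lit 1055883800) (nat_lit 0) (nat_lit 410090334) (nat_lit 291) (nat_lit 5) (nat_lit 302) (nat_lit 4) (nat_lit 291) (nat_lit 4) (nat_lit 426) (nat_lit 359) (nat_lit 355)) (XT.lf (nat_lit 0) (nat_lit 1714832932) (nat_lit 836) (nat_lit 3582910687) (nat_lit 76) (nat_lit 2324054622) (nat_lit 280) (nat_lit 5) (nat_lit 291) (nat_lit 5) (nat_lit 281) (nat_lit 4) (nat_lit 427) (nat_lit 359) (nat_lit 354))) (XT.nd (nat_lit 78) (nat_lit 76) (nat_lit 0) (XT.lf (nat_lit 0) (nat_lit 1518287396) (nat_lit 684) (nat_lit 3379101294)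 (nat_lit 760) (nat_lit 2779165778) (nat_lit 271) (nat_lit 5) (nat_lit 280) (nat_lit 5) (nat_lit 281) (nat_lit 4) (nat_lit 428) (nat_lit 359) (nat_lit 353)) (XT.lf (nat_lit 0) (nat_lit 371033901) (nat_lit 760) (nat_lit 1031137438) (nat_lit 76) (nat_lit 6330942994) (nat_lit 270) (nat_lit 5) (nat_lit 280) (nat_lit 5) (nat_lit 271) (nat_lit 5) (nat_lit 429) (nat_lit 359) (nat_lit 352))))) (XT.nd (nat_lit 234) (nat_lit 2052) (nat_lit 0) (XT.nd (nat_lit 78) (nat_lit 760) (nat_lit 0) (XT.lf (nat_lit 0) (nat_lit 3520564138) (nat_lit 836) (nat_lit 3625700861) (nat_lit 76) (nat_lit 644767536) (nat_lit 260) (nat_lit 5) (nat_lit 271) (nat_lit 5) (nat_lit 261) (nat_lit 4) (nat_lit 430) (nat_lit 359) (nat_lit 351)) (XT.nd (nat_lit 78) (nat_lit 76) (nat_lit 0) (XT.lf (nat_lit 0) (nat_lit 1575178930) (nat_lit 684) (nat_lit 5127238786) (nat_lit 760) (nat_lit 1148368791) (nat_lit 251) (nat_lit 5) (nat_lit 260) (nat_lit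 5) (nat_lit 261) (nat_lit 4) (nat_lit 431) (nat_lit 359) (nat_lit 350)) (XT.lf (nat_lit 0) (nat_lit 1977073680) (nat_lit 760) (nat_lit 1061675608) (nat_lit 76) (nat_lit 4873431324) (nat_lit 250) (nat_lit 5) (nat_lit 260) (nat_lit 5) (nat_lit 251) (nat_lit 5) (nat_lit 432) (nat_lit 359) (nat_lit 349)))) (XT.nd (nat_lit 156) (nat_lit 684) (nat_lit 0) (XT.nd (nat_lit 78) (nat_lit 684) (nat_lit 0) (XT.lf (nat_lit 0) (nat_lit 4239562938) (nat_lit 684) (nat_lit 881855397) (nat_lit 760) (nat_lit 2853857413) (nat_lit 241) (nat_lit 5) (nat_lit 250) (nat_lit 5) (nat_lit 251) (nat_lit 5) (nat_lit 433) (nat_lit 359) (nat_lit 348)) (XT.lf (nat_lit 0) (nat_lit 255728062) (nat_lit 684) (nat_lit 6473914475) (nat_lit 76) (nat_lit 1310600711) (nat_lit 232) (nat_lit 5) (nat_lit 241) (nat_lit 5) (nat_lit 233) (nat_lit 5) (nat_lit 434) (nat_lit 359) (nat_lit 347))) (XT.nd (nat_lit 78) (nat_lit 684) (nat_lit 0) (XT.lf (nat_lit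 0) (nat_lit 3365485203) (nat_lit 684) (nat_lit 1171861589) (nat_lit 76) (nat_lit 3569319044) (nat_lit 232) (nat_lit 5) (nat_lit 241) (nat_lit 5) (nat_lit 233) (nat_lit 5) (nat_lit 435) (nat_lit 359) (nat_lit 346)) (XT.lf (nat_lit 0) (nat_lit 4226967054) (nat_lit 684) (nat_lit 2284074185) (nat_lit 760) (nat_lit 1663959330) (nat_lit 223) (nat_lit 5) (nat_lit 232) (nat_lit 5) (nat_lit 233) (nat_lit 5) (nat_lit 436) (nat_lit 359) (nat_lit 345))))))))
noncomputable def xc54 : XT := (XT.nd (nat_lit 2106) (nat_lit 4332) (nat_lit 0) (XT.nd (nat_lit 1014) (nat_lit 3952) (nat_lit 0) (XT.nd (nat_lit 468) (nat_lit 2280) (nat_lit 0) (XT.nd (nat_lit 234) (nat_lit 1216) (nat_lit 0) (XT.nd (nat_lit 78) (nat_lit 608) (nat_lit 0) (XT.lf (nat_lit 0) (nat_lit 1419378822) (nat_lit 684) (nat_lit 6796034578) (nat_lit 76) (nat_lit 29872393) (nat_lit 214) (nat_lit 5) (nat_lit 223) (nat_lit 5) (nat_lit 215) (nat_lit 5) (nat_lit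 437) (nat_lit 359) (nat_lit 344)) (XT.nd (nat_lit 78) (nat_lit 608) (nat_lit 0) (XT.lf (nat_lit 0) (nat_lit 4530866920) (nat_lit 684) (nat_lit 1400421642) (nat_lit 76) (nat_lit 2385745463) (nat_lit 214) (nat_lit 5) (nat_lit 223) (nat_lit 5) (nat_lit 215) (nat_lit 5) (nat_lit 438) (nat_lit 359) (nat_lit 343)) (XT.lf (nat_lit 0) (nat_lit 4092411864) (nat_lit 608) (nat_lit 3586731426) (nat_lit 684) (nat_lit 711634283) (nat_lit 206) (nat_lit 5) (nat_lit 214) (nat_lit 5) (nat_lit 215) (nat_lit 5) (nat_lit 439) (nat_lit 359) (nat_lit 342)))) (XT.nd (nat_lit 78) (nat_lit 608) (nat_lit 0) (XT.lf (nat_lit 0) (nat_lit 1183314653) (nat_lit 532) (nat_lit 1174623171) (nat_lit 608) (nat_lit 6108485971) (nat_lit 198) (nat_lit 5) (nat_lit 205) (nat_lit 5) (nat_lit 206) (nat_lit 5) (nat_lit 440) (nat_lit 359) (nat_lit 341)) (XT.nd (nat_lit 78) (nat_lit 608) (nat_lit 0) (XT.lf (nat_lit 0) (nat_lit 5465480585) (nat_lit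 608) (nat_lit 1788604680) (nat_lit 76) (nat_lit 1289729988) (nat_lit 198) (nat_lit 5) (nat_lit 206) (nat_lit 5) (nat_lit 199) (nat_lit 5) (nat_lit 441) (nat_lit 359) (nat_lit 340)) (XT.lf (nat_lit 0) (nat_lit 3793805490) (nat_lit 608) (nat_lit 4823501117) (nat_lit 684) (nat_lit 5852881) (nat_lit 190) (nat_lit 5) (nat_lit 198) (nat_lit 5) (nat_lit 199) (nat_lit 5) (nat_lit 442) (nat_lit 359) (nat_lit 339))))) (XT.nd (nat_lit 234) (nat_lit 1064) (nat_lit 0) (XT.nd (nat_lit 78) (nat_lit 608) (nat_lit 0) (XT.lf (nat_lit 0) (nat_lit 733233404) (nat_lit 532) (nat_lit 2320582048) (nat_lit 608) (nat_lit 5650579468) (nat_lit 182) (nat_lit 5) (nat_lit 189) (nat_lit 5) (nat_lit 190) (nat_lit 5) (nat_lit 443) (nat_lit 359) (nat_lit 338)) (XT.nd (nat_lit 78) (nat_lit 608) (nat_lit 0) (XT.lf (nat_lit 0) (nat_lit 6159124057) (nat_lit 608) (nat_lit 2380605228) (nat_lit 76) (nat_lit 247879348) (nat_lit 182) (nat_lit 5)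 (nat_lit 190) (nat_lit 5) (nat_lit 183) (nat_lit 5) (nat_lit 444) (nat_lit 359) (nat_lit 337)) (XT.lf (nat_lit 0) (nat_lit 436044617) (nat_lit 608) (nat_lit 5589649240) (nat_lit 76) (nat_lit 2847017963) (nat_lit 174) (nat_lit 5) (nat_lit 182) (nat_lit 5) (nat_lit 175) (nat_lit 5) (nat_lit 445) (nat_lit 359) (nat_lit 336)))) (XT.nd (nat_lit 156) (nat_lit 608) (nat_lit 0) (XT.nd (nat_lit 78) (nat_lit 0) (nat_lit 0) (XT.lf (nat_lit 0) (nat_lit 52481105) (nat_lit 456) (nat_lit 3442192298) (nat_lit 532) (nat_lit 5465178360) (nat_lit 168) (nat_lit 5) (nat_lit 174) (nat_lit 5) (nat_lit 175) (nat_lit 5) (nat_lit 446) (nat_lit 359) (nat_lit 335)) (XT.lf (nat_lit 0) (nat_lit 5819872643) (nat_lit 456) (nat_lit 784200164) (nat_lit 532) (nat_lit 2444911172) (nat_lit 168) (nat_lit 5) (nat_lit 174) (nat_lit 5) (nat_lit 175) (nat_lit 5) (nat_lit 447) (nat_lit 359) (nat_lit 334))) (XT.nd (nat_lit 78) (nat_lit 0) (nat_lit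 0) (XT.lf (nat_lit 0) (nat_lit 609066645) (nat_lit 608) (nat_lit 6624044742) (nat_lit 76) (nat_lit 1907111855) (nat_lit 160) (nat_lit 5) (nat_lit 168) (nat_lit 5) (nat_lit 161) (nat_lit 5) (nat_lit 448) (nat_lit 359) (nat_lit 333)) (XT.lf (nat_lit 0) (nat_lit 3671521954) (nat_lit 608) (nat_lit 897474797) (nat_lit 76) (nat_lit 4664403662) (nat_lit 160) (nat_lit 5) (nat_lit 168) (nat_lit 5) (nat_lit 161) (nat_lit 5) (nat_lit 449) (nat_lit 359) (nat_lit 332)))))) (XT.nd (nat_lit 546) (nat_lit 1596) (nat_lit 0) (XT.nd (nat_lit 234) (nat_lit 1368) (nat_lit 0) (XT.nd (nat_lit 78) (nat_lit 532) (nat_lit 0) (XT.lf (nat_lit 0) (nat_lit 4946502653) (nat_lit 456) (nat_lit 1834858100) (nat_lit 532) (nat_lit 2547395966) (nat_lit 154) (nat_lit 5) (nat_lit 160) (nat_lit 5) (nat_lit 161) (nat_lit 5) (nat_lit 450) (nat_lit 359) (nat_lit 331)) (XT.nd (nat_lit 78) (nat_lit 0) (nat_lit 0) (XT.lf (nat_lit 0) (nat_lit 496310300)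 (nat_lit 532) (nat_lit 7985905998) (nat_lit 76) (nat_lit 944255151) (nat_lit 147) (nat_lit 5) (nat_lit 154) (nat_lit 5) (nat_lit 148) (nat_lit 5) (nat_lit 451) (nat_lit 359) (nat_lit 330)) (XT.lf (nat_lit 0) (nat_lit 3563138009) (nat_lit 532) (nat_lit 2178186519) (nat_lit 76) (nat_lit 3784588111) (nat_lit 147) (nat_lit 5) (nat_lit 154) (nat_lit 5) (nat_lit 148) (nat_lit 5) (nat_lit 452) (nat_lit 359) (nat_lit 329)))) (XT.nd (nat_lit 156) (nat_lit 836) (nat_lit 0) (XT.nd (nat_lit 78) (nat_lit 76) (nat_lit 0) (XT.lf (nat_lit 0) (nat_lit 3733215951) (nat_lit 456) (nat_lit 2937787291) (nat_lit 532) (nat_lit 2956780757) (nat_lit 141) (nat_lit 5) (nat_lit 147) (nat_lit 5) (nat_lit 148) (nat_lit 5) (nat_lit 453) (nat_lit 359) (nat_lit 328)) (XT.lf (nat_lit 0) (nat_lit 78226141) (nat_lit 532) (nat_lit 1487645) (nat_lit 76) (nat_lit 9652592254) (nat_lit 140) (nat_lit 5) (nat_lit 147) (nat_lit 5) (nat_lit 141)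 (nat_lit 5) (nat_lit 454) (nat_lit 359) (nat_lit 327))) (XT.nd (nat_lit 78) (nat_lit 380) (nat_lit 0) (XT.lf (nat_lit 0) (nat_lit 3148560305) (nat_lit 532) (nat_lit 3849110538) (nat_lit 76) (nat_lit 2840605749) (nat_lit 134) (nat_lit 5) (nat_lit 141) (nat_lit 5) (nat_lit 135) (nat_lit 5) (nat_lit 455) (nat_lit 359) (nat_lit 326)) (XT.lf (nat_lit 0) (nat_lit 2119729551) (nat_lit 380) (nat_lit 4131709126) (nat_lit 456) (nat_lit 3695537797) (nat_lit 129) (nat_lit 5) (nat_lit 134) (nat_lit 5) (nat_lit 135) (nat_lit 5) (nat_lit 456) (nat_lit 359) (nat_lit 325))))) (XT.nd (nat_lit 234) (nat_lit 760) (nat_lit 0) (XT.nd (nat_lit 78) (nat_lit 836) (nat_lit 0) (XT.lf (nat_lit 0) (nat_lit 8199692595) (nat_lit 380) (nat_lit 1199802447) (nat_lit 456) (nat_lit 658724936) (nat_lit 129) (nat_lit 5) (nat_lit 134) (nat_lit 5) (nat_lit 135) (nat_lit 5) (nat_lit 457) (nat_lit 359) (nat_lit 324)) (XT.nd (nat_lit 78) (nat_lit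 380) (nat_lit 0) (XT.lf (nat_lit 0) (nat_lit 2403784740) (nat_lit 456) (nat_lit 5974398207) (nat_lit 76) (nat_lit 1793280580) (nat_lit 123) (nat_lit 5) (nat_lit 129) (nat_lit 5) (nat_lit 124) (nat_lit 5) (nat_lit 458) (nat_lit 359) (nat_lit 323)) (XT.lf (nat_lit 0) (nat_lit 40184137) (nat_lit 380) (nat_lit 5457455486) (nat_lit 456) (nat_lit 4789697116) (nat_lit 118) (nat_lit 5) (nat_lit 123) (nat_lit 5) (nat_lit 124) (nat_lit 5) (nat_lit 459) (nat_lit 359) (nat_lit 322)))) (XT.nd (nat_lit 156) (nat_lit 304) (nat_lit 0) (XT.nd (nat_lit 78) (nat_lit 456) (nat_lit 0) (XT.lf (nat_lit 0) (nat_lit 6196246312) (nat_lit 380) (nat_lit 2455795265) (nat_lit 456) (nat_lit 1753542031) (nat_lit 118) (nat_lit 5) (nat_lit 123) (nat_lit 5) (nat_lit 124) (nat_lit 5) (nat_lit 460) (nat_lit 359) (nat_lit 321)) (XT.lf (nat_lit 0) (nat_lit 1301143252) (nat_lit 456) (nat_lit 8624256646) (nat_lit 76) (nat_lit 601141019) (nat_lit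 112) (nat_lit 5) (nat_lit 118) (nat_lit 5) (nat_lit 113) (nat_lit 5) (nat_lit 461) (nat_lit 359) (nat_lit 320))) (XT.nd (nat_lit 78) (nat_lit 304) (nat_lit 0) (XT.lf (nat_lit 0) (nat_lit 4397556311) (nat_lit 456) (nat_lit 2543744132) (nat_lit 76) (nat_lit 3708330714) (nat_lit 112) (nat_lit 5) (nat_lit 118) (nat_lit 5) (nat_lit 113) (nat_lit 5) (nat_lit 462) (nat_lit 359) (nat_lit 319)) (XT.lf (nat_lit 0) (nat_lit 3647862999) (nat_lit 304) (nat_lit 3891909733) (nat_lit 380) (nat_lit 3235760307) (nat_lit 108) (nat_lit 5) (nat_lit 112) (nat_lit 5) (nat_lit 113) (nat_lit 5) (nat_lit 463) (nat_lit 359) (nat_lit 318))))))) (XT.nd (nat_lit 1092) (nat_lit 1900) (nat_lit 0) (XT.nd (nat_lit 546) (nat_lit 988) (nat_lit 0) (XT.nd (nat_lit 234) (nat_lit 684) (nat_lit 0) (XT.nd (nat_lit 78) (nat_lit 760) (nat_lit 0) (XT.lf (nat_lit 0) (nat_lit 9939809317) (nat_lit 304) (nat_lit 782688951) (nat_lit 380) (nat_lit 181928197)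 (nat_lit 108) (nat_lit 5) (nat_lit 112) (nat_lit 5) (nat_lit 113) (nat_lit 5) (nat_lit 464) (nat_lit 359) (nat_lit 317)) (XT.nd (nat_lit 78) (nat_lit 304) (nat_lit 0) (XT.lf (nat_lit 0) (nat_lit 2905852042) (nat_lit 456) (nat_lit 5736394029) (nat_lit 76) (nat_lit 2393069831) (nat_lit 102) (nat_lit 5) (nat_lit 108) (nat_lit 5) (nat_lit 103) (nat_lit 5) (nat_lit 465) (nat_lit 359) (nat_lit 316)) (XT.lf (nat_lit 0) (nat_lit 474223688) (nat_lit 304) (nat_lit 5554867486) (nat_lit 380) (nat_lit 5140210375) (nat_lit 98) (nat_lit 5) (nat_lit 102) (nat_lit 5) (nat_lit 103) (nat_lit 5) (nat_lit 466) (nat_lit 359) (nat_lit 315)))) (XT.nd (nat_lit 156) (nat_lit 304) (nat_lit 0) (XT.nd (nat_lit 78) (nat_lit 380) (nat_lit 0) (XT.lf (nat_lit 0) (nat_lit 6829513126) (nat_lit 304) (nat_lit 2385520559) (nat_lit 380) (nat_lit 2090953210) (nat_lit 98) (nat_lit 5) (nat_lit 102) (nat_lit 5) (nat_lit 103) (nat_lit 5) (nat_lit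 467) (nat_lit 359) (nat_lit 314)) (XT.lf (nat_lit 0) (nat_lit 985506330) (nat_lit 380) (nat_lit 9624169330) (nat_lit 76) (nat_lit 836030023) (nat_lit 93) (nat_lit 5) (nat_lit 98) (nat_lit 5) (nat_lit 94) (nat_lit 5) (nat_lit 468) (nat_lit 359) (nat_lit 313))) (XT.nd (nat_lit 78) (nat_lit 304) (nat_lit 0) (XT.lf (nat_lit 0) (nat_lit 4104034244) (nat_lit 380) (nat_lit 3368252837) (nat_lit 76) (nat_lit 4115507935) (nat_lit 93) (nat_lit 5) (nat_lit 98) (nat_lit 5) (nat_lit 94) (nat_lit 5) (nat_lit 469) (nat_lit 359) (nat_lit 312)) (XT.lf (nat_lit 0) (nat_lit 2996218339) (nat_lit 304) (nat_lit 4271377903) (nat_lit 380) (nat_lit 4465499496) (nat_lit 89) (nat_lit 5) (nat_lit 93) (nat_lit 5) (nat_lit 94) (nat_lit 5) (nat_lit 470) (nat_lit 359) (nat_lit 311))))) (XT.nd (nat_lit 234) (nat_lit 608) (nat_lit 0) (XT.nd (nat_lit 78) (nat_lit 380) (nat_lit 0) (XT.lf (nat_lit 0) (nat_lit 9478144402) (nat_lit 304) (nat_lit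 1002458999) (nat_lit 380) (nat_lit 1400998023) (nat_lit 89) (nat_lit 5) (nat_lit 93) (nat_lit 5) (nat_lit 94) (nat_lit 5) (nat_lit 471) (nat_lit 359) (nat_lit 310)) (XT.nd (nat_lit 78) (nat_lit 0) (nat_lit 0) (XT.lf (nat_lit 0) (nat_lit 1707718184) (nat_lit 380) (nat_lit 8004772480) (nat_lit 76) (nat_lit 2320273232) (nat_lit 84) (nat_lit 5) (nat_lit 89) (nat_lit 5) (nat_lit 85) (nat_lit 5) (nat_lit 472) (nat_lit 359) (nat_lit 309)) (XT.lf (nat_lit 0) (nat_lit 4846996580) (nat_lit 380) (nat_lit 1637155612) (nat_lit 76) (nat_lit 5702890402) (nat_lit 84) (nat_lit 5) (nat_lit 89) (nat_lit 5) (nat_lit 85) (nat_lit 5) (nat_lit 473) (nat_lit 359) (nat_lit 308)))) (XT.nd (nat_lit 156) (nat_lit 380) (nat_lit 0) (XT.nd (nat_lit 78) (nat_lit 0) (nat_lit 0) (XT.lf (nat_lit 0) (nat_lit 4867581093) (nat_lit 228) (nat_lit 3178039503) (nat_lit 304) (nat_lit 4298875788) (nat_lit 81) (nat_lit 5) (nat_lit 84) (nat_lit 5)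 (nat_lit 85) (nat_lit 5) (nat_lit 474) (nat_lit 359) (nat_lit 307)) (XT.lf (nat_lit 0) (nat_lit 11285708296) (nat_lit 304) (nat_lit 1035915470) (nat_lit 76) (nat_lit 183945972) (nat_lit 81) (nat_lit 5) (nat_lit 85) (nat_lit 5) (nat_lit 82) (nat_lit 5) (nat_lit 475) (nat_lit 359) (nat_lit 306))) (XT.nd (nat_lit 78) (nat_lit 0) (nat_lit 0) (XT.lf (nat_lit 0) (nat_lit 1918493378) (nat_lit 380) (nat_lit 7149878716) (nat_lit 76) (nat_lit 3600803557) (nat_lit 76) (nat_lit 5) (nat_lit 81) (nat_lit 5) (nat_lit 77) (nat_lit 5) (nat_lit 476) (nat_lit 359) (nat_lit 305)) (XT.lf (nat_lit 0) (nat_lit 5076231409) (nat_lit 380) (nat_lit 677747192) (nat_lit 76) (nat_lit 7082473955) (nat_lit 76) (nat_lit 5) (nat_lit 81) (nat_lit 5) (nat_lit 77) (nat_lit 5) (nat_lit 477) (nat_lit 359) (nat_lit 304)))))) (XT.nd (nat_lit 546) (nat_lit 760) (nat_lit 0) (XT.nd (nat_lit 234) (nat_lit 532) (nat_lit 0) (XT.nd (nat_lit 78) (nat_lit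 380) (nat_lit 0) (XT.lf (nat_lit 0) (nat_lit 5949538931) (nat_lit 228) (nat_lit 2352818734) (nat_lit 304) (nat_lit 4704631431) (nat_lit 73) (nat_lit 5) (nat_lit 76) (nat_lit 5) (nat_lit 77) (nat_lit 5) (nat_lit 478) (nat_lit 359) (nat_lit 303)) (XT.nd (nat_lit 78) (nat_lit 380) (nat_lit 0) (XT.lf (nat_lit 0) (nat_lit 11571632571) (nat_lit 304) (nat_lit 522096260) (nat_lit 76) (nat_lit 1087653410) (nat_lit 73) (nat_lit 5) (nat_lit 77) (nat_lit 5) (nat_lit 74) (nat_lit 5) (nat_lit 479) (nat_lit 359) (nat_lit 302)) (XT.lf (nat_lit 0) (nat_lit 1549886591) (nat_lit 380) (nat_lit 7211376326) (nat_lit 76) (nat_lit 4597354201) (nat_lit 68) (nat_lit 5) (nat_lit 73) (nat_lit 5) (nat_lit 69) (nat_lit 5) (nat_lit 480) (nat_lit 359) (nat_lit 301)))) (XT.nd (nat_lit 156) (nat_lit 304) (nat_lit 0) (XT.nd (nat_lit 78) (nat_lit 228) (nat_lit 0) (XT.lf (nat_lit 0) (nat_lit 4722233757) (nat_lit 380) (nat_lit 644579131)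 (nat_lit 76) (nat_lit 8172966877) (nat_lit 68) (nat_lit 5) (nat_lit 73) (nat_lit 5) (nat_lit 69) (nat_lit 5) (nat_lit 481) (nat_lit 359) (nat_lit 300)) (XT.lf (nat_lit 0) (nat_lit 6082731645) (nat_lit 228) (nat_lit 1882951932) (nat_lit 304) (nat_lit 5758745970) (nat_lit 65) (nat_lit 5) (nat_lit 68) (nat_lit 5) (nat_lit 69) (nat_lit 5) (nat_lit 482) (nat_lit 359) (nat_lit 299))) (XT.nd (nat_lit 78) (nat_lit 304) (nat_lit 0) (XT.lf (nat_lit 0) (nat_lit 11257541965) (nat_lit 304) (nat_lit 1021026408) (nat_lit 76) (nat_lit 1634549824) (nat_lit 65) (nat_lit 5) (nat_lit 69) (nat_lit 5) (nat_lit 66) (nat_lit 5) (nat_lit 483) (nat_lit 359) (nat_lit 298)) (XT.lf (nat_lit 0) (nat_lit 521811442) (nat_lit 304) (nat_lit 8363513667) (nat_lit 76) (nat_lit 5219828572) (nat_lit 61) (nat_lit 5) (nat_lit 65) (nat_lit 5) (nat_lit 62) (nat_lit 5) (nat_lit 484) (nat_lit 359) (nat_lit 297))))) (XT.nd (nat_lit 234) (nat_lit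 532) (nat_lit 0) (XT.nd (nat_lit 78) (nat_lit 228) (nat_lit 0) (XT.lf (nat_lit 0) (nat_lit 3703146643) (nat_lit 304) (nat_lit 1715020029) (nat_lit 76) (nat_lit 8883008678) (nat_lit 61) (nat_lit 5) (nat_lit 65) (nat_lit 5) (nat_lit 62) (nat_lit 5) (nat_lit 485) (nat_lit 359) (nat_lit 296)) (XT.nd (nat_lit 78) (nat_lit 0) (nat_lit 0) (XT.lf (nat_lit 0) (nat_lit 5084206842) (nat_lit 228) (nat_lit 1866546747) (nat_lit 304) (nat_lit 7550326357) (nat_lit 58) (nat_lit 5) (nat_lit 61) (nat_lit 5) (nat_lit 62) (nat_lit 5) (nat_lit 486) (nat_lit 359) (nat_lit 295)) (XT.lf (nat_lit 0) (nat_lit 10256094081) (nat_lit 304) (nat_lit 2722656398) (nat_lit 76) (nat_lit 1726391620) (nat_lit 58) (nat_lit 5) (nat_lit 62) (nat_lit 5) (nat_lit 59) (nat_lit 5) (nat_lit 487) (nat_lit 359) (nat_lit 294)))) (XT.nd (nat_lit 156) (nat_lit 228) (nat_lit 0) (XT.nd (nat_lit 78) (nat_lit 76) (nat_lit 0) (XT.lf (nat_lit 0) (nat_lit 4098709582)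 (nat_lit 228) (nat_lit 9538191539) (nat_lit 304) (nat_lit 1276211975) (nat_lit 55) (nat_lit 5) (nat_lit 58) (nat_lit 5) (nat_lit 59) (nat_lit 5) (nat_lit 488) (nat_lit 359) (nat_lit 293)) (XT.lf (nat_lit 0) (nat_lit 1923213968) (nat_lit 304) (nat_lit 4092535482) (nat_lit 76) (nat_lit 9109476963) (nat_lit 54) (nat_lit 5) (nat_lit 58) (nat_lit 5) (nat_lit 55) (nat_lit 5) (nat_lit 489) (nat_lit 359) (nat_lit 292))) (XT.nd (nat_lit 78) (nat_lit 0) (nat_lit 0) (XT.lf (nat_lit 0) (nat_lit 2744032695) (nat_lit 228) (nat_lit 2414367291) (nat_lit 304) (nat_lit 10183250038) (nat_lit 51) (nat_lit 5) (nat_lit 54) (nat_lit 5) (nat_lit 55) (nat_lit 5) (nat_lit 490) (nat_lit 359) (nat_lit 291)) (XT.lf (nat_lit 0) (nat_lit 8465281832) (nat_lit 304) (nat_lit 5844833907) (nat_lit 76) (nat_lit 1252160195) (nat_lit 51) (nat_lit 5) (nat_lit 55) (nat_lit 5) (nat_lit 52) (nat_lit 5) (nat_lit 491) (nat_lit 359) (nat_lit 290))))))))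
noncomputable def xc55 : XT := (XT.nd (nat_lit 2106) (nat_lit 532) (nat_lit 0) (XT.nd (nat_lit 1014) (nat_lit 912) (nat_lit 0) (XT.nd (nat_lit 468) (nat_lit 532) (nat_lit 0) (XT.nd (nat_lit 234) (nat_lit 380) (nat_lit 0) (XT.nd (nat_lit 78) (nat_lit 76) (nat_lit 0) (XT.lf (nat_lit 0) (nat_lit 993544273) (nat_lit 228) (nat_lit 10838934845) (nat_lit 304) (nat_lit 3954965090) (nat_lit 48) (nat_lit 5) (nat_lit 51) (nat_lit 5) (nat_lit 52) (nat_lit 5) (nat_lit 492) (nat_lit 359) (nat_lit 289)) (XT.nd (nat_lit 78) (nat_lit 76) (nat_lit 0) (XT.lf (nat_lit 0) (nat_lit 8001721980) (nat_lit 228) (nat_lit 7276512373) (nat_lit 304) (nat_lit 738670354) (nat_lit 48) (nat_lit 5) (nat_lit 51) (nat_lit 5) (nat_lit 52) (nat_lit 5) (nat_lit 493) (nat_lit 359) (nat_lit 288)) (XT.lf (nat_lit 0) (nat_lit 2480958848) (nat_lit 304) (nat_lit 1163065818) (nat_lit 76) (nat_lit 12607165364) (nat_lit 47) (nat_lit 5) (nat_lit 51)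 (nat_lit 5) (nat_lit 48) (nat_lit 5) (nat_lit 494) (nat_lit 359) (nat_lit 287)))) (XT.nd (nat_lit 78) (nat_lit 228) (nat_lit 0) (XT.lf (nat_lit 0) (nat_lit 5766556987) (nat_lit 228) (nat_lit 10637231812) (nat_lit 76) (nat_lit 86057646) (nat_lit 45) (nat_lit 5) (nat_lit 48) (nat_lit 5) (nat_lit 46) (nat_lit 5) (nat_lit 495) (nat_lit 359) (nat_lit 286)) (XT.nd (nat_lit 78) (nat_lit 228) (nat_lit 0) (XT.lf (nat_lit 0) (nat_lit 9122873545) (nat_lit 228) (nat_lit 3777845529) (nat_lit 76) (nat_lit 3832468923) (nat_lit 45) (nat_lit 5) (nat_lit 48) (nat_lit 5) (nat_lit 46) (nat_lit 5) (nat_lit 496) (nat_lit 359) (nat_lit 285)) (XT.lf (nat_lit 0) (nat_lit 3216883490) (nat_lit 228) (nat_lit 9323865527) (nat_lit 304) (nat_lit 4440770614) (nat_lit 42) (nat_lit 5) (nat_lit 45) (nat_lit 5) (nat_lit 46) (nat_lit 5) (nat_lit 497) (nat_lit 359) (nat_lit 284))))) (XT.nd (nat_lit 234) (nat_lit 304) (nat_lit 0) (XT.nd (nat_lit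 78) (nat_lit 228) (nat_lit 0) (XT.lf (nat_lit 0) (nat_lit 10358971490) (nat_lit 228) (nat_lit 5667142955) (nat_lit 304) (nat_lit 1208732468) (nat_lit 42) (nat_lit 5) (nat_lit 45) (nat_lit 5) (nat_lit 46) (nat_lit 5) (nat_lit 498) (nat_lit 359) (nat_lit 283)) (XT.nd (nat_lit 78) (nat_lit 0) (nat_lit 0) (XT.lf (nat_lit 0) (nat_lit 95108773) (nat_lit 152) (nat_lit 1940185074) (nat_lit 228) (nat_lit 15458192358) (nat_lit 39) (nat_lit 5) (nat_lit 41) (nat_lit 5) (nat_lit 42) (nat_lit 5) (nat_lit 499) (nat_lit 359) (nat_lit 282)) (XT.lf (nat_lit 0) (nat_lit 5360792103) (nat_lit 228) (nat_lit 10521423900) (nat_lit 76) (nat_lit 1874277954) (nat_lit 39) (nat_lit 5) (nat_lit 42) (nat_lit 5) (nat_lit 40) (nat_lit 5) (nat_lit 500) (nat_lit 359) (nat_lit 281)))) (XT.nd (nat_lit 156) (nat_lit 76) (nat_lit 0) (XT.nd (nat_lit 78) (nat_lit 228) (nat_lit 0) (XT.lf (nat_lit 0) (nat_lit 8740384550) (nat_lit 228) (nat_lit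 3562299907) (nat_lit 76) (nat_lit 5722336500) (nat_lit 39) (nat_lit 5) (nat_lit 42) (nat_lit 5) (nat_lit 40) (nat_lit 5) (nat_lit 501) (nat_lit 359) (nat_lit 280)) (XT.lf (nat_lit 0) (nat_lit 3540758263) (nat_lit 228) (nat_lit 8645030240) (nat_lit 304) (nat_lit 6113176169) (nat_lit 36) (nat_lit 5) (nat_lit 39) (nat_lit 5) (nat_lit 40) (nat_lit 5) (nat_lit 502) (nat_lit 359) (nat_lit 279))) (XT.nd (nat_lit 78) (nat_lit 76) (nat_lit 0) (XT.lf (nat_lit 0) (nat_lit 10792753777) (nat_lit 228) (nat_lit 4906699171) (nat_lit 304) (nat_lit 2878957623) (nat_lit 36) (nat_lit 5) (nat_lit 39) (nat_lit 5) (nat_lit 40) (nat_lit 5) (nat_lit 503) (nat_lit 359) (nat_lit 278)) (XT.lf (nat_lit 0) (nat_lit 390197127) (nat_lit 304) (nat_lit 717314591) (nat_lit 76) (nat_lit 17756373908) (nat_lit 35) (nat_lit 5) (nat_lit 39) (nat_lit 5) (nat_lit 36) (nat_lit 5) (nat_lit 504) (nat_lit 359) (nat_lit 277)))))) (XT.nd (nat_lit 546)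 (nat_lit 380) (nat_lit 0) (XT.nd (nat_lit 234) (nat_lit 228) (nat_lit 0) (XT.nd (nat_lit 78) (nat_lit 152) (nat_lit 0) (XT.lf (nat_lit 0) (nat_lit 3723050030) (nat_lit 228) (nat_lit 12653904157) (nat_lit 76) (nat_lit 2777007874) (nat_lit 33) (nat_lit 5) (nat_lit 36) (nat_lit 5) (nat_lit 34) (nat_lit 5) (nat_lit 505) (nat_lit 359) (nat_lit 276)) (XT.nd (nat_lit 78) (nat_lit 152) (nat_lit 0) (XT.lf (nat_lit 0) (nat_lit 7111076014) (nat_lit 228) (nat_lit 5625849008) (nat_lit 76) (nat_lit 6713154252) (nat_lit 33) (nat_lit 5) (nat_lit 36) (nat_lit 5) (nat_lit 34) (nat_lit 5) (nat_lit 506) (nat_lit 359) (nat_lit 275)) (XT.lf (nat_lit 0) (nat_lit 1523294444) (nat_lit 152) (nat_lit 9030258383) (nat_lit 228) (nat_lit 9198841582) (nat_lit 31) (nat_lit 5) (nat_lit 33) (nat_lit 5) (nat_lit 34) (nat_lit 5) (nat_lit 507) (nat_lit 359) (nat_lit 274)))) (XT.nd (nat_lit 156) (nat_lit 228) (nat_lit 0) (XT.nd (nat_lit 78)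 (nat_lit 0) (nat_lit 0) (XT.lf (nat_lit 0) (nat_lit 8852489097) (nat_lit 152) (nat_lit 5227143001) (nat_lit 228) (nat_lit 5980837890) (nat_lit 31) (nat_lit 5) (nat_lit 33) (nat_lit 5) (nat_lit 34) (nat_lit 5) (nat_lit 508) (nat_lit 359) (nat_lit 273)) (XT.lf (nat_lit 0) (nat_lit 16289844571) (nat_lit 152) (nat_lit 1363839867) (nat_lit 228) (nat_lit 2721482628) (nat_lit 31) (nat_lit 5) (nat_lit 33) (nat_lit 5) (nat_lit 34) (nat_lit 5) (nat_lit 509) (nat_lit 359) (nat_lit 272))) (XT.nd (nat_lit 78) (nat_lit 0) (nat_lit 0) (XT.lf (nat_lit 0) (nat_lit 610323526) (nat_lit 228) (nat_lit 17533310819) (nat_lit 76) (nat_lit 2552150642) (nat_lit 28) (nat_lit 5) (nat_lit 31) (nat_lit 5) (nat_lit 29) (nat_lit 5) (nat_lit 510) (nat_lit 359) (nat_lit 271)) (XT.lf (nat_lit 0) (nat_lit 3986815903) (nat_lit 228) (nat_lit 10476971873) (nat_lit 76) (nat_lit 6558386394) (nat_lit 28) (nat_lit 5) (nat_lit 31) (nat_lit 5) (nat_lit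 29) (nat_lit 5) (nat_lit 511) (nat_lit 359) (nat_lit 270))))) (XT.nd (nat_lit 234) (nat_lit 228) (nat_lit 0) (XT.nd (nat_lit 78) (nat_lit 152) (nat_lit 0) (XT.lf (nat_lit 0) (nat_lit 7409101279) (nat_lit 228) (nat_lit 3316832245) (nat_lit 76) (nat_lit 10629600681) (nat_lit 28) (nat_lit 5) (nat_lit 31) (nat_lit 5) (nat_lit 29) (nat_lit 5) (nat_lit 512) (nat_lit 359) (nat_lit 269)) (XT.nd (nat_lit 78) (nat_lit 0) (nat_lit 0) (XT.lf (nat_lit 0) (nat_lit 4002408266) (nat_lit 152) (nat_lit 6902099751) (nat_lit 228) (nat_lit 10790968078) (nat_lit 26) (nat_lit 5) (nat_lit 28) (nat_lit 5) (nat_lit 29) (nat_lit 5) (nat_lit 513) (nat_lit 359) (nat_lit 268)) (XT.lf (nat_lit 0) (nat_lit 11476640661) (nat_lit 152) (nat_lit 2994311111) (nat_lit 228) (nat_lit 7571250485) (nat_lit 26) (nat_lit 5) (nat_lit 28) (nat_lit 5) (nat_lit 29) (nat_lit 5) (nat_lit 514) (nat_lit 359) (nat_lit 267)))) (XT.nd (nat_lit 156) (nat_lit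 76) (nat_lit 0) (XT.nd (nat_lit 78) (nat_lit 152) (nat_lit 0) (XT.lf (nat_lit 0) (nat_lit 18094351313) (nat_lit 228) (nat_lit 3337909459) (nat_lit 76) (nat_lit 963897481) (nat_lit 26) (nat_lit 5) (nat_lit 29) (nat_lit 5) (nat_lit 27) (nat_lit 4) (nat_lit 515) (nat_lit 359) (nat_lit 266)) (XT.lf (nat_lit 0) (nat_lit 4032086720) (nat_lit 152) (nat_lit 17783737618) (nat_lit 228) (nat_lit 940864620) (nat_lit 24) (nat_lit 5) (nat_lit 26) (nat_lit 5) (nat_lit 27) (nat_lit 4) (nat_lit 516) (nat_lit 359) (nat_lit 265))) (XT.nd (nat_lit 78) (nat_lit 0) (nat_lit 0) (XT.lf (nat_lit 0) (nat_lit 2456850521) (nat_lit 228) (nat_lit 11580857569) (nat_lit 76) (nat_lit 9086363095) (nat_lit 23) (nat_lit 5) (nat_lit 26) (nat_lit 5) (nat_lit 24) (nat_lit 5) (nat_lit 517) (nat_lit 359) (nat_lit 264)) (XT.lf (nat_lit 0) (nat_lit 5889960867) (nat_lit 228) (nat_lit 4335083431) (nat_lit 76) (nat_lit 13274038850) (nat_lit 23) (nat_lit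 5) (nat_lit 26) (nat_lit 5) (nat_lit 24) (nat_lit 5) (nat_lit 518) (nat_lit 359) (nat_lit 263))))))) (XT.nd (nat_lit 51870) (nat_lit 0) (nat_lit 15732) (XT.nd (nat_lit 546) (nat_lit 228) (nat_lit 0) (XT.nd (nat_lit 234) (nat_lit 152) (nat_lit 0) (XT.nd (nat_lit 78) (nat_lit 0) (nat_lit 0) (XT.lf (nat_lit 0) (nat_lit 3061826783) (nat_lit 152) (nat_lit 6330204970) (nat_lit 228) (nat_lit 14489564740) (nat_lit 21) (nat_lit 5) (nat_lit 23) (nat_lit 5) (nat_lit 24) (nat_lit 5) (nat_lit 519) (nat_lit 359) (nat_lit 262)) (XT.nd (nat_lit 78) (nat_lit 0) (nat_lit 0) (XT.lf (nat_lit 0) (nat_lit 10631725844) (nat_lit 152) (nat_lit 2342092886) (nat_lit 228) (nat_lit 11297754854) (nat_lit 21) (nat_lit 5) (nat_lit 23) (nat_lit 5) (nat_lit 24) (nat_lit 5) (nat_lit 520) (nat_lit 359) (nat_lit 261)) (XT.lf (nat_lit 0) (nat_lit 16619320051) (nat_lit 228) (nat_lit 6360880312) (nat_lit 76) (nat_lit 1689315118) (nat_lit 21)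 (nat_lit 5) (nat_lit 24) (nat_lit 5) (nat_lit 22) (nat_lit 4) (nat_lit 521) (nat_lit 359) (nat_lit 260)))) (XT.nd (nat_lit 156) (nat_lit 76) (nat_lit 0) (XT.nd (nat_lit 78) (nat_lit 0) (nat_lit 0) (XT.lf (nat_lit 0) (nat_lit 1028956690) (nat_lit 76) (nat_lit 19312214638) (nat_lit 152) (nat_lit 4734182790) (nat_lit 20) (nat_lit 5) (nat_lit 21) (nat_lit 5) (nat_lit 22) (nat_lit 4) (nat_lit 522) (nat_lit 359) (nat_lit 259)) (XT.lf (nat_lit 0) (nat_lit 8620334753) (nat_lit 76) (nat_lit 15541215240) (nat_lit 152) (nat_lit 1327284297) (nat_lit 20) (nat_lit 5) (nat_lit 21) (nat_lit 5) (nat_lit 22) (nat_lit 4) (nat_lit 523) (nat_lit 359) (nat_lit 258))) (XT.nd (nat_lit 78) (nat_lit 0) (nat_lit 0) (XT.lf (nat_lit 0) (nat_lit 2101227030) (nat_lit 152) (nat_lit 9593080831) (nat_lit 76) (nat_lit 14216370767) (nat_lit 19) (nat_lit 5) (nat_lit 21) (nat_lit 5) (nat_lit 20) (nat_lit 5) (nat_lit 524) (nat_lit 359) (nat_lit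 257)) (XT.lf (nat_lit 0) (nat_lit 5562555823) (nat_lit 152) (nat_lit 2212406957) (nat_lit 76) (nat_lit 18566187404) (nat_lit 19) (nat_lit 5) (nat_lit 21) (nat_lit 5) (nat_lit 20) (nat_lit 5) (nat_lit 525) (nat_lit 359) (nat_lit 256))))) (XT.nd (nat_lit 234) (nat_lit 76) (nat_lit 0) (XT.nd (nat_lit 78) (nat_lit 0) (nat_lit 0) (XT.lf (nat_lit 0) (nat_lit 5355269396) (nat_lit 152) (nat_lit 3754967602) (nat_lit 228) (nat_lit 17669657727) (nat_lit 17) (nat_lit 5) (nat_lit 19) (nat_lit 5) (nat_lit 20) (nat_lit 5) (nat_lit 526) (nat_lit 359) (nat_lit 255)) (XT.nd (nat_lit 78) (nat_lit 0) (nat_lit 0) (XT.lf (nat_lit 0) (nat_lit 12728476776) (nat_lit 228) (nat_lit 14156083181) (nat_lit 76) (nat_lit 342868052) (nat_lit 17) (nat_lit 5) (nat_lit 20) (nat_lit 5) (nat_lit 18) (nat_lit 4) (nat_lit 527) (nat_lit 359) (nat_lit 254)) (XT.lf (nat_lit 0) (nat_lit 16426710936) (nat_lit 228) (nat_lit 6797345291) (nat_lit 76)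 (nat_lit 4459708972) (nat_lit 17) (nat_lit 5) (nat_lit 20) (nat_lit 5) (nat_lit 18) (nat_lit 4) (nat_lit 528) (nat_lit 359) (nat_lit 253)))) (XT.nd (nat_lit 50934) (nat_lit 0) (nat_lit 22572) (XT.nd (nat_lit 50856) (nat_lit 0) (nat_lit 24472) (XT.lf (nat_lit 0) (nat_lit 687875470) (nat_lit 76) (nat_lit 19498600701) (nat_lit 152) (nat_lit 7963007354) (nat_lit 16) (nat_lit 5) (nat_lit 17) (nat_lit 5) (nat_lit 18) (nat_lit 4) (nat_lit 529) (nat_lit 359) (nat_lit 252)) (XT.lf (nat_lit 0) (nat_lit 1546584612) (nat_lit 1748) (nat_lit 548180996) (nat_lit 0) (nat_lit 1546584612) (nat_lit 338) (nat_lit 5) (nat_lit 361) (nat_lit 4) (nat_lit 338) (nat_lit 4) (nat_lit 420) (nat_lit 360) (nat_lit 360))) (XT.nd (nat_lit 78) (nat_lit 912) (nat_lit 0) (XT.lf (nat_lit 0) (nat_lit 3769063565) (nat_lit 988) (nat_lit 2556681676) (nat_lit 988) (nat_lit 1001228219) (nat_lit 325) (nat_lit 4) (nat_lit 338) (nat_lit 5) (nat_lit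 338) (nat_lit 4) (nat_lit 421) (nat_lit 360) (nat_lit 359)) (XT.lf (nat_lit 0) (nat_lit 1312442966) (nat_lit 836) (nat_lit 862235644) (nat_lit 912) (nat_lit 5198173539) (nat_lit 313) (nat_lit 5) (nat_lit 324) (nat_lit 5) (nat_lit 325) (nat_lit 4) (nat_lit 422) (nat_lit 360) (nat_lit 358)))))) (XT.nd (nat_lit 546) (nat_lit 3572) (nat_lit 0) (XT.nd (nat_lit 234) (nat_lit 1596) (nat_lit 0) (XT.nd (nat_lit 78) (nat_lit 1672) (nat_lit 0) (XT.lf (nat_lit 0) (nat_lit 5368589491) (nat_lit 912) (nat_lit 1168803513) (nat_lit 0) (nat_lit 882843284) (nat_lit 313) (nat_lit 5) (nat_lit 325) (nat_lit 4) (nat_lit 313) (nat_lit 4) (nat_lit 423) (nat_lit 360) (nat_lit 357)) (XT.nd (nat_lit 78) (nat_lit 760) (nat_lit 0) (XT.lf (nat_lit 0) (nat_lit 1112169351) (nat_lit 912) (nat_lit 3676162677) (nat_lit 76) (nat_lit 2680769915) (nat_lit 301) (nat_lit 5) (nat_lit 313) (nat_lit 5) (nat_lit 302) (nat_lit 4) (nat_lit 424) (nat_lit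 360) (nat_lit 356)) (XT.lf (nat_lit 0) (nat_lit 1289428824) (nat_lit 760) (nat_lit 2978390835) (nat_lit 836) (nat_lit 3251807022) (nat_lit 291) (nat_lit 5) (nat_lit 301) (nat_lit 5) (nat_lit 302) (nat_lit 4) (nat_lit 425) (nat_lit 360) (nat_lit 355)))) (XT.nd (nat_lit 156) (nat_lit 760) (nat_lit 0) (XT.nd (nat_lit 78) (nat_lit 836) (nat_lit 0) (XT.lf (nat_lit 0) (nat_lit 6339774374) (nat_lit 760) (nat_lit 1111977813) (nat_lit 836) (nat_lit 120178481) (nat_lit 291) (nat_lit 5) (nat_lit 301) (nat_lit 5) (nat_lit 302) (nat_lit 4) (nat_lit 426) (nat_lit 360) (nat_lit 354)) (XT.lf (nat_lit 0) (nat_lit 3005261171) (nat_lit 836) (nat_lit 3798863496) (nat_lit 76) (nat_lit 821396313) (nat_lit 280) (nat_lit 5) (nat_lit 291) (nat_lit 5) (nat_lit 281) (nat_lit 4) (nat_lit 427) (nat_lit 360) (nat_lit 353))) (XT.nd (nat_lit 78) (nat_lit 76) (nat_lit 0) (XT.lf (nat_lit 0) (nat_lit 1266984484) (nat_lit 684) (nat_lit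 4890445920) (nat_lit 760) (nat_lit 1523488187) (nat_lit 271) (nat_lit 5) (nat_lit 280) (nat_lit 5) (nat_lit 281) (nat_lit 4) (nat_lit 428) (nat_lit 360) (nat_lit 352)) (XT.lf (nat_lit 0) (nat_lit 1581624603) (nat_lit 760) (nat_lit 1327213171) (nat_lit 76) (nat_lit 4829082343) (nat_lit 270) (nat_lit 5) (nat_lit 280) (nat_lit 5) (nat_lit 271) (nat_lit 5) (nat_lit 429) (nat_lit 360) (nat_lit 351))))) (XT.nd (nat_lit 234) (nat_lit 2052) (nat_lit 0) (XT.nd (nat_lit 78) (nat_lit 760) (nat_lit 0) (XT.lf (nat_lit 0) (nat_lit 3837604184) (nat_lit 760) (nat_lit 859095542) (nat_lit 836) (nat_lit 3099859408) (nat_lit 260) (nat_lit 5) (nat_lit 270) (nat_lit 5) (nat_lit 271) (nat_lit 5) (nat_lit 430) (nat_lit 360) (nat_lit 350)) (XT.nd (nat_lit 78) (nat_lit 76) (nat_lit 0) (XT.lf (nat_lit 0) (nat_lit 1210746311) (nat_lit 684) (nat_lit 6632127854) (nat_lit 760) (nat_lit 14183613) (nat_lit 251) (nat_lit 5) (nat_lit 260)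 (nat_lit 5) (nat_lit 261) (nat_lit 4) (nat_lit 431) (nat_lit 360) (nat_lit 349)) (XT.lf (nat_lit 0) (nat_lit 3068774688) (nat_lit 760) (nat_lit 1471906550) (nat_lit 76) (nat_lit 3378205433) (nat_lit 250) (nat_lit 5) (nat_lit 260) (nat_lit 5) (nat_lit 251) (nat_lit 5) (nat_lit 432) (nat_lit 360) (nat_lit 348)))) (XT.nd (nat_lit 156) (nat_lit 684) (nat_lit 0) (XT.nd (nat_lit 78) (nat_lit 684) (nat_lit 0) (XT.lf (nat_lit 0) (nat_lit 3791928673) (nat_lit 684) (nat_lit 2391216560) (nat_lit 760) (nat_lit 1799465354) (nat_lit 241) (nat_lit 5) (nat_lit 250) (nat_lit 5) (nat_lit 251) (nat_lit 5) (nat_lit 433) (nat_lit 360) (nat_lit 347)) (XT.lf (nat_lit 0) (nat_lit 1075038650) (nat_lit 608) (nat_lit 182437824) (nat_lit 684) (nat_lit 6790769158) (nat_lit 232) (nat_lit 5) (nat_lit 240) (nat_lit 5) (nat_lit 241) (nat_lit 5) (nat_lit 434) (nat_lit 360) (nat_lit 346))) (XT.nd (nat_lit 78) (nat_lit 684) (nat_lit 0)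 (XT.lf (nat_lit 0) (nat_lit 4339395385) (nat_lit 684) (nat_lit 1702000645) (nat_lit 76) (nat_lit 2073856563) (nat_lit 232) (nat_lit 5) (nat_lit 241) (nat_lit 5) (nat_lit 233) (nat_lit 5) (nat_lit 435) (nat_lit 360) (nat_lit 345)) (XT.lf (nat_lit 0) (nat_lit 3657962404) (nat_lit 684) (nat_lit 3797163560) (nat_lit 760) (nat_lit 729084936) (nat_lit 223) (nat_lit 5) (nat_lit 232) (nat_lit 5) (nat_lit 233) (nat_lit 5) (nat_lit 436) (nat_lit 360) (nat_lit 344))))))))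
noncomputable def xc56 : XT := (XT.nd (nat_lit 2106) (nat_lit 4104) (nat_lit 0) (XT.nd (nat_lit 1014) (nat_lit 3952) (nat_lit 0) (XT.nd (nat_lit 468) (nat_lit 2204) (nat_lit 0) (XT.nd (nat_lit 234) (nat_lit 1216) (nat_lit 0) (XT.nd (nat_lit 78) (nat_lit 684) (nat_lit 0) (XT.lf (nat_lit 0) (nat_lit 825414324) (nat_lit 608) (nat_lit 1486311188) (nat_lit 684) (nat_lit 5943280564) (nat_lit 214) (nat_lit 5) (nat_lit 222) (nat_lit 5) (nat_lit 223) (nat_lit 5) (nat_lit 437) (nat_lit 360) (nat_lit 343)) (XT.nd (nat_lit 78) (nat_lit 684) (nat_lit 0) (XT.lf (nat_lit 0) (nat_lit 5387814907) (nat_lit 684) (nat_lit 2056192266) (nat_lit 76) (nat_lit 883480614) (nat_lit 214) (nat_lit 5) (nat_lit 223) (nat_lit 5) (nat_lit 215) (nat_lit 5) (nat_lit 438) (nat_lit 360) (nat_lit 342)) (XT.lf (nat_lit 0) (nat_lit 103105934) (nat_lit 684) (nat_lit 5006257482) (nat_lit 76) (nat_lit 3292474626) (nat_lit 205) (nat_lit 5) (nat_lit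 214) (nat_lit 5) (nat_lit 206) (nat_lit 5) (nat_lit 439) (nat_lit 360) (nat_lit 341)))) (XT.nd (nat_lit 78) (nat_lit 684) (nat_lit 0) (XT.lf (nat_lit 0) (nat_lit 429524991) (nat_lit 532) (nat_lit 2703786085) (nat_lit 608) (nat_lit 5344705490) (nat_lit 198) (nat_lit 5) (nat_lit 205) (nat_lit 5) (nat_lit 206) (nat_lit 5) (nat_lit 440) (nat_lit 360) (nat_lit 340)) (XT.nd (nat_lit 78) (nat_lit 684) (nat_lit 0) (XT.lf (nat_lit 0) (nat_lit 5978890802) (nat_lit 532) (nat_lit 228628780) (nat_lit 608) (nat_lit 2348578690) (nat_lit 198) (nat_lit 5) (nat_lit 205) (nat_lit 5) (nat_lit 206) (nat_lit 5) (nat_lit 441) (nat_lit 360) (nat_lit 339)) (XT.lf (nat_lit 0) (nat_lit 682909765) (nat_lit 684) (nat_lit 5675813071) (nat_lit 76) (nat_lit 2277278301) (nat_lit 189) (nat_lit 5) (nat_lit 198) (nat_lit 5) (nat_lit 190) (nat_lit 5) (nat_lit 442) (nat_lit 360) (nat_lit 338))))) (XT.nd (nat_lit 234) (nat_lit 1064) (nat_lit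 0) (XT.nd (nat_lit 78) (nat_lit 1140) (nat_lit 0) (XT.lf (nat_lit 0) (nat_lit 3713434555) (nat_lit 684) (nat_lit 154064563) (nat_lit 76) (nat_lit 4850340230) (nat_lit 189) (nat_lit 5) (nat_lit 198) (nat_lit 5) (nat_lit 190) (nat_lit 5) (nat_lit 443) (nat_lit 360) (nat_lit 337)) (XT.nd (nat_lit 78) (nat_lit 608) (nat_lit 0) (XT.lf (nat_lit 0) (nat_lit 5488342157) (nat_lit 532) (nat_lit 1303725944) (nat_lit 608) (nat_lit 2009540229) (nat_lit 182) (nat_lit 5) (nat_lit 189) (nat_lit 5) (nat_lit 190) (nat_lit 5) (nat_lit 444) (nat_lit 360) (nat_lit 336)) (XT.lf (nat_lit 0) (nat_lit 1008244966) (nat_lit 608) (nat_lit 6575909851) (nat_lit 76) (nat_lit 1303269780) (nat_lit 174) (nat_lit 5) (nat_lit 182) (nat_lit 5) (nat_lit 175) (nat_lit 5) (nat_lit 445) (nat_lit 360) (nat_lit 335)))) (XT.nd (nat_lit 156) (nat_lit 608) (nat_lit 0) (XT.nd (nat_lit 78) (nat_lit 456) (nat_lit 0) (XT.lf (nat_lit 0) (nat_lit 4043018094)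 (nat_lit 608) (nat_lit 965418164) (nat_lit 76) (nat_lit 3966625909) (nat_lit 174) (nat_lit 5) (nat_lit 182) (nat_lit 5) (nat_lit 175) (nat_lit 5) (nat_lit 446) (nat_lit 360) (nat_lit 334)) (XT.lf (nat_lit 0) (nat_lit 4758396735) (nat_lit 456) (nat_lit 2364415859) (nat_lit 532) (nat_lit 1941993997) (nat_lit 168) (nat_lit 5) (nat_lit 174) (nat_lit 5) (nat_lit 175) (nat_lit 5) (nat_lit 447) (nat_lit 360) (nat_lit 333))) (XT.nd (nat_lit 78) (nat_lit 0) (nat_lit 0) (XT.lf (nat_lit 0) (nat_lit 1064775306) (nat_lit 608) (nat_lit 7755888885) (nat_lit 76) (nat_lit 336147940) (nat_lit 160) (nat_lit 5) (nat_lit 168) (nat_lit 5) (nat_lit 161) (nat_lit 5) (nat_lit 448) (nat_lit 360) (nat_lit 332)) (XT.lf (nat_lit 0) (nat_lit 4104467451) (nat_lit 608) (nat_lit 2060011101) (nat_lit 76) (nat_lit 3085984964) (nat_lit 160) (nat_lit 5) (nat_lit 168) (nat_lit 5) (nat_lit 161) (nat_lit 5) (nat_lit 449) (nat_lit 360) (nat_lit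 331)))))) (XT.nd (nat_lit 546) (nat_lit 1596) (nat_lit 0) (XT.nd (nat_lit 234) (nat_lit 1368) (nat_lit 0) (XT.nd (nat_lit 78) (nat_lit 532) (nat_lit 0) (XT.lf (nat_lit 0) (nat_lit 3738026614) (nat_lit 456) (nat_lit 3446116579) (nat_lit 532) (nat_lit 2162298468) (nat_lit 154) (nat_lit 5) (nat_lit 160) (nat_lit 5) (nat_lit 161) (nat_lit 5) (nat_lit 450) (nat_lit 360) (nat_lit 330)) (XT.nd (nat_lit 78) (nat_lit 0) (nat_lit 0) (XT.lf (nat_lit 0) (nat_lit 171305156) (nat_lit 456) (nat_lit 668320312) (nat_lit 532) (nat_lit 8605233408) (nat_lit 147) (nat_lit 5) (nat_lit 153) (nat_lit 5) (nat_lit 154) (nat_lit 5) (nat_lit 451) (nat_lit 360) (nat_lit 329)) (XT.lf (nat_lit 0) (nat_lit 3880065710) (nat_lit 532) (nat_lit 3491907537) (nat_lit 76) (nat_lit 2172872078) (nat_lit 147) (nat_lit 5) (nat_lit 154) (nat_lit 5) (nat_lit 148) (nat_lit 5) (nat_lit 452) (nat_lit 360) (nat_lit 328)))) (XT.nd (nat_lit 156) (nat_lit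 836) (nat_lit 0) (XT.nd (nat_lit 78) (nat_lit 76) (nat_lit 0) (XT.lf (nat_lit 0) (nat_lit 2371823882) (nat_lit 456) (nat_lit 4585652031) (nat_lit 532) (nat_lit 2689867036) (nat_lit 141) (nat_lit 5) (nat_lit 147) (nat_lit 5) (nat_lit 148) (nat_lit 5) (nat_lit 453) (nat_lit 360) (nat_lit 327)) (XT.lf (nat_lit 0) (nat_lit 320096575) (nat_lit 532) (nat_lit 1414094423) (nat_lit 76) (nat_lit 8018086682) (nat_lit 140) (nat_lit 5) (nat_lit 147) (nat_lit 5) (nat_lit 141) (nat_lit 5) (nat_lit 454) (nat_lit 360) (nat_lit 326))) (XT.nd (nat_lit 78) (nat_lit 380) (nat_lit 0) (XT.lf (nat_lit 0) (nat_lit 3348965883) (nat_lit 532) (nat_lit 5319957854) (nat_lit 76) (nat_lit 1190169966) (nat_lit 134) (nat_lit 5) (nat_lit 141) (nat_lit 5) (nat_lit 135) (nat_lit 5) (nat_lit 455) (nat_lit 360) (nat_lit 325)) (XT.lf (nat_lit 0) (nat_lit 599419827) (nat_lit 380) (nat_lit 5821604666) (nat_lit 456) (nat_lit 3547401346) (nat_lit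 129) (nat_lit 5) (nat_lit 134) (nat_lit 5) (nat_lit 135) (nat_lit 5) (nat_lit 456) (nat_lit 360) (nat_lit 324))))) (XT.nd (nat_lit 234) (nat_lit 1140) (nat_lit 0) (XT.nd (nat_lit 78) (nat_lit 456) (nat_lit 0) (XT.lf (nat_lit 0) (nat_lit 6650053831) (nat_lit 380) (nat_lit 2898298463) (nat_lit 456) (nat_lit 531747166) (nat_lit 129) (nat_lit 5) (nat_lit 134) (nat_lit 5) (nat_lit 135) (nat_lit 5) (nat_lit 457) (nat_lit 360) (nat_lit 323)) (XT.nd (nat_lit 78) (nat_lit 0) (nat_lit 0) (XT.lf (nat_lit 0) (nat_lit 2486942298) (nat_lit 456) (nat_lit 7608413751) (nat_lit 76) (nat_lit 98828510) (nat_lit 123) (nat_lit 5) (nat_lit 129) (nat_lit 5) (nat_lit 124) (nat_lit 5) (nat_lit 458) (nat_lit 360) (nat_lit 322)) (XT.lf (nat_lit 0) (nat_lit 5560222841) (nat_lit 456) (nat_lit 1623572347) (nat_lit 76) (nat_lit 3126688719) (nat_lit 123) (nat_lit 5) (nat_lit 129) (nat_lit 5) (nat_lit 124) (nat_lit 5) (nat_lit 459) (nat_lit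 360) (nat_lit 321)))) (XT.nd (nat_lit 156) (nat_lit 304) (nat_lit 0) (XT.nd (nat_lit 78) (nat_lit 456) (nat_lit 0) (XT.lf (nat_lit 0) (nat_lit 4481891684) (nat_lit 380) (nat_lit 4201948150) (nat_lit 456) (nat_lit 1745521005) (nat_lit 118) (nat_lit 5) (nat_lit 123) (nat_lit 5) (nat_lit 124) (nat_lit 5) (nat_lit 460) (nat_lit 360) (nat_lit 320)) (XT.lf (nat_lit 0) (nat_lit 115922627) (nat_lit 380) (nat_lit 1157703344) (nat_lit 456) (nat_lit 9277413600) (nat_lit 112) (nat_lit 5) (nat_lit 117) (nat_lit 5) (nat_lit 118) (nat_lit 5) (nat_lit 461) (nat_lit 360) (nat_lit 319))) (XT.nd (nat_lit 78) (nat_lit 304) (nat_lit 0) (XT.lf (nat_lit 0) (nat_lit 4342814905) (nat_lit 456) (nat_lit 4375977957) (nat_lit 76) (nat_lit 1955894965) (nat_lit 112) (nat_lit 5) (nat_lit 118) (nat_lit 5) (nat_lit 113) (nat_lit 5) (nat_lit 462) (nat_lit 360) (nat_lit 318)) (XT.lf (nat_lit 0) (nat_lit 1762579712) (nat_lit 304) (nat_lit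 5690889982) (nat_lit 380) (nat_lit 3347764518) (nat_lit 108) (nat_lit 5) (nat_lit 112) (nat_lit 5) (nat_lit 113) (nat_lit 5) (nat_lit 463) (nat_lit 360) (nat_lit 317))))))) (XT.nd (nat_lit 1014) (nat_lit 1672) (nat_lit 0) (XT.nd (nat_lit 468) (nat_lit 1292) (nat_lit 0) (XT.nd (nat_lit 234) (nat_lit 684) (nat_lit 0) (XT.nd (nat_lit 78) (nat_lit 456) (nat_lit 0) (XT.lf (nat_lit 0) (nat_lit 8026388738) (nat_lit 304) (nat_lit 2590681527) (nat_lit 380) (nat_lit 313452880) (nat_lit 108) (nat_lit 5) (nat_lit 112) (nat_lit 5) (nat_lit 113) (nat_lit 5) (nat_lit 464) (nat_lit 360) (nat_lit 316)) (XT.nd (nat_lit 78) (nat_lit 0) (nat_lit 0) (XT.lf (nat_lit 0) (nat_lit 2732339813) (nat_lit 456) (nat_lit 7743914873) (nat_lit 76) (nat_lit 586061728) (nat_lit 102) (nat_lit 5) (nat_lit 108) (nat_lit 5) (nat_lit 103) (nat_lit 5) (nat_lit 465) (nat_lit 360) (nat_lit 315)) (XT.lf (nat_lit 0) (nat_lit 5833745711) (nat_lit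 456) (nat_lit 1567510485) (nat_lit 76) (nat_lit 3795494786) (nat_lit 102) (nat_lit 5) (nat_lit 108) (nat_lit 5) (nat_lit 103) (nat_lit 5) (nat_lit 466) (nat_lit 360) (nat_lit 314)))) (XT.nd (nat_lit 78) (nat_lit 380) (nat_lit 0) (XT.lf (nat_lit 0) (nat_lit 4739137932) (nat_lit 304) (nat_lit 4251670636) (nat_lit 380) (nat_lit 2343217373) (nat_lit 98) (nat_lit 5) (nat_lit 102) (nat_lit 5) (nat_lit 103) (nat_lit 5) (nat_lit 467) (nat_lit 360) (nat_lit 313)) (XT.nd (nat_lit 78) (nat_lit 304) (nat_lit 0) (XT.lf (nat_lit 0) (nat_lit 700852208) (nat_lit 380) (nat_lit 341112733) (nat_lit 76) (nat_lit 10432538064) (nat_lit 97) (nat_lit 5) (nat_lit 102) (nat_lit 5) (nat_lit 98) (nat_lit 5) (nat_lit 468) (nat_lit 360) (nat_lit 312)) (XT.lf (nat_lit 0) (nat_lit 3792143143) (nat_lit 380) (nat_lit 5585150611) (nat_lit 76) (nat_lit 2239854647) (nat_lit 93) (nat_lit 5) (nat_lit 98) (nat_lit 5) (nat_lit 94) (nat_lit 5)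 (nat_lit 469) (nat_lit 360) (nat_lit 311))))) (XT.nd (nat_lit 234) (nat_lit 608) (nat_lit 0) (XT.nd (nat_lit 78) (nat_lit 380) (nat_lit 0) (XT.lf (nat_lit 0) (nat_lit 722387828) (nat_lit 304) (nat_lit 6200698387) (nat_lit 380) (nat_lit 4840026391) (nat_lit 89) (nat_lit 5) (nat_lit 93) (nat_lit 5) (nat_lit 94) (nat_lit 5) (nat_lit 470) (nat_lit 360) (nat_lit 310)) (XT.nd (nat_lit 78) (nat_lit 380) (nat_lit 0) (XT.lf (nat_lit 0) (nat_lit 7177381212) (nat_lit 304) (nat_lit 2941031696) (nat_lit 380) (nat_lit 1793569877) (nat_lit 89) (nat_lit 5) (nat_lit 93) (nat_lit 5) (nat_lit 94) (nat_lit 5) (nat_lit 471) (nat_lit 360) (nat_lit 309)) (XT.lf (nat_lit 0) (nat_lit 1274575198) (nat_lit 380) (nat_lit 10409651437) (nat_lit 76) (nat_lit 379894457) (nat_lit 84) (nat_lit 5) (nat_lit 89) (nat_lit 5) (nat_lit 85) (nat_lit 5) (nat_lit 472) (nat_lit 360) (nat_lit 308)))) (XT.nd (nat_lit 156) (nat_lit 380) (nat_lit 0)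 (XT.nd (nat_lit 78) (nat_lit 228) (nat_lit 0) (XT.lf (nat_lit 0) (nat_lit 4396505320) (nat_lit 380) (nat_lit 4068802737) (nat_lit 76) (nat_lit 3753448954) (nat_lit 84) (nat_lit 5) (nat_lit 89) (nat_lit 5) (nat_lit 85) (nat_lit 5) (nat_lit 473) (nat_lit 360) (nat_lit 307)) (XT.lf (nat_lit 0) (nat_lit 2377026595) (nat_lit 228) (nat_lit 5184924299) (nat_lit 304) (nat_lit 4814933533) (nat_lit 81) (nat_lit 5) (nat_lit 84) (nat_lit 5) (nat_lit 85) (nat_lit 5) (nat_lit 474) (nat_lit 360) (nat_lit 306))) (XT.nd (nat_lit 78) (nat_lit 380) (nat_lit 0) (XT.lf (nat_lit 0) (nat_lit 8954263495) (nat_lit 228) (nat_lit 1829721041) (nat_lit 304) (nat_lit 1754344184) (nat_lit 81) (nat_lit 5) (nat_lit 84) (nat_lit 5) (nat_lit 85) (nat_lit 5) (nat_lit 475) (nat_lit 360) (nat_lit 305)) (XT.lf (nat_lit 0) (nat_lit 1345402782) (nat_lit 380) (nat_lit 9775942954) (nat_lit 76) (nat_lit 1581580131) (nat_lit 76) (nat_lit 5) (nat_lit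 81) (nat_lit 5) (nat_lit 77) (nat_lit 5) (nat_lit 476) (nat_lit 360) (nat_lit 304)))))) (XT.nd (nat_lit 546) (nat_lit 836) (nat_lit 0) (XT.nd (nat_lit 234) (nat_lit 608) (nat_lit 0) (XT.nd (nat_lit 78) (nat_lit 228) (nat_lit 0) (XT.lf (nat_lit 0) (nat_lit 4486608690) (nat_lit 380) (nat_lit 3329711086) (nat_lit 76) (nat_lit 5054222930) (nat_lit 76) (nat_lit 5) (nat_lit 81) (nat_lit 5) (nat_lit 77) (nat_lit 5) (nat_lit 477) (nat_lit 360) (nat_lit 303)) (XT.nd (nat_lit 78) (nat_lit 0) (nat_lit 0) (XT.lf (nat_lit 0) (nat_lit 3236602571) (nat_lit 228) (nat_lit 4442310229) (nat_lit 304) (nat_lit 5362851996) (nat_lit 73) (nat_lit 5) (nat_lit 76) (nat_lit 5) (nat_lit 77) (nat_lit 5) (nat_lit 478) (nat_lit 360) (nat_lit 302)) (XT.lf (nat_lit 0) (nat_lit 9928423581) (nat_lit 228) (nat_lit 996554573) (nat_lit 304) (nat_lit 2291652907) (nat_lit 73) (nat_lit 5) (nat_lit 76) (nat_lit 5) (nat_lit 77) (nat_lit 5) (nat_lit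 479) (nat_lit 360) (nat_lit 301)))) (XT.nd (nat_lit 156) (nat_lit 228) (nat_lit 0) (XT.nd (nat_lit 78) (nat_lit 0) (nat_lit 0) (XT.lf (nat_lit 0) (nat_lit 836061408) (nat_lit 380) (nat_lit 10064392041) (nat_lit 76) (nat_lit 2494326923) (nat_lit 68) (nat_lit 5) (nat_lit 73) (nat_lit 5) (nat_lit 69) (nat_lit 5) (nat_lit 480) (nat_lit 360) (nat_lit 300)) (XT.lf (nat_lit 0) (nat_lit 3992647477) (nat_lit 380) (nat_lit 3522643599) (nat_lit 76) (nat_lit 6060975580) (nat_lit 68) (nat_lit 5) (nat_lit 73) (nat_lit 5) (nat_lit 69) (nat_lit 5) (nat_lit 481) (nat_lit 360) (nat_lit 299))) (XT.nd (nat_lit 78) (nat_lit 0) (nat_lit 0) (XT.lf (nat_lit 0) (nat_lit 3141535256) (nat_lit 228) (nat_lit 4060013787) (nat_lit 304) (nat_lit 6560066610) (nat_lit 65) (nat_lit 5) (nat_lit 68) (nat_lit 5) (nat_lit 69) (nat_lit 5) (nat_lit 482) (nat_lit 360) (nat_lit 298)) (XT.lf (nat_lit 0) (nat_lit 9937468052) (nat_lit 228) (nat_lit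 529878290) (nat_lit 304) (nat_lit 3483487269) (nat_lit 65) (nat_lit 5) (nat_lit 68) (nat_lit 5) (nat_lit 69) (nat_lit 5) (nat_lit 483) (nat_lit 360) (nat_lit 297))))) (XT.nd (nat_lit 234) (nat_lit 304) (nat_lit 0) (XT.nd (nat_lit 78) (nat_lit 304) (nat_lit 0) (XT.lf (nat_lit 0) (nat_lit 2692032834) (nat_lit 228) (nat_lit 11113411622) (nat_lit 304) (nat_lit 338267793) (nat_lit 62) (nat_lit 5) (nat_lit 65) (nat_lit 5) (nat_lit 66) (nat_lit 5) (nat_lit 484) (nat_lit 360) (nat_lit 296)) (XT.nd (nat_lit 78) (nat_lit 228) (nat_lit 0) (XT.lf (nat_lit 0) (nat_lit 2832471671) (nat_lit 304) (nat_lit 4825205818) (nat_lit 76) (nat_lit 6682408619) (nat_lit 61) (nat_lit 5) (nat_lit 65) (nat_lit 5) (nat_lit 62) (nat_lit 5) (nat_lit 485) (nat_lit 360) (nat_lit 295)) (XT.lf (nat_lit 0) (nat_lit 1908631340) (nat_lit 228) (nat_lit 4136091905) (nat_lit 304) (nat_lit 8495982039) (nat_lit 58) (nat_lit 5) (nat_lit 61) (nat_lit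 5) (nat_lit 62) (nat_lit 5) (nat_lit 486) (nat_lit 360) (nat_lit 294)))) (XT.nd (nat_lit 156) (nat_lit 76) (nat_lit 0) (XT.nd (nat_lit 78) (nat_lit 228) (nat_lit 0) (XT.lf (nat_lit 0) (nat_lit 8794909919) (nat_lit 228) (nat_lit 529194385) (nat_lit 304) (nat_lit 5421189646) (nat_lit 58) (nat_lit 5) (nat_lit 61) (nat_lit 5) (nat_lit 62) (nat_lit 5) (nat_lit 487) (nat_lit 360) (nat_lit 293)) (XT.lf (nat_lit 0) (nat_lit 807899136) (nat_lit 228) (nat_lit 11857837732) (nat_lit 304) (nat_lit 2288318750) (nat_lit 55) (nat_lit 5) (nat_lit 58) (nat_lit 5) (nat_lit 59) (nat_lit 5) (nat_lit 488) (nat_lit 360) (nat_lit 292))) (XT.nd (nat_lit 78) (nat_lit 0) (nat_lit 0) (XT.lf (nat_lit 0) (nat_lit 910038572) (nat_lit 304) (nat_lit 7441120133) (nat_lit 76) (nat_lit 6815435410) (nat_lit 54) (nat_lit 5) (nat_lit 58) (nat_lit 5) (nat_lit 55) (nat_lit 5) (nat_lit 489) (nat_lit 360) (nat_lit 291)) (XT.lf (nat_lit 0) (nat_lit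 4113347152) (nat_lit 304) (nat_lit 663484508) (nat_lit 76) (nat_lit 10606830381) (nat_lit 54) (nat_lit 5) (nat_lit 58) (nat_lit 5) (nat_lit 55) (nat_lit 5) (nat_lit 490) (nat_lit 360) (nat_lit 290))))))))
noncomputable def xc57 : XT := (XT.nd (nat_lit 2106) (nat_lit 456) (nat_lit 0) (XT.nd (nat_lit 1014) (nat_lit 988) (nat_lit 0) (XT.nd (nat_lit 468) (nat_lit 684) (nat_lit 0) (XT.nd (nat_lit 234) (nat_lit 228) (nat_lit 0) (XT.nd (nat_lit 78) (nat_lit 228) (nat_lit 0) (XT.lf (nat_lit 0) (nat_lit 6286716995) (nat_lit 228) (nat_lit 1106975444) (nat_lit 304) (nat_lit 8211132878) (nat_lit 51) (nat_lit 5) (nat_lit 54) (nat_lit 5) (nat_lit 55) (nat_lit 5) (nat_lit 491) (nat_lit 360) (nat_lit 289)) (XT.nd (nat_lit 78) (nat_lit 228) (nat_lit 0) (XT.lf (nat_lit 0) (nat_lit 10733534941) (nat_lit 304) (nat_lit 2508142953) (nat_lit 76) (nat_lit 2588869298) (nat_lit 51) (nat_lit 5) (nat_lit 55) (nat_lit 5) (nat_lit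 52) (nat_lit 5) (nat_lit 492) (nat_lit 360) (nat_lit 288)) (XT.lf (nat_lit 0) (nat_lit 4444281819) (nat_lit 228) (nat_lit 9704913983) (nat_lit 304) (nat_lit 1911420153) (nat_lit 48) (nat_lit 5) (nat_lit 51) (nat_lit 5) (nat_lit 52) (nat_lit 5) (nat_lit 493) (nat_lit 360) (nat_lit 287)))) (XT.nd (nat_lit 78) (nat_lit 152) (nat_lit 0) (XT.lf (nat_lit 0) (nat_lit 1310168551) (nat_lit 304) (nat_lit 4778768855) (nat_lit 76) (nat_lit 10206390713) (nat_lit 47) (nat_lit 5) (nat_lit 51) (nat_lit 5) (nat_lit 48) (nat_lit 5) (nat_lit 494) (nat_lit 360) (nat_lit 286)) (XT.nd (nat_lit 78) (nat_lit 0) (nat_lit 0) (XT.lf (nat_lit 0) (nat_lit 2167418229) (nat_lit 152) (nat_lit 2390693644) (nat_lit 228) (nat_lit 11976631766) (nat_lit 45) (nat_lit 5) (nat_lit 47) (nat_lit 5) (nat_lit 48) (nat_lit 5) (nat_lit 495) (nat_lit 360) (nat_lit 285)) (XT.lf (nat_lit 0) (nat_lit 7885810642) (nat_lit 228) (nat_lit 7514216661) (nat_lit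 76) (nat_lit 1378636136) (nat_lit 45) (nat_lit 5) (nat_lit 48) (nat_lit 5) (nat_lit 46) (nat_lit 5) (nat_lit 496) (nat_lit 360) (nat_lit 284))))) (XT.nd (nat_lit 234) (nat_lit 380) (nat_lit 0) (XT.nd (nat_lit 78) (nat_lit 304) (nat_lit 0) (XT.lf (nat_lit 0) (nat_lit 11269960932) (nat_lit 228) (nat_lit 583049707) (nat_lit 76) (nat_lit 5174664711) (nat_lit 45) (nat_lit 5) (nat_lit 48) (nat_lit 5) (nat_lit 46) (nat_lit 5) (nat_lit 497) (nat_lit 360) (nat_lit 283)) (XT.nd (nat_lit 78) (nat_lit 76) (nat_lit 0) (XT.lf (nat_lit 0) (nat_lit 6530058413) (nat_lit 228) (nat_lit 8208706951) (nat_lit 304) (nat_lit 2542574152) (nat_lit 42) (nat_lit 5) (nat_lit 45) (nat_lit 5) (nat_lit 46) (nat_lit 5) (nat_lit 498) (nat_lit 360) (nat_lit 282)) (XT.lf (nat_lit 0) (nat_lit 705764499) (nat_lit 304) (nat_lit 3793871649) (nat_lit 76) (nat_lit 13040784932) (nat_lit 41) (nat_lit 5) (nat_lit 45) (nat_lit 5) (nat_lit 42) (nat_lit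 5) (nat_lit 499) (nat_lit 360) (nat_lit 281)))) (XT.nd (nat_lit 156) (nat_lit 228) (nat_lit 0) (XT.nd (nat_lit 78) (nat_lit 0) (nat_lit 0) (XT.lf (nat_lit 0) (nat_lit 3287398984) (nat_lit 152) (nat_lit 694120561) (nat_lit 228) (nat_lit 13822909486) (nat_lit 39) (nat_lit 5) (nat_lit 41) (nat_lit 5) (nat_lit 42) (nat_lit 5) (nat_lit 500) (nat_lit 360) (nat_lit 280)) (XT.lf (nat_lit 0) (nat_lit 7344343275) (nat_lit 228) (nat_lit 7574035989) (nat_lit 76) (nat_lit 3154917373) (nat_lit 39) (nat_lit 5) (nat_lit 42) (nat_lit 5) (nat_lit 40) (nat_lit 5) (nat_lit 501) (nat_lit 360) (nat_lit 279))) (XT.nd (nat_lit 78) (nat_lit 228) (nat_lit 0) (XT.lf (nat_lit 0) (nat_lit 10754736682) (nat_lit 228) (nat_lit 537647485) (nat_lit 76) (nat_lit 7055561524) (nat_lit 39) (nat_lit 5) (nat_lit 42) (nat_lit 5) (nat_lit 40) (nat_lit 5) (nat_lit 502) (nat_lit 360) (nat_lit 278)) (XT.lf (nat_lit 0) (nat_lit 6687104096) (nat_lit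 228) (nat_lit 7565843505) (nat_lit 304) (nat_lit 4374758089) (nat_lit 36) (nat_lit 5) (nat_lit 39) (nat_lit 5) (nat_lit 40) (nat_lit 5) (nat_lit 503) (nat_lit 360) (nat_lit 277)))))) (XT.nd (nat_lit 546) (nat_lit 608) (nat_lit 0) (XT.nd (nat_lit 234) (nat_lit 152) (nat_lit 0) (XT.nd (nat_lit 78) (nat_lit 228) (nat_lit 0) (XT.lf (nat_lit 0) (nat_lit 14023834998) (nat_lit 228) (nat_lit 3777296547) (nat_lit 304) (nat_lit 1112339126) (nat_lit 36) (nat_lit 5) (nat_lit 39) (nat_lit 5) (nat_lit 40) (nat_lit 5) (nat_lit 504) (nat_lit 360) (nat_lit 276)) (XT.nd (nat_lit 78) (nat_lit 0) (nat_lit 0) (XT.lf (nat_lit 0) (nat_lit 2178422209) (nat_lit 228) (nat_lit 16926990224) (nat_lit 76) (nat_lit 99417453) (nat_lit 33) (nat_lit 5) (nat_lit 36) (nat_lit 5) (nat_lit 34) (nat_lit 5) (nat_lit 505) (nat_lit 360) (nat_lit 275)) (XT.lf (nat_lit 0) (nat_lit 5554963080) (nat_lit 228) (nat_lit 9918465312) (nat_lit 76) (nat_lit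 4027753055) (nat_lit 33) (nat_lit 5) (nat_lit 36) (nat_lit 5) (nat_lit 34) (nat_lit 5) (nat_lit 506) (nat_lit 360) (nat_lit 274)))) (XT.nd (nat_lit 156) (nat_lit 0) (nat_lit 0) (XT.nd (nat_lit 78) (nat_lit 152) (nat_lit 0) (XT.lf (nat_lit 0) (nat_lit 8976289740) (nat_lit 228) (nat_lit 2808447432) (nat_lit 76) (nat_lit 8019186968) (nat_lit 33) (nat_lit 5) (nat_lit 36) (nat_lit 5) (nat_lit 34) (nat_lit 5) (nat_lit 507) (nat_lit 360) (nat_lit 273)) (XT.lf (nat_lit 0) (nat_lit 4464403110) (nat_lit 152) (nat_lit 8008326641) (nat_lit 228) (nat_lit 7639867217) (nat_lit 31) (nat_lit 5) (nat_lit 33) (nat_lit 5) (nat_lit 34) (nat_lit 5) (nat_lit 508) (nat_lit 360) (nat_lit 272))) (XT.nd (nat_lit 78) (nat_lit 0) (nat_lit 0) (XT.lf (nat_lit 0) (nat_lit 11883110229) (nat_lit 152) (nat_lit 4152728107) (nat_lit 228) (nat_lit 4391678964) (nat_lit 31) (nat_lit 5) (nat_lit 33) (nat_lit 5) (nat_lit 34) (nat_lit 5) (nat_lit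 509) (nat_lit 360) (nat_lit 271)) (XT.lf (nat_lit 0) (nat_lit 19413260433) (nat_lit 152) (nat_lit 235275730) (nat_lit 228) (nat_lit 1100642003) (nat_lit 31) (nat_lit 5) (nat_lit 33) (nat_lit 5) (nat_lit 34) (nat_lit 5) (nat_lit 510) (nat_lit 360) (nat_lit 270))))) (XT.nd (nat_lit 234) (nat_lit 380) (nat_lit 0) (XT.nd (nat_lit 78) (nat_lit 0) (nat_lit 0) (XT.lf (nat_lit 0) (nat_lit 2269149972) (nat_lit 228) (nat_lit 15056432772) (nat_lit 76) (nat_lit 3750554361) (nat_lit 28) (nat_lit 5) (nat_lit 31) (nat_lit 5) (nat_lit 29) (nat_lit 5) (nat_lit 511) (nat_lit 360) (nat_lit 269)) (XT.nd (nat_lit 78) (nat_lit 0) (nat_lit 0) (XT.lf (nat_lit 0) (nat_lit 5680885529) (nat_lit 228) (nat_lit 7914409091) (nat_lit 76) (nat_lit 7814417559) (nat_lit 28) (nat_lit 5) (nat_lit 31) (nat_lit 5) (nat_lit 29) (nat_lit 5) (nat_lit 512) (nat_lit 360) (nat_lit 268)) (XT.lf (nat_lit 0) (nat_lit 9139963019) (nat_lit 228) (nat_lit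 665421616) (nat_lit 76) (nat_lit 11944999986) (nat_lit 28) (nat_lit 5) (nat_lit 31) (nat_lit 5) (nat_lit 29) (nat_lit 5) (nat_lit 513) (nat_lit 360) (nat_lit 267)))) (XT.nd (nat_lit 156) (nat_lit 228) (nat_lit 0) (XT.nd (nat_lit 78) (nat_lit 0) (nat_lit 0) (XT.lf (nat_lit 0) (nat_lit 6782323788) (nat_lit 152) (nat_lit 5909450498) (nat_lit 228) (nat_lit 9405633032) (nat_lit 26) (nat_lit 5) (nat_lit 28) (nat_lit 5) (nat_lit 29) (nat_lit 5) (nat_lit 514) (nat_lit 360) (nat_lit 266)) (XT.lf (nat_lit 0) (nat_lit 14353102255) (nat_lit 152) (nat_lit 1945676502) (nat_lit 228) (nat_lit 6152916271) (nat_lit 26) (nat_lit 5) (nat_lit 28) (nat_lit 5) (nat_lit 29) (nat_lit 5) (nat_lit 515) (nat_lit 360) (nat_lit 265))) (XT.nd (nat_lit 78) (nat_lit 228) (nat_lit 0) (XT.lf (nat_lit 0) (nat_lit 19971537557) (nat_lit 228) (nat_lit 785959018) (nat_lit 76) (nat_lit 2055707178) (nat_lit 26) (nat_lit 5) (nat_lit 29) (nat_lit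 5) (nat_lit 27) (nat_lit 4) (nat_lit 516) (nat_lit 360) (nat_lit 264)) (XT.lf (nat_lit 0) (nat_lit 565885798) (nat_lit 228) (nat_lit 16470726899) (nat_lit 76) (nat_lit 6144525549) (nat_lit 23) (nat_lit 5) (nat_lit 26) (nat_lit 5) (nat_lit 24) (nat_lit 5) (nat_lit 517) (nat_lit 360) (nat_lit 263))))))) (XT.nd (nat_lit 51792) (nat_lit 0) (nat_lit 16340) (XT.nd (nat_lit 546) (nat_lit 152) (nat_lit 0) (XT.nd (nat_lit 234) (nat_lit 152) (nat_lit 0) (XT.nd (nat_lit 78) (nat_lit 152) (nat_lit 0) (XT.lf (nat_lit 0) (nat_lit 3989302542) (nat_lit 228) (nat_lit 9241752670) (nat_lit 76) (nat_lit 10325292389) (nat_lit 23) (nat_lit 5) (nat_lit 26) (nat_lit 5) (nat_lit 24) (nat_lit 5) (nat_lit 518) (nat_lit 360) (nat_lit 262)) (XT.nd (nat_lit 78) (nat_lit 152) (nat_lit 0) (XT.lf (nat_lit 0) (nat_lit 7461990486) (nat_lit 228) (nat_lit 1901469363) (nat_lit 76) (nat_lit 14575992207) (nat_lit 23) (nat_lit 5) (nat_lit 26)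 (nat_lit 5) (nat_lit 24) (nat_lit 5) (nat_lit 519) (nat_lit 360) (nat_lit 261)) (XT.lf (nat_lit 0) (nat_lit 5626798030) (nat_lit 152) (nat_lit 5395046345) (nat_lit 228) (nat_lit 13308026818) (nat_lit 21) (nat_lit 5) (nat_lit 23) (nat_lit 5) (nat_lit 24) (nat_lit 5) (nat_lit 520) (nat_lit 360) (nat_lit 260)))) (XT.nd (nat_lit 156) (nat_lit 152) (nat_lit 0) (XT.nd (nat_lit 78) (nat_lit 0) (nat_lit 0) (XT.lf (nat_lit 0) (nat_lit 13299002235) (nat_lit 152) (nat_lit 1347990897) (nat_lit 228) (nat_lit 10081230327) (nat_lit 21) (nat_lit 5) (nat_lit 23) (nat_lit 5) (nat_lit 24) (nat_lit 5) (nat_lit 521) (nat_lit 360) (nat_lit 259)) (XT.lf (nat_lit 0) (nat_lit 18344310888) (nat_lit 228) (nat_lit 4059995002) (nat_lit 76) (nat_lit 2730250128) (nat_lit 21) (nat_lit 5) (nat_lit 24) (nat_lit 5) (nat_lit 22) (nat_lit 4) (nat_lit 522) (nat_lit 360) (nat_lit 258))) (XT.nd (nat_lit 78) (nat_lit 76) (nat_lit 0) (XT.lf (nat_lit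 0) (nat_lit 3461664378) (nat_lit 76) (nat_lit 18667289982) (nat_lit 152) (nat_lit 3419799724) (nat_lit 20) (nat_lit 5) (nat_lit 21) (nat_lit 5) (nat_lit 22) (nat_lit 4) (nat_lit 523) (nat_lit 360) (nat_lit 257)) (XT.lf (nat_lit 0) (nat_lit 27245895) (nat_lit 152) (nat_lit 14813660865) (nat_lit 76) (nat_lit 11130144634) (nat_lit 19) (nat_lit 5) (nat_lit 21) (nat_lit 5) (nat_lit 20) (nat_lit 5) (nat_lit 524) (nat_lit 360) (nat_lit 256))))) (XT.nd (nat_lit 234) (nat_lit 0) (nat_lit 0) (XT.nd (nat_lit 78) (nat_lit 152) (nat_lit 0) (XT.lf (nat_lit 0) (nat_lit 3479839958) (nat_lit 152) (nat_lit 7448257446) (nat_lit 76) (nat_lit 15473603246) (nat_lit 19) (nat_lit 5) (nat_lit 21) (nat_lit 5) (nat_lit 20) (nat_lit 5) (nat_lit 525) (nat_lit 360) (nat_lit 255)) (XT.nd (nat_lit 78) (nat_lit 0) (nat_lit 0) (XT.lf (nat_lit 0) (nat_lit 34667218) (nat_lit 152) (nat_lit 6949745576) (nat_lit 228) (nat_lit 19856897509)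 (nat_lit 17) (nat_lit 5) (nat_lit 19) (nat_lit 5) (nat_lit 20) (nat_lit 5) (nat_lit 526) (nat_lit 360) (nat_lit 254)) (XT.lf (nat_lit 0) (nat_lit 7738170935) (nat_lit 152) (nat_lit 2853733813) (nat_lit 228) (nat_lit 16697156683) (nat_lit 17) (nat_lit 5) (nat_lit 19) (nat_lit 5) (nat_lit 20) (nat_lit 5) (nat_lit 527) (nat_lit 360) (nat_lit 253)))) (XT.nd (nat_lit 50856) (nat_lit 0) (nat_lit 24396) (XT.nd (nat_lit 50778) (nat_lit 0) (nat_lit 26144) (XT.lf (nat_lit 0) (nat_lit 14263244362) (nat_lit 228) (nat_lit 12188333926) (nat_lit 76) (nat_lit 1294361056) (nat_lit 17) (nat_lit 5) (nat_lit 20) (nat_lit 5) (nat_lit 18) (nat_lit 4) (nat_lit 528) (nat_lit 360) (nat_lit 252)) (XT.lf (nat_lit 0) (nat_lit 1908031349) (nat_lit 1596) (nat_lit 845527148) (nat_lit 1596) (nat_lit 845527148) (nat_lit 361) (nat_lit 4) (nat_lit 382) (nat_lit 5) (nat_lit 382) (nat_lit 4) (nat_lit 418) (nat_lit 361) (nat_lit 361))) (XT.nd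 (nat_lit 78) (nat_lit 0) (nat_lit 0) (XT.lf (nat_lit 0) (nat_lit 1358410125) (nat_lit 1672) (nat_lit 115205668) (nat_lit 1748) (nat_lit 5766499449) (nat_lit 338) (nat_lit 5) (nat_lit 360) (nat_lit 5) (nat_lit 361) (nat_lit 4) (nat_lit 419) (nat_lit 361) (nat_lit 360)) (XT.lf (nat_lit 0) (nat_lit 4648594884) (nat_lit 1748) (nat_lit 1128190420) (nat_lit 0) (nat_lit 1506578900) (nat_lit 338) (nat_lit 5) (nat_lit 361) (nat_lit 4) (nat_lit 338) (nat_lit 4) (nat_lit 420) (nat_lit 361) (nat_lit 359)))))) (XT.nd (nat_lit 546) (nat_lit 3648) (nat_lit 0) (XT.nd (nat_lit 234) (nat_lit 2508) (nat_lit 0) (XT.nd (nat_lit 78) (nat_lit 836) (nat_lit 0) (XT.lf (nat_lit 0) (nat_lit 515088356) (nat_lit 1064) (nat_lit 3626491874) (nat_lit 76) (nat_lit 3186648256) (nat_lit 324) (nat_lit 5) (nat_lit 338) (nat_lit 5) (nat_lit 325) (nat_lit 4) (nat_lit 421) (nat_lit 361) (nat_lit 358)) (XT.nd (nat_lit 78) (nat_lit 0) (nat_lit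 0) (XT.lf (nat_lit 0) (nat_lit 1204503432) (nat_lit 836) (nat_lit 2442292156) (nat_lit 912) (nat_lit 3727841596) (nat_lit 313) (nat_lit 5) (nat_lit 324) (nat_lit 5) (nat_lit 325) (nat_lit 4) (nat_lit 422) (nat_lit 361) (nat_lit 357)) (XT.lf (nat_lit 0) (nat_lit 6118183162) (nat_lit 836) (nat_lit 686740279) (nat_lit 912) (nat_lit 617851442) (nat_lit 313) (nat_lit 5) (nat_lit 324) (nat_lit 5) (nat_lit 325) (nat_lit 4) (nat_lit 423) (nat_lit 361) (nat_lit 356)))) (XT.nd (nat_lit 156) (nat_lit 836) (nat_lit 0) (XT.nd (nat_lit 78) (nat_lit 760) (nat_lit 0) (XT.lf (nat_lit 0) (nat_lit 2491968849) (nat_lit 912) (nat_lit 3853243270) (nat_lit 76) (nat_lit 1126982492) (nat_lit 301) (nat_lit 5) (nat_lit 313) (nat_lit 5) (nat_lit 302) (nat_lit 4) (nat_lit 424) (nat_lit 361) (nat_lit 355)) (XT.lf (nat_lit 0) (nat_lit 1078119114) (nat_lit 760) (nat_lit 4538879705) (nat_lit 836) (nat_lit 1906368647) (nat_lit 291) (nat_lit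 5) (nat_lit 301) (nat_lit 5) (nat_lit 302) (nat_lit 4) (nat_lit 425) (nat_lit 361) (nat_lit 354))) (XT.nd (nat_lit 78) (nat_lit 760) (nat_lit 0) (XT.lf (nat_lit 0) (nat_lit 1180086814) (nat_lit 836) (nat_lit 1486833881) (nat_lit 76) (nat_lit 4909208052) (nat_lit 290) (nat_lit 5) (nat_lit 301) (nat_lit 5) (nat_lit 291) (nat_lit 5) (nat_lit 426) (nat_lit 361) (nat_lit 353)) (XT.lf (nat_lit 0) (nat_lit 3541853197) (nat_lit 760) (nat_lit 726275342) (nat_lit 836) (nat_lit 3362325004) (nat_lit 280) (nat_lit 5) (nat_lit 290) (nat_lit 5) (nat_lit 291) (nat_lit 5) (nat_lit 427) (nat_lit 361) (nat_lit 352))))) (XT.nd (nat_lit 234) (nat_lit 2128) (nat_lit 0) (XT.nd (nat_lit 78) (nat_lit 836) (nat_lit 0) (XT.lf (nat_lit 0) (nat_lit 946331975) (nat_lit 684) (nat_lit 6438977370) (nat_lit 760) (nat_lit 301274570) (nat_lit 271) (nat_lit 5) (nat_lit 280) (nat_lit 5) (nat_lit 281) (nat_lit 4) (nat_lit 428) (nat_lit 361)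 (nat_lit 351)) (XT.nd (nat_lit 78) (nat_lit 760) (nat_lit 0) (XT.lf (nat_lit 0) (nat_lit 2759751363) (nat_lit 760) (nat_lit 1693089962) (nat_lit 76) (nat_lit 3291178266) (nat_lit 270) (nat_lit 5) (nat_lit 280) (nat_lit 5) (nat_lit 271) (nat_lit 5) (nat_lit 429) (nat_lit 361) (nat_lit 350)) (XT.lf (nat_lit 0) (nat_lit 3435449597) (nat_lit 760) (nat_lit 2409258673) (nat_lit 836) (nat_lit 1958583793) (nat_lit 260) (nat_lit 5) (nat_lit 270) (nat_lit 5) (nat_lit 271) (nat_lit 5) (nat_lit 430) (nat_lit 361) (nat_lit 349)))) (XT.nd (nat_lit 156) (nat_lit 1368) (nat_lit 0) (XT.nd (nat_lit 78) (nat_lit 0) (nat_lit 0) (XT.lf (nat_lit 0) (nat_lit 765621984) (nat_lit 684) (nat_lit 308308064) (nat_lit 760) (nat_lit 6790511785) (nat_lit 250) (nat_lit 5) (nat_lit 259) (nat_lit 5) (nat_lit 260) (nat_lit 5) (nat_lit 431) (nat_lit 361) (nat_lit 348)) (XT.lf (nat_lit 0) (nat_lit 4127632818) (nat_lit 760) (nat_lit 1954037799)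 (nat_lit 76) (nat_lit 1845208953) (nat_lit 250) (nat_lit 5) (nat_lit 260) (nat_lit 5) (nat_lit 251) (nat_lit 5) (nat_lit 432) (nat_lit 361) (nat_lit 347))) (XT.nd (nat_lit 78) (nat_lit 684) (nat_lit 0) (XT.lf (nat_lit 0) (nat_lit 3272065086) (nat_lit 684) (nat_lit 3940025947) (nat_lit 760) (nat_lit 779139422) (nat_lit 241) (nat_lit 5) (nat_lit 250) (nat_lit 5) (nat_lit 251) (nat_lit 5) (nat_lit 433) (nat_lit 361) (nat_lit 346)) (XT.lf (nat_lit 0) (nat_lit 501316561) (nat_lit 608) (nat_lit 1732961604) (nat_lit 684) (nat_lit 5823085299) (nat_lit 232) (nat_lit 5) (nat_lit 240) (nat_lit 5) (nat_lit 241) (nat_lit 5) (nat_lit 434) (nat_lit 361) (nat_lit 345))))))))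
noncomputable def xc58 : XT := (XT.nd (nat_lit 2106) (nat_lit 4712) (nat_lit 0) (XT.nd (nat_lit 1014) (nat_lit 3876) (nat_lit 0) (XT.nd (nat_lit 468) (nat_lit 2812) (nat_lit 0) (XT.nd (nat_lit 234) (nat_lit 684) (nat_lit 0) (XT.nd (nat_lit 78) (nat_lit 1368) (nat_lit 0) (XT.lf (nat_lit 0) (nat_lit 5279998946) (nat_lit 684) (nat_lit 2306176533) (nat_lit 76) (nat_lit 538945975) (nat_lit 232) (nat_lit 5) (nat_lit 241) (nat_lit 5) (nat_lit 233) (nat_lit 5) (nat_lit 435) (nat_lit 361) (nat_lit 344)) (XT.nd (nat_lit 78) (nat_lit 608) (nat_lit 0) (XT.lf (nat_lit 0) (nat_lit 168985461) (nat_lit 760) (nat_lit 5181253027) (nat_lit 76) (nat_lit 2844441497) (nat_lit 222) (nat_lit 5) (nat_lit 232) (nat_lit 5) (nat_lit 223) (nat_lit 5) (nat_lit 436) (nat_lit 361) (nat_lit 343)) (XT.lf (nat_lit 0) (nat_lit 125548019) (nat_lit 608) (nat_lit 3044633518) (nat_lit 684) (nat_lit 5095825500) (nat_lit 214) (nat_lit 5) (nat_lit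 222) (nat_lit 5) (nat_lit 223) (nat_lit 5) (nat_lit 437) (nat_lit 361) (nat_lit 342)))) (XT.nd (nat_lit 78) (nat_lit 684) (nat_lit 0) (XT.lf (nat_lit 0) (nat_lit 5546612251) (nat_lit 608) (nat_lit 668638552) (nat_lit 684) (nat_lit 2123883352) (nat_lit 214) (nat_lit 5) (nat_lit 222) (nat_lit 5) (nat_lit 223) (nat_lit 5) (nat_lit 438) (nat_lit 361) (nat_lit 341)) (XT.nd (nat_lit 78) (nat_lit 0) (nat_lit 0) (XT.lf (nat_lit 0) (nat_lit 873838984) (nat_lit 684) (nat_lit 5796430528) (nat_lit 76) (nat_lit 1743820144) (nat_lit 205) (nat_lit 5) (nat_lit 214) (nat_lit 5) (nat_lit 206) (nat_lit 5) (nat_lit 439) (nat_lit 361) (nat_lit 340)) (XT.lf (nat_lit 0) (nat_lit 3876608649) (nat_lit 684) (nat_lit 397057232) (nat_lit 76) (nat_lit 4217174570) (nat_lit 205) (nat_lit 5) (nat_lit 214) (nat_lit 5) (nat_lit 206) (nat_lit 5) (nat_lit 440) (nat_lit 361) (nat_lit 339))))) (XT.nd (nat_lit 234) (nat_lit 1596) (nat_lit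 0) (XT.nd (nat_lit 78) (nat_lit 684) (nat_lit 0) (XT.lf (nat_lit 0) (nat_lit 5116458487) (nat_lit 532) (nat_lit 1807384498) (nat_lit 608) (nat_lit 1645641756) (nat_lit 198) (nat_lit 5) (nat_lit 205) (nat_lit 5) (nat_lit 206) (nat_lit 5) (nat_lit 441) (nat_lit 361) (nat_lit 338)) (XT.nd (nat_lit 78) (nat_lit 0) (nat_lit 0) (XT.lf (nat_lit 0) (nat_lit 1336270957) (nat_lit 684) (nat_lit 6602232585) (nat_lit 76) (nat_lit 711622121) (nat_lit 189) (nat_lit 5) (nat_lit 198) (nat_lit 5) (nat_lit 190) (nat_lit 5) (nat_lit 442) (nat_lit 361) (nat_lit 337)) (XT.lf (nat_lit 0) (nat_lit 4342966194) (nat_lit 684) (nat_lit 1111057024) (nat_lit 76) (nat_lit 3278439016) (nat_lit 189) (nat_lit 5) (nat_lit 198) (nat_lit 5) (nat_lit 190) (nat_lit 5) (nat_lit 443) (nat_lit 361) (nat_lit 336)))) (XT.nd (nat_lit 156) (nat_lit 456) (nat_lit 0) (XT.nd (nat_lit 78) (nat_lit 608) (nat_lit 0) (XT.lf (nat_lit 0) (nat_lit 4488259960)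 (nat_lit 532) (nat_lit 2903484275) (nat_lit 608) (nat_lit 1425105432) (nat_lit 182) (nat_lit 5) (nat_lit 189) (nat_lit 5) (nat_lit 190) (nat_lit 5) (nat_lit 444) (nat_lit 361) (nat_lit 335)) (XT.lf (nat_lit 0) (nat_lit 1257092608) (nat_lit 532) (nat_lit 289174092) (nat_lit 608) (nat_lit 7357118819) (nat_lit 174) (nat_lit 5) (nat_lit 181) (nat_lit 5) (nat_lit 182) (nat_lit 5) (nat_lit 445) (nat_lit 361) (nat_lit 334))) (XT.nd (nat_lit 78) (nat_lit 456) (nat_lit 0) (XT.lf (nat_lit 0) (nat_lit 4556108477) (nat_lit 608) (nat_lit 2064267204) (nat_lit 76) (nat_lit 2371166143) (nat_lit 174) (nat_lit 5) (nat_lit 182) (nat_lit 5) (nat_lit 175) (nat_lit 5) (nat_lit 446) (nat_lit 361) (nat_lit 333)) (XT.lf (nat_lit 0) (nat_lit 3614800707) (nat_lit 456) (nat_lit 3991075482) (nat_lit 532) (nat_lit 1476030312) (nat_lit 168) (nat_lit 5) (nat_lit 174) (nat_lit 5) (nat_lit 175) (nat_lit 5) (nat_lit 447) (nat_lit 361)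 (nat_lit 332)))))) (XT.nd (nat_lit 546) (nat_lit 1748) (nat_lit 0) (XT.nd (nat_lit 234) (nat_lit 1064) (nat_lit 0) (XT.nd (nat_lit 78) (nat_lit 456) (nat_lit 0) (XT.lf (nat_lit 0) (nat_lit 193724477) (nat_lit 532) (nat_lit 1298321636) (nat_lit 608) (nat_lit 7682476005) (nat_lit 160) (nat_lit 5) (nat_lit 167) (nat_lit 5) (nat_lit 168) (nat_lit 5) (nat_lit 448) (nat_lit 361) (nat_lit 331)) (XT.nd (nat_lit 78) (nat_lit 456) (nat_lit 0) (XT.lf (nat_lit 0) (nat_lit 4500991865) (nat_lit 608) (nat_lit 3306580646) (nat_lit 76) (nat_lit 1461234498) (nat_lit 160) (nat_lit 5) (nat_lit 168) (nat_lit 5) (nat_lit 161) (nat_lit 5) (nat_lit 449) (nat_lit 361) (nat_lit 330)) (XT.lf (nat_lit 0) (nat_lit 2444998424) (nat_lit 456) (nat_lit 5105394744) (nat_lit 532) (nat_lit 1815015692) (nat_lit 154) (nat_lit 5) (nat_lit 160) (nat_lit 5) (nat_lit 161) (nat_lit 5) (nat_lit 450) (nat_lit 361) (nat_lit 329)))) (XT.nd (nat_lit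 156) (nat_lit 532) (nat_lit 0) (XT.nd (nat_lit 78) (nat_lit 456) (nat_lit 0) (XT.lf (nat_lit 0) (nat_lit 1159439890) (nat_lit 532) (nat_lit 1174805222) (nat_lit 76) (nat_lit 7130011647) (nat_lit 153) (nat_lit 5) (nat_lit 160) (nat_lit 5) (nat_lit 154) (nat_lit 5) (nat_lit 451) (nat_lit 361) (nat_lit 328)) (XT.lf (nat_lit 0) (nat_lit 4159667706) (nat_lit 532) (nat_lit 4892131597) (nat_lit 76) (nat_lit 513265317) (nat_lit 147) (nat_lit 5) (nat_lit 154) (nat_lit 5) (nat_lit 148) (nat_lit 5) (nat_lit 452) (nat_lit 361) (nat_lit 327))) (XT.nd (nat_lit 78) (nat_lit 76) (nat_lit 0) (XT.lf (nat_lit 0) (nat_lit 923371591) (nat_lit 456) (nat_lit 6283109878) (nat_lit 532) (nat_lit 2461709532) (nat_lit 141) (nat_lit 5) (nat_lit 147) (nat_lit 5) (nat_lit 148) (nat_lit 5) (nat_lit 453) (nat_lit 361) (nat_lit 326)) (XT.lf (nat_lit 0) (nat_lit 524141493) (nat_lit 532) (nat_lit 2914212174) (nat_lit 76) (nat_lit 6335181018)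 (nat_lit 140) (nat_lit 5) (nat_lit 147) (nat_lit 5) (nat_lit 141) (nat_lit 5) (nat_lit 454) (nat_lit 361) (nat_lit 325))))) (XT.nd (nat_lit 234) (nat_lit 912) (nat_lit 0) (XT.nd (nat_lit 78) (nat_lit 380) (nat_lit 0) (XT.lf (nat_lit 0) (nat_lit 2997925933) (nat_lit 456) (nat_lit 516490253) (nat_lit 532) (nat_lit 6366722271) (nat_lit 134) (nat_lit 5) (nat_lit 140) (nat_lit 5) (nat_lit 141) (nat_lit 5) (nat_lit 455) (nat_lit 361) (nat_lit 324)) (XT.nd (nat_lit 78) (nat_lit 380) (nat_lit 0) (XT.lf (nat_lit 0) (nat_lit 6558691428) (nat_lit 532) (nat_lit 997287328) (nat_lit 76) (nat_lit 2435063050) (nat_lit 134) (nat_lit 5) (nat_lit 141) (nat_lit 5) (nat_lit 135) (nat_lit 5) (nat_lit 456) (nat_lit 361) (nat_lit 323)) (XT.lf (nat_lit 0) (nat_lit 5011339291) (nat_lit 380) (nat_lit 4647796715) (nat_lit 456) (nat_lit 444132326) (nat_lit 129) (nat_lit 5) (nat_lit 134) (nat_lit 5) (nat_lit 135) (nat_lit 5) (nat_lit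 457) (nat_lit 361) (nat_lit 322)))) (XT.nd (nat_lit 156) (nat_lit 456) (nat_lit 0) (XT.nd (nat_lit 78) (nat_lit 0) (nat_lit 0) (XT.lf (nat_lit 0) (nat_lit 873038717) (nat_lit 380) (nat_lit 1668524311) (nat_lit 456) (nat_lit 7676430576) (nat_lit 123) (nat_lit 5) (nat_lit 128) (nat_lit 5) (nat_lit 129) (nat_lit 5) (nat_lit 458) (nat_lit 361) (nat_lit 321)) (XT.lf (nat_lit 0) (nat_lit 5584095268) (nat_lit 456) (nat_lit 3377921414) (nat_lit 76) (nat_lit 1372905598) (nat_lit 123) (nat_lit 5) (nat_lit 129) (nat_lit 5) (nat_lit 124) (nat_lit 5) (nat_lit 459) (nat_lit 361) (nat_lit 320))) (XT.nd (nat_lit 78) (nat_lit 76) (nat_lit 0) (XT.lf (nat_lit 0) (nat_lit 2675775572) (nat_lit 380) (nat_lit 6000685541) (nat_lit 456) (nat_lit 1777977201) (nat_lit 118) (nat_lit 5) (nat_lit 123) (nat_lit 5) (nat_lit 124) (nat_lit 5) (nat_lit 460) (nat_lit 361) (nat_lit 319)) (XT.lf (nat_lit 0) (nat_lit 1221378289) (nat_lit 456)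 (nat_lit 1744747558) (nat_lit 76) (nat_lit 7610413291) (nat_lit 117) (nat_lit 5) (nat_lit 123) (nat_lit 5) (nat_lit 118) (nat_lit 5) (nat_lit 461) (nat_lit 361) (nat_lit 318))))))) (XT.nd (nat_lit 1092) (nat_lit 1976) (nat_lit 0) (XT.nd (nat_lit 546) (nat_lit 1216) (nat_lit 0) (XT.nd (nat_lit 234) (nat_lit 836) (nat_lit 0) (XT.nd (nat_lit 78) (nat_lit 304) (nat_lit 0) (XT.lf (nat_lit 0) (nat_lit 4247950001) (nat_lit 456) (nat_lit 6302070196) (nat_lit 76) (nat_lit 151032811) (nat_lit 112) (nat_lit 5) (nat_lit 118) (nat_lit 5) (nat_lit 113) (nat_lit 5) (nat_lit 462) (nat_lit 361) (nat_lit 317)) (XT.nd (nat_lit 78) (nat_lit 304) (nat_lit 0) (XT.lf (nat_lit 0) (nat_lit 7328218675) (nat_lit 456) (nat_lit 214397343) (nat_lit 76) (nat_lit 3285604105) (nat_lit 112) (nat_lit 5) (nat_lit 118) (nat_lit 5) (nat_lit 113) (nat_lit 5) (nat_lit 463) (nat_lit 361) (nat_lit 316)) (XT.lf (nat_lit 0) (nat_lit 6018976874)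 (nat_lit 304) (nat_lit 4452681897) (nat_lit 380) (nat_lit 486266247) (nat_lit 108) (nat_lit 5) (nat_lit 112) (nat_lit 5) (nat_lit 113) (nat_lit 5) (nat_lit 464) (nat_lit 361) (nat_lit 315)))) (XT.nd (nat_lit 156) (nat_lit 380) (nat_lit 0) (XT.nd (nat_lit 78) (nat_lit 0) (nat_lit 0) (XT.lf (nat_lit 0) (nat_lit 1233950053) (nat_lit 380) (nat_lit 1291911631) (nat_lit 456) (nat_lit 8564609927) (nat_lit 102) (nat_lit 5) (nat_lit 107) (nat_lit 5) (nat_lit 108) (nat_lit 5) (nat_lit 465) (nat_lit 361) (nat_lit 314)) (XT.lf (nat_lit 0) (nat_lit 5600493108) (nat_lit 456) (nat_lit 3699174126) (nat_lit 76) (nat_lit 1925786452) (nat_lit 102) (nat_lit 5) (nat_lit 108) (nat_lit 5) (nat_lit 103) (nat_lit 5) (nat_lit 466) (nat_lit 361) (nat_lit 313))) (XT.nd (nat_lit 78) (nat_lit 76) (nat_lit 0) (XT.lf (nat_lit 0) (nat_lit 2551881259) (nat_lit 304) (nat_lit 6173447577) (nat_lit 380) (nat_lit 2638056134) (nat_lit 98) (nat_lit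 5) (nat_lit 102) (nat_lit 5) (nat_lit 103) (nat_lit 5) (nat_lit 467) (nat_lit 361) (nat_lit 312)) (XT.lf (nat_lit 0) (nat_lit 391904622) (nat_lit 380) (nat_lit 2582794107) (nat_lit 76) (nat_lit 8529572429) (nat_lit 97) (nat_lit 5) (nat_lit 102) (nat_lit 5) (nat_lit 98) (nat_lit 5) (nat_lit 468) (nat_lit 361) (nat_lit 311))))) (XT.nd (nat_lit 234) (nat_lit 608) (nat_lit 0) (XT.nd (nat_lit 78) (nat_lit 304) (nat_lit 0) (XT.lf (nat_lit 0) (nat_lit 3437945683) (nat_lit 380) (nat_lit 7901150644) (nat_lit 76) (nat_lit 308736327) (nat_lit 93) (nat_lit 5) (nat_lit 98) (nat_lit 5) (nat_lit 94) (nat_lit 5) (nat_lit 469) (nat_lit 361) (nat_lit 310)) (XT.nd (nat_lit 78) (nat_lit 304) (nat_lit 0) (XT.lf (nat_lit 0) (nat_lit 6546692933) (nat_lit 380) (nat_lit 1629665902) (nat_lit 76) (nat_lit 3617892823) (nat_lit 93) (nat_lit 5) (nat_lit 98) (nat_lit 5) (nat_lit 94) (nat_lit 5) (nat_lit 470) (nat_lit 361) (nat_lit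 309)) (XT.lf (nat_lit 0) (nat_lit 4777265492) (nat_lit 304) (nat_lit 4936698859) (nat_lit 380) (nat_lit 2229729264) (nat_lit 89) (nat_lit 5) (nat_lit 93) (nat_lit 5) (nat_lit 94) (nat_lit 5) (nat_lit 471) (nat_lit 361) (nat_lit 308)))) (XT.nd (nat_lit 156) (nat_lit 228) (nat_lit 0) (XT.nd (nat_lit 78) (nat_lit 304) (nat_lit 0) (XT.lf (nat_lit 0) (nat_lit 813761570) (nat_lit 380) (nat_lit 819832447) (nat_lit 76) (nat_lit 10462912289) (nat_lit 88) (nat_lit 5) (nat_lit 93) (nat_lit 5) (nat_lit 89) (nat_lit 5) (nat_lit 472) (nat_lit 361) (nat_lit 307)) (XT.lf (nat_lit 0) (nat_lit 3902647852) (nat_lit 380) (nat_lit 6602094277) (nat_lit 76) (nat_lit 1747071030) (nat_lit 84) (nat_lit 5) (nat_lit 89) (nat_lit 5) (nat_lit 85) (nat_lit 5) (nat_lit 473) (nat_lit 361) (nat_lit 306))) (XT.nd (nat_lit 78) (nat_lit 228) (nat_lit 0) (XT.lf (nat_lit 0) (nat_lit 7035985574) (nat_lit 380) (nat_lit 213168803) (nat_lit 76)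 (nat_lit 5161438212) (nat_lit 84) (nat_lit 5) (nat_lit 89) (nat_lit 5) (nat_lit 85) (nat_lit 5) (nat_lit 474) (nat_lit 361) (nat_lit 305)) (XT.lf (nat_lit 0) (nat_lit 6335675734) (nat_lit 228) (nat_lit 3904427441) (nat_lit 304) (nat_lit 2332301694) (nat_lit 81) (nat_lit 5) (nat_lit 84) (nat_lit 5) (nat_lit 85) (nat_lit 5) (nat_lit 475) (nat_lit 361) (nat_lit 304)))))) (XT.nd (nat_lit 546) (nat_lit 760) (nat_lit 0) (XT.nd (nat_lit 234) (nat_lit 608) (nat_lit 0) (XT.nd (nat_lit 78) (nat_lit 228) (nat_lit 0) (XT.lf (nat_lit 0) (nat_lit 227861782) (nat_lit 304) (nat_lit 502858594) (nat_lit 380) (nat_lit 12007252078) (nat_lit 76) (nat_lit 5) (nat_lit 80) (nat_lit 5) (nat_lit 81) (nat_lit 5) (nat_lit 476) (nat_lit 361) (nat_lit 303)) (XT.nd (nat_lit 78) (nat_lit 228) (nat_lit 0) (XT.lf (nat_lit 0) (nat_lit 3852453429) (nat_lit 380) (nat_lit 6086005731) (nat_lit 76) (nat_lit 2967528696) (nat_lit 76) (nat_lit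 5) (nat_lit 81) (nat_lit 5) (nat_lit 77) (nat_lit 5) (nat_lit 477) (nat_lit 361) (nat_lit 302)) (XT.lf (nat_lit 0) (nat_lit 418453453) (nat_lit 228) (nat_lit 6592116632) (nat_lit 304) (nat_lit 6067332539) (nat_lit 73) (nat_lit 5) (nat_lit 76) (nat_lit 5) (nat_lit 77) (nat_lit 5) (nat_lit 478) (nat_lit 361) (nat_lit 301)))) (XT.nd (nat_lit 156) (nat_lit 228) (nat_lit 0) (XT.nd (nat_lit 78) (nat_lit 380) (nat_lit 0) (XT.lf (nat_lit 0) (nat_lit 7085544300) (nat_lit 228) (nat_lit 3155351987) (nat_lit 304) (nat_lit 3012196141) (nat_lit 73) (nat_lit 5) (nat_lit 76) (nat_lit 5) (nat_lit 77) (nat_lit 5) (nat_lit 479) (nat_lit 361) (nat_lit 300)) (XT.lf (nat_lit 0) (nat_lit 76122305) (nat_lit 380) (nat_lit 13025066552) (nat_lit 76) (nat_lit 331131780) (nat_lit 68) (nat_lit 5) (nat_lit 73) (nat_lit 5) (nat_lit 69) (nat_lit 5) (nat_lit 480) (nat_lit 361) (nat_lit 299))) (XT.nd (nat_lit 78) (nat_lit 228) (nat_lit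 0) (XT.lf (nat_lit 0) (nat_lit 3217256317) (nat_lit 380) (nat_lit 6507875711) (nat_lit 76) (nat_lit 3888992182) (nat_lit 68) (nat_lit 5) (nat_lit 73) (nat_lit 5) (nat_lit 69) (nat_lit 5) (nat_lit 481) (nat_lit 361) (nat_lit 298)) (XT.lf (nat_lit 0) (nat_lit 92234941) (nat_lit 228) (nat_lit 6298975786) (nat_lit 304) (nat_lit 7408969510) (nat_lit 65) (nat_lit 5) (nat_lit 68) (nat_lit 5) (nat_lit 69) (nat_lit 5) (nat_lit 482) (nat_lit 361) (nat_lit 297))))) (XT.nd (nat_lit 234) (nat_lit 456) (nat_lit 0) (XT.nd (nat_lit 78) (nat_lit 304) (nat_lit 0) (XT.lf (nat_lit 0) (nat_lit 6864250053) (nat_lit 228) (nat_lit 2777750650) (nat_lit 304) (nat_lit 4347705569) (nat_lit 65) (nat_lit 5) (nat_lit 68) (nat_lit 5) (nat_lit 69) (nat_lit 5) (nat_lit 483) (nat_lit 361) (nat_lit 296)) (XT.nd (nat_lit 78) (nat_lit 304) (nat_lit 0) (XT.lf (nat_lit 0) (nat_lit 12933255896) (nat_lit 304) (nat_lit 464463668) (nat_lit 76)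 (nat_lit 785809977) (nat_lit 65) (nat_lit 5) (nat_lit 69) (nat_lit 5) (nat_lit 66) (nat_lit 5) (nat_lit 484) (nat_lit 361) (nat_lit 295)) (XT.lf (nat_lit 0) (nat_lit 1914613590) (nat_lit 304) (nat_lit 8045553092) (nat_lit 76) (nat_lit 4420218884) (nat_lit 61) (nat_lit 5) (nat_lit 65) (nat_lit 5) (nat_lit 62) (nat_lit 5) (nat_lit 485) (nat_lit 361) (nat_lit 294)))) (XT.nd (nat_lit 156) (nat_lit 228) (nat_lit 0) (XT.nd (nat_lit 78) (nat_lit 228) (nat_lit 0) (XT.lf (nat_lit 0) (nat_lit 5100024602) (nat_lit 304) (nat_lit 1360023928) (nat_lit 76) (nat_lit 8121500348) (nat_lit 61) (nat_lit 5) (nat_lit 65) (nat_lit 5) (nat_lit 62) (nat_lit 5) (nat_lit 486) (nat_lit 361) (nat_lit 293)) (XT.lf (nat_lit 0) (nat_lit 5485057829) (nat_lit 228) (nat_lit 2871085021) (nat_lit 304) (nat_lit 6430467132) (nat_lit 58) (nat_lit 5) (nat_lit 61) (nat_lit 5) (nat_lit 62) (nat_lit 5) (nat_lit 487) (nat_lit 361) (nat_lit 292)))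 (XT.nd (nat_lit 78) (nat_lit 228) (nat_lit 0) (XT.lf (nat_lit 0) (nat_lit 11663234232) (nat_lit 304) (nat_lit 2561560720) (nat_lit 76) (nat_lit 771274562) (nat_lit 58) (nat_lit 5) (nat_lit 62) (nat_lit 5) (nat_lit 59) (nat_lit 5) (nat_lit 488) (nat_lit 361) (nat_lit 291)) (XT.lf (nat_lit 0) (nat_lit 4305328733) (nat_lit 228) (nat_lit 10750200539) (nat_lit 304) (nat_lit 153821673) (nat_lit 55) (nat_lit 5) (nat_lit 58) (nat_lit 5) (nat_lit 59) (nat_lit 5) (nat_lit 489) (nat_lit 361) (nat_lit 290))))))))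
noncomputable def xc59 : XT := (XT.nd (nat_lit 2106) (nat_lit 684) (nat_lit 0) (XT.nd (nat_lit 1014) (nat_lit 988) (nat_lit 0) (XT.nd (nat_lit 468) (nat_lit 608) (nat_lit 0) (XT.nd (nat_lit 234) (nat_lit 304) (nat_lit 0) (XT.nd (nat_lit 78) (nat_lit 228) (nat_lit 0) (XT.lf (nat_lit 0) (nat_lit 3037718661) (nat_lit 304) (nat_lit 4147882062) (nat_lit 76) (nat_lit 8241120470) (nat_lit 54) (nat_lit 5) (nat_lit 58) (nat_lit 5) (nat_lit 55) (nat_lit 5) (nat_lit 490) (nat_lit 361) (nat_lit 289)) (XT.nd (nat_lit 78) (nat_lit 0) (nat_lit 0) (XT.lf (nat_lit 0) (nat_lit 2733667433) (nat_lit 228) (nat_lit 3547812423) (nat_lit 304) (nat_lit 9367142799) (nat_lit 51) (nat_lit 5) (nat_lit 54) (nat_lit 5) (nat_lit 55) (nat_lit 5) (nat_lit 491) (nat_lit 361) (nat_lit 288)) (XT.lf (nat_lit 0) (nat_lit 9592026964) (nat_lit 304) (nat_lit 6111269298) (nat_lit 76) (nat_lit 171640551) (nat_lit 51) (nat_lit 5) (nat_lit 55) (nat_lit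 5) (nat_lit 52) (nat_lit 5) (nat_lit 492) (nat_lit 361) (nat_lit 287)))) (XT.nd (nat_lit 78) (nat_lit 76) (nat_lit 0) (XT.lf (nat_lit 0) (nat_lit 771290415) (nat_lit 228) (nat_lit 12199365737) (nat_lit 304) (nat_lit 3135096311) (nat_lit 48) (nat_lit 5) (nat_lit 51) (nat_lit 5) (nat_lit 52) (nat_lit 5) (nat_lit 493) (nat_lit 361) (nat_lit 286)) (XT.nd (nat_lit 78) (nat_lit 0) (nat_lit 0) (XT.lf (nat_lit 0) (nat_lit 89382967) (nat_lit 304) (nat_lit 8510683122) (nat_lit 76) (nat_lit 7740826608) (nat_lit 47) (nat_lit 5) (nat_lit 51) (nat_lit 5) (nat_lit 48) (nat_lit 5) (nat_lit 494) (nat_lit 361) (nat_lit 285)) (XT.lf (nat_lit 0) (nat_lit 3310353817) (nat_lit 304) (nat_lit 1614227286) (nat_lit 76) (nat_lit 11656272456) (nat_lit 47) (nat_lit 5) (nat_lit 51) (nat_lit 5) (nat_lit 48) (nat_lit 5) (nat_lit 495) (nat_lit 361) (nat_lit 284))))) (XT.nd (nat_lit 234) (nat_lit 228) (nat_lit 0) (XT.nd (nat_lit 78) (nat_lit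 228) (nat_lit 0) (XT.lf (nat_lit 0) (nat_lit 5449435402) (nat_lit 152) (nat_lit 1156142662) (nat_lit 228) (nat_lit 10219850561) (nat_lit 45) (nat_lit 5) (nat_lit 47) (nat_lit 5) (nat_lit 48) (nat_lit 5) (nat_lit 496) (nat_lit 361) (nat_lit 283)) (XT.nd (nat_lit 78) (nat_lit 228) (nat_lit 0) (XT.lf (nat_lit 0) (nat_lit 9969634616) (nat_lit 228) (nat_lit 4458272825) (nat_lit 76) (nat_lit 2646940633) (nat_lit 45) (nat_lit 5) (nat_lit 48) (nat_lit 5) (nat_lit 46) (nat_lit 5) (nat_lit 497) (nat_lit 361) (nat_lit 282)) (XT.lf (nat_lit 0) (nat_lit 2582520468) (nat_lit 228) (nat_lit 10817948061) (nat_lit 304) (nat_lit 3928808673) (nat_lit 42) (nat_lit 5) (nat_lit 45) (nat_lit 5) (nat_lit 46) (nat_lit 5) (nat_lit 498) (nat_lit 361) (nat_lit 281)))) (XT.nd (nat_lit 156) (nat_lit 152) (nat_lit 0) (XT.nd (nat_lit 78) (nat_lit 76) (nat_lit 0) (XT.lf (nat_lit 0) (nat_lit 9783340526) (nat_lit 228) (nat_lit 7121789312)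 (nat_lit 304) (nat_lit 683571854) (nat_lit 42) (nat_lit 5) (nat_lit 45) (nat_lit 5) (nat_lit 46) (nat_lit 5) (nat_lit 499) (nat_lit 361) (nat_lit 280)) (XT.lf (nat_lit 0) (nat_lit 2567728520) (nat_lit 304) (nat_lit 782939747) (nat_lit 76) (nat_lit 14502803768) (nat_lit 41) (nat_lit 5) (nat_lit 45) (nat_lit 5) (nat_lit 42) (nat_lit 5) (nat_lit 500) (nat_lit 361) (nat_lit 279))) (XT.nd (nat_lit 78) (nat_lit 0) (nat_lit 0) (XT.lf (nat_lit 0) (nat_lit 5896097553) (nat_lit 228) (nat_lit 11706875404) (nat_lit 76) (nat_lit 520060906) (nat_lit 39) (nat_lit 5) (nat_lit 42) (nat_lit 5) (nat_lit 40) (nat_lit 5) (nat_lit 501) (nat_lit 361) (nat_lit 278)) (XT.lf (nat_lit 0) (nat_lit 9294705083) (nat_lit 228) (nat_lit 4690322179) (nat_lit 76) (nat_lit 4412896400) (nat_lit 39) (nat_lit 5) (nat_lit 42) (nat_lit 5) (nat_lit 40) (nat_lit 5) (nat_lit 502) (nat_lit 361) (nat_lit 277)))))) (XT.nd (nat_lit 546) (nat_lit 380)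 (nat_lit 0) (XT.nd (nat_lit 234) (nat_lit 304) (nat_lit 0) (XT.nd (nat_lit 78) (nat_lit 76) (nat_lit 0) (XT.lf (nat_lit 0) (nat_lit 2459537756) (nat_lit 228) (nat_lit 10294375299) (nat_lit 304) (nat_lit 5924555595) (nat_lit 36) (nat_lit 5) (nat_lit 39) (nat_lit 5) (nat_lit 40) (nat_lit 5) (nat_lit 503) (nat_lit 361) (nat_lit 276)) (XT.nd (nat_lit 78) (nat_lit 76) (nat_lit 0) (XT.lf (nat_lit 0) (nat_lit 9776950241) (nat_lit 228) (nat_lit 6513693112) (nat_lit 304) (nat_lit 2673824183) (nat_lit 36) (nat_lit 5) (nat_lit 39) (nat_lit 5) (nat_lit 40) (nat_lit 5) (nat_lit 504) (nat_lit 361) (nat_lit 275)) (XT.lf (nat_lit 0) (nat_lit 610660565) (nat_lit 304) (nat_lit 2058214193) (nat_lit 76) (nat_lit 16587694518) (nat_lit 35) (nat_lit 5) (nat_lit 39) (nat_lit 5) (nat_lit 36) (nat_lit 5) (nat_lit 505) (nat_lit 361) (nat_lit 274)))) (XT.nd (nat_lit 156) (nat_lit 152) (nat_lit 0) (XT.nd (nat_lit 78) (nat_lit 0)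 (nat_lit 0) (XT.lf (nat_lit 0) (nat_lit 3944982858) (nat_lit 228) (nat_lit 14335611472) (nat_lit 76) (nat_lit 1273175433) (nat_lit 33) (nat_lit 5) (nat_lit 36) (nat_lit 5) (nat_lit 34) (nat_lit 5) (nat_lit 506) (nat_lit 361) (nat_lit 273)) (XT.lf (nat_lit 0) (nat_lit 7355270385) (nat_lit 228) (nat_lit 7244365446) (nat_lit 76) (nat_lit 5257101871) (nat_lit 33) (nat_lit 5) (nat_lit 36) (nat_lit 5) (nat_lit 34) (nat_lit 5) (nat_lit 507) (nat_lit 361) (nat_lit 272))) (XT.nd (nat_lit 78) (nat_lit 152) (nat_lit 0) (XT.lf (nat_lit 0) (nat_lit 10811901852) (nat_lit 228) (nat_lit 48470132) (nat_lit 76) (nat_lit 9305839095) (nat_lit 33) (nat_lit 5) (nat_lit 36) (nat_lit 5) (nat_lit 34) (nat_lit 5) (nat_lit 508) (nat_lit 361) (nat_lit 271)) (XT.lf (nat_lit 0) (nat_lit 7351310142) (nat_lit 152) (nat_lit 7012652239) (nat_lit 228) (nat_lit 6117394283) (nat_lit 31) (nat_lit 5) (nat_lit 33) (nat_lit 5) (nat_lit 34) (nat_lit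 5) (nat_lit 509) (nat_lit 361) (nat_lit 270))))) (XT.nd (nat_lit 234) (nat_lit 152) (nat_lit 0) (XT.nd (nat_lit 78) (nat_lit 228) (nat_lit 0) (XT.lf (nat_lit 0) (nat_lit 14863536129) (nat_lit 152) (nat_lit 3102605282) (nat_lit 228) (nat_lit 2837090702) (nat_lit 31) (nat_lit 5) (nat_lit 33) (nat_lit 5) (nat_lit 34) (nat_lit 5) (nat_lit 510) (nat_lit 361) (nat_lit 269)) (XT.nd (nat_lit 78) (nat_lit 0) (nat_lit 0) (XT.lf (nat_lit 0) (nat_lit 495820088) (nat_lit 228) (nat_lit 19764077103) (nat_lit 76) (nat_lit 871716489) (nat_lit 28) (nat_lit 5) (nat_lit 31) (nat_lit 5) (nat_lit 29) (nat_lit 5) (nat_lit 511) (nat_lit 361) (nat_lit 268)) (XT.lf (nat_lit 0) (nat_lit 3897212685) (nat_lit 228) (nat_lit 12639814155) (nat_lit 76) (nat_lit 4928372739) (nat_lit 28) (nat_lit 5) (nat_lit 31) (nat_lit 5) (nat_lit 29) (nat_lit 5) (nat_lit 512) (nat_lit 361) (nat_lit 267)))) (XT.nd (nat_lit 156) (nat_lit 0) (nat_lit 0)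 (XT.nd (nat_lit 78) (nat_lit 152) (nat_lit 0) (XT.lf (nat_lit 0) (nat_lit 7346150019) (nat_lit 228) (nat_lit 5408239162) (nat_lit 76) (nat_lit 9051889530) (nat_lit 28) (nat_lit 5) (nat_lit 31) (nat_lit 5) (nat_lit 29) (nat_lit 5) (nat_lit 513) (nat_lit 361) (nat_lit 266)) (XT.lf (nat_lit 0) (nat_lit 1959178766) (nat_lit 152) (nat_lit 8897526133) (nat_lit 228) (nat_lit 11297425447) (nat_lit 26) (nat_lit 5) (nat_lit 28) (nat_lit 5) (nat_lit 29) (nat_lit 5) (nat_lit 514) (nat_lit 361) (nat_lit 265))) (XT.nd (nat_lit 78) (nat_lit 0) (nat_lit 0) (XT.lf (nat_lit 0) (nat_lit 9512998481) (nat_lit 152) (nat_lit 4940854379) (nat_lit 228) (nat_lit 8054766061) (nat_lit 26) (nat_lit 5) (nat_lit 28) (nat_lit 5) (nat_lit 29) (nat_lit 5) (nat_lit 515) (nat_lit 361) (nat_lit 264)) (XT.lf (nat_lit 0) (nat_lit 17184309611) (nat_lit 152) (nat_lit 919114415) (nat_lit 228) (nat_lit 4767171036) (nat_lit 26) (nat_lit 5) (nat_lit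 28) (nat_lit 5) (nat_lit 29) (nat_lit 5) (nat_lit 516) (nat_lit 361) (nat_lit 263))))))) (XT.nd (nat_lit 51636) (nat_lit 0) (nat_lit 17708) (XT.nd (nat_lit 546) (nat_lit 304) (nat_lit 0) (XT.nd (nat_lit 234) (nat_lit 152) (nat_lit 0) (XT.nd (nat_lit 78) (nat_lit 76) (nat_lit 0) (XT.lf (nat_lit 0) (nat_lit 1738138786) (nat_lit 152) (nat_lit 20100572973) (nat_lit 228) (nat_lit 1400851716) (nat_lit 24) (nat_lit 5) (nat_lit 26) (nat_lit 5) (nat_lit 27) (nat_lit 4) (nat_lit 517) (nat_lit 361) (nat_lit 262)) (XT.nd (nat_lit 78) (nat_lit 0) (nat_lit 0) (XT.lf (nat_lit 0) (nat_lit 2031433917) (nat_lit 228) (nat_lit 14279825701) (nat_lit 76) (nat_lit 7303888640) (nat_lit 23) (nat_lit 5) (nat_lit 26) (nat_lit 5) (nat_lit 24) (nat_lit 5) (nat_lit 518) (nat_lit 361) (nat_lit 261)) (XT.lf (nat_lit 0) (nat_lit 5494804674) (nat_lit 228) (nat_lit 6955689942) (nat_lit 76) (nat_lit 11547947825) (nat_lit 23) (nat_lit 5)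 (nat_lit 26) (nat_lit 5) (nat_lit 24) (nat_lit 5) (nat_lit 519) (nat_lit 361) (nat_lit 260)))) (XT.nd (nat_lit 156) (nat_lit 0) (nat_lit 0) (XT.nd (nat_lit 78) (nat_lit 0) (nat_lit 0) (XT.lf (nat_lit 0) (nat_lit 489368205) (nat_lit 152) (nat_lit 8522800257) (nat_lit 228) (nat_lit 15377546235) (nat_lit 21) (nat_lit 5) (nat_lit 23) (nat_lit 5) (nat_lit 24) (nat_lit 5) (nat_lit 520) (nat_lit 361) (nat_lit 259)) (XT.lf (nat_lit 0) (nat_lit 8145845632) (nat_lit 152) (nat_lit 4482414088) (nat_lit 228) (nat_lit 12159991645) (nat_lit 21) (nat_lit 5) (nat_lit 23) (nat_lit 5) (nat_lit 24) (nat_lit 5) (nat_lit 521) (nat_lit 361) (nat_lit 258))) (XT.nd (nat_lit 78) (nat_lit 0) (nat_lit 0) (XT.lf (nat_lit 0) (nat_lit 15924307419) (nat_lit 152) (nat_lit 374427985) (nat_lit 228) (nat_lit 8896388551) (nat_lit 21) (nat_lit 5) (nat_lit 23) (nat_lit 5) (nat_lit 24) (nat_lit 5) (nat_lit 522) (nat_lit 361) (nat_lit 257))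 (XT.lf (nat_lit 0) (nat_lit 20049725015) (nat_lit 228) (nat_lit 1807378182) (nat_lit 76) (nat_lit 3752895026) (nat_lit 21) (nat_lit 5) (nat_lit 24) (nat_lit 5) (nat_lit 22) (nat_lit 4) (nat_lit 523) (nat_lit 361) (nat_lit 256))))) (XT.nd (nat_lit 234) (nat_lit 152) (nat_lit 0) (XT.nd (nat_lit 78) (nat_lit 76) (nat_lit 0) (XT.lf (nat_lit 0) (nat_lit 5849360328) (nat_lit 76) (nat_lit 18049508379) (nat_lit 152) (nat_lit 2133844774) (nat_lit 20) (nat_lit 5) (nat_lit 21) (nat_lit 5) (nat_lit 22) (nat_lit 4) (nat_lit 524) (nat_lit 361) (nat_lit 255)) (XT.nd (nat_lit 78) (nat_lit 0) (nat_lit 0) (XT.lf (nat_lit 0) (nat_lit 1338171585) (nat_lit 152) (nat_lit 12819066434) (nat_lit 76) (nat_lit 12306576020) (nat_lit 19) (nat_lit 5) (nat_lit 21) (nat_lit 5) (nat_lit 20) (nat_lit 5) (nat_lit 525) (nat_lit 361) (nat_lit 254)) (XT.lf (nat_lit 0) (nat_lit 4834123789) (nat_lit 152) (nat_lit 5351273920) (nat_lit 76) (nat_lit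 16718201285) (nat_lit 19) (nat_lit 5) (nat_lit 21) (nat_lit 5) (nat_lit 20) (nat_lit 5) (nat_lit 526) (nat_lit 361) (nat_lit 253)))) (XT.nd (nat_lit 50700) (nat_lit 0) (nat_lit 27740) (XT.nd (nat_lit 78) (nat_lit 0) (nat_lit 0) (XT.lf (nat_lit 0) (nat_lit 2266533259) (nat_lit 152) (nat_lit 6131551133) (nat_lit 228) (nat_lit 18954139187) (nat_lit 17) (nat_lit 5) (nat_lit 19) (nat_lit 5) (nat_lit 20) (nat_lit 5) (nat_lit 527) (nat_lit 361) (nat_lit 252)) (XT.lf (nat_lit 0) (nat_lit 10080358566) (nat_lit 152) (nat_lit 1972387554) (nat_lit 228) (nat_lit 15756691706) (nat_lit 17) (nat_lit 5) (nat_lit 19) (nat_lit 5) (nat_lit 20) (nat_lit 5) (nat_lit 528) (nat_lit 361) (nat_lit 251))) (XT.nd (nat_lit 78) (nat_lit 0) (nat_lit 0) (XT.lf (nat_lit 0) (nat_lit 396438780) (nat_lit 1596) (nat_lit 2766413153) (nat_lit 0) (nat_lit 396438780) (nat_lit 382) (nat_lit 5) (nat_lit 403) (nat_lit 4) (nat_lit 382) (nat_lit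 4) (nat_lit 416) (nat_lit 362) (nat_lit 362)) (XT.lf (nat_lit 0) (nat_lit 3947257584) (nat_lit 1596) (nat_lit 914036487) (nat_lit 0) (nat_lit 2296597931) (nat_lit 382) (nat_lit 5) (nat_lit 403) (nat_lit 4) (nat_lit 382) (nat_lit 4) (nat_lit 417) (nat_lit 362) (nat_lit 361)))))) (XT.nd (nat_lit 546) (nat_lit 3876) (nat_lit 0) (XT.nd (nat_lit 234) (nat_lit 2812) (nat_lit 0) (XT.nd (nat_lit 78) (nat_lit 1748) (nat_lit 0) (XT.lf (nat_lit 0) (nat_lit 3785152623) (nat_lit 1596) (nat_lit 3341320425) (nat_lit 1596) (nat_lit 72366995) (nat_lit 361) (nat_lit 4) (nat_lit 382) (nat_lit 5) (nat_lit 382) (nat_lit 4) (nat_lit 418) (nat_lit 362) (nat_lit 360)) (XT.nd (nat_lit 78) (nat_lit 0) (nat_lit 0) (XT.lf (nat_lit 0) (nat_lit 1284597519) (nat_lit 1672) (nat_lit 1755062617) (nat_lit 1748) (nat_lit 4201582961) (nat_lit 338) (nat_lit 5) (nat_lit 360) (nat_lit 5) (nat_lit 361) (nat_lit 4) (nat_lit 419) (nat_lit 362)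 (nat_lit 359)) (XT.lf (nat_lit 0) (nat_lit 6060917338) (nat_lit 1672) (nat_lit 113284023) (nat_lit 1748) (nat_lit 1111139673) (nat_lit 338) (nat_lit 5) (nat_lit 360) (nat_lit 5) (nat_lit 361) (nat_lit 4) (nat_lit 420) (nat_lit 362) (nat_lit 358)))) (XT.nd (nat_lit 156) (nat_lit 912) (nat_lit 0) (XT.nd (nat_lit 78) (nat_lit 836) (nat_lit 0) (XT.lf (nat_lit 0) (nat_lit 1986995010) (nat_lit 1064) (nat_lit 3766587513) (nat_lit 76) (nat_lit 1577098408) (nat_lit 324) (nat_lit 5) (nat_lit 338) (nat_lit 5) (nat_lit 325) (nat_lit 4) (nat_lit 421) (nat_lit 362) (nat_lit 357)) (XT.lf (nat_lit 0) (nat_lit 1031311573) (nat_lit 836) (nat_lit 4056494140) (nat_lit 912) (nat_lit 2289939747) (nat_lit 313) (nat_lit 5) (nat_lit 324) (nat_lit 5) (nat_lit 325) (nat_lit 4) (nat_lit 422) (nat_lit 362) (nat_lit 356))) (XT.nd (nat_lit 78) (nat_lit 836) (nat_lit 0) (XT.lf (nat_lit 0) (nat_lit 779676907) (nat_lit 912) (nat_lit 1517268189)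 (nat_lit 76) (nat_lit 5129460370) (nat_lit 312) (nat_lit 5) (nat_lit 324) (nat_lit 5) (nat_lit 313) (nat_lit 5) (nat_lit 423) (nat_lit 362) (nat_lit 355)) (XT.lf (nat_lit 0) (nat_lit 3376098615) (nat_lit 836) (nat_lit 467217491) (nat_lit 912) (nat_lit 3633226129) (nat_lit 301) (nat_lit 5) (nat_lit 312) (nat_lit 5) (nat_lit 313) (nat_lit 5) (nat_lit 424) (nat_lit 362) (nat_lit 354))))) (XT.nd (nat_lit 234) (nat_lit 2280) (nat_lit 0) (XT.nd (nat_lit 78) (nat_lit 836) (nat_lit 0) (XT.lf (nat_lit 0) (nat_lit 799456607) (nat_lit 760) (nat_lit 6135371845) (nat_lit 836) (nat_lit 593592004) (nat_lit 291) (nat_lit 5) (nat_lit 301) (nat_lit 5) (nat_lit 302) (nat_lit 4) (nat_lit 425) (nat_lit 362) (nat_lit 353)) (XT.nd (nat_lit 78) (nat_lit 760) (nat_lit 0) (XT.lf (nat_lit 0) (nat_lit 2447113239) (nat_lit 836) (nat_lit 1810123669) (nat_lit 76) (nat_lit 3324378672) (nat_lit 290) (nat_lit 5) (nat_lit 301) (nat_lit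 5) (nat_lit 291) (nat_lit 5) (nat_lit 426) (nat_lit 362) (nat_lit 352)) (XT.lf (nat_lit 0) (nat_lit 3183420467) (nat_lit 760) (nat_lit 2321433867) (nat_lit 836) (nat_lit 2131725047) (nat_lit 280) (nat_lit 5) (nat_lit 290) (nat_lit 5) (nat_lit 291) (nat_lit 5) (nat_lit 427) (nat_lit 362) (nat_lit 351)))) (XT.nd (nat_lit 156) (nat_lit 1520) (nat_lit 0) (XT.nd (nat_lit 78) (nat_lit 0) (nat_lit 0) (XT.lf (nat_lit 0) (nat_lit 548136098) (nat_lit 684) (nat_lit 330317228) (nat_lit 760) (nat_lit 6814941139) (nat_lit 270) (nat_lit 5) (nat_lit 279) (nat_lit 5) (nat_lit 280) (nat_lit 5) (nat_lit 428) (nat_lit 362) (nat_lit 350)) (XT.lf (nat_lit 0) (nat_lit 3905876190) (nat_lit 760) (nat_lit 2128911291) (nat_lit 76) (nat_lit 1716627664) (nat_lit 270) (nat_lit 5) (nat_lit 280) (nat_lit 5) (nat_lit 271) (nat_lit 5) (nat_lit 429) (nat_lit 362) (nat_lit 349))) (XT.nd (nat_lit 78) (nat_lit 760) (nat_lit 0) (XT.lf (nat_lit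 0) (nat_lit 2963036934) (nat_lit 760) (nat_lit 3997761140) (nat_lit 836) (nat_lit 850520724) (nat_lit 260) (nat_lit 5) (nat_lit 270) (nat_lit 5) (nat_lit 271) (nat_lit 5) (nat_lit 430) (nat_lit 362) (nat_lit 348)) (XT.lf (nat_lit 0) (nat_lit 240519912) (nat_lit 684) (nat_lit 1896690489) (nat_lit 760) (nat_lit 5735748584) (nat_lit 250) (nat_lit 5) (nat_lit 259) (nat_lit 5) (nat_lit 260) (nat_lit 5) (nat_lit 431) (nat_lit 362) (nat_lit 347))))))))
noncomputable def xc60 : XT := (XT.nd (nat_lit 2106) (nat_lit 5092) (nat_lit 0) (XT.nd (nat_lit 1014) (nat_lit 4104) (nat_lit 0) (XT.nd (nat_lit 468) (nat_lit 3040) (nat_lit 0) (XT.nd (nat_lit 234) (nat_lit 1368) (nat_lit 0) (XT.nd (nat_lit 78) (nat_lit 760) (nat_lit 0) (XT.lf (nat_lit 0) (nat_lit 5154063309) (nat_lit 760) (nat_lit 2508258424) (nat_lit 76) (nat_lit 273840710) (nat_lit 250) (nat_lit 5) (nat_lit 260) (nat_lit 5) (nat_lit 251) (nat_lit 5) (nat_lit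 432) (nat_lit 362) (nat_lit 346)) (XT.nd (nat_lit 78) (nat_lit 0) (nat_lit 0) (XT.lf (nat_lit 0) (nat_lit 204798841) (nat_lit 760) (nat_lit 5322717785) (nat_lit 76) (nat_lit 2473595160) (nat_lit 240) (nat_lit 5) (nat_lit 250) (nat_lit 5) (nat_lit 241) (nat_lit 5) (nat_lit 433) (nat_lit 362) (nat_lit 345)) (XT.lf (nat_lit 0) (nat_lit 3178843488) (nat_lit 760) (nat_lit 144349334) (nat_lit 76) (nat_lit 4744560953) (nat_lit 240) (nat_lit 5) (nat_lit 250) (nat_lit 5) (nat_lit 241) (nat_lit 5) (nat_lit 434) (nat_lit 362) (nat_lit 344)))) (XT.nd (nat_lit 78) (nat_lit 760) (nat_lit 0) (XT.lf (nat_lit 0) (nat_lit 5144697902) (nat_lit 608) (nat_lit 1049782733) (nat_lit 684) (nat_lit 1941659338) (nat_lit 232) (nat_lit 5) (nat_lit 240) (nat_lit 5) (nat_lit 241) (nat_lit 5) (nat_lit 435) (nat_lit 362) (nat_lit 343)) (XT.nd (nat_lit 78) (nat_lit 0) (nat_lit 0) (XT.lf (nat_lit 0) (nat_lit 1023737184) (nat_lit 760) (nat_lit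 5916703407) (nat_lit 76) (nat_lit 1265903346) (nat_lit 222) (nat_lit 5) (nat_lit 232) (nat_lit 5) (nat_lit 223) (nat_lit 5) (nat_lit 436) (nat_lit 362) (nat_lit 342)) (XT.lf (nat_lit 0) (nat_lit 3999109985) (nat_lit 760) (nat_lit 641891298) (nat_lit 76) (nat_lit 3637211178) (nat_lit 222) (nat_lit 5) (nat_lit 232) (nat_lit 5) (nat_lit 223) (nat_lit 5) (nat_lit 437) (nat_lit 362) (nat_lit 341))))) (XT.nd (nat_lit 234) (nat_lit 1748) (nat_lit 0) (XT.nd (nat_lit 78) (nat_lit 684) (nat_lit 0) (XT.lf (nat_lit 0) (nat_lit 4740499803) (nat_lit 608) (nat_lit 2274742992) (nat_lit 684) (nat_lit 1336700027) (nat_lit 214) (nat_lit 5) (nat_lit 222) (nat_lit 5) (nat_lit 223) (nat_lit 5) (nat_lit 438) (nat_lit 362) (nat_lit 340)) (XT.nd (nat_lit 78) (nat_lit 0) (nat_lit 0) (XT.lf (nat_lit 0) (nat_lit 1610200328) (nat_lit 684) (nat_lit 6664574315) (nat_lit 76) (nat_lit 152854983) (nat_lit 205) (nat_lit 5) (nat_lit 214)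 (nat_lit 5) (nat_lit 206) (nat_lit 5) (nat_lit 439) (nat_lit 362) (nat_lit 339)) (XT.lf (nat_lit 0) (nat_lit 4588806546) (nat_lit 684) (nat_lit 1295373452) (nat_lit 76) (nat_lit 2620706793) (nat_lit 205) (nat_lit 5) (nat_lit 214) (nat_lit 5) (nat_lit 206) (nat_lit 5) (nat_lit 440) (nat_lit 362) (nat_lit 338)))) (XT.nd (nat_lit 156) (nat_lit 532) (nat_lit 0) (XT.nd (nat_lit 78) (nat_lit 684) (nat_lit 0) (XT.lf (nat_lit 0) (nat_lit 4176230188) (nat_lit 532) (nat_lit 3430016453) (nat_lit 608) (nat_lit 977902972) (nat_lit 198) (nat_lit 5) (nat_lit 205) (nat_lit 5) (nat_lit 206) (nat_lit 5) (nat_lit 441) (nat_lit 362) (nat_lit 337)) (XT.lf (nat_lit 0) (nat_lit 1050575726) (nat_lit 608) (nat_lit 909895594) (nat_lit 684) (nat_lit 6704949893) (nat_lit 189) (nat_lit 5) (nat_lit 197) (nat_lit 5) (nat_lit 198) (nat_lit 5) (nat_lit 442) (nat_lit 362) (nat_lit 336))) (XT.nd (nat_lit 78) (nat_lit 532) (nat_lit 0) (XT.lf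 (nat_lit 0) (nat_lit 4937896605) (nat_lit 684) (nat_lit 2147735758) (nat_lit 76) (nat_lit 1662732161) (nat_lit 189) (nat_lit 5) (nat_lit 198) (nat_lit 5) (nat_lit 190) (nat_lit 5) (nat_lit 443) (nat_lit 362) (nat_lit 335)) (XT.lf (nat_lit 0) (nat_lit 3408028028) (nat_lit 532) (nat_lit 4548728813) (nat_lit 608) (nat_lit 876614395) (nat_lit 182) (nat_lit 5) (nat_lit 189) (nat_lit 5) (nat_lit 190) (nat_lit 5) (nat_lit 444) (nat_lit 362) (nat_lit 334)))))) (XT.nd (nat_lit 546) (nat_lit 1900) (nat_lit 0) (XT.nd (nat_lit 234) (nat_lit 1140) (nat_lit 0) (XT.nd (nat_lit 78) (nat_lit 456) (nat_lit 0) (XT.lf (nat_lit 0) (nat_lit 112247345) (nat_lit 532) (nat_lit 1945068873) (nat_lit 608) (nat_lit 6863144716) (nat_lit 174) (nat_lit 5) (nat_lit 181) (nat_lit 5) (nat_lit 182) (nat_lit 5) (nat_lit 445) (nat_lit 362) (nat_lit 333)) (XT.nd (nat_lit 78) (nat_lit 456) (nat_lit 0) (XT.lf (nat_lit 0) (nat_lit 5033805024)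 (nat_lit 608) (nat_lit 3245185235) (nat_lit 76) (nat_lit 730313756) (nat_lit 174) (nat_lit 5) (nat_lit 182) (nat_lit 5) (nat_lit 175) (nat_lit 5) (nat_lit 446) (nat_lit 362) (nat_lit 332)) (XT.lf (nat_lit 0) (nat_lit 2388636092) (nat_lit 456) (nat_lit 5664816939) (nat_lit 532) (nat_lit 1046837384) (nat_lit 168) (nat_lit 5) (nat_lit 174) (nat_lit 5) (nat_lit 175) (nat_lit 5) (nat_lit 447) (nat_lit 362) (nat_lit 331)))) (XT.nd (nat_lit 156) (nat_lit 532) (nat_lit 0) (XT.nd (nat_lit 78) (nat_lit 532) (nat_lit 0) (XT.lf (nat_lit 0) (nat_lit 1892276232) (nat_lit 532) (nat_lit 1085436685) (nat_lit 76) (nat_lit 6215622639) (nat_lit 167) (nat_lit 5) (nat_lit 174) (nat_lit 5) (nat_lit 168) (nat_lit 5) (nat_lit 448) (nat_lit 362) (nat_lit 330)) (XT.lf (nat_lit 0) (nat_lit 4649353339) (nat_lit 532) (nat_lit 213282125) (nat_lit 608) (nat_lit 4425774929) (nat_lit 160) (nat_lit 5) (nat_lit 167) (nat_lit 5) (nat_lit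 168) (nat_lit 5) (nat_lit 449) (nat_lit 362) (nat_lit 329))) (XT.nd (nat_lit 78) (nat_lit 76) (nat_lit 0) (XT.lf (nat_lit 0) (nat_lit 1066911012) (nat_lit 456) (nat_lit 6813343290) (nat_lit 532) (nat_lit 1505411448) (nat_lit 154) (nat_lit 5) (nat_lit 160) (nat_lit 5) (nat_lit 161) (nat_lit 5) (nat_lit 450) (nat_lit 362) (nat_lit 328)) (XT.lf (nat_lit 0) (nat_lit 1443609646) (nat_lit 532) (nat_lit 2604192527) (nat_lit 76) (nat_lit 5437115917) (nat_lit 153) (nat_lit 5) (nat_lit 160) (nat_lit 5) (nat_lit 154) (nat_lit 5) (nat_lit 451) (nat_lit 362) (nat_lit 327))))) (XT.nd (nat_lit 234) (nat_lit 912) (nat_lit 0) (XT.nd (nat_lit 78) (nat_lit 532) (nat_lit 0) (XT.lf (nat_lit 0) (nat_lit 3199152353) (nat_lit 456) (nat_lit 1210762363) (nat_lit 532) (nat_lit 5176506516) (nat_lit 147) (nat_lit 5) (nat_lit 153) (nat_lit 5) (nat_lit 154) (nat_lit 5) (nat_lit 452) (nat_lit 362) (nat_lit 326)) (XT.nd (nat_lit 78)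 (nat_lit 532) (nat_lit 0) (XT.lf (nat_lit 0) (nat_lit 7422095672) (nat_lit 532) (nat_lit 604673156) (nat_lit 76) (nat_lit 1663487939) (nat_lit 147) (nat_lit 5) (nat_lit 154) (nat_lit 5) (nat_lit 148) (nat_lit 5) (nat_lit 453) (nat_lit 362) (nat_lit 325)) (XT.lf (nat_lit 0) (nat_lit 690440911) (nat_lit 532) (nat_lit 4502429179) (nat_lit 76) (nat_lit 4603215297) (nat_lit 140) (nat_lit 5) (nat_lit 147) (nat_lit 5) (nat_lit 141) (nat_lit 5) (nat_lit 454) (nat_lit 362) (nat_lit 324)))) (XT.nd (nat_lit 156) (nat_lit 456) (nat_lit 0) (XT.nd (nat_lit 78) (nat_lit 0) (nat_lit 0) (XT.lf (nat_lit 0) (nat_lit 1360030734) (nat_lit 456) (nat_lit 2289750432) (nat_lit 532) (nat_lit 6254542227) (nat_lit 134) (nat_lit 5) (nat_lit 140) (nat_lit 5) (nat_lit 141) (nat_lit 5) (nat_lit 455) (nat_lit 362) (nat_lit 323)) (XT.lf (nat_lit 0) (nat_lit 6662407796) (nat_lit 532) (nat_lit 2675231129) (nat_lit 76) (nat_lit 677236031)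 (nat_lit 134) (nat_lit 5) (nat_lit 141) (nat_lit 5) (nat_lit 135) (nat_lit 5) (nat_lit 456) (nat_lit 362) (nat_lit 322))) (XT.nd (nat_lit 78) (nat_lit 76) (nat_lit 0) (XT.lf (nat_lit 0) (nat_lit 3282906342) (nat_lit 380) (nat_lit 6448983280) (nat_lit 456) (nat_lit 395846058) (nat_lit 129) (nat_lit 5) (nat_lit 134) (nat_lit 5) (nat_lit 135) (nat_lit 5) (nat_lit 457) (nat_lit 362) (nat_lit 321)) (XT.lf (nat_lit 0) (nat_lit 2563870863) (nat_lit 456) (nat_lit 919538412) (nat_lit 76) (nat_lit 6759566672) (nat_lit 128) (nat_lit 5) (nat_lit 134) (nat_lit 5) (nat_lit 129) (nat_lit 5) (nat_lit 458) (nat_lit 362) (nat_lit 320))))))) (XT.nd (nat_lit 1014) (nat_lit 2128) (nat_lit 0) (XT.nd (nat_lit 468) (nat_lit 1444) (nat_lit 0) (XT.nd (nat_lit 234) (nat_lit 684) (nat_lit 0) (XT.nd (nat_lit 78) (nat_lit 456) (nat_lit 0) (XT.lf (nat_lit 0) (nat_lit 5133686849) (nat_lit 380) (nat_lit 438163362) (nat_lit 456) (nat_lit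 4788759550) (nat_lit 123) (nat_lit 5) (nat_lit 128) (nat_lit 5) (nat_lit 129) (nat_lit 5) (nat_lit 459) (nat_lit 362) (nat_lit 319)) (XT.nd (nat_lit 78) (nat_lit 76) (nat_lit 0) (XT.lf (nat_lit 0) (nat_lit 777189697) (nat_lit 380) (nat_lit 7852712826) (nat_lit 456) (nat_lit 1850923347) (nat_lit 118) (nat_lit 5) (nat_lit 123) (nat_lit 5) (nat_lit 124) (nat_lit 5) (nat_lit 460) (nat_lit 362) (nat_lit 318)) (XT.lf (nat_lit 0) (nat_lit 1130305994) (nat_lit 456) (nat_lit 3696862061) (nat_lit 76) (nat_lit 5776163038) (nat_lit 117) (nat_lit 5) (nat_lit 123) (nat_lit 5) (nat_lit 118) (nat_lit 5) (nat_lit 461) (nat_lit 362) (nat_lit 317)))) (XT.nd (nat_lit 78) (nat_lit 304) (nat_lit 0) (XT.lf (nat_lit 0) (nat_lit 2394506235) (nat_lit 380) (nat_lit 1729648184) (nat_lit 456) (nat_lit 6604358017) (nat_lit 112) (nat_lit 5) (nat_lit 117) (nat_lit 5) (nat_lit 118) (nat_lit 5) (nat_lit 462) (nat_lit 362) (nat_lit 316))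 (XT.nd (nat_lit 78) (nat_lit 304) (nat_lit 0) (XT.lf (nat_lit 0) (nat_lit 7174622208) (nat_lit 456) (nat_lit 2262327116) (nat_lit 76) (nat_lit 1419338997) (nat_lit 112) (nat_lit 5) (nat_lit 118) (nat_lit 5) (nat_lit 113) (nat_lit 5) (nat_lit 463) (nat_lit 362) (nat_lit 315)) (XT.lf (nat_lit 0) (nat_lit 3916786505) (nat_lit 304) (nat_lit 6369420259) (nat_lit 380) (nat_lit 700436067) (nat_lit 108) (nat_lit 5) (nat_lit 112) (nat_lit 5) (nat_lit 113) (nat_lit 5) (nat_lit 464) (nat_lit 362) (nat_lit 314))))) (XT.nd (nat_lit 234) (nat_lit 684) (nat_lit 0) (XT.nd (nat_lit 78) (nat_lit 684) (nat_lit 0) (XT.lf (nat_lit 0) (nat_lit 2288335789) (nat_lit 380) (nat_lit 938518737) (nat_lit 76) (nat_lit 7892898025) (nat_lit 107) (nat_lit 5) (nat_lit 112) (nat_lit 5) (nat_lit 108) (nat_lit 5) (nat_lit 465) (nat_lit 362) (nat_lit 313)) (XT.nd (nat_lit 78) (nat_lit 304) (nat_lit 0) (XT.lf (nat_lit 0) (nat_lit 5326162916)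 (nat_lit 456) (nat_lit 5927822711) (nat_lit 76) (nat_lit 1496867) (nat_lit 102) (nat_lit 5) (nat_lit 108) (nat_lit 5) (nat_lit 103) (nat_lit 5) (nat_lit 466) (nat_lit 362) (nat_lit 312)) (XT.lf (nat_lit 0) (nat_lit 266885358) (nat_lit 304) (nat_lit 8151605020) (nat_lit 380) (nat_lit 2975585115) (nat_lit 98) (nat_lit 5) (nat_lit 102) (nat_lit 5) (nat_lit 103) (nat_lit 5) (nat_lit 467) (nat_lit 362) (nat_lit 311)))) (XT.nd (nat_lit 156) (nat_lit 304) (nat_lit 0) (XT.nd (nat_lit 78) (nat_lit 304) (nat_lit 0) (XT.lf (nat_lit 0) (nat_lit 41179169) (nat_lit 380) (nat_lit 4922740013) (nat_lit 76) (nat_lit 6571449897) (nat_lit 97) (nat_lit 5) (nat_lit 102) (nat_lit 5) (nat_lit 98) (nat_lit 5) (nat_lit 468) (nat_lit 362) (nat_lit 310)) (XT.lf (nat_lit 0) (nat_lit 1351434316) (nat_lit 304) (nat_lit 1700912094) (nat_lit 380) (nat_lit 8627292525) (nat_lit 93) (nat_lit 5) (nat_lit 97) (nat_lit 5) (nat_lit 98) (nat_lit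 5) (nat_lit 469) (nat_lit 362) (nat_lit 309))) (XT.nd (nat_lit 78) (nat_lit 304) (nat_lit 0) (XT.lf (nat_lit 0) (nat_lit 6132887858) (nat_lit 380) (nat_lit 4071734714) (nat_lit 76) (nat_lit 1622010155) (nat_lit 93) (nat_lit 5) (nat_lit 98) (nat_lit 5) (nat_lit 94) (nat_lit 5) (nat_lit 470) (nat_lit 362) (nat_lit 308)) (XT.lf (nat_lit 0) (nat_lit 2276856021) (nat_lit 304) (nat_lit 6990243103) (nat_lit 380) (nat_lit 2709647225) (nat_lit 89) (nat_lit 5) (nat_lit 93) (nat_lit 5) (nat_lit 94) (nat_lit 5) (nat_lit 471) (nat_lit 362) (nat_lit 307)))))) (XT.nd (nat_lit 546) (nat_lit 1140) (nat_lit 0) (XT.nd (nat_lit 234) (nat_lit 608) (nat_lit 0) (XT.nd (nat_lit 78) (nat_lit 304) (nat_lit 0) (XT.lf (nat_lit 0) (nat_lit 323356664) (nat_lit 380) (nat_lit 3375791039) (nat_lit 76) (nat_lit 8430819334) (nat_lit 88) (nat_lit 5) (nat_lit 93) (nat_lit 5) (nat_lit 89) (nat_lit 5) (nat_lit 472) (nat_lit 362) (nat_lit 306))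 (XT.nd (nat_lit 78) (nat_lit 0) (nat_lit 0) (XT.lf (nat_lit 0) (nat_lit 3046072881) (nat_lit 304) (nat_lit 321243348) (nat_lit 380) (nat_lit 8918866055) (nat_lit 84) (nat_lit 5) (nat_lit 88) (nat_lit 5) (nat_lit 89) (nat_lit 5) (nat_lit 473) (nat_lit 362) (nat_lit 305)) (XT.lf (nat_lit 0) (nat_lit 6482220561) (nat_lit 380) (nat_lit 2874322448) (nat_lit 76) (nat_lit 3088797038) (nat_lit 84) (nat_lit 5) (nat_lit 89) (nat_lit 5) (nat_lit 85) (nat_lit 5) (nat_lit 474) (nat_lit 362) (nat_lit 304)))) (XT.nd (nat_lit 156) (nat_lit 304) (nat_lit 0) (XT.nd (nat_lit 78) (nat_lit 76) (nat_lit 0) (XT.lf (nat_lit 0) (nat_lit 3614098464) (nat_lit 228) (nat_lit 6038542290) (nat_lit 304) (nat_lit 2955194996) (nat_lit 81) (nat_lit 5) (nat_lit 84) (nat_lit 5) (nat_lit 85) (nat_lit 5) (nat_lit 475) (nat_lit 362) (nat_lit 303)) (XT.lf (nat_lit 0) (nat_lit 98530349) (nat_lit 304) (nat_lit 2552879097) (nat_lit 76) (nat_lit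 10122433203) (nat_lit 80) (nat_lit 5) (nat_lit 84) (nat_lit 5) (nat_lit 81) (nat_lit 5) (nat_lit 476) (nat_lit 362) (nat_lit 302))) (XT.nd (nat_lit 78) (nat_lit 0) (nat_lit 0) (XT.lf (nat_lit 0) (nat_lit 3173516940) (nat_lit 380) (nat_lit 8947712027) (nat_lit 76) (nat_lit 821572943) (nat_lit 76) (nat_lit 5) (nat_lit 81) (nat_lit 5) (nat_lit 77) (nat_lit 5) (nat_lit 477) (nat_lit 362) (nat_lit 301)) (XT.lf (nat_lit 0) (nat_lit 6313338130) (nat_lit 380) (nat_lit 2473146758) (nat_lit 76) (nat_lit 4328606454) (nat_lit 76) (nat_lit 5) (nat_lit 81) (nat_lit 5) (nat_lit 77) (nat_lit 5) (nat_lit 478) (nat_lit 362) (nat_lit 300))))) (XT.nd (nat_lit 234) (nat_lit 532) (nat_lit 0) (XT.nd (nat_lit 78) (nat_lit 380) (nat_lit 0) (XT.lf (nat_lit 0) (nat_lit 4136832011) (nat_lit 228) (nat_lit 5375131076) (nat_lit 304) (nat_lit 3778960666) (nat_lit 73) (nat_lit 5) (nat_lit 76) (nat_lit 5) (nat_lit 77) (nat_lit 5) (nat_lit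 479) (nat_lit 362) (nat_lit 299)) (XT.nd (nat_lit 78) (nat_lit 380) (nat_lit 0) (XT.lf (nat_lit 0) (nat_lit 10864519390) (nat_lit 228) (nat_lit 1896078744) (nat_lit 304) (nat_lit 709970922) (nat_lit 73) (nat_lit 5) (nat_lit 76) (nat_lit 5) (nat_lit 77) (nat_lit 5) (nat_lit 480) (nat_lit 362) (nat_lit 298)) (XT.lf (nat_lit 0) (nat_lit 2395756202) (nat_lit 380) (nat_lit 9601446147) (nat_lit 76) (nat_lit 1656164926) (nat_lit 68) (nat_lit 5) (nat_lit 73) (nat_lit 5) (nat_lit 69) (nat_lit 5) (nat_lit 481) (nat_lit 362) (nat_lit 297)))) (XT.nd (nat_lit 156) (nat_lit 304) (nat_lit 0) (XT.nd (nat_lit 78) (nat_lit 228) (nat_lit 0) (XT.lf (nat_lit 0) (nat_lit 5554259728) (nat_lit 380) (nat_lit 3026149171) (nat_lit 76) (nat_lit 5259331350) (nat_lit 68) (nat_lit 5) (nat_lit 73) (nat_lit 5) (nat_lit 69) (nat_lit 5) (nat_lit 482) (nat_lit 362) (nat_lit 296)) (XT.lf (nat_lit 0) (nat_lit 3682201299) (nat_lit 228) (nat_lit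 5088226466) (nat_lit 304) (nat_lit 5259538731) (nat_lit 65) (nat_lit 5) (nat_lit 68) (nat_lit 5) (nat_lit 69) (nat_lit 5) (nat_lit 483) (nat_lit 362) (nat_lit 295))) (XT.nd (nat_lit 78) (nat_lit 304) (nat_lit 0) (XT.lf (nat_lit 0) (nat_lit 10519301387) (nat_lit 228) (nat_lit 1522787197) (nat_lit 304) (nat_lit 2182100690) (nat_lit 65) (nat_lit 5) (nat_lit 68) (nat_lit 5) (nat_lit 69) (nat_lit 5) (nat_lit 484) (nat_lit 362) (nat_lit 294)) (XT.lf (nat_lit 0) (nat_lit 949212457) (nat_lit 304) (nat_lit 11377324733) (nat_lit 76) (nat_lit 2095552338) (nat_lit 61) (nat_lit 5) (nat_lit 65) (nat_lit 5) (nat_lit 62) (nat_lit 5) (nat_lit 485) (nat_lit 362) (nat_lit 293))))))))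
noncomputable def xc61 : XT := (XT.nd (nat_lit 2106) (nat_lit 836) (nat_lit 0) (XT.nd (nat_lit 1014) (nat_lit 1292) (nat_lit 0) (XT.nd (nat_lit 468) (nat_lit 684) (nat_lit 0) (XT.nd (nat_lit 234) (nat_lit 304) (nat_lit 0) (XT.nd (nat_lit 78) (nat_lit 228) (nat_lit 0) (XT.lf (nat_lit 0) (nat_lit 4120458311) (nat_lit 304) (nat_lit 4714615128) (nat_lit 76) (nat_lit 5788469885) (nat_lit 61) (nat_lit 5) (nat_lit 65) (nat_lit 5) (nat_lit 62) (nat_lit 5) (nat_lit 486) (nat_lit 362) (nat_lit 292)) (XT.nd (nat_lit 78) (nat_lit 0) (nat_lit 0) (XT.lf (nat_lit 0) (nat_lit 2063216446) (nat_lit 228) (nat_lit 5277255839) (nat_lit 304) (nat_lit 7488861269) (nat_lit 58) (nat_lit 5) (nat_lit 61) (nat_lit 5) (nat_lit 62) (nat_lit 5) (nat_lit 487) (nat_lit 362) (nat_lit 291)) (XT.lf (nat_lit 0) (nat_lit 8995618138) (nat_lit 228) (nat_lit 1633111948) (nat_lit 304) (nat_lit 4410446575) (nat_lit 58) (nat_lit 5) (nat_lit 61)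 (nat_lit 5) (nat_lit 62) (nat_lit 5) (nat_lit 488) (nat_lit 362) (nat_lit 290)))) (XT.nd (nat_lit 78) (nat_lit 76) (nat_lit 0) (XT.lf (nat_lit 0) (nat_lit 765496821) (nat_lit 228) (nat_lit 13208398622) (nat_lit 304) (nat_lit 1279512009) (nat_lit 55) (nat_lit 5) (nat_lit 58) (nat_lit 5) (nat_lit 59) (nat_lit 5) (nat_lit 489) (nat_lit 362) (nat_lit 289)) (XT.nd (nat_lit 78) (nat_lit 0) (nat_lit 0) (XT.lf (nat_lit 0) (nat_lit 1913276619) (nat_lit 304) (nat_lit 7746514877) (nat_lit 76) (nat_lit 5811409190) (nat_lit 54) (nat_lit 5) (nat_lit 58) (nat_lit 5) (nat_lit 55) (nat_lit 5) (nat_lit 490) (nat_lit 362) (nat_lit 288)) (XT.lf (nat_lit 0) (nat_lit 5126038700) (nat_lit 304) (nat_lit 922438632) (nat_lit 76) (nat_lit 9645251175) (nat_lit 54) (nat_lit 5) (nat_lit 58) (nat_lit 5) (nat_lit 55) (nat_lit 5) (nat_lit 491) (nat_lit 362) (nat_lit 287))))) (XT.nd (nat_lit 234) (nat_lit 228) (nat_lit 0) (XT.nd (nat_lit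 78) (nat_lit 228) (nat_lit 0) (XT.lf (nat_lit 0) (nat_lit 6074976056) (nat_lit 228) (nat_lit 2341281889) (nat_lit 304) (nat_lit 7504197531) (nat_lit 51) (nat_lit 5) (nat_lit 54) (nat_lit 5) (nat_lit 55) (nat_lit 5) (nat_lit 492) (nat_lit 362) (nat_lit 286)) (XT.nd (nat_lit 78) (nat_lit 228) (nat_lit 0) (XT.lf (nat_lit 0) (nat_lit 11761752586) (nat_lit 304) (nat_lit 2979101924) (nat_lit 76) (nat_lit 1411085434) (nat_lit 51) (nat_lit 5) (nat_lit 55) (nat_lit 5) (nat_lit 52) (nat_lit 5) (nat_lit 493) (nat_lit 362) (nat_lit 285)) (XT.lf (nat_lit 0) (nat_lit 4019698504) (nat_lit 228) (nat_lit 11170464458) (nat_lit 304) (nat_lit 1197583162) (nat_lit 48) (nat_lit 5) (nat_lit 51) (nat_lit 5) (nat_lit 52) (nat_lit 5) (nat_lit 494) (nat_lit 362) (nat_lit 284)))) (XT.nd (nat_lit 156) (nat_lit 0) (nat_lit 0) (XT.nd (nat_lit 78) (nat_lit 152) (nat_lit 0) (XT.lf (nat_lit 0) (nat_lit 2026446993) (nat_lit 304) (nat_lit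 5484703700) (nat_lit 76) (nat_lit 9116970522) (nat_lit 47) (nat_lit 5) (nat_lit 51) (nat_lit 5) (nat_lit 48) (nat_lit 5) (nat_lit 495) (nat_lit 362) (nat_lit 283)) (XT.lf (nat_lit 0) (nat_lit 1506772390) (nat_lit 152) (nat_lit 3776901240) (nat_lit 228) (nat_lit 11589788267) (nat_lit 45) (nat_lit 5) (nat_lit 47) (nat_lit 5) (nat_lit 48) (nat_lit 5) (nat_lit 496) (nat_lit 362) (nat_lit 282))) (XT.nd (nat_lit 78) (nat_lit 0) (nat_lit 0) (XT.lf (nat_lit 0) (nat_lit 8618373994) (nat_lit 228) (nat_lit 8452495563) (nat_lit 76) (nat_lit 52604463) (nat_lit 45) (nat_lit 5) (nat_lit 48) (nat_lit 5) (nat_lit 46) (nat_lit 5) (nat_lit 497) (nat_lit 362) (nat_lit 281)) (XT.lf (nat_lit 0) (nat_lit 12020341958) (nat_lit 228) (nat_lit 1465711860) (nat_lit 76) (nat_lit 3892432093) (nat_lit 45) (nat_lit 5) (nat_lit 48) (nat_lit 5) (nat_lit 46) (nat_lit 5) (nat_lit 498) (nat_lit 362) (nat_lit 280)))))) (XT.nd (nat_lit 546)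 (nat_lit 608) (nat_lit 0) (XT.nd (nat_lit 234) (nat_lit 228) (nat_lit 0) (XT.nd (nat_lit 78) (nat_lit 228) (nat_lit 0) (XT.lf (nat_lit 0) (nat_lit 5695622783) (nat_lit 228) (nat_lit 9807746455) (nat_lit 304) (nat_lit 2134979179) (nat_lit 42) (nat_lit 5) (nat_lit 45) (nat_lit 5) (nat_lit 46) (nat_lit 5) (nat_lit 499) (nat_lit 362) (nat_lit 279)) (XT.nd (nat_lit 78) (nat_lit 152) (nat_lit 0) (XT.lf (nat_lit 0) (nat_lit 1123517581) (nat_lit 304) (nat_lit 4930657762) (nat_lit 76) (nat_lit 11849373797) (nat_lit 41) (nat_lit 5) (nat_lit 45) (nat_lit 5) (nat_lit 42) (nat_lit 5) (nat_lit 500) (nat_lit 362) (nat_lit 278)) (XT.lf (nat_lit 0) (nat_lit 2197162404) (nat_lit 152) (nat_lit 2212280634) (nat_lit 228) (nat_lit 13764521831) (nat_lit 39) (nat_lit 5) (nat_lit 41) (nat_lit 5) (nat_lit 42) (nat_lit 5) (nat_lit 501) (nat_lit 362) (nat_lit 277)))) (XT.nd (nat_lit 156) (nat_lit 228) (nat_lit 0) (XT.nd (nat_lit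 78) (nat_lit 0) (nat_lit 0) (XT.lf (nat_lit 0) (nat_lit 7782132193) (nat_lit 228) (nat_lit 8965332000) (nat_lit 76) (nat_lit 1701913772) (nat_lit 39) (nat_lit 5) (nat_lit 42) (nat_lit 5) (nat_lit 40) (nat_lit 5) (nat_lit 502) (nat_lit 362) (nat_lit 276)) (XT.lf (nat_lit 0) (nat_lit 11214042998) (nat_lit 228) (nat_lit 1866794396) (nat_lit 76) (nat_lit 5649636335) (nat_lit 39) (nat_lit 5) (nat_lit 42) (nat_lit 5) (nat_lit 40) (nat_lit 5) (nat_lit 503) (nat_lit 362) (nat_lit 275))) (XT.nd (nat_lit 78) (nat_lit 0) (nat_lit 0) (XT.lf (nat_lit 0) (nat_lit 5406869750) (nat_lit 228) (nat_lit 9320392940) (nat_lit 304) (nat_lit 4289684876) (nat_lit 36) (nat_lit 5) (nat_lit 39) (nat_lit 5) (nat_lit 40) (nat_lit 5) (nat_lit 504) (nat_lit 362) (nat_lit 274)) (XT.lf (nat_lit 0) (nat_lit 12813804186) (nat_lit 228) (nat_lit 5487231812) (nat_lit 304) (nat_lit 1008318479) (nat_lit 36) (nat_lit 5) (nat_lit 39) (nat_lit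 5) (nat_lit 40) (nat_lit 5) (nat_lit 505) (nat_lit 362) (nat_lit 273))))) (XT.nd (nat_lit 234) (nat_lit 380) (nat_lit 0) (XT.nd (nat_lit 78) (nat_lit 0) (nat_lit 0) (XT.lf (nat_lit 0) (nat_lit 718432697) (nat_lit 152) (nat_lit 1572279568) (nat_lit 228) (nat_lit 17316948414) (nat_lit 33) (nat_lit 5) (nat_lit 35) (nat_lit 5) (nat_lit 36) (nat_lit 5) (nat_lit 506) (nat_lit 362) (nat_lit 272)) (XT.nd (nat_lit 78) (nat_lit 0) (nat_lit 0) (XT.lf (nat_lit 0) (nat_lit 5679968833) (nat_lit 228) (nat_lit 11806177453) (nat_lit 76) (nat_lit 2424907329) (nat_lit 33) (nat_lit 5) (nat_lit 36) (nat_lit 5) (nat_lit 34) (nat_lit 5) (nat_lit 507) (nat_lit 362) (nat_lit 271)) (XT.lf (nat_lit 0) (nat_lit 9125989830) (nat_lit 228) (nat_lit 4628325060) (nat_lit 76) (nat_lit 6466428603) (nat_lit 33) (nat_lit 5) (nat_lit 36) (nat_lit 5) (nat_lit 34) (nat_lit 5) (nat_lit 508) (nat_lit 362) (nat_lit 270)))) (XT.nd (nat_lit 156)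 (nat_lit 228) (nat_lit 0) (XT.nd (nat_lit 78) (nat_lit 0) (nat_lit 0) (XT.lf (nat_lit 0) (nat_lit 2692667135) (nat_lit 152) (nat_lit 9944733802) (nat_lit 228) (nat_lit 7899305336) (nat_lit 31) (nat_lit 5) (nat_lit 33) (nat_lit 5) (nat_lit 34) (nat_lit 5) (nat_lit 509) (nat_lit 362) (nat_lit 269)) (XT.lf (nat_lit 0) (nat_lit 10187320361) (nat_lit 152) (nat_lit 6041947061) (nat_lit 228) (nat_lit 4629524677) (nat_lit 31) (nat_lit 5) (nat_lit 33) (nat_lit 5) (nat_lit 34) (nat_lit 5) (nat_lit 510) (nat_lit 362) (nat_lit 268))) (XT.nd (nat_lit 78) (nat_lit 228) (nat_lit 0) (XT.lf (nat_lit 0) (nat_lit 17797065691) (nat_lit 152) (nat_lit 2075482659) (nat_lit 228) (nat_lit 1315187916) (nat_lit 31) (nat_lit 5) (nat_lit 33) (nat_lit 5) (nat_lit 34) (nat_lit 5) (nat_lit 511) (nat_lit 362) (nat_lit 267)) (XT.lf (nat_lit 0) (nat_lit 2057383268) (nat_lit 228) (nat_lit 17494900535) (nat_lit 76) (nat_lit 1970334438) (nat_lit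 28) (nat_lit 5) (nat_lit 31) (nat_lit 5) (nat_lit 29) (nat_lit 5) (nat_lit 512) (nat_lit 362) (nat_lit 266))))))) (XT.nd (nat_lit 1092) (nat_lit 152) (nat_lit 0) (XT.nd (nat_lit 546) (nat_lit 304) (nat_lit 0) (XT.nd (nat_lit 234) (nat_lit 228) (nat_lit 0) (XT.nd (nat_lit 78) (nat_lit 152) (nat_lit 0) (XT.lf (nat_lit 0) (nat_lit 5496379271) (nat_lit 228) (nat_lit 10280396604) (nat_lit 76) (nat_lit 6086924134) (nat_lit 28) (nat_lit 5) (nat_lit 31) (nat_lit 5) (nat_lit 29) (nat_lit 5) (nat_lit 513) (nat_lit 362) (nat_lit 265)) (XT.nd (nat_lit 78) (nat_lit 152) (nat_lit 0) (XT.lf (nat_lit 0) (nat_lit 8984467462) (nat_lit 228) (nat_lit 2955409991) (nat_lit 76) (nat_lit 10272127262) (nat_lit 28) (nat_lit 5) (nat_lit 31) (nat_lit 5) (nat_lit 29) (nat_lit 5) (nat_lit 514) (nat_lit 362) (nat_lit 264)) (XT.lf (nat_lit 0) (nat_lit 4542507652) (nat_lit 152) (nat_lit 8010001038) (nat_lit 228) (nat_lit 10014570396)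 (nat_lit 26) (nat_lit 5) (nat_lit 28) (nat_lit 5) (nat_lit 29) (nat_lit 5) (nat_lit 515) (nat_lit 362) (nat_lit 263)))) (XT.nd (nat_lit 156) (nat_lit 228) (nat_lit 0) (XT.nd (nat_lit 78) (nat_lit 0) (nat_lit 0) (XT.lf (nat_lit 0) (nat_lit 12197518559) (nat_lit 152) (nat_lit 3995087528) (nat_lit 228) (nat_lit 6736642206) (nat_lit 26) (nat_lit 5) (nat_lit 28) (nat_lit 5) (nat_lit 29) (nat_lit 5) (nat_lit 516) (nat_lit 362) (nat_lit 262)) (XT.lf (nat_lit 0) (nat_lit 19887305952) (nat_lit 228) (nat_lit 3326256680) (nat_lit 76) (nat_lit 85469353) (nat_lit 26) (nat_lit 5) (nat_lit 29) (nat_lit 5) (nat_lit 27) (nat_lit 4) (nat_lit 517) (nat_lit 362) (nat_lit 261))) (XT.nd (nat_lit 78) (nat_lit 0) (nat_lit 0) (XT.lf (nat_lit 0) (nat_lit 15587200) (nat_lit 228) (nat_lit 19451278239) (nat_lit 76) (nat_lit 4208642738) (nat_lit 23) (nat_lit 5) (nat_lit 26) (nat_lit 5) (nat_lit 24) (nat_lit 5) (nat_lit 518) (nat_lit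 362) (nat_lit 260)) (XT.lf (nat_lit 0) (nat_lit 3469823459) (nat_lit 228) (nat_lit 12142973410) (nat_lit 76) (nat_lit 8446191500) (nat_lit 23) (nat_lit 5) (nat_lit 26) (nat_lit 5) (nat_lit 24) (nat_lit 5) (nat_lit 519) (nat_lit 362) (nat_lit 259))))) (XT.nd (nat_lit 234) (nat_lit 152) (nat_lit 0) (XT.nd (nat_lit 78) (nat_lit 152) (nat_lit 0) (XT.lf (nat_lit 0) (nat_lit 6975054555) (nat_lit 228) (nat_lit 4719853933) (nat_lit 76) (nat_lit 12755598044) (nat_lit 23) (nat_lit 5) (nat_lit 26) (nat_lit 5) (nat_lit 24) (nat_lit 5) (nat_lit 520) (nat_lit 362) (nat_lit 258)) (XT.nd (nat_lit 78) (nat_lit 0) (nat_lit 0) (XT.lf (nat_lit 0) (nat_lit 2858480708) (nat_lit 152) (nat_lit 7692733533) (nat_lit 228) (nat_lit 14298630778) (nat_lit 21) (nat_lit 5) (nat_lit 23) (nat_lit 5) (nat_lit 24) (nat_lit 5) (nat_lit 521) (nat_lit 362) (nat_lit 257)) (XT.lf (nat_lit 0) (nat_lit 10621826406) (nat_lit 152) (nat_lit 3591157733)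 (nat_lit 228) (nat_lit 11043910711) (nat_lit 21) (nat_lit 5) (nat_lit 23) (nat_lit 5) (nat_lit 24) (nat_lit 5) (nat_lit 522) (nat_lit 362) (nat_lit 256)))) (XT.nd (nat_lit 156) (nat_lit 76) (nat_lit 0) (XT.nd (nat_lit 78) (nat_lit 76) (nat_lit 0) (XT.lf (nat_lit 0) (nat_lit 17934512720) (nat_lit 228) (nat_lit 7165697604) (nat_lit 76) (nat_lit 572151080) (nat_lit 21) (nat_lit 5) (nat_lit 24) (nat_lit 5) (nat_lit 22) (nat_lit 4) (nat_lit 523) (nat_lit 362) (nat_lit 255)) (XT.lf (nat_lit 0) (nat_lit 404977377) (nat_lit 76) (nat_lit 21334922758) (nat_lit 152) (nat_lit 4356054658) (nat_lit 20) (nat_lit 5) (nat_lit 21) (nat_lit 5) (nat_lit 22) (nat_lit 4) (nat_lit 524) (nat_lit 362) (nat_lit 254))) (XT.nd (nat_lit 78) (nat_lit 76) (nat_lit 0) (XT.lf (nat_lit 0) (nat_lit 8194781466) (nat_lit 76) (nat_lit 17457857830) (nat_lit 152) (nat_lit 874761824) (nat_lit 20) (nat_lit 5) (nat_lit 21) (nat_lit 5) (nat_lit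 22) (nat_lit 4) (nat_lit 525) (nat_lit 362) (nat_lit 253)) (XT.lf (nat_lit 0) (nat_lit 2624432107) (nat_lit 152) (nat_lit 10873537297) (nat_lit 76) (nat_lit 13469497711) (nat_lit 19) (nat_lit 5) (nat_lit 21) (nat_lit 5) (nat_lit 20) (nat_lit 5) (nat_lit 526) (nat_lit 362) (nat_lit 252)))))) (XT.nd (nat_lit 50934) (nat_lit 0) (nat_lit 20748) (XT.nd (nat_lit 50622) (nat_lit 0) (nat_lit 26068) (XT.nd (nat_lit 78) (nat_lit 152) (nat_lit 0) (XT.lf (nat_lit 0) (nat_lit 6165607333) (nat_lit 152) (nat_lit 3299563648) (nat_lit 76) (nat_lit 17951379203) (nat_lit 19) (nat_lit 5) (nat_lit 21) (nat_lit 5) (nat_lit 20) (nat_lit 5) (nat_lit 527) (nat_lit 362) (nat_lit 251)) (XT.nd (nat_lit 50466) (nat_lit 0) (nat_lit 30780) (XT.lf (nat_lit 0) (nat_lit 4456397466) (nat_lit 152) (nat_lit 5334161631) (nat_lit 228) (nat_lit 18083802254) (nat_lit 17) (nat_lit 5) (nat_lit 19) (nat_lit 5) (nat_lit 20) (nat_lit 5) (nat_lit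 528) (nat_lit 362) (nat_lit 250)) (XT.lf (nat_lit 0) (nat_lit 1633979490) (nat_lit 1444) (nat_lit 253813783) (nat_lit 0) (nat_lit 1633979490) (nat_lit 422) (nat_lit 5) (nat_lit 441) (nat_lit 4) (nat_lit 422) (nat_lit 4) (nat_lit 414) (nat_lit 363) (nat_lit 363)))) (XT.nd (nat_lit 156) (nat_lit 1672) (nat_lit 0) (XT.nd (nat_lit 78) (nat_lit 1596) (nat_lit 0) (XT.lf (nat_lit 0) (nat_lit 4059313739) (nat_lit 1444) (nat_lit 2369312248) (nat_lit 1444) (nat_lit 651965945) (nat_lit 403) (nat_lit 4) (nat_lit 422) (nat_lit 5) (nat_lit 422) (nat_lit 4) (nat_lit 415) (nat_lit 363) (nat_lit 362)) (XT.lf (nat_lit 0) (nat_lit 1549349317) (nat_lit 1520) (nat_lit 901328140) (nat_lit 1596) (nat_lit 4668464965) (nat_lit 382) (nat_lit 5) (nat_lit 402) (nat_lit 5) (nat_lit 403) (nat_lit 4) (nat_lit 416) (nat_lit 363) (nat_lit 361))) (XT.nd (nat_lit 78) (nat_lit 1672) (nat_lit 0) (XT.lf (nat_lit 0) (nat_lit 5568102549) (nat_lit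 1596) (nat_lit 975655950) (nat_lit 0) (nat_lit 615476274) (nat_lit 382) (nat_lit 5) (nat_lit 403) (nat_lit 4) (nat_lit 382) (nat_lit 4) (nat_lit 417) (nat_lit 363) (nat_lit 360)) (XT.lf (nat_lit 0) (nat_lit 1495501823) (nat_lit 1672) (nat_lit 3518275117) (nat_lit 76) (nat_lit 2186872845) (nat_lit 360) (nat_lit 5) (nat_lit 382) (nat_lit 5) (nat_lit 361) (nat_lit 4) (nat_lit 418) (nat_lit 363) (nat_lit 359))))) (XT.nd (nat_lit 234) (nat_lit 2584) (nat_lit 0) (XT.nd (nat_lit 78) (nat_lit 1064) (nat_lit 0) (XT.lf (nat_lit 0) (nat_lit 1147590031) (nat_lit 1672) (nat_lit 3427772488) (nat_lit 1748) (nat_lit 2668345488) (nat_lit 338) (nat_lit 5) (nat_lit 360) (nat_lit 5) (nat_lit 361) (nat_lit 4) (nat_lit 419) (nat_lit 363) (nat_lit 358)) (XT.nd (nat_lit 78) (nat_lit 988) (nat_lit 0) (XT.lf (nat_lit 0) (nat_lit 386397192) (nat_lit 1748) (nat_lit 1397030848) (nat_lit 76) (nat_lit 5504965045) (nat_lit 337) (nat_lit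 5) (nat_lit 360) (nat_lit 5) (nat_lit 338) (nat_lit 5) (nat_lit 420) (nat_lit 363) (nat_lit 357)) (XT.lf (nat_lit 0) (nat_lit 3362271189) (nat_lit 988) (nat_lit 66359913) (nat_lit 1064) (nat_lit 3905822054) (nat_lit 324) (nat_lit 5) (nat_lit 337) (nat_lit 5) (nat_lit 338) (nat_lit 5) (nat_lit 421) (nat_lit 363) (nat_lit 356)))) (XT.nd (nat_lit 156) (nat_lit 1672) (nat_lit 0) (XT.nd (nat_lit 78) (nat_lit 76) (nat_lit 0) (XT.lf (nat_lit 0) (nat_lit 792799471) (nat_lit 836) (nat_lit 5705474614) (nat_lit 912) (nat_lit 883904108) (nat_lit 313) (nat_lit 5) (nat_lit 324) (nat_lit 5) (nat_lit 325) (nat_lit 4) (nat_lit 422) (nat_lit 363) (nat_lit 355)) (XT.lf (nat_lit 0) (nat_lit 2138234497) (nat_lit 912) (nat_lit 1799785101) (nat_lit 76) (nat_lit 3493252491) (nat_lit 312) (nat_lit 5) (nat_lit 324) (nat_lit 5) (nat_lit 313) (nat_lit 5) (nat_lit 423) (nat_lit 363) (nat_lit 354))) (XT.nd (nat_lit 78) (nat_lit 836)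 (nat_lit 0) (XT.lf (nat_lit 0) (nat_lit 3059584327) (nat_lit 836) (nat_lit 2111766075) (nat_lit 912) (nat_lit 2310703933) (nat_lit 301) (nat_lit 5) (nat_lit 312) (nat_lit 5) (nat_lit 313) (nat_lit 5) (nat_lit 424) (nat_lit 363) (nat_lit 353)) (XT.lf (nat_lit 0) (nat_lit 447243749) (nat_lit 760) (nat_lit 232291540) (nat_lit 836) (nat_lit 6855132963) (nat_lit 290) (nat_lit 5) (nat_lit 300) (nat_lit 5) (nat_lit 301) (nat_lit 5) (nat_lit 425) (nat_lit 363) (nat_lit 352))))))))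
noncomputable def xc62 : XT := (XT.nd (nat_lit 2106) (nat_lit 5624) (nat_lit 0) (XT.nd (nat_lit 1014) (nat_lit 5092) (nat_lit 0) (XT.nd (nat_lit 468) (nat_lit 3420) (nat_lit 0) (XT.nd (nat_lit 234) (nat_lit 836) (nat_lit 0) (XT.nd (nat_lit 78) (nat_lit 1520) (nat_lit 0) (XT.lf (nat_lit 0) (nat_lit 3682973830) (nat_lit 836) (nat_lit 2201372158) (nat_lit 76) (nat_lit 1704062934) (nat_lit 290) (nat_lit 5) (nat_lit 301) (nat_lit 5) (nat_lit 291) (nat_lit 5) (nat_lit 426) (nat_lit 363) (nat_lit 351)) (XT.nd (nat_lit 78) (nat_lit 760) (nat_lit 0) (XT.lf (nat_lit 0) (nat_lit 2756730735) (nat_lit 760) (nat_lit 3953788889) (nat_lit 836) (nat_lit 933489352) (nat_lit 280) (nat_lit 5) (nat_lit 290) (nat_lit 5) (nat_lit 291) (nat_lit 5) (nat_lit 427) (nat_lit 363) (nat_lit 350)) (XT.lf (nat_lit 0) (nat_lit 69922629) (nat_lit 684) (nat_lit 1960656101) (nat_lit 760) (nat_lit 5670728731) (nat_lit 270) (nat_lit 5) (nat_lit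 279) (nat_lit 5) (nat_lit 280) (nat_lit 5) (nat_lit 428) (nat_lit 363) (nat_lit 349)))) (XT.nd (nat_lit 78) (nat_lit 836) (nat_lit 0) (XT.lf (nat_lit 0) (nat_lit 5020448546) (nat_lit 760) (nat_lit 2634848070) (nat_lit 76) (nat_lit 104813066) (nat_lit 270) (nat_lit 5) (nat_lit 280) (nat_lit 5) (nat_lit 271) (nat_lit 5) (nat_lit 429) (nat_lit 363) (nat_lit 348)) (XT.nd (nat_lit 78) (nat_lit 0) (nat_lit 0) (XT.lf (nat_lit 0) (nat_lit 221816507) (nat_lit 836) (nat_lit 5401920873) (nat_lit 76) (nat_lit 2196875924) (nat_lit 259) (nat_lit 5) (nat_lit 270) (nat_lit 5) (nat_lit 260) (nat_lit 5) (nat_lit 430) (nat_lit 363) (nat_lit 347)) (XT.lf (nat_lit 0) (nat_lit 3170516623) (nat_lit 836) (nat_lit 351777646) (nat_lit 76) (nat_lit 4360435026) (nat_lit 259) (nat_lit 5) (nat_lit 270) (nat_lit 5) (nat_lit 260) (nat_lit 5) (nat_lit 431) (nat_lit 363) (nat_lit 346))))) (XT.nd (nat_lit 234) (nat_lit 1976) (nat_lit 0)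 (XT.nd (nat_lit 78) (nat_lit 760) (nat_lit 0) (XT.lf (nat_lit 0) (nat_lit 4802984439) (nat_lit 684) (nat_lit 1354277108) (nat_lit 760) (nat_lit 1789301526) (nat_lit 250) (nat_lit 5) (nat_lit 259) (nat_lit 5) (nat_lit 260) (nat_lit 5) (nat_lit 432) (nat_lit 363) (nat_lit 345)) (XT.nd (nat_lit 78) (nat_lit 0) (nat_lit 0) (XT.lf (nat_lit 0) (nat_lit 1145675939) (nat_lit 760) (nat_lit 6005070579) (nat_lit 76) (nat_lit 861442042) (nat_lit 240) (nat_lit 5) (nat_lit 250) (nat_lit 5) (nat_lit 241) (nat_lit 5) (nat_lit 433) (nat_lit 363) (nat_lit 344)) (XT.lf (nat_lit 0) (nat_lit 4094328910) (nat_lit 760) (nat_lit 856584415) (nat_lit 76) (nat_lit 3128451591) (nat_lit 240) (nat_lit 5) (nat_lit 250) (nat_lit 5) (nat_lit 241) (nat_lit 5) (nat_lit 434) (nat_lit 363) (nat_lit 343)))) (XT.nd (nat_lit 156) (nat_lit 608) (nat_lit 0) (XT.nd (nat_lit 78) (nat_lit 760) (nat_lit 0) (XT.lf (nat_lit 0) (nat_lit 4393311897)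 (nat_lit 608) (nat_lit 2686881865) (nat_lit 684) (nat_lit 1068178813) (nat_lit 232) (nat_lit 5) (nat_lit 240) (nat_lit 5) (nat_lit 241) (nat_lit 5) (nat_lit 435) (nat_lit 363) (nat_lit 342)) (XT.lf (nat_lit 0) (nat_lit 1488772672) (nat_lit 684) (nat_lit 358623257) (nat_lit 760) (nat_lit 6371859510) (nat_lit 222) (nat_lit 5) (nat_lit 231) (nat_lit 5) (nat_lit 232) (nat_lit 5) (nat_lit 436) (nat_lit 363) (nat_lit 341))) (XT.nd (nat_lit 78) (nat_lit 608) (nat_lit 0) (XT.lf (nat_lit 0) (nat_lit 4795922530) (nat_lit 760) (nat_lit 1483089643) (nat_lit 76) (nat_lit 2012673228) (nat_lit 222) (nat_lit 5) (nat_lit 232) (nat_lit 5) (nat_lit 223) (nat_lit 5) (nat_lit 437) (nat_lit 363) (nat_lit 340)) (XT.lf (nat_lit 0) (nat_lit 3858570677) (nat_lit 608) (nat_lit 3923721556) (nat_lit 684) (nat_lit 583742825) (nat_lit 214) (nat_lit 5) (nat_lit 222) (nat_lit 5) (nat_lit 223) (nat_lit 5) (nat_lit 438) (nat_lit 363) (nat_lit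 339)))))) (XT.nd (nat_lit 546) (nat_lit 2584) (nat_lit 0) (XT.nd (nat_lit 234) (nat_lit 1292) (nat_lit 0) (XT.nd (nat_lit 78) (nat_lit 532) (nat_lit 0) (XT.lf (nat_lit 0) (nat_lit 821495380) (nat_lit 608) (nat_lit 1500727070) (nat_lit 684) (nat_lit 6120045937) (nat_lit 205) (nat_lit 5) (nat_lit 213) (nat_lit 5) (nat_lit 214) (nat_lit 5) (nat_lit 439) (nat_lit 363) (nat_lit 338)) (XT.nd (nat_lit 78) (nat_lit 532) (nat_lit 0) (XT.lf (nat_lit 0) (nat_lit 5267395297) (nat_lit 684) (nat_lit 2271409246) (nat_lit 76) (nat_lit 981412324) (nat_lit 205) (nat_lit 5) (nat_lit 214) (nat_lit 5) (nat_lit 206) (nat_lit 5) (nat_lit 440) (nat_lit 363) (nat_lit 337)) (XT.lf (nat_lit 0) (nat_lit 3157837186) (nat_lit 532) (nat_lit 5097160972) (nat_lit 608) (nat_lit 345100479) (nat_lit 198) (nat_lit 5) (nat_lit 205) (nat_lit 5) (nat_lit 206) (nat_lit 5) (nat_lit 441) (nat_lit 363) (nat_lit 336)))) (XT.nd (nat_lit 156) (nat_lit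 608) (nat_lit 0) (XT.nd (nat_lit 78) (nat_lit 608) (nat_lit 0) (XT.lf (nat_lit 0) (nat_lit 2555023136) (nat_lit 608) (nat_lit 30792099) (nat_lit 76) (nat_lit 6096093199) (nat_lit 197) (nat_lit 5) (nat_lit 205) (nat_lit 5) (nat_lit 198) (nat_lit 5) (nat_lit 442) (nat_lit 363) (nat_lit 335)) (XT.lf (nat_lit 0) (nat_lit 5498459094) (nat_lit 684) (nat_lit 3264507306) (nat_lit 76) (nat_lit 2586054) (nat_lit 189) (nat_lit 5) (nat_lit 198) (nat_lit 5) (nat_lit 190) (nat_lit 5) (nat_lit 443) (nat_lit 363) (nat_lit 334))) (XT.nd (nat_lit 78) (nat_lit 76) (nat_lit 0) (XT.lf (nat_lit 0) (nat_lit 2247222739) (nat_lit 532) (nat_lit 6240104753) (nat_lit 608) (nat_lit 363852024) (nat_lit 182) (nat_lit 5) (nat_lit 189) (nat_lit 5) (nat_lit 190) (nat_lit 5) (nat_lit 444) (nat_lit 363) (nat_lit 333)) (XT.lf (nat_lit 0) (nat_lit 2540257320) (nat_lit 608) (nat_lit 1100104563) (nat_lit 76) (nat_lit 5298322389) (nat_lit 181)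 (nat_lit 5) (nat_lit 189) (nat_lit 5) (nat_lit 182) (nat_lit 5) (nat_lit 445) (nat_lit 363) (nat_lit 332))))) (XT.nd (nat_lit 234) (nat_lit 1520) (nat_lit 0) (XT.nd (nat_lit 78) (nat_lit 532) (nat_lit 0) (XT.lf (nat_lit 0) (nat_lit 4513301224) (nat_lit 532) (nat_lit 969287098) (nat_lit 608) (nat_lit 3545641518) (nat_lit 174) (nat_lit 5) (nat_lit 181) (nat_lit 5) (nat_lit 182) (nat_lit 5) (nat_lit 446) (nat_lit 363) (nat_lit 331)) (XT.nd (nat_lit 78) (nat_lit 76) (nat_lit 0) (XT.lf (nat_lit 0) (nat_lit 1079422040) (nat_lit 456) (nat_lit 7386296600) (nat_lit 532) (nat_lit 654246904) (nat_lit 168) (nat_lit 5) (nat_lit 174) (nat_lit 5) (nat_lit 175) (nat_lit 5) (nat_lit 447) (nat_lit 363) (nat_lit 330)) (XT.lf (nat_lit 0) (nat_lit 2258074603) (nat_lit 532) (nat_lit 2445585899) (nat_lit 76) (nat_lit 4509750282) (nat_lit 167) (nat_lit 5) (nat_lit 174) (nat_lit 5) (nat_lit 168) (nat_lit 5) (nat_lit 448) (nat_lit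 363) (nat_lit 329)))) (XT.nd (nat_lit 156) (nat_lit 988) (nat_lit 0) (XT.nd (nat_lit 78) (nat_lit 0) (nat_lit 0) (XT.lf (nat_lit 0) (nat_lit 3242606271) (nat_lit 532) (nat_lit 1955475191) (nat_lit 608) (nat_lit 4111029063) (nat_lit 160) (nat_lit 5) (nat_lit 167) (nat_lit 5) (nat_lit 168) (nat_lit 5) (nat_lit 449) (nat_lit 363) (nat_lit 328)) (XT.lf (nat_lit 0) (nat_lit 8176432088) (nat_lit 608) (nat_lit 391572258) (nat_lit 76) (nat_lit 839164408) (nat_lit 160) (nat_lit 5) (nat_lit 168) (nat_lit 5) (nat_lit 161) (nat_lit 5) (nat_lit 450) (nat_lit 363) (nat_lit 327))) (XT.nd (nat_lit 78) (nat_lit 456) (nat_lit 0) (XT.lf (nat_lit 0) (nat_lit 1691133949) (nat_lit 532) (nat_lit 4119663998) (nat_lit 76) (nat_lit 3696075267) (nat_lit 153) (nat_lit 5) (nat_lit 160) (nat_lit 5) (nat_lit 154) (nat_lit 5) (nat_lit 451) (nat_lit 363) (nat_lit 326)) (XT.lf (nat_lit 0) (nat_lit 1635264749) (nat_lit 456) (nat_lit 2991476480)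 (nat_lit 532) (nat_lit 4982265582) (nat_lit 147) (nat_lit 5) (nat_lit 153) (nat_lit 5) (nat_lit 154) (nat_lit 5) (nat_lit 452) (nat_lit 363) (nat_lit 325))))))) (XT.nd (nat_lit 1092) (nat_lit 2204) (nat_lit 0) (XT.nd (nat_lit 546) (nat_lit 1596) (nat_lit 0) (XT.nd (nat_lit 234) (nat_lit 1292) (nat_lit 0) (XT.nd (nat_lit 78) (nat_lit 532) (nat_lit 0) (XT.lf (nat_lit 0) (nat_lit 7505137010) (nat_lit 456) (nat_lit 102520014) (nat_lit 532) (nat_lit 2105826800) (nat_lit 147) (nat_lit 5) (nat_lit 153) (nat_lit 5) (nat_lit 154) (nat_lit 5) (nat_lit 453) (nat_lit 363) (nat_lit 324)) (XT.nd (nat_lit 78) (nat_lit 0) (nat_lit 0) (XT.lf (nat_lit 0) (nat_lit 819060045) (nat_lit 532) (nat_lit 6179368268) (nat_lit 76) (nat_lit 2821510319) (nat_lit 140) (nat_lit 5) (nat_lit 147) (nat_lit 5) (nat_lit 141) (nat_lit 5) (nat_lit 454) (nat_lit 363) (nat_lit 323)) (XT.lf (nat_lit 0) (nat_lit 3749667987) (nat_lit 532) (nat_lit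 362389424) (nat_lit 76) (nat_lit 5816709115) (nat_lit 140) (nat_lit 5) (nat_lit 147) (nat_lit 5) (nat_lit 141) (nat_lit 5) (nat_lit 455) (nat_lit 363) (nat_lit 322)))) (XT.nd (nat_lit 156) (nat_lit 456) (nat_lit 0) (XT.nd (nat_lit 78) (nat_lit 380) (nat_lit 0) (XT.lf (nat_lit 0) (nat_lit 5589490159) (nat_lit 456) (nat_lit 1146274657) (nat_lit 532) (nat_lit 3304098811) (nat_lit 134) (nat_lit 5) (nat_lit 140) (nat_lit 5) (nat_lit 141) (nat_lit 5) (nat_lit 456) (nat_lit 363) (nat_lit 321)) (XT.lf (nat_lit 0) (nat_lit 1464077167) (nat_lit 380) (nat_lit 8302564506) (nat_lit 456) (nat_lit 386869426) (nat_lit 129) (nat_lit 5) (nat_lit 134) (nat_lit 5) (nat_lit 135) (nat_lit 5) (nat_lit 457) (nat_lit 363) (nat_lit 320))) (XT.nd (nat_lit 78) (nat_lit 380) (nat_lit 0) (XT.lf (nat_lit 0) (nat_lit 2553438781) (nat_lit 456) (nat_lit 2791567235) (nat_lit 76) (nat_lit 4924144085) (nat_lit 128) (nat_lit 5) (nat_lit 134)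 (nat_lit 5) (nat_lit 129) (nat_lit 5) (nat_lit 458) (nat_lit 363) (nat_lit 319)) (XT.lf (nat_lit 0) (nat_lit 3209593840) (nat_lit 380) (nat_lit 2320419072) (nat_lit 456) (nat_lit 4857412913) (nat_lit 123) (nat_lit 5) (nat_lit 128) (nat_lit 5) (nat_lit 129) (nat_lit 5) (nat_lit 459) (nat_lit 363) (nat_lit 318))))) (XT.nd (nat_lit 234) (nat_lit 760) (nat_lit 0) (XT.nd (nat_lit 78) (nat_lit 836) (nat_lit 0) (XT.lf (nat_lit 0) (nat_lit 8552031864) (nat_lit 456) (nat_lit 1198680649) (nat_lit 76) (nat_lit 757663622) (nat_lit 123) (nat_lit 5) (nat_lit 129) (nat_lit 5) (nat_lit 124) (nat_lit 5) (nat_lit 460) (nat_lit 363) (nat_lit 317)) (XT.nd (nat_lit 78) (nat_lit 380) (nat_lit 0) (XT.lf (nat_lit 0) (nat_lit 999620724) (nat_lit 456) (nat_lit 5742706761) (nat_lit 76) (nat_lit 3889113508) (nat_lit 117) (nat_lit 5) (nat_lit 123) (nat_lit 5) (nat_lit 118) (nat_lit 5) (nat_lit 461) (nat_lit 363) (nat_lit 316)) (XT.lf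 (nat_lit 0) (nat_lit 294578227) (nat_lit 380) (nat_lit 3666914956) (nat_lit 456) (nat_lit 6795781426) (nat_lit 112) (nat_lit 5) (nat_lit 117) (nat_lit 5) (nat_lit 118) (nat_lit 5) (nat_lit 462) (nat_lit 363) (nat_lit 315)))) (XT.nd (nat_lit 156) (nat_lit 456) (nat_lit 0) (XT.nd (nat_lit 78) (nat_lit 304) (nat_lit 0) (XT.lf (nat_lit 0) (nat_lit 6477189956) (nat_lit 380) (nat_lit 507279865) (nat_lit 456) (nat_lit 3901142998) (nat_lit 112) (nat_lit 5) (nat_lit 117) (nat_lit 5) (nat_lit 118) (nat_lit 5) (nat_lit 463) (nat_lit 363) (nat_lit 314)) (XT.lf (nat_lit 0) (nat_lit 1718993242) (nat_lit 304) (nat_lit 8341648274) (nat_lit 380) (nat_lit 956046329) (nat_lit 108) (nat_lit 5) (nat_lit 112) (nat_lit 5) (nat_lit 113) (nat_lit 5) (nat_lit 464) (nat_lit 363) (nat_lit 313))) (XT.nd (nat_lit 78) (nat_lit 380) (nat_lit 0) (XT.lf (nat_lit 0) (nat_lit 2018280521) (nat_lit 380) (nat_lit 3190940231) (nat_lit 76) (nat_lit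 5940977734) (nat_lit 107) (nat_lit 5) (nat_lit 112) (nat_lit 5) (nat_lit 108) (nat_lit 5) (nat_lit 465) (nat_lit 363) (nat_lit 312)) (XT.lf (nat_lit 0) (nat_lit 3019244680) (nat_lit 380) (nat_lit 2004416880) (nat_lit 456) (nat_lit 6262927342) (nat_lit 102) (nat_lit 5) (nat_lit 107) (nat_lit 5) (nat_lit 108) (nat_lit 5) (nat_lit 466) (nat_lit 363) (nat_lit 311)))))) (XT.nd (nat_lit 546) (nat_lit 836) (nat_lit 0) (XT.nd (nat_lit 234) (nat_lit 988) (nat_lit 0) (XT.nd (nat_lit 78) (nat_lit 380) (nat_lit 0) (XT.lf (nat_lit 0) (nat_lit 8083916186) (nat_lit 456) (nat_lit 2088984343) (nat_lit 76) (nat_lit 1252934152) (nat_lit 102) (nat_lit 5) (nat_lit 108) (nat_lit 5) (nat_lit 103) (nat_lit 5) (nat_lit 467) (nat_lit 363) (nat_lit 310)) (XT.nd (nat_lit 78) (nat_lit 76) (nat_lit 0) (XT.lf (nat_lit 0) (nat_lit 4203582395) (nat_lit 304) (nat_lit 7008047893) (nat_lit 380) (nat_lit 356132429) (nat_lit 98) (nat_lit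 5) (nat_lit 102) (nat_lit 5) (nat_lit 103) (nat_lit 5) (nat_lit 468) (nat_lit 363) (nat_lit 309)) (XT.lf (nat_lit 0) (nat_lit 2633992251) (nat_lit 380) (nat_lit 1130841870) (nat_lit 76) (nat_lit 7947769635) (nat_lit 97) (nat_lit 5) (nat_lit 102) (nat_lit 5) (nat_lit 98) (nat_lit 5) (nat_lit 469) (nat_lit 363) (nat_lit 308)))) (XT.nd (nat_lit 156) (nat_lit 684) (nat_lit 0) (XT.nd (nat_lit 78) (nat_lit 0) (nat_lit 0) (XT.lf (nat_lit 0) (nat_lit 5243221518) (nat_lit 304) (nat_lit 436430571) (nat_lit 380) (nat_lit 6180653553) (nat_lit 93) (nat_lit 5) (nat_lit 97) (nat_lit 5) (nat_lit 98) (nat_lit 5) (nat_lit 470) (nat_lit 363) (nat_lit 307)) (XT.lf (nat_lit 0) (nat_lit 8779750981) (nat_lit 380) (nat_lit 320567580) (nat_lit 76) (nat_lit 2910793208) (nat_lit 93) (nat_lit 5) (nat_lit 98) (nat_lit 5) (nat_lit 94) (nat_lit 5) (nat_lit 471) (nat_lit 363) (nat_lit 306))) (XT.nd (nat_lit 78) (nat_lit 380) (nat_lit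 0) (XT.lf (nat_lit 0) (nat_lit 6129780484) (nat_lit 304) (nat_lit 5822091848) (nat_lit 380) (nat_lit 212881588) (nat_lit 89) (nat_lit 5) (nat_lit 93) (nat_lit 5) (nat_lit 94) (nat_lit 5) (nat_lit 472) (nat_lit 363) (nat_lit 305)) (XT.lf (nat_lit 0) (nat_lit 328006954) (nat_lit 304) (nat_lit 2472085993) (nat_lit 380) (nat_lit 9521589067) (nat_lit 84) (nat_lit 5) (nat_lit 88) (nat_lit 5) (nat_lit 89) (nat_lit 5) (nat_lit 473) (nat_lit 363) (nat_lit 304))))) (XT.nd (nat_lit 234) (nat_lit 608) (nat_lit 0) (XT.nd (nat_lit 78) (nat_lit 228) (nat_lit 0) (XT.lf (nat_lit 0) (nat_lit 5885005459) (nat_lit 380) (nat_lit 5638653059) (nat_lit 76) (nat_lit 957790572) (nat_lit 84) (nat_lit 5) (nat_lit 89) (nat_lit 5) (nat_lit 85) (nat_lit 5) (nat_lit 474) (nat_lit 363) (nat_lit 303)) (XT.nd (nat_lit 78) (nat_lit 0) (nat_lit 0) (XT.lf (nat_lit 0) (nat_lit 788464399) (nat_lit 228) (nat_lit 8232902498) (nat_lit 304) (nat_lit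 3623268362) (nat_lit 81) (nat_lit 5) (nat_lit 84) (nat_lit 5) (nat_lit 85) (nat_lit 5) (nat_lit 475) (nat_lit 363) (nat_lit 302)) (XT.lf (nat_lit 0) (nat_lit 7371905427) (nat_lit 228) (nat_lit 4854954947) (nat_lit 304) (nat_lit 584115078) (nat_lit 81) (nat_lit 5) (nat_lit 84) (nat_lit 5) (nat_lit 85) (nat_lit 5) (nat_lit 476) (nat_lit 363) (nat_lit 301)))) (XT.nd (nat_lit 156) (nat_lit 228) (nat_lit 0) (XT.nd (nat_lit 78) (nat_lit 0) (nat_lit 0) (XT.lf (nat_lit 0) (nat_lit 1055756463) (nat_lit 304) (nat_lit 1402884968) (nat_lit 380) (nat_lit 10522175704) (nat_lit 76) (nat_lit 5) (nat_lit 80) (nat_lit 5) (nat_lit 81) (nat_lit 5) (nat_lit 477) (nat_lit 363) (nat_lit 300)) (XT.lf (nat_lit 0) (nat_lit 5574081036) (nat_lit 380) (nat_lit 5465314221) (nat_lit 76) (nat_lit 2114207524) (nat_lit 76) (nat_lit 5) (nat_lit 81) (nat_lit 5) (nat_lit 77) (nat_lit 5) (nat_lit 478) (nat_lit 363) (nat_lit 299))) (XT.nd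 (nat_lit 78) (nat_lit 0) (nat_lit 0) (XT.lf (nat_lit 0) (nat_lit 1081130355) (nat_lit 228) (nat_lit 7656762342) (nat_lit 304) (nat_lit 4592247174) (nat_lit 73) (nat_lit 5) (nat_lit 76) (nat_lit 5) (nat_lit 77) (nat_lit 5) (nat_lit 479) (nat_lit 363) (nat_lit 298)) (XT.lf (nat_lit 0) (nat_lit 7785513949) (nat_lit 228) (nat_lit 4186182440) (nat_lit 304) (nat_lit 1538393662) (nat_lit 73) (nat_lit 5) (nat_lit 76) (nat_lit 5) (nat_lit 77) (nat_lit 5) (nat_lit 480) (nat_lit 363) (nat_lit 297))))))))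
noncomputable def xc63 : XT := (XT.nd (nat_lit 2106) (nat_lit 1064) (nat_lit 0) (XT.nd (nat_lit 1014) (nat_lit 1368) (nat_lit 0) (XT.nd (nat_lit 468) (nat_lit 760) (nat_lit 0) (XT.nd (nat_lit 234) (nat_lit 304) (nat_lit 0) (XT.nd (nat_lit 78) (nat_lit 228) (nat_lit 0) (XT.lf (nat_lit 0) (nat_lit 885159291) (nat_lit 304) (nat_lit 646865564) (nat_lit 380) (nat_lit 12161902387) (nat_lit 68) (nat_lit 5) (nat_lit 72) (nat_lit 5) (nat_lit 73) (nat_lit 5) (nat_lit 481) (nat_lit 363) (nat_lit 296)) (XT.nd (nat_lit 78) (nat_lit 228) (nat_lit 0) (XT.lf (nat_lit 0) (nat_lit 4671767684) (nat_lit 380) (nat_lit 6252412272) (nat_lit 76) (nat_lit 2956503248) (nat_lit 68) (nat_lit 5) (nat_lit 73) (nat_lit 5) (nat_lit 69) (nat_lit 5) (nat_lit 482) (nat_lit 363) (nat_lit 295)) (XT.lf (nat_lit 0) (nat_lit 390073929) (nat_lit 228) (nat_lit 7462211807) (nat_lit 304) (nat_lit 6219344337) (nat_lit 65) (nat_lit 5) (nat_lit 68)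 (nat_lit 5) (nat_lit 69) (nat_lit 5) (nat_lit 483) (nat_lit 363) (nat_lit 294)))) (XT.nd (nat_lit 78) (nat_lit 304) (nat_lit 0) (XT.lf (nat_lit 0) (nat_lit 7204635848) (nat_lit 228) (nat_lit 3905168970) (nat_lit 304) (nat_lit 3156338339) (nat_lit 65) (nat_lit 5) (nat_lit 68) (nat_lit 5) (nat_lit 69) (nat_lit 5) (nat_lit 484) (nat_lit 363) (nat_lit 293)) (XT.nd (nat_lit 78) (nat_lit 304) (nat_lit 0) (XT.lf (nat_lit 0) (nat_lit 14110854593) (nat_lit 228) (nat_lit 293613504) (nat_lit 304) (nat_lit 60653325) (nat_lit 65) (nat_lit 5) (nat_lit 68) (nat_lit 5) (nat_lit 69) (nat_lit 5) (nat_lit 485) (nat_lit 363) (nat_lit 292)) (XT.lf (nat_lit 0) (nat_lit 3093248127) (nat_lit 304) (nat_lit 8181489829) (nat_lit 76) (nat_lit 3392214977) (nat_lit 61) (nat_lit 5) (nat_lit 65) (nat_lit 5) (nat_lit 62) (nat_lit 5) (nat_lit 486) (nat_lit 363) (nat_lit 291))))) (XT.nd (nat_lit 234) (nat_lit 532) (nat_lit 0) (XT.nd (nat_lit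 78) (nat_lit 228) (nat_lit 0) (XT.lf (nat_lit 0) (nat_lit 6286251224) (nat_lit 304) (nat_lit 1452651157) (nat_lit 76) (nat_lit 7134387902) (nat_lit 61) (nat_lit 5) (nat_lit 65) (nat_lit 5) (nat_lit 62) (nat_lit 5) (nat_lit 487) (nat_lit 363) (nat_lit 290)) (XT.nd (nat_lit 78) (nat_lit 0) (nat_lit 0) (XT.lf (nat_lit 0) (nat_lit 5438656415) (nat_lit 228) (nat_lit 4112806080) (nat_lit 304) (nat_lit 5532138593) (nat_lit 58) (nat_lit 5) (nat_lit 61) (nat_lit 5) (nat_lit 62) (nat_lit 5) (nat_lit 488) (nat_lit 363) (nat_lit 289)) (XT.lf (nat_lit 0) (nat_lit 12444330147) (nat_lit 228) (nat_lit 420681172) (nat_lit 304) (nat_lit 2433459525) (nat_lit 58) (nat_lit 5) (nat_lit 61) (nat_lit 5) (nat_lit 62) (nat_lit 5) (nat_lit 489) (nat_lit 363) (nat_lit 288)))) (XT.nd (nat_lit 156) (nat_lit 228) (nat_lit 0) (XT.nd (nat_lit 78) (nat_lit 0) (nat_lit 0) (XT.lf (nat_lit 0) (nat_lit 739580066) (nat_lit 304) (nat_lit 11460794184)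 (nat_lit 76) (nat_lit 3316743714) (nat_lit 54) (nat_lit 5) (nat_lit 58) (nat_lit 5) (nat_lit 55) (nat_lit 5) (nat_lit 490) (nat_lit 363) (nat_lit 287)) (XT.lf (nat_lit 0) (nat_lit 3939351627) (nat_lit 304) (nat_lit 4657914713) (nat_lit 76) (nat_lit 7142645508) (nat_lit 54) (nat_lit 5) (nat_lit 58) (nat_lit 5) (nat_lit 55) (nat_lit 5) (nat_lit 491) (nat_lit 363) (nat_lit 286))) (XT.nd (nat_lit 78) (nat_lit 0) (nat_lit 0) (XT.lf (nat_lit 0) (nat_lit 2268800142) (nat_lit 228) (nat_lit 4923322707) (nat_lit 304) (nat_lit 8775271057) (nat_lit 51) (nat_lit 5) (nat_lit 54) (nat_lit 5) (nat_lit 55) (nat_lit 5) (nat_lit 492) (nat_lit 363) (nat_lit 285)) (XT.lf (nat_lit 0) (nat_lit 9355486798) (nat_lit 228) (nat_lit 1160227113) (nat_lit 304) (nat_lit 5683608543) (nat_lit 51) (nat_lit 5) (nat_lit 54) (nat_lit 5) (nat_lit 55) (nat_lit 5) (nat_lit 493) (nat_lit 363) (nat_lit 284)))))) (XT.nd (nat_lit 546) (nat_lit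 684) (nat_lit 0) (XT.nd (nat_lit 234) (nat_lit 380) (nat_lit 0) (XT.nd (nat_lit 78) (nat_lit 76) (nat_lit 0) (XT.lf (nat_lit 0) (nat_lit 90523997) (nat_lit 228) (nat_lit 13808132775) (nat_lit 304) (nat_lit 2537387104) (nat_lit 48) (nat_lit 5) (nat_lit 51) (nat_lit 5) (nat_lit 52) (nat_lit 5) (nat_lit 494) (nat_lit 363) (nat_lit 283)) (XT.nd (nat_lit 78) (nat_lit 0) (nat_lit 0) (XT.lf (nat_lit 0) (nat_lit 691815594) (nat_lit 304) (nat_lit 9473954927) (nat_lit 76) (nat_lit 6511076072) (nat_lit 47) (nat_lit 5) (nat_lit 51) (nat_lit 5) (nat_lit 48) (nat_lit 5) (nat_lit 495) (nat_lit 363) (nat_lit 282)) (XT.lf (nat_lit 0) (nat_lit 3927103160) (nat_lit 304) (nat_lit 2522316763) (nat_lit 76) (nat_lit 10473211684) (nat_lit 47) (nat_lit 5) (nat_lit 51) (nat_lit 5) (nat_lit 48) (nat_lit 5) (nat_lit 496) (nat_lit 363) (nat_lit 281)))) (XT.nd (nat_lit 156) (nat_lit 228) (nat_lit 0) (XT.nd (nat_lit 78) (nat_lit 0)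 (nat_lit 0) (XT.lf (nat_lit 0) (nat_lit 4588777790) (nat_lit 152) (nat_lit 2644038220) (nat_lit 228) (nat_lit 9940412913) (nat_lit 45) (nat_lit 5) (nat_lit 47) (nat_lit 5) (nat_lit 48) (nat_lit 5) (nat_lit 497) (nat_lit 363) (nat_lit 280)) (XT.lf (nat_lit 0) (nat_lit 10605755836) (nat_lit 228) (nat_lit 5600245061) (nat_lit 76) (nat_lit 1222825815) (nat_lit 45) (nat_lit 5) (nat_lit 48) (nat_lit 5) (nat_lit 46) (nat_lit 5) (nat_lit 498) (nat_lit 363) (nat_lit 279))) (XT.nd (nat_lit 78) (nat_lit 0) (nat_lit 0) (XT.lf (nat_lit 0) (nat_lit 1486529229) (nat_lit 228) (nat_lit 12563296946) (nat_lit 304) (nat_lit 3639647413) (nat_lit 42) (nat_lit 5) (nat_lit 45) (nat_lit 5) (nat_lit 46) (nat_lit 5) (nat_lit 499) (nat_lit 363) (nat_lit 278)) (XT.lf (nat_lit 0) (nat_lit 8752107236) (nat_lit 228) (nat_lit 8824969658) (nat_lit 304) (nat_lit 377980889) (nat_lit 42) (nat_lit 5) (nat_lit 45) (nat_lit 5) (nat_lit 46)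 (nat_lit 5) (nat_lit 500) (nat_lit 363) (nat_lit 277))))) (XT.nd (nat_lit 234) (nat_lit 456) (nat_lit 0) (XT.nd (nat_lit 78) (nat_lit 152) (nat_lit 0) (XT.lf (nat_lit 0) (nat_lit 2887257062) (nat_lit 304) (nat_lit 2120501538) (nat_lit 76) (nat_lit 13218281818) (nat_lit 41) (nat_lit 5) (nat_lit 45) (nat_lit 5) (nat_lit 42) (nat_lit 5) (nat_lit 501) (nat_lit 363) (nat_lit 276)) (XT.nd (nat_lit 78) (nat_lit 0) (nat_lit 0) (XT.lf (nat_lit 0) (nat_lit 5130738390) (nat_lit 152) (nat_lit 1092781518) (nat_lit 228) (nat_lit 12278666966) (nat_lit 39) (nat_lit 5) (nat_lit 41) (nat_lit 5) (nat_lit 42) (nat_lit 5) (nat_lit 502) (nat_lit 363) (nat_lit 275)) (XT.lf (nat_lit 0) (nat_lit 9637229555) (nat_lit 228) (nat_lit 6284507045) (nat_lit 76) (nat_lit 2861914799) (nat_lit 39) (nat_lit 5) (nat_lit 42) (nat_lit 5) (nat_lit 40) (nat_lit 5) (nat_lit 503) (nat_lit 363) (nat_lit 274)))) (XT.nd (nat_lit 156) (nat_lit 228)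 (nat_lit 0) (XT.nd (nat_lit 78) (nat_lit 0) (nat_lit 0) (XT.lf (nat_lit 0) (nat_lit 911879766) (nat_lit 228) (nat_lit 12198496696) (nat_lit 304) (nat_lit 5960554875) (nat_lit 36) (nat_lit 5) (nat_lit 39) (nat_lit 5) (nat_lit 40) (nat_lit 5) (nat_lit 504) (nat_lit 363) (nat_lit 273)) (XT.lf (nat_lit 0) (nat_lit 8300610027) (nat_lit 228) (nat_lit 8372746718) (nat_lit 304) (nat_lit 2690201918) (nat_lit 36) (nat_lit 5) (nat_lit 39) (nat_lit 5) (nat_lit 40) (nat_lit 5) (nat_lit 505) (nat_lit 363) (nat_lit 272))) (XT.nd (nat_lit 78) (nat_lit 152) (nat_lit 0) (XT.lf (nat_lit 0) (nat_lit 615566609) (nat_lit 304) (nat_lit 3865461337) (nat_lit 76) (nat_lit 15181366103) (nat_lit 35) (nat_lit 5) (nat_lit 39) (nat_lit 5) (nat_lit 36) (nat_lit 5) (nat_lit 506) (nat_lit 363) (nat_lit 271)) (XT.lf (nat_lit 0) (nat_lit 3468009742) (nat_lit 152) (nat_lit 484866432) (nat_lit 228) (nat_lit 16013954042) (nat_lit 33) (nat_lit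 5) (nat_lit 35) (nat_lit 5) (nat_lit 36) (nat_lit 5) (nat_lit 507) (nat_lit 363) (nat_lit 270))))))) (XT.nd (nat_lit 1092) (nat_lit 304) (nat_lit 0) (XT.nd (nat_lit 546) (nat_lit 380) (nat_lit 0) (XT.nd (nat_lit 234) (nat_lit 228) (nat_lit 0) (XT.nd (nat_lit 78) (nat_lit 152) (nat_lit 0) (XT.lf (nat_lit 0) (nat_lit 7385346677) (nat_lit 228) (nat_lit 9335509145) (nat_lit 76) (nat_lit 3555939489) (nat_lit 33) (nat_lit 5) (nat_lit 36) (nat_lit 5) (nat_lit 34) (nat_lit 5) (nat_lit 508) (nat_lit 363) (nat_lit 269)) (XT.nd (nat_lit 78) (nat_lit 152) (nat_lit 0) (XT.lf (nat_lit 0) (nat_lit 10869076752) (nat_lit 228) (nat_lit 2067174054) (nat_lit 76) (nat_lit 7657065031) (nat_lit 33) (nat_lit 5) (nat_lit 36) (nat_lit 5) (nat_lit 34) (nat_lit 5) (nat_lit 509) (nat_lit 363) (nat_lit 268)) (XT.lf (nat_lit 0) (nat_lit 5382779317) (nat_lit 152) (nat_lit 9054453750) (nat_lit 228) (nat_lit 6478646843) (nat_lit 31) (nat_lit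 5) (nat_lit 33) (nat_lit 5) (nat_lit 34) (nat_lit 5) (nat_lit 510) (nat_lit 363) (nat_lit 267)))) (XT.nd (nat_lit 156) (nat_lit 152) (nat_lit 0) (XT.nd (nat_lit 78) (nat_lit 76) (nat_lit 0) (XT.lf (nat_lit 0) (nat_lit 12975634257) (nat_lit 152) (nat_lit 5094967641) (nat_lit 228) (nat_lit 3174424386) (nat_lit 31) (nat_lit 5) (nat_lit 33) (nat_lit 5) (nat_lit 34) (nat_lit 5) (nat_lit 511) (nat_lit 363) (nat_lit 266)) (XT.lf (nat_lit 0) (nat_lit 173545897) (nat_lit 228) (nat_lit 895401084) (nat_lit 76) (nat_lit 20512186219) (nat_lit 30) (nat_lit 5) (nat_lit 33) (nat_lit 5) (nat_lit 31) (nat_lit 5) (nat_lit 512) (nat_lit 363) (nat_lit 265))) (XT.nd (nat_lit 78) (nat_lit 0) (nat_lit 0) (XT.lf (nat_lit 0) (nat_lit 3589925377) (nat_lit 228) (nat_lit 15283804590) (nat_lit 76) (nat_lit 3048941068) (nat_lit 28) (nat_lit 5) (nat_lit 31) (nat_lit 5) (nat_lit 29) (nat_lit 5) (nat_lit 513) (nat_lit 363) (nat_lit 264))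 (XT.lf (nat_lit 0) (nat_lit 7068458271) (nat_lit 228) (nat_lit 7975226148) (nat_lit 76) (nat_lit 7227486089) (nat_lit 28) (nat_lit 5) (nat_lit 31) (nat_lit 5) (nat_lit 29) (nat_lit 5) (nat_lit 514) (nat_lit 363) (nat_lit 263))))) (XT.nd (nat_lit 234) (nat_lit 228) (nat_lit 0) (XT.nd (nat_lit 78) (nat_lit 152) (nat_lit 0) (XT.lf (nat_lit 0) (nat_lit 10597638591) (nat_lit 228) (nat_lit 552970752) (nat_lit 76) (nat_lit 11476416348) (nat_lit 28) (nat_lit 5) (nat_lit 31) (nat_lit 5) (nat_lit 29) (nat_lit 5) (nat_lit 515) (nat_lit 363) (nat_lit 262)) (XT.nd (nat_lit 78) (nat_lit 0) (nat_lit 0) (XT.lf (nat_lit 0) (nat_lit 7078710853) (nat_lit 152) (nat_lit 7146099159) (nat_lit 228) (nat_lit 8764646925) (nat_lit 26) (nat_lit 5) (nat_lit 28) (nat_lit 5) (nat_lit 29) (nat_lit 5) (nat_lit 516) (nat_lit 363) (nat_lit 261)) (XT.lf (nat_lit 0) (nat_lit 14838873879) (nat_lit 152) (nat_lit 3070967808) (nat_lit 228) (nat_lit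 5449595758) (nat_lit 26) (nat_lit 5) (nat_lit 28) (nat_lit 5) (nat_lit 29) (nat_lit 5) (nat_lit 517) (nat_lit 363) (nat_lit 260)))) (XT.nd (nat_lit 156) (nat_lit 0) (nat_lit 0) (XT.nd (nat_lit 78) (nat_lit 228) (nat_lit 0) (XT.lf (nat_lit 0) (nat_lit 21657505259) (nat_lit 228) (nat_lit 1020936725) (nat_lit 76) (nat_lit 1058603788) (nat_lit 26) (nat_lit 5) (nat_lit 29) (nat_lit 5) (nat_lit 27) (nat_lit 4) (nat_lit 518) (nat_lit 363) (nat_lit 259)) (XT.lf (nat_lit 0) (nat_lit 1386252732) (nat_lit 228) (nat_lit 17465353996) (nat_lit 76) (nat_lit 5269506854) (nat_lit 23) (nat_lit 5) (nat_lit 26) (nat_lit 5) (nat_lit 24) (nat_lit 5) (nat_lit 519) (nat_lit 363) (nat_lit 258))) (XT.nd (nat_lit 78) (nat_lit 0) (nat_lit 0) (XT.lf (nat_lit 0) (nat_lit 4882704034) (nat_lit 228) (nat_lit 10057450713) (nat_lit 76) (nat_lit 9572655782) (nat_lit 23) (nat_lit 5) (nat_lit 26) (nat_lit 5) (nat_lit 24) (nat_lit 5) (nat_lit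 520) (nat_lit 363) (nat_lit 257)) (XT.lf (nat_lit 0) (nat_lit 8431696926) (nat_lit 228) (nat_lit 2531523398) (nat_lit 76) (nat_lit 13949475154) (nat_lit 23) (nat_lit 5) (nat_lit 26) (nat_lit 5) (nat_lit 24) (nat_lit 5) (nat_lit 521) (nat_lit 363) (nat_lit 256)))))) (XT.nd (nat_lit 50778) (nat_lit 0) (nat_lit 25916) (XT.nd (nat_lit 234) (nat_lit 152) (nat_lit 0) (XT.nd (nat_lit 78) (nat_lit 0) (nat_lit 0) (XT.lf (nat_lit 0) (nat_lit 5183359990) (nat_lit 152) (nat_lit 6884916991) (nat_lit 228) (nat_lit 13251975190) (nat_lit 21) (nat_lit 5) (nat_lit 23) (nat_lit 5) (nat_lit 24) (nat_lit 5) (nat_lit 522) (nat_lit 363) (nat_lit 255)) (XT.nd (nat_lit 78) (nat_lit 0) (nat_lit 0) (XT.lf (nat_lit 0) (nat_lit 13057507707) (nat_lit 152) (nat_lit 2720165974) (nat_lit 228) (nat_lit 9958290687) (nat_lit 21) (nat_lit 5) (nat_lit 23) (nat_lit 5) (nat_lit 24) (nat_lit 5) (nat_lit 523) (nat_lit 363) (nat_lit 254)) (XT.lf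 (nat_lit 0) (nat_lit 19554527718) (nat_lit 228) (nat_lit 5109803936) (nat_lit 76) (nat_lit 1495799716) (nat_lit 21) (nat_lit 5) (nat_lit 24) (nat_lit 5) (nat_lit 22) (nat_lit 4) (nat_lit 524) (nat_lit 363) (nat_lit 253)))) (XT.nd (nat_lit 156) (nat_lit 0) (nat_lit 0) (XT.nd (nat_lit 78) (nat_lit 76) (nat_lit 0) (XT.lf (nat_lit 0) (nat_lit 2597816073) (nat_lit 76) (nat_lit 20827659726) (nat_lit 152) (nat_lit 3166940608) (nat_lit 20) (nat_lit 5) (nat_lit 21) (nat_lit 5) (nat_lit 22) (nat_lit 4) (nat_lit 525) (nat_lit 363) (nat_lit 252)) (XT.lf (nat_lit 0) (nat_lit 354246119) (nat_lit 152) (nat_lit 16534743172) (nat_lit 76) (nat_lit 10143954925) (nat_lit 19) (nat_lit 5) (nat_lit 21) (nat_lit 5) (nat_lit 20) (nat_lit 5) (nat_lit 526) (nat_lit 363) (nat_lit 251))) (XT.nd (nat_lit 78) (nat_lit 0) (nat_lit 0) (XT.lf (nat_lit 0) (nat_lit 3887510032) (nat_lit 152) (nat_lit 8974600444) (nat_lit 76) (nat_lit 14620077757)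 (nat_lit 19) (nat_lit 5) (nat_lit 21) (nat_lit 5) (nat_lit 20) (nat_lit 5) (nat_lit 527) (nat_lit 363) (nat_lit 250)) (XT.lf (nat_lit 0) (nat_lit 7475771718) (nat_lit 152) (nat_lit 1290645510) (nat_lit 76) (nat_lit 19174318641) (nat_lit 19) (nat_lit 5) (nat_lit 21) (nat_lit 5) (nat_lit 20) (nat_lit 5) (nat_lit 528) (nat_lit 363) (nat_lit 249))))) (XT.nd (nat_lit 234) (nat_lit 4712) (nat_lit 0) (XT.nd (nat_lit 78) (nat_lit 1444) (nat_lit 0) (XT.lf (nat_lit 0) (nat_lit 2272787303) (nat_lit 1292) (nat_lit 606931934) (nat_lit 1292) (nat_lit 606931934) (nat_lit 441) (nat_lit 4) (nat_lit 458) (nat_lit 5) (nat_lit 458) (nat_lit 4) (nat_lit 412) (nat_lit 364) (nat_lit 364)) (XT.nd (nat_lit 78) (nat_lit 0) (nat_lit 0) (XT.lf (nat_lit 0) (nat_lit 1883990356) (nat_lit 1444) (nat_lit 4991767107) (nat_lit 0) (nat_lit 132297127) (nat_lit 422) (nat_lit 5) (nat_lit 441) (nat_lit 4) (nat_lit 422) (nat_lit 4) (nat_lit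 413) (nat_lit 364) (nat_lit 363)) (XT.lf (nat_lit 0) (nat_lit 4987937436) (nat_lit 1444) (nat_lit 537389772) (nat_lit 0) (nat_lit 1518897905) (nat_lit 422) (nat_lit 5) (nat_lit 441) (nat_lit 4) (nat_lit 422) (nat_lit 4) (nat_lit 414) (nat_lit 364) (nat_lit 362)))) (XT.nd (nat_lit 156) (nat_lit 1672) (nat_lit 0) (XT.nd (nat_lit 78) (nat_lit 1520) (nat_lit 0) (XT.lf (nat_lit 0) (nat_lit 1021601674) (nat_lit 1520) (nat_lit 3089076994) (nat_lit 76) (nat_lit 2971132449) (nat_lit 402) (nat_lit 5) (nat_lit 422) (nat_lit 5) (nat_lit 403) (nat_lit 4) (nat_lit 415) (nat_lit 364) (nat_lit 361)) (XT.lf (nat_lit 0) (nat_lit 1446528785) (nat_lit 1520) (nat_lit 2637580528) (nat_lit 1596) (nat_lit 3036842017) (nat_lit 382) (nat_lit 5) (nat_lit 402) (nat_lit 5) (nat_lit 403) (nat_lit 4) (nat_lit 416) (nat_lit 364) (nat_lit 360))) (XT.nd (nat_lit 78) (nat_lit 1596) (nat_lit 0) (XT.lf (nat_lit 0) (nat_lit 5139192) (nat_lit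 1596) (nat_lit 1106168422) (nat_lit 76) (nat_lit 6050468241) (nat_lit 381) (nat_lit 5) (nat_lit 402) (nat_lit 5) (nat_lit 382) (nat_lit 5) (nat_lit 417) (nat_lit 364) (nat_lit 359)) (XT.lf (nat_lit 0) (nat_lit 3032497803) (nat_lit 1672) (nat_lit 3686342999) (nat_lit 76) (nat_lit 484951820) (nat_lit 360) (nat_lit 5) (nat_lit 382) (nat_lit 5) (nat_lit 361) (nat_lit 4) (nat_lit 418) (nat_lit 364) (nat_lit 358))))))))
noncomputable def xc64 : XT := (XT.nd (nat_lit 2106) (nat_lit 6992) (nat_lit 0) (XT.nd (nat_lit 1014) (nat_lit 5928) (nat_lit 0) (XT.nd (nat_lit 468) (nat_lit 3192) (nat_lit 0) (XT.nd (nat_lit 234) (nat_lit 1748) (nat_lit 0) (XT.nd (nat_lit 78) (nat_lit 1064) (nat_lit 0) (XT.lf (nat_lit 0) (nat_lit 947333932) (nat_lit 1672) (nat_lit 5133991247) (nat_lit 1748) (nat_lit 1166185761) (nat_lit 338) (nat_lit 5) (nat_lit 360) (nat_lit 5) (nat_lit 361) (nat_lit 4) (nat_lit 419) (nat_lit 364) (nat_lit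 357)) (XT.nd (nat_lit 78) (nat_lit 988) (nat_lit 0) (XT.lf (nat_lit 0) (nat_lit 1839282571) (nat_lit 1748) (nat_lit 1640641146) (nat_lit 76) (nat_lit 3812706604) (nat_lit 337) (nat_lit 5) (nat_lit 360) (nat_lit 5) (nat_lit 338) (nat_lit 5) (nat_lit 420) (nat_lit 364) (nat_lit 356)) (XT.lf (nat_lit 0) (nat_lit 3085821230) (nat_lit 988) (nat_lit 1764906968) (nat_lit 1064) (nat_lit 2488615115) (nat_lit 324) (nat_lit 5) (nat_lit 337) (nat_lit 5) (nat_lit 338) (nat_lit 5) (nat_lit 421) (nat_lit 364) (nat_lit 355)))) (XT.nd (nat_lit 78) (nat_lit 836) (nat_lit 0) (XT.lf (nat_lit 0) (nat_lit 484379555) (nat_lit 912) (nat_lit 6902250241) (nat_lit 76) (nat_lit 1243596) (nat_lit 312) (nat_lit 5) (nat_lit 324) (nat_lit 5) (nat_lit 313) (nat_lit 5) (nat_lit 422) (nat_lit 364) (nat_lit 354)) (XT.nd (nat_lit 78) (nat_lit 836) (nat_lit 0) (XT.lf (nat_lit 0) (nat_lit 3466457327) (nat_lit 912) (nat_lit 2148241746) (nat_lit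 76) (nat_lit 1822757814) (nat_lit 312) (nat_lit 5) (nat_lit 324) (nat_lit 5) (nat_lit 313) (nat_lit 5) (nat_lit 423) (nat_lit 364) (nat_lit 353)) (XT.lf (nat_lit 0) (nat_lit 2676846999) (nat_lit 836) (nat_lit 3792331178) (nat_lit 912) (nat_lit 1019703184) (nat_lit 301) (nat_lit 5) (nat_lit 312) (nat_lit 5) (nat_lit 313) (nat_lit 5) (nat_lit 424) (nat_lit 364) (nat_lit 352))))) (XT.nd (nat_lit 234) (nat_lit 1520) (nat_lit 0) (XT.nd (nat_lit 78) (nat_lit 836) (nat_lit 0) (XT.lf (nat_lit 0) (nat_lit 14146704) (nat_lit 760) (nat_lit 1908878455) (nat_lit 836) (nat_lit 5618947055) (nat_lit 290) (nat_lit 5) (nat_lit 300) (nat_lit 5) (nat_lit 301) (nat_lit 5) (nat_lit 425) (nat_lit 364) (nat_lit 351)) (XT.nd (nat_lit 78) (nat_lit 836) (nat_lit 0) (XT.lf (nat_lit 0) (nat_lit 4888153237) (nat_lit 836) (nat_lit 2660732781) (nat_lit 76) (nat_lit 47625422) (nat_lit 290) (nat_lit 5) (nat_lit 301) (nat_lit 5) (nat_lit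 291) (nat_lit 5) (nat_lit 426) (nat_lit 364) (nat_lit 350)) (XT.lf (nat_lit 0) (nat_lit 229798079) (nat_lit 836) (nat_lit 5392640402) (nat_lit 76) (nat_lit 2030276524) (nat_lit 279) (nat_lit 5) (nat_lit 290) (nat_lit 5) (nat_lit 280) (nat_lit 5) (nat_lit 427) (nat_lit 364) (nat_lit 349)))) (XT.nd (nat_lit 156) (nat_lit 836) (nat_lit 0) (XT.nd (nat_lit 78) (nat_lit 684) (nat_lit 0) (XT.lf (nat_lit 0) (nat_lit 3154414067) (nat_lit 836) (nat_lit 471870886) (nat_lit 76) (nat_lit 4084181985) (nat_lit 279) (nat_lit 5) (nat_lit 290) (nat_lit 5) (nat_lit 280) (nat_lit 5) (nat_lit 428) (nat_lit 364) (nat_lit 348)) (XT.lf (nat_lit 0) (nat_lit 4548640829) (nat_lit 684) (nat_lit 1565428487) (nat_lit 760) (nat_lit 1655834017) (nat_lit 270) (nat_lit 5) (nat_lit 279) (nat_lit 5) (nat_lit 280) (nat_lit 5) (nat_lit 429) (nat_lit 364) (nat_lit 347))) (XT.nd (nat_lit 78) (nat_lit 0) (nat_lit 0) (XT.lf (nat_lit 0) (nat_lit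 1251067036) (nat_lit 836) (nat_lit 6032828778) (nat_lit 76) (nat_lit 547206366) (nat_lit 259) (nat_lit 5) (nat_lit 270) (nat_lit 5) (nat_lit 260) (nat_lit 5) (nat_lit 430) (nat_lit 364) (nat_lit 346)) (XT.lf (nat_lit 0) (nat_lit 4173968461) (nat_lit 836) (nat_lit 1012079615) (nat_lit 76) (nat_lit 2707714228) (nat_lit 259) (nat_lit 5) (nat_lit 270) (nat_lit 5) (nat_lit 260) (nat_lit 5) (nat_lit 431) (nat_lit 364) (nat_lit 345)))))) (XT.nd (nat_lit 546) (nat_lit 2432) (nat_lit 0) (XT.nd (nat_lit 234) (nat_lit 2052) (nat_lit 0) (XT.nd (nat_lit 78) (nat_lit 760) (nat_lit 0) (XT.lf (nat_lit 0) (nat_lit 4104706723) (nat_lit 684) (nat_lit 3026180147) (nat_lit 760) (nat_lit 827333350) (nat_lit 250) (nat_lit 5) (nat_lit 259) (nat_lit 5) (nat_lit 260) (nat_lit 5) (nat_lit 432) (nat_lit 364) (nat_lit 344)) (XT.nd (nat_lit 78) (nat_lit 0) (nat_lit 0) (XT.lf (nat_lit 0) (nat_lit 1257825981) (nat_lit 684) (nat_lit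 801457004) (nat_lit 760) (nat_lit 5965179236) (nat_lit 240) (nat_lit 5) (nat_lit 249) (nat_lit 5) (nat_lit 250) (nat_lit 5) (nat_lit 433) (nat_lit 364) (nat_lit 343)) (XT.lf (nat_lit 0) (nat_lit 4977838568) (nat_lit 760) (nat_lit 1642242848) (nat_lit 76) (nat_lit 1472185126) (nat_lit 240) (nat_lit 5) (nat_lit 250) (nat_lit 5) (nat_lit 241) (nat_lit 5) (nat_lit 434) (nat_lit 364) (nat_lit 342)))) (XT.nd (nat_lit 156) (nat_lit 684) (nat_lit 0) (XT.nd (nat_lit 78) (nat_lit 760) (nat_lit 0) (XT.lf (nat_lit 0) (nat_lit 3568108856) (nat_lit 608) (nat_lit 4365831113) (nat_lit 684) (nat_lit 227955005) (nat_lit 232) (nat_lit 5) (nat_lit 240) (nat_lit 5) (nat_lit 241) (nat_lit 5) (nat_lit 435) (nat_lit 364) (nat_lit 341)) (XT.lf (nat_lit 0) (nat_lit 604109052) (nat_lit 684) (nat_lit 2042450417) (nat_lit 760) (nat_lit 5586734589) (nat_lit 222) (nat_lit 5) (nat_lit 231) (nat_lit 5) (nat_lit 232) (nat_lit 5) (nat_lit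 436) (nat_lit 364) (nat_lit 340))) (XT.nd (nat_lit 78) (nat_lit 684) (nat_lit 0) (XT.lf (nat_lit 0) (nat_lit 5560116509) (nat_lit 760) (nat_lit 2400023481) (nat_lit 76) (nat_lit 346307455) (nat_lit 222) (nat_lit 5) (nat_lit 232) (nat_lit 5) (nat_lit 223) (nat_lit 5) (nat_lit 437) (nat_lit 364) (nat_lit 339)) (XT.lf (nat_lit 0) (nat_lit 133509262) (nat_lit 684) (nat_lit 5481815723) (nat_lit 76) (nat_lit 2766073838) (nat_lit 213) (nat_lit 5) (nat_lit 222) (nat_lit 5) (nat_lit 214) (nat_lit 5) (nat_lit 438) (nat_lit 364) (nat_lit 338))))) (XT.nd (nat_lit 234) (nat_lit 1216) (nat_lit 0) (XT.nd (nat_lit 78) (nat_lit 1216) (nat_lit 0) (XT.lf (nat_lit 0) (nat_lit 3003019860) (nat_lit 684) (nat_lit 196158722) (nat_lit 76) (nat_lit 5258976392) (nat_lit 213) (nat_lit 5) (nat_lit 222) (nat_lit 5) (nat_lit 214) (nat_lit 5) (nat_lit 439) (nat_lit 364) (nat_lit 337)) (XT.nd (nat_lit 78) (nat_lit 608) (nat_lit 0) (XT.lf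 (nat_lit 0) (nat_lit 5206582880) (nat_lit 608) (nat_lit 710672292) (nat_lit 684) (nat_lit 2619489236) (nat_lit 205) (nat_lit 5) (nat_lit 213) (nat_lit 5) (nat_lit 214) (nat_lit 5) (nat_lit 440) (nat_lit 364) (nat_lit 336)) (XT.lf (nat_lit 0) (nat_lit 249695557) (nat_lit 608) (nat_lit 6558100690) (nat_lit 76) (nat_lit 1809508966) (nat_lit 197) (nat_lit 5) (nat_lit 205) (nat_lit 5) (nat_lit 198) (nat_lit 5) (nat_lit 441) (nat_lit 364) (nat_lit 335)))) (XT.nd (nat_lit 156) (nat_lit 608) (nat_lit 0) (XT.nd (nat_lit 78) (nat_lit 608) (nat_lit 0) (XT.lf (nat_lit 0) (nat_lit 3122616329) (nat_lit 608) (nat_lit 1177439349) (nat_lit 76) (nat_lit 4399488980) (nat_lit 197) (nat_lit 5) (nat_lit 205) (nat_lit 5) (nat_lit 198) (nat_lit 5) (nat_lit 442) (nat_lit 364) (nat_lit 334)) (XT.lf (nat_lit 0) (nat_lit 4310797469) (nat_lit 608) (nat_lit 1725277668) (nat_lit 684) (nat_lit 2747733596) (nat_lit 189) (nat_lit 5) (nat_lit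 197) (nat_lit 5) (nat_lit 198) (nat_lit 5) (nat_lit 443) (nat_lit 364) (nat_lit 333))) (XT.nd (nat_lit 78) (nat_lit 0) (nat_lit 0) (XT.lf (nat_lit 0) (nat_lit 111895729) (nat_lit 608) (nat_lit 7865628771) (nat_lit 76) (nat_lit 892742268) (nat_lit 181) (nat_lit 5) (nat_lit 189) (nat_lit 5) (nat_lit 182) (nat_lit 5) (nat_lit 444) (nat_lit 364) (nat_lit 332)) (XT.lf (nat_lit 0) (nat_lit 2989304153) (nat_lit 608) (nat_lit 2392508535) (nat_lit 76) (nat_lit 3576369496) (nat_lit 181) (nat_lit 5) (nat_lit 189) (nat_lit 5) (nat_lit 182) (nat_lit 5) (nat_lit 445) (nat_lit 364) (nat_lit 331))))))) (XT.nd (nat_lit 1014) (nat_lit 2964) (nat_lit 0) (XT.nd (nat_lit 468) (nat_lit 1900) (nat_lit 0) (XT.nd (nat_lit 234) (nat_lit 1064) (nat_lit 0) (XT.nd (nat_lit 78) (nat_lit 532) (nat_lit 0) (XT.lf (nat_lit 0) (nat_lit 3175538914) (nat_lit 532) (nat_lit 2725911643) (nat_lit 608) (nat_lit 3146899837) (nat_lit 174) (nat_lit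 5) (nat_lit 181) (nat_lit 5) (nat_lit 182) (nat_lit 5) (nat_lit 446) (nat_lit 364) (nat_lit 330)) (XT.nd (nat_lit 78) (nat_lit 532) (nat_lit 0) (XT.lf (nat_lit 0) (nat_lit 8831565068) (nat_lit 532) (nat_lit 13391070) (nat_lit 608) (nat_lit 295941033) (nat_lit 174) (nat_lit 5) (nat_lit 181) (nat_lit 5) (nat_lit 182) (nat_lit 5) (nat_lit 447) (nat_lit 364) (nat_lit 329)) (XT.lf (nat_lit 0) (nat_lit 2588326890) (nat_lit 532) (nat_lit 3889797286) (nat_lit 76) (nat_lit 2756656654) (nat_lit 167) (nat_lit 5) (nat_lit 174) (nat_lit 5) (nat_lit 168) (nat_lit 5) (nat_lit 448) (nat_lit 364) (nat_lit 328)))) (XT.nd (nat_lit 78) (nat_lit 532) (nat_lit 0) (XT.lf (nat_lit 0) (nat_lit 1751239146) (nat_lit 532) (nat_lit 3746608876) (nat_lit 608) (nat_lit 3833259771) (nat_lit 160) (nat_lit 5) (nat_lit 167) (nat_lit 5) (nat_lit 168) (nat_lit 5) (nat_lit 449) (nat_lit 364) (nat_lit 327)) (XT.nd (nat_lit 78) (nat_lit 532)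 (nat_lit 0) (XT.lf (nat_lit 0) (nat_lit 7502445970) (nat_lit 532) (nat_lit 947658980) (nat_lit 608) (nat_lit 979600109) (nat_lit 160) (nat_lit 5) (nat_lit 167) (nat_lit 5) (nat_lit 168) (nat_lit 5) (nat_lit 450) (nat_lit 364) (nat_lit 326)) (XT.lf (nat_lit 0) (nat_lit 1902109868) (nat_lit 532) (nat_lit 5721813940) (nat_lit 76) (nat_lit 1906206937) (nat_lit 153) (nat_lit 5) (nat_lit 160) (nat_lit 5) (nat_lit 154) (nat_lit 5) (nat_lit 451) (nat_lit 364) (nat_lit 325))))) (XT.nd (nat_lit 234) (nat_lit 912) (nat_lit 0) (XT.nd (nat_lit 78) (nat_lit 988) (nat_lit 0) (XT.lf (nat_lit 0) (nat_lit 4806958753) (nat_lit 532) (nat_lit 15690283) (nat_lit 76) (nat_lit 4810246648) (nat_lit 153) (nat_lit 5) (nat_lit 160) (nat_lit 5) (nat_lit 154) (nat_lit 5) (nat_lit 452) (nat_lit 364) (nat_lit 324)) (XT.nd (nat_lit 78) (nat_lit 532) (nat_lit 0) (XT.lf (nat_lit 0) (nat_lit 5826795151) (nat_lit 456) (nat_lit 1941053464)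 (nat_lit 532) (nat_lit 1969940456) (nat_lit 147) (nat_lit 5) (nat_lit 153) (nat_lit 5) (nat_lit 154) (nat_lit 5) (nat_lit 453) (nat_lit 364) (nat_lit 323)) (XT.lf (nat_lit 0) (nat_lit 910049334) (nat_lit 532) (nat_lit 7945687065) (nat_lit 76) (nat_lit 989367374) (nat_lit 140) (nat_lit 5) (nat_lit 147) (nat_lit 5) (nat_lit 141) (nat_lit 5) (nat_lit 454) (nat_lit 364) (nat_lit 322)))) (XT.nd (nat_lit 156) (nat_lit 456) (nat_lit 0) (XT.nd (nat_lit 78) (nat_lit 456) (nat_lit 0) (XT.lf (nat_lit 0) (nat_lit 3821145420) (nat_lit 532) (nat_lit 2155810204) (nat_lit 76) (nat_lit 3977381223) (nat_lit 140) (nat_lit 5) (nat_lit 147) (nat_lit 5) (nat_lit 141) (nat_lit 5) (nat_lit 455) (nat_lit 364) (nat_lit 321)) (XT.lf (nat_lit 0) (nat_lit 3745312081) (nat_lit 456) (nat_lit 3030827271) (nat_lit 532) (nat_lit 3289931303) (nat_lit 134) (nat_lit 5) (nat_lit 140) (nat_lit 5) (nat_lit 141) (nat_lit 5) (nat_lit 456) (nat_lit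 364) (nat_lit 320))) (XT.nd (nat_lit 78) (nat_lit 456) (nat_lit 0) (XT.lf (nat_lit 0) (nat_lit 9740359941) (nat_lit 456) (nat_lit 26110200) (nat_lit 532) (nat_lit 414073270) (nat_lit 134) (nat_lit 5) (nat_lit 140) (nat_lit 5) (nat_lit 141) (nat_lit 5) (nat_lit 457) (nat_lit 364) (nat_lit 319)) (XT.lf (nat_lit 0) (nat_lit 2504594344) (nat_lit 456) (nat_lit 4755231942) (nat_lit 76) (nat_lit 3036813412) (nat_lit 128) (nat_lit 5) (nat_lit 134) (nat_lit 5) (nat_lit 129) (nat_lit 5) (nat_lit 458) (nat_lit 364) (nat_lit 318)))))) (XT.nd (nat_lit 546) (nat_lit 1368) (nat_lit 0) (XT.nd (nat_lit 234) (nat_lit 760) (nat_lit 0) (XT.nd (nat_lit 78) (nat_lit 456) (nat_lit 0) (XT.lf (nat_lit 0) (nat_lit 1193180212) (nat_lit 380) (nat_lit 4256354477) (nat_lit 456) (nat_lit 4966026941) (nat_lit 123) (nat_lit 5) (nat_lit 128) (nat_lit 5) (nat_lit 129) (nat_lit 5) (nat_lit 459) (nat_lit 364) (nat_lit 317)) (XT.nd (nat_lit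 78) (nat_lit 456) (nat_lit 0) (XT.lf (nat_lit 0) (nat_lit 7272235934) (nat_lit 380) (nat_lit 1175985098) (nat_lit 456) (nat_lit 2088770829) (nat_lit 123) (nat_lit 5) (nat_lit 128) (nat_lit 5) (nat_lit 129) (nat_lit 5) (nat_lit 460) (nat_lit 364) (nat_lit 316)) (XT.lf (nat_lit 0) (nat_lit 829271230) (nat_lit 456) (nat_lit 7883083951) (nat_lit 76) (nat_lit 1948524682) (nat_lit 117) (nat_lit 5) (nat_lit 123) (nat_lit 5) (nat_lit 118) (nat_lit 5) (nat_lit 461) (nat_lit 364) (nat_lit 315)))) (XT.nd (nat_lit 156) (nat_lit 380) (nat_lit 0) (XT.nd (nat_lit 78) (nat_lit 380) (nat_lit 0) (XT.lf (nat_lit 0) (nat_lit 3771248896) (nat_lit 456) (nat_lit 1875684343) (nat_lit 76) (nat_lit 5140190639) (nat_lit 117) (nat_lit 5) (nat_lit 123) (nat_lit 5) (nat_lit 118) (nat_lit 5) (nat_lit 462) (nat_lit 364) (nat_lit 314)) (XT.lf (nat_lit 0) (nat_lit 4256149788) (nat_lit 380) (nat_lit 2507938272) (nat_lit 456) (nat_lit 4151989036)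 (nat_lit 112) (nat_lit 5) (nat_lit 117) (nat_lit 5) (nat_lit 118) (nat_lit 5) (nat_lit 463) (nat_lit 364) (nat_lit 313))) (XT.nd (nat_lit 78) (nat_lit 380) (nat_lit 0) (XT.lf (nat_lit 0) (nat_lit 9798609572) (nat_lit 456) (nat_lit 567720092) (nat_lit 76) (nat_lit 681667478) (nat_lit 112) (nat_lit 5) (nat_lit 118) (nat_lit 5) (nat_lit 113) (nat_lit 5) (nat_lit 464) (nat_lit 364) (nat_lit 312)) (XT.lf (nat_lit 0) (nat_lit 1707578354) (nat_lit 380) (nat_lit 5540381207) (nat_lit 76) (nat_lit 3934022028) (nat_lit 107) (nat_lit 5) (nat_lit 112) (nat_lit 5) (nat_lit 108) (nat_lit 5) (nat_lit 465) (nat_lit 364) (nat_lit 311))))) (XT.nd (nat_lit 234) (nat_lit 684) (nat_lit 0) (XT.nd (nat_lit 78) (nat_lit 304) (nat_lit 0) (XT.lf (nat_lit 0) (nat_lit 613021891) (nat_lit 380) (nat_lit 4067208421) (nat_lit 456) (nat_lit 6638807599) (nat_lit 102) (nat_lit 5) (nat_lit 107) (nat_lit 5) (nat_lit 108) (nat_lit 5) (nat_lit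 466) (nat_lit 364) (nat_lit 310)) (XT.nd (nat_lit 78) (nat_lit 304) (nat_lit 0) (XT.lf (nat_lit 0) (nat_lit 6913977575) (nat_lit 380) (nat_lit 801330813) (nat_lit 456) (nat_lit 3743489936) (nat_lit 102) (nat_lit 5) (nat_lit 107) (nat_lit 5) (nat_lit 108) (nat_lit 5) (nat_lit 467) (nat_lit 364) (nat_lit 309)) (XT.lf (nat_lit 0) (nat_lit 1695193089) (nat_lit 304) (nat_lit 9109687258) (nat_lit 380) (nat_lit 796619740) (nat_lit 98) (nat_lit 5) (nat_lit 102) (nat_lit 5) (nat_lit 103) (nat_lit 5) (nat_lit 468) (nat_lit 364) (nat_lit 308)))) (XT.nd (nat_lit 156) (nat_lit 304) (nat_lit 0) (XT.nd (nat_lit 78) (nat_lit 304) (nat_lit 0) (XT.lf (nat_lit 0) (nat_lit 2182675252) (nat_lit 380) (nat_lit 3695033923) (nat_lit 76) (nat_lit 5869031746) (nat_lit 97) (nat_lit 5) (nat_lit 102) (nat_lit 5) (nat_lit 98) (nat_lit 5) (nat_lit 469) (nat_lit 364) (nat_lit 307)) (XT.lf (nat_lit 0) (nat_lit 2620191370) (nat_lit 304)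 (nat_lit 2574832133) (nat_lit 380) (nat_lit 6700095794) (nat_lit 93) (nat_lit 5) (nat_lit 97) (nat_lit 5) (nat_lit 98) (nat_lit 5) (nat_lit 470) (nat_lit 364) (nat_lit 306))) (XT.nd (nat_lit 78) (nat_lit 304) (nat_lit 0) (XT.lf (nat_lit 0) (nat_lit 8265066005) (nat_lit 380) (nat_lit 2989082765) (nat_lit 76) (nat_lit 792387836) (nat_lit 93) (nat_lit 5) (nat_lit 98) (nat_lit 5) (nat_lit 94) (nat_lit 5) (nat_lit 471) (nat_lit 364) (nat_lit 305)) (XT.lf (nat_lit 0) (nat_lit 3401408379) (nat_lit 304) (nat_lit 8002209214) (nat_lit 380) (nat_lit 797242418) (nat_lit 89) (nat_lit 5) (nat_lit 93) (nat_lit 5) (nat_lit 94) (nat_lit 5) (nat_lit 472) (nat_lit 364) (nat_lit 304))))))))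
noncomputable def xc65 : XT := (XT.nd (nat_lit 2106) (nat_lit 1976) (nat_lit 0) (XT.nd (nat_lit 1014) (nat_lit 1520) (nat_lit 0) (XT.nd (nat_lit 468) (nat_lit 836) (nat_lit 0) (XT.nd (nat_lit 234) (nat_lit 608) (nat_lit 0) (XT.nd (nat_lit 78) (nat_lit 304) (nat_lit 0) (XT.lf (nat_lit 0) (nat_lit 2205453219) (nat_lit 380) (nat_lit 2461114127) (nat_lit 76) (nat_lit 7691664975) (nat_lit 88) (nat_lit 5) (nat_lit 93) (nat_lit 5) (nat_lit 89) (nat_lit 5) (nat_lit 473) (nat_lit 364) (nat_lit 303)) (XT.nd (nat_lit 78) (nat_lit 0) (nat_lit 0) (XT.lf (nat_lit 0) (nat_lit 4003419027) (nat_lit 304) (nat_lit 1248795046) (nat_lit 380) (nat_lit 7266557647) (nat_lit 84) (nat_lit 5) (nat_lit 88) (nat_lit 5) (nat_lit 89) (nat_lit 5) (nat_lit 474) (nat_lit 364) (nat_lit 302)) (XT.lf (nat_lit 0) (nat_lit 8359943501) (nat_lit 380) (nat_lit 2114237449) (nat_lit 76) (nat_lit 2208358686) (nat_lit 84) (nat_lit 5) (nat_lit 89)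 (nat_lit 5) (nat_lit 85) (nat_lit 5) (nat_lit 475) (nat_lit 364) (nat_lit 301)))) (XT.nd (nat_lit 78) (nat_lit 380) (nat_lit 0) (XT.lf (nat_lit 0) (nat_lit 4417493485) (nat_lit 228) (nat_lit 7118778010) (nat_lit 304) (nat_lit 1313200575) (nat_lit 81) (nat_lit 5) (nat_lit 84) (nat_lit 5) (nat_lit 85) (nat_lit 5) (nat_lit 476) (nat_lit 364) (nat_lit 300)) (XT.nd (nat_lit 78) (nat_lit 304) (nat_lit 0) (XT.lf (nat_lit 0) (nat_lit 1717198770) (nat_lit 304) (nat_lit 1969623598) (nat_lit 76) (nat_lit 9333033024) (nat_lit 80) (nat_lit 5) (nat_lit 84) (nat_lit 5) (nat_lit 81) (nat_lit 5) (nat_lit 477) (nat_lit 364) (nat_lit 299)) (XT.lf (nat_lit 0) (nat_lit 4627715585) (nat_lit 304) (nat_lit 163135619) (nat_lit 380) (nat_lit 8402633992) (nat_lit 76) (nat_lit 5) (nat_lit 80) (nat_lit 5) (nat_lit 81) (nat_lit 5) (nat_lit 478) (nat_lit 364) (nat_lit 298))))) (XT.nd (nat_lit 234) (nat_lit 532) (nat_lit 0) (XT.nd (nat_lit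 78) (nat_lit 304) (nat_lit 0) (XT.lf (nat_lit 0) (nat_lit 7931904215) (nat_lit 380) (nat_lit 2055443221) (nat_lit 76) (nat_lit 3383138273) (nat_lit 76) (nat_lit 5) (nat_lit 81) (nat_lit 5) (nat_lit 77) (nat_lit 5) (nat_lit 479) (nat_lit 364) (nat_lit 297)) (XT.nd (nat_lit 78) (nat_lit 76) (nat_lit 0) (XT.lf (nat_lit 0) (nat_lit 4598777765) (nat_lit 228) (nat_lit 6538866944) (nat_lit 304) (nat_lit 2413360532) (nat_lit 73) (nat_lit 5) (nat_lit 76) (nat_lit 5) (nat_lit 77) (nat_lit 5) (nat_lit 480) (nat_lit 364) (nat_lit 296)) (XT.lf (nat_lit 0) (nat_lit 648428625) (nat_lit 304) (nat_lit 2371017690) (nat_lit 76) (nat_lit 10715919602) (nat_lit 72) (nat_lit 5) (nat_lit 76) (nat_lit 5) (nat_lit 73) (nat_lit 5) (nat_lit 481) (nat_lit 364) (nat_lit 295)))) (XT.nd (nat_lit 156) (nat_lit 228) (nat_lit 0) (XT.nd (nat_lit 78) (nat_lit 0) (nat_lit 0) (XT.lf (nat_lit 0) (nat_lit 3742789669) (nat_lit 380) (nat_lit 9589029239)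 (nat_lit 76) (nat_lit 591218227) (nat_lit 68) (nat_lit 5) (nat_lit 73) (nat_lit 5) (nat_lit 69) (nat_lit 5) (nat_lit 482) (nat_lit 364) (nat_lit 294)) (XT.lf (nat_lit 0) (nat_lit 6906779699) (nat_lit 380) (nat_lit 2973901503) (nat_lit 76) (nat_lit 4233640833) (nat_lit 68) (nat_lit 5) (nat_lit 73) (nat_lit 5) (nat_lit 69) (nat_lit 5) (nat_lit 483) (nat_lit 364) (nat_lit 293))) (XT.nd (nat_lit 78) (nat_lit 0) (nat_lit 0) (XT.lf (nat_lit 0) (nat_lit 3779042586) (nat_lit 228) (nat_lit 6351826606) (nat_lit 304) (nat_lit 4178641844) (nat_lit 65) (nat_lit 5) (nat_lit 68) (nat_lit 5) (nat_lit 69) (nat_lit 5) (nat_lit 484) (nat_lit 364) (nat_lit 292)) (XT.lf (nat_lit 0) (nat_lit 10663598347) (nat_lit 228) (nat_lit 2748341529) (nat_lit 304) (nat_lit 1096828459) (nat_lit 65) (nat_lit 5) (nat_lit 68) (nat_lit 5) (nat_lit 69) (nat_lit 5) (nat_lit 485) (nat_lit 364) (nat_lit 291)))))) (XT.nd (nat_lit 546) (nat_lit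 684) (nat_lit 0) (XT.nd (nat_lit 234) (nat_lit 304) (nat_lit 0) (XT.nd (nat_lit 78) (nat_lit 228) (nat_lit 0) (XT.lf (nat_lit 0) (nat_lit 2017991222) (nat_lit 304) (nat_lit 11762007590) (nat_lit 76) (nat_lit 931795915) (nat_lit 61) (nat_lit 5) (nat_lit 65) (nat_lit 5) (nat_lit 62) (nat_lit 5) (nat_lit 486) (nat_lit 364) (nat_lit 290)) (XT.nd (nat_lit 78) (nat_lit 228) (nat_lit 0) (XT.lf (nat_lit 0) (nat_lit 5197646174) (nat_lit 304) (nat_lit 5054672299) (nat_lit 76) (nat_lit 4666087335) (nat_lit 61) (nat_lit 5) (nat_lit 65) (nat_lit 5) (nat_lit 62) (nat_lit 5) (nat_lit 487) (nat_lit 364) (nat_lit 289)) (XT.lf (nat_lit 0) (nat_lit 1767404397) (nat_lit 228) (nat_lit 6658530429) (nat_lit 304) (nat_lit 6703526874) (nat_lit 58) (nat_lit 5) (nat_lit 61) (nat_lit 5) (nat_lit 62) (nat_lit 5) (nat_lit 488) (nat_lit 364) (nat_lit 288)))) (XT.nd (nat_lit 156) (nat_lit 76) (nat_lit 0) (XT.nd (nat_lit 78) (nat_lit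 228) (nat_lit 0) (XT.lf (nat_lit 0) (nat_lit 8752135079) (nat_lit 228) (nat_lit 2974382775) (nat_lit 304) (nat_lit 3618079422) (nat_lit 58) (nat_lit 5) (nat_lit 61) (nat_lit 5) (nat_lit 62) (nat_lit 5) (nat_lit 489) (nat_lit 364) (nat_lit 287)) (XT.lf (nat_lit 0) (nat_lit 269067709) (nat_lit 228) (nat_lit 14805098530) (nat_lit 304) (nat_lit 490261131) (nat_lit 55) (nat_lit 5) (nat_lit 58) (nat_lit 5) (nat_lit 59) (nat_lit 5) (nat_lit 490) (nat_lit 364) (nat_lit 286))) (XT.nd (nat_lit 78) (nat_lit 0) (nat_lit 0) (XT.lf (nat_lit 0) (nat_lit 2703204487) (nat_lit 304) (nat_lit 8510078242) (nat_lit 76) (nat_lit 4574263033) (nat_lit 54) (nat_lit 5) (nat_lit 58) (nat_lit 5) (nat_lit 55) (nat_lit 5) (nat_lit 491) (nat_lit 364) (nat_lit 285)) (XT.lf (nat_lit 0) (nat_lit 5928759071) (nat_lit 304) (nat_lit 1633492787) (nat_lit 76) (nat_lit 8453326305) (nat_lit 54) (nat_lit 5) (nat_lit 58) (nat_lit 5) (nat_lit 55)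 (nat_lit 5) (nat_lit 492) (nat_lit 364) (nat_lit 284))))) (XT.nd (nat_lit 234) (nat_lit 228) (nat_lit 0) (XT.nd (nat_lit 78) (nat_lit 228) (nat_lit 0) (XT.lf (nat_lit 0) (nat_lit 5411245969) (nat_lit 228) (nat_lit 3817984834) (nat_lit 304) (nat_lit 7018744186) (nat_lit 51) (nat_lit 5) (nat_lit 54) (nat_lit 5) (nat_lit 55) (nat_lit 5) (nat_lit 493) (nat_lit 364) (nat_lit 283)) (XT.nd (nat_lit 78) (nat_lit 228) (nat_lit 0) (XT.lf (nat_lit 0) (nat_lit 12578939499) (nat_lit 228) (nat_lit 3231335) (nat_lit 304) (nat_lit 3903131408) (nat_lit 51) (nat_lit 5) (nat_lit 54) (nat_lit 5) (nat_lit 55) (nat_lit 5) (nat_lit 494) (nat_lit 364) (nat_lit 282)) (XT.lf (nat_lit 0) (nat_lit 3138845888) (nat_lit 228) (nat_lit 12884824079) (nat_lit 304) (nat_lit 703287507) (nat_lit 48) (nat_lit 5) (nat_lit 51) (nat_lit 5) (nat_lit 52) (nat_lit 5) (nat_lit 495) (nat_lit 364) (nat_lit 281)))) (XT.nd (nat_lit 156) (nat_lit 0)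 (nat_lit 0) (XT.nd (nat_lit 78) (nat_lit 152) (nat_lit 0) (XT.lf (nat_lit 0) (nat_lit 2529306050) (nat_lit 304) (nat_lit 6651589896) (nat_lit 76) (nat_lit 7792181663) (nat_lit 47) (nat_lit 5) (nat_lit 51) (nat_lit 5) (nat_lit 48) (nat_lit 5) (nat_lit 496) (nat_lit 364) (nat_lit 280)) (XT.lf (nat_lit 0) (nat_lit 385075599) (nat_lit 152) (nat_lit 5410966010) (nat_lit 228) (nat_lit 11428418200) (nat_lit 45) (nat_lit 5) (nat_lit 47) (nat_lit 5) (nat_lit 48) (nat_lit 5) (nat_lit 497) (nat_lit 364) (nat_lit 279))) (XT.nd (nat_lit 78) (nat_lit 0) (nat_lit 0) (XT.lf (nat_lit 0) (nat_lit 7613915469) (nat_lit 152) (nat_lit 1535441626) (nat_lit 228) (nat_lit 8331098220) (nat_lit 45) (nat_lit 5) (nat_lit 47) (nat_lit 5) (nat_lit 48) (nat_lit 5) (nat_lit 498) (nat_lit 364) (nat_lit 278)) (XT.lf (nat_lit 0) (nat_lit 12562406095) (nat_lit 228) (nat_lit 2808270326) (nat_lit 76) (nat_lit 2371051325) (nat_lit 45) (nat_lit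 5) (nat_lit 48) (nat_lit 5) (nat_lit 46) (nat_lit 5) (nat_lit 499) (nat_lit 364) (nat_lit 277))))))) (XT.nd (nat_lit 1092) (nat_lit 684) (nat_lit 0) (XT.nd (nat_lit 546) (nat_lit 608) (nat_lit 0) (XT.nd (nat_lit 234) (nat_lit 228) (nat_lit 0) (XT.nd (nat_lit 78) (nat_lit 228) (nat_lit 0) (XT.lf (nat_lit 0) (nat_lit 4401134320) (nat_lit 228) (nat_lit 11658747468) (nat_lit 304) (nat_lit 1948030682) (nat_lit 42) (nat_lit 5) (nat_lit 45) (nat_lit 5) (nat_lit 46) (nat_lit 5) (nat_lit 500) (nat_lit 364) (nat_lit 276)) (XT.nd (nat_lit 78) (nat_lit 152) (nat_lit 0) (XT.lf (nat_lit 0) (nat_lit 1326642523) (nat_lit 304) (nat_lit 6532771689) (nat_lit 76) (nat_lit 10419912728) (nat_lit 41) (nat_lit 5) (nat_lit 45) (nat_lit 5) (nat_lit 42) (nat_lit 5) (nat_lit 501) (nat_lit 364) (nat_lit 275)) (XT.lf (nat_lit 0) (nat_lit 641317746) (nat_lit 152) (nat_lit 3981501844) (nat_lit 228) (nat_lit 13933460259) (nat_lit 39)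 (nat_lit 5) (nat_lit 41) (nat_lit 5) (nat_lit 42) (nat_lit 5) (nat_lit 502) (nat_lit 364) (nat_lit 274)))) (XT.nd (nat_lit 156) (nat_lit 228) (nat_lit 0) (XT.nd (nat_lit 78) (nat_lit 0) (nat_lit 0) (XT.lf (nat_lit 0) (nat_lit 8006885420) (nat_lit 228) (nat_lit 10827589907) (nat_lit 76) (nat_lit 3866568) (nat_lit 39) (nat_lit 5) (nat_lit 42) (nat_lit 5) (nat_lit 40) (nat_lit 5) (nat_lit 503) (nat_lit 364) (nat_lit 273)) (XT.lf (nat_lit 0) (nat_lit 11463436967) (nat_lit 228) (nat_lit 3661127986) (nat_lit 76) (nat_lit 4001393341) (nat_lit 39) (nat_lit 5) (nat_lit 42) (nat_lit 5) (nat_lit 40) (nat_lit 5) (nat_lit 504) (nat_lit 364) (nat_lit 272))) (XT.nd (nat_lit 78) (nat_lit 0) (nat_lit 0) (XT.lf (nat_lit 0) (nat_lit 3661100579) (nat_lit 228) (nat_lit 11330648904) (nat_lit 304) (nat_lit 4427533958) (nat_lit 36) (nat_lit 5) (nat_lit 39) (nat_lit 5) (nat_lit 40) (nat_lit 5) (nat_lit 505) (nat_lit 364) (nat_lit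 271)) (XT.lf (nat_lit 0) (nat_lit 11144056755) (nat_lit 228) (nat_lit 7450184274) (nat_lit 304) (nat_lit 1124170648) (nat_lit 36) (nat_lit 5) (nat_lit 39) (nat_lit 5) (nat_lit 40) (nat_lit 5) (nat_lit 506) (nat_lit 364) (nat_lit 270))))) (XT.nd (nat_lit 234) (nat_lit 380) (nat_lit 0) (XT.nd (nat_lit 78) (nat_lit 152) (nat_lit 0) (XT.lf (nat_lit 0) (nat_lit 2195123899) (nat_lit 304) (nat_lit 1296363073) (nat_lit 76) (nat_lit 16532166233) (nat_lit 35) (nat_lit 5) (nat_lit 39) (nat_lit 5) (nat_lit 36) (nat_lit 5) (nat_lit 507) (nat_lit 364) (nat_lit 269)) (XT.nd (nat_lit 78) (nat_lit 0) (nat_lit 0) (XT.lf (nat_lit 0) (nat_lit 5589289788) (nat_lit 228) (nat_lit 14171868342) (nat_lit 76) (nat_lit 573230387) (nat_lit 33) (nat_lit 5) (nat_lit 36) (nat_lit 5) (nat_lit 34) (nat_lit 5) (nat_lit 508) (nat_lit 364) (nat_lit 268)) (XT.lf (nat_lit 0) (nat_lit 9063021380) (nat_lit 228) (nat_lit 6920535498) (nat_lit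 76) (nat_lit 4667556178) (nat_lit 33) (nat_lit 5) (nat_lit 36) (nat_lit 5) (nat_lit 34) (nat_lit 5) (nat_lit 509) (nat_lit 364) (nat_lit 267)))) (XT.nd (nat_lit 156) (nat_lit 228) (nat_lit 0) (XT.nd (nat_lit 78) (nat_lit 0) (nat_lit 0) (XT.lf (nat_lit 0) (nat_lit 448028864) (nat_lit 152) (nat_lit 12141306724) (nat_lit 228) (nat_lit 8385182346) (nat_lit 31) (nat_lit 5) (nat_lit 33) (nat_lit 5) (nat_lit 34) (nat_lit 5) (nat_lit 510) (nat_lit 364) (nat_lit 266)) (XT.lf (nat_lit 0) (nat_lit 8024324599) (nat_lit 152) (nat_lit 8188662079) (nat_lit 228) (nat_lit 5090875874) (nat_lit 31) (nat_lit 5) (nat_lit 33) (nat_lit 5) (nat_lit 34) (nat_lit 5) (nat_lit 511) (nat_lit 364) (nat_lit 265))) (XT.nd (nat_lit 78) (nat_lit 228) (nat_lit 0) (XT.lf (nat_lit 0) (nat_lit 15719352526) (nat_lit 152) (nat_lit 4170513321) (nat_lit 228) (nat_lit 1750320809) (nat_lit 31) (nat_lit 5) (nat_lit 33) (nat_lit 5) (nat_lit 34) (nat_lit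 5) (nat_lit 512) (nat_lit 364) (nat_lit 264)) (XT.lf (nat_lit 0) (nat_lit 1562365224) (nat_lit 152) (nat_lit 64091606) (nat_lit 228) (nat_lit 20356749761) (nat_lit 28) (nat_lit 5) (nat_lit 30) (nat_lit 5) (nat_lit 31) (nat_lit 5) (nat_lit 513) (nat_lit 364) (nat_lit 263)))))) (XT.nd (nat_lit 546) (nat_lit 304) (nat_lit 0) (XT.nd (nat_lit 234) (nat_lit 228) (nat_lit 0) (XT.nd (nat_lit 78) (nat_lit 152) (nat_lit 0) (XT.lf (nat_lit 0) (nat_lit 5095205663) (nat_lit 228) (nat_lit 13127933243) (nat_lit 76) (nat_lit 4108766431) (nat_lit 28) (nat_lit 5) (nat_lit 31) (nat_lit 5) (nat_lit 29) (nat_lit 5) (nat_lit 514) (nat_lit 364) (nat_lit 262)) (XT.nd (nat_lit 78) (nat_lit 152) (nat_lit 0) (XT.lf (nat_lit 0) (nat_lit 8615201730) (nat_lit 228) (nat_lit 5721448869) (nat_lit 76) (nat_lit 8351297126) (nat_lit 28) (nat_lit 5) (nat_lit 31) (nat_lit 5) (nat_lit 29) (nat_lit 5) (nat_lit 515) (nat_lit 364) (nat_lit 261))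 (XT.lf (nat_lit 0) (nat_lit 1825879117) (nat_lit 152) (nat_lit 10373384998) (nat_lit 228) (nat_lit 10851980489) (nat_lit 26) (nat_lit 5) (nat_lit 28) (nat_lit 5) (nat_lit 29) (nat_lit 5) (nat_lit 516) (nat_lit 364) (nat_lit 260)))) (XT.nd (nat_lit 156) (nat_lit 228) (nat_lit 0) (XT.nd (nat_lit 78) (nat_lit 0) (nat_lit 0) (XT.lf (nat_lit 0) (nat_lit 9570682079) (nat_lit 152) (nat_lit 6304686367) (nat_lit 228) (nat_lit 7546038596) (nat_lit 26) (nat_lit 5) (nat_lit 28) (nat_lit 5) (nat_lit 29) (nat_lit 5) (nat_lit 517) (nat_lit 364) (nat_lit 259)) (XT.lf (nat_lit 0) (nat_lit 17439962149) (nat_lit 152) (nat_lit 2167353071) (nat_lit 228) (nat_lit 4192017803) (nat_lit 26) (nat_lit 5) (nat_lit 28) (nat_lit 5) (nat_lit 29) (nat_lit 5) (nat_lit 518) (nat_lit 364) (nat_lit 258))) (XT.nd (nat_lit 78) (nat_lit 76) (nat_lit 0) (XT.lf (nat_lit 0) (nat_lit 1254845517) (nat_lit 152) (nat_lit 22163116293) (nat_lit 228)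 (nat_lit 766781065) (nat_lit 24) (nat_lit 5) (nat_lit 26) (nat_lit 5) (nat_lit 27) (nat_lit 4) (nat_lit 519) (nat_lit 364) (nat_lit 257)) (XT.lf (nat_lit 0) (nat_lit 2731119066) (nat_lit 228) (nat_lit 15531933463) (nat_lit 76) (nat_lit 6313662141) (nat_lit 23) (nat_lit 5) (nat_lit 26) (nat_lit 5) (nat_lit 24) (nat_lit 5) (nat_lit 520) (nat_lit 364) (nat_lit 256))))) (XT.nd (nat_lit 234) (nat_lit 152) (nat_lit 0) (XT.nd (nat_lit 78) (nat_lit 152) (nat_lit 0) (XT.lf (nat_lit 0) (nat_lit 6271673095) (nat_lit 228) (nat_lit 8020631480) (nat_lit 76) (nat_lit 10684466887) (nat_lit 23) (nat_lit 5) (nat_lit 26) (nat_lit 5) (nat_lit 24) (nat_lit 5) (nat_lit 521) (nat_lit 364) (nat_lit 255)) (XT.nd (nat_lit 78) (nat_lit 152) (nat_lit 0) (XT.lf (nat_lit 0) (nat_lit 9866325943) (nat_lit 228) (nat_lit 388067349) (nat_lit 76) (nat_lit 15130776412) (nat_lit 23) (nat_lit 5) (nat_lit 26) (nat_lit 5) (nat_lit 24) (nat_lit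 5) (nat_lit 522) (nat_lit 364) (nat_lit 254)) (XT.lf (nat_lit 0) (nat_lit 7466678928) (nat_lit 152) (nat_lit 6098286984) (nat_lit 228) (nat_lit 12236134068) (nat_lit 21) (nat_lit 5) (nat_lit 23) (nat_lit 5) (nat_lit 24) (nat_lit 5) (nat_lit 523) (nat_lit 364) (nat_lit 253)))) (XT.nd (nat_lit 156) (nat_lit 152) (nat_lit 0) (XT.nd (nat_lit 78) (nat_lit 0) (nat_lit 0) (XT.lf (nat_lit 0) (nat_lit 15455571330) (nat_lit 152) (nat_lit 1868365032) (nat_lit 228) (nat_lit 8901691181) (nat_lit 21) (nat_lit 5) (nat_lit 23) (nat_lit 5) (nat_lit 24) (nat_lit 5) (nat_lit 524) (nat_lit 364) (nat_lit 252)) (XT.lf (nat_lit 0) (nat_lit 21157964239) (nat_lit 228) (nat_lit 3098190307) (nat_lit 76) (nat_lit 2402499269) (nat_lit 21) (nat_lit 5) (nat_lit 24) (nat_lit 5) (nat_lit 22) (nat_lit 4) (nat_lit 525) (nat_lit 364) (nat_lit 251))) (XT.nd (nat_lit 78) (nat_lit 76) (nat_lit 0) (XT.lf (nat_lit 0) (nat_lit 4749675460) (nat_lit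 76) (nat_lit 20346518296) (nat_lit 152) (nat_lit 2003602043) (nat_lit 20) (nat_lit 5) (nat_lit 21) (nat_lit 5) (nat_lit 22) (nat_lit 4) (nat_lit 526) (nat_lit 364) (nat_lit 250)) (XT.lf (nat_lit 0) (nat_lit 1548183280) (nat_lit 152) (nat_lit 14790528625) (nat_lit 76) (nat_lit 11210745877) (nat_lit 19) (nat_lit 5) (nat_lit 21) (nat_lit 5) (nat_lit 20) (nat_lit 5) (nat_lit 527) (nat_lit 364) (nat_lit 249))))))))
noncomputable def xc66 : XT := (XT.nd (nat_lit 52182) (nat_lit 0) (nat_lit 7448) (XT.nd (nat_lit 51090) (nat_lit 0) (nat_lit 16112) (XT.nd (nat_lit 50544) (nat_lit 0) (nat_lit 23180) (XT.nd (nat_lit 50310) (nat_lit 0) (nat_lit 30628) (XT.nd (nat_lit 50154) (nat_lit 0) (nat_lit 32072) (XT.lf (nat_lit 0) (nat_lit 5128840858) (nat_lit 152) (nat_lit 7119867541) (nat_lit 76) (nat_lit 15759451718) (nat_lit 19) (nat_lit 5) (nat_lit 21) (nat_lit 5) (nat_lit 20) (nat_lit 5) (nat_lit 528) (nat_lit 364) (nat_lit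 248)) (XT.nd (nat_lit 78) (nat_lit 1292) (nat_lit 0) (XT.lf (nat_lit 0) (nat_lit 674107627) (nat_lit 1292) (nat_lit 2105598889) (nat_lit 0) (nat_lit 674107627) (nat_lit 458) (nat_lit 5) (nat_lit 475) (nat_lit 4) (nat_lit 458) (nat_lit 4) (nat_lit 410) (nat_lit 365) (nat_lit 365)) (XT.lf (nat_lit 0) (nat_lit 110113026) (nat_lit 1292) (nat_lit 4326211241) (nat_lit 1292) (nat_lit 2503749606) (nat_lit 441) (nat_lit 4) (nat_lit 458) (nat_lit 5) (nat_lit 458) (nat_lit 4) (nat_lit 411) (nat_lit 365) (nat_lit 364)))) (XT.nd (nat_lit 78) (nat_lit 1368) (nat_lit 0) (XT.lf (nat_lit 0) (nat_lit 568441650) (nat_lit 1368) (nat_lit 2460936594) (nat_lit 76) (nat_lit 3944534754) (nat_lit 440) (nat_lit 5) (nat_lit 458) (nat_lit 5) (nat_lit 441) (nat_lit 4) (nat_lit 412) (nat_lit 365) (nat_lit 363)) (XT.nd (nat_lit 78) (nat_lit 0) (nat_lit 0) (XT.lf (nat_lit 0) (nat_lit 1946474181) (nat_lit 1368) (nat_lit 1671028857) (nat_lit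 1444) (nat_lit 3391707332) (nat_lit 422) (nat_lit 5) (nat_lit 440) (nat_lit 5) (nat_lit 441) (nat_lit 4) (nat_lit 413) (nat_lit 365) (nat_lit 362)) (XT.lf (nat_lit 0) (nat_lit 6417831807) (nat_lit 1368) (nat_lit 263386047) (nat_lit 1444) (nat_lit 365012089) (nat_lit 422) (nat_lit 5) (nat_lit 440) (nat_lit 5) (nat_lit 441) (nat_lit 4) (nat_lit 414) (nat_lit 365) (nat_lit 361))))) (XT.nd (nat_lit 234) (nat_lit 4332) (nat_lit 0) (XT.nd (nat_lit 78) (nat_lit 1596) (nat_lit 0) (XT.lf (nat_lit 0) (nat_lit 2657465563) (nat_lit 1520) (nat_lit 3222018683) (nat_lit 76) (nat_lit 1204819369) (nat_lit 402) (nat_lit 5) (nat_lit 422) (nat_lit 5) (nat_lit 403) (nat_lit 4) (nat_lit 415) (nat_lit 365) (nat_lit 360)) (XT.nd (nat_lit 78) (nat_lit 76) (nat_lit 0) (XT.lf (nat_lit 0) (nat_lit 1282573831) (nat_lit 1520) (nat_lit 4406023560) (nat_lit 1596) (nat_lit 1435515797) (nat_lit 382) (nat_lit 5) (nat_lit 402) (nat_lit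 5) (nat_lit 403) (nat_lit 4) (nat_lit 416) (nat_lit 365) (nat_lit 359)) (XT.lf (nat_lit 0) (nat_lit 1555322078) (nat_lit 1596) (nat_lit 1312795970) (nat_lit 76) (nat_lit 4297254779) (nat_lit 381) (nat_lit 5) (nat_lit 402) (nat_lit 5) (nat_lit 382) (nat_lit 5) (nat_lit 417) (nat_lit 365) (nat_lit 358)))) (XT.nd (nat_lit 156) (nat_lit 988) (nat_lit 0) (XT.nd (nat_lit 78) (nat_lit 1748) (nat_lit 0) (XT.lf (nat_lit 0) (nat_lit 3282408060) (nat_lit 1596) (nat_lit 1265984341) (nat_lit 1672) (nat_lit 2659722388) (nat_lit 360) (nat_lit 5) (nat_lit 381) (nat_lit 5) (nat_lit 382) (nat_lit 5) (nat_lit 418) (nat_lit 365) (nat_lit 357)) (XT.lf (nat_lit 0) (nat_lit 301478808) (nat_lit 1748) (nat_lit 6570886110) (nat_lit 76) (nat_lit 380248800) (nat_lit 337) (nat_lit 5) (nat_lit 360) (nat_lit 5) (nat_lit 338) (nat_lit 5) (nat_lit 419) (nat_lit 365) (nat_lit 356))) (XT.nd (nat_lit 78) (nat_lit 988) (nat_lit 0) (XT.lf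 (nat_lit 0) (nat_lit 3262659019) (nat_lit 1748) (nat_lit 1948135868) (nat_lit 76) (nat_lit 2087403803) (nat_lit 337) (nat_lit 5) (nat_lit 360) (nat_lit 5) (nat_lit 338) (nat_lit 5) (nat_lit 420) (nat_lit 365) (nat_lit 355)) (XT.lf (nat_lit 0) (nat_lit 2745218293) (nat_lit 988) (nat_lit 3498250045) (nat_lit 1064) (nat_lit 1102092497) (nat_lit 324) (nat_lit 5) (nat_lit 337) (nat_lit 5) (nat_lit 338) (nat_lit 5) (nat_lit 421) (nat_lit 365) (nat_lit 354)))))) (XT.nd (nat_lit 546) (nat_lit 3648) (nat_lit 0) (XT.nd (nat_lit 234) (nat_lit 1596) (nat_lit 0) (XT.nd (nat_lit 78) (nat_lit 912) (nat_lit 0) (XT.lf (nat_lit 0) (nat_lit 95833069) (nat_lit 836) (nat_lit 1726072307) (nat_lit 912) (nat_lit 5572656752) (nat_lit 312) (nat_lit 5) (nat_lit 323) (nat_lit 5) (nat_lit 324) (nat_lit 5) (nat_lit 422) (nat_lit 365) (nat_lit 353)) (XT.nd (nat_lit 78) (nat_lit 912) (nat_lit 0) (XT.lf (nat_lit 0) (nat_lit 4764866270)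 (nat_lit 912) (nat_lit 2562774773) (nat_lit 76) (nat_lit 117321244) (nat_lit 312) (nat_lit 5) (nat_lit 324) (nat_lit 5) (nat_lit 313) (nat_lit 5) (nat_lit 423) (nat_lit 365) (nat_lit 352)) (XT.lf (nat_lit 0) (nat_lit 237131045) (nat_lit 912) (nat_lit 5270849524) (nat_lit 76) (nat_lit 1989014217) (nat_lit 300) (nat_lit 5) (nat_lit 312) (nat_lit 5) (nat_lit 301) (nat_lit 5) (nat_lit 424) (nat_lit 365) (nat_lit 351)))) (XT.nd (nat_lit 156) (nat_lit 836) (nat_lit 0) (XT.nd (nat_lit 78) (nat_lit 760) (nat_lit 0) (XT.lf (nat_lit 0) (nat_lit 3139171185) (nat_lit 912) (nat_lit 480367242) (nat_lit 76) (nat_lit 3930993440) (nat_lit 300) (nat_lit 5) (nat_lit 312) (nat_lit 5) (nat_lit 301) (nat_lit 5) (nat_lit 425) (nat_lit 365) (nat_lit 350)) (XT.lf (nat_lit 0) (nat_lit 4406497899) (nat_lit 760) (nat_lit 1667452386) (nat_lit 836) (nat_lit 1531759499) (nat_lit 290) (nat_lit 5) (nat_lit 300) (nat_lit 5) (nat_lit 301)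 (nat_lit 5) (nat_lit 426) (nat_lit 365) (nat_lit 349))) (XT.nd (nat_lit 78) (nat_lit 0) (nat_lit 0) (XT.lf (nat_lit 0) (nat_lit 1349817955) (nat_lit 836) (nat_lit 5973787874) (nat_lit 76) (nat_lit 339008166) (nat_lit 279) (nat_lit 5) (nat_lit 290) (nat_lit 5) (nat_lit 280) (nat_lit 5) (nat_lit 427) (nat_lit 365) (nat_lit 348)) (XT.lf (nat_lit 0) (nat_lit 4248203324) (nat_lit 836) (nat_lit 1081894315) (nat_lit 76) (nat_lit 2390822785) (nat_lit 279) (nat_lit 5) (nat_lit 290) (nat_lit 5) (nat_lit 280) (nat_lit 5) (nat_lit 428) (nat_lit 365) (nat_lit 347))))) (XT.nd (nat_lit 234) (nat_lit 2128) (nat_lit 0) (XT.nd (nat_lit 78) (nat_lit 836) (nat_lit 0) (XT.lf (nat_lit 0) (nat_lit 3901824526) (nat_lit 684) (nat_lit 3276118194) (nat_lit 760) (nat_lit 603041713) (nat_lit 270) (nat_lit 5) (nat_lit 279) (nat_lit 5) (nat_lit 280) (nat_lit 5) (nat_lit 429) (nat_lit 365) (nat_lit 346)) (XT.nd (nat_lit 78) (nat_lit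 0) (nat_lit 0) (XT.lf (nat_lit 0) (nat_lit 1099508260) (nat_lit 760) (nat_lit 1156791618) (nat_lit 836) (nat_lit 5586449891) (nat_lit 259) (nat_lit 5) (nat_lit 269) (nat_lit 5) (nat_lit 270) (nat_lit 5) (nat_lit 430) (nat_lit 365) (nat_lit 345)) (XT.lf (nat_lit 0) (nat_lit 5146397812) (nat_lit 836) (nat_lit 1743799398) (nat_lit 76) (nat_lit 1015896361) (nat_lit 259) (nat_lit 5) (nat_lit 270) (nat_lit 5) (nat_lit 260) (nat_lit 5) (nat_lit 431) (nat_lit 365) (nat_lit 344)))) (XT.nd (nat_lit 156) (nat_lit 684) (nat_lit 0) (XT.nd (nat_lit 78) (nat_lit 684) (nat_lit 0) (XT.lf (nat_lit 0) (nat_lit 101002745) (nat_lit 760) (nat_lit 4637204328) (nat_lit 76) (nat_lit 3232954123) (nat_lit 249) (nat_lit 5) (nat_lit 259) (nat_lit 5) (nat_lit 250) (nat_lit 5) (nat_lit 432) (nat_lit 365) (nat_lit 343)) (XT.lf (nat_lit 0) (nat_lit 429478831) (nat_lit 684) (nat_lit 2517230143) (nat_lit 760) (nat_lit 5091213997) (nat_lit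 240) (nat_lit 5) (nat_lit 249) (nat_lit 5) (nat_lit 250) (nat_lit 5) (nat_lit 433) (nat_lit 365) (nat_lit 342))) (XT.nd (nat_lit 78) (nat_lit 684) (nat_lit 0) (XT.lf (nat_lit 0) (nat_lit 5603321859) (nat_lit 684) (nat_lit 227876600) (nat_lit 760) (nat_lit 2275235658) (nat_lit 240) (nat_lit 5) (nat_lit 249) (nat_lit 5) (nat_lit 250) (nat_lit 5) (nat_lit 434) (nat_lit 365) (nat_lit 341)) (XT.lf (nat_lit 0) (nat_lit 571743416) (nat_lit 684) (nat_lit 5511708771) (nat_lit 76) (nat_lit 2093185053) (nat_lit 231) (nat_lit 5) (nat_lit 240) (nat_lit 5) (nat_lit 232) (nat_lit 5) (nat_lit 435) (nat_lit 365) (nat_lit 340))))))) (XT.nd (nat_lit 1014) (nat_lit 3800) (nat_lit 0) (XT.nd (nat_lit 468) (nat_lit 2280) (nat_lit 0) (XT.nd (nat_lit 234) (nat_lit 1216) (nat_lit 0) (XT.nd (nat_lit 78) (nat_lit 1368) (nat_lit 0) (XT.lf (nat_lit 0) (nat_lit 3415525592) (nat_lit 684) (nat_lit 351530720) (nat_lit 76) (nat_lit 4481529298)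 (nat_lit 231) (nat_lit 5) (nat_lit 240) (nat_lit 5) (nat_lit 232) (nat_lit 5) (nat_lit 436) (nat_lit 365) (nat_lit 339)) (XT.nd (nat_lit 78) (nat_lit 684) (nat_lit 0) (XT.lf (nat_lit 0) (nat_lit 4920308629) (nat_lit 684) (nat_lit 1380647051) (nat_lit 760) (nat_lit 2021369419) (nat_lit 222) (nat_lit 5) (nat_lit 231) (nat_lit 5) (nat_lit 232) (nat_lit 5) (nat_lit 437) (nat_lit 365) (nat_lit 338)) (XT.lf (nat_lit 0) (nat_lit 809897894) (nat_lit 684) (nat_lit 6537572023) (nat_lit 76) (nat_lit 1050516368) (nat_lit 213) (nat_lit 5) (nat_lit 222) (nat_lit 5) (nat_lit 214) (nat_lit 5) (nat_lit 438) (nat_lit 365) (nat_lit 337)))) (XT.nd (nat_lit 78) (nat_lit 1216) (nat_lit 0) (XT.lf (nat_lit 0) (nat_lit 3656403499) (nat_lit 684) (nat_lit 1280090174) (nat_lit 76) (nat_lit 3538731065) (nat_lit 213) (nat_lit 5) (nat_lit 222) (nat_lit 5) (nat_lit 214) (nat_lit 5) (nat_lit 439) (nat_lit 365) (nat_lit 336)) (XT.nd (nat_lit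 78) (nat_lit 608) (nat_lit 0) (XT.lf (nat_lit 0) (nat_lit 4080256760) (nat_lit 608) (nat_lit 2460515281) (nat_lit 684) (nat_lit 2013661236) (nat_lit 205) (nat_lit 5) (nat_lit 213) (nat_lit 5) (nat_lit 214) (nat_lit 5) (nat_lit 440) (nat_lit 365) (nat_lit 335)) (XT.lf (nat_lit 0) (nat_lit 805963825) (nat_lit 608) (nat_lit 7756248274) (nat_lit 76) (nat_lit 73556521) (nat_lit 197) (nat_lit 5) (nat_lit 205) (nat_lit 5) (nat_lit 198) (nat_lit 5) (nat_lit 441) (nat_lit 365) (nat_lit 334))))) (XT.nd (nat_lit 234) (nat_lit 1596) (nat_lit 0) (XT.nd (nat_lit 78) (nat_lit 684) (nat_lit 0) (XT.lf (nat_lit 0) (nat_lit 3656652450) (nat_lit 608) (nat_lit 2403594177) (nat_lit 76) (nat_lit 2658226592) (nat_lit 197) (nat_lit 5) (nat_lit 205) (nat_lit 5) (nat_lit 198) (nat_lit 5) (nat_lit 442) (nat_lit 365) (nat_lit 333)) (XT.nd (nat_lit 78) (nat_lit 76) (nat_lit 0) (XT.lf (nat_lit 0) (nat_lit 3040524702) (nat_lit 608)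 (nat_lit 3499542881) (nat_lit 684) (nat_lit 2263290695) (nat_lit 189) (nat_lit 5) (nat_lit 197) (nat_lit 5) (nat_lit 198) (nat_lit 5) (nat_lit 443) (nat_lit 365) (nat_lit 332)) (XT.lf (nat_lit 0) (nat_lit 555842004) (nat_lit 684) (nat_lit 323178702) (nat_lit 76) (nat_lit 8011434891) (nat_lit 188) (nat_lit 5) (nat_lit 197) (nat_lit 5) (nat_lit 189) (nat_lit 5) (nat_lit 444) (nat_lit 365) (nat_lit 331)))) (XT.nd (nat_lit 156) (nat_lit 532) (nat_lit 0) (XT.nd (nat_lit 78) (nat_lit 532) (nat_lit 0) (XT.lf (nat_lit 0) (nat_lit 3403904029) (nat_lit 608) (nat_lit 3766943541) (nat_lit 76) (nat_lit 1808129322) (nat_lit 181) (nat_lit 5) (nat_lit 189) (nat_lit 5) (nat_lit 182) (nat_lit 5) (nat_lit 445) (nat_lit 365) (nat_lit 330)) (XT.lf (nat_lit 0) (nat_lit 1755208030) (nat_lit 532) (nat_lit 4530543265) (nat_lit 608) (nat_lit 2784018369) (nat_lit 174) (nat_lit 5) (nat_lit 181) (nat_lit 5) (nat_lit 182) (nat_lit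 5) (nat_lit 446) (nat_lit 365) (nat_lit 329))) (XT.nd (nat_lit 78) (nat_lit 456) (nat_lit 0) (XT.lf (nat_lit 0) (nat_lit 45066505) (nat_lit 608) (nat_lit 1778902353) (nat_lit 76) (nat_lit 7338776669) (nat_lit 173) (nat_lit 5) (nat_lit 181) (nat_lit 5) (nat_lit 174) (nat_lit 5) (nat_lit 447) (nat_lit 365) (nat_lit 328)) (XT.lf (nat_lit 0) (nat_lit 2883162602) (nat_lit 532) (nat_lit 5418637205) (nat_lit 76) (nat_lit 955654267) (nat_lit 167) (nat_lit 5) (nat_lit 174) (nat_lit 5) (nat_lit 168) (nat_lit 5) (nat_lit 448) (nat_lit 365) (nat_lit 327)))))) (XT.nd (nat_lit 546) (nat_lit 1748) (nat_lit 0) (XT.nd (nat_lit 234) (nat_lit 988) (nat_lit 0) (XT.nd (nat_lit 78) (nat_lit 532) (nat_lit 0) (XT.lf (nat_lit 0) (nat_lit 174667114) (nat_lit 532) (nat_lit 5587385584) (nat_lit 608) (nat_lit 3592358123) (nat_lit 160) (nat_lit 5) (nat_lit 167) (nat_lit 5) (nat_lit 168) (nat_lit 5) (nat_lit 449) (nat_lit 365) (nat_lit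 326)) (XT.nd (nat_lit 78) (nat_lit 532) (nat_lit 0) (XT.lf (nat_lit 0) (nat_lit 5898996844) (nat_lit 532) (nat_lit 2795143293) (nat_lit 608) (nat_lit 759288167) (nat_lit 160) (nat_lit 5) (nat_lit 167) (nat_lit 5) (nat_lit 168) (nat_lit 5) (nat_lit 450) (nat_lit 365) (nat_lit 325)) (XT.lf (nat_lit 0) (nat_lit 2076620138) (nat_lit 532) (nat_lit 7411270646) (nat_lit 76) (nat_lit 66809018) (nat_lit 153) (nat_lit 5) (nat_lit 160) (nat_lit 5) (nat_lit 154) (nat_lit 5) (nat_lit 451) (nat_lit 365) (nat_lit 324)))) (XT.nd (nat_lit 156) (nat_lit 532) (nat_lit 0) (XT.nd (nat_lit 78) (nat_lit 456) (nat_lit 0) (XT.lf (nat_lit 0) (nat_lit 4961722776) (nat_lit 532) (nat_lit 1731968851) (nat_lit 76) (nat_lit 2964183895) (nat_lit 153) (nat_lit 5) (nat_lit 160) (nat_lit 5) (nat_lit 154) (nat_lit 5) (nat_lit 452) (nat_lit 365) (nat_lit 323)) (XT.lf (nat_lit 0) (nat_lit 4061062742) (nat_lit 456) (nat_lit 3830726524) (nat_lit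 532) (nat_lit 1871611656) (nat_lit 147) (nat_lit 5) (nat_lit 153) (nat_lit 5) (nat_lit 154) (nat_lit 5) (nat_lit 453) (nat_lit 365) (nat_lit 322))) (XT.nd (nat_lit 78) (nat_lit 0) (nat_lit 0) (XT.lf (nat_lit 0) (nat_lit 63513683) (nat_lit 456) (nat_lit 905811908) (nat_lit 532) (nat_lit 8902147466) (nat_lit 140) (nat_lit 5) (nat_lit 146) (nat_lit 5) (nat_lit 147) (nat_lit 5) (nat_lit 454) (nat_lit 365) (nat_lit 321)) (XT.lf (nat_lit 0) (nat_lit 3855411276) (nat_lit 532) (nat_lit 4038771953) (nat_lit 76) (nat_lit 2087037759) (nat_lit 140) (nat_lit 5) (nat_lit 147) (nat_lit 5) (nat_lit 141) (nat_lit 5) (nat_lit 455) (nat_lit 365) (nat_lit 320))))) (XT.nd (nat_lit 234) (nat_lit 836) (nat_lit 0) (XT.nd (nat_lit 78) (nat_lit 456) (nat_lit 0) (XT.lf (nat_lit 0) (nat_lit 1810930996) (nat_lit 456) (nat_lit 4968160740) (nat_lit 532) (nat_lit 3314503692) (nat_lit 134) (nat_lit 5) (nat_lit 140) (nat_lit 5) (nat_lit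 141) (nat_lit 5) (nat_lit 456) (nat_lit 365) (nat_lit 319)) (XT.nd (nat_lit 78) (nat_lit 456) (nat_lit 0) (XT.lf (nat_lit 0) (nat_lit 7780100655) (nat_lit 456) (nat_lit 1970767394) (nat_lit 532) (nat_lit 457585305) (nat_lit 134) (nat_lit 5) (nat_lit 140) (nat_lit 5) (nat_lit 141) (nat_lit 5) (nat_lit 457) (nat_lit 365) (nat_lit 318)) (XT.lf (nat_lit 0) (nat_lit 2417318398) (nat_lit 456) (nat_lit 6811302596) (nat_lit 76) (nat_lit 1096834522) (nat_lit 128) (nat_lit 5) (nat_lit 134) (nat_lit 5) (nat_lit 129) (nat_lit 5) (nat_lit 458) (nat_lit 365) (nat_lit 317)))) (XT.nd (nat_lit 156) (nat_lit 456) (nat_lit 0) (XT.nd (nat_lit 78) (nat_lit 380) (nat_lit 0) (XT.lf (nat_lit 0) (nat_lit 5336333501) (nat_lit 456) (nat_lit 904326757) (nat_lit 76) (nat_lit 4204248964) (nat_lit 128) (nat_lit 5) (nat_lit 134) (nat_lit 5) (nat_lit 129) (nat_lit 5) (nat_lit 459) (nat_lit 365) (nat_lit 316)) (XT.lf (nat_lit 0) (nat_lit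 5137093049) (nat_lit 380) (nat_lit 3173989061) (nat_lit 456) (nat_lit 2255749105) (nat_lit 123) (nat_lit 5) (nat_lit 128) (nat_lit 5) (nat_lit 129) (nat_lit 5) (nat_lit 460) (nat_lit 365) (nat_lit 315))) (XT.nd (nat_lit 78) (nat_lit 0) (nat_lit 0) (XT.lf (nat_lit 0) (nat_lit 572515124) (nat_lit 380) (nat_lit 46980614) (nat_lit 456) (nat_lit 10072157408) (nat_lit 117) (nat_lit 5) (nat_lit 122) (nat_lit 5) (nat_lit 123) (nat_lit 5) (nat_lit 461) (nat_lit 365) (nat_lit 314)) (XT.lf (nat_lit 0) (nat_lit 3543538770) (nat_lit 456) (nat_lit 4136945088) (nat_lit 76) (nat_lit 3137784254) (nat_lit 117) (nat_lit 5) (nat_lit 123) (nat_lit 5) (nat_lit 118) (nat_lit 5) (nat_lit 462) (nat_lit 365) (nat_lit 313))))))))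
noncomputable def xc67 : XT := (XT.nd (nat_lit 2106) (nat_lit 2432) (nat_lit 0) (XT.nd (nat_lit 1014) (nat_lit 1976) (nat_lit 0) (XT.nd (nat_lit 468) (nat_lit 1368) (nat_lit 0) (XT.nd (nat_lit 234) (nat_lit 380) (nat_lit 0) (XT.nd (nat_lit 78) (nat_lit 380) (nat_lit 0) (XT.lf (nat_lit 0) (nat_lit 1939494217) (nat_lit 380) (nat_lit 4564558526) (nat_lit 456) (nat_lit 4443827108) (nat_lit 112) (nat_lit 5) (nat_lit 117) (nat_lit 5) (nat_lit 118) (nat_lit 5) (nat_lit 463) (nat_lit 365) (nat_lit 312)) (XT.nd (nat_lit 78) (nat_lit 380) (nat_lit 0) (XT.lf (nat_lit 0) (nat_lit 8143348905) (nat_lit 380) (nat_lit 1373634347) (nat_lit 456) (nat_lit 1563260248) (nat_lit 112) (nat_lit 5) (nat_lit 117) (nat_lit 5) (nat_lit 118) (nat_lit 5) (nat_lit 464) (nat_lit 365) (nat_lit 311)) (XT.lf (nat_lit 0) (nat_lit 1356107444) (nat_lit 380) (nat_lit 7987763015) (nat_lit 76) (nat_lit 1871243865) (nat_lit 107) (nat_lit 5) (nat_lit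 112) (nat_lit 5) (nat_lit 108) (nat_lit 5) (nat_lit 465) (nat_lit 365) (nat_lit 310)))) (XT.nd (nat_lit 78) (nat_lit 380) (nat_lit 0) (XT.lf (nat_lit 0) (nat_lit 4308008387) (nat_lit 380) (nat_lit 1867128993) (nat_lit 76) (nat_lit 5177459387) (nat_lit 107) (nat_lit 5) (nat_lit 112) (nat_lit 5) (nat_lit 108) (nat_lit 5) (nat_lit 466) (nat_lit 365) (nat_lit 309)) (XT.nd (nat_lit 78) (nat_lit 0) (nat_lit 0) (XT.lf (nat_lit 0) (nat_lit 4384447036) (nat_lit 380) (nat_lit 2929754153) (nat_lit 456) (nat_lit 4178744582) (nat_lit 102) (nat_lit 5) (nat_lit 107) (nat_lit 5) (nat_lit 108) (nat_lit 5) (nat_lit 467) (nat_lit 365) (nat_lit 308)) (XT.lf (nat_lit 0) (nat_lit 10362620984) (nat_lit 456) (nat_lit 901268811) (nat_lit 76) (nat_lit 372591454) (nat_lit 102) (nat_lit 5) (nat_lit 108) (nat_lit 5) (nat_lit 103) (nat_lit 5) (nat_lit 468) (nat_lit 365) (nat_lit 307))))) (XT.nd (nat_lit 234) (nat_lit 684) (nat_lit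 0) (XT.nd (nat_lit 78) (nat_lit 304) (nat_lit 0) (XT.lf (nat_lit 0) (nat_lit 1689444019) (nat_lit 380) (nat_lit 6359871714) (nat_lit 76) (nat_lit 3732923574) (nat_lit 97) (nat_lit 5) (nat_lit 102) (nat_lit 5) (nat_lit 98) (nat_lit 5) (nat_lit 469) (nat_lit 365) (nat_lit 306)) (XT.nd (nat_lit 78) (nat_lit 304) (nat_lit 0) (XT.lf (nat_lit 0) (nat_lit 4668818352) (nat_lit 380) (nat_lit 102968134) (nat_lit 76) (nat_lit 7159500730) (nat_lit 97) (nat_lit 5) (nat_lit 102) (nat_lit 5) (nat_lit 98) (nat_lit 5) (nat_lit 470) (nat_lit 365) (nat_lit 305)) (XT.lf (nat_lit 0) (nat_lit 6314443464) (nat_lit 304) (nat_lit 1402723445) (nat_lit 380) (nat_lit 4365981353) (nat_lit 93) (nat_lit 5) (nat_lit 97) (nat_lit 5) (nat_lit 98) (nat_lit 5) (nat_lit 471) (nat_lit 365) (nat_lit 304)))) (XT.nd (nat_lit 156) (nat_lit 304) (nat_lit 0) (XT.nd (nat_lit 78) (nat_lit 76) (nat_lit 0) (XT.lf (nat_lit 0) (nat_lit 570159627) (nat_lit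 304) (nat_lit 10242524644) (nat_lit 380) (nat_lit 1425657747) (nat_lit 89) (nat_lit 5) (nat_lit 93) (nat_lit 5) (nat_lit 94) (nat_lit 5) (nat_lit 472) (nat_lit 365) (nat_lit 303)) (XT.lf (nat_lit 0) (nat_lit 1569776476) (nat_lit 380) (nat_lit 5349426634) (nat_lit 76) (nat_lit 5476912174) (nat_lit 88) (nat_lit 5) (nat_lit 93) (nat_lit 5) (nat_lit 89) (nat_lit 5) (nat_lit 473) (nat_lit 365) (nat_lit 302))) (XT.nd (nat_lit 78) (nat_lit 0) (nat_lit 0) (XT.lf (nat_lit 0) (nat_lit 1053216200) (nat_lit 304) (nat_lit 3528967247) (nat_lit 380) (nat_lit 7975167420) (nat_lit 84) (nat_lit 5) (nat_lit 88) (nat_lit 5) (nat_lit 89) (nat_lit 5) (nat_lit 474) (nat_lit 365) (nat_lit 301)) (XT.lf (nat_lit 0) (nat_lit 7609873348) (nat_lit 304) (nat_lit 50460041) (nat_lit 380) (nat_lit 5061385914) (nat_lit 84) (nat_lit 5) (nat_lit 88) (nat_lit 5) (nat_lit 89) (nat_lit 5) (nat_lit 475) (nat_lit 365) (nat_lit 300)))))) (XT.nd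 (nat_lit 546) (nat_lit 760) (nat_lit 0) (XT.nd (nat_lit 234) (nat_lit 608) (nat_lit 0) (XT.nd (nat_lit 78) (nat_lit 380) (nat_lit 0) (XT.lf (nat_lit 0) (nat_lit 1357230322) (nat_lit 228) (nat_lit 9444427598) (nat_lit 304) (nat_lit 2087702639) (nat_lit 81) (nat_lit 5) (nat_lit 84) (nat_lit 5) (nat_lit 85) (nat_lit 5) (nat_lit 476) (nat_lit 365) (nat_lit 299)) (XT.nd (nat_lit 78) (nat_lit 304) (nat_lit 0) (XT.lf (nat_lit 0) (nat_lit 938085243) (nat_lit 304) (nat_lit 5087647428) (nat_lit 76) (nat_lit 7034415582) (nat_lit 80) (nat_lit 5) (nat_lit 84) (nat_lit 5) (nat_lit 81) (nat_lit 5) (nat_lit 477) (nat_lit 365) (nat_lit 298)) (XT.lf (nat_lit 0) (nat_lit 1445504764) (nat_lit 304) (nat_lit 2531092284) (nat_lit 380) (nat_lit 9257892069) (nat_lit 76) (nat_lit 5) (nat_lit 80) (nat_lit 5) (nat_lit 81) (nat_lit 5) (nat_lit 478) (nat_lit 365) (nat_lit 297)))) (XT.nd (nat_lit 156) (nat_lit 380) (nat_lit 0) (XT.nd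 (nat_lit 78) (nat_lit 228) (nat_lit 0) (XT.lf (nat_lit 0) (nat_lit 7087883506) (nat_lit 380) (nat_lit 5285830827) (nat_lit 76) (nat_lit 1038378717) (nat_lit 76) (nat_lit 5) (nat_lit 81) (nat_lit 5) (nat_lit 77) (nat_lit 5) (nat_lit 479) (nat_lit 365) (nat_lit 296)) (XT.lf (nat_lit 0) (nat_lit 1303061136) (nat_lit 228) (nat_lit 8955054878) (nat_lit 304) (nat_lit 3335214656) (nat_lit 73) (nat_lit 5) (nat_lit 76) (nat_lit 5) (nat_lit 77) (nat_lit 5) (nat_lit 480) (nat_lit 365) (nat_lit 295))) (XT.nd (nat_lit 78) (nat_lit 380) (nat_lit 0) (XT.lf (nat_lit 0) (nat_lit 8051023218) (nat_lit 228) (nat_lit 5447969307) (nat_lit 304) (nat_lit 279071432) (nat_lit 73) (nat_lit 5) (nat_lit 76) (nat_lit 5) (nat_lit 77) (nat_lit 5) (nat_lit 481) (nat_lit 365) (nat_lit 294)) (XT.lf (nat_lit 0) (nat_lit 917179838) (nat_lit 304) (nat_lit 1861870036) (nat_lit 380) (nat_lit 11187527007) (nat_lit 68) (nat_lit 5) (nat_lit 72)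 (nat_lit 5) (nat_lit 73) (nat_lit 5) (nat_lit 482) (nat_lit 365) (nat_lit 293))))) (XT.nd (nat_lit 234) (nat_lit 532) (nat_lit 0) (XT.nd (nat_lit 78) (nat_lit 228) (nat_lit 0) (XT.lf (nat_lit 0) (nat_lit 5917230425) (nat_lit 380) (nat_lit 6443987260) (nat_lit 76) (nat_lit 1797167611) (nat_lit 68) (nat_lit 5) (nat_lit 73) (nat_lit 5) (nat_lit 69) (nat_lit 5) (nat_lit 483) (nat_lit 365) (nat_lit 292)) (XT.nd (nat_lit 78) (nat_lit 0) (nat_lit 0) (XT.lf (nat_lit 0) (nat_lit 241178231) (nat_lit 228) (nat_lit 8863719579) (nat_lit 304) (nat_lit 5249412110) (nat_lit 65) (nat_lit 5) (nat_lit 68) (nat_lit 5) (nat_lit 69) (nat_lit 5) (nat_lit 484) (nat_lit 365) (nat_lit 291)) (XT.lf (nat_lit 0) (nat_lit 7104495774) (nat_lit 228) (nat_lit 5268146647) (nat_lit 304) (nat_lit 2181198361) (nat_lit 65) (nat_lit 5) (nat_lit 68) (nat_lit 5) (nat_lit 69) (nat_lit 5) (nat_lit 485) (nat_lit 365) (nat_lit 290)))) (XT.nd (nat_lit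 156) (nat_lit 228) (nat_lit 0) (XT.nd (nat_lit 78) (nat_lit 228) (nat_lit 0) (XT.lf (nat_lit 0) (nat_lit 909362105) (nat_lit 304) (nat_lit 700867004) (nat_lit 76) (nat_lit 13147555260) (nat_lit 64) (nat_lit 5) (nat_lit 68) (nat_lit 5) (nat_lit 65) (nat_lit 5) (nat_lit 486) (nat_lit 365) (nat_lit 289)) (XT.lf (nat_lit 0) (nat_lit 4060834462) (nat_lit 304) (nat_lit 8771318990) (nat_lit 76) (nat_lit 2132812283) (nat_lit 61) (nat_lit 5) (nat_lit 65) (nat_lit 5) (nat_lit 62) (nat_lit 5) (nat_lit 487) (nat_lit 365) (nat_lit 288))) (XT.nd (nat_lit 78) (nat_lit 228) (nat_lit 0) (XT.lf (nat_lit 0) (nat_lit 7264818133) (nat_lit 304) (nat_lit 1993090498) (nat_lit 76) (nat_lit 5918605600) (nat_lit 61) (nat_lit 5) (nat_lit 65) (nat_lit 5) (nat_lit 62) (nat_lit 5) (nat_lit 488) (nat_lit 365) (nat_lit 287)) (XT.lf (nat_lit 0) (nat_lit 4944620657) (nat_lit 228) (nat_lit 5594956501) (nat_lit 304) (nat_lit 4852595506)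 (nat_lit 58) (nat_lit 5) (nat_lit 61) (nat_lit 5) (nat_lit 62) (nat_lit 5) (nat_lit 489) (nat_lit 365) (nat_lit 286))))))) (XT.nd (nat_lit 1092) (nat_lit 988) (nat_lit 0) (XT.nd (nat_lit 546) (nat_lit 608) (nat_lit 0) (XT.nd (nat_lit 234) (nat_lit 532) (nat_lit 0) (XT.nd (nat_lit 78) (nat_lit 304) (nat_lit 0) (XT.lf (nat_lit 0) (nat_lit 12007440695) (nat_lit 228) (nat_lit 1860591473) (nat_lit 304) (nat_lit 1744360711) (nat_lit 58) (nat_lit 5) (nat_lit 61) (nat_lit 5) (nat_lit 62) (nat_lit 5) (nat_lit 490) (nat_lit 365) (nat_lit 285)) (XT.nd (nat_lit 78) (nat_lit 0) (nat_lit 0) (XT.lf (nat_lit 0) (nat_lit 1417112516) (nat_lit 304) (nat_lit 12480439872) (nat_lit 76) (nat_lit 1939096543) (nat_lit 54) (nat_lit 5) (nat_lit 58) (nat_lit 5) (nat_lit 55) (nat_lit 5) (nat_lit 491) (nat_lit 365) (nat_lit 284)) (XT.lf (nat_lit 0) (nat_lit 4630425843) (nat_lit 304) (nat_lit 5623828611) (nat_lit 76) (nat_lit 5810677595)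 (nat_lit 54) (nat_lit 5) (nat_lit 58) (nat_lit 5) (nat_lit 55) (nat_lit 5) (nat_lit 492) (nat_lit 365) (nat_lit 283)))) (XT.nd (nat_lit 156) (nat_lit 304) (nat_lit 0) (XT.nd (nat_lit 78) (nat_lit 0) (nat_lit 0) (XT.lf (nat_lit 0) (nat_lit 1348037897) (nat_lit 228) (nat_lit 6544477403) (nat_lit 304) (nat_lit 8405586996) (nat_lit 51) (nat_lit 5) (nat_lit 54) (nat_lit 5) (nat_lit 55) (nat_lit 5) (nat_lit 493) (nat_lit 365) (nat_lit 282)) (XT.lf (nat_lit 0) (nat_lit 8496277717) (nat_lit 228) (nat_lit 2737285393) (nat_lit 304) (nat_lit 5302109947) (nat_lit 51) (nat_lit 5) (nat_lit 54) (nat_lit 5) (nat_lit 55) (nat_lit 5) (nat_lit 494) (nat_lit 365) (nat_lit 281))) (XT.nd (nat_lit 78) (nat_lit 304) (nat_lit 0) (XT.lf (nat_lit 0) (nat_lit 14625224309) (nat_lit 304) (nat_lit 1036864809) (nat_lit 76) (nat_lit 1116241479) (nat_lit 51) (nat_lit 5) (nat_lit 55) (nat_lit 5) (nat_lit 52) (nat_lit 5) (nat_lit 495) (nat_lit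 365) (nat_lit 280)) (XT.lf (nat_lit 0) (nat_lit 1079951179) (nat_lit 304) (nat_lit 10902427923) (nat_lit 76) (nat_lit 5042636246) (nat_lit 47) (nat_lit 5) (nat_lit 51) (nat_lit 5) (nat_lit 48) (nat_lit 5) (nat_lit 496) (nat_lit 365) (nat_lit 279))))) (XT.nd (nat_lit 234) (nat_lit 456) (nat_lit 0) (XT.nd (nat_lit 78) (nat_lit 152) (nat_lit 0) (XT.lf (nat_lit 0) (nat_lit 4332731602) (nat_lit 304) (nat_lit 3889731143) (nat_lit 76) (nat_lit 9054219135) (nat_lit 47) (nat_lit 5) (nat_lit 51) (nat_lit 5) (nat_lit 48) (nat_lit 5) (nat_lit 497) (nat_lit 365) (nat_lit 278)) (XT.nd (nat_lit 78) (nat_lit 0) (nat_lit 0) (XT.lf (nat_lit 0) (nat_lit 3268622329) (nat_lit 152) (nat_lit 4380482037) (nat_lit 228) (nat_lit 9884317004) (nat_lit 45) (nat_lit 5) (nat_lit 47) (nat_lit 5) (nat_lit 48) (nat_lit 5) (nat_lit 498) (nat_lit 365) (nat_lit 277)) (XT.lf (nat_lit 0) (nat_lit 10585649874) (nat_lit 152) (nat_lit 449774681)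 (nat_lit 228) (nat_lit 6759808851) (nat_lit 45) (nat_lit 5) (nat_lit 47) (nat_lit 5) (nat_lit 48) (nat_lit 5) (nat_lit 499) (nat_lit 365) (nat_lit 276)))) (XT.nd (nat_lit 156) (nat_lit 228) (nat_lit 0) (XT.nd (nat_lit 78) (nat_lit 228) (nat_lit 0) (XT.lf (nat_lit 0) (nat_lit 14490446934) (nat_lit 228) (nat_lit 73221165) (nat_lit 76) (nat_lit 3498604027) (nat_lit 45) (nat_lit 5) (nat_lit 48) (nat_lit 5) (nat_lit 46) (nat_lit 5) (nat_lit 500) (nat_lit 365) (nat_lit 275)) (XT.lf (nat_lit 0) (nat_lit 7262008321) (nat_lit 228) (nat_lit 10780988721) (nat_lit 304) (nat_lit 291095794) (nat_lit 42) (nat_lit 5) (nat_lit 45) (nat_lit 5) (nat_lit 46) (nat_lit 5) (nat_lit 501) (nat_lit 365) (nat_lit 274))) (XT.nd (nat_lit 78) (nat_lit 152) (nat_lit 0) (XT.lf (nat_lit 0) (nat_lit 2994012165) (nat_lit 304) (nat_lit 3922428771) (nat_lit 76) (nat_lit 11694944993) (nat_lit 41) (nat_lit 5) (nat_lit 45) (nat_lit 5) (nat_lit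 42) (nat_lit 5) (nat_lit 502) (nat_lit 365) (nat_lit 273)) (XT.lf (nat_lit 0) (nat_lit 3377109569) (nat_lit 152) (nat_lit 2964509231) (nat_lit 228) (nat_lit 12552562912) (nat_lit 39) (nat_lit 5) (nat_lit 41) (nat_lit 5) (nat_lit 42) (nat_lit 5) (nat_lit 503) (nat_lit 365) (nat_lit 272)))))) (XT.nd (nat_lit 546) (nat_lit 532) (nat_lit 0) (XT.nd (nat_lit 234) (nat_lit 228) (nat_lit 0) (XT.nd (nat_lit 78) (nat_lit 228) (nat_lit 0) (XT.lf (nat_lit 0) (nat_lit 9768457266) (nat_lit 228) (nat_lit 8348975824) (nat_lit 76) (nat_lit 1064963748) (nat_lit 39) (nat_lit 5) (nat_lit 42) (nat_lit 5) (nat_lit 40) (nat_lit 5) (nat_lit 504) (nat_lit 365) (nat_lit 271)) (XT.nd (nat_lit 78) (nat_lit 228) (nat_lit 0) (XT.lf (nat_lit 0) (nat_lit 13262739174) (nat_lit 228) (nat_lit 1092031054) (nat_lit 76) (nat_lit 5121636746) (nat_lit 39) (nat_lit 5) (nat_lit 42) (nat_lit 5) (nat_lit 40) (nat_lit 5) (nat_lit 505) (nat_lit 365)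 (nat_lit 270)) (XT.lf (nat_lit 0) (nat_lit 6359258402) (nat_lit 228) (nat_lit 10488617394) (nat_lit 304) (nat_lit 2928010805) (nat_lit 36) (nat_lit 5) (nat_lit 39) (nat_lit 5) (nat_lit 40) (nat_lit 5) (nat_lit 506) (nat_lit 365) (nat_lit 269)))) (XT.nd (nat_lit 156) (nat_lit 0) (nat_lit 0) (XT.nd (nat_lit 78) (nat_lit 152) (nat_lit 0) (XT.lf (nat_lit 0) (nat_lit 404900157) (nat_lit 304) (nat_lit 6143880034) (nat_lit 76) (nat_lit 13532787122) (nat_lit 35) (nat_lit 5) (nat_lit 39) (nat_lit 5) (nat_lit 36) (nat_lit 5) (nat_lit 507) (nat_lit 365) (nat_lit 268)) (XT.lf (nat_lit 0) (nat_lit 1237585079) (nat_lit 152) (nat_lit 2515864408) (nat_lit 228) (nat_lit 16639769513) (nat_lit 33) (nat_lit 5) (nat_lit 35) (nat_lit 5) (nat_lit 36) (nat_lit 5) (nat_lit 508) (nat_lit 365) (nat_lit 267))) (XT.nd (nat_lit 78) (nat_lit 0) (nat_lit 0) (XT.lf (nat_lit 0) (nat_lit 7201043985) (nat_lit 228) (nat_lit 11904635286)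 (nat_lit 76) (nat_lit 1604790974) (nat_lit 33) (nat_lit 5) (nat_lit 36) (nat_lit 5) (nat_lit 34) (nat_lit 5) (nat_lit 509) (nat_lit 365) (nat_lit 266)) (XT.lf (nat_lit 0) (nat_lit 10714839065) (nat_lit 228) (nat_lit 4558288931) (nat_lit 76) (nat_lit 5761001398) (nat_lit 33) (nat_lit 5) (nat_lit 36) (nat_lit 5) (nat_lit 34) (nat_lit 5) (nat_lit 510) (nat_lit 365) (nat_lit 265))))) (XT.nd (nat_lit 234) (nat_lit 380) (nat_lit 0) (XT.nd (nat_lit 78) (nat_lit 0) (nat_lit 0) (XT.lf (nat_lit 0) (nat_lit 2941195026) (nat_lit 152) (nat_lit 11357779186) (nat_lit 228) (nat_lit 7065293929) (nat_lit 31) (nat_lit 5) (nat_lit 33) (nat_lit 5) (nat_lit 34) (nat_lit 5) (nat_lit 511) (nat_lit 365) (nat_lit 264)) (XT.nd (nat_lit 78) (nat_lit 0) (nat_lit 0) (XT.lf (nat_lit 0) (nat_lit 10620306761) (nat_lit 152) (nat_lit 7346206229) (nat_lit 228) (nat_lit 3734269799) (nat_lit 31) (nat_lit 5) (nat_lit 33) (nat_lit 5) (nat_lit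 34) (nat_lit 5) (nat_lit 512) (nat_lit 365) (nat_lit 263)) (XT.lf (nat_lit 0) (nat_lit 18421480430) (nat_lit 152) (nat_lit 3267424479) (nat_lit 228) (nat_lit 355500174) (nat_lit 31) (nat_lit 5) (nat_lit 33) (nat_lit 5) (nat_lit 34) (nat_lit 5) (nat_lit 513) (nat_lit 365) (nat_lit 262)))) (XT.nd (nat_lit 156) (nat_lit 152) (nat_lit 0) (XT.nd (nat_lit 78) (nat_lit 0) (nat_lit 0) (XT.lf (nat_lit 0) (nat_lit 3063935813) (nat_lit 228) (nat_lit 18415551945) (nat_lit 76) (nat_lit 914745260) (nat_lit 28) (nat_lit 5) (nat_lit 31) (nat_lit 5) (nat_lit 29) (nat_lit 5) (nat_lit 514) (nat_lit 365) (nat_lit 261)) (XT.lf (nat_lit 0) (nat_lit 6574927711) (nat_lit 228) (nat_lit 11024529357) (nat_lit 76) (nat_lit 5151001872) (nat_lit 28) (nat_lit 5) (nat_lit 31) (nat_lit 5) (nat_lit 29) (nat_lit 5) (nat_lit 515) (nat_lit 365) (nat_lit 260))) (XT.nd (nat_lit 78) (nat_lit 152) (nat_lit 0) (XT.lf (nat_lit 0) (nat_lit 10138307662)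 (nat_lit 228) (nat_lit 3516306717) (nat_lit 76) (nat_lit 9459558473) (nat_lit 28) (nat_lit 5) (nat_lit 31) (nat_lit 5) (nat_lit 29) (nat_lit 5) (nat_lit 516) (nat_lit 365) (nat_lit 259)) (XT.lf (nat_lit 0) (nat_lit 4166707492) (nat_lit 152) (nat_lit 9615818605) (nat_lit 228) (nat_lit 9702450228) (nat_lit 26) (nat_lit 5) (nat_lit 28) (nat_lit 5) (nat_lit 29) (nat_lit 5) (nat_lit 517) (nat_lit 365) (nat_lit 258))))))))
noncomputable def xc68 : XT := (XT.nd (nat_lit 52026) (nat_lit 0) (nat_lit 10716) (XT.nd (nat_lit 50934) (nat_lit 0) (nat_lit 22268) (XT.nd (nat_lit 468) (nat_lit 152) (nat_lit 0) (XT.nd (nat_lit 234) (nat_lit 152) (nat_lit 0) (XT.nd (nat_lit 78) (nat_lit 228) (nat_lit 0) (XT.lf (nat_lit 0) (nat_lit 12021223948) (nat_lit 152) (nat_lit 5484668238) (nat_lit 228) (nat_lit 6357184986) (nat_lit 26) (nat_lit 5) (nat_lit 28) (nat_lit 5) (nat_lit 29) (nat_lit 5) (nat_lit 518) (nat_lit 365) (nat_lit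 257)) (XT.nd (nat_lit 78) (nat_lit 228) (nat_lit 0) (XT.lf (nat_lit 0) (nat_lit 20003592988) (nat_lit 152) (nat_lit 1283139489) (nat_lit 228) (nat_lit 2962353862) (nat_lit 26) (nat_lit 5) (nat_lit 28) (nat_lit 5) (nat_lit 29) (nat_lit 5) (nat_lit 519) (nat_lit 365) (nat_lit 256)) (XT.lf (nat_lit 0) (nat_lit 519455894) (nat_lit 228) (nat_lit 21145449037) (nat_lit 76) (nat_lit 2977339084) (nat_lit 23) (nat_lit 5) (nat_lit 26) (nat_lit 5) (nat_lit 24) (nat_lit 5) (nat_lit 520) (nat_lit 365) (nat_lit 255)))) (XT.nd (nat_lit 78) (nat_lit 152) (nat_lit 0) (XT.lf (nat_lit 0) (nat_lit 4051736527) (nat_lit 228) (nat_lit 13648485615) (nat_lit 76) (nat_lit 7342247139) (nat_lit 23) (nat_lit 5) (nat_lit 26) (nat_lit 5) (nat_lit 24) (nat_lit 5) (nat_lit 521) (nat_lit 365) (nat_lit 254)) (XT.nd (nat_lit 78) (nat_lit 152) (nat_lit 0) (XT.lf (nat_lit 0) (nat_lit 7638278203) (nat_lit 228) (nat_lit 6029978896) (nat_lit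 76) (nat_lit 11782775593) (nat_lit 23) (nat_lit 5) (nat_lit 26) (nat_lit 5) (nat_lit 24) (nat_lit 5) (nat_lit 522) (nat_lit 365) (nat_lit 253)) (XT.lf (nat_lit 0) (nat_lit 1735824417) (nat_lit 152) (nat_lit 9555933116) (nat_lit 228) (nat_lit 14576111536) (nat_lit 21) (nat_lit 5) (nat_lit 23) (nat_lit 5) (nat_lit 24) (nat_lit 5) (nat_lit 523) (nat_lit 365) (nat_lit 252))))) (XT.nd (nat_lit 234) (nat_lit 152) (nat_lit 0) (XT.nd (nat_lit 78) (nat_lit 0) (nat_lit 0) (XT.lf (nat_lit 0) (nat_lit 9711025711) (nat_lit 152) (nat_lit 5331817173) (nat_lit 228) (nat_lit 11249714280) (nat_lit 21) (nat_lit 5) (nat_lit 23) (nat_lit 5) (nat_lit 24) (nat_lit 5) (nat_lit 524) (nat_lit 365) (nat_lit 251)) (XT.nd (nat_lit 78) (nat_lit 0) (nat_lit 0) (XT.lf (nat_lit 0) (nat_lit 17818617270) (nat_lit 152) (nat_lit 1034717086) (nat_lit 228) (nat_lit 7872722583) (nat_lit 21) (nat_lit 5) (nat_lit 23) (nat_lit 5) (nat_lit 24)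 (nat_lit 5) (nat_lit 525) (nat_lit 365) (nat_lit 250)) (XT.lf (nat_lit 0) (nat_lit 22746392619) (nat_lit 228) (nat_lit 1128426212) (nat_lit 76) (nat_lit 3293286239) (nat_lit 21) (nat_lit 5) (nat_lit 24) (nat_lit 5) (nat_lit 22) (nat_lit 4) (nat_lit 526) (nat_lit 365) (nat_lit 249)))) (XT.nd (nat_lit 50076) (nat_lit 0) (nat_lit 34580) (XT.nd (nat_lit 78) (nat_lit 76) (nat_lit 0) (XT.lf (nat_lit 0) (nat_lit 6863030239) (nat_lit 76) (nat_lit 19890612613) (nat_lit 152) (nat_lit 864630084) (nat_lit 20) (nat_lit 5) (nat_lit 21) (nat_lit 5) (nat_lit 22) (nat_lit 4) (nat_lit 527) (nat_lit 365) (nat_lit 248)) (XT.lf (nat_lit 0) (nat_lit 2719912264) (nat_lit 152) (nat_lit 13092001048) (nat_lit 76) (nat_lit 12265325898) (nat_lit 19) (nat_lit 5) (nat_lit 21) (nat_lit 5) (nat_lit 20) (nat_lit 5) (nat_lit 528) (nat_lit 365) (nat_lit 247))) (XT.nd (nat_lit 78) (nat_lit 76) (nat_lit 0) (XT.lf (nat_lit 0) (nat_lit 496099097)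 (nat_lit 1140) (nat_lit 1463573527) (nat_lit 1140) (nat_lit 1463573527) (nat_lit 475) (nat_lit 4) (nat_lit 490) (nat_lit 5) (nat_lit 490) (nat_lit 4) (nat_lit 408) (nat_lit 366) (nat_lit 366)) (XT.lf (nat_lit 0) (nat_lit 138277596) (nat_lit 1216) (nat_lit 1616768340) (nat_lit 76) (nat_lit 5121693953) (nat_lit 474) (nat_lit 5) (nat_lit 490) (nat_lit 5) (nat_lit 475) (nat_lit 4) (nat_lit 409) (nat_lit 366) (nat_lit 365)))))) (XT.nd (nat_lit 546) (nat_lit 5244) (nat_lit 0) (XT.nd (nat_lit 234) (nat_lit 4484) (nat_lit 0) (XT.nd (nat_lit 78) (nat_lit 1368) (nat_lit 0) (XT.lf (nat_lit 0) (nat_lit 2664751953) (nat_lit 1216) (nat_lit 513343049) (nat_lit 1292) (nat_lit 3730161972) (nat_lit 458) (nat_lit 5) (nat_lit 474) (nat_lit 5) (nat_lit 475) (nat_lit 4) (nat_lit 410) (nat_lit 366) (nat_lit 364)) (XT.nd (nat_lit 78) (nat_lit 76) (nat_lit 0) (XT.lf (nat_lit 0) (nat_lit 51970032) (nat_lit 1292) (nat_lit 6178794022)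 (nat_lit 1292) (nat_lit 710694427) (nat_lit 441) (nat_lit 4) (nat_lit 458) (nat_lit 5) (nat_lit 458) (nat_lit 4) (nat_lit 411) (nat_lit 366) (nat_lit 363)) (XT.lf (nat_lit 0) (nat_lit 2306437209) (nat_lit 1368) (nat_lit 2560789661) (nat_lit 76) (nat_lit 2108514062) (nat_lit 440) (nat_lit 5) (nat_lit 458) (nat_lit 5) (nat_lit 441) (nat_lit 4) (nat_lit 412) (nat_lit 366) (nat_lit 362)))) (XT.nd (nat_lit 156) (nat_lit 3040) (nat_lit 0) (XT.nd (nat_lit 78) (nat_lit 76) (nat_lit 0) (XT.lf (nat_lit 0) (nat_lit 1816799065) (nat_lit 1368) (nat_lit 3506932713) (nat_lit 1444) (nat_lit 1687986268) (nat_lit 422) (nat_lit 5) (nat_lit 440) (nat_lit 5) (nat_lit 441) (nat_lit 4) (nat_lit 413) (nat_lit 366) (nat_lit 361)) (XT.lf (nat_lit 0) (nat_lit 1290406723) (nat_lit 1444) (nat_lit 797660305) (nat_lit 76) (nat_lit 4961154333) (nat_lit 421) (nat_lit 5) (nat_lit 440) (nat_lit 5) (nat_lit 422) (nat_lit 5) (nat_lit 414)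 (nat_lit 366) (nat_lit 360))) (XT.nd (nat_lit 78) (nat_lit 1596) (nat_lit 0) (XT.lf (nat_lit 0) (nat_lit 3668256107) (nat_lit 1444) (nat_lit 600460368) (nat_lit 1520) (nat_lit 2819360618) (nat_lit 402) (nat_lit 5) (nat_lit 421) (nat_lit 5) (nat_lit 422) (nat_lit 5) (nat_lit 415) (nat_lit 366) (nat_lit 359)) (XT.lf (nat_lit 0) (nat_lit 134356141) (nat_lit 1596) (nat_lit 6072093000) (nat_lit 76) (nat_lit 922162416) (nat_lit 381) (nat_lit 5) (nat_lit 402) (nat_lit 5) (nat_lit 382) (nat_lit 5) (nat_lit 416) (nat_lit 366) (nat_lit 358))))) (XT.nd (nat_lit 234) (nat_lit 1900) (nat_lit 0) (XT.nd (nat_lit 78) (nat_lit 3344) (nat_lit 0) (XT.lf (nat_lit 0) (nat_lit 3076816330) (nat_lit 1596) (nat_lit 1581212938) (nat_lit 76) (nat_lit 2512285966) (nat_lit 381) (nat_lit 5) (nat_lit 402) (nat_lit 5) (nat_lit 382) (nat_lit 5) (nat_lit 417) (nat_lit 366) (nat_lit 357)) (XT.nd (nat_lit 78) (nat_lit 1748) (nat_lit 0)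 (XT.lf (nat_lit 0) (nat_lit 2982068751) (nat_lit 1596) (nat_lit 3056896684) (nat_lit 1672) (nat_lit 1174748841) (nat_lit 360) (nat_lit 5) (nat_lit 381) (nat_lit 5) (nat_lit 382) (nat_lit 5) (nat_lit 418) (nat_lit 366) (nat_lit 356)) (XT.lf (nat_lit 0) (nat_lit 335910868) (nat_lit 1672) (nat_lit 1397491975) (nat_lit 1748) (nat_lit 5525326165) (nat_lit 337) (nat_lit 5) (nat_lit 359) (nat_lit 5) (nat_lit 360) (nat_lit 5) (nat_lit 419) (nat_lit 366) (nat_lit 355)))) (XT.nd (nat_lit 156) (nat_lit 836) (nat_lit 0) (XT.nd (nat_lit 78) (nat_lit 1064) (nat_lit 0) (XT.lf (nat_lit 0) (nat_lit 4657084722) (nat_lit 1748) (nat_lit 2319635600) (nat_lit 76) (nat_lit 328380052) (nat_lit 337) (nat_lit 5) (nat_lit 360) (nat_lit 5) (nat_lit 338) (nat_lit 5) (nat_lit 420) (nat_lit 366) (nat_lit 354)) (XT.lf (nat_lit 0) (nat_lit 250954480) (nat_lit 1064) (nat_lit 5014430369) (nat_lit 76) (nat_lit 2087690290) (nat_lit 323)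 (nat_lit 5) (nat_lit 337) (nat_lit 5) (nat_lit 324) (nat_lit 5) (nat_lit 421) (nat_lit 366) (nat_lit 353))) (XT.nd (nat_lit 78) (nat_lit 836) (nat_lit 0) (XT.lf (nat_lit 0) (nat_lit 3132157087) (nat_lit 1064) (nat_lit 354964658) (nat_lit 76) (nat_lit 3915412725) (nat_lit 323) (nat_lit 5) (nat_lit 337) (nat_lit 5) (nat_lit 324) (nat_lit 5) (nat_lit 422) (nat_lit 366) (nat_lit 352)) (XT.lf (nat_lit 0) (nat_lit 4399348431) (nat_lit 836) (nat_lit 1645304482) (nat_lit 912) (nat_lit 1408924670) (nat_lit 312) (nat_lit 5) (nat_lit 323) (nat_lit 5) (nat_lit 324) (nat_lit 5) (nat_lit 423) (nat_lit 366) (nat_lit 351))))))) (XT.nd (nat_lit 1014) (nat_lit 5396) (nat_lit 0) (XT.nd (nat_lit 468) (nat_lit 2888) (nat_lit 0) (XT.nd (nat_lit 234) (nat_lit 1596) (nat_lit 0) (XT.nd (nat_lit 78) (nat_lit 760) (nat_lit 0) (XT.lf (nat_lit 0) (nat_lit 1450470914) (nat_lit 912) (nat_lit 5803957162) (nat_lit 76) (nat_lit 251872484)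 (nat_lit 300) (nat_lit 5) (nat_lit 312) (nat_lit 5) (nat_lit 301) (nat_lit 5) (nat_lit 424) (nat_lit 366) (nat_lit 350)) (XT.nd (nat_lit 78) (nat_lit 760) (nat_lit 0) (XT.lf (nat_lit 0) (nat_lit 4325822069) (nat_lit 912) (nat_lit 1041801018) (nat_lit 76) (nat_lit 2192780045) (nat_lit 300) (nat_lit 5) (nat_lit 312) (nat_lit 5) (nat_lit 301) (nat_lit 5) (nat_lit 425) (nat_lit 366) (nat_lit 349)) (XT.lf (nat_lit 0) (nat_lit 3809463183) (nat_lit 760) (nat_lit 3421095970) (nat_lit 836) (nat_lit 385653827) (nat_lit 290) (nat_lit 5) (nat_lit 300) (nat_lit 5) (nat_lit 301) (nat_lit 5) (nat_lit 426) (nat_lit 366) (nat_lit 348)))) (XT.nd (nat_lit 78) (nat_lit 760) (nat_lit 0) (XT.lf (nat_lit 0) (nat_lit 1039613613) (nat_lit 760) (nat_lit 1408785536) (nat_lit 836) (nat_lit 5225248963) (nat_lit 279) (nat_lit 5) (nat_lit 289) (nat_lit 5) (nat_lit 290) (nat_lit 5) (nat_lit 427) (nat_lit 366) (nat_lit 347)) (XT.nd (nat_lit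 78) (nat_lit 760) (nat_lit 0) (XT.lf (nat_lit 0) (nat_lit 5311921455) (nat_lit 836) (nat_lit 1761303931) (nat_lit 76) (nat_lit 659455712) (nat_lit 279) (nat_lit 5) (nat_lit 290) (nat_lit 5) (nat_lit 280) (nat_lit 5) (nat_lit 428) (nat_lit 366) (nat_lit 346)) (XT.lf (nat_lit 0) (nat_lit 412937560) (nat_lit 760) (nat_lit 4610825413) (nat_lit 76) (nat_lit 2769553812) (nat_lit 269) (nat_lit 5) (nat_lit 279) (nat_lit 5) (nat_lit 270) (nat_lit 5) (nat_lit 429) (nat_lit 366) (nat_lit 345))))) (XT.nd (nat_lit 234) (nat_lit 1368) (nat_lit 0) (XT.nd (nat_lit 78) (nat_lit 760) (nat_lit 0) (XT.lf (nat_lit 0) (nat_lit 325847606) (nat_lit 760) (nat_lit 2908410044) (nat_lit 836) (nat_lit 4621376021) (nat_lit 259) (nat_lit 5) (nat_lit 269) (nat_lit 5) (nat_lit 270) (nat_lit 5) (nat_lit 430) (nat_lit 366) (nat_lit 344)) (XT.nd (nat_lit 78) (nat_lit 760) (nat_lit 0) (XT.lf (nat_lit 0) (nat_lit 5367701385) (nat_lit 760)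 (nat_lit 725193068) (nat_lit 836) (nat_lit 1826739308) (nat_lit 259) (nat_lit 5) (nat_lit 269) (nat_lit 5) (nat_lit 270) (nat_lit 5) (nat_lit 431) (nat_lit 366) (nat_lit 343)) (XT.lf (nat_lit 0) (nat_lit 986981694) (nat_lit 760) (nat_lit 5499458021) (nat_lit 76) (nat_lit 1498861371) (nat_lit 249) (nat_lit 5) (nat_lit 259) (nat_lit 5) (nat_lit 250) (nat_lit 5) (nat_lit 432) (nat_lit 366) (nat_lit 342)))) (XT.nd (nat_lit 156) (nat_lit 684) (nat_lit 0) (XT.nd (nat_lit 78) (nat_lit 684) (nat_lit 0) (XT.lf (nat_lit 0) (nat_lit 3805702106) (nat_lit 760) (nat_lit 466271083) (nat_lit 76) (nat_lit 3780654892) (nat_lit 249) (nat_lit 5) (nat_lit 259) (nat_lit 5) (nat_lit 250) (nat_lit 5) (nat_lit 433) (nat_lit 366) (nat_lit 341)) (XT.lf (nat_lit 0) (nat_lit 4673695230) (nat_lit 684) (nat_lit 1989526173) (nat_lit 760) (nat_lit 1458482234) (nat_lit 240) (nat_lit 5) (nat_lit 249) (nat_lit 5) (nat_lit 250) (nat_lit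 5) (nat_lit 434) (nat_lit 366) (nat_lit 340))) (XT.nd (nat_lit 78) (nat_lit 0) (nat_lit 0) (XT.lf (nat_lit 0) (nat_lit 1336269232) (nat_lit 684) (nat_lit 6506693967) (nat_lit 76) (nat_lit 349691852) (nat_lit 231) (nat_lit 5) (nat_lit 240) (nat_lit 5) (nat_lit 232) (nat_lit 5) (nat_lit 435) (nat_lit 366) (nat_lit 339)) (XT.lf (nat_lit 0) (nat_lit 4156698122) (nat_lit 684) (nat_lit 1374274824) (nat_lit 76) (nat_lit 2734121103) (nat_lit 231) (nat_lit 5) (nat_lit 240) (nat_lit 5) (nat_lit 232) (nat_lit 5) (nat_lit 436) (nat_lit 366) (nat_lit 338)))))) (XT.nd (nat_lit 546) (nat_lit 2204) (nat_lit 0) (XT.nd (nat_lit 234) (nat_lit 1824) (nat_lit 0) (XT.nd (nat_lit 78) (nat_lit 684) (nat_lit 0) (XT.lf (nat_lit 0) (nat_lit 3856396510) (nat_lit 684) (nat_lit 3155928698) (nat_lit 760) (nat_lit 1327127490) (nat_lit 222) (nat_lit 5) (nat_lit 231) (nat_lit 5) (nat_lit 232) (nat_lit 5) (nat_lit 437) (nat_lit 366) (nat_lit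 337)) (XT.nd (nat_lit 78) (nat_lit 0) (nat_lit 0) (XT.lf (nat_lit 0) (nat_lit 739765925) (nat_lit 608) (nat_lit 718241588) (nat_lit 684) (nat_lit 6957778969) (nat_lit 213) (nat_lit 5) (nat_lit 221) (nat_lit 5) (nat_lit 222) (nat_lit 5) (nat_lit 438) (nat_lit 366) (nat_lit 336)) (XT.lf (nat_lit 0) (nat_lit 4277295902) (nat_lit 684) (nat_lit 2441498107) (nat_lit 76) (nat_lit 1774797039) (nat_lit 213) (nat_lit 5) (nat_lit 222) (nat_lit 5) (nat_lit 214) (nat_lit 5) (nat_lit 439) (nat_lit 366) (nat_lit 335)))) (XT.nd (nat_lit 156) (nat_lit 1140) (nat_lit 0) (XT.nd (nat_lit 78) (nat_lit 76) (nat_lit 0) (XT.lf (nat_lit 0) (nat_lit 2875973356) (nat_lit 608) (nat_lit 4255760399) (nat_lit 684) (nat_lit 1441685785) (nat_lit 205) (nat_lit 5) (nat_lit 213) (nat_lit 5) (nat_lit 214) (nat_lit 5) (nat_lit 440) (nat_lit 366) (nat_lit 334)) (XT.lf (nat_lit 0) (nat_lit 1342221997) (nat_lit 684) (nat_lit 385726938) (nat_lit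 76) (nat_lit 6927316504) (nat_lit 204) (nat_lit 5) (nat_lit 213) (nat_lit 5) (nat_lit 205) (nat_lit 5) (nat_lit 441) (nat_lit 366) (nat_lit 333))) (XT.nd (nat_lit 78) (nat_lit 608) (nat_lit 0) (XT.lf (nat_lit 0) (nat_lit 4157340927) (nat_lit 608) (nat_lit 3709737428) (nat_lit 76) (nat_lit 871623187) (nat_lit 197) (nat_lit 5) (nat_lit 205) (nat_lit 5) (nat_lit 198) (nat_lit 5) (nat_lit 442) (nat_lit 366) (nat_lit 332)) (XT.lf (nat_lit 0) (nat_lit 1689746057) (nat_lit 608) (nat_lit 5320871008) (nat_lit 684) (nat_lit 1813592033) (nat_lit 189) (nat_lit 5) (nat_lit 197) (nat_lit 5) (nat_lit 198) (nat_lit 5) (nat_lit 443) (nat_lit 366) (nat_lit 331))))) (XT.nd (nat_lit 234) (nat_lit 1064) (nat_lit 0) (XT.nd (nat_lit 78) (nat_lit 1064) (nat_lit 0) (XT.lf (nat_lit 0) (nat_lit 978360342) (nat_lit 684) (nat_lit 1724772277) (nat_lit 76) (nat_lit 6208560002) (nat_lit 188) (nat_lit 5) (nat_lit 197) (nat_lit 5) (nat_lit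 189) (nat_lit 5) (nat_lit 444) (nat_lit 366) (nat_lit 330)) (XT.nd (nat_lit 78) (nat_lit 532) (nat_lit 0) (XT.lf (nat_lit 0) (nat_lit 3777080391) (nat_lit 532) (nat_lit 7185802) (nat_lit 608) (nat_lit 5216809427) (nat_lit 181) (nat_lit 5) (nat_lit 188) (nat_lit 5) (nat_lit 189) (nat_lit 5) (nat_lit 445) (nat_lit 366) (nat_lit 329)) (XT.lf (nat_lit 0) (nat_lit 251751578) (nat_lit 532) (nat_lit 6383889662) (nat_lit 608) (nat_lit 2456854809) (nat_lit 174) (nat_lit 5) (nat_lit 181) (nat_lit 5) (nat_lit 182) (nat_lit 5) (nat_lit 446) (nat_lit 366) (nat_lit 328)))) (XT.nd (nat_lit 156) (nat_lit 532) (nat_lit 0) (XT.nd (nat_lit 78) (nat_lit 456) (nat_lit 0) (XT.lf (nat_lit 0) (nat_lit 347354951) (nat_lit 608) (nat_lit 3334057855) (nat_lit 76) (nat_lit 5504445817) (nat_lit 173) (nat_lit 5) (nat_lit 181) (nat_lit 5) (nat_lit 174) (nat_lit 5) (nat_lit 447) (nat_lit 366) (nat_lit 327)) (XT.lf (nat_lit 0) (nat_lit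 2242735245) (nat_lit 456) (nat_lit 905843453) (nat_lit 532) (nat_lit 6132743082) (nat_lit 167) (nat_lit 5) (nat_lit 173) (nat_lit 5) (nat_lit 174) (nat_lit 5) (nat_lit 448) (nat_lit 366) (nat_lit 326))) (XT.nd (nat_lit 78) (nat_lit 532) (nat_lit 0) (XT.lf (nat_lit 0) (nat_lit 6000458419) (nat_lit 532) (nat_lit 1468216266) (nat_lit 76) (nat_lit 1910160878) (nat_lit 167) (nat_lit 5) (nat_lit 174) (nat_lit 5) (nat_lit 168) (nat_lit 5) (nat_lit 449) (nat_lit 366) (nat_lit 325)) (XT.lf (nat_lit 0) (nat_lit 4210251550) (nat_lit 532) (nat_lit 4692860982) (nat_lit 608) (nat_lit 575345678) (nat_lit 160) (nat_lit 5) (nat_lit 167) (nat_lit 5) (nat_lit 168) (nat_lit 5) (nat_lit 450) (nat_lit 366) (nat_lit 324))))))))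
noncomputable def xc69 : XT := (XT.nd (nat_lit 2106) (nat_lit 3116) (nat_lit 0) (XT.nd (nat_lit 1014) (nat_lit 2812) (nat_lit 0) (XT.nd (nat_lit 468) (nat_lit 1748) (nat_lit 0) (XT.nd (nat_lit 234) (nat_lit 532) (nat_lit 0) (XT.nd (nat_lit 78) (nat_lit 456) (nat_lit 0) (XT.lf (nat_lit 0) (nat_lit 379661157) (nat_lit 456) (nat_lit 1847064404) (nat_lit 532) (nat_lit 7353624610) (nat_lit 153) (nat_lit 5) (nat_lit 159) (nat_lit 5) (nat_lit 160) (nat_lit 5) (nat_lit 451) (nat_lit 366) (nat_lit 323)) (XT.nd (nat_lit 78) (nat_lit 456) (nat_lit 0) (XT.lf (nat_lit 0) (nat_lit 5080476767) (nat_lit 532) (nat_lit 3535690795) (nat_lit 76) (nat_lit 1068000903) (nat_lit 153) (nat_lit 5) (nat_lit 160) (nat_lit 5) (nat_lit 154) (nat_lit 5) (nat_lit 452) (nat_lit 366) (nat_lit 322)) (XT.lf (nat_lit 0) (nat_lit 2207247338) (nat_lit 456) (nat_lit 5772280244) (nat_lit 532) (nat_lit 1810801840) (nat_lit 147) (nat_lit 5) (nat_lit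 153) (nat_lit 5) (nat_lit 154) (nat_lit 5) (nat_lit 453) (nat_lit 366) (nat_lit 321)))) (XT.nd (nat_lit 78) (nat_lit 456) (nat_lit 0) (XT.lf (nat_lit 0) (nat_lit 1010012818) (nat_lit 532) (nat_lit 1844334747) (nat_lit 76) (nat_lit 7044447245) (nat_lit 146) (nat_lit 5) (nat_lit 153) (nat_lit 5) (nat_lit 147) (nat_lit 5) (nat_lit 454) (nat_lit 366) (nat_lit 320)) (XT.nd (nat_lit 78) (nat_lit 0) (nat_lit 0) (XT.lf (nat_lit 0) (nat_lit 3852478992) (nat_lit 532) (nat_lit 6012013089) (nat_lit 76) (nat_lit 144937412) (nat_lit 140) (nat_lit 5) (nat_lit 147) (nat_lit 5) (nat_lit 141) (nat_lit 5) (nat_lit 455) (nat_lit 366) (nat_lit 319)) (XT.lf (nat_lit 0) (nat_lit 6746015230) (nat_lit 532) (nat_lit 211599629) (nat_lit 76) (nat_lit 3164806039) (nat_lit 140) (nat_lit 5) (nat_lit 147) (nat_lit 5) (nat_lit 141) (nat_lit 5) (nat_lit 456) (nat_lit 366) (nat_lit 318))))) (XT.nd (nat_lit 234) (nat_lit 836) (nat_lit 0)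 (XT.nd (nat_lit 78) (nat_lit 456) (nat_lit 0) (XT.lf (nat_lit 0) (nat_lit 5729387196) (nat_lit 456) (nat_lit 3968821581) (nat_lit 532) (nat_lit 539475507) (nat_lit 134) (nat_lit 5) (nat_lit 140) (nat_lit 5) (nat_lit 141) (nat_lit 5) (nat_lit 457) (nat_lit 366) (nat_lit 317)) (XT.nd (nat_lit 78) (nat_lit 0) (nat_lit 0) (XT.lf (nat_lit 0) (nat_lit 1389007013) (nat_lit 380) (nat_lit 908468081) (nat_lit 456) (nat_lit 8058015796) (nat_lit 128) (nat_lit 5) (nat_lit 133) (nat_lit 5) (nat_lit 134) (nat_lit 5) (nat_lit 458) (nat_lit 366) (nat_lit 316)) (XT.lf (nat_lit 0) (nat_lit 5192769933) (nat_lit 456) (nat_lit 3078891566) (nat_lit 76) (nat_lit 2203770511) (nat_lit 128) (nat_lit 5) (nat_lit 134) (nat_lit 5) (nat_lit 129) (nat_lit 5) (nat_lit 459) (nat_lit 366) (nat_lit 315)))) (XT.nd (nat_lit 156) (nat_lit 380) (nat_lit 0) (XT.nd (nat_lit 78) (nat_lit 76) (nat_lit 0) (XT.lf (nat_lit 0) (nat_lit 2908513841)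 (nat_lit 380) (nat_lit 5227062847) (nat_lit 456) (nat_lit 2462428904) (nat_lit 123) (nat_lit 5) (nat_lit 128) (nat_lit 5) (nat_lit 129) (nat_lit 5) (nat_lit 460) (nat_lit 366) (nat_lit 314)) (XT.lf (nat_lit 0) (nat_lit 394392883) (nat_lit 456) (nat_lit 1718272026) (nat_lit 76) (nat_lit 8610624385) (nat_lit 122) (nat_lit 5) (nat_lit 128) (nat_lit 5) (nat_lit 123) (nat_lit 5) (nat_lit 461) (nat_lit 366) (nat_lit 313))) (XT.nd (nat_lit 78) (nat_lit 0) (nat_lit 0) (XT.lf (nat_lit 0) (nat_lit 3276360911) (nat_lit 456) (nat_lit 6493954221) (nat_lit 76) (nat_lit 1080442646) (nat_lit 117) (nat_lit 5) (nat_lit 123) (nat_lit 5) (nat_lit 118) (nat_lit 5) (nat_lit 462) (nat_lit 366) (nat_lit 312)) (XT.lf (nat_lit 0) (nat_lit 6207337376) (nat_lit 456) (nat_lit 467472781) (nat_lit 76) (nat_lit 4306161892) (nat_lit 117) (nat_lit 5) (nat_lit 123) (nat_lit 5) (nat_lit 118) (nat_lit 5) (nat_lit 463) (nat_lit 366) (nat_lit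 311)))))) (XT.nd (nat_lit 546) (nat_lit 1292) (nat_lit 0) (XT.nd (nat_lit 234) (nat_lit 760) (nat_lit 0) (XT.nd (nat_lit 78) (nat_lit 380) (nat_lit 0) (XT.lf (nat_lit 0) (nat_lit 5705809711) (nat_lit 380) (nat_lit 3494611765) (nat_lit 456) (nat_lit 1913322700) (nat_lit 112) (nat_lit 5) (nat_lit 117) (nat_lit 5) (nat_lit 118) (nat_lit 5) (nat_lit 464) (nat_lit 366) (nat_lit 310)) (XT.nd (nat_lit 78) (nat_lit 0) (nat_lit 0) (XT.lf (nat_lit 0) (nat_lit 713898948) (nat_lit 304) (nat_lit 251463679) (nat_lit 380) (nat_lit 10284214401) (nat_lit 107) (nat_lit 5) (nat_lit 111) (nat_lit 5) (nat_lit 112) (nat_lit 5) (nat_lit 465) (nat_lit 366) (nat_lit 309)) (XT.lf (nat_lit 0) (nat_lit 3899188873) (nat_lit 380) (nat_lit 4437655689) (nat_lit 76) (nat_lit 3050587290) (nat_lit 107) (nat_lit 5) (nat_lit 112) (nat_lit 5) (nat_lit 108) (nat_lit 5) (nat_lit 466) (nat_lit 366) (nat_lit 308)))) (XT.nd (nat_lit 156) (nat_lit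 380) (nat_lit 0) (XT.nd (nat_lit 78) (nat_lit 0) (nat_lit 0) (XT.lf (nat_lit 0) (nat_lit 1755674597) (nat_lit 380) (nat_lit 5116519707) (nat_lit 456) (nat_lit 4656260969) (nat_lit 102) (nat_lit 5) (nat_lit 107) (nat_lit 5) (nat_lit 108) (nat_lit 5) (nat_lit 467) (nat_lit 366) (nat_lit 307)) (XT.lf (nat_lit 0) (nat_lit 8085327737) (nat_lit 380) (nat_lit 1816878228) (nat_lit 456) (nat_lit 1770163409) (nat_lit 102) (nat_lit 5) (nat_lit 107) (nat_lit 5) (nat_lit 108) (nat_lit 5) (nat_lit 468) (nat_lit 366) (nat_lit 306))) (XT.nd (nat_lit 78) (nat_lit 0) (nat_lit 0) (XT.lf (nat_lit 0) (nat_lit 1154105128) (nat_lit 380) (nat_lit 9126400276) (nat_lit 76) (nat_lit 1538607430) (nat_lit 97) (nat_lit 5) (nat_lit 102) (nat_lit 5) (nat_lit 98) (nat_lit 5) (nat_lit 469) (nat_lit 366) (nat_lit 305)) (XT.lf (nat_lit 0) (nat_lit 4117830542) (nat_lit 380) (nat_lit 2892984376) (nat_lit 76) (nat_lit 4957668662) (nat_lit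 97) (nat_lit 5) (nat_lit 102) (nat_lit 5) (nat_lit 98) (nat_lit 5) (nat_lit 470) (nat_lit 366) (nat_lit 304))))) (XT.nd (nat_lit 234) (nat_lit 608) (nat_lit 0) (XT.nd (nat_lit 78) (nat_lit 380) (nat_lit 0) (XT.lf (nat_lit 0) (nat_lit 3464016220) (nat_lit 304) (nat_lit 3668313937) (nat_lit 380) (nat_lit 4988701114) (nat_lit 93) (nat_lit 5) (nat_lit 97) (nat_lit 5) (nat_lit 98) (nat_lit 5) (nat_lit 471) (nat_lit 366) (nat_lit 303)) (XT.nd (nat_lit 78) (nat_lit 380) (nat_lit 0) (XT.lf (nat_lit 0) (nat_lit 9941163194) (nat_lit 304) (nat_lit 254686670) (nat_lit 380) (nat_lit 2081024591) (nat_lit 93) (nat_lit 5) (nat_lit 97) (nat_lit 5) (nat_lit 98) (nat_lit 5) (nat_lit 472) (nat_lit 366) (nat_lit 302)) (XT.lf (nat_lit 0) (nat_lit 890683796) (nat_lit 380) (nat_lit 8342365107) (nat_lit 76) (nat_lit 3202339448) (nat_lit 88) (nat_lit 5) (nat_lit 93) (nat_lit 5) (nat_lit 89) (nat_lit 5) (nat_lit 473) (nat_lit 366)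 (nat_lit 301)))) (XT.nd (nat_lit 156) (nat_lit 304) (nat_lit 0) (XT.nd (nat_lit 78) (nat_lit 304) (nat_lit 0) (XT.lf (nat_lit 0) (nat_lit 3881351404) (nat_lit 380) (nat_lit 1976278411) (nat_lit 76) (nat_lit 6739437836) (nat_lit 88) (nat_lit 5) (nat_lit 93) (nat_lit 5) (nat_lit 89) (nat_lit 5) (nat_lit 474) (nat_lit 366) (nat_lit 300)) (XT.lf (nat_lit 0) (nat_lit 4531521643) (nat_lit 304) (nat_lit 2400222175) (nat_lit 380) (nat_lit 5830256175) (nat_lit 84) (nat_lit 5) (nat_lit 88) (nat_lit 5) (nat_lit 89) (nat_lit 5) (nat_lit 475) (nat_lit 366) (nat_lit 299))) (XT.nd (nat_lit 78) (nat_lit 304) (nat_lit 0) (XT.lf (nat_lit 0) (nat_lit 10034483836) (nat_lit 380) (nat_lit 1786344583) (nat_lit 76) (nat_lit 1109593102) (nat_lit 84) (nat_lit 5) (nat_lit 89) (nat_lit 5) (nat_lit 85) (nat_lit 5) (nat_lit 476) (nat_lit 366) (nat_lit 298)) (XT.lf (nat_lit 0) (nat_lit 114140643) (nat_lit 304) (nat_lit 8313384217)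 (nat_lit 76) (nat_lit 4674323750) (nat_lit 80) (nat_lit 5) (nat_lit 84) (nat_lit 5) (nat_lit 81) (nat_lit 5) (nat_lit 477) (nat_lit 366) (nat_lit 297))))))) (XT.nd (nat_lit 1092) (nat_lit 1368) (nat_lit 0) (XT.nd (nat_lit 546) (nat_lit 836) (nat_lit 0) (XT.nd (nat_lit 234) (nat_lit 608) (nat_lit 0) (XT.nd (nat_lit 78) (nat_lit 304) (nat_lit 0) (XT.lf (nat_lit 0) (nat_lit 3129071583) (nat_lit 304) (nat_lit 1821201572) (nat_lit 76) (nat_lit 8326396025) (nat_lit 80) (nat_lit 5) (nat_lit 84) (nat_lit 5) (nat_lit 81) (nat_lit 5) (nat_lit 478) (nat_lit 366) (nat_lit 296)) (XT.nd (nat_lit 78) (nat_lit 0) (nat_lit 0) (XT.lf (nat_lit 0) (nat_lit 4820454461) (nat_lit 304) (nat_lit 1387031232) (nat_lit 380) (nat_lit 7247452793) (nat_lit 76) (nat_lit 5) (nat_lit 80) (nat_lit 5) (nat_lit 81) (nat_lit 5) (nat_lit 479) (nat_lit 366) (nat_lit 295)) (XT.lf (nat_lit 0) (nat_lit 9346418998) (nat_lit 380) (nat_lit 2075348089)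 (nat_lit 76) (nat_lit 2215042778) (nat_lit 76) (nat_lit 5) (nat_lit 81) (nat_lit 5) (nat_lit 77) (nat_lit 5) (nat_lit 480) (nat_lit 366) (nat_lit 294)))) (XT.nd (nat_lit 156) (nat_lit 304) (nat_lit 0) (XT.nd (nat_lit 78) (nat_lit 76) (nat_lit 0) (XT.lf (nat_lit 0) (nat_lit 4623504612) (nat_lit 228) (nat_lit 7936435411) (nat_lit 304) (nat_lit 1262157861) (nat_lit 73) (nat_lit 5) (nat_lit 76) (nat_lit 5) (nat_lit 77) (nat_lit 5) (nat_lit 481) (nat_lit 366) (nat_lit 293)) (XT.lf (nat_lit 0) (nat_lit 1789372311) (nat_lit 304) (nat_lit 2581312904) (nat_lit 76) (nat_lit 9640450264) (nat_lit 72) (nat_lit 5) (nat_lit 76) (nat_lit 5) (nat_lit 73) (nat_lit 5) (nat_lit 482) (nat_lit 366) (nat_lit 292))) (XT.nd (nat_lit 78) (nat_lit 0) (nat_lit 0) (XT.lf (nat_lit 0) (nat_lit 4172506953) (nat_lit 304) (nat_lit 712838503) (nat_lit 380) (nat_lit 9318449767) (nat_lit 68) (nat_lit 5) (nat_lit 72) (nat_lit 5) (nat_lit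 73) (nat_lit 5) (nat_lit 483) (nat_lit 366) (nat_lit 291)) (XT.lf (nat_lit 0) (nat_lit 8053630552) (nat_lit 380) (nat_lit 3365617329) (nat_lit 76) (nat_lit 2980866653) (nat_lit 68) (nat_lit 5) (nat_lit 73) (nat_lit 5) (nat_lit 69) (nat_lit 5) (nat_lit 484) (nat_lit 366) (nat_lit 290))))) (XT.nd (nat_lit 234) (nat_lit 304) (nat_lit 0) (XT.nd (nat_lit 78) (nat_lit 304) (nat_lit 0) (XT.lf (nat_lit 0) (nat_lit 3432151145) (nat_lit 228) (nat_lit 7854017019) (nat_lit 304) (nat_lit 3314188274) (nat_lit 65) (nat_lit 5) (nat_lit 68) (nat_lit 5) (nat_lit 69) (nat_lit 5) (nat_lit 485) (nat_lit 366) (nat_lit 289)) (XT.nd (nat_lit 78) (nat_lit 304) (nat_lit 0) (XT.lf (nat_lit 0) (nat_lit 10370261522) (nat_lit 228) (nat_lit 4209806687) (nat_lit 304) (nat_lit 224614408) (nat_lit 65) (nat_lit 5) (nat_lit 68) (nat_lit 5) (nat_lit 69) (nat_lit 5) (nat_lit 486) (nat_lit 366) (nat_lit 288)) (XT.lf (nat_lit 0) (nat_lit 2405809592)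 (nat_lit 228) (nat_lit 472629311) (nat_lit 304) (nat_lit 12134488050) (nat_lit 61) (nat_lit 5) (nat_lit 64) (nat_lit 5) (nat_lit 65) (nat_lit 5) (nat_lit 487) (nat_lit 366) (nat_lit 287)))) (XT.nd (nat_lit 156) (nat_lit 76) (nat_lit 0) (XT.nd (nat_lit 78) (nat_lit 228) (nat_lit 0) (XT.lf (nat_lit 0) (nat_lit 6066775696) (nat_lit 304) (nat_lit 5846083363) (nat_lit 76) (nat_lit 3311935704) (nat_lit 61) (nat_lit 5) (nat_lit 65) (nat_lit 5) (nat_lit 62) (nat_lit 5) (nat_lit 488) (nat_lit 366) (nat_lit 286)) (XT.lf (nat_lit 0) (nat_lit 1020293739) (nat_lit 228) (nat_lit 8283430027) (nat_lit 304) (nat_lit 6137491902) (nat_lit 58) (nat_lit 5) (nat_lit 61) (nat_lit 5) (nat_lit 62) (nat_lit 5) (nat_lit 489) (nat_lit 366) (nat_lit 285))) (XT.nd (nat_lit 78) (nat_lit 76) (nat_lit 0) (XT.lf (nat_lit 0) (nat_lit 8063378673) (nat_lit 228) (nat_lit 4556582144) (nat_lit 304) (nat_lit 3041725554) (nat_lit 58) (nat_lit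 5) (nat_lit 61) (nat_lit 5) (nat_lit 62) (nat_lit 5) (nat_lit 490) (nat_lit 366) (nat_lit 284)) (XT.lf (nat_lit 0) (nat_lit 90066763) (nat_lit 304) (nat_lit 679413039) (nat_lit 76) (nat_lit 15117570901) (nat_lit 57) (nat_lit 5) (nat_lit 61) (nat_lit 5) (nat_lit 58) (nat_lit 5) (nat_lit 491) (nat_lit 366) (nat_lit 283)))))) (XT.nd (nat_lit 546) (nat_lit 608) (nat_lit 0) (XT.nd (nat_lit 234) (nat_lit 304) (nat_lit 0) (XT.nd (nat_lit 78) (nat_lit 228) (nat_lit 0) (XT.lf (nat_lit 0) (nat_lit 3281883459) (nat_lit 304) (nat_lit 9733527888) (nat_lit 76) (nat_lit 3100358181) (nat_lit 54) (nat_lit 5) (nat_lit 58) (nat_lit 5) (nat_lit 55) (nat_lit 5) (nat_lit 492) (nat_lit 366) (nat_lit 282)) (XT.nd (nat_lit 78) (nat_lit 228) (nat_lit 0) (XT.lf (nat_lit 0) (nat_lit 6523454646) (nat_lit 304) (nat_lit 2798539711) (nat_lit 76) (nat_lit 7027361447) (nat_lit 54) (nat_lit 5) (nat_lit 58) (nat_lit 5) (nat_lit 55) (nat_lit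 5) (nat_lit 493) (nat_lit 366) (nat_lit 281)) (XT.lf (nat_lit 0) (nat_lit 4293436722) (nat_lit 228) (nat_lit 5540995247) (nat_lit 304) (nat_lit 6753101556) (nat_lit 51) (nat_lit 5) (nat_lit 54) (nat_lit 5) (nat_lit 55) (nat_lit 5) (nat_lit 494) (nat_lit 366) (nat_lit 280)))) (XT.nd (nat_lit 156) (nat_lit 76) (nat_lit 0) (XT.nd (nat_lit 78) (nat_lit 228) (nat_lit 0) (XT.lf (nat_lit 0) (nat_lit 11527417063) (nat_lit 228) (nat_lit 1679901980) (nat_lit 304) (nat_lit 3623252950) (nat_lit 51) (nat_lit 5) (nat_lit 54) (nat_lit 5) (nat_lit 55) (nat_lit 5) (nat_lit 495) (nat_lit 366) (nat_lit 279)) (XT.lf (nat_lit 0) (nat_lit 1799138663) (nat_lit 228) (nat_lit 14852139324) (nat_lit 304) (nat_lit 427131737) (nat_lit 48) (nat_lit 5) (nat_lit 51) (nat_lit 5) (nat_lit 52) (nat_lit 5) (nat_lit 496) (nat_lit 366) (nat_lit 278))) (XT.nd (nat_lit 78) (nat_lit 0) (nat_lit 0) (XT.lf (nat_lit 0) (nat_lit 2820020233) (nat_lit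 304) (nat_lit 8282348491) (nat_lit 76) (nat_lit 6227992734) (nat_lit 47) (nat_lit 5) (nat_lit 51) (nat_lit 5) (nat_lit 48) (nat_lit 5) (nat_lit 497) (nat_lit 366) (nat_lit 277)) (XT.lf (nat_lit 0) (nat_lit 6104160774) (nat_lit 304) (nat_lit 1185047344) (nat_lit 76) (nat_lit 10298542501) (nat_lit 47) (nat_lit 5) (nat_lit 51) (nat_lit 5) (nat_lit 48) (nat_lit 5) (nat_lit 498) (nat_lit 366) (nat_lit 276))))) (XT.nd (nat_lit 234) (nat_lit 228) (nat_lit 0) (XT.nd (nat_lit 78) (nat_lit 228) (nat_lit 0) (XT.lf (nat_lit 0) (nat_lit 6098167419) (nat_lit 152) (nat_lit 3373605622) (nat_lit 228) (nat_lit 8378168703) (nat_lit 45) (nat_lit 5) (nat_lit 47) (nat_lit 5) (nat_lit 48) (nat_lit 5) (nat_lit 499) (nat_lit 366) (nat_lit 275)) (XT.nd (nat_lit 78) (nat_lit 228) (nat_lit 0) (XT.lf (nat_lit 0) (nat_lit 12897068835) (nat_lit 228) (nat_lit 4614311693) (nat_lit 76) (nat_lit 606199300) (nat_lit 45) (nat_lit 5) (nat_lit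 48) (nat_lit 5) (nat_lit 46) (nat_lit 5) (nat_lit 500) (nat_lit 366) (nat_lit 274)) (XT.lf (nat_lit 0) (nat_lit 2642803558) (nat_lit 228) (nat_lit 13766291959) (nat_lit 304) (nat_lit 1981120227) (nat_lit 42) (nat_lit 5) (nat_lit 45) (nat_lit 5) (nat_lit 46) (nat_lit 5) (nat_lit 501) (nat_lit 366) (nat_lit 273)))) (XT.nd (nat_lit 156) (nat_lit 152) (nat_lit 0) (XT.nd (nat_lit 78) (nat_lit 0) (nat_lit 0) (XT.lf (nat_lit 0) (nat_lit 1315639939) (nat_lit 304) (nat_lit 8604345133) (nat_lit 76) (nat_lit 8747958029) (nat_lit 41) (nat_lit 5) (nat_lit 45) (nat_lit 5) (nat_lit 42) (nat_lit 5) (nat_lit 502) (nat_lit 366) (nat_lit 272)) (XT.lf (nat_lit 0) (nat_lit 4631013507) (nat_lit 304) (nat_lit 1366315301) (nat_lit 76) (nat_lit 12954059205) (nat_lit 41) (nat_lit 5) (nat_lit 45) (nat_lit 5) (nat_lit 42) (nat_lit 5) (nat_lit 503) (nat_lit 366) (nat_lit 271))) (XT.nd (nat_lit 78) (nat_lit 0) (nat_lit 0) (XT.lf (nat_lit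 0) (nat_lit 6061881161) (nat_lit 152) (nat_lit 1969759961) (nat_lit 228) (nat_lit 11208490610) (nat_lit 39) (nat_lit 5) (nat_lit 41) (nat_lit 5) (nat_lit 42) (nat_lit 5) (nat_lit 504) (nat_lit 366) (nat_lit 270)) (XT.lf (nat_lit 0) (nat_lit 11503074910) (nat_lit 228) (nat_lit 5925446034) (nat_lit 76) (nat_lit 2106082179) (nat_lit 39) (nat_lit 5) (nat_lit 42) (nat_lit 5) (nat_lit 40) (nat_lit 5) (nat_lit 505) (nat_lit 366) (nat_lit 269))))))))
noncomputable def xc70 : XT := (XT.nd (nat_lit 51870) (nat_lit 0) (nat_lit 15428) (XT.nd (nat_lit 1014) (nat_lit 532) (nat_lit 0) (XT.nd (nat_lit 468) (nat_lit 532) (nat_lit 0) (XT.nd (nat_lit 234) (nat_lit 152) (nat_lit 0) (XT.nd (nat_lit 78) (nat_lit 76) (nat_lit 0) (XT.lf (nat_lit 0) (nat_lit 1444792037) (nat_lit 228) (nat_lit 13601649624) (nat_lit 304) (nat_lit 4788480693) (nat_lit 36) (nat_lit 5) (nat_lit 39) (nat_lit 5) (nat_lit 40) (nat_lit 5) (nat_lit 506)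 (nat_lit 366) (nat_lit 268)) (XT.nd (nat_lit 78) (nat_lit 76) (nat_lit 0) (XT.lf (nat_lit 0) (nat_lit 9009449925) (nat_lit 228) (nat_lit 9671242021) (nat_lit 304) (nat_lit 1460164032) (nat_lit 36) (nat_lit 5) (nat_lit 39) (nat_lit 5) (nat_lit 40) (nat_lit 5) (nat_lit 507) (nat_lit 366) (nat_lit 267)) (XT.lf (nat_lit 0) (nat_lit 1889849030) (nat_lit 304) (nat_lit 3772988749) (nat_lit 76) (nat_lit 14790217189) (nat_lit 35) (nat_lit 5) (nat_lit 39) (nat_lit 5) (nat_lit 36) (nat_lit 5) (nat_lit 508) (nat_lit 366) (nat_lit 266)))) (XT.nd (nat_lit 78) (nat_lit 0) (nat_lit 0) (XT.lf (nat_lit 0) (nat_lit 3739699292) (nat_lit 152) (nat_lit 1552796875) (nat_lit 228) (nat_lit 15478712882) (nat_lit 33) (nat_lit 5) (nat_lit 35) (nat_lit 5) (nat_lit 36) (nat_lit 5) (nat_lit 509) (nat_lit 366) (nat_lit 265)) (XT.nd (nat_lit 78) (nat_lit 0) (nat_lit 0) (XT.lf (nat_lit 0) (nat_lit 8786787666) (nat_lit 228) (nat_lit 9691103211)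 (nat_lit 76) (nat_lit 2617371202) (nat_lit 33) (nat_lit 5) (nat_lit 36) (nat_lit 5) (nat_lit 34) (nat_lit 5) (nat_lit 510) (nat_lit 366) (nat_lit 264)) (XT.lf (nat_lit 0) (nat_lit 12342589572) (nat_lit 228) (nat_lit 2245901003) (nat_lit 76) (nat_lit 6837480651) (nat_lit 33) (nat_lit 5) (nat_lit 36) (nat_lit 5) (nat_lit 34) (nat_lit 5) (nat_lit 511) (nat_lit 366) (nat_lit 263))))) (XT.nd (nat_lit 234) (nat_lit 304) (nat_lit 0) (XT.nd (nat_lit 78) (nat_lit 76) (nat_lit 0) (XT.lf (nat_lit 0) (nat_lit 5387759779) (nat_lit 152) (nat_lit 10598435661) (nat_lit 228) (nat_lit 5776772756) (nat_lit 31) (nat_lit 5) (nat_lit 33) (nat_lit 5) (nat_lit 34) (nat_lit 5) (nat_lit 512) (nat_lit 366) (nat_lit 262)) (XT.nd (nat_lit 78) (nat_lit 76) (nat_lit 0) (XT.lf (nat_lit 0) (nat_lit 13173635302) (nat_lit 152) (nat_lit 6525974365) (nat_lit 228) (nat_lit 2407163968) (nat_lit 31) (nat_lit 5) (nat_lit 33) (nat_lit 5) (nat_lit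 34) (nat_lit 5) (nat_lit 513) (nat_lit 366) (nat_lit 261)) (XT.lf (nat_lit 0) (nat_lit 998426385) (nat_lit 228) (nat_lit 1379454470) (nat_lit 76) (nat_lit 20079805653) (nat_lit 30) (nat_lit 5) (nat_lit 33) (nat_lit 5) (nat_lit 31) (nat_lit 5) (nat_lit 514) (nat_lit 366) (nat_lit 260)))) (XT.nd (nat_lit 156) (nat_lit 152) (nat_lit 0) (XT.nd (nat_lit 78) (nat_lit 0) (nat_lit 0) (XT.lf (nat_lit 0) (nat_lit 4476016426) (nat_lit 228) (nat_lit 16464291855) (nat_lit 76) (nat_lit 1874275569) (nat_lit 28) (nat_lit 5) (nat_lit 31) (nat_lit 5) (nat_lit 29) (nat_lit 5) (nat_lit 515) (nat_lit 366) (nat_lit 259)) (XT.lf (nat_lit 0) (nat_lit 8030741851) (nat_lit 228) (nat_lit 8970930602) (nat_lit 76) (nat_lit 6176801718) (nat_lit 28) (nat_lit 5) (nat_lit 31) (nat_lit 5) (nat_lit 29) (nat_lit 5) (nat_lit 516) (nat_lit 366) (nat_lit 258))) (XT.nd (nat_lit 78) (nat_lit 152) (nat_lit 0) (XT.lf (nat_lit 0) (nat_lit 11639422428)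 (nat_lit 228) (nat_lit 1357133497) (nat_lit 76) (nat_lit 10553435729) (nat_lit 28) (nat_lit 5) (nat_lit 31) (nat_lit 5) (nat_lit 29) (nat_lit 5) (nat_lit 517) (nat_lit 366) (nat_lit 257)) (XT.lf (nat_lit 0) (nat_lit 6464873238) (nat_lit 152) (nat_lit 8880574333) (nat_lit 228) (nat_lit 8582994936) (nat_lit 26) (nat_lit 5) (nat_lit 28) (nat_lit 5) (nat_lit 29) (nat_lit 5) (nat_lit 518) (nat_lit 366) (nat_lit 256)))))) (XT.nd (nat_lit 546) (nat_lit 152) (nat_lit 0) (XT.nd (nat_lit 234) (nat_lit 152) (nat_lit 0) (XT.nd (nat_lit 78) (nat_lit 228) (nat_lit 0) (XT.lf (nat_lit 0) (nat_lit 14433051953) (nat_lit 152) (nat_lit 4684988423) (nat_lit 228) (nat_lit 5196579375) (nat_lit 26) (nat_lit 5) (nat_lit 28) (nat_lit 5) (nat_lit 29) (nat_lit 5) (nat_lit 519) (nat_lit 366) (nat_lit 255)) (XT.nd (nat_lit 78) (nat_lit 228) (nat_lit 0) (XT.lf (nat_lit 0) (nat_lit 22532491834) (nat_lit 152) (nat_lit 417259945) (nat_lit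 228) (nat_lit 1759101616) (nat_lit 26) (nat_lit 5) (nat_lit 28) (nat_lit 5) (nat_lit 29) (nat_lit 5) (nat_lit 520) (nat_lit 366) (nat_lit 254)) (XT.lf (nat_lit 0) (nat_lit 1771016658) (nat_lit 228) (nat_lit 19417292805) (nat_lit 76) (nat_lit 3921505233) (nat_lit 23) (nat_lit 5) (nat_lit 26) (nat_lit 5) (nat_lit 24) (nat_lit 5) (nat_lit 521) (nat_lit 366) (nat_lit 253)))) (XT.nd (nat_lit 156) (nat_lit 152) (nat_lit 0) (XT.nd (nat_lit 78) (nat_lit 0) (nat_lit 0) (XT.lf (nat_lit 0) (nat_lit 5349606204) (nat_lit 228) (nat_lit 11812567863) (nat_lit 76) (nat_lit 8356365971) (nat_lit 23) (nat_lit 5) (nat_lit 26) (nat_lit 5) (nat_lit 24) (nat_lit 5) (nat_lit 522) (nat_lit 366) (nat_lit 252)) (XT.lf (nat_lit 0) (nat_lit 8984019205) (nat_lit 228) (nat_lit 4083041744) (nat_lit 76) (nat_lit 12868699624) (nat_lit 23) (nat_lit 5) (nat_lit 26) (nat_lit 5) (nat_lit 24) (nat_lit 5) (nat_lit 523) (nat_lit 366) (nat_lit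 251))) (XT.nd (nat_lit 78) (nat_lit 0) (nat_lit 0) (XT.lf (nat_lit 0) (nat_lit 3824475419) (nat_lit 152) (nat_lit 8876036532) (nat_lit 228) (nat_lit 13660631345) (nat_lit 21) (nat_lit 5) (nat_lit 23) (nat_lit 5) (nat_lit 24) (nat_lit 5) (nat_lit 524) (nat_lit 366) (nat_lit 250)) (XT.lf (nat_lit 0) (nat_lit 11918907514) (nat_lit 152) (nat_lit 4584517001) (nat_lit 228) (nat_lit 10291372858) (nat_lit 21) (nat_lit 5) (nat_lit 23) (nat_lit 5) (nat_lit 24) (nat_lit 5) (nat_lit 525) (nat_lit 366) (nat_lit 249))))) (XT.nd (nat_lit 49998) (nat_lit 0) (nat_lit 34580) (XT.nd (nat_lit 78) (nat_lit 152) (nat_lit 0) (XT.lf (nat_lit 0) (nat_lit 20149167349) (nat_lit 152) (nat_lit 218218766) (nat_lit 228) (nat_lit 6870043988) (nat_lit 21) (nat_lit 5) (nat_lit 23) (nat_lit 5) (nat_lit 24) (nat_lit 5) (nat_lit 526) (nat_lit 366) (nat_lit 248)) (XT.nd (nat_lit 78) (nat_lit 76) (nat_lit 0) (XT.lf (nat_lit 0) (nat_lit 812494707)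 (nat_lit 76) (nat_lit 23514121294) (nat_lit 152) (nat_lit 3361944991) (nat_lit 20) (nat_lit 5) (nat_lit 21) (nat_lit 5) (nat_lit 22) (nat_lit 4) (nat_lit 527) (nat_lit 366) (nat_lit 247)) (XT.lf (nat_lit 0) (nat_lit 248041260) (nat_lit 152) (nat_lit 19209388045) (nat_lit 76) (nat_lit 8690570938) (nat_lit 19) (nat_lit 5) (nat_lit 21) (nat_lit 5) (nat_lit 20) (nat_lit 5) (nat_lit 528) (nat_lit 366) (nat_lit 246)))) (XT.nd (nat_lit 156) (nat_lit 1216) (nat_lit 0) (XT.nd (nat_lit 78) (nat_lit 1140) (nat_lit 0) (XT.lf (nat_lit 0) (nat_lit 3124022141) (nat_lit 988) (nat_lit 135507915) (nat_lit 988) (nat_lit 135507915) (nat_lit 505) (nat_lit 4) (nat_lit 518) (nat_lit 5) (nat_lit 518) (nat_lit 4) (nat_lit 406) (nat_lit 367) (nat_lit 367)) (XT.lf (nat_lit 0) (nat_lit 2773119007) (nat_lit 1140) (nat_lit 3205560754) (nat_lit 0) (nat_lit 839108140) (nat_lit 490) (nat_lit 5) (nat_lit 505) (nat_lit 4) (nat_lit 490)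 (nat_lit 4) (nat_lit 407) (nat_lit 367) (nat_lit 366))) (XT.nd (nat_lit 78) (nat_lit 76) (nat_lit 0) (XT.lf (nat_lit 0) (nat_lit 964245186) (nat_lit 1140) (nat_lit 4856524403) (nat_lit 1140) (nat_lit 1026424451) (nat_lit 475) (nat_lit 4) (nat_lit 490) (nat_lit 5) (nat_lit 490) (nat_lit 4) (nat_lit 408) (nat_lit 367) (nat_lit 365)) (XT.lf (nat_lit 0) (nat_lit 1981864349) (nat_lit 1216) (nat_lit 1685644834) (nat_lit 76) (nat_lit 3210377844) (nat_lit 474) (nat_lit 5) (nat_lit 490) (nat_lit 5) (nat_lit 475) (nat_lit 4) (nat_lit 409) (nat_lit 367) (nat_lit 364))))))) (XT.nd (nat_lit 1092) (nat_lit 6840) (nat_lit 0) (XT.nd (nat_lit 546) (nat_lit 5244) (nat_lit 0) (XT.nd (nat_lit 234) (nat_lit 4484) (nat_lit 0) (XT.nd (nat_lit 78) (nat_lit 1368) (nat_lit 0) (XT.lf (nat_lit 0) (nat_lit 2567262557) (nat_lit 1216) (nat_lit 2422210220) (nat_lit 1292) (nat_lit 1920622636) (nat_lit 458) (nat_lit 5) (nat_lit 474) (nat_lit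 5) (nat_lit 475) (nat_lit 4) (nat_lit 410) (nat_lit 367) (nat_lit 363)) (XT.nd (nat_lit 78) (nat_lit 1292) (nat_lit 0) (XT.lf (nat_lit 0) (nat_lit 1047660226) (nat_lit 1292) (nat_lit 77739932) (nat_lit 76) (nat_lit 5818534830) (nat_lit 457) (nat_lit 5) (nat_lit 474) (nat_lit 5) (nat_lit 458) (nat_lit 5) (nat_lit 411) (nat_lit 367) (nat_lit 362)) (XT.lf (nat_lit 0) (nat_lit 4016724417) (nat_lit 1368) (nat_lit 2719444888) (nat_lit 76) (nat_lit 242775183) (nat_lit 440) (nat_lit 5) (nat_lit 458) (nat_lit 5) (nat_lit 441) (nat_lit 4) (nat_lit 412) (nat_lit 367) (nat_lit 361)))) (XT.nd (nat_lit 156) (nat_lit 3040) (nat_lit 0) (XT.nd (nat_lit 78) (nat_lit 76) (nat_lit 0) (XT.lf (nat_lit 0) (nat_lit 1628099067) (nat_lit 1368) (nat_lit 5374376242) (nat_lit 1444) (nat_lit 13120701) (nat_lit 422) (nat_lit 5) (nat_lit 440) (nat_lit 5) (nat_lit 441) (nat_lit 4) (nat_lit 413) (nat_lit 367) (nat_lit 360)) (XT.lf (nat_lit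 0) (nat_lit 2913164125) (nat_lit 1444) (nat_lit 1028943575) (nat_lit 76) (nat_lit 3111418820) (nat_lit 421) (nat_lit 5) (nat_lit 440) (nat_lit 5) (nat_lit 422) (nat_lit 5) (nat_lit 414) (nat_lit 367) (nat_lit 359))) (XT.nd (nat_lit 78) (nat_lit 1596) (nat_lit 0) (XT.lf (nat_lit 0) (nat_lit 3406251332) (nat_lit 1444) (nat_lit 2453970454) (nat_lit 1520) (nat_lit 1232826531) (nat_lit 402) (nat_lit 5) (nat_lit 421) (nat_lit 5) (nat_lit 422) (nat_lit 5) (nat_lit 415) (nat_lit 367) (nat_lit 358)) (XT.lf (nat_lit 0) (nat_lit 753843489) (nat_lit 1520) (nat_lit 908786594) (nat_lit 1596) (nat_lit 5471535162) (nat_lit 381) (nat_lit 5) (nat_lit 401) (nat_lit 5) (nat_lit 402) (nat_lit 5) (nat_lit 416) (nat_lit 367) (nat_lit 357))))) (XT.nd (nat_lit 234) (nat_lit 3572) (nat_lit 0) (XT.nd (nat_lit 78) (nat_lit 1672) (nat_lit 0) (XT.lf (nat_lit 0) (nat_lit 4570218612) (nat_lit 1596) (nat_lit 1911524586) (nat_lit 76)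 (nat_lit 694861814) (nat_lit 381) (nat_lit 5) (nat_lit 402) (nat_lit 5) (nat_lit 382) (nat_lit 5) (nat_lit 417) (nat_lit 367) (nat_lit 356)) (XT.nd (nat_lit 78) (nat_lit 0) (nat_lit 0) (XT.lf (nat_lit 0) (nat_lit 277269122) (nat_lit 1672) (nat_lit 4602913029) (nat_lit 76) (nat_lit 2340438455) (nat_lit 359) (nat_lit 5) (nat_lit 381) (nat_lit 5) (nat_lit 360) (nat_lit 5) (nat_lit 418) (nat_lit 367) (nat_lit 355)) (XT.lf (nat_lit 0) (nat_lit 3139587377) (nat_lit 1672) (nat_lit 75055362) (nat_lit 76) (nat_lit 4051485009) (nat_lit 359) (nat_lit 5) (nat_lit 381) (nat_lit 5) (nat_lit 360) (nat_lit 5) (nat_lit 419) (nat_lit 367) (nat_lit 354)))) (XT.nd (nat_lit 156) (nat_lit 836) (nat_lit 0) (XT.nd (nat_lit 78) (nat_lit 1064) (nat_lit 0) (XT.lf (nat_lit 0) (nat_lit 4548220766) (nat_lit 1672) (nat_lit 1484524264) (nat_lit 1748) (nat_lit 1280400281) (nat_lit 337) (nat_lit 5) (nat_lit 359) (nat_lit 5) (nat_lit 360)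 (nat_lit 5) (nat_lit 420) (nat_lit 367) (nat_lit 353)) (XT.lf (nat_lit 0) (nat_lit 1560326967) (nat_lit 1064) (nat_lit 5501259563) (nat_lit 76) (nat_lit 300196409) (nat_lit 323) (nat_lit 5) (nat_lit 337) (nat_lit 5) (nat_lit 324) (nat_lit 5) (nat_lit 421) (nat_lit 367) (nat_lit 352))) (XT.nd (nat_lit 78) (nat_lit 836) (nat_lit 0) (XT.lf (nat_lit 0) (nat_lit 4414354168) (nat_lit 1064) (nat_lit 869536516) (nat_lit 76) (nat_lit 2127928748) (nat_lit 323) (nat_lit 5) (nat_lit 337) (nat_lit 5) (nat_lit 324) (nat_lit 5) (nat_lit 422) (nat_lit 367) (nat_lit 351)) (XT.lf (nat_lit 0) (nat_lit 3850378037) (nat_lit 836) (nat_lit 3446265122) (nat_lit 912) (nat_lit 166856515) (nat_lit 312) (nat_lit 5) (nat_lit 323) (nat_lit 5) (nat_lit 324) (nat_lit 5) (nat_lit 423) (nat_lit 367) (nat_lit 350)))))) (XT.nd (nat_lit 546) (nat_lit 3572) (nat_lit 0) (XT.nd (nat_lit 234) (nat_lit 1520) (nat_lit 0) (XT.nd (nat_lit 78) (nat_lit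 836) (nat_lit 0) (XT.lf (nat_lit 0) (nat_lit 1101774386) (nat_lit 836) (nat_lit 1542405767) (nat_lit 912) (nat_lit 4872554304) (nat_lit 300) (nat_lit 5) (nat_lit 311) (nat_lit 5) (nat_lit 312) (nat_lit 5) (nat_lit 424) (nat_lit 367) (nat_lit 349)) (XT.nd (nat_lit 78) (nat_lit 836) (nat_lit 0) (XT.lf (nat_lit 0) (nat_lit 5483351316) (nat_lit 912) (nat_lit 1670560329) (nat_lit 76) (nat_lit 417680074) (nat_lit 300) (nat_lit 5) (nat_lit 312) (nat_lit 5) (nat_lit 301) (nat_lit 5) (nat_lit 425) (nat_lit 367) (nat_lit 348)) (XT.lf (nat_lit 0) (nat_lit 720513428) (nat_lit 836) (nat_lit 4488011663) (nat_lit 76) (nat_lit 2419411519) (nat_lit 289) (nat_lit 5) (nat_lit 300) (nat_lit 5) (nat_lit 290) (nat_lit 5) (nat_lit 426) (nat_lit 367) (nat_lit 347)))) (XT.nd (nat_lit 156) (nat_lit 760) (nat_lit 0) (XT.nd (nat_lit 78) (nat_lit 0) (nat_lit 0) (XT.lf (nat_lit 0) (nat_lit 318981046) (nat_lit 760) (nat_lit 3200326174)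 (nat_lit 836) (nat_lit 4166647765) (nat_lit 279) (nat_lit 5) (nat_lit 289) (nat_lit 5) (nat_lit 290) (nat_lit 5) (nat_lit 427) (nat_lit 367) (nat_lit 346)) (XT.lf (nat_lit 0) (nat_lit 5227934704) (nat_lit 760) (nat_lit 1125357466) (nat_lit 836) (nat_lit 1392315270) (nat_lit 279) (nat_lit 5) (nat_lit 289) (nat_lit 5) (nat_lit 290) (nat_lit 5) (nat_lit 428) (nat_lit 367) (nat_lit 345))) (XT.nd (nat_lit 78) (nat_lit 0) (nat_lit 0) (XT.lf (nat_lit 0) (nat_lit 1390488685) (nat_lit 760) (nat_lit 5417542752) (nat_lit 76) (nat_lit 998853852) (nat_lit 269) (nat_lit 5) (nat_lit 279) (nat_lit 5) (nat_lit 270) (nat_lit 5) (nat_lit 429) (nat_lit 367) (nat_lit 344)) (XT.lf (nat_lit 0) (nat_lit 4185095722) (nat_lit 760) (nat_lit 512528677) (nat_lit 76) (nat_lit 3172139102) (nat_lit 269) (nat_lit 5) (nat_lit 279) (nat_lit 5) (nat_lit 270) (nat_lit 5) (nat_lit 430) (nat_lit 367) (nat_lit 343))))) (XT.nd (nat_lit 234)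 (nat_lit 2052) (nat_lit 0) (XT.nd (nat_lit 78) (nat_lit 760) (nat_lit 0) (XT.lf (nat_lit 0) (nat_lit 4495308636) (nat_lit 760) (nat_lit 2520760224) (nat_lit 836) (nat_lit 918274541) (nat_lit 259) (nat_lit 5) (nat_lit 269) (nat_lit 5) (nat_lit 270) (nat_lit 5) (nat_lit 431) (nat_lit 367) (nat_lit 342)) (XT.nd (nat_lit 78) (nat_lit 0) (nat_lit 0) (XT.lf (nat_lit 0) (nat_lit 1563657699) (nat_lit 684) (nat_lit 279961561) (nat_lit 760) (nat_lit 6157097253) (nat_lit 249) (nat_lit 5) (nat_lit 258) (nat_lit 5) (nat_lit 259) (nat_lit 5) (nat_lit 432) (nat_lit 367) (nat_lit 341)) (XT.lf (nat_lit 0) (nat_lit 4636799079) (nat_lit 760) (nat_lit 1429371367) (nat_lit 76) (nat_lit 2002408880) (nat_lit 249) (nat_lit 5) (nat_lit 259) (nat_lit 5) (nat_lit 250) (nat_lit 5) (nat_lit 433) (nat_lit 367) (nat_lit 340)))) (XT.nd (nat_lit 156) (nat_lit 684) (nat_lit 0) (XT.nd (nat_lit 78) (nat_lit 684) (nat_lit 0) (XT.lf (nat_lit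 0) (nat_lit 3670658383) (nat_lit 684) (nat_lit 3793889870) (nat_lit 760) (nat_lit 673726545) (nat_lit 240) (nat_lit 5) (nat_lit 249) (nat_lit 5) (nat_lit 250) (nat_lit 5) (nat_lit 434) (nat_lit 367) (nat_lit 339)) (XT.lf (nat_lit 0) (nat_lit 622692222) (nat_lit 608) (nat_lit 1455670885) (nat_lit 684) (nat_lit 6131432157) (nat_lit 231) (nat_lit 5) (nat_lit 239) (nat_lit 5) (nat_lit 240) (nat_lit 5) (nat_lit 435) (nat_lit 367) (nat_lit 338))) (XT.nd (nat_lit 78) (nat_lit 684) (nat_lit 0) (XT.lf (nat_lit 0) (nat_lit 4866445438) (nat_lit 684) (nat_lit 2472447334) (nat_lit 76) (nat_lit 944011522) (nat_lit 231) (nat_lit 5) (nat_lit 240) (nat_lit 5) (nat_lit 232) (nat_lit 5) (nat_lit 436) (nat_lit 367) (nat_lit 337)) (XT.lf (nat_lit 0) (nat_lit 2716594293) (nat_lit 684) (nat_lit 4975631429) (nat_lit 760) (nat_lit 665656803) (nat_lit 222) (nat_lit 5) (nat_lit 231) (nat_lit 5) (nat_lit 232) (nat_lit 5) (nat_lit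 437) (nat_lit 367) (nat_lit 336))))))))
noncomputable def xc71 : XT := (XT.nd (nat_lit 2106) (nat_lit 4408) (nat_lit 0) (XT.nd (nat_lit 1014) (nat_lit 3648) (nat_lit 0) (XT.nd (nat_lit 468) (nat_lit 2204) (nat_lit 0) (XT.nd (nat_lit 234) (nat_lit 1216) (nat_lit 0) (XT.nd (nat_lit 78) (nat_lit 1216) (nat_lit 0) (XT.lf (nat_lit 0) (nat_lit 2083652638) (nat_lit 760) (nat_lit 459287202) (nat_lit 76) (nat_lit 5891755348) (nat_lit 221) (nat_lit 5) (nat_lit 231) (nat_lit 5) (nat_lit 222) (nat_lit 5) (nat_lit 438) (nat_lit 367) (nat_lit 335)) (XT.nd (nat_lit 78) (nat_lit 608) (nat_lit 0) (XT.lf (nat_lit 0) (nat_lit 4832198212) (nat_lit 608) (nat_lit 33962854) (nat_lit 684) (nat_lit 3647095629) (nat_lit 213) (nat_lit 5) (nat_lit 221) (nat_lit 5) (nat_lit 222) (nat_lit 5) (nat_lit 439) (nat_lit 367) (nat_lit 334)) (XT.lf (nat_lit 0) (nat_lit 1593260403) (nat_lit 608) (nat_lit 6097111667) (nat_lit 684) (nat_lit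 903338579) (nat_lit 205) (nat_lit 5) (nat_lit 213) (nat_lit 5) (nat_lit 214) (nat_lit 5) (nat_lit 440) (nat_lit 367) (nat_lit 333)))) (XT.nd (nat_lit 78) (nat_lit 1140) (nat_lit 0) (XT.lf (nat_lit 0) (nat_lit 1851922252) (nat_lit 684) (nat_lit 1718908693) (nat_lit 76) (nat_lit 5105107534) (nat_lit 204) (nat_lit 5) (nat_lit 213) (nat_lit 5) (nat_lit 205) (nat_lit 5) (nat_lit 441) (nat_lit 367) (nat_lit 332)) (XT.nd (nat_lit 78) (nat_lit 608) (nat_lit 0) (XT.lf (nat_lit 0) (nat_lit 3657407281) (nat_lit 532) (nat_lit 973793338) (nat_lit 608) (nat_lit 4128910490) (nat_lit 197) (nat_lit 5) (nat_lit 204) (nat_lit 5) (nat_lit 205) (nat_lit 5) (nat_lit 442) (nat_lit 367) (nat_lit 331)) (XT.lf (nat_lit 0) (nat_lit 257931816) (nat_lit 608) (nat_lit 7189976293) (nat_lit 684) (nat_lit 1398461258) (nat_lit 189) (nat_lit 5) (nat_lit 197) (nat_lit 5) (nat_lit 198) (nat_lit 5) (nat_lit 443) (nat_lit 367) (nat_lit 330)))))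 (XT.nd (nat_lit 234) (nat_lit 1596) (nat_lit 0) (XT.nd (nat_lit 78) (nat_lit 532) (nat_lit 0) (XT.lf (nat_lit 0) (nat_lit 1367181460) (nat_lit 684) (nat_lit 3207956180) (nat_lit 76) (nat_lit 4359097227) (nat_lit 188) (nat_lit 5) (nat_lit 197) (nat_lit 5) (nat_lit 189) (nat_lit 5) (nat_lit 444) (nat_lit 367) (nat_lit 329)) (XT.nd (nat_lit 78) (nat_lit 0) (nat_lit 0) (XT.lf (nat_lit 0) (nat_lit 2247846103) (nat_lit 532) (nat_lit 1894856382) (nat_lit 608) (nat_lit 4881541290) (nat_lit 181) (nat_lit 5) (nat_lit 188) (nat_lit 5) (nat_lit 189) (nat_lit 5) (nat_lit 445) (nat_lit 367) (nat_lit 328)) (XT.lf (nat_lit 0) (nat_lit 6959928039) (nat_lit 608) (nat_lit 1317905758) (nat_lit 76) (nat_lit 838531256) (nat_lit 181) (nat_lit 5) (nat_lit 189) (nat_lit 5) (nat_lit 182) (nat_lit 5) (nat_lit 446) (nat_lit 367) (nat_lit 327)))) (XT.nd (nat_lit 156) (nat_lit 532) (nat_lit 0) (XT.nd (nat_lit 78) (nat_lit 456) (nat_lit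 0) (XT.lf (nat_lit 0) (nat_lit 614924166) (nat_lit 608) (nat_lit 4973487030) (nat_lit 76) (nat_lit 3621872754) (nat_lit 173) (nat_lit 5) (nat_lit 181) (nat_lit 5) (nat_lit 174) (nat_lit 5) (nat_lit 447) (nat_lit 367) (nat_lit 326)) (XT.lf (nat_lit 0) (nat_lit 555370029) (nat_lit 456) (nat_lit 2830037398) (nat_lit 532) (nat_lit 5920971319) (nat_lit 167) (nat_lit 5) (nat_lit 173) (nat_lit 5) (nat_lit 174) (nat_lit 5) (nat_lit 448) (nat_lit 367) (nat_lit 325))) (XT.nd (nat_lit 78) (nat_lit 532) (nat_lit 0) (XT.lf (nat_lit 0) (nat_lit 6205191079) (nat_lit 532) (nat_lit 3194149810) (nat_lit 76) (nat_lit 5210059) (nat_lit 167) (nat_lit 5) (nat_lit 174) (nat_lit 5) (nat_lit 168) (nat_lit 5) (nat_lit 449) (nat_lit 367) (nat_lit 324)) (XT.lf (nat_lit 0) (nat_lit 2435547834) (nat_lit 532) (nat_lit 6641556249) (nat_lit 608) (nat_lit 427700508) (nat_lit 160) (nat_lit 5) (nat_lit 167) (nat_lit 5) (nat_lit 168) (nat_lit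 5) (nat_lit 450) (nat_lit 367) (nat_lit 323)))))) (XT.nd (nat_lit 546) (nat_lit 1672) (nat_lit 0) (XT.nd (nat_lit 234) (nat_lit 988) (nat_lit 0) (XT.nd (nat_lit 78) (nat_lit 912) (nat_lit 0) (XT.lf (nat_lit 0) (nat_lit 2350821650) (nat_lit 608) (nat_lit 1452923768) (nat_lit 76) (nat_lit 5803379762) (nat_lit 159) (nat_lit 5) (nat_lit 167) (nat_lit 5) (nat_lit 160) (nat_lit 5) (nat_lit 451) (nat_lit 367) (nat_lit 322)) (XT.nd (nat_lit 78) (nat_lit 456) (nat_lit 0) (XT.lf (nat_lit 0) (nat_lit 4278322507) (nat_lit 456) (nat_lit 890727985) (nat_lit 532) (nat_lit 4542618670) (nat_lit 153) (nat_lit 5) (nat_lit 159) (nat_lit 5) (nat_lit 160) (nat_lit 5) (nat_lit 452) (nat_lit 367) (nat_lit 321)) (XT.lf (nat_lit 0) (nat_lit 264621953) (nat_lit 456) (nat_lit 7766476016) (nat_lit 532) (nat_lit 1787487159) (nat_lit 147) (nat_lit 5) (nat_lit 153) (nat_lit 5) (nat_lit 154) (nat_lit 5) (nat_lit 453) (nat_lit 367) (nat_lit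 320)))) (XT.nd (nat_lit 156) (nat_lit 456) (nat_lit 0) (XT.nd (nat_lit 78) (nat_lit 456) (nat_lit 0) (XT.lf (nat_lit 0) (nat_lit 1014479874) (nat_lit 532) (nat_lit 3840736544) (nat_lit 76) (nat_lit 5072216270) (nat_lit 146) (nat_lit 5) (nat_lit 153) (nat_lit 5) (nat_lit 147) (nat_lit 5) (nat_lit 454) (nat_lit 367) (nat_lit 319)) (XT.lf (nat_lit 0) (nat_lit 1950253657) (nat_lit 456) (nat_lit 1874262718) (nat_lit 532) (nat_lit 6214213670) (nat_lit 140) (nat_lit 5) (nat_lit 146) (nat_lit 5) (nat_lit 147) (nat_lit 5) (nat_lit 455) (nat_lit 367) (nat_lit 318))) (XT.nd (nat_lit 78) (nat_lit 456) (nat_lit 0) (XT.lf (nat_lit 0) (nat_lit 6687857717) (nat_lit 532) (nat_lit 2300932015) (nat_lit 76) (nat_lit 1163549420) (nat_lit 140) (nat_lit 5) (nat_lit 147) (nat_lit 5) (nat_lit 141) (nat_lit 5) (nat_lit 456) (nat_lit 367) (nat_lit 317)) (XT.lf (nat_lit 0) (nat_lit 3587415364) (nat_lit 456) (nat_lit 6021056310)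 (nat_lit 532) (nat_lit 659775990) (nat_lit 134) (nat_lit 5) (nat_lit 140) (nat_lit 5) (nat_lit 141) (nat_lit 5) (nat_lit 457) (nat_lit 367) (nat_lit 316))))) (XT.nd (nat_lit 234) (nat_lit 836) (nat_lit 0) (XT.nd (nat_lit 78) (nat_lit 760) (nat_lit 0) (XT.lf (nat_lit 0) (nat_lit 2152120837) (nat_lit 532) (nat_lit 825596889) (nat_lit 76) (nat_lit 7408897803) (nat_lit 133) (nat_lit 5) (nat_lit 140) (nat_lit 5) (nat_lit 134) (nat_lit 5) (nat_lit 458) (nat_lit 367) (nat_lit 315)) (XT.nd (nat_lit 78) (nat_lit 380) (nat_lit 0) (XT.lf (nat_lit 0) (nat_lit 5011040767) (nat_lit 456) (nat_lit 5347015757) (nat_lit 76) (nat_lit 149240375) (nat_lit 128) (nat_lit 5) (nat_lit 134) (nat_lit 5) (nat_lit 129) (nat_lit 5) (nat_lit 459) (nat_lit 367) (nat_lit 314)) (XT.lf (nat_lit 0) (nat_lit 585624359) (nat_lit 380) (nat_lit 7336011583) (nat_lit 456) (nat_lit 2708891276) (nat_lit 123) (nat_lit 5) (nat_lit 128) (nat_lit 5)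 (nat_lit 129) (nat_lit 5) (nat_lit 460) (nat_lit 367) (nat_lit 313)))) (XT.nd (nat_lit 156) (nat_lit 380) (nat_lit 0) (XT.nd (nat_lit 78) (nat_lit 380) (nat_lit 0) (XT.lf (nat_lit 0) (nat_lit 134087859) (nat_lit 456) (nat_lit 4096462180) (nat_lit 76) (nat_lit 6525646403) (nat_lit 122) (nat_lit 5) (nat_lit 128) (nat_lit 5) (nat_lit 123) (nat_lit 5) (nat_lit 461) (nat_lit 367) (nat_lit 312)) (XT.lf (nat_lit 0) (nat_lit 1930039992) (nat_lit 380) (nat_lit 1046364241) (nat_lit 456) (nat_lit 7908065508) (nat_lit 117) (nat_lit 5) (nat_lit 122) (nat_lit 5) (nat_lit 123) (nat_lit 5) (nat_lit 462) (nat_lit 367) (nat_lit 311))) (XT.nd (nat_lit 78) (nat_lit 380) (nat_lit 0) (XT.lf (nat_lit 0) (nat_lit 5883974238) (nat_lit 456) (nat_lit 2945194865) (nat_lit 76) (nat_lit 2185994589) (nat_lit 117) (nat_lit 5) (nat_lit 123) (nat_lit 5) (nat_lit 118) (nat_lit 5) (nat_lit 463) (nat_lit 367) (nat_lit 310)) (XT.lf (nat_lit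 0) (nat_lit 3171277918) (nat_lit 380) (nat_lit 5673037529) (nat_lit 456) (nat_lit 2304286556) (nat_lit 112) (nat_lit 5) (nat_lit 117) (nat_lit 5) (nat_lit 118) (nat_lit 5) (nat_lit 464) (nat_lit 367) (nat_lit 309))))))) (XT.nd (nat_lit 1092) (nat_lit 1976) (nat_lit 0) (XT.nd (nat_lit 546) (nat_lit 988) (nat_lit 0) (XT.nd (nat_lit 234) (nat_lit 1064) (nat_lit 0) (XT.nd (nat_lit 78) (nat_lit 304) (nat_lit 0) (XT.lf (nat_lit 0) (nat_lit 558653824) (nat_lit 456) (nat_lit 1885955667) (nat_lit 76) (nat_lit 8840304465) (nat_lit 111) (nat_lit 5) (nat_lit 117) (nat_lit 5) (nat_lit 112) (nat_lit 5) (nat_lit 465) (nat_lit 367) (nat_lit 308)) (XT.nd (nat_lit 78) (nat_lit 0) (nat_lit 0) (XT.lf (nat_lit 0) (nat_lit 3449631304) (nat_lit 380) (nat_lit 7107606137) (nat_lit 76) (nat_lit 866398986) (nat_lit 107) (nat_lit 5) (nat_lit 112) (nat_lit 5) (nat_lit 108) (nat_lit 5) (nat_lit 466) (nat_lit 367) (nat_lit 307)) (XT.lf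 (nat_lit 0) (nat_lit 6395434166) (nat_lit 380) (nat_lit 960604701) (nat_lit 76) (nat_lit 4209175494) (nat_lit 107) (nat_lit 5) (nat_lit 112) (nat_lit 5) (nat_lit 108) (nat_lit 5) (nat_lit 467) (nat_lit 367) (nat_lit 306)))) (XT.nd (nat_lit 156) (nat_lit 608) (nat_lit 0) (XT.nd (nat_lit 78) (nat_lit 76) (nat_lit 0) (XT.lf (nat_lit 0) (nat_lit 5333132952) (nat_lit 380) (nat_lit 4070349113) (nat_lit 456) (nat_lit 2306095930) (nat_lit 102) (nat_lit 5) (nat_lit 107) (nat_lit 5) (nat_lit 108) (nat_lit 5) (nat_lit 468) (nat_lit 367) (nat_lit 305)) (XT.lf (nat_lit 0) (nat_lit 582080386) (nat_lit 456) (nat_lit 141247979) (nat_lit 76) (nat_lit 11133934961) (nat_lit 101) (nat_lit 5) (nat_lit 107) (nat_lit 5) (nat_lit 102) (nat_lit 5) (nat_lit 469) (nat_lit 367) (nat_lit 304))) (XT.nd (nat_lit 78) (nat_lit 304) (nat_lit 0) (XT.lf (nat_lit 0) (nat_lit 3524831978) (nat_lit 380) (nat_lit 5785315759) (nat_lit 76) (nat_lit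 2696915477) (nat_lit 97) (nat_lit 5) (nat_lit 102) (nat_lit 5) (nat_lit 98) (nat_lit 5) (nat_lit 470) (nat_lit 367) (nat_lit 303)) (XT.lf (nat_lit 0) (nat_lit 510371631) (nat_lit 304) (nat_lit 5994741689) (nat_lit 380) (nat_lit 5655191426) (nat_lit 93) (nat_lit 5) (nat_lit 97) (nat_lit 5) (nat_lit 98) (nat_lit 5) (nat_lit 471) (nat_lit 367) (nat_lit 302))))) (XT.nd (nat_lit 234) (nat_lit 608) (nat_lit 0) (XT.nd (nat_lit 78) (nat_lit 380) (nat_lit 0) (XT.lf (nat_lit 0) (nat_lit 6965091505) (nat_lit 304) (nat_lit 2588649585) (nat_lit 380) (nat_lit 2762713970) (nat_lit 93) (nat_lit 5) (nat_lit 97) (nat_lit 5) (nat_lit 98) (nat_lit 5) (nat_lit 472) (nat_lit 367) (nat_lit 301)) (XT.nd (nat_lit 78) (nat_lit 0) (nat_lit 0) (XT.lf (nat_lit 0) (nat_lit 167908868) (nat_lit 380) (nat_lit 11441103248) (nat_lit 76) (nat_lit 867054809) (nat_lit 88) (nat_lit 5) (nat_lit 93) (nat_lit 5) (nat_lit 89) (nat_lit 5) (nat_lit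 473) (nat_lit 367) (nat_lit 300)) (XT.lf (nat_lit 0) (nat_lit 3143967471) (nat_lit 380) (nat_lit 5097313629) (nat_lit 76) (nat_lit 4396766060) (nat_lit 88) (nat_lit 5) (nat_lit 93) (nat_lit 5) (nat_lit 89) (nat_lit 5) (nat_lit 474) (nat_lit 367) (nat_lit 299)))) (XT.nd (nat_lit 156) (nat_lit 304) (nat_lit 0) (XT.nd (nat_lit 78) (nat_lit 0) (nat_lit 0) (XT.lf (nat_lit 0) (nat_lit 1346859123) (nat_lit 304) (nat_lit 4812501265) (nat_lit 380) (nat_lit 6644327685) (nat_lit 84) (nat_lit 5) (nat_lit 88) (nat_lit 5) (nat_lit 89) (nat_lit 5) (nat_lit 475) (nat_lit 367) (nat_lit 298)) (XT.lf (nat_lit 0) (nat_lit 7945144308) (nat_lit 304) (nat_lit 1295473429) (nat_lit 380) (nat_lit 3731929932) (nat_lit 84) (nat_lit 5) (nat_lit 88) (nat_lit 5) (nat_lit 89) (nat_lit 5) (nat_lit 476) (nat_lit 367) (nat_lit 297))) (XT.nd (nat_lit 78) (nat_lit 76) (nat_lit 0) (XT.lf (nat_lit 0) (nat_lit 1491807691) (nat_lit 228) (nat_lit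 10888074649) (nat_lit 304) (nat_lit 764991140) (nat_lit 81) (nat_lit 5) (nat_lit 84) (nat_lit 5) (nat_lit 85) (nat_lit 5) (nat_lit 477) (nat_lit 367) (nat_lit 296)) (XT.lf (nat_lit 0) (nat_lit 2246055451) (nat_lit 304) (nat_lit 5177496211) (nat_lit 76) (nat_lit 5896528000) (nat_lit 80) (nat_lit 5) (nat_lit 84) (nat_lit 5) (nat_lit 81) (nat_lit 5) (nat_lit 478) (nat_lit 367) (nat_lit 295)))))) (XT.nd (nat_lit 546) (nat_lit 1064) (nat_lit 0) (XT.nd (nat_lit 234) (nat_lit 380) (nat_lit 0) (XT.nd (nat_lit 78) (nat_lit 228) (nat_lit 0) (XT.lf (nat_lit 0) (nat_lit 1398118511) (nat_lit 304) (nat_lit 3890486522) (nat_lit 380) (nat_lit 8210469001) (nat_lit 76) (nat_lit 5) (nat_lit 80) (nat_lit 5) (nat_lit 81) (nat_lit 5) (nat_lit 479) (nat_lit 367) (nat_lit 294)) (XT.nd (nat_lit 78) (nat_lit 228) (nat_lit 0) (XT.lf (nat_lit 0) (nat_lit 8132972356) (nat_lit 304) (nat_lit 266479952) (nat_lit 380) (nat_lit 5282062444)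 (nat_lit 76) (nat_lit 5) (nat_lit 80) (nat_lit 5) (nat_lit 81) (nat_lit 5) (nat_lit 480) (nat_lit 367) (nat_lit 293)) (XT.lf (nat_lit 0) (nat_lit 1084799581) (nat_lit 228) (nat_lit 10490171793) (nat_lit 304) (nat_lit 2292598908) (nat_lit 73) (nat_lit 5) (nat_lit 76) (nat_lit 5) (nat_lit 77) (nat_lit 5) (nat_lit 481) (nat_lit 367) (nat_lit 292)))) (XT.nd (nat_lit 156) (nat_lit 0) (nat_lit 0) (XT.nd (nat_lit 78) (nat_lit 304) (nat_lit 0) (XT.lf (nat_lit 0) (nat_lit 759181417) (nat_lit 304) (nat_lit 6179676579) (nat_lit 76) (nat_lit 7118156155) (nat_lit 72) (nat_lit 5) (nat_lit 76) (nat_lit 5) (nat_lit 73) (nat_lit 5) (nat_lit 482) (nat_lit 367) (nat_lit 291)) (XT.lf (nat_lit 0) (nat_lit 505583714) (nat_lit 304) (nat_lit 3312758569) (nat_lit 380) (nat_lit 10432074898) (nat_lit 68) (nat_lit 5) (nat_lit 72) (nat_lit 5) (nat_lit 73) (nat_lit 5) (nat_lit 483) (nat_lit 367) (nat_lit 290))) (XT.nd (nat_lit 78)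 (nat_lit 0) (nat_lit 0) (XT.lf (nat_lit 0) (nat_lit 6956817384) (nat_lit 380) (nat_lit 7082830823) (nat_lit 76) (nat_lit 407691388) (nat_lit 68) (nat_lit 5) (nat_lit 73) (nat_lit 5) (nat_lit 69) (nat_lit 5) (nat_lit 484) (nat_lit 367) (nat_lit 289)) (XT.lf (nat_lit 0) (nat_lit 10154395126) (nat_lit 380) (nat_lit 350221414) (nat_lit 76) (nat_lit 4143670923) (nat_lit 68) (nat_lit 5) (nat_lit 73) (nat_lit 5) (nat_lit 69) (nat_lit 5) (nat_lit 485) (nat_lit 367) (nat_lit 288))))) (XT.nd (nat_lit 234) (nat_lit 532) (nat_lit 0) (XT.nd (nat_lit 78) (nat_lit 304) (nat_lit 0) (XT.lf (nat_lit 0) (nat_lit 6563221455) (nat_lit 228) (nat_lit 6870212170) (nat_lit 304) (nat_lit 1419483883) (nat_lit 65) (nat_lit 5) (nat_lit 68) (nat_lit 5) (nat_lit 69) (nat_lit 5) (nat_lit 486) (nat_lit 367) (nat_lit 287)) (XT.nd (nat_lit 78) (nat_lit 228) (nat_lit 0) (XT.lf (nat_lit 0) (nat_lit 1671221063) (nat_lit 304) (nat_lit 1493052092)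 (nat_lit 76) (nat_lit 11897610609) (nat_lit 64) (nat_lit 5) (nat_lit 68) (nat_lit 5) (nat_lit 65) (nat_lit 5) (nat_lit 487) (nat_lit 367) (nat_lit 286)) (XT.lf (nat_lit 0) (nat_lit 4819862534) (nat_lit 304) (nat_lit 9816265001) (nat_lit 76) (nat_lit 638424198) (nat_lit 61) (nat_lit 5) (nat_lit 65) (nat_lit 5) (nat_lit 62) (nat_lit 5) (nat_lit 488) (nat_lit 367) (nat_lit 285)))) (XT.nd (nat_lit 156) (nat_lit 304) (nat_lit 0) (XT.nd (nat_lit 78) (nat_lit 228) (nat_lit 0) (XT.lf (nat_lit 0) (nat_lit 8038096355) (nat_lit 304) (nat_lit 2982745509) (nat_lit 76) (nat_lit 4470511188) (nat_lit 61) (nat_lit 5) (nat_lit 65) (nat_lit 5) (nat_lit 62) (nat_lit 5) (nat_lit 489) (nat_lit 367) (nat_lit 284)) (XT.lf (nat_lit 0) (nat_lit 4001352165) (nat_lit 228) (nat_lit 7321379523) (nat_lit 304) (nat_lit 4389730110) (nat_lit 58) (nat_lit 5) (nat_lit 61) (nat_lit 5) (nat_lit 62) (nat_lit 5) (nat_lit 490) (nat_lit 367)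 (nat_lit 283))) (XT.nd (nat_lit 78) (nat_lit 304) (nat_lit 0) (XT.lf (nat_lit 0) (nat_lit 11127246787) (nat_lit 228) (nat_lit 3542106821) (nat_lit 304) (nat_lit 1268725134) (nat_lit 58) (nat_lit 5) (nat_lit 61) (nat_lit 5) (nat_lit 62) (nat_lit 5) (nat_lit 491) (nat_lit 367) (nat_lit 282)) (XT.lf (nat_lit 0) (nat_lit 1882603080) (nat_lit 304) (nat_lit 13964202267) (nat_lit 76) (nat_lit 321305192) (nat_lit 54) (nat_lit 5) (nat_lit 58) (nat_lit 5) (nat_lit 55) (nat_lit 5) (nat_lit 492) (nat_lit 367) (nat_lit 281))))))))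
noncomputable def xc72 : XT := (XT.nd (nat_lit 2106) (nat_lit 456) (nat_lit 0) (XT.nd (nat_lit 1014) (nat_lit 988) (nat_lit 0) (XT.nd (nat_lit 468) (nat_lit 608) (nat_lit 0) (XT.nd (nat_lit 234) (nat_lit 304) (nat_lit 0) (XT.nd (nat_lit 78) (nat_lit 228) (nat_lit 0) (XT.lf (nat_lit 0) (nat_lit 5112639056) (nat_lit 304) (nat_lit 7048036219) (nat_lit 76) (nat_lit 4241257796) (nat_lit 54) (nat_lit 5) (nat_lit 58) (nat_lit 5) (nat_lit 55) (nat_lit 5) (nat_lit 493) (nat_lit 367) (nat_lit 280)) (XT.nd (nat_lit 78) (nat_lit 228) (nat_lit 0) (XT.lf (nat_lit 0) (nat_lit 8384431511) (nat_lit 304) (nat_lit 30822047) (nat_lit 76) (nat_lit 8225646374) (nat_lit 54) (nat_lit 5) (nat_lit 58) (nat_lit 5) (nat_lit 55) (nat_lit 5) (nat_lit 494) (nat_lit 367) (nat_lit 279)) (XT.lf (nat_lit 0) (nat_lit 7184417017) (nat_lit 228) (nat_lit 4561492484) (nat_lit 304) (nat_lit 5138262415) (nat_lit 51) (nat_lit 5) (nat_lit 54) (nat_lit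 5) (nat_lit 55) (nat_lit 5) (nat_lit 495) (nat_lit 367) (nat_lit 278)))) (XT.nd (nat_lit 78) (nat_lit 304) (nat_lit 0) (XT.lf (nat_lit 0) (nat_lit 14508074777) (nat_lit 228) (nat_lit 644556227) (nat_lit 304) (nat_lit 1980128624) (nat_lit 51) (nat_lit 5) (nat_lit 54) (nat_lit 5) (nat_lit 55) (nat_lit 5) (nat_lit 496) (nat_lit 367) (nat_lit 277)) (XT.nd (nat_lit 78) (nat_lit 0) (nat_lit 0) (XT.lf (nat_lit 0) (nat_lit 1254814115) (nat_lit 304) (nat_lit 12799549373) (nat_lit 76) (nat_lit 3331206105) (nat_lit 47) (nat_lit 5) (nat_lit 51) (nat_lit 5) (nat_lit 48) (nat_lit 5) (nat_lit 497) (nat_lit 367) (nat_lit 276)) (XT.lf (nat_lit 0) (nat_lit 4528160383) (nat_lit 304) (nat_lit 5720075438) (nat_lit 76) (nat_lit 7394943749) (nat_lit 47) (nat_lit 5) (nat_lit 51) (nat_lit 5) (nat_lit 48) (nat_lit 5) (nat_lit 498) (nat_lit 367) (nat_lit 275))))) (XT.nd (nat_lit 234) (nat_lit 456) (nat_lit 0) (XT.nd (nat_lit 78)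 (nat_lit 0) (nat_lit 0) (XT.lf (nat_lit 0) (nat_lit 1485161260) (nat_lit 152) (nat_lit 6370078073) (nat_lit 228) (nat_lit 10050946861) (nat_lit 45) (nat_lit 5) (nat_lit 47) (nat_lit 5) (nat_lit 48) (nat_lit 5) (nat_lit 499) (nat_lit 367) (nat_lit 274)) (XT.nd (nat_lit 78) (nat_lit 0) (nat_lit 0) (XT.lf (nat_lit 0) (nat_lit 8876967218) (nat_lit 152) (nat_lit 2389091906) (nat_lit 228) (nat_lit 6908059412) (nat_lit 45) (nat_lit 5) (nat_lit 47) (nat_lit 5) (nat_lit 48) (nat_lit 5) (nat_lit 500) (nat_lit 367) (nat_lit 273)) (XT.lf (nat_lit 0) (nat_lit 14735089439) (nat_lit 228) (nat_lit 2076374099) (nat_lit 76) (nat_lit 1636155487) (nat_lit 45) (nat_lit 5) (nat_lit 48) (nat_lit 5) (nat_lit 46) (nat_lit 5) (nat_lit 501) (nat_lit 367) (nat_lit 272)))) (XT.nd (nat_lit 156) (nat_lit 152) (nat_lit 0) (XT.nd (nat_lit 78) (nat_lit 76) (nat_lit 0) (XT.lf (nat_lit 0) (nat_lit 5308579353) (nat_lit 228) (nat_lit 12994760164)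 (nat_lit 304) (nat_lit 422662424) (nat_lit 42) (nat_lit 5) (nat_lit 45) (nat_lit 5) (nat_lit 46) (nat_lit 5) (nat_lit 502) (nat_lit 367) (nat_lit 271)) (XT.lf (nat_lit 0) (nat_lit 2888149894) (nat_lit 304) (nat_lit 6193528070) (nat_lit 76) (nat_lit 9928030240) (nat_lit 41) (nat_lit 5) (nat_lit 45) (nat_lit 5) (nat_lit 42) (nat_lit 5) (nat_lit 503) (nat_lit 367) (nat_lit 270))) (XT.nd (nat_lit 78) (nat_lit 0) (nat_lit 0) (XT.lf (nat_lit 0) (nat_lit 1153748805) (nat_lit 152) (nat_lit 5093255438) (nat_lit 228) (nat_lit 13052287437) (nat_lit 39) (nat_lit 5) (nat_lit 41) (nat_lit 5) (nat_lit 42) (nat_lit 5) (nat_lit 504) (nat_lit 367) (nat_lit 269)) (XT.lf (nat_lit 0) (nat_lit 8698717977) (nat_lit 152) (nat_lit 996045341) (nat_lit 228) (nat_lit 9899477454) (nat_lit 39) (nat_lit 5) (nat_lit 41) (nat_lit 5) (nat_lit 42) (nat_lit 5) (nat_lit 505) (nat_lit 367) (nat_lit 268)))))) (XT.nd (nat_lit 546) (nat_lit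 380) (nat_lit 0) (XT.nd (nat_lit 234) (nat_lit 380) (nat_lit 0) (XT.nd (nat_lit 78) (nat_lit 228) (nat_lit 0) (XT.lf (nat_lit 0) (nat_lit 13212614011) (nat_lit 228) (nat_lit 3554038282) (nat_lit 76) (nat_lit 3128422157) (nat_lit 39) (nat_lit 5) (nat_lit 42) (nat_lit 5) (nat_lit 40) (nat_lit 5) (nat_lit 506) (nat_lit 367) (nat_lit 267)) (XT.nd (nat_lit 78) (nat_lit 0) (nat_lit 0) (XT.lf (nat_lit 0) (nat_lit 3947223519) (nat_lit 228) (nat_lit 12866675047) (nat_lit 304) (nat_lit 3387772866) (nat_lit 36) (nat_lit 5) (nat_lit 39) (nat_lit 5) (nat_lit 40) (nat_lit 5) (nat_lit 507) (nat_lit 367) (nat_lit 266)) (XT.lf (nat_lit 0) (nat_lit 11614673866) (nat_lit 228) (nat_lit 8877404539) (nat_lit 304) (nat_lit 22232567) (nat_lit 36) (nat_lit 5) (nat_lit 39) (nat_lit 5) (nat_lit 40) (nat_lit 5) (nat_lit 508) (nat_lit 367) (nat_lit 265)))) (XT.nd (nat_lit 156) (nat_lit 152) (nat_lit 0) (XT.nd (nat_lit 78) (nat_lit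 152) (nat_lit 0) (XT.lf (nat_lit 0) (nat_lit 3347148961) (nat_lit 304) (nat_lit 1451515724) (nat_lit 76) (nat_lit 16034478209) (nat_lit 35) (nat_lit 5) (nat_lit 39) (nat_lit 5) (nat_lit 36) (nat_lit 5) (nat_lit 509) (nat_lit 367) (nat_lit 264)) (XT.lf (nat_lit 0) (nat_lit 6195656784) (nat_lit 152) (nat_lit 609818959) (nat_lit 228) (nat_lit 14352443212) (nat_lit 33) (nat_lit 5) (nat_lit 35) (nat_lit 5) (nat_lit 36) (nat_lit 5) (nat_lit 510) (nat_lit 367) (nat_lit 263))) (XT.nd (nat_lit 78) (nat_lit 152) (nat_lit 0) (XT.lf (nat_lit 0) (nat_lit 10348262366) (nat_lit 228) (nat_lit 7528500073) (nat_lit 76) (nat_lit 3612129630) (nat_lit 33) (nat_lit 5) (nat_lit 36) (nat_lit 5) (nat_lit 34) (nat_lit 5) (nat_lit 511) (nat_lit 367) (nat_lit 262)) (XT.lf (nat_lit 0) (nat_lit 19659602) (nat_lit 152) (nat_lit 13928477000) (nat_lit 228) (nat_lit 7878630662) (nat_lit 31) (nat_lit 5) (nat_lit 33) (nat_lit 5) (nat_lit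 34) (nat_lit 5) (nat_lit 512) (nat_lit 367) (nat_lit 261))))) (XT.nd (nat_lit 234) (nat_lit 152) (nat_lit 0) (XT.nd (nat_lit 78) (nat_lit 228) (nat_lit 0) (XT.lf (nat_lit 0) (nat_lit 7790536941) (nat_lit 152) (nat_lit 9862212228) (nat_lit 228) (nat_lit 4518003086) (nat_lit 31) (nat_lit 5) (nat_lit 33) (nat_lit 5) (nat_lit 34) (nat_lit 5) (nat_lit 513) (nat_lit 367) (nat_lit 260)) (XT.nd (nat_lit 78) (nat_lit 228) (nat_lit 0) (XT.lf (nat_lit 0) (nat_lit 15687129543) (nat_lit 152) (nat_lit 5726893709) (nat_lit 228) (nat_lit 1107949282) (nat_lit 31) (nat_lit 5) (nat_lit 33) (nat_lit 5) (nat_lit 34) (nat_lit 5) (nat_lit 514) (nat_lit 367) (nat_lit 259)) (XT.lf (nat_lit 0) (nat_lit 827545303) (nat_lit 152) (nat_lit 1499837409) (nat_lit 228) (nat_lit 20552770133) (nat_lit 28) (nat_lit 5) (nat_lit 30) (nat_lit 5) (nat_lit 31) (nat_lit 5) (nat_lit 515) (nat_lit 367) (nat_lit 258)))) (XT.nd (nat_lit 156) (nat_lit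 152) (nat_lit 0) (XT.nd (nat_lit 78) (nat_lit 0) (nat_lit 0) (XT.lf (nat_lit 0) (nat_lit 5863885368) (nat_lit 228) (nat_lit 14564078337) (nat_lit 76) (nat_lit 2816447167) (nat_lit 28) (nat_lit 5) (nat_lit 31) (nat_lit 5) (nat_lit 29) (nat_lit 5) (nat_lit 516) (nat_lit 367) (nat_lit 257)) (XT.lf (nat_lit 0) (nat_lit 9464247485) (nat_lit 228) (nat_lit 6964565532) (nat_lit 76) (nat_lit 7187284896) (nat_lit 28) (nat_lit 5) (nat_lit 31) (nat_lit 5) (nat_lit 29) (nat_lit 5) (nat_lit 517) (nat_lit 367) (nat_lit 256))) (XT.nd (nat_lit 78) (nat_lit 0) (nat_lit 0) (XT.lf (nat_lit 0) (nat_lit 768731056) (nat_lit 152) (nat_lit 12356403085) (nat_lit 228) (nat_lit 10870320522) (nat_lit 26) (nat_lit 5) (nat_lit 28) (nat_lit 5) (nat_lit 29) (nat_lit 5) (nat_lit 518) (nat_lit 367) (nat_lit 255)) (XT.lf (nat_lit 0) (nat_lit 8722997688) (nat_lit 152) (nat_lit 8166643487) (nat_lit 228) (nat_lit 7492155511) (nat_lit 26) (nat_lit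 5) (nat_lit 28) (nat_lit 5) (nat_lit 29) (nat_lit 5) (nat_lit 519) (nat_lit 367) (nat_lit 254))))))) (XT.nd (nat_lit 50622) (nat_lit 0) (nat_lit 23028) (XT.nd (nat_lit 468) (nat_lit 76) (nat_lit 0) (XT.nd (nat_lit 234) (nat_lit 152) (nat_lit 0) (XT.nd (nat_lit 78) (nat_lit 228) (nat_lit 0) (XT.lf (nat_lit 0) (nat_lit 16808798272) (nat_lit 152) (nat_lit 3904627080) (nat_lit 228) (nat_lit 4062766527) (nat_lit 26) (nat_lit 5) (nat_lit 28) (nat_lit 5) (nat_lit 29) (nat_lit 5) (nat_lit 520) (nat_lit 367) (nat_lit 253)) (XT.nd (nat_lit 78) (nat_lit 228) (nat_lit 0) (XT.lf (nat_lit 0) (nat_lit 24600786596) (nat_lit 228) (nat_lit 152291598) (nat_lit 76) (nat_lit 425660706) (nat_lit 26) (nat_lit 5) (nat_lit 29) (nat_lit 5) (nat_lit 27) (nat_lit 4) (nat_lit 521) (nat_lit 367) (nat_lit 252)) (XT.lf (nat_lit 0) (nat_lit 2999412430) (nat_lit 228) (nat_lit 17738101931) (nat_lit 76) (nat_lit 4850203856) (nat_lit 23)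 (nat_lit 5) (nat_lit 26) (nat_lit 5) (nat_lit 24) (nat_lit 5) (nat_lit 522) (nat_lit 367) (nat_lit 251)))) (XT.nd (nat_lit 78) (nat_lit 152) (nat_lit 0) (XT.lf (nat_lit 0) (nat_lit 6626182091) (nat_lit 228) (nat_lit 10021822426) (nat_lit 76) (nat_lit 9357089878) (nat_lit 23) (nat_lit 5) (nat_lit 26) (nat_lit 5) (nat_lit 24) (nat_lit 5) (nat_lit 523) (nat_lit 367) (nat_lit 250)) (XT.nd (nat_lit 78) (nat_lit 152) (nat_lit 0) (XT.lf (nat_lit 0) (nat_lit 10310350337) (nat_lit 228) (nat_lit 2177450821) (nat_lit 76) (nat_lit 13943325172) (nat_lit 23) (nat_lit 5) (nat_lit 26) (nat_lit 5) (nat_lit 24) (nat_lit 5) (nat_lit 524) (nat_lit 367) (nat_lit 249)) (XT.lf (nat_lit 0) (nat_lit 5875142661) (nat_lit 152) (nat_lit 8216364600) (nat_lit 228) (nat_lit 12773710925) (nat_lit 21) (nat_lit 5) (nat_lit 23) (nat_lit 5) (nat_lit 24) (nat_lit 5) (nat_lit 525) (nat_lit 367) (nat_lit 248))))) (XT.nd (nat_lit 49842) (nat_lit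 0) (nat_lit 35720) (XT.nd (nat_lit 78) (nat_lit 76) (nat_lit 0) (XT.lf (nat_lit 0) (nat_lit 14092754030) (nat_lit 152) (nat_lit 3855430221) (nat_lit 228) (nat_lit 9359814975) (nat_lit 21) (nat_lit 5) (nat_lit 23) (nat_lit 5) (nat_lit 24) (nat_lit 5) (nat_lit 526) (nat_lit 367) (nat_lit 247)) (XT.nd (nat_lit 78) (nat_lit 76) (nat_lit 0) (XT.lf (nat_lit 0) (nat_lit 21871347775) (nat_lit 228) (nat_lit 5314040274) (nat_lit 76) (nat_lit 574465959) (nat_lit 21) (nat_lit 5) (nat_lit 24) (nat_lit 5) (nat_lit 22) (nat_lit 4) (nat_lit 527) (nat_lit 367) (nat_lit 246)) (XT.lf (nat_lit 0) (nat_lit 2730691505) (nat_lit 76) (nat_lit 23171334041) (nat_lit 152) (nat_lit 2318144397) (nat_lit 20) (nat_lit 5) (nat_lit 21) (nat_lit 5) (nat_lit 22) (nat_lit 4) (nat_lit 528) (nat_lit 367) (nat_lit 245)))) (XT.nd (nat_lit 156) (nat_lit 1140) (nat_lit 0) (XT.nd (nat_lit 78) (nat_lit 988) (nat_lit 0) (XT.lf (nat_lit 0) (nat_lit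 1201377672) (nat_lit 988) (nat_lit 966074324) (nat_lit 0) (nat_lit 1201377672) (nat_lit 518) (nat_lit 5) (nat_lit 531) (nat_lit 4) (nat_lit 518) (nat_lit 4) (nat_lit 404) (nat_lit 368) (nat_lit 368)) (XT.lf (nat_lit 0) (nat_lit 2117887818) (nat_lit 988) (nat_lit 3328818832) (nat_lit 988) (nat_lit 1316673926) (nat_lit 505) (nat_lit 4) (nat_lit 518) (nat_lit 5) (nat_lit 518) (nat_lit 4) (nat_lit 405) (nat_lit 368) (nat_lit 367))) (XT.nd (nat_lit 78) (nat_lit 1064) (nat_lit 0) (XT.lf (nat_lit 0) (nat_lit 1685381518) (nat_lit 1064) (nat_lit 580365323) (nat_lit 76) (nat_lit 4524812268) (nat_lit 504) (nat_lit 5) (nat_lit 518) (nat_lit 5) (nat_lit 505) (nat_lit 4) (nat_lit 406) (nat_lit 368) (nat_lit 366)) (XT.lf (nat_lit 0) (nat_lit 3550380639) (nat_lit 1064) (nat_lit 1137355744) (nat_lit 1140) (nat_lit 2131314005) (nat_lit 490) (nat_lit 5) (nat_lit 504) (nat_lit 5) (nat_lit 505) (nat_lit 4) (nat_lit 407) (nat_lit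 368) (nat_lit 365)))))) (XT.nd (nat_lit 546) (nat_lit 7448) (nat_lit 0) (XT.nd (nat_lit 234) (nat_lit 2812) (nat_lit 0) (XT.nd (nat_lit 78) (nat_lit 1216) (nat_lit 0) (XT.lf (nat_lit 0) (nat_lit 835288245) (nat_lit 1216) (nat_lit 5974419647) (nat_lit 76) (nat_lit 39481729) (nat_lit 474) (nat_lit 5) (nat_lit 490) (nat_lit 5) (nat_lit 475) (nat_lit 4) (nat_lit 408) (nat_lit 368) (nat_lit 364)) (XT.nd (nat_lit 78) (nat_lit 1216) (nat_lit 0) (XT.lf (nat_lit 0) (nat_lit 3798539293) (nat_lit 1216) (nat_lit 1811114165) (nat_lit 76) (nat_lit 1270774508) (nat_lit 474) (nat_lit 5) (nat_lit 490) (nat_lit 5) (nat_lit 475) (nat_lit 4) (nat_lit 409) (nat_lit 368) (nat_lit 363)) (XT.lf (nat_lit 0) (nat_lit 2412971326) (nat_lit 1216) (nat_lit 4361217761) (nat_lit 1292) (nat_lit 139132636) (nat_lit 458) (nat_lit 5) (nat_lit 474) (nat_lit 5) (nat_lit 475) (nat_lit 4) (nat_lit 410) (nat_lit 368) (nat_lit 362)))) (XT.nd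 (nat_lit 156) (nat_lit 1444) (nat_lit 0) (XT.nd (nat_lit 78) (nat_lit 1292) (nat_lit 0) (XT.lf (nat_lit 0) (nat_lit 2775016104) (nat_lit 1292) (nat_lit 273899442) (nat_lit 76) (nat_lit 3898674215) (nat_lit 457) (nat_lit 5) (nat_lit 474) (nat_lit 5) (nat_lit 458) (nat_lit 5) (nat_lit 411) (nat_lit 368) (nat_lit 361)) (XT.lf (nat_lit 0) (nat_lit 4035465156) (nat_lit 1292) (nat_lit 1675386540) (nat_lit 1368) (nat_lit 1272455672) (nat_lit 440) (nat_lit 5) (nat_lit 457) (nat_lit 5) (nat_lit 458) (nat_lit 5) (nat_lit 412) (nat_lit 368) (nat_lit 360))) (XT.nd (nat_lit 78) (nat_lit 0) (nat_lit 0) (XT.lf (nat_lit 0) (nat_lit 1367853759) (nat_lit 1368) (nat_lit 245864483) (nat_lit 1444) (nat_lit 5406883492) (nat_lit 421) (nat_lit 5) (nat_lit 439) (nat_lit 5) (nat_lit 440) (nat_lit 5) (nat_lit 413) (nat_lit 368) (nat_lit 359)) (XT.lf (nat_lit 0) (nat_lit 4508683692) (nat_lit 1444) (nat_lit 1319968745) (nat_lit 76)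 (nat_lit 1230542073) (nat_lit 421) (nat_lit 5) (nat_lit 440) (nat_lit 5) (nat_lit 422) (nat_lit 5) (nat_lit 414) (nat_lit 368) (nat_lit 358))))) (XT.nd (nat_lit 234) (nat_lit 4408) (nat_lit 0) (XT.nd (nat_lit 78) (nat_lit 1520) (nat_lit 0) (XT.lf (nat_lit 0) (nat_lit 321035017) (nat_lit 1520) (nat_lit 4017237009) (nat_lit 76) (nat_lit 2761063501) (nat_lit 401) (nat_lit 5) (nat_lit 421) (nat_lit 5) (nat_lit 402) (nat_lit 5) (nat_lit 415) (nat_lit 368) (nat_lit 357)) (XT.nd (nat_lit 78) (nat_lit 0) (nat_lit 0) (XT.lf (nat_lit 0) (nat_lit 383546912) (nat_lit 1520) (nat_lit 2785567590) (nat_lit 1596) (nat_lit 3971840691) (nat_lit 381) (nat_lit 5) (nat_lit 401) (nat_lit 5) (nat_lit 402) (nat_lit 5) (nat_lit 416) (nat_lit 368) (nat_lit 356)) (XT.lf (nat_lit 0) (nat_lit 4872628620) (nat_lit 1520) (nat_lit 1171089440) (nat_lit 1596) (nat_lit 1140374497) (nat_lit 381) (nat_lit 5) (nat_lit 401) (nat_lit 5) (nat_lit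 402) (nat_lit 5) (nat_lit 417) (nat_lit 368) (nat_lit 355)))) (XT.nd (nat_lit 156) (nat_lit 2736) (nat_lit 0) (XT.nd (nat_lit 78) (nat_lit 0) (nat_lit 0) (XT.lf (nat_lit 0) (nat_lit 1685556488) (nat_lit 1672) (nat_lit 5045270889) (nat_lit 76) (nat_lit 497896785) (nat_lit 359) (nat_lit 5) (nat_lit 381) (nat_lit 5) (nat_lit 360) (nat_lit 5) (nat_lit 418) (nat_lit 368) (nat_lit 354)) (XT.lf (nat_lit 0) (nat_lit 4520183143) (nat_lit 1672) (nat_lit 544536700) (nat_lit 76) (nat_lit 2210101006) (nat_lit 359) (nat_lit 5) (nat_lit 381) (nat_lit 5) (nat_lit 360) (nat_lit 5) (nat_lit 419) (nat_lit 368) (nat_lit 353))) (XT.nd (nat_lit 78) (nat_lit 988) (nat_lit 0) (XT.lf (nat_lit 0) (nat_lit 59654087) (nat_lit 1748) (nat_lit 3277318900) (nat_lit 76) (nat_lit 3985500835) (nat_lit 336) (nat_lit 5) (nat_lit 359) (nat_lit 5) (nat_lit 337) (nat_lit 5) (nat_lit 420) (nat_lit 368) (nat_lit 352)) (XT.lf (nat_lit 0) (nat_lit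 1307744924) (nat_lit 988) (nat_lit 1543267576) (nat_lit 1064) (nat_lit 4520617862) (nat_lit 323) (nat_lit 5) (nat_lit 336) (nat_lit 5) (nat_lit 337) (nat_lit 5) (nat_lit 421) (nat_lit 368) (nat_lit 351))))))))
noncomputable def xc73 : XT := (XT.nd (nat_lit 2106) (nat_lit 6764) (nat_lit 0) (XT.nd (nat_lit 1014) (nat_lit 5016) (nat_lit 0) (XT.nd (nat_lit 468) (nat_lit 3800) (nat_lit 0) (XT.nd (nat_lit 234) (nat_lit 836) (nat_lit 0) (XT.nd (nat_lit 78) (nat_lit 1748) (nat_lit 0) (XT.lf (nat_lit 0) (nat_lit 5668377230) (nat_lit 1064) (nat_lit 1449341166) (nat_lit 76) (nat_lit 304714702) (nat_lit 323) (nat_lit 5) (nat_lit 337) (nat_lit 5) (nat_lit 324) (nat_lit 5) (nat_lit 422) (nat_lit 368) (nat_lit 350)) (XT.nd (nat_lit 78) (nat_lit 836) (nat_lit 0) (XT.lf (nat_lit 0) (nat_lit 1032092283) (nat_lit 912) (nat_lit 4245689633) (nat_lit 76) (nat_lit 2196830172) (nat_lit 311) (nat_lit 5) (nat_lit 323) (nat_lit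 5) (nat_lit 312) (nat_lit 5) (nat_lit 423) (nat_lit 368) (nat_lit 349)) (XT.lf (nat_lit 0) (nat_lit 432478785) (nat_lit 836) (nat_lit 3378134295) (nat_lit 912) (nat_lit 3717849763) (nat_lit 300) (nat_lit 5) (nat_lit 311) (nat_lit 5) (nat_lit 312) (nat_lit 5) (nat_lit 424) (nat_lit 368) (nat_lit 348)))) (XT.nd (nat_lit 78) (nat_lit 836) (nat_lit 0) (XT.lf (nat_lit 0) (nat_lit 5207849066) (nat_lit 836) (nat_lit 1413541440) (nat_lit 912) (nat_lit 962527955) (nat_lit 300) (nat_lit 5) (nat_lit 311) (nat_lit 5) (nat_lit 312) (nat_lit 5) (nat_lit 425) (nat_lit 368) (nat_lit 347)) (XT.nd (nat_lit 78) (nat_lit 0) (nat_lit 0) (XT.lf (nat_lit 0) (nat_lit 1792089619) (nat_lit 836) (nat_lit 5240832187) (nat_lit 76) (nat_lit 608012112) (nat_lit 289) (nat_lit 5) (nat_lit 300) (nat_lit 5) (nat_lit 290) (nat_lit 5) (nat_lit 426) (nat_lit 368) (nat_lit 346)) (XT.lf (nat_lit 0) (nat_lit 4563790373) (nat_lit 836) (nat_lit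 464900967) (nat_lit 76) (nat_lit 2670831536) (nat_lit 289) (nat_lit 5) (nat_lit 300) (nat_lit 5) (nat_lit 290) (nat_lit 5) (nat_lit 427) (nat_lit 368) (nat_lit 345))))) (XT.nd (nat_lit 234) (nat_lit 2280) (nat_lit 0) (XT.nd (nat_lit 78) (nat_lit 760) (nat_lit 0) (XT.lf (nat_lit 0) (nat_lit 4411173235) (nat_lit 760) (nat_lit 2958838794) (nat_lit 836) (nat_lit 389746729) (nat_lit 279) (nat_lit 5) (nat_lit 289) (nat_lit 5) (nat_lit 290) (nat_lit 5) (nat_lit 428) (nat_lit 368) (nat_lit 344)) (XT.nd (nat_lit 78) (nat_lit 0) (nat_lit 0) (XT.lf (nat_lit 0) (nat_lit 1520612740) (nat_lit 684) (nat_lit 822632349) (nat_lit 760) (nat_lit 5478421661) (nat_lit 269) (nat_lit 5) (nat_lit 278) (nat_lit 5) (nat_lit 279) (nat_lit 5) (nat_lit 429) (nat_lit 368) (nat_lit 343)) (XT.lf (nat_lit 0) (nat_lit 5108395921) (nat_lit 760) (nat_lit 1417547289) (nat_lit 76) (nat_lit 1359217413) (nat_lit 269) (nat_lit 5) (nat_lit 279)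 (nat_lit 5) (nat_lit 270) (nat_lit 5) (nat_lit 430) (nat_lit 368) (nat_lit 342)))) (XT.nd (nat_lit 156) (nat_lit 760) (nat_lit 0) (XT.nd (nat_lit 78) (nat_lit 760) (nat_lit 0) (XT.lf (nat_lit 0) (nat_lit 3551591011) (nat_lit 760) (nat_lit 4358008521) (nat_lit 836) (nat_lit 40762396) (nat_lit 259) (nat_lit 5) (nat_lit 269) (nat_lit 5) (nat_lit 270) (nat_lit 5) (nat_lit 431) (nat_lit 368) (nat_lit 341)) (XT.lf (nat_lit 0) (nat_lit 558555562) (nat_lit 684) (nat_lit 2121013040) (nat_lit 760) (nat_lit 5337678576) (nat_lit 249) (nat_lit 5) (nat_lit 258) (nat_lit 5) (nat_lit 259) (nat_lit 5) (nat_lit 432) (nat_lit 368) (nat_lit 340))) (XT.nd (nat_lit 78) (nat_lit 760) (nat_lit 0) (XT.lf (nat_lit 0) (nat_lit 5437537351) (nat_lit 760) (nat_lit 2465832397) (nat_lit 76) (nat_lit 182468978) (nat_lit 249) (nat_lit 5) (nat_lit 259) (nat_lit 5) (nat_lit 250) (nat_lit 5) (nat_lit 433) (nat_lit 368) (nat_lit 339)) (XT.lf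 (nat_lit 0) (nat_lit 78298609) (nat_lit 760) (nat_lit 5562851250) (nat_lit 76) (nat_lit 2514993937) (nat_lit 239) (nat_lit 5) (nat_lit 249) (nat_lit 5) (nat_lit 240) (nat_lit 5) (nat_lit 434) (nat_lit 368) (nat_lit 338)))))) (XT.nd (nat_lit 546) (nat_lit 2356) (nat_lit 0) (XT.nd (nat_lit 234) (nat_lit 1368) (nat_lit 0) (XT.nd (nat_lit 78) (nat_lit 1292) (nat_lit 0) (XT.lf (nat_lit 0) (nat_lit 2794812899) (nat_lit 760) (nat_lit 511492022) (nat_lit 76) (nat_lit 4921829741) (nat_lit 239) (nat_lit 5) (nat_lit 249) (nat_lit 5) (nat_lit 240) (nat_lit 5) (nat_lit 435) (nat_lit 368) (nat_lit 337)) (XT.nd (nat_lit 78) (nat_lit 684) (nat_lit 0) (XT.lf (nat_lit 0) (nat_lit 4649575398) (nat_lit 608) (nat_lit 901322456) (nat_lit 684) (nat_lit 2751008433) (nat_lit 231) (nat_lit 5) (nat_lit 239) (nat_lit 5) (nat_lit 240) (nat_lit 5) (nat_lit 436) (nat_lit 368) (nat_lit 336)) (XT.lf (nat_lit 0) (nat_lit 1500454997) (nat_lit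 684) (nat_lit 6840468854) (nat_lit 760) (nat_lit 36697959) (nat_lit 222) (nat_lit 5) (nat_lit 231) (nat_lit 5) (nat_lit 232) (nat_lit 5) (nat_lit 437) (nat_lit 368) (nat_lit 335)))) (XT.nd (nat_lit 156) (nat_lit 684) (nat_lit 0) (XT.nd (nat_lit 78) (nat_lit 608) (nat_lit 0) (XT.lf (nat_lit 0) (nat_lit 2682453552) (nat_lit 760) (nat_lit 1725547648) (nat_lit 76) (nat_lit 4046811121) (nat_lit 221) (nat_lit 5) (nat_lit 231) (nat_lit 5) (nat_lit 222) (nat_lit 5) (nat_lit 438) (nat_lit 368) (nat_lit 334)) (XT.lf (nat_lit 0) (nat_lit 3522984597) (nat_lit 608) (nat_lit 1911997666) (nat_lit 684) (nat_lit 3099012082) (nat_lit 213) (nat_lit 5) (nat_lit 221) (nat_lit 5) (nat_lit 222) (nat_lit 5) (nat_lit 439) (nat_lit 368) (nat_lit 333))) (XT.nd (nat_lit 78) (nat_lit 76) (nat_lit 0) (XT.lf (nat_lit 0) (nat_lit 231614873) (nat_lit 608) (nat_lit 7985291181) (nat_lit 684) (nat_lit 398408501) (nat_lit 205) (nat_lit 5)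 (nat_lit 213) (nat_lit 5) (nat_lit 214) (nat_lit 5) (nat_lit 440) (nat_lit 368) (nat_lit 332)) (XT.lf (nat_lit 0) (nat_lit 2329066914) (nat_lit 684) (nat_lit 3131595672) (nat_lit 76) (nat_lit 3237257211) (nat_lit 204) (nat_lit 5) (nat_lit 213) (nat_lit 5) (nat_lit 205) (nat_lit 5) (nat_lit 441) (nat_lit 368) (nat_lit 331))))) (XT.nd (nat_lit 234) (nat_lit 1140) (nat_lit 0) (XT.nd (nat_lit 78) (nat_lit 684) (nat_lit 0) (XT.lf (nat_lit 0) (nat_lit 2199959332) (nat_lit 532) (nat_lit 2878175027) (nat_lit 608) (nat_lit 3704581617) (nat_lit 197) (nat_lit 5) (nat_lit 204) (nat_lit 5) (nat_lit 205) (nat_lit 5) (nat_lit 442) (nat_lit 368) (nat_lit 330)) (XT.nd (nat_lit 78) (nat_lit 684) (nat_lit 0) (XT.lf (nat_lit 0) (nat_lit 7629130387) (nat_lit 532) (nat_lit 232643700) (nat_lit 608) (nat_lit 1007880454) (nat_lit 197) (nat_lit 5) (nat_lit 204) (nat_lit 5) (nat_lit 205) (nat_lit 5) (nat_lit 443) (nat_lit 368)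 (nat_lit 329)) (XT.lf (nat_lit 0) (nat_lit 1722457837) (nat_lit 684) (nat_lit 4773312050) (nat_lit 76) (nat_lit 2462321287) (nat_lit 188) (nat_lit 5) (nat_lit 197) (nat_lit 5) (nat_lit 189) (nat_lit 5) (nat_lit 444) (nat_lit 368) (nat_lit 328)))) (XT.nd (nat_lit 156) (nat_lit 608) (nat_lit 0) (XT.nd (nat_lit 78) (nat_lit 0) (nat_lit 0) (XT.lf (nat_lit 0) (nat_lit 635864289) (nat_lit 532) (nat_lit 3831593595) (nat_lit 608) (nat_lit 4581270476) (nat_lit 181) (nat_lit 5) (nat_lit 188) (nat_lit 5) (nat_lit 189) (nat_lit 5) (nat_lit 445) (nat_lit 368) (nat_lit 327)) (XT.lf (nat_lit 0) (nat_lit 6166787616) (nat_lit 532) (nat_lit 1092553104) (nat_lit 608) (nat_lit 1882033278) (nat_lit 181) (nat_lit 5) (nat_lit 188) (nat_lit 5) (nat_lit 189) (nat_lit 5) (nat_lit 446) (nat_lit 368) (nat_lit 326))) (XT.nd (nat_lit 78) (nat_lit 0) (nat_lit 0) (XT.lf (nat_lit 0) (nat_lit 847879082) (nat_lit 608) (nat_lit 6697832792)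 (nat_lit 76) (nat_lit 1690319217) (nat_lit 173) (nat_lit 5) (nat_lit 181) (nat_lit 5) (nat_lit 174) (nat_lit 5) (nat_lit 447) (nat_lit 368) (nat_lit 325)) (XT.lf (nat_lit 0) (nat_lit 3595359460) (nat_lit 608) (nat_lit 1201559453) (nat_lit 76) (nat_lit 4535683527) (nat_lit 173) (nat_lit 5) (nat_lit 181) (nat_lit 5) (nat_lit 174) (nat_lit 5) (nat_lit 448) (nat_lit 368) (nat_lit 324))))))) (XT.nd (nat_lit 1092) (nat_lit 2888) (nat_lit 0) (XT.nd (nat_lit 546) (nat_lit 1824) (nat_lit 0) (XT.nd (nat_lit 234) (nat_lit 988) (nat_lit 0) (XT.nd (nat_lit 78) (nat_lit 608) (nat_lit 0) (XT.lf (nat_lit 0) (nat_lit 4412405028) (nat_lit 456) (nat_lit 1975618910) (nat_lit 532) (nat_lit 3043309262) (nat_lit 167) (nat_lit 5) (nat_lit 173) (nat_lit 5) (nat_lit 174) (nat_lit 5) (nat_lit 449) (nat_lit 368) (nat_lit 323)) (XT.nd (nat_lit 78) (nat_lit 76) (nat_lit 0) (XT.lf (nat_lit 0) (nat_lit 574189734) (nat_lit 532) (nat_lit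 8641993288) (nat_lit 608) (nat_lit 316294757) (nat_lit 160) (nat_lit 5) (nat_lit 167) (nat_lit 5) (nat_lit 168) (nat_lit 5) (nat_lit 450) (nat_lit 368) (nat_lit 322)) (XT.lf (nat_lit 0) (nat_lit 2441994062) (nat_lit 608) (nat_lit 3367773371) (nat_lit 76) (nat_lit 3825407155) (nat_lit 159) (nat_lit 5) (nat_lit 167) (nat_lit 5) (nat_lit 160) (nat_lit 5) (nat_lit 451) (nat_lit 368) (nat_lit 321)))) (XT.nd (nat_lit 156) (nat_lit 532) (nat_lit 0) (XT.nd (nat_lit 78) (nat_lit 0) (nat_lit 0) (XT.lf (nat_lit 0) (nat_lit 2313095665) (nat_lit 456) (nat_lit 2915963534) (nat_lit 532) (nat_lit 4511297588) (nat_lit 153) (nat_lit 5) (nat_lit 159) (nat_lit 5) (nat_lit 160) (nat_lit 5) (nat_lit 452) (nat_lit 368) (nat_lit 320)) (XT.lf (nat_lit 0) (nat_lit 8057996922) (nat_lit 532) (nat_lit 1744393159) (nat_lit 76) (nat_lit 45559515) (nat_lit 153) (nat_lit 5) (nat_lit 160) (nat_lit 5) (nat_lit 154) (nat_lit 5) (nat_lit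 453) (nat_lit 368) (nat_lit 319))) (XT.nd (nat_lit 78) (nat_lit 0) (nat_lit 0) (XT.lf (nat_lit 0) (nat_lit 982316137) (nat_lit 532) (nat_lit 5927307603) (nat_lit 76) (nat_lit 3047782429) (nat_lit 146) (nat_lit 5) (nat_lit 153) (nat_lit 5) (nat_lit 147) (nat_lit 5) (nat_lit 454) (nat_lit 368) (nat_lit 318)) (XT.lf (nat_lit 0) (nat_lit 3761868452) (nat_lit 532) (nat_lit 186279537) (nat_lit 76) (nat_lit 6121179024) (nat_lit 146) (nat_lit 5) (nat_lit 153) (nat_lit 5) (nat_lit 147) (nat_lit 5) (nat_lit 455) (nat_lit 368) (nat_lit 317))))) (XT.nd (nat_lit 234) (nat_lit 836) (nat_lit 0) (XT.nd (nat_lit 78) (nat_lit 532) (nat_lit 0) (XT.lf (nat_lit 0) (nat_lit 5695982627) (nat_lit 456) (nat_lit 902717036) (nat_lit 532) (nat_lit 3584780193) (nat_lit 140) (nat_lit 5) (nat_lit 146) (nat_lit 5) (nat_lit 147) (nat_lit 5) (nat_lit 456) (nat_lit 368) (nat_lit 316)) (XT.nd (nat_lit 78) (nat_lit 76) (nat_lit 0) (XT.lf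 (nat_lit 0) (nat_lit 1353345169) (nat_lit 456) (nat_lit 8128276379) (nat_lit 532) (nat_lit 818533930) (nat_lit 134) (nat_lit 5) (nat_lit 140) (nat_lit 5) (nat_lit 141) (nat_lit 5) (nat_lit 457) (nat_lit 368) (nat_lit 315)) (XT.lf (nat_lit 0) (nat_lit 1978177211) (nat_lit 532) (nat_lit 3114693828) (nat_lit 76) (nat_lit 5326031030) (nat_lit 133) (nat_lit 5) (nat_lit 140) (nat_lit 5) (nat_lit 134) (nat_lit 5) (nat_lit 458) (nat_lit 368) (nat_lit 314)))) (XT.nd (nat_lit 156) (nat_lit 456) (nat_lit 0) (XT.nd (nat_lit 78) (nat_lit 0) (nat_lit 0) (XT.lf (nat_lit 0) (nat_lit 2817773981) (nat_lit 380) (nat_lit 1986196462) (nat_lit 456) (nat_lit 5736288033) (nat_lit 128) (nat_lit 5) (nat_lit 133) (nat_lit 5) (nat_lit 134) (nat_lit 5) (nat_lit 459) (nat_lit 368) (nat_lit 313)) (XT.lf (nat_lit 0) (nat_lit 7681073690) (nat_lit 456) (nat_lit 1808452946) (nat_lit 76) (nat_lit 1174644255) (nat_lit 128) (nat_lit 5) (nat_lit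 134) (nat_lit 5) (nat_lit 129) (nat_lit 5) (nat_lit 460) (nat_lit 368) (nat_lit 312))) (XT.nd (nat_lit 78) (nat_lit 76) (nat_lit 0) (XT.lf (nat_lit 0) (nat_lit 4218856400) (nat_lit 380) (nat_lit 6404149203) (nat_lit 456) (nat_lit 167434494) (nat_lit 123) (nat_lit 5) (nat_lit 128) (nat_lit 5) (nat_lit 129) (nat_lit 5) (nat_lit 461) (nat_lit 368) (nat_lit 311)) (XT.lf (nat_lit 0) (nat_lit 2648134707) (nat_lit 456) (nat_lit 592739819) (nat_lit 76) (nat_lit 7678451024) (nat_lit 122) (nat_lit 5) (nat_lit 128) (nat_lit 5) (nat_lit 123) (nat_lit 5) (nat_lit 462) (nat_lit 368) (nat_lit 310)))))) (XT.nd (nat_lit 546) (nat_lit 1368) (nat_lit 0) (XT.nd (nat_lit 234) (nat_lit 684) (nat_lit 0) (XT.nd (nat_lit 78) (nat_lit 456) (nat_lit 0) (XT.lf (nat_lit 0) (nat_lit 5521244036) (nat_lit 456) (nat_lit 5520080505) (nat_lit 76) (nat_lit 9395498) (nat_lit 117) (nat_lit 5) (nat_lit 123) (nat_lit 5) (nat_lit 118) (nat_lit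 5) (nat_lit 463) (nat_lit 368) (nat_lit 309)) (XT.nd (nat_lit 78) (nat_lit 76) (nat_lit 0) (XT.lf (nat_lit 0) (nat_lit 538759592) (nat_lit 380) (nat_lit 7909765922) (nat_lit 456) (nat_lit 2736305133) (nat_lit 112) (nat_lit 5) (nat_lit 117) (nat_lit 5) (nat_lit 118) (nat_lit 5) (nat_lit 464) (nat_lit 368) (nat_lit 308)) (XT.lf (nat_lit 0) (nat_lit 116382225) (nat_lit 456) (nat_lit 4575074629) (nat_lit 76) (nat_lit 6630070898) (nat_lit 111) (nat_lit 5) (nat_lit 117) (nat_lit 5) (nat_lit 112) (nat_lit 5) (nat_lit 465) (nat_lit 368) (nat_lit 307)))) (XT.nd (nat_lit 156) (nat_lit 380) (nat_lit 0) (XT.nd (nat_lit 78) (nat_lit 0) (nat_lit 0) (XT.lf (nat_lit 0) (nat_lit 1573963883) (nat_lit 304) (nat_lit 1394247880) (nat_lit 380) (nat_lit 8492831879) (nat_lit 107) (nat_lit 5) (nat_lit 111) (nat_lit 5) (nat_lit 112) (nat_lit 5) (nat_lit 466) (nat_lit 368) (nat_lit 306)) (XT.lf (nat_lit 0) (nat_lit 5889468553)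 (nat_lit 380) (nat_lit 3753871886) (nat_lit 76) (nat_lit 1959782317) (nat_lit 107) (nat_lit 5) (nat_lit 112) (nat_lit 5) (nat_lit 108) (nat_lit 5) (nat_lit 467) (nat_lit 368) (nat_lit 305))) (XT.nd (nat_lit 78) (nat_lit 0) (nat_lit 0) (XT.lf (nat_lit 0) (nat_lit 2480049075) (nat_lit 380) (nat_lit 6383753371) (nat_lit 456) (nat_lit 2884368280) (nat_lit 102) (nat_lit 5) (nat_lit 107) (nat_lit 5) (nat_lit 108) (nat_lit 5) (nat_lit 468) (nat_lit 368) (nat_lit 304)) (XT.lf (nat_lit 0) (nat_lit 8844586906) (nat_lit 380) (nat_lit 3047852801) (nat_lit 456) (nat_lit 3803528) (nat_lit 102) (nat_lit 5) (nat_lit 107) (nat_lit 5) (nat_lit 108) (nat_lit 5) (nat_lit 469) (nat_lit 368) (nat_lit 303))))) (XT.nd (nat_lit 234) (nat_lit 684) (nat_lit 0) (XT.nd (nat_lit 78) (nat_lit 304) (nat_lit 0) (XT.lf (nat_lit 0) (nat_lit 2889590112) (nat_lit 380) (nat_lit 8781096532) (nat_lit 76) (nat_lit 376354605) (nat_lit 97) (nat_lit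 5) (nat_lit 102) (nat_lit 5) (nat_lit 98) (nat_lit 5) (nat_lit 470) (nat_lit 368) (nat_lit 302)) (XT.nd (nat_lit 78) (nat_lit 304) (nat_lit 0) (XT.lf (nat_lit 0) (nat_lit 5851811458) (nat_lit 380) (nat_lit 2514235722) (nat_lit 76) (nat_lit 3834606092) (nat_lit 97) (nat_lit 5) (nat_lit 102) (nat_lit 5) (nat_lit 98) (nat_lit 5) (nat_lit 471) (nat_lit 368) (nat_lit 301)) (XT.lf (nat_lit 0) (nat_lit 3885083928) (nat_lit 304) (nat_lit 4984214335) (nat_lit 380) (nat_lit 3488137248) (nat_lit 93) (nat_lit 5) (nat_lit 97) (nat_lit 5) (nat_lit 98) (nat_lit 5) (nat_lit 472) (nat_lit 368) (nat_lit 300)))) (XT.nd (nat_lit 156) (nat_lit 304) (nat_lit 0) (XT.nd (nat_lit 78) (nat_lit 380) (nat_lit 0) (XT.lf (nat_lit 0) (nat_lit 10402927515) (nat_lit 304) (nat_lit 1532165530) (nat_lit 380) (nat_lit 582519223) (nat_lit 93) (nat_lit 5) (nat_lit 97) (nat_lit 5) (nat_lit 98) (nat_lit 5) (nat_lit 473) (nat_lit 368) (nat_lit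 299)) (XT.lf (nat_lit 0) (nat_lit 2362904299) (nat_lit 380) (nat_lit 8324926509) (nat_lit 76) (nat_lit 1992611418) (nat_lit 88) (nat_lit 5) (nat_lit 93) (nat_lit 5) (nat_lit 89) (nat_lit 5) (nat_lit 474) (nat_lit 368) (nat_lit 298))) (XT.nd (nat_lit 78) (nat_lit 304) (nat_lit 0) (XT.lf (nat_lit 0) (nat_lit 5355510794) (nat_lit 380) (nat_lit 1919849310) (nat_lit 76) (nat_lit 5571187178) (nat_lit 88) (nat_lit 5) (nat_lit 93) (nat_lit 5) (nat_lit 89) (nat_lit 5) (nat_lit 475) (nat_lit 368) (nat_lit 297)) (XT.lf (nat_lit 0) (nat_lit 4631631828) (nat_lit 304) (nat_lit 3778601105) (nat_lit 380) (nat_lit 4605712899) (nat_lit 84) (nat_lit 5) (nat_lit 88) (nat_lit 5) (nat_lit 89) (nat_lit 5) (nat_lit 476) (nat_lit 368) (nat_lit 296))))))))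
noncomputable def xc74 : XT := (XT.nd (nat_lit 2106) (nat_lit 1520) (nat_lit 0) (XT.nd (nat_lit 1014) (nat_lit 1520) (nat_lit 0) (XT.nd (nat_lit 468) (nat_lit 912) (nat_lit 0) (XT.nd (nat_lit 234) (nat_lit 532) (nat_lit 0) (XT.nd (nat_lit 78) (nat_lit 304) (nat_lit 0) (XT.lf (nat_lit 0) (nat_lit 11298003589) (nat_lit 304) (nat_lit 213392520) (nat_lit 380) (nat_lit 1677645649) (nat_lit 84) (nat_lit 5) (nat_lit 88) (nat_lit 5) (nat_lit 89) (nat_lit 5) (nat_lit 477) (nat_lit 368) (nat_lit 295)) (XT.nd (nat_lit 78) (nat_lit 0) (nat_lit 0) (XT.lf (nat_lit 0) (nat_lit 1317817198) (nat_lit 304) (nat_lit 8643653399) (nat_lit 76) (nat_lit 3403454696) (nat_lit 80) (nat_lit 5) (nat_lit 84) (nat_lit 5) (nat_lit 81) (nat_lit 5) (nat_lit 478) (nat_lit 368) (nat_lit 294)) (XT.lf (nat_lit 0) (nat_lit 4337912350) (nat_lit 304) (nat_lit 2107117174) (nat_lit 76) (nat_lit 7099346849) (nat_lit 80) (nat_lit 5) (nat_lit 84)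 (nat_lit 5) (nat_lit 81) (nat_lit 5) (nat_lit 479) (nat_lit 368) (nat_lit 293)))) (XT.nd (nat_lit 78) (nat_lit 228) (nat_lit 0) (XT.lf (nat_lit 0) (nat_lit 4579128730) (nat_lit 304) (nat_lit 2842519875) (nat_lit 380) (nat_lit 6305718180) (nat_lit 76) (nat_lit 5) (nat_lit 80) (nat_lit 5) (nat_lit 81) (nat_lit 5) (nat_lit 480) (nat_lit 368) (nat_lit 292)) (XT.nd (nat_lit 78) (nat_lit 228) (nat_lit 0) (XT.lf (nat_lit 0) (nat_lit 10560363606) (nat_lit 380) (nat_lit 2532819759) (nat_lit 76) (nat_lit 820982355) (nat_lit 76) (nat_lit 5) (nat_lit 81) (nat_lit 5) (nat_lit 77) (nat_lit 5) (nat_lit 481) (nat_lit 368) (nat_lit 291)) (XT.lf (nat_lit 0) (nat_lit 4210865548) (nat_lit 228) (nat_lit 9571336390) (nat_lit 304) (nat_lit 322106221) (nat_lit 73) (nat_lit 5) (nat_lit 76) (nat_lit 5) (nat_lit 77) (nat_lit 5) (nat_lit 482) (nat_lit 368) (nat_lit 290))))) (XT.nd (nat_lit 234) (nat_lit 532) (nat_lit 0) (XT.nd (nat_lit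 78) (nat_lit 304) (nat_lit 0) (XT.lf (nat_lit 0) (nat_lit 2725247341) (nat_lit 304) (nat_lit 3232787702) (nat_lit 76) (nat_lit 8340045511) (nat_lit 72) (nat_lit 5) (nat_lit 76) (nat_lit 5) (nat_lit 73) (nat_lit 5) (nat_lit 483) (nat_lit 368) (nat_lit 289)) (XT.nd (nat_lit 78) (nat_lit 0) (nat_lit 0) (XT.lf (nat_lit 0) (nat_lit 3565977254) (nat_lit 304) (nat_lit 2261166029) (nat_lit 380) (nat_lit 8668598036) (nat_lit 68) (nat_lit 5) (nat_lit 72) (nat_lit 5) (nat_lit 73) (nat_lit 5) (nat_lit 484) (nat_lit 368) (nat_lit 288)) (XT.lf (nat_lit 0) (nat_lit 8997612519) (nat_lit 380) (nat_lit 4202224438) (nat_lit 76) (nat_lit 1497401036) (nat_lit 68) (nat_lit 5) (nat_lit 73) (nat_lit 5) (nat_lit 69) (nat_lit 5) (nat_lit 485) (nat_lit 368) (nat_lit 287)))) (XT.nd (nat_lit 156) (nat_lit 228) (nat_lit 0) (XT.nd (nat_lit 78) (nat_lit 76) (nat_lit 0) (XT.lf (nat_lit 0) (nat_lit 2640406506) (nat_lit 228) (nat_lit 9598591153)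 (nat_lit 304) (nat_lit 2663629949) (nat_lit 65) (nat_lit 5) (nat_lit 68) (nat_lit 5) (nat_lit 69) (nat_lit 5) (nat_lit 486) (nat_lit 368) (nat_lit 286)) (XT.lf (nat_lit 0) (nat_lit 431236134) (nat_lit 304) (nat_lit 5476903230) (nat_lit 76) (nat_lit 9203865431) (nat_lit 64) (nat_lit 5) (nat_lit 68) (nat_lit 5) (nat_lit 65) (nat_lit 5) (nat_lit 487) (nat_lit 368) (nat_lit 285))) (XT.nd (nat_lit 78) (nat_lit 0) (nat_lit 0) (XT.lf (nat_lit 0) (nat_lit 1406500220) (nat_lit 228) (nat_lit 2130924817) (nat_lit 304) (nat_lit 11788102907) (nat_lit 61) (nat_lit 5) (nat_lit 64) (nat_lit 5) (nat_lit 65) (nat_lit 5) (nat_lit 488) (nat_lit 368) (nat_lit 284)) (XT.lf (nat_lit 0) (nat_lit 6729970710) (nat_lit 304) (nat_lit 7090767241) (nat_lit 76) (nat_lit 1722111083) (nat_lit 61) (nat_lit 5) (nat_lit 65) (nat_lit 5) (nat_lit 62) (nat_lit 5) (nat_lit 489) (nat_lit 368) (nat_lit 283)))))) (XT.nd (nat_lit 546) (nat_lit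 760) (nat_lit 0) (XT.nd (nat_lit 234) (nat_lit 456) (nat_lit 0) (XT.nd (nat_lit 78) (nat_lit 304) (nat_lit 0) (XT.lf (nat_lit 0) (nat_lit 9977006249) (nat_lit 304) (nat_lit 177868006) (nat_lit 76) (nat_lit 5609841414) (nat_lit 61) (nat_lit 5) (nat_lit 65) (nat_lit 5) (nat_lit 62) (nat_lit 5) (nat_lit 490) (nat_lit 368) (nat_lit 282)) (XT.nd (nat_lit 78) (nat_lit 76) (nat_lit 0) (XT.lf (nat_lit 0) (nat_lit 6927066013) (nat_lit 228) (nat_lit 6383878715) (nat_lit 304) (nat_lit 2679647329) (nat_lit 58) (nat_lit 5) (nat_lit 61) (nat_lit 5) (nat_lit 62) (nat_lit 5) (nat_lit 491) (nat_lit 368) (nat_lit 281)) (XT.lf (nat_lit 0) (nat_lit 462380454) (nat_lit 304) (nat_lit 2084790787) (nat_lit 76) (nat_lit 13674197476) (nat_lit 57) (nat_lit 5) (nat_lit 61) (nat_lit 5) (nat_lit 58) (nat_lit 5) (nat_lit 492) (nat_lit 368) (nat_lit 280)))) (XT.nd (nat_lit 156) (nat_lit 228) (nat_lit 0) (XT.nd (nat_lit 78) (nat_lit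 0) (nat_lit 0) (XT.lf (nat_lit 0) (nat_lit 3650762914) (nat_lit 304) (nat_lit 11419797854) (nat_lit 76) (nat_lit 1385468994) (nat_lit 54) (nat_lit 5) (nat_lit 58) (nat_lit 5) (nat_lit 55) (nat_lit 5) (nat_lit 493) (nat_lit 368) (nat_lit 279)) (XT.lf (nat_lit 0) (nat_lit 6911468085) (nat_lit 304) (nat_lit 4420674926) (nat_lit 76) (nat_lit 5363080695) (nat_lit 54) (nat_lit 5) (nat_lit 58) (nat_lit 5) (nat_lit 55) (nat_lit 5) (nat_lit 494) (nat_lit 368) (nat_lit 278))) (XT.nd (nat_lit 78) (nat_lit 0) (nat_lit 0) (XT.lf (nat_lit 0) (nat_lit 2718253083) (nat_lit 228) (nat_lit 7514825807) (nat_lit 304) (nat_lit 6706219374) (nat_lit 51) (nat_lit 5) (nat_lit 54) (nat_lit 5) (nat_lit 55) (nat_lit 5) (nat_lit 495) (nat_lit 368) (nat_lit 277)) (XT.lf (nat_lit 0) (nat_lit 10024291017) (nat_lit 228) (nat_lit 3604738224) (nat_lit 304) (nat_lit 3559077286) (nat_lit 51) (nat_lit 5) (nat_lit 54) (nat_lit 5) (nat_lit 55)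 (nat_lit 5) (nat_lit 496) (nat_lit 368) (nat_lit 276))))) (XT.nd (nat_lit 234) (nat_lit 456) (nat_lit 0) (XT.nd (nat_lit 78) (nat_lit 304) (nat_lit 0) (XT.lf (nat_lit 0) (nat_lit 17073969705) (nat_lit 304) (nat_lit 3174397) (nat_lit 76) (nat_lit 365135589) (nat_lit 51) (nat_lit 5) (nat_lit 55) (nat_lit 5) (nat_lit 52) (nat_lit 5) (nat_lit 497) (nat_lit 368) (nat_lit 275)) (XT.nd (nat_lit 78) (nat_lit 0) (nat_lit 0) (XT.lf (nat_lit 0) (nat_lit 2899263088) (nat_lit 304) (nat_lit 10381108966) (nat_lit 76) (nat_lit 4419782345) (nat_lit 47) (nat_lit 5) (nat_lit 51) (nat_lit 5) (nat_lit 48) (nat_lit 5) (nat_lit 498) (nat_lit 368) (nat_lit 274)) (XT.lf (nat_lit 0) (nat_lit 6206324268) (nat_lit 304) (nat_lit 3212485384) (nat_lit 76) (nat_lit 8544756465) (nat_lit 47) (nat_lit 5) (nat_lit 51) (nat_lit 5) (nat_lit 48) (nat_lit 5) (nat_lit 499) (nat_lit 368) (nat_lit 273)))) (XT.nd (nat_lit 156) (nat_lit 304) (nat_lit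 0) (XT.nd (nat_lit 78) (nat_lit 0) (nat_lit 0) (XT.lf (nat_lit 0) (nat_lit 4119606103) (nat_lit 152) (nat_lit 5466120978) (nat_lit 228) (nat_lit 8646404362) (nat_lit 45) (nat_lit 5) (nat_lit 47) (nat_lit 5) (nat_lit 48) (nat_lit 5) (nat_lit 500) (nat_lit 368) (nat_lit 272)) (XT.lf (nat_lit 0) (nat_lit 11608174816) (nat_lit 152) (nat_lit 1425737807) (nat_lit 228) (nat_lit 5472140761) (nat_lit 45) (nat_lit 5) (nat_lit 47) (nat_lit 5) (nat_lit 48) (nat_lit 5) (nat_lit 501) (nat_lit 368) (nat_lit 271))) (XT.nd (nat_lit 78) (nat_lit 76) (nat_lit 0) (XT.lf (nat_lit 0) (nat_lit 415638624) (nat_lit 228) (nat_lit 16135574030) (nat_lit 304) (nat_lit 2234247111) (nat_lit 42) (nat_lit 5) (nat_lit 45) (nat_lit 5) (nat_lit 46) (nat_lit 5) (nat_lit 502) (nat_lit 368) (nat_lit 270)) (XT.lf (nat_lit 0) (nat_lit 1090418051) (nat_lit 304) (nat_lit 11150713161) (nat_lit 76) (nat_lit 6828472476) (nat_lit 41) (nat_lit 5) (nat_lit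 45) (nat_lit 5) (nat_lit 42) (nat_lit 5) (nat_lit 503) (nat_lit 368) (nat_lit 269))))))) (XT.nd (nat_lit 1014) (nat_lit 532) (nat_lit 0) (XT.nd (nat_lit 468) (nat_lit 532) (nat_lit 0) (XT.nd (nat_lit 234) (nat_lit 304) (nat_lit 0) (XT.nd (nat_lit 78) (nat_lit 152) (nat_lit 0) (XT.lf (nat_lit 0) (nat_lit 4432069327) (nat_lit 304) (nat_lit 3834791974) (nat_lit 76) (nat_lit 11092674131) (nat_lit 41) (nat_lit 5) (nat_lit 45) (nat_lit 5) (nat_lit 42) (nat_lit 5) (nat_lit 504) (nat_lit 368) (nat_lit 268)) (XT.nd (nat_lit 78) (nat_lit 0) (nat_lit 0) (XT.lf (nat_lit 0) (nat_lit 3643097500) (nat_lit 152) (nat_lit 4201875626) (nat_lit 228) (nat_lit 11810212629) (nat_lit 39) (nat_lit 5) (nat_lit 41) (nat_lit 5) (nat_lit 42) (nat_lit 5) (nat_lit 505) (nat_lit 368) (nat_lit 267)) (XT.lf (nat_lit 0) (nat_lit 11290607747) (nat_lit 152) (nat_lit 42196718) (nat_lit 228) (nat_lit 8623819398) (nat_lit 39) (nat_lit 5) (nat_lit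 41) (nat_lit 5) (nat_lit 42) (nat_lit 5) (nat_lit 506) (nat_lit 368) (nat_lit 266)))) (XT.nd (nat_lit 78) (nat_lit 304) (nat_lit 0) (XT.lf (nat_lit 0) (nat_lit 14898893976) (nat_lit 228) (nat_lit 1231888875) (nat_lit 76) (nat_lit 4133145862) (nat_lit 39) (nat_lit 5) (nat_lit 42) (nat_lit 5) (nat_lit 40) (nat_lit 5) (nat_lit 507) (nat_lit 368) (nat_lit 265)) (XT.nd (nat_lit 78) (nat_lit 76) (nat_lit 0) (XT.lf (nat_lit 0) (nat_lit 6403653228) (nat_lit 228) (nat_lit 12156104310) (nat_lit 304) (nat_lit 2017160926) (nat_lit 36) (nat_lit 5) (nat_lit 39) (nat_lit 5) (nat_lit 40) (nat_lit 5) (nat_lit 508) (nat_lit 368) (nat_lit 264)) (XT.lf (nat_lit 0) (nat_lit 1369289756) (nat_lit 304) (nat_lit 6727548495) (nat_lit 76) (nat_lit 12799356813) (nat_lit 35) (nat_lit 5) (nat_lit 39) (nat_lit 5) (nat_lit 36) (nat_lit 5) (nat_lit 509) (nat_lit 368) (nat_lit 263))))) (XT.nd (nat_lit 234) (nat_lit 380) (nat_lit 0) (XT.nd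 (nat_lit 78) (nat_lit 0) (nat_lit 0) (XT.lf (nat_lit 0) (nat_lit 834252308) (nat_lit 152) (nat_lit 3949638072) (nat_lit 228) (nat_lit 16437958930) (nat_lit 33) (nat_lit 5) (nat_lit 35) (nat_lit 5) (nat_lit 36) (nat_lit 5) (nat_lit 510) (nat_lit 368) (nat_lit 262)) (XT.nd (nat_lit 78) (nat_lit 0) (nat_lit 0) (XT.lf (nat_lit 0) (nat_lit 8296114317) (nat_lit 228) (nat_lit 12947248092) (nat_lit 76) (nat_lit 310074861) (nat_lit 33) (nat_lit 5) (nat_lit 36) (nat_lit 5) (nat_lit 34) (nat_lit 5) (nat_lit 511) (nat_lit 368) (nat_lit 261)) (XT.lf (nat_lit 0) (nat_lit 11887156628) (nat_lit 228) (nat_lit 5414147735) (nat_lit 76) (nat_lit 4590188259) (nat_lit 33) (nat_lit 5) (nat_lit 36) (nat_lit 5) (nat_lit 34) (nat_lit 5) (nat_lit 512) (nat_lit 368) (nat_lit 260)))) (XT.nd (nat_lit 156) (nat_lit 228) (nat_lit 0) (XT.nd (nat_lit 78) (nat_lit 0) (nat_lit 0) (XT.lf (nat_lit 0) (nat_lit 2270074329) (nat_lit 152) (nat_lit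 13277446397) (nat_lit 228) (nat_lit 6688845310) (nat_lit 31) (nat_lit 5) (nat_lit 33) (nat_lit 5) (nat_lit 34) (nat_lit 5) (nat_lit 513) (nat_lit 368) (nat_lit 259)) (XT.lf (nat_lit 0) (nat_lit 10152251145) (nat_lit 152) (nat_lit 9148083783) (nat_lit 228) (nat_lit 3287423966) (nat_lit 31) (nat_lit 5) (nat_lit 33) (nat_lit 5) (nat_lit 34) (nat_lit 5) (nat_lit 514) (nat_lit 368) (nat_lit 258))) (XT.nd (nat_lit 78) (nat_lit 152) (nat_lit 0) (XT.lf (nat_lit 0) (nat_lit 162767057) (nat_lit 228) (nat_lit 4784069637) (nat_lit 76) (nat_lit 17999663281) (nat_lit 30) (nat_lit 5) (nat_lit 33) (nat_lit 5) (nat_lit 31) (nat_lit 5) (nat_lit 515) (nat_lit 368) (nat_lit 257)) (XT.lf (nat_lit 0) (nat_lit 3009886032) (nat_lit 152) (nat_lit 631099953) (nat_lit 228) (nat_lit 19670940880) (nat_lit 28) (nat_lit 5) (nat_lit 30) (nat_lit 5) (nat_lit 31) (nat_lit 5) (nat_lit 516) (nat_lit 368) (nat_lit 256)))))) (XT.nd (nat_lit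 546) (nat_lit 152) (nat_lit 0) (XT.nd (nat_lit 234) (nat_lit 228) (nat_lit 0) (XT.nd (nat_lit 78) (nat_lit 152) (nat_lit 0) (XT.lf (nat_lit 0) (nat_lit 7229095229) (nat_lit 228) (nat_lit 12712434726) (nat_lit 76) (nat_lit 3742332134) (nat_lit 28) (nat_lit 5) (nat_lit 31) (nat_lit 5) (nat_lit 29) (nat_lit 5) (nat_lit 517) (nat_lit 368) (nat_lit 255)) (XT.nd (nat_lit 78) (nat_lit 152) (nat_lit 0) (XT.lf (nat_lit 0) (nat_lit 10876995330) (nat_lit 228) (nat_lit 5002949806) (nat_lit 76) (nat_lit 8183536499) (nat_lit 28) (nat_lit 5) (nat_lit 31) (nat_lit 5) (nat_lit 29) (nat_lit 5) (nat_lit 518) (nat_lit 368) (nat_lit 254)) (XT.lf (nat_lit 0) (nat_lit 2871190958) (nat_lit 152) (nat_lit 11729470036) (nat_lit 228) (nat_lit 9849982497) (nat_lit 26) (nat_lit 5) (nat_lit 28) (nat_lit 5) (nat_lit 29) (nat_lit 5) (nat_lit 519) (nat_lit 368) (nat_lit 253)))) (XT.nd (nat_lit 156) (nat_lit 228) (nat_lit 0) (XT.nd (nat_lit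 78) (nat_lit 0) (nat_lit 0) (XT.lf (nat_lit 0) (nat_lit 10943619682) (nat_lit 152) (nat_lit 7473053699) (nat_lit 228) (nat_lit 6428523685) (nat_lit 26) (nat_lit 5) (nat_lit 28) (nat_lit 5) (nat_lit 29) (nat_lit 5) (nat_lit 520) (nat_lit 368) (nat_lit 252)) (XT.lf (nat_lit 0) (nat_lit 19151015453) (nat_lit 152) (nat_lit 3142599369) (nat_lit 228) (nat_lit 2954340548) (nat_lit 26) (nat_lit 5) (nat_lit 28) (nat_lit 5) (nat_lit 29) (nat_lit 5) (nat_lit 521) (nat_lit 368) (nat_lit 251))) (XT.nd (nat_lit 78) (nat_lit 0) (nat_lit 0) (XT.lf (nat_lit 0) (nat_lit 586775235) (nat_lit 228) (nat_lit 23808904841) (nat_lit 76) (nat_lit 1262914284) (nat_lit 23) (nat_lit 5) (nat_lit 26) (nat_lit 5) (nat_lit 24) (nat_lit 5) (nat_lit 522) (nat_lit 368) (nat_lit 250)) (XT.lf (nat_lit 0) (nat_lit 4206051426) (nat_lit 228) (nat_lit 16105612212) (nat_lit 76) (nat_lit 5764459490) (nat_lit 23) (nat_lit 5) (nat_lit 26) (nat_lit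 5) (nat_lit 24) (nat_lit 5) (nat_lit 523) (nat_lit 368) (nat_lit 249))))) (XT.nd (nat_lit 234) (nat_lit 0) (nat_lit 0) (XT.nd (nat_lit 78) (nat_lit 152) (nat_lit 0) (XT.lf (nat_lit 0) (nat_lit 7882873133) (nat_lit 228) (nat_lit 8273972837) (nat_lit 76) (nat_lit 10345458691) (nat_lit 23) (nat_lit 5) (nat_lit 26) (nat_lit 5) (nat_lit 24) (nat_lit 5) (nat_lit 524) (nat_lit 368) (nat_lit 248)) (XT.nd (nat_lit 78) (nat_lit 152) (nat_lit 0) (XT.lf (nat_lit 0) (nat_lit 11618682246) (nat_lit 228) (nat_lit 310915487) (nat_lit 76) (nat_lit 15007708358) (nat_lit 23) (nat_lit 5) (nat_lit 26) (nat_lit 5) (nat_lit 24) (nat_lit 5) (nat_lit 525) (nat_lit 368) (nat_lit 247)) (XT.lf (nat_lit 0) (nat_lit 7890163521) (nat_lit 152) (nat_lit 7576008441) (nat_lit 228) (nat_lit 11914101478) (nat_lit 21) (nat_lit 5) (nat_lit 23) (nat_lit 5) (nat_lit 24) (nat_lit 5) (nat_lit 526) (nat_lit 368) (nat_lit 246)))) (XT.nd (nat_lit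 49608) (nat_lit 0) (nat_lit 37772) (XT.nd (nat_lit 78) (nat_lit 0) (nat_lit 0) (XT.lf (nat_lit 0) (nat_lit 16234920882) (nat_lit 152) (nat_lit 3143633481) (nat_lit 228) (nat_lit 8453791994) (nat_lit 21) (nat_lit 5) (nat_lit 23) (nat_lit 5) (nat_lit 24) (nat_lit 5) (nat_lit 527) (nat_lit 368) (nat_lit 245)) (XT.lf (nat_lit 0) (nat_lit 23364194851) (nat_lit 228) (nat_lit 3580122522) (nat_lit 76) (nat_lit 1349248129) (nat_lit 21) (nat_lit 5) (nat_lit 24) (nat_lit 5) (nat_lit 22) (nat_lit 4) (nat_lit 528) (nat_lit 368) (nat_lit 244))) (XT.nd (nat_lit 78) (nat_lit 988) (nat_lit 0) (XT.lf (nat_lit 0) (nat_lit 1764207150) (nat_lit 836) (nat_lit 790366038) (nat_lit 836) (nat_lit 790366038) (nat_lit 531) (nat_lit 4) (nat_lit 542) (nat_lit 5) (nat_lit 542) (nat_lit 4) (nat_lit 402) (nat_lit 369) (nat_lit 369)) (XT.lf (nat_lit 0) (nat_lit 780887974) (nat_lit 912) (nat_lit 642044468) (nat_lit 988) (nat_lit 5290573986)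 (nat_lit 518) (nat_lit 5) (nat_lit 530) (nat_lit 5) (nat_lit 531) (nat_lit 4) (nat_lit 403) (nat_lit 369) (nat_lit 368))))))))
noncomputable def xc75 : XT := (XT.nd (nat_lit 2106) (nat_lit 10336) (nat_lit 0) (XT.nd (nat_lit 1014) (nat_lit 10032) (nat_lit 0) (XT.nd (nat_lit 468) (nat_lit 5548) (nat_lit 0) (XT.nd (nat_lit 234) (nat_lit 2280) (nat_lit 0) (XT.nd (nat_lit 78) (nat_lit 1064) (nat_lit 0) (XT.lf (nat_lit 0) (nat_lit 4422021219) (nat_lit 988) (nat_lit 1958865116) (nat_lit 0) (nat_lit 357488509) (nat_lit 518) (nat_lit 5) (nat_lit 531) (nat_lit 4) (nat_lit 518) (nat_lit 4) (nat_lit 404) (nat_lit 369) (nat_lit 367)) (XT.nd (nat_lit 78) (nat_lit 0) (nat_lit 0) (XT.lf (nat_lit 0) (nat_lit 659581940) (nat_lit 1064) (nat_lit 4704868274) (nat_lit 76) (nat_lit 1400267520) (nat_lit 504) (nat_lit 5) (nat_lit 518) (nat_lit 5) (nat_lit 505) (nat_lit 4) (nat_lit 405) (nat_lit 369) (nat_lit 366)) (XT.lf (nat_lit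 0) (nat_lit 3612101974) (nat_lit 1064) (nat_lit 674788671) (nat_lit 76) (nat_lit 2505529992) (nat_lit 504) (nat_lit 5) (nat_lit 518) (nat_lit 5) (nat_lit 505) (nat_lit 4) (nat_lit 406) (nat_lit 369) (nat_lit 365)))) (XT.nd (nat_lit 78) (nat_lit 1216) (nat_lit 0) (XT.lf (nat_lit 0) (nat_lit 3428377678) (nat_lit 1064) (nat_lit 3153652729) (nat_lit 1140) (nat_lit 239579066) (nat_lit 490) (nat_lit 5) (nat_lit 504) (nat_lit 5) (nat_lit 505) (nat_lit 4) (nat_lit 407) (nat_lit 369) (nat_lit 364)) (XT.nd (nat_lit 78) (nat_lit 0) (nat_lit 0) (XT.lf (nat_lit 0) (nat_lit 709749234) (nat_lit 1140) (nat_lit 1959695083) (nat_lit 1216) (nat_lit 4182761231) (nat_lit 474) (nat_lit 5) (nat_lit 489) (nat_lit 5) (nat_lit 490) (nat_lit 5) (nat_lit 408) (nat_lit 369) (nat_lit 363)) (XT.lf (nat_lit 0) (nat_lit 4886455047) (nat_lit 1140) (nat_lit 707151098) (nat_lit 1216) (nat_lit 1290665731) (nat_lit 474) (nat_lit 5) (nat_lit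 489) (nat_lit 5) (nat_lit 490) (nat_lit 5) (nat_lit 409) (nat_lit 369) (nat_lit 362))))) (XT.nd (nat_lit 234) (nat_lit 2888) (nat_lit 0) (XT.nd (nat_lit 78) (nat_lit 1368) (nat_lit 0) (XT.lf (nat_lit 0) (nat_lit 1593825548) (nat_lit 1292) (nat_lit 4726605112) (nat_lit 76) (nat_lit 597296796) (nat_lit 457) (nat_lit 5) (nat_lit 474) (nat_lit 5) (nat_lit 458) (nat_lit 5) (nat_lit 410) (nat_lit 369) (nat_lit 361)) (XT.nd (nat_lit 78) (nat_lit 1368) (nat_lit 0) (XT.lf (nat_lit 0) (nat_lit 4475983304) (nat_lit 1292) (nat_lit 527601962) (nat_lit 76) (nat_lit 1949039019) (nat_lit 457) (nat_lit 5) (nat_lit 474) (nat_lit 5) (nat_lit 458) (nat_lit 5) (nat_lit 411) (nat_lit 369) (nat_lit 360)) (XT.lf (nat_lit 0) (nat_lit 386257813) (nat_lit 1368) (nat_lit 3239532810) (nat_lit 76) (nat_lit 3363171426) (nat_lit 439) (nat_lit 5) (nat_lit 457) (nat_lit 5) (nat_lit 440) (nat_lit 5) (nat_lit 412) (nat_lit 369) (nat_lit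 359)))) (XT.nd (nat_lit 156) (nat_lit 1520) (nat_lit 0) (XT.nd (nat_lit 78) (nat_lit 0) (nat_lit 0) (XT.lf (nat_lit 0) (nat_lit 1037281551) (nat_lit 1368) (nat_lit 2186918276) (nat_lit 1444) (nat_lit 3802563247) (nat_lit 421) (nat_lit 5) (nat_lit 439) (nat_lit 5) (nat_lit 440) (nat_lit 5) (nat_lit 413) (nat_lit 369) (nat_lit 358)) (XT.lf (nat_lit 0) (nat_lit 5390799596) (nat_lit 1368) (nat_lit 691279767) (nat_lit 1444) (nat_lit 984058424) (nat_lit 421) (nat_lit 5) (nat_lit 439) (nat_lit 5) (nat_lit 440) (nat_lit 5) (nat_lit 414) (nat_lit 369) (nat_lit 357))) (XT.nd (nat_lit 78) (nat_lit 0) (nat_lit 0) (XT.lf (nat_lit 0) (nat_lit 1831297243) (nat_lit 1520) (nat_lit 4416981602) (nat_lit 76) (nat_lit 858548125) (nat_lit 401) (nat_lit 5) (nat_lit 421) (nat_lit 5) (nat_lit 402) (nat_lit 5) (nat_lit 415) (nat_lit 369) (nat_lit 356)) (XT.lf (nat_lit 0) (nat_lit 4648647098) (nat_lit 1520) (nat_lit 47694359) (nat_lit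 76) (nat_lit 2452757669) (nat_lit 401) (nat_lit 5) (nat_lit 421) (nat_lit 5) (nat_lit 402) (nat_lit 5) (nat_lit 416) (nat_lit 369) (nat_lit 355)))))) (XT.nd (nat_lit 546) (nat_lit 3192) (nat_lit 0) (XT.nd (nat_lit 234) (nat_lit 3648) (nat_lit 0) (XT.nd (nat_lit 78) (nat_lit 1596) (nat_lit 0) (XT.lf (nat_lit 0) (nat_lit 298279466) (nat_lit 1596) (nat_lit 2780338172) (nat_lit 76) (nat_lit 4114180165) (nat_lit 380) (nat_lit 5) (nat_lit 401) (nat_lit 5) (nat_lit 381) (nat_lit 5) (nat_lit 417) (nat_lit 369) (nat_lit 354)) (XT.nd (nat_lit 78) (nat_lit 0) (nat_lit 0) (XT.lf (nat_lit 0) (nat_lit 1677660470) (nat_lit 1596) (nat_lit 1397485503) (nat_lit 1672) (nat_lit 4162853232) (nat_lit 359) (nat_lit 5) (nat_lit 380) (nat_lit 5) (nat_lit 381) (nat_lit 5) (nat_lit 418) (nat_lit 369) (nat_lit 353)) (XT.lf (nat_lit 0) (nat_lit 5873550598) (nat_lit 1672) (nat_lit 1077122789) (nat_lit 76) (nat_lit 334181958) (nat_lit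 359) (nat_lit 5) (nat_lit 381) (nat_lit 5) (nat_lit 360) (nat_lit 5) (nat_lit 419) (nat_lit 369) (nat_lit 352)))) (XT.nd (nat_lit 156) (nat_lit 912) (nat_lit 0) (XT.nd (nat_lit 78) (nat_lit 988) (nat_lit 0) (XT.lf (nat_lit 0) (nat_lit 1354842838) (nat_lit 1748) (nat_lit 3862595110) (nat_lit 76) (nat_lit 2115540109) (nat_lit 336) (nat_lit 5) (nat_lit 359) (nat_lit 5) (nat_lit 337) (nat_lit 5) (nat_lit 420) (nat_lit 369) (nat_lit 351)) (XT.lf (nat_lit 0) (nat_lit 688057920) (nat_lit 988) (nat_lit 3427650211) (nat_lit 1064) (nat_lit 3267069322) (nat_lit 323) (nat_lit 5) (nat_lit 336) (nat_lit 5) (nat_lit 337) (nat_lit 5) (nat_lit 421) (nat_lit 369) (nat_lit 350))) (XT.nd (nat_lit 78) (nat_lit 912) (nat_lit 0) (XT.lf (nat_lit 0) (nat_lit 5329339155) (nat_lit 988) (nat_lit 1575608789) (nat_lit 1064) (nat_lit 529227089) (nat_lit 323) (nat_lit 5) (nat_lit 336) (nat_lit 5) (nat_lit 337) (nat_lit 5) (nat_lit 422)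 (nat_lit 369) (nat_lit 349)) (XT.lf (nat_lit 0) (nat_lit 2200304283) (nat_lit 912) (nat_lit 4946283985) (nat_lit 76) (nat_lit 340448856) (nat_lit 311) (nat_lit 5) (nat_lit 323) (nat_lit 5) (nat_lit 312) (nat_lit 5) (nat_lit 423) (nat_lit 369) (nat_lit 348))))) (XT.nd (nat_lit 234) (nat_lit 1520) (nat_lit 0) (XT.nd (nat_lit 78) (nat_lit 1672) (nat_lit 0) (XT.lf (nat_lit 0) (nat_lit 4950544587) (nat_lit 912) (nat_lit 300127142) (nat_lit 76) (nat_lit 2290812242) (nat_lit 311) (nat_lit 5) (nat_lit 323) (nat_lit 5) (nat_lit 312) (nat_lit 5) (nat_lit 424) (nat_lit 369) (nat_lit 347)) (XT.nd (nat_lit 78) (nat_lit 760) (nat_lit 0) (XT.lf (nat_lit 0) (nat_lit 134899937) (nat_lit 912) (nat_lit 3153310968) (nat_lit 76) (nat_lit 4309283166) (nat_lit 299) (nat_lit 5) (nat_lit 311) (nat_lit 5) (nat_lit 300) (nat_lit 5) (nat_lit 425) (nat_lit 369) (nat_lit 346)) (XT.lf (nat_lit 0) (nat_lit 1583920952) (nat_lit 760)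 (nat_lit 1258804936) (nat_lit 836) (nat_lit 4812370734) (nat_lit 289) (nat_lit 5) (nat_lit 299) (nat_lit 5) (nat_lit 300) (nat_lit 5) (nat_lit 426) (nat_lit 369) (nat_lit 345)))) (XT.nd (nat_lit 156) (nat_lit 684) (nat_lit 0) (XT.nd (nat_lit 78) (nat_lit 836) (nat_lit 0) (XT.lf (nat_lit 0) (nat_lit 5581722271) (nat_lit 836) (nat_lit 1313422430) (nat_lit 76) (nat_lit 819223125) (nat_lit 289) (nat_lit 5) (nat_lit 300) (nat_lit 5) (nat_lit 290) (nat_lit 5) (nat_lit 427) (nat_lit 369) (nat_lit 344)) (XT.lf (nat_lit 0) (nat_lit 575268830) (nat_lit 836) (nat_lit 4253814279) (nat_lit 76) (nat_lit 2946068567) (nat_lit 278) (nat_lit 5) (nat_lit 289) (nat_lit 5) (nat_lit 279) (nat_lit 5) (nat_lit 428) (nat_lit 369) (nat_lit 343))) (XT.nd (nat_lit 78) (nat_lit 0) (nat_lit 0) (XT.lf (nat_lit 0) (nat_lit 574435331) (nat_lit 684) (nat_lit 2698641122) (nat_lit 760) (nat_lit 4564560593) (nat_lit 269) (nat_lit 5) (nat_lit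 278) (nat_lit 5) (nat_lit 279) (nat_lit 5) (nat_lit 429) (nat_lit 369) (nat_lit 342)) (XT.lf (nat_lit 0) (nat_lit 5504719228) (nat_lit 684) (nat_lit 500937898) (nat_lit 760) (nat_lit 1896151210) (nat_lit 269) (nat_lit 5) (nat_lit 278) (nat_lit 5) (nat_lit 279) (nat_lit 5) (nat_lit 430) (nat_lit 369) (nat_lit 341))))))) (XT.nd (nat_lit 1092) (nat_lit 4180) (nat_lit 0) (XT.nd (nat_lit 546) (nat_lit 2508) (nat_lit 0) (XT.nd (nat_lit 234) (nat_lit 2128) (nat_lit 0) (XT.nd (nat_lit 78) (nat_lit 684) (nat_lit 0) (XT.lf (nat_lit 0) (nat_lit 795568561) (nat_lit 836) (nat_lit 5436751203) (nat_lit 76) (nat_lit 1735271178) (nat_lit 258) (nat_lit 5) (nat_lit 269) (nat_lit 5) (nat_lit 259) (nat_lit 5) (nat_lit 431) (nat_lit 369) (nat_lit 340)) (XT.nd (nat_lit 78) (nat_lit 684) (nat_lit 0) (XT.lf (nat_lit 0) (nat_lit 3488671496) (nat_lit 836) (nat_lit 512982093) (nat_lit 76) (nat_lit 4033375694) (nat_lit 258) (nat_lit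 5) (nat_lit 269) (nat_lit 5) (nat_lit 259) (nat_lit 5) (nat_lit 432) (nat_lit 369) (nat_lit 339)) (XT.lf (nat_lit 0) (nat_lit 4517079555) (nat_lit 684) (nat_lit 1702203216) (nat_lit 760) (nat_lit 1884909245) (nat_lit 249) (nat_lit 5) (nat_lit 258) (nat_lit 5) (nat_lit 259) (nat_lit 5) (nat_lit 433) (nat_lit 369) (nat_lit 338)))) (XT.nd (nat_lit 156) (nat_lit 1368) (nat_lit 0) (XT.nd (nat_lit 78) (nat_lit 0) (nat_lit 0) (XT.lf (nat_lit 0) (nat_lit 790504798) (nat_lit 760) (nat_lit 6737797535) (nat_lit 76) (nat_lit 646942201) (nat_lit 239) (nat_lit 5) (nat_lit 249) (nat_lit 5) (nat_lit 240) (nat_lit 5) (nat_lit 434) (nat_lit 369) (nat_lit 337)) (XT.lf (nat_lit 0) (nat_lit 3484767728) (nat_lit 760) (nat_lit 1712328906) (nat_lit 76) (nat_lit 3050606442) (nat_lit 239) (nat_lit 5) (nat_lit 249) (nat_lit 5) (nat_lit 240) (nat_lit 5) (nat_lit 435) (nat_lit 369) (nat_lit 336))) (XT.nd (nat_lit 78) (nat_lit 760)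 (nat_lit 0) (XT.lf (nat_lit 0) (nat_lit 3407059759) (nat_lit 608) (nat_lit 2803910630) (nat_lit 684) (nat_lit 2111124162) (nat_lit 231) (nat_lit 5) (nat_lit 239) (nat_lit 5) (nat_lit 240) (nat_lit 5) (nat_lit 436) (nat_lit 369) (nat_lit 335)) (XT.lf (nat_lit 0) (nat_lit 201452100) (nat_lit 684) (nat_lit 353494268) (nat_lit 760) (nat_lit 7843613300) (nat_lit 221) (nat_lit 5) (nat_lit 230) (nat_lit 5) (nat_lit 231) (nat_lit 5) (nat_lit 437) (nat_lit 369) (nat_lit 334))))) (XT.nd (nat_lit 234) (nat_lit 1824) (nat_lit 0) (XT.nd (nat_lit 78) (nat_lit 684) (nat_lit 0) (XT.lf (nat_lit 0) (nat_lit 3249842027) (nat_lit 760) (nat_lit 3069214149) (nat_lit 76) (nat_lit 2157185653) (nat_lit 221) (nat_lit 5) (nat_lit 231) (nat_lit 5) (nat_lit 222) (nat_lit 5) (nat_lit 438) (nat_lit 369) (nat_lit 333)) (XT.nd (nat_lit 78) (nat_lit 76) (nat_lit 0) (XT.lf (nat_lit 0) (nat_lit 2135848501) (nat_lit 608) (nat_lit 3836457761)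 (nat_lit 684) (nat_lit 2583739394) (nat_lit 213) (nat_lit 5) (nat_lit 221) (nat_lit 5) (nat_lit 222) (nat_lit 5) (nat_lit 439) (nat_lit 369) (nat_lit 332)) (XT.lf (nat_lit 0) (nat_lit 88689306) (nat_lit 684) (nat_lit 1202605726) (nat_lit 76) (nat_lit 7346608218) (nat_lit 212) (nat_lit 5) (nat_lit 221) (nat_lit 5) (nat_lit 213) (nat_lit 5) (nat_lit 440) (nat_lit 369) (nat_lit 331)))) (XT.nd (nat_lit 156) (nat_lit 684) (nat_lit 0) (XT.nd (nat_lit 78) (nat_lit 532) (nat_lit 0) (XT.lf (nat_lit 0) (nat_lit 2773843099) (nat_lit 684) (nat_lit 4624341871) (nat_lit 76) (nat_lit 1323033045) (nat_lit 204) (nat_lit 5) (nat_lit 213) (nat_lit 5) (nat_lit 205) (nat_lit 5) (nat_lit 441) (nat_lit 369) (nat_lit 330)) (XT.lf (nat_lit 0) (nat_lit 661897770) (nat_lit 532) (nat_lit 4830685282) (nat_lit 608) (nat_lit 3314056643) (nat_lit 197) (nat_lit 5) (nat_lit 204) (nat_lit 5) (nat_lit 205) (nat_lit 5) (nat_lit 442) (nat_lit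 369) (nat_lit 329))) (XT.nd (nat_lit 78) (nat_lit 684) (nat_lit 0) (XT.lf (nat_lit 0) (nat_lit 6066090833) (nat_lit 532) (nat_lit 2190027248) (nat_lit 608) (nat_lit 637880851) (nat_lit 197) (nat_lit 5) (nat_lit 204) (nat_lit 5) (nat_lit 205) (nat_lit 5) (nat_lit 443) (nat_lit 369) (nat_lit 328)) (XT.lf (nat_lit 0) (nat_lit 2044328796) (nat_lit 684) (nat_lit 6421453752) (nat_lit 76) (nat_lit 517488349) (nat_lit 188) (nat_lit 5) (nat_lit 197) (nat_lit 5) (nat_lit 189) (nat_lit 5) (nat_lit 444) (nat_lit 369) (nat_lit 327)))))) (XT.nd (nat_lit 546) (nat_lit 1976) (nat_lit 0) (XT.nd (nat_lit 234) (nat_lit 1064) (nat_lit 0) (XT.nd (nat_lit 78) (nat_lit 1140) (nat_lit 0) (XT.lf (nat_lit 0) (nat_lit 4765538701) (nat_lit 684) (nat_lit 1045601704) (nat_lit 76) (nat_lit 3263260989) (nat_lit 188) (nat_lit 5) (nat_lit 197) (nat_lit 5) (nat_lit 189) (nat_lit 5) (nat_lit 445) (nat_lit 369) (nat_lit 326)) (XT.nd (nat_lit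 78) (nat_lit 608) (nat_lit 0) (XT.lf (nat_lit 0) (nat_lit 4446605684) (nat_lit 532) (nat_lit 3084499578) (nat_lit 608) (nat_lit 1636485260) (nat_lit 181) (nat_lit 5) (nat_lit 188) (nat_lit 5) (nat_lit 189) (nat_lit 5) (nat_lit 446) (nat_lit 369) (nat_lit 325)) (XT.lf (nat_lit 0) (nat_lit 753386208) (nat_lit 532) (nat_lit 294839134) (nat_lit 608) (nat_lit 8214846511) (nat_lit 173) (nat_lit 5) (nat_lit 180) (nat_lit 5) (nat_lit 181) (nat_lit 5) (nat_lit 447) (nat_lit 369) (nat_lit 324)))) (XT.nd (nat_lit 156) (nat_lit 608) (nat_lit 0) (XT.nd (nat_lit 78) (nat_lit 456) (nat_lit 0) (XT.lf (nat_lit 0) (nat_lit 3774774713) (nat_lit 608) (nat_lit 3036301882) (nat_lit 76) (nat_lit 2549001403) (nat_lit 173) (nat_lit 5) (nat_lit 181) (nat_lit 5) (nat_lit 174) (nat_lit 5) (nat_lit 448) (nat_lit 369) (nat_lit 323)) (XT.lf (nat_lit 0) (nat_lit 2528639156) (nat_lit 456) (nat_lit 4007925537) (nat_lit 532) (nat_lit 2922877411)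 (nat_lit 167) (nat_lit 5) (nat_lit 173) (nat_lit 5) (nat_lit 174) (nat_lit 5) (nat_lit 449) (nat_lit 369) (nat_lit 322))) (XT.nd (nat_lit 78) (nat_lit 608) (nat_lit 0) (XT.lf (nat_lit 0) (nat_lit 8197238671) (nat_lit 456) (nat_lit 1139488039) (nat_lit 532) (nat_lit 224435460) (nat_lit 167) (nat_lit 5) (nat_lit 173) (nat_lit 5) (nat_lit 174) (nat_lit 5) (nat_lit 450) (nat_lit 369) (nat_lit 321)) (XT.lf (nat_lit 0) (nat_lit 2497813540) (nat_lit 608) (nat_lit 5370617896) (nat_lit 76) (nat_lit 1796127258) (nat_lit 159) (nat_lit 5) (nat_lit 167) (nat_lit 5) (nat_lit 160) (nat_lit 5) (nat_lit 451) (nat_lit 369) (nat_lit 320))))) (XT.nd (nat_lit 234) (nat_lit 988) (nat_lit 0) (XT.nd (nat_lit 78) (nat_lit 532) (nat_lit 0) (XT.lf (nat_lit 0) (nat_lit 259193315) (nat_lit 456) (nat_lit 4994306781) (nat_lit 532) (nat_lit 4516883018) (nat_lit 153) (nat_lit 5) (nat_lit 159) (nat_lit 5) (nat_lit 160) (nat_lit 5) (nat_lit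 452) (nat_lit 369) (nat_lit 319)) (XT.nd (nat_lit 78) (nat_lit 532) (nat_lit 0) (XT.lf (nat_lit 0) (nat_lit 6025997979) (nat_lit 456) (nat_lit 2038295037) (nat_lit 532) (nat_lit 1814060167) (nat_lit 153) (nat_lit 5) (nat_lit 159) (nat_lit 5) (nat_lit 160) (nat_lit 5) (nat_lit 453) (nat_lit 369) (nat_lit 318)) (XT.lf (nat_lit 0) (nat_lit 913508996) (nat_lit 532) (nat_lit 8104866185) (nat_lit 76) (nat_lit 970351825) (nat_lit 146) (nat_lit 5) (nat_lit 153) (nat_lit 5) (nat_lit 147) (nat_lit 5) (nat_lit 454) (nat_lit 369) (nat_lit 317)))) (XT.nd (nat_lit 156) (nat_lit 532) (nat_lit 0) (XT.nd (nat_lit 78) (nat_lit 456) (nat_lit 0) (XT.lf (nat_lit 0) (nat_lit 3675588911) (nat_lit 532) (nat_lit 2387744208) (nat_lit 76) (nat_lit 4037677714) (nat_lit 146) (nat_lit 5) (nat_lit 153) (nat_lit 5) (nat_lit 147) (nat_lit 5) (nat_lit 455) (nat_lit 369) (nat_lit 316)) (XT.lf (nat_lit 0) (nat_lit 3441512840) (nat_lit 456)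 (nat_lit 3039139968) (nat_lit 532) (nat_lit 3735159483) (nat_lit 140) (nat_lit 5) (nat_lit 146) (nat_lit 5) (nat_lit 147) (nat_lit 5) (nat_lit 456) (nat_lit 369) (nat_lit 315))) (XT.nd (nat_lit 78) (nat_lit 532) (nat_lit 0) (XT.lf (nat_lit 0) (nat_lit 9323930558) (nat_lit 532) (nat_lit 960929249) (nat_lit 76) (nat_lit 48433995) (nat_lit 140) (nat_lit 5) (nat_lit 147) (nat_lit 5) (nat_lit 141) (nat_lit 5) (nat_lit 457) (nat_lit 369) (nat_lit 314)) (XT.lf (nat_lit 0) (nat_lit 1766557647) (nat_lit 532) (nat_lit 5497398564) (nat_lit 76) (nat_lit 3188587325) (nat_lit 133) (nat_lit 5) (nat_lit 140) (nat_lit 5) (nat_lit 134) (nat_lit 5) (nat_lit 458) (nat_lit 369) (nat_lit 313))))))))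
noncomputable def xc76 : XT := (XT.nd (nat_lit 2106) (nat_lit 2660) (nat_lit 0) (XT.nd (nat_lit 1014) (nat_lit 2204) (nat_lit 0) (XT.nd (nat_lit 468) (nat_lit 1520) (nat_lit 0) (XT.nd (nat_lit 234) (nat_lit 456) (nat_lit 0) (XT.nd (nat_lit 78) (nat_lit 380) (nat_lit 0) (XT.lf (nat_lit 0) (nat_lit 379883949) (nat_lit 380) (nat_lit 4180041237) (nat_lit 456) (nat_lit 6014635530) (nat_lit 128) (nat_lit 5) (nat_lit 133) (nat_lit 5) (nat_lit 134) (nat_lit 5) (nat_lit 459) (nat_lit 369) (nat_lit 312)) (XT.nd (nat_lit 78) (nat_lit 380) (nat_lit 0) (XT.lf (nat_lit 0) (nat_lit 6402651175) (nat_lit 380) (nat_lit 1010227761) (nat_lit 456) (nat_lit 3286089201) (nat_lit 128) (nat_lit 5) (nat_lit 133) (nat_lit 5) (nat_lit 134) (nat_lit 5) (nat_lit 460) (nat_lit 369) (nat_lit 311)) (XT.lf (nat_lit 0) (nat_lit 1681373304) (nat_lit 380) (nat_lit 8634261621) (nat_lit 456) (nat_lit 510397719) (nat_lit 123) (nat_lit 5) (nat_lit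 128) (nat_lit 5) (nat_lit 129) (nat_lit 5) (nat_lit 461) (nat_lit 369) (nat_lit 310)))) (XT.nd (nat_lit 78) (nat_lit 380) (nat_lit 0) (XT.lf (nat_lit 0) (nat_lit 2293579306) (nat_lit 456) (nat_lit 3186561823) (nat_lit 76) (nat_lit 5475154632) (nat_lit 122) (nat_lit 5) (nat_lit 128) (nat_lit 5) (nat_lit 123) (nat_lit 5) (nat_lit 462) (nat_lit 369) (nat_lit 309)) (XT.nd (nat_lit 78) (nat_lit 0) (nat_lit 0) (XT.lf (nat_lit 0) (nat_lit 2879588083) (nat_lit 380) (nat_lit 2254051238) (nat_lit 456) (nat_lit 5953723018) (nat_lit 117) (nat_lit 5) (nat_lit 122) (nat_lit 5) (nat_lit 123) (nat_lit 5) (nat_lit 463) (nat_lit 369) (nat_lit 308)) (XT.lf (nat_lit 0) (nat_lit 8027133434) (nat_lit 456) (nat_lit 2164018952) (nat_lit 76) (nat_lit 1031007191) (nat_lit 117) (nat_lit 5) (nat_lit 123) (nat_lit 5) (nat_lit 118) (nat_lit 5) (nat_lit 464) (nat_lit 369) (nat_lit 307))))) (XT.nd (nat_lit 234) (nat_lit 760) (nat_lit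 0) (XT.nd (nat_lit 78) (nat_lit 380) (nat_lit 0) (XT.lf (nat_lit 0) (nat_lit 3993192268) (nat_lit 380) (nat_lit 6995156888) (nat_lit 456) (nat_lit 371128126) (nat_lit 112) (nat_lit 5) (nat_lit 117) (nat_lit 5) (nat_lit 118) (nat_lit 5) (nat_lit 465) (nat_lit 369) (nat_lit 306)) (XT.nd (nat_lit 78) (nat_lit 304) (nat_lit 0) (XT.lf (nat_lit 0) (nat_lit 2460048738) (nat_lit 456) (nat_lit 1257756665) (nat_lit 76) (nat_lit 7781756621) (nat_lit 111) (nat_lit 5) (nat_lit 117) (nat_lit 5) (nat_lit 112) (nat_lit 5) (nat_lit 466) (nat_lit 369) (nat_lit 305)) (XT.lf (nat_lit 0) (nat_lit 4991836173) (nat_lit 304) (nat_lit 353156797) (nat_lit 380) (nat_lit 6297384474) (nat_lit 107) (nat_lit 5) (nat_lit 111) (nat_lit 5) (nat_lit 112) (nat_lit 5) (nat_lit 467) (nat_lit 369) (nat_lit 304)))) (XT.nd (nat_lit 156) (nat_lit 380) (nat_lit 0) (XT.nd (nat_lit 78) (nat_lit 380) (nat_lit 0) (XT.lf (nat_lit 0) (nat_lit 8286039761)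 (nat_lit 380) (nat_lit 468812479) (nat_lit 76) (nat_lit 3033248774) (nat_lit 107) (nat_lit 5) (nat_lit 112) (nat_lit 5) (nat_lit 108) (nat_lit 5) (nat_lit 468) (nat_lit 369) (nat_lit 303)) (XT.lf (nat_lit 0) (nat_lit 5867680738) (nat_lit 380) (nat_lit 5429170307) (nat_lit 456) (nat_lit 639688664) (nat_lit 102) (nat_lit 5) (nat_lit 107) (nat_lit 5) (nat_lit 108) (nat_lit 5) (nat_lit 469) (nat_lit 369) (nat_lit 302))) (XT.nd (nat_lit 78) (nat_lit 0) (nat_lit 0) (XT.lf (nat_lit 0) (nat_lit 193477757) (nat_lit 304) (nat_lit 2031568362) (nat_lit 380) (nat_lit 9863123438) (nat_lit 97) (nat_lit 5) (nat_lit 101) (nat_lit 5) (nat_lit 102) (nat_lit 5) (nat_lit 470) (nat_lit 369) (nat_lit 301)) (XT.lf (nat_lit 0) (nat_lit 5159619993) (nat_lit 380) (nat_lit 5636339686) (nat_lit 76) (nat_lit 1446383957) (nat_lit 97) (nat_lit 5) (nat_lit 102) (nat_lit 5) (nat_lit 98) (nat_lit 5) (nat_lit 471) (nat_lit 369) (nat_lit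 300)))))) (XT.nd (nat_lit 546) (nat_lit 912) (nat_lit 0) (XT.nd (nat_lit 234) (nat_lit 608) (nat_lit 0) (XT.nd (nat_lit 78) (nat_lit 380) (nat_lit 0) (XT.lf (nat_lit 0) (nat_lit 699932616) (nat_lit 304) (nat_lit 7442320359) (nat_lit 380) (nat_lit 4257578906) (nat_lit 93) (nat_lit 5) (nat_lit 97) (nat_lit 5) (nat_lit 98) (nat_lit 5) (nat_lit 472) (nat_lit 369) (nat_lit 299)) (XT.nd (nat_lit 78) (nat_lit 380) (nat_lit 0) (XT.lf (nat_lit 0) (nat_lit 7196642646) (nat_lit 304) (nat_lit 3997372106) (nat_lit 380) (nat_lit 1366283301) (nat_lit 93) (nat_lit 5) (nat_lit 97) (nat_lit 5) (nat_lit 98) (nat_lit 5) (nat_lit 473) (nat_lit 369) (nat_lit 298)) (XT.lf (nat_lit 0) (nat_lit 1060706115) (nat_lit 304) (nat_lit 480267691) (nat_lit 380) (nat_lit 11183233306) (nat_lit 88) (nat_lit 5) (nat_lit 92) (nat_lit 5) (nat_lit 93) (nat_lit 5) (nat_lit 474) (nat_lit 369) (nat_lit 297)))) (XT.nd (nat_lit 156) (nat_lit 304)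 (nat_lit 0) (XT.nd (nat_lit 78) (nat_lit 304) (nat_lit 0) (XT.lf (nat_lit 0) (nat_lit 4516695693) (nat_lit 380) (nat_lit 5276316616) (nat_lit 76) (nat_lit 3097645800) (nat_lit 88) (nat_lit 5) (nat_lit 93) (nat_lit 5) (nat_lit 89) (nat_lit 5) (nat_lit 475) (nat_lit 369) (nat_lit 296)) (XT.lf (nat_lit 0) (nat_lit 1209686034) (nat_lit 304) (nat_lit 6326017792) (nat_lit 380) (nat_lit 5525075199) (nat_lit 84) (nat_lit 5) (nat_lit 88) (nat_lit 5) (nat_lit 89) (nat_lit 5) (nat_lit 476) (nat_lit 369) (nat_lit 295))) (XT.nd (nat_lit 78) (nat_lit 304) (nat_lit 0) (XT.lf (nat_lit 0) (nat_lit 7855594263) (nat_lit 304) (nat_lit 2767908051) (nat_lit 380) (nat_lit 2610647861) (nat_lit 84) (nat_lit 5) (nat_lit 88) (nat_lit 5) (nat_lit 89) (nat_lit 5) (nat_lit 477) (nat_lit 369) (nat_lit 294)) (XT.lf (nat_lit 0) (nat_lit 343992808) (nat_lit 304) (nat_lit 12221032414) (nat_lit 76) (nat_lit 846198436) (nat_lit 80) (nat_lit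 5) (nat_lit 84) (nat_lit 5) (nat_lit 81) (nat_lit 5) (nat_lit 478) (nat_lit 369) (nat_lit 293))))) (XT.nd (nat_lit 234) (nat_lit 608) (nat_lit 0) (XT.nd (nat_lit 78) (nat_lit 304) (nat_lit 0) (XT.lf (nat_lit 0) (nat_lit 3350973336) (nat_lit 304) (nat_lit 5704831407) (nat_lit 76) (nat_lit 4535139759) (nat_lit 80) (nat_lit 5) (nat_lit 84) (nat_lit 5) (nat_lit 81) (nat_lit 5) (nat_lit 479) (nat_lit 369) (nat_lit 292)) (XT.nd (nat_lit 78) (nat_lit 0) (nat_lit 0) (XT.lf (nat_lit 0) (nat_lit 913401335) (nat_lit 304) (nat_lit 5484650447) (nat_lit 380) (nat_lit 7376623613) (nat_lit 76) (nat_lit 5) (nat_lit 80) (nat_lit 5) (nat_lit 81) (nat_lit 5) (nat_lit 480) (nat_lit 369) (nat_lit 291)) (XT.lf (nat_lit 0) (nat_lit 7701322463) (nat_lit 304) (nat_lit 1817309164) (nat_lit 380) (nat_lit 4443212588) (nat_lit 76) (nat_lit 5) (nat_lit 80) (nat_lit 5) (nat_lit 81) (nat_lit 5) (nat_lit 481) (nat_lit 369) (nat_lit 290))))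 (XT.nd (nat_lit 156) (nat_lit 304) (nat_lit 0) (XT.nd (nat_lit 78) (nat_lit 76) (nat_lit 0) (XT.lf (nat_lit 0) (nat_lit 425690782) (nat_lit 228) (nat_lit 12265874853) (nat_lit 304) (nat_lit 1461406147) (nat_lit 73) (nat_lit 5) (nat_lit 76) (nat_lit 5) (nat_lit 77) (nat_lit 5) (nat_lit 482) (nat_lit 369) (nat_lit 289)) (XT.lf (nat_lit 0) (nat_lit 1588390325) (nat_lit 304) (nat_lit 7078901440) (nat_lit 76) (nat_lit 5679857105) (nat_lit 72) (nat_lit 5) (nat_lit 76) (nat_lit 5) (nat_lit 73) (nat_lit 5) (nat_lit 483) (nat_lit 369) (nat_lit 288))) (XT.nd (nat_lit 78) (nat_lit 304) (nat_lit 0) (XT.lf (nat_lit 0) (nat_lit 4654879447) (nat_lit 304) (nat_lit 346191623) (nat_lit 76) (nat_lit 9544453336) (nat_lit 72) (nat_lit 5) (nat_lit 76) (nat_lit 5) (nat_lit 73) (nat_lit 5) (nat_lit 484) (nat_lit 369) (nat_lit 287)) (XT.lf (nat_lit 0) (nat_lit 6569132502) (nat_lit 304) (nat_lit 1231949028) (nat_lit 380) (nat_lit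 6946431396) (nat_lit 68) (nat_lit 5) (nat_lit 72) (nat_lit 5) (nat_lit 73) (nat_lit 5) (nat_lit 485) (nat_lit 369) (nat_lit 286))))))) (XT.nd (nat_lit 1014) (nat_lit 1064) (nat_lit 0) (XT.nd (nat_lit 468) (nat_lit 836) (nat_lit 0) (XT.nd (nat_lit 234) (nat_lit 456) (nat_lit 0) (XT.nd (nat_lit 78) (nat_lit 304) (nat_lit 0) (XT.lf (nat_lit 0) (nat_lit 11005379829) (nat_lit 380) (nat_lit 1381364080) (nat_lit 76) (nat_lit 2566906747) (nat_lit 68) (nat_lit 5) (nat_lit 73) (nat_lit 5) (nat_lit 69) (nat_lit 5) (nat_lit 486) (nat_lit 369) (nat_lit 285)) (XT.nd (nat_lit 78) (nat_lit 76) (nat_lit 0) (XT.lf (nat_lit 0) (nat_lit 5579008267) (nat_lit 228) (nat_lit 8715481380) (nat_lit 304) (nat_lit 869019610) (nat_lit 65) (nat_lit 5) (nat_lit 68) (nat_lit 5) (nat_lit 69) (nat_lit 5) (nat_lit 487) (nat_lit 369) (nat_lit 284)) (XT.lf (nat_lit 0) (nat_lit 2227750681) (nat_lit 304) (nat_lit 2732552224) (nat_lit 76) (nat_lit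 10417264675) (nat_lit 64) (nat_lit 5) (nat_lit 68) (nat_lit 5) (nat_lit 65) (nat_lit 5) (nat_lit 488) (nat_lit 369) (nat_lit 283)))) (XT.nd (nat_lit 78) (nat_lit 228) (nat_lit 0) (XT.lf (nat_lit 0) (nat_lit 4269743709) (nat_lit 228) (nat_lit 1109670427) (nat_lit 304) (nat_lit 10216298071) (nat_lit 61) (nat_lit 5) (nat_lit 64) (nat_lit 5) (nat_lit 65) (nat_lit 5) (nat_lit 489) (nat_lit 369) (nat_lit 282)) (XT.nd (nat_lit 78) (nat_lit 228) (nat_lit 0) (XT.lf (nat_lit 0) (nat_lit 8607852445) (nat_lit 304) (nat_lit 4424217476) (nat_lit 76) (nat_lit 2785886640) (nat_lit 61) (nat_lit 5) (nat_lit 65) (nat_lit 5) (nat_lit 62) (nat_lit 5) (nat_lit 490) (nat_lit 369) (nat_lit 281)) (XT.lf (nat_lit 0) (nat_lit 2606052609) (nat_lit 228) (nat_lit 9296514301) (nat_lit 304) (nat_lit 4142056183) (nat_lit 58) (nat_lit 5) (nat_lit 61) (nat_lit 5) (nat_lit 62) (nat_lit 5) (nat_lit 491) (nat_lit 369) (nat_lit 280))))) (XT.nd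 (nat_lit 234) (nat_lit 532) (nat_lit 0) (XT.nd (nat_lit 78) (nat_lit 304) (nat_lit 0) (XT.lf (nat_lit 0) (nat_lit 9800792651) (nat_lit 228) (nat_lit 5469718153) (nat_lit 304) (nat_lit 1005176663) (nat_lit 58) (nat_lit 5) (nat_lit 61) (nat_lit 5) (nat_lit 62) (nat_lit 5) (nat_lit 492) (nat_lit 369) (nat_lit 279)) (XT.nd (nat_lit 78) (nat_lit 0) (nat_lit 0) (XT.lf (nat_lit 0) (nat_lit 585786300) (nat_lit 228) (nat_lit 1561605614) (nat_lit 304) (nat_lit 14364072399) (nat_lit 54) (nat_lit 5) (nat_lit 57) (nat_lit 5) (nat_lit 58) (nat_lit 5) (nat_lit 493) (nat_lit 369) (nat_lit 278)) (XT.lf (nat_lit 0) (nat_lit 5387088219) (nat_lit 304) (nat_lit 8934152618) (nat_lit 76) (nat_lit 2429842828) (nat_lit 54) (nat_lit 5) (nat_lit 58) (nat_lit 5) (nat_lit 55) (nat_lit 5) (nat_lit 494) (nat_lit 369) (nat_lit 277)))) (XT.nd (nat_lit 156) (nat_lit 304) (nat_lit 0) (XT.nd (nat_lit 78) (nat_lit 228) (nat_lit 0) (XT.lf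 (nat_lit 0) (nat_lit 8680393571) (nat_lit 304) (nat_lit 1848263724) (nat_lit 76) (nat_lit 6467072166) (nat_lit 54) (nat_lit 5) (nat_lit 58) (nat_lit 5) (nat_lit 55) (nat_lit 5) (nat_lit 495) (nat_lit 369) (nat_lit 276)) (XT.lf (nat_lit 0) (nat_lit 5415937418) (nat_lit 228) (nat_lit 6637686921) (nat_lit 304) (nat_lit 5191372804) (nat_lit 51) (nat_lit 5) (nat_lit 54) (nat_lit 5) (nat_lit 55) (nat_lit 5) (nat_lit 496) (nat_lit 369) (nat_lit 275))) (XT.nd (nat_lit 78) (nat_lit 304) (nat_lit 0) (XT.lf (nat_lit 0) (nat_lit 12816266322) (nat_lit 228) (nat_lit 2669543379) (nat_lit 304) (nat_lit 2013620638) (nat_lit 51) (nat_lit 5) (nat_lit 54) (nat_lit 5) (nat_lit 55) (nat_lit 5) (nat_lit 497) (nat_lit 369) (nat_lit 274)) (XT.lf (nat_lit 0) (nat_lit 1216830108) (nat_lit 304) (nat_lit 15169975784) (nat_lit 76) (nat_lit 1371891560) (nat_lit 47) (nat_lit 5) (nat_lit 51) (nat_lit 5) (nat_lit 48) (nat_lit 5) (nat_lit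 498) (nat_lit 369) (nat_lit 273)))))) (XT.nd (nat_lit 546) (nat_lit 608) (nat_lit 0) (XT.nd (nat_lit 234) (nat_lit 304) (nat_lit 0) (XT.nd (nat_lit 78) (nat_lit 152) (nat_lit 0) (XT.lf (nat_lit 0) (nat_lit 4513719603) (nat_lit 304) (nat_lit 8018151182) (nat_lit 76) (nat_lit 5490446464) (nat_lit 47) (nat_lit 5) (nat_lit 51) (nat_lit 5) (nat_lit 48) (nat_lit 5) (nat_lit 499) (nat_lit 369) (nat_lit 272)) (XT.nd (nat_lit 78) (nat_lit 152) (nat_lit 0) (XT.lf (nat_lit 0) (nat_lit 7856402961) (nat_lit 304) (nat_lit 756558657) (nat_lit 76) (nat_lit 9678659900) (nat_lit 47) (nat_lit 5) (nat_lit 51) (nat_lit 5) (nat_lit 48) (nat_lit 5) (nat_lit 500) (nat_lit 369) (nat_lit 271)) (XT.lf (nat_lit 0) (nat_lit 6705594552) (nat_lit 152) (nat_lit 4584133656) (nat_lit 228) (nat_lit 7276116920) (nat_lit 45) (nat_lit 5) (nat_lit 47) (nat_lit 5) (nat_lit 48) (nat_lit 5) (nat_lit 501) (nat_lit 369) (nat_lit 270)))) (XT.nd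 (nat_lit 156) (nat_lit 76) (nat_lit 0) (XT.nd (nat_lit 78) (nat_lit 228) (nat_lit 0) (XT.lf (nat_lit 0) (nat_lit 14294844515) (nat_lit 152) (nat_lit 482380267) (nat_lit 228) (nat_lit 4068627175) (nat_lit 45) (nat_lit 5) (nat_lit 47) (nat_lit 5) (nat_lit 48) (nat_lit 5) (nat_lit 502) (nat_lit 369) (nat_lit 269)) (XT.lf (nat_lit 0) (nat_lit 2886164010) (nat_lit 228) (nat_lit 15471808181) (nat_lit 304) (nat_lit 773025381) (nat_lit 42) (nat_lit 5) (nat_lit 45) (nat_lit 5) (nat_lit 46) (nat_lit 5) (nat_lit 503) (nat_lit 369) (nat_lit 268))) (XT.nd (nat_lit 78) (nat_lit 0) (nat_lit 0) (XT.lf (nat_lit 0) (nat_lit 2569242525) (nat_lit 304) (nat_lit 8939799329) (nat_lit 76) (nat_lit 7912182402) (nat_lit 41) (nat_lit 5) (nat_lit 45) (nat_lit 5) (nat_lit 42) (nat_lit 5) (nat_lit 504) (nat_lit 369) (nat_lit 267)) (XT.lf (nat_lit 0) (nat_lit 5949157884) (nat_lit 304) (nat_lit 1525283799) (nat_lit 76) (nat_lit 12243096709)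 (nat_lit 41) (nat_lit 5) (nat_lit 45) (nat_lit 5) (nat_lit 42) (nat_lit 5) (nat_lit 505) (nat_lit 369) (nat_lit 266))))) (XT.nd (nat_lit 234) (nat_lit 228) (nat_lit 0) (XT.nd (nat_lit 78) (nat_lit 228) (nat_lit 0) (XT.lf (nat_lit 0) (nat_lit 6086464754) (nat_lit 152) (nat_lit 3331237130) (nat_lit 228) (nat_lit 10601664328) (nat_lit 39) (nat_lit 5) (nat_lit 41) (nat_lit 5) (nat_lit 42) (nat_lit 5) (nat_lit 506) (nat_lit 369) (nat_lit 265)) (XT.nd (nat_lit 78) (nat_lit 228) (nat_lit 0) (XT.lf (nat_lit 0) (nat_lit 12953325896) (nat_lit 228) (nat_lit 6492752900) (nat_lit 76) (nat_lit 881205461) (nat_lit 39) (nat_lit 5) (nat_lit 42) (nat_lit 5) (nat_lit 40) (nat_lit 5) (nat_lit 507) (nat_lit 369) (nat_lit 264)) (XT.lf (nat_lit 0) (nat_lit 1057642649) (nat_lit 228) (nat_lit 15512904740) (nat_lit 304) (nat_lit 4070603271) (nat_lit 36) (nat_lit 5) (nat_lit 39) (nat_lit 5) (nat_lit 40) (nat_lit 5) (nat_lit 508)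 (nat_lit 369) (nat_lit 263)))) (XT.nd (nat_lit 156) (nat_lit 152) (nat_lit 0) (XT.nd (nat_lit 78) (nat_lit 76) (nat_lit 0) (XT.lf (nat_lit 0) (nat_lit 8816890881) (nat_lit 228) (nat_lit 11468907059) (nat_lit 304) (nat_lit 674990306) (nat_lit 36) (nat_lit 5) (nat_lit 39) (nat_lit 5) (nat_lit 40) (nat_lit 5) (nat_lit 509) (nat_lit 369) (nat_lit 262)) (XT.lf (nat_lit 0) (nat_lit 2734304885) (nat_lit 304) (nat_lit 4603416152) (nat_lit 76) (nat_lit 13949095858) (nat_lit 35) (nat_lit 5) (nat_lit 39) (nat_lit 5) (nat_lit 36) (nat_lit 5) (nat_lit 510) (nat_lit 369) (nat_lit 261))) (XT.nd (nat_lit 78) (nat_lit 0) (nat_lit 0) (XT.lf (nat_lit 0) (nat_lit 3094760908) (nat_lit 152) (nat_lit 3110776978) (nat_lit 228) (nat_lit 15413690308) (nat_lit 33) (nat_lit 5) (nat_lit 35) (nat_lit 5) (nat_lit 36) (nat_lit 5) (nat_lit 511) (nat_lit 369) (nat_lit 260)) (XT.lf (nat_lit 0) (nat_lit 9767849363) (nat_lit 228) (nat_lit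 10985680956) (nat_lit 76) (nat_lit 1204331296) (nat_lit 33) (nat_lit 5) (nat_lit 36) (nat_lit 5) (nat_lit 34) (nat_lit 5) (nat_lit 512) (nat_lit 369) (nat_lit 259))))))))
noncomputable def xc77 : XT := (XT.nd (nat_lit 51480) (nat_lit 0) (nat_lit 14592) (XT.nd (nat_lit 1014) (nat_lit 152) (nat_lit 0) (XT.nd (nat_lit 468) (nat_lit 380) (nat_lit 0) (XT.nd (nat_lit 234) (nat_lit 228) (nat_lit 0) (XT.nd (nat_lit 78) (nat_lit 152) (nat_lit 0) (XT.lf (nat_lit 0) (nat_lit 13405108349) (nat_lit 228) (nat_lit 3345458044) (nat_lit 76) (nat_lit 5552634120) (nat_lit 33) (nat_lit 5) (nat_lit 36) (nat_lit 5) (nat_lit 34) (nat_lit 5) (nat_lit 513) (nat_lit 369) (nat_lit 258)) (XT.nd (nat_lit 78) (nat_lit 0) (nat_lit 0) (XT.lf (nat_lit 0) (nat_lit 4478126272) (nat_lit 152) (nat_lit 12649492688) (nat_lit 228) (nat_lit 5527583803) (nat_lit 31) (nat_lit 5) (nat_lit 33) (nat_lit 5) (nat_lit 34) (nat_lit 5) (nat_lit 514) (nat_lit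 369) (nat_lit 257)) (XT.lf (nat_lit 0) (nat_lit 12475541714) (nat_lit 152) (nat_lit 8455062482) (nat_lit 228) (nat_lit 2083526942) (nat_lit 31) (nat_lit 5) (nat_lit 33) (nat_lit 5) (nat_lit 34) (nat_lit 5) (nat_lit 515) (nat_lit 369) (nat_lit 256)))) (XT.nd (nat_lit 78) (nat_lit 152) (nat_lit 0) (XT.lf (nat_lit 0) (nat_lit 1394447765) (nat_lit 228) (nat_lit 2784275442) (nat_lit 76) (nat_lit 19201659902) (nat_lit 30) (nat_lit 5) (nat_lit 33) (nat_lit 5) (nat_lit 31) (nat_lit 5) (nat_lit 516) (nat_lit 369) (nat_lit 255)) (XT.nd (nat_lit 78) (nat_lit 0) (nat_lit 0) (XT.lf (nat_lit 0) (nat_lit 4933089131) (nat_lit 228) (nat_lit 18602995143) (nat_lit 76) (nat_lit 217226481) (nat_lit 28) (nat_lit 5) (nat_lit 31) (nat_lit 5) (nat_lit 29) (nat_lit 5) (nat_lit 517) (nat_lit 369) (nat_lit 254)) (XT.lf (nat_lit 0) (nat_lit 8573150561) (nat_lit 228) (nat_lit 10906970639) (nat_lit 76) (nat_lit 4652968880) (nat_lit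 28) (nat_lit 5) (nat_lit 31) (nat_lit 5) (nat_lit 29) (nat_lit 5) (nat_lit 518) (nat_lit 369) (nat_lit 253))))) (XT.nd (nat_lit 234) (nat_lit 228) (nat_lit 0) (XT.nd (nat_lit 78) (nat_lit 152) (nat_lit 0) (XT.lf (nat_lit 0) (nat_lit 12270489577) (nat_lit 228) (nat_lit 3083682546) (nat_lit 76) (nat_lit 9166609291) (nat_lit 28) (nat_lit 5) (nat_lit 31) (nat_lit 5) (nat_lit 29) (nat_lit 5) (nat_lit 519) (nat_lit 369) (nat_lit 252)) (XT.nd (nat_lit 78) (nat_lit 0) (nat_lit 0) (XT.lf (nat_lit 0) (nat_lit 4934655992) (nat_lit 152) (nat_lit 11123939184) (nat_lit 228) (nat_lit 8857300837) (nat_lit 26) (nat_lit 5) (nat_lit 28) (nat_lit 5) (nat_lit 29) (nat_lit 5) (nat_lit 520) (nat_lit 369) (nat_lit 251)) (XT.lf (nat_lit 0) (nat_lit 13129199149) (nat_lit 152) (nat_lit 6798867466) (nat_lit 228) (nat_lit 5390739933) (nat_lit 26) (nat_lit 5) (nat_lit 28) (nat_lit 5) (nat_lit 29) (nat_lit 5) (nat_lit 521) (nat_lit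 369) (nat_lit 250)))) (XT.nd (nat_lit 156) (nat_lit 0) (nat_lit 0) (XT.nd (nat_lit 78) (nat_lit 228) (nat_lit 0) (XT.lf (nat_lit 0) (nat_lit 21462179952) (nat_lit 152) (nat_lit 2397953997) (nat_lit 228) (nat_lit 1869942824) (nat_lit 26) (nat_lit 5) (nat_lit 28) (nat_lit 5) (nat_lit 29) (nat_lit 5) (nat_lit 522) (nat_lit 369) (nat_lit 249)) (XT.lf (nat_lit 0) (nat_lit 1722678139) (nat_lit 228) (nat_lit 22336796900) (nat_lit 76) (nat_lit 2089399586) (nat_lit 23) (nat_lit 5) (nat_lit 26) (nat_lit 5) (nat_lit 24) (nat_lit 5) (nat_lit 523) (nat_lit 369) (nat_lit 248))) (XT.nd (nat_lit 78) (nat_lit 0) (nat_lit 0) (XT.lf (nat_lit 0) (nat_lit 5392297357) (nat_lit 228) (nat_lit 14517640105) (nat_lit 76) (nat_lit 6665265362) (nat_lit 23) (nat_lit 5) (nat_lit 26) (nat_lit 5) (nat_lit 24) (nat_lit 5) (nat_lit 524) (nat_lit 369) (nat_lit 247)) (XT.lf (nat_lit 0) (nat_lit 9121045206) (nat_lit 228) (nat_lit 6566820578)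 (nat_lit 76) (nat_lit 11322482259) (nat_lit 23) (nat_lit 5) (nat_lit 26) (nat_lit 5) (nat_lit 24) (nat_lit 5) (nat_lit 525) (nat_lit 369) (nat_lit 246)))))) (XT.nd (nat_lit 49920) (nat_lit 0) (nat_lit 33136) (XT.nd (nat_lit 49608) (nat_lit 0) (nat_lit 37772) (XT.nd (nat_lit 78) (nat_lit 0) (nat_lit 0) (XT.lf (nat_lit 0) (nat_lit 1538963432) (nat_lit 152) (nat_lit 11381412478) (nat_lit 228) (nat_lit 14533905176) (nat_lit 21) (nat_lit 5) (nat_lit 23) (nat_lit 5) (nat_lit 24) (nat_lit 5) (nat_lit 526) (nat_lit 369) (nat_lit 245)) (XT.nd (nat_lit 49452) (nat_lit 0) (nat_lit 39596) (XT.lf (nat_lit 0) (nat_lit 9871801861) (nat_lit 152) (nat_lit 6954091998) (nat_lit 228) (nat_lit 11080599899) (nat_lit 21) (nat_lit 5) (nat_lit 23) (nat_lit 5) (nat_lit 24) (nat_lit 5) (nat_lit 527) (nat_lit 369) (nat_lit 244)) (XT.lf (nat_lit 0) (nat_lit 601528666) (nat_lit 836) (nat_lit 2120164856) (nat_lit 0) (nat_lit 601528666)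 (nat_lit 542) (nat_lit 5) (nat_lit 553) (nat_lit 4) (nat_lit 542) (nat_lit 4) (nat_lit 400) (nat_lit 370) (nat_lit 370)))) (XT.nd (nat_lit 156) (nat_lit 912) (nat_lit 0) (XT.nd (nat_lit 78) (nat_lit 912) (nat_lit 0) (XT.lf (nat_lit 0) (nat_lit 4199278724) (nat_lit 836) (nat_lit 404556686) (nat_lit 0) (nat_lit 2063974453) (nat_lit 542) (nat_lit 5) (nat_lit 553) (nat_lit 4) (nat_lit 542) (nat_lit 4) (nat_lit 401) (nat_lit 370) (nat_lit 369)) (XT.lf (nat_lit 0) (nat_lit 513638601) (nat_lit 912) (nat_lit 3191189855) (nat_lit 76) (nat_lit 2985705319) (nat_lit 530) (nat_lit 5) (nat_lit 542) (nat_lit 5) (nat_lit 531) (nat_lit 4) (nat_lit 402) (nat_lit 370) (nat_lit 368))) (XT.nd (nat_lit 78) (nat_lit 0) (nat_lit 0) (XT.lf (nat_lit 0) (nat_lit 714414505) (nat_lit 912) (nat_lit 2748725167) (nat_lit 988) (nat_lit 3251538518) (nat_lit 518) (nat_lit 5) (nat_lit 530) (nat_lit 5) (nat_lit 531) (nat_lit 4) (nat_lit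 403) (nat_lit 370) (nat_lit 367)) (XT.lf (nat_lit 0) (nat_lit 4689990907) (nat_lit 912) (nat_lit 1737367235) (nat_lit 988) (nat_lit 312937899) (nat_lit 518) (nat_lit 5) (nat_lit 530) (nat_lit 5) (nat_lit 531) (nat_lit 4) (nat_lit 404) (nat_lit 370) (nat_lit 366))))) (XT.nd (nat_lit 234) (nat_lit 2432) (nat_lit 0) (XT.nd (nat_lit 78) (nat_lit 1140) (nat_lit 0) (XT.lf (nat_lit 0) (nat_lit 1935251087) (nat_lit 988) (nat_lit 661614362) (nat_lit 1064) (nat_lit 4170360478) (nat_lit 504) (nat_lit 5) (nat_lit 517) (nat_lit 5) (nat_lit 518) (nat_lit 5) (nat_lit 405) (nat_lit 370) (nat_lit 365)) (XT.nd (nat_lit 78) (nat_lit 1140) (nat_lit 0) (XT.lf (nat_lit 0) (nat_lit 5513455536) (nat_lit 1064) (nat_lit 823579121) (nat_lit 76) (nat_lit 458661800) (nat_lit 504) (nat_lit 5) (nat_lit 518) (nat_lit 5) (nat_lit 505) (nat_lit 4) (nat_lit 406) (nat_lit 370) (nat_lit 364)) (XT.lf (nat_lit 0) (nat_lit 1604326270) (nat_lit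 1140) (nat_lit 3584330068) (nat_lit 76) (nat_lit 1636709132) (nat_lit 489) (nat_lit 5) (nat_lit 504) (nat_lit 5) (nat_lit 490) (nat_lit 5) (nat_lit 407) (nat_lit 370) (nat_lit 363)))) (XT.nd (nat_lit 156) (nat_lit 1216) (nat_lit 0) (XT.nd (nat_lit 78) (nat_lit 76) (nat_lit 0) (XT.lf (nat_lit 0) (nat_lit 488434551) (nat_lit 1140) (nat_lit 3989516912) (nat_lit 1216) (nat_lit 2378670294) (nat_lit 474) (nat_lit 5) (nat_lit 489) (nat_lit 5) (nat_lit 490) (nat_lit 5) (nat_lit 408) (nat_lit 370) (nat_lit 362)) (XT.lf (nat_lit 0) (nat_lit 476064654) (nat_lit 1216) (nat_lit 2252921497) (nat_lit 76) (nat_lit 4160292205) (nat_lit 473) (nat_lit 5) (nat_lit 489) (nat_lit 5) (nat_lit 474) (nat_lit 5) (nat_lit 409) (nat_lit 370) (nat_lit 361))) (XT.nd (nat_lit 78) (nat_lit 0) (nat_lit 0) (XT.lf (nat_lit 0) (nat_lit 1902275462) (nat_lit 1216) (nat_lit 1405495805) (nat_lit 1292) (nat_lit 3615555753) (nat_lit 457) (nat_lit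 5) (nat_lit 473) (nat_lit 5) (nat_lit 474) (nat_lit 5) (nat_lit 410) (nat_lit 370) (nat_lit 360)) (XT.lf (nat_lit 0) (nat_lit 6119884616) (nat_lit 1216) (nat_lit 31549093) (nat_lit 1292) (nat_lit 807602727) (nat_lit 457) (nat_lit 5) (nat_lit 473) (nat_lit 5) (nat_lit 474) (nat_lit 5) (nat_lit 411) (nat_lit 370) (nat_lit 359))))))) (XT.nd (nat_lit 1092) (nat_lit 6536) (nat_lit 0) (XT.nd (nat_lit 546) (nat_lit 4560) (nat_lit 0) (XT.nd (nat_lit 234) (nat_lit 4636) (nat_lit 0) (XT.nd (nat_lit 78) (nat_lit 1444) (nat_lit 0) (XT.lf (nat_lit 0) (nat_lit 2001741127) (nat_lit 1368) (nat_lit 3598578708) (nat_lit 76) (nat_lit 1395511962) (nat_lit 439) (nat_lit 5) (nat_lit 457) (nat_lit 5) (nat_lit 440) (nat_lit 5) (nat_lit 412) (nat_lit 370) (nat_lit 358)) (XT.nd (nat_lit 78) (nat_lit 76) (nat_lit 0) (XT.lf (nat_lit 0) (nat_lit 647352576) (nat_lit 1368) (nat_lit 4160978179) (nat_lit 1444) (nat_lit 2225969333) (nat_lit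 421) (nat_lit 5) (nat_lit 439) (nat_lit 5) (nat_lit 440) (nat_lit 5) (nat_lit 413) (nat_lit 370) (nat_lit 357)) (XT.lf (nat_lit 0) (nat_lit 556115338) (nat_lit 1444) (nat_lit 2102670254) (nat_lit 76) (nat_lit 4415423902) (nat_lit 420) (nat_lit 5) (nat_lit 439) (nat_lit 5) (nat_lit 421) (nat_lit 5) (nat_lit 414) (nat_lit 370) (nat_lit 356)))) (XT.nd (nat_lit 156) (nat_lit 3192) (nat_lit 0) (XT.nd (nat_lit 78) (nat_lit 0) (nat_lit 0) (XT.lf (nat_lit 0) (nat_lit 2230273764) (nat_lit 1444) (nat_lit 1091534347) (nat_lit 1520) (nat_lit 3793735817) (nat_lit 401) (nat_lit 5) (nat_lit 420) (nat_lit 5) (nat_lit 421) (nat_lit 5) (nat_lit 415) (nat_lit 370) (nat_lit 355)) (XT.lf (nat_lit 0) (nat_lit 6104385325) (nat_lit 1520) (nat_lit 534843401) (nat_lit 76) (nat_lit 519319967) (nat_lit 401) (nat_lit 5) (nat_lit 421) (nat_lit 5) (nat_lit 402) (nat_lit 5) (nat_lit 416) (nat_lit 370) (nat_lit 354))) (XT.nd (nat_lit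 78) (nat_lit 1596) (nat_lit 0) (XT.lf (nat_lit 0) (nat_lit 1694846647) (nat_lit 1596) (nat_lit 3319022143) (nat_lit 76) (nat_lit 2188841550) (nat_lit 380) (nat_lit 5) (nat_lit 401) (nat_lit 5) (nat_lit 381) (nat_lit 5) (nat_lit 417) (nat_lit 370) (nat_lit 353)) (XT.lf (nat_lit 0) (nat_lit 1105811629) (nat_lit 1596) (nat_lit 3335201457) (nat_lit 1672) (nat_lit 2807547671) (nat_lit 359) (nat_lit 5) (nat_lit 380) (nat_lit 5) (nat_lit 381) (nat_lit 5) (nat_lit 418) (nat_lit 370) (nat_lit 352))))) (XT.nd (nat_lit 234) (nat_lit 1824) (nat_lit 0) (XT.nd (nat_lit 78) (nat_lit 2736) (nat_lit 0) (XT.lf (nat_lit 0) (nat_lit 5612630132) (nat_lit 1596) (nat_lit 1597965392) (nat_lit 1672) (nat_lit 85432143) (nat_lit 359) (nat_lit 5) (nat_lit 380) (nat_lit 5) (nat_lit 381) (nat_lit 5) (nat_lit 419) (nat_lit 370) (nat_lit 351)) (XT.nd (nat_lit 78) (nat_lit 988) (nat_lit 0) (XT.lf (nat_lit 0) (nat_lit 2622466568) (nat_lit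 1748) (nat_lit 4512669489) (nat_lit 76) (nat_lit 209692342) (nat_lit 336) (nat_lit 5) (nat_lit 359) (nat_lit 5) (nat_lit 337) (nat_lit 5) (nat_lit 420) (nat_lit 370) (nat_lit 350)) (XT.lf (nat_lit 0) (nat_lit 3233826) (nat_lit 988) (nat_lit 5349701016) (nat_lit 1064) (nat_lit 2042333241) (nat_lit 323) (nat_lit 5) (nat_lit 336) (nat_lit 5) (nat_lit 337) (nat_lit 5) (nat_lit 421) (nat_lit 370) (nat_lit 349)))) (XT.nd (nat_lit 156) (nat_lit 912) (nat_lit 0) (XT.nd (nat_lit 78) (nat_lit 836) (nat_lit 0) (XT.lf (nat_lit 0) (nat_lit 660578327) (nat_lit 1064) (nat_lit 2832638982) (nat_lit 76) (nat_lit 3953905307) (nat_lit 322) (nat_lit 5) (nat_lit 336) (nat_lit 5) (nat_lit 323) (nat_lit 5) (nat_lit 422) (nat_lit 370) (nat_lit 348)) (XT.lf (nat_lit 0) (nat_lit 1776278947) (nat_lit 836) (nat_lit 1574368861) (nat_lit 912) (nat_lit 4149949078) (nat_lit 311) (nat_lit 5) (nat_lit 322) (nat_lit 5) (nat_lit 323) (nat_lit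 5) (nat_lit 423) (nat_lit 370) (nat_lit 347))) (XT.nd (nat_lit 78) (nat_lit 912) (nat_lit 0) (XT.lf (nat_lit 0) (nat_lit 6065693172) (nat_lit 912) (nat_lit 1093762327) (nat_lit 76) (nat_lit 396322016) (nat_lit 311) (nat_lit 5) (nat_lit 323) (nat_lit 5) (nat_lit 312) (nat_lit 5) (nat_lit 424) (nat_lit 370) (nat_lit 346)) (XT.lf (nat_lit 0) (nat_lit 1191219064) (nat_lit 912) (nat_lit 4005016070) (nat_lit 76) (nat_lit 2416040214) (nat_lit 299) (nat_lit 5) (nat_lit 311) (nat_lit 5) (nat_lit 300) (nat_lit 5) (nat_lit 425) (nat_lit 370) (nat_lit 345)))))) (XT.nd (nat_lit 546) (nat_lit 3420) (nat_lit 0) (XT.nd (nat_lit 234) (nat_lit 1520) (nat_lit 0) (XT.nd (nat_lit 78) (nat_lit 836) (nat_lit 0) (XT.lf (nat_lit 0) (nat_lit 695056218) (nat_lit 760) (nat_lit 3173862657) (nat_lit 836) (nat_lit 3801589706) (nat_lit 289) (nat_lit 5) (nat_lit 299) (nat_lit 5) (nat_lit 300) (nat_lit 5) (nat_lit 426) (nat_lit 370) (nat_lit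 344)) (XT.nd (nat_lit 78) (nat_lit 836) (nat_lit 0) (XT.lf (nat_lit 0) (nat_lit 5492243847) (nat_lit 760) (nat_lit 1086239808) (nat_lit 836) (nat_lit 1151912369) (nat_lit 289) (nat_lit 5) (nat_lit 299) (nat_lit 5) (nat_lit 300) (nat_lit 5) (nat_lit 427) (nat_lit 370) (nat_lit 343)) (XT.lf (nat_lit 0) (nat_lit 1506033510) (nat_lit 836) (nat_lit 5232266635) (nat_lit 76) (nat_lit 1053521032) (nat_lit 278) (nat_lit 5) (nat_lit 289) (nat_lit 5) (nat_lit 279) (nat_lit 5) (nat_lit 428) (nat_lit 370) (nat_lit 342)))) (XT.nd (nat_lit 156) (nat_lit 836) (nat_lit 0) (XT.nd (nat_lit 78) (nat_lit 684) (nat_lit 0) (XT.lf (nat_lit 0) (nat_lit 4176651336) (nat_lit 836) (nat_lit 437049742) (nat_lit 76) (nat_lit 3241175281) (nat_lit 278) (nat_lit 5) (nat_lit 289) (nat_lit 5) (nat_lit 279) (nat_lit 5) (nat_lit 429) (nat_lit 370) (nat_lit 341)) (XT.lf (nat_lit 0) (nat_lit 4462094854) (nat_lit 684) (nat_lit 2421097181) (nat_lit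 760) (nat_lit 1036401918) (nat_lit 269) (nat_lit 5) (nat_lit 278) (nat_lit 5) (nat_lit 279) (nat_lit 5) (nat_lit 430) (nat_lit 370) (nat_lit 340))) (XT.nd (nat_lit 78) (nat_lit 0) (nat_lit 0) (XT.lf (nat_lit 0) (nat_lit 1436828290) (nat_lit 760) (nat_lit 165733372) (nat_lit 836) (nat_lit 6383557380) (nat_lit 258) (nat_lit 5) (nat_lit 268) (nat_lit 5) (nat_lit 269) (nat_lit 5) (nat_lit 431) (nat_lit 370) (nat_lit 339)) (XT.lf (nat_lit 0) (nat_lit 4271973895) (nat_lit 836) (nat_lit 1649903588) (nat_lit 76) (nat_lit 2132177748) (nat_lit 258) (nat_lit 5) (nat_lit 269) (nat_lit 5) (nat_lit 259) (nat_lit 5) (nat_lit 432) (nat_lit 370) (nat_lit 338))))) (XT.nd (nat_lit 234) (nat_lit 1976) (nat_lit 0) (XT.nd (nat_lit 78) (nat_lit 760) (nat_lit 0) (XT.lf (nat_lit 0) (nat_lit 3339758462) (nat_lit 684) (nat_lit 3633011531) (nat_lit 760) (nat_lit 1151067836) (nat_lit 249) (nat_lit 5) (nat_lit 258) (nat_lit 5) (nat_lit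 259) (nat_lit 5) (nat_lit 433) (nat_lit 370) (nat_lit 337)) (XT.nd (nat_lit 78) (nat_lit 0) (nat_lit 0) (XT.lf (nat_lit 0) (nat_lit 198642246) (nat_lit 684) (nat_lit 1281686677) (nat_lit 760) (nat_lit 6715176637) (nat_lit 239) (nat_lit 5) (nat_lit 248) (nat_lit 5) (nat_lit 249) (nat_lit 5) (nat_lit 434) (nat_lit 370) (nat_lit 336)) (XT.lf (nat_lit 0) (nat_lit 4144455235) (nat_lit 760) (nat_lit 2988456065) (nat_lit 76) (nat_lit 1135677738) (nat_lit 239) (nat_lit 5) (nat_lit 249) (nat_lit 5) (nat_lit 240) (nat_lit 5) (nat_lit 435) (nat_lit 370) (nat_lit 335)))) (XT.nd (nat_lit 156) (nat_lit 1292) (nat_lit 0) (XT.nd (nat_lit 78) (nat_lit 76) (nat_lit 0) (XT.lf (nat_lit 0) (nat_lit 2088757594) (nat_lit 608) (nat_lit 4751953696) (nat_lit 684) (nat_lit 1502889922) (nat_lit 231) (nat_lit 5) (nat_lit 239) (nat_lit 5) (nat_lit 240) (nat_lit 5) (nat_lit 436) (nat_lit 370) (nat_lit 334)) (XT.lf (nat_lit 0) (nat_lit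 1132606099) (nat_lit 684) (nat_lit 1169973230) (nat_lit 76) (nat_lit 6117880891) (nat_lit 230) (nat_lit 5) (nat_lit 239) (nat_lit 5) (nat_lit 231) (nat_lit 5) (nat_lit 437) (nat_lit 370) (nat_lit 333))) (XT.nd (nat_lit 78) (nat_lit 608) (nat_lit 0) (XT.lf (nat_lit 0) (nat_lit 3786040568) (nat_lit 760) (nat_lit 4490813633) (nat_lit 76) (nat_lit 222137916) (nat_lit 221) (nat_lit 5) (nat_lit 231) (nat_lit 5) (nat_lit 222) (nat_lit 5) (nat_lit 438) (nat_lit 370) (nat_lit 332)) (XT.lf (nat_lit 0) (nat_lit 670245949) (nat_lit 608) (nat_lit 5808097828) (nat_lit 684) (nat_lit 2101075497) (nat_lit 213) (nat_lit 5) (nat_lit 221) (nat_lit 5) (nat_lit 222) (nat_lit 5) (nat_lit 439) (nat_lit 370) (nat_lit 331))))))))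
noncomputable def xc78 : XT := (XT.nd (nat_lit 2106) (nat_lit 4332) (nat_lit 0) (XT.nd (nat_lit 1014) (nat_lit 3648) (nat_lit 0) (XT.nd (nat_lit 468) (nat_lit 2204) (nat_lit 0) (XT.nd (nat_lit 234) (nat_lit 1216) (nat_lit 0) (XT.nd (nat_lit 78) (nat_lit 608) (nat_lit 0) (XT.lf (nat_lit 0) (nat_lit 544468030) (nat_lit 684) (nat_lit 2719626556) (nat_lit 76) (nat_lit 5397550036) (nat_lit 212) (nat_lit 5) (nat_lit 221) (nat_lit 5) (nat_lit 213) (nat_lit 5) (nat_lit 440) (nat_lit 370) (nat_lit 330)) (XT.nd (nat_lit 78) (nat_lit 0) (nat_lit 0) (XT.lf (nat_lit 0) (nat_lit 2543826156) (nat_lit 608) (nat_lit 646798517) (nat_lit 684) (nat_lit 5555133608) (nat_lit 204) (nat_lit 5) (nat_lit 212) (nat_lit 5) (nat_lit 213) (nat_lit 5) (nat_lit 441) (nat_lit 370) (nat_lit 329)) (XT.lf (nat_lit 0) (nat_lit 5880925178) (nat_lit 684) (nat_lit 944824347) (nat_lit 76) (nat_lit 2006017803) (nat_lit 204) (nat_lit 5) (nat_lit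 213) (nat_lit 5) (nat_lit 205) (nat_lit 5) (nat_lit 442) (nat_lit 370) (nat_lit 328)))) (XT.nd (nat_lit 78) (nat_lit 684) (nat_lit 0) (XT.lf (nat_lit 0) (nat_lit 4422324269) (nat_lit 532) (nat_lit 4196209498) (nat_lit 608) (nat_lit 301129542) (nat_lit 197) (nat_lit 5) (nat_lit 204) (nat_lit 5) (nat_lit 205) (nat_lit 5) (nat_lit 443) (nat_lit 370) (nat_lit 327)) (XT.nd (nat_lit 78) (nat_lit 0) (nat_lit 0) (XT.lf (nat_lit 0) (nat_lit 846850456) (nat_lit 608) (nat_lit 1495781712) (nat_lit 684) (nat_lit 6666957512) (nat_lit 188) (nat_lit 5) (nat_lit 196) (nat_lit 5) (nat_lit 197) (nat_lit 5) (nat_lit 444) (nat_lit 370) (nat_lit 326)) (XT.lf (nat_lit 0) (nat_lit 5034854301) (nat_lit 684) (nat_lit 2801670488) (nat_lit 76) (nat_lit 1264792308) (nat_lit 188) (nat_lit 5) (nat_lit 197) (nat_lit 5) (nat_lit 189) (nat_lit 5) (nat_lit 445) (nat_lit 370) (nat_lit 325))))) (XT.nd (nat_lit 234) (nat_lit 1064) (nat_lit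 0) (XT.nd (nat_lit 78) (nat_lit 608) (nat_lit 0) (XT.lf (nat_lit 0) (nat_lit 2642865903) (nat_lit 532) (nat_lit 5126945682) (nat_lit 608) (nat_lit 1425323653) (nat_lit 181) (nat_lit 5) (nat_lit 188) (nat_lit 5) (nat_lit 189) (nat_lit 5) (nat_lit 446) (nat_lit 370) (nat_lit 324)) (XT.nd (nat_lit 78) (nat_lit 532) (nat_lit 0) (XT.lf (nat_lit 0) (nat_lit 1232903495) (nat_lit 608) (nat_lit 1113273035) (nat_lit 76) (nat_lit 6944903074) (nat_lit 180) (nat_lit 5) (nat_lit 188) (nat_lit 5) (nat_lit 181) (nat_lit 5) (nat_lit 447) (nat_lit 370) (nat_lit 323)) (XT.lf (nat_lit 0) (nat_lit 3920117713) (nat_lit 608) (nat_lit 4956860540) (nat_lit 76) (nat_lit 511910055) (nat_lit 173) (nat_lit 5) (nat_lit 181) (nat_lit 5) (nat_lit 174) (nat_lit 5) (nat_lit 448) (nat_lit 370) (nat_lit 322)))) (XT.nd (nat_lit 156) (nat_lit 608) (nat_lit 0) (XT.nd (nat_lit 78) (nat_lit 0) (nat_lit 0) (XT.lf (nat_lit 0) (nat_lit 558399751)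 (nat_lit 456) (nat_lit 6092437566) (nat_lit 532) (nat_lit 2838052051) (nat_lit 167) (nat_lit 5) (nat_lit 173) (nat_lit 5) (nat_lit 174) (nat_lit 5) (nat_lit 449) (nat_lit 370) (nat_lit 321)) (XT.lf (nat_lit 0) (nat_lit 6203315412) (nat_lit 456) (nat_lit 3229610275) (nat_lit 532) (nat_lit 158060462) (nat_lit 167) (nat_lit 5) (nat_lit 173) (nat_lit 5) (nat_lit 174) (nat_lit 5) (nat_lit 450) (nat_lit 370) (nat_lit 320))) (XT.nd (nat_lit 78) (nat_lit 0) (nat_lit 0) (XT.lf (nat_lit 0) (nat_lit 2231132035) (nat_lit 532) (nat_lit 289046621) (nat_lit 608) (nat_lit 7175072834) (nat_lit 159) (nat_lit 5) (nat_lit 166) (nat_lit 5) (nat_lit 167) (nat_lit 5) (nat_lit 451) (nat_lit 370) (nat_lit 319)) (XT.lf (nat_lit 0) (nat_lit 5254616182) (nat_lit 608) (nat_lit 1859478501) (nat_lit 76) (nat_lit 2687420569) (nat_lit 159) (nat_lit 5) (nat_lit 167) (nat_lit 5) (nat_lit 160) (nat_lit 5) (nat_lit 452) (nat_lit 370) (nat_lit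 318)))))) (XT.nd (nat_lit 546) (nat_lit 1672) (nat_lit 0) (XT.nd (nat_lit 234) (nat_lit 988) (nat_lit 0) (XT.nd (nat_lit 78) (nat_lit 532) (nat_lit 0) (XT.lf (nat_lit 0) (nat_lit 3859122672) (nat_lit 456) (nat_lit 4176557850) (nat_lit 532) (nat_lit 1874413450) (nat_lit 153) (nat_lit 5) (nat_lit 159) (nat_lit 5) (nat_lit 160) (nat_lit 5) (nat_lit 453) (nat_lit 370) (nat_lit 317)) (XT.nd (nat_lit 78) (nat_lit 456) (nat_lit 0) (XT.lf (nat_lit 0) (nat_lit 818010474) (nat_lit 532) (nat_lit 355918961) (nat_lit 76) (nat_lit 8847278468) (nat_lit 152) (nat_lit 5) (nat_lit 159) (nat_lit 5) (nat_lit 153) (nat_lit 5) (nat_lit 454) (nat_lit 370) (nat_lit 316)) (XT.lf (nat_lit 0) (nat_lit 3552981579) (nat_lit 532) (nat_lit 4680581600) (nat_lit 76) (nat_lit 1900483995) (nat_lit 146) (nat_lit 5) (nat_lit 153) (nat_lit 5) (nat_lit 147) (nat_lit 5) (nat_lit 455) (nat_lit 370) (nat_lit 315)))) (XT.nd (nat_lit 156) (nat_lit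 532) (nat_lit 0) (XT.nd (nat_lit 78) (nat_lit 0) (nat_lit 0) (XT.lf (nat_lit 0) (nat_lit 1094921697) (nat_lit 456) (nat_lit 5231094228) (nat_lit 532) (nat_lit 3923486306) (nat_lit 140) (nat_lit 5) (nat_lit 146) (nat_lit 5) (nat_lit 147) (nat_lit 5) (nat_lit 456) (nat_lit 370) (nat_lit 314)) (XT.lf (nat_lit 0) (nat_lit 7003271813) (nat_lit 456) (nat_lit 2149090380) (nat_lit 532) (nat_lit 1214972933) (nat_lit 140) (nat_lit 5) (nat_lit 146) (nat_lit 5) (nat_lit 147) (nat_lit 5) (nat_lit 457) (nat_lit 370) (nat_lit 313))) (XT.nd (nat_lit 78) (nat_lit 0) (nat_lit 0) (XT.lf (nat_lit 0) (nat_lit 1517179157) (nat_lit 532) (nat_lit 7974645493) (nat_lit 76) (nat_lit 995728475) (nat_lit 133) (nat_lit 5) (nat_lit 140) (nat_lit 5) (nat_lit 134) (nat_lit 5) (nat_lit 458) (nat_lit 370) (nat_lit 312)) (XT.lf (nat_lit 0) (nat_lit 4291808381) (nat_lit 532) (nat_lit 2125102018) (nat_lit 76) (nat_lit 4193046690) (nat_lit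 133) (nat_lit 5) (nat_lit 140) (nat_lit 5) (nat_lit 134) (nat_lit 5) (nat_lit 459) (nat_lit 370) (nat_lit 311))))) (XT.nd (nat_lit 234) (nat_lit 836) (nat_lit 0) (XT.nd (nat_lit 78) (nat_lit 456) (nat_lit 0) (XT.lf (nat_lit 0) (nat_lit 3846816643) (nat_lit 380) (nat_lit 3267864973) (nat_lit 456) (nat_lit 3620296287) (nat_lit 128) (nat_lit 5) (nat_lit 133) (nat_lit 5) (nat_lit 134) (nat_lit 5) (nat_lit 460) (nat_lit 370) (nat_lit 310)) (XT.nd (nat_lit 78) (nat_lit 456) (nat_lit 0) (XT.lf (nat_lit 0) (nat_lit 9922209115) (nat_lit 380) (nat_lit 54180269) (nat_lit 456) (nat_lit 886485540) (nat_lit 128) (nat_lit 5) (nat_lit 133) (nat_lit 5) (nat_lit 134) (nat_lit 5) (nat_lit 461) (nat_lit 370) (nat_lit 309)) (XT.lf (nat_lit 0) (nat_lit 1900067887) (nat_lit 456) (nat_lit 5877756027) (nat_lit 76) (nat_lit 3214821187) (nat_lit 122) (nat_lit 5) (nat_lit 128) (nat_lit 5) (nat_lit 123) (nat_lit 5) (nat_lit 462)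 (nat_lit 370) (nat_lit 308)))) (XT.nd (nat_lit 156) (nat_lit 456) (nat_lit 0) (XT.nd (nat_lit 78) (nat_lit 0) (nat_lit 0) (XT.lf (nat_lit 0) (nat_lit 130254847) (nat_lit 380) (nat_lit 4576557161) (nat_lit 456) (nat_lit 6418576874) (nat_lit 117) (nat_lit 5) (nat_lit 122) (nat_lit 5) (nat_lit 123) (nat_lit 5) (nat_lit 463) (nat_lit 370) (nat_lit 307)) (XT.lf (nat_lit 0) (nat_lit 6293790228) (nat_lit 380) (nat_lit 1284428372) (nat_lit 456) (nat_lit 3682419941) (nat_lit 117) (nat_lit 5) (nat_lit 122) (nat_lit 5) (nat_lit 123) (nat_lit 5) (nat_lit 464) (nat_lit 370) (nat_lit 306))) (XT.nd (nat_lit 78) (nat_lit 76) (nat_lit 0) (XT.lf (nat_lit 0) (nat_lit 1139501610) (nat_lit 380) (nat_lit 9358018602) (nat_lit 456) (nat_lit 901284779) (nat_lit 112) (nat_lit 5) (nat_lit 117) (nat_lit 5) (nat_lit 118) (nat_lit 5) (nat_lit 465) (nat_lit 370) (nat_lit 305)) (XT.lf (nat_lit 0) (nat_lit 1921844333) (nat_lit 456) (nat_lit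 4169173054) (nat_lit 76) (nat_lit 5448251260) (nat_lit 111) (nat_lit 5) (nat_lit 117) (nat_lit 5) (nat_lit 112) (nat_lit 5) (nat_lit 466) (nat_lit 370) (nat_lit 304))))))) (XT.nd (nat_lit 1092) (nat_lit 1976) (nat_lit 0) (XT.nd (nat_lit 546) (nat_lit 988) (nat_lit 0) (XT.nd (nat_lit 234) (nat_lit 684) (nat_lit 0) (XT.nd (nat_lit 78) (nat_lit 380) (nat_lit 0) (XT.lf (nat_lit 0) (nat_lit 2020032127) (nat_lit 304) (nat_lit 2752754799) (nat_lit 380) (nat_lit 6909987033) (nat_lit 107) (nat_lit 5) (nat_lit 111) (nat_lit 5) (nat_lit 112) (nat_lit 5) (nat_lit 467) (nat_lit 370) (nat_lit 303)) (XT.nd (nat_lit 78) (nat_lit 380) (nat_lit 0) (XT.lf (nat_lit 0) (nat_lit 7683653883) (nat_lit 380) (nat_lit 3486961502) (nat_lit 76) (nat_lit 658495406) (nat_lit 107) (nat_lit 5) (nat_lit 112) (nat_lit 5) (nat_lit 108) (nat_lit 5) (nat_lit 468) (nat_lit 370) (nat_lit 302)) (XT.lf (nat_lit 0) (nat_lit 2788035493) (nat_lit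 380) (nat_lit 7872120799) (nat_lit 456) (nat_lit 1318088847) (nat_lit 102) (nat_lit 5) (nat_lit 107) (nat_lit 5) (nat_lit 108) (nat_lit 5) (nat_lit 469) (nat_lit 370) (nat_lit 301)))) (XT.nd (nat_lit 156) (nat_lit 304) (nat_lit 0) (XT.nd (nat_lit 78) (nat_lit 304) (nat_lit 0) (XT.lf (nat_lit 0) (nat_lit 1540014840) (nat_lit 456) (nat_lit 2947171832) (nat_lit 76) (nat_lit 7643096084) (nat_lit 101) (nat_lit 5) (nat_lit 107) (nat_lit 5) (nat_lit 102) (nat_lit 5) (nat_lit 470) (nat_lit 370) (nat_lit 300)) (XT.lf (nat_lit 0) (nat_lit 3414867203) (nat_lit 304) (nat_lit 1016687615) (nat_lit 380) (nat_lit 7853771624) (nat_lit 97) (nat_lit 5) (nat_lit 101) (nat_lit 5) (nat_lit 102) (nat_lit 5) (nat_lit 471) (nat_lit 370) (nat_lit 299))) (XT.nd (nat_lit 78) (nat_lit 304) (nat_lit 0) (XT.lf (nat_lit 0) (nat_lit 7389146571) (nat_lit 380) (nat_lit 2557622057) (nat_lit 76) (nat_lit 2496555639) (nat_lit 97) (nat_lit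 5) (nat_lit 102) (nat_lit 5) (nat_lit 98) (nat_lit 5) (nat_lit 472) (nat_lit 370) (nat_lit 298)) (XT.lf (nat_lit 0) (nat_lit 3884379346) (nat_lit 304) (nat_lit 6525944691) (nat_lit 380) (nat_lit 2194086669) (nat_lit 93) (nat_lit 5) (nat_lit 97) (nat_lit 5) (nat_lit 98) (nat_lit 5) (nat_lit 473) (nat_lit 370) (nat_lit 297))))) (XT.nd (nat_lit 234) (nat_lit 608) (nat_lit 0) (XT.nd (nat_lit 78) (nat_lit 304) (nat_lit 0) (XT.lf (nat_lit 0) (nat_lit 703554705) (nat_lit 380) (nat_lit 2324708253) (nat_lit 76) (nat_lit 9740582000) (nat_lit 92) (nat_lit 5) (nat_lit 97) (nat_lit 5) (nat_lit 93) (nat_lit 5) (nat_lit 474) (nat_lit 370) (nat_lit 296)) (XT.nd (nat_lit 78) (nat_lit 0) (nat_lit 0) (XT.lf (nat_lit 0) (nat_lit 3633841435) (nat_lit 380) (nat_lit 8741523355) (nat_lit 76) (nat_lit 560847957) (nat_lit 88) (nat_lit 5) (nat_lit 93) (nat_lit 5) (nat_lit 89) (nat_lit 5) (nat_lit 475) (nat_lit 370) (nat_lit 295))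 (XT.lf (nat_lit 0) (nat_lit 6631763659) (nat_lit 380) (nat_lit 2291581103) (nat_lit 76) (nat_lit 4183418548) (nat_lit 88) (nat_lit 5) (nat_lit 93) (nat_lit 5) (nat_lit 89) (nat_lit 5) (nat_lit 476) (nat_lit 370) (nat_lit 294)))) (XT.nd (nat_lit 156) (nat_lit 304) (nat_lit 0) (XT.nd (nat_lit 78) (nat_lit 0) (nat_lit 0) (XT.lf (nat_lit 0) (nat_lit 4303810930) (nat_lit 304) (nat_lit 5387572387) (nat_lit 380) (nat_lit 3589322492) (nat_lit 84) (nat_lit 5) (nat_lit 88) (nat_lit 5) (nat_lit 89) (nat_lit 5) (nat_lit 477) (nat_lit 370) (nat_lit 293)) (XT.lf (nat_lit 0) (nat_lit 11022442594) (nat_lit 304) (nat_lit 1779182133) (nat_lit 380) (nat_lit 656729238) (nat_lit 84) (nat_lit 5) (nat_lit 88) (nat_lit 5) (nat_lit 89) (nat_lit 5) (nat_lit 478) (nat_lit 370) (nat_lit 292))) (XT.nd (nat_lit 78) (nat_lit 0) (nat_lit 0) (XT.lf (nat_lit 0) (nat_lit 2318323442) (nat_lit 304) (nat_lit 9414771631) (nat_lit 76) (nat_lit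 1905883159) (nat_lit 80) (nat_lit 5) (nat_lit 84) (nat_lit 5) (nat_lit 81) (nat_lit 5) (nat_lit 479) (nat_lit 370) (nat_lit 291)) (XT.lf (nat_lit 0) (nat_lit 5346866114) (nat_lit 304) (nat_lit 2828063888) (nat_lit 76) (nat_lit 5648157020) (nat_lit 80) (nat_lit 5) (nat_lit 84) (nat_lit 5) (nat_lit 81) (nat_lit 5) (nat_lit 480) (nat_lit 370) (nat_lit 290)))))) (XT.nd (nat_lit 546) (nat_lit 836) (nat_lit 0) (XT.nd (nat_lit 234) (nat_lit 532) (nat_lit 0) (XT.nd (nat_lit 78) (nat_lit 304) (nat_lit 0) (XT.lf (nat_lit 0) (nat_lit 3902856771) (nat_lit 304) (nat_lit 4533499232) (nat_lit 380) (nat_lit 5574528678) (nat_lit 76) (nat_lit 5) (nat_lit 80) (nat_lit 5) (nat_lit 81) (nat_lit 5) (nat_lit 481) (nat_lit 370) (nat_lit 289)) (XT.nd (nat_lit 78) (nat_lit 304) (nat_lit 0) (XT.lf (nat_lit 0) (nat_lit 10768277745) (nat_lit 304) (nat_lit 813611990) (nat_lit 380) (nat_lit 2620677421) (nat_lit 76) (nat_lit 5) (nat_lit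 80) (nat_lit 5) (nat_lit 81) (nat_lit 5) (nat_lit 482) (nat_lit 370) (nat_lit 288)) (XT.lf (nat_lit 0) (nat_lit 404042824) (nat_lit 304) (nat_lit 11040896600) (nat_lit 76) (nat_lit 2952767596) (nat_lit 72) (nat_lit 5) (nat_lit 76) (nat_lit 5) (nat_lit 73) (nat_lit 5) (nat_lit 483) (nat_lit 370) (nat_lit 287)))) (XT.nd (nat_lit 156) (nat_lit 228) (nat_lit 0) (XT.nd (nat_lit 78) (nat_lit 304) (nat_lit 0) (XT.lf (nat_lit 0) (nat_lit 3458518091) (nat_lit 304) (nat_lit 4327095318) (nat_lit 76) (nat_lit 6810715927) (nat_lit 72) (nat_lit 5) (nat_lit 76) (nat_lit 5) (nat_lit 73) (nat_lit 5) (nat_lit 484) (nat_lit 370) (nat_lit 286)) (XT.lf (nat_lit 0) (nat_lit 2516540554) (nat_lit 304) (nat_lit 4050089217) (nat_lit 380) (nat_lit 8232456272) (nat_lit 68) (nat_lit 5) (nat_lit 72) (nat_lit 5) (nat_lit 73) (nat_lit 5) (nat_lit 485) (nat_lit 370) (nat_lit 285))) (XT.nd (nat_lit 78) (nat_lit 228) (nat_lit 0) (XT.lf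 (nat_lit 0) (nat_lit 9518504102) (nat_lit 304) (nat_lit 223869513) (nat_lit 380) (nat_lit 5263427498) (nat_lit 68) (nat_lit 5) (nat_lit 72) (nat_lit 5) (nat_lit 73) (nat_lit 5) (nat_lit 486) (nat_lit 370) (nat_lit 284)) (XT.lf (nat_lit 0) (nat_lit 1401493325) (nat_lit 228) (nat_lit 11589932297) (nat_lit 304) (nat_lit 2225041379) (nat_lit 65) (nat_lit 5) (nat_lit 68) (nat_lit 5) (nat_lit 69) (nat_lit 5) (nat_lit 487) (nat_lit 370) (nat_lit 283))))) (XT.nd (nat_lit 234) (nat_lit 532) (nat_lit 0) (XT.nd (nat_lit 78) (nat_lit 228) (nat_lit 0) (XT.lf (nat_lit 0) (nat_lit 878058453) (nat_lit 304) (nat_lit 6972505453) (nat_lit 76) (nat_lit 7580372491) (nat_lit 64) (nat_lit 5) (nat_lit 68) (nat_lit 5) (nat_lit 65) (nat_lit 5) (nat_lit 488) (nat_lit 370) (nat_lit 282)) (XT.nd (nat_lit 78) (nat_lit 228) (nat_lit 0) (XT.lf (nat_lit 0) (nat_lit 3990769578) (nat_lit 304) (nat_lit 44134189) (nat_lit 76) (nat_lit 11614962079)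 (nat_lit 64) (nat_lit 5) (nat_lit 68) (nat_lit 5) (nat_lit 65) (nat_lit 5) (nat_lit 489) (nat_lit 370) (nat_lit 281)) (XT.lf (nat_lit 0) (nat_lit 7080161155) (nat_lit 228) (nat_lit 109302430) (nat_lit 304) (nat_lit 8683247163) (nat_lit 61) (nat_lit 5) (nat_lit 64) (nat_lit 5) (nat_lit 65) (nat_lit 5) (nat_lit 490) (nat_lit 370) (nat_lit 280)))) (XT.nd (nat_lit 156) (nat_lit 304) (nat_lit 0) (XT.nd (nat_lit 78) (nat_lit 228) (nat_lit 0) (XT.lf (nat_lit 0) (nat_lit 10455598037) (nat_lit 304) (nat_lit 1813388955) (nat_lit 76) (nat_lit 3830967440) (nat_lit 61) (nat_lit 5) (nat_lit 65) (nat_lit 5) (nat_lit 62) (nat_lit 5) (nat_lit 491) (nat_lit 370) (nat_lit 279)) (XT.lf (nat_lit 0) (nat_lit 5339727894) (nat_lit 228) (nat_lit 8461034648) (nat_lit 304) (nat_lit 2530717294) (nat_lit 58) (nat_lit 5) (nat_lit 61) (nat_lit 5) (nat_lit 62) (nat_lit 5) (nat_lit 492) (nat_lit 370) (nat_lit 278))) (XT.nd (nat_lit 78)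 (nat_lit 228) (nat_lit 0) (XT.lf (nat_lit 0) (nat_lit 627343534) (nat_lit 304) (nat_lit 3946176883) (nat_lit 76) (nat_lit 11994229902) (nat_lit 57) (nat_lit 5) (nat_lit 61) (nat_lit 5) (nat_lit 58) (nat_lit 5) (nat_lit 493) (nat_lit 370) (nat_lit 277)) (XT.lf (nat_lit 0) (nat_lit 3231616588) (nat_lit 228) (nat_lit 582861854) (nat_lit 304) (nat_lit 12993947586) (nat_lit 54) (nat_lit 5) (nat_lit 57) (nat_lit 5) (nat_lit 58) (nat_lit 5) (nat_lit 494) (nat_lit 370) (nat_lit 276))))))))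
noncomputable def xc79 : XT := (XT.nd (nat_lit 2106) (nat_lit 380) (nat_lit 0) (XT.nd (nat_lit 1014) (nat_lit 988) (nat_lit 0) (XT.nd (nat_lit 468) (nat_lit 608) (nat_lit 0) (XT.nd (nat_lit 234) (nat_lit 304) (nat_lit 0) (XT.nd (nat_lit 78) (nat_lit 228) (nat_lit 0) (XT.lf (nat_lit 0) (nat_lit 7093551673) (nat_lit 304) (nat_lit 6504184003) (nat_lit 76) (nat_lit 3455625818) (nat_lit 54) (nat_lit 5) (nat_lit 58) (nat_lit 5) (nat_lit 55) (nat_lit 5) (nat_lit 495) (nat_lit 370) (nat_lit 275)) (XT.nd (nat_lit 78) (nat_lit 0) (nat_lit 0) (XT.lf (nat_lit 0) (nat_lit 681206783) (nat_lit 228) (nat_lit 9744591710) (nat_lit 304) (nat_lit 6877655293) (nat_lit 51) (nat_lit 5) (nat_lit 54) (nat_lit 5) (nat_lit 55) (nat_lit 5) (nat_lit 496) (nat_lit 370) (nat_lit 274)) (XT.lf (nat_lit 0) (nat_lit 8064932132) (nat_lit 228) (nat_lit 5782901827) (nat_lit 304) (nat_lit 3710260854) (nat_lit 51) (nat_lit 5) (nat_lit 54) (nat_lit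 5) (nat_lit 55) (nat_lit 5) (nat_lit 497) (nat_lit 370) (nat_lit 273)))) (XT.nd (nat_lit 78) (nat_lit 304) (nat_lit 0) (XT.lf (nat_lit 0) (nat_lit 15563450438) (nat_lit 228) (nat_lit 1754758920) (nat_lit 304) (nat_lit 500030888) (nat_lit 51) (nat_lit 5) (nat_lit 54) (nat_lit 5) (nat_lit 55) (nat_lit 5) (nat_lit 498) (nat_lit 370) (nat_lit 272)) (XT.nd (nat_lit 78) (nat_lit 0) (nat_lit 0) (XT.lf (nat_lit 0) (nat_lit 2767118919) (nat_lit 304) (nat_lit 12953198864) (nat_lit 76) (nat_lit 2362337697) (nat_lit 47) (nat_lit 5) (nat_lit 51) (nat_lit 5) (nat_lit 48) (nat_lit 5) (nat_lit 499) (nat_lit 370) (nat_lit 271)) (XT.lf (nat_lit 0) (nat_lit 6100025571) (nat_lit 304) (nat_lit 5707752995) (nat_lit 76) (nat_lit 6544381183) (nat_lit 47) (nat_lit 5) (nat_lit 51) (nat_lit 5) (nat_lit 48) (nat_lit 5) (nat_lit 500) (nat_lit 370) (nat_lit 270))))) (XT.nd (nat_lit 234) (nat_lit 456) (nat_lit 0) (XT.nd (nat_lit 78)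 (nat_lit 0) (nat_lit 0) (XT.lf (nat_lit 0) (nat_lit 1672561020) (nat_lit 152) (nat_lit 7818527000) (nat_lit 228) (nat_lit 9136144973) (nat_lit 45) (nat_lit 5) (nat_lit 47) (nat_lit 5) (nat_lit 48) (nat_lit 5) (nat_lit 501) (nat_lit 370) (nat_lit 269)) (XT.nd (nat_lit 78) (nat_lit 0) (nat_lit 0) (XT.lf (nat_lit 0) (nat_lit 9246085073) (nat_lit 152) (nat_lit 3723000352) (nat_lit 228) (nat_lit 5938348670) (nat_lit 45) (nat_lit 5) (nat_lit 47) (nat_lit 5) (nat_lit 48) (nat_lit 5) (nat_lit 502) (nat_lit 370) (nat_lit 268)) (XT.lf (nat_lit 0) (nat_lit 16500701145) (nat_lit 228) (nat_lit 2256558262) (nat_lit 76) (nat_lit 436307145) (nat_lit 45) (nat_lit 5) (nat_lit 48) (nat_lit 5) (nat_lit 46) (nat_lit 5) (nat_lit 503) (nat_lit 370) (nat_lit 267)))) (XT.nd (nat_lit 156) (nat_lit 152) (nat_lit 0) (XT.nd (nat_lit 78) (nat_lit 0) (nat_lit 0) (XT.lf (nat_lit 0) (nat_lit 650302415) (nat_lit 304) (nat_lit 14178406845)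 (nat_lit 76) (nat_lit 4655822900) (nat_lit 41) (nat_lit 5) (nat_lit 45) (nat_lit 5) (nat_lit 42) (nat_lit 5) (nat_lit 504) (nat_lit 370) (nat_lit 266)) (XT.lf (nat_lit 0) (nat_lit 4021065778) (nat_lit 304) (nat_lit 6779179615) (nat_lit 76) (nat_lit 8980787907) (nat_lit 41) (nat_lit 5) (nat_lit 45) (nat_lit 5) (nat_lit 42) (nat_lit 5) (nat_lit 505) (nat_lit 370) (nat_lit 265))) (XT.nd (nat_lit 78) (nat_lit 0) (nat_lit 0) (XT.lf (nat_lit 0) (nat_lit 747559709) (nat_lit 152) (nat_lit 6698413811) (nat_lit 228) (nat_lit 12637764212) (nat_lit 39) (nat_lit 5) (nat_lit 41) (nat_lit 5) (nat_lit 42) (nat_lit 5) (nat_lit 506) (nat_lit 370) (nat_lit 264)) (XT.lf (nat_lit 0) (nat_lit 8486649744) (nat_lit 152) (nat_lit 2480257096) (nat_lit 228) (nat_lit 9425046563) (nat_lit 39) (nat_lit 5) (nat_lit 41) (nat_lit 5) (nat_lit 42) (nat_lit 5) (nat_lit 507) (nat_lit 370) (nat_lit 263)))))) (XT.nd (nat_lit 546) (nat_lit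 532) (nat_lit 0) (XT.nd (nat_lit 234) (nat_lit 152) (nat_lit 0) (XT.nd (nat_lit 78) (nat_lit 304) (nat_lit 0) (XT.lf (nat_lit 0) (nat_lit 14552400861) (nat_lit 228) (nat_lit 4367413713) (nat_lit 76) (nat_lit 1786643516) (nat_lit 39) (nat_lit 5) (nat_lit 42) (nat_lit 5) (nat_lit 40) (nat_lit 5) (nat_lit 508) (nat_lit 370) (nat_lit 262)) (XT.nd (nat_lit 78) (nat_lit 76) (nat_lit 0) (XT.lf (nat_lit 0) (nat_lit 3319152942) (nat_lit 228) (nat_lit 14911085053) (nat_lit 304) (nat_lit 2796609613) (nat_lit 36) (nat_lit 5) (nat_lit 39) (nat_lit 5) (nat_lit 40) (nat_lit 5) (nat_lit 509) (nat_lit 370) (nat_lit 261)) (XT.lf (nat_lit 0) (nat_lit 631940867) (nat_lit 304) (nat_lit 10167909774) (nat_lit 76) (nat_lit 10553476038) (nat_lit 35) (nat_lit 5) (nat_lit 39) (nat_lit 5) (nat_lit 36) (nat_lit 5) (nat_lit 510) (nat_lit 370) (nat_lit 260)))) (XT.nd (nat_lit 156) (nat_lit 0) (nat_lit 0) (XT.nd (nat_lit 78) (nat_lit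 152) (nat_lit 0) (XT.lf (nat_lit 0) (nat_lit 4074678540) (nat_lit 304) (nat_lit 2524508589) (nat_lit 76) (nat_lit 15087124208) (nat_lit 35) (nat_lit 5) (nat_lit 39) (nat_lit 5) (nat_lit 36) (nat_lit 5) (nat_lit 511) (nat_lit 370) (nat_lit 259)) (XT.lf (nat_lit 0) (nat_lit 5313349277) (nat_lit 152) (nat_lit 2290780047) (nat_lit 228) (nat_lit 14421476031) (nat_lit 33) (nat_lit 5) (nat_lit 35) (nat_lit 5) (nat_lit 36) (nat_lit 5) (nat_lit 512) (nat_lit 370) (nat_lit 258))) (XT.nd (nat_lit 78) (nat_lit 0) (nat_lit 0) (XT.lf (nat_lit 0) (nat_lit 11218312809) (nat_lit 228) (nat_lit 9071107668) (nat_lit 76) (nat_lit 2081988604) (nat_lit 33) (nat_lit 5) (nat_lit 36) (nat_lit 5) (nat_lit 34) (nat_lit 5) (nat_lit 513) (nat_lit 370) (nat_lit 257)) (XT.lf (nat_lit 0) (nat_lit 14903707044) (nat_lit 228) (nat_lit 1319929061) (nat_lit 76) (nat_lit 6500520805) (nat_lit 33) (nat_lit 5) (nat_lit 36) (nat_lit 5) (nat_lit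 34) (nat_lit 5) (nat_lit 514) (nat_lit 370) (nat_lit 256))))) (XT.nd (nat_lit 234) (nat_lit 304) (nat_lit 0) (XT.nd (nat_lit 78) (nat_lit 76) (nat_lit 0) (XT.lf (nat_lit 0) (nat_lit 6646360901) (nat_lit 152) (nat_lit 12043675701) (nat_lit 228) (nat_lit 4393384985) (nat_lit 31) (nat_lit 5) (nat_lit 33) (nat_lit 5) (nat_lit 34) (nat_lit 5) (nat_lit 515) (nat_lit 370) (nat_lit 255)) (XT.nd (nat_lit 78) (nat_lit 76) (nat_lit 0) (XT.lf (nat_lit 0) (nat_lit 14762966376) (nat_lit 152) (nat_lit 7782196241) (nat_lit 228) (nat_lit 904853860) (nat_lit 31) (nat_lit 5) (nat_lit 33) (nat_lit 5) (nat_lit 34) (nat_lit 5) (nat_lit 516) (nat_lit 370) (nat_lit 254)) (XT.lf (nat_lit 0) (nat_lit 2603060833) (nat_lit 228) (nat_lit 825855233) (nat_lit 76) (nat_lit 20395000440) (nat_lit 30) (nat_lit 5) (nat_lit 33) (nat_lit 5) (nat_lit 31) (nat_lit 5) (nat_lit 517) (nat_lit 370) (nat_lit 253)))) (XT.nd (nat_lit 156) (nat_lit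 152) (nat_lit 0) (XT.nd (nat_lit 78) (nat_lit 0) (nat_lit 0) (XT.lf (nat_lit 0) (nat_lit 6207705254) (nat_lit 228) (nat_lit 16955728790) (nat_lit 76) (nat_lit 1040973073) (nat_lit 28) (nat_lit 5) (nat_lit 31) (nat_lit 5) (nat_lit 29) (nat_lit 5) (nat_lit 518) (nat_lit 370) (nat_lit 252)) (XT.lf (nat_lit 0) (nat_lit 9897509984) (nat_lit 228) (nat_lit 9145378428) (nat_lit 76) (nat_lit 5549363612) (nat_lit 28) (nat_lit 5) (nat_lit 31) (nat_lit 5) (nat_lit 29) (nat_lit 5) (nat_lit 519) (nat_lit 370) (nat_lit 251))) (XT.nd (nat_lit 78) (nat_lit 152) (nat_lit 0) (XT.lf (nat_lit 0) (nat_lit 13646189969) (nat_lit 228) (nat_lit 1204442840) (nat_lit 76) (nat_lit 10137525158) (nat_lit 28) (nat_lit 5) (nat_lit 31) (nat_lit 5) (nat_lit 29) (nat_lit 5) (nat_lit 520) (nat_lit 370) (nat_lit 250)) (XT.lf (nat_lit 0) (nat_lit 6961493302) (nat_lit 152) (nat_lit 10538920608) (nat_lit 228) (nat_lit 7890962318) (nat_lit 26)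 (nat_lit 5) (nat_lit 28) (nat_lit 5) (nat_lit 29) (nat_lit 5) (nat_lit 521) (nat_lit 370) (nat_lit 249))))))) (XT.nd (nat_lit 50310) (nat_lit 0) (nat_lit 25612) (XT.nd (nat_lit 49764) (nat_lit 0) (nat_lit 36708) (XT.nd (nat_lit 234) (nat_lit 152) (nat_lit 0) (XT.nd (nat_lit 78) (nat_lit 228) (nat_lit 0) (XT.lf (nat_lit 0) (nat_lit 15282120573) (nat_lit 152) (nat_lit 6143180738) (nat_lit 228) (nat_lit 4377491462) (nat_lit 26) (nat_lit 5) (nat_lit 28) (nat_lit 5) (nat_lit 29) (nat_lit 5) (nat_lit 522) (nat_lit 370) (nat_lit 248)) (XT.nd (nat_lit 78) (nat_lit 228) (nat_lit 0) (XT.lf (nat_lit 0) (nat_lit 23744695552) (nat_lit 152) (nat_lit 1669771824) (nat_lit 228) (nat_lit 808260043) (nat_lit 26) (nat_lit 5) (nat_lit 28) (nat_lit 5) (nat_lit 29) (nat_lit 5) (nat_lit 523) (nat_lit 370) (nat_lit 247)) (XT.lf (nat_lit 0) (nat_lit 2837646312) (nat_lit 228) (nat_lit 20910901122) (nat_lit 76) (nat_lit 2901301972)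 (nat_lit 23) (nat_lit 5) (nat_lit 26) (nat_lit 5) (nat_lit 24) (nat_lit 5) (nat_lit 524) (nat_lit 370) (nat_lit 246)))) (XT.nd (nat_lit 156) (nat_lit 152) (nat_lit 0) (XT.nd (nat_lit 78) (nat_lit 0) (nat_lit 0) (XT.lf (nat_lit 0) (nat_lit 6559471353) (nat_lit 228) (nat_lit 12972079460) (nat_lit 76) (nat_lit 7553584781) (nat_lit 23) (nat_lit 5) (nat_lit 26) (nat_lit 5) (nat_lit 24) (nat_lit 5) (nat_lit 525) (nat_lit 370) (nat_lit 245)) (XT.lf (nat_lit 0) (nat_lit 10342023020) (nat_lit 228) (nat_lit 4898241845) (nat_lit 76) (nat_lit 12289141819) (nat_lit 23) (nat_lit 5) (nat_lit 26) (nat_lit 5) (nat_lit 24) (nat_lit 5) (nat_lit 526) (nat_lit 370) (nat_lit 244))) (XT.nd (nat_lit 49296) (nat_lit 0) (nat_lit 40432) (XT.lf (nat_lit 0) (nat_lit 3357816298) (nat_lit 152) (nat_lit 10850769540) (nat_lit 228) (nat_lit 13773815036) (nat_lit 21) (nat_lit 5) (nat_lit 23) (nat_lit 5) (nat_lit 24) (nat_lit 5) (nat_lit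 527) (nat_lit 370) (nat_lit 243)) (XT.lf (nat_lit 0) (nat_lit 717686498) (nat_lit 684) (nat_lit 1292961239) (nat_lit 684) (nat_lit 1292961239) (nat_lit 553) (nat_lit 4) (nat_lit 562) (nat_lit 5) (nat_lit 562) (nat_lit 4) (nat_lit 398) (nat_lit 371) (nat_lit 371))))) (XT.nd (nat_lit 234) (nat_lit 2888) (nat_lit 0) (XT.nd (nat_lit 78) (nat_lit 760) (nat_lit 0) (XT.lf (nat_lit 0) (nat_lit 397677449) (nat_lit 760) (nat_lit 1418262116) (nat_lit 76) (nat_lit 4810588151) (nat_lit 552) (nat_lit 5) (nat_lit 562) (nat_lit 5) (nat_lit 553) (nat_lit 4) (nat_lit 399) (nat_lit 371) (nat_lit 370)) (XT.nd (nat_lit 78) (nat_lit 0) (nat_lit 0) (XT.lf (nat_lit 0) (nat_lit 2374572110) (nat_lit 760) (nat_lit 978968993) (nat_lit 836) (nat_lit 3293510122) (nat_lit 542) (nat_lit 5) (nat_lit 552) (nat_lit 5) (nat_lit 553) (nat_lit 4) (nat_lit 400) (nat_lit 371) (nat_lit 369)) (XT.lf (nat_lit 0) (nat_lit 6212977920) (nat_lit 760)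 (nat_lit 97845402) (nat_lit 836) (nat_lit 358427385) (nat_lit 542) (nat_lit 5) (nat_lit 552) (nat_lit 5) (nat_lit 553) (nat_lit 4) (nat_lit 401) (nat_lit 371) (nat_lit 368)))) (XT.nd (nat_lit 156) (nat_lit 1064) (nat_lit 0) (XT.nd (nat_lit 78) (nat_lit 912) (nat_lit 0) (XT.lf (nat_lit 0) (nat_lit 2562089926) (nat_lit 912) (nat_lit 3283716340) (nat_lit 76) (nat_lit 846626977) (nat_lit 530) (nat_lit 5) (nat_lit 542) (nat_lit 5) (nat_lit 531) (nat_lit 4) (nat_lit 402) (nat_lit 371) (nat_lit 367)) (XT.lf (nat_lit 0) (nat_lit 595214103) (nat_lit 912) (nat_lit 4883249758) (nat_lit 988) (nat_lit 1238828366) (nat_lit 518) (nat_lit 5) (nat_lit 530) (nat_lit 5) (nat_lit 531) (nat_lit 4) (nat_lit 403) (nat_lit 371) (nat_lit 366))) (XT.nd (nat_lit 78) (nat_lit 988) (nat_lit 0) (XT.lf (nat_lit 0) (nat_lit 1645337170) (nat_lit 988) (nat_lit 2208578164) (nat_lit 76) (nat_lit 2889466874) (nat_lit 517) (nat_lit 5) (nat_lit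 530) (nat_lit 5) (nat_lit 518) (nat_lit 5) (nat_lit 404) (nat_lit 371) (nat_lit 365)) (XT.lf (nat_lit 0) (nat_lit 1747560601) (nat_lit 988) (nat_lit 2770745048) (nat_lit 1064) (nat_lit 2252669449) (nat_lit 504) (nat_lit 5) (nat_lit 517) (nat_lit 5) (nat_lit 518) (nat_lit 5) (nat_lit 405) (nat_lit 371) (nat_lit 364)))))) (XT.nd (nat_lit 546) (nat_lit 6156) (nat_lit 0) (XT.nd (nat_lit 234) (nat_lit 2660) (nat_lit 0) (XT.nd (nat_lit 78) (nat_lit 2204) (nat_lit 0) (XT.lf (nat_lit 0) (nat_lit 592770575) (nat_lit 1064) (nat_lit 1041330322) (nat_lit 76) (nat_lit 5165996248) (nat_lit 503) (nat_lit 5) (nat_lit 517) (nat_lit 5) (nat_lit 504) (nat_lit 5) (nat_lit 406) (nat_lit 371) (nat_lit 363)) (XT.nd (nat_lit 78) (nat_lit 1140) (nat_lit 0) (XT.lf (nat_lit 0) (nat_lit 2994802591) (nat_lit 1064) (nat_lit 427623898) (nat_lit 1140) (nat_lit 3408021254) (nat_lit 489) (nat_lit 5) (nat_lit 503) (nat_lit 5) (nat_lit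 504) (nat_lit 5) (nat_lit 407) (nat_lit 371) (nat_lit 362)) (XT.lf (nat_lit 0) (nat_lit 211004077) (nat_lit 1140) (nat_lit 6050255074) (nat_lit 1216) (nat_lit 601186021) (nat_lit 474) (nat_lit 5) (nat_lit 489) (nat_lit 5) (nat_lit 490) (nat_lit 5) (nat_lit 408) (nat_lit 371) (nat_lit 361)))) (XT.nd (nat_lit 156) (nat_lit 1368) (nat_lit 0) (XT.nd (nat_lit 78) (nat_lit 1216) (nat_lit 0) (XT.lf (nat_lit 0) (nat_lit 2200210541) (nat_lit 1216) (nat_lit 2573245679) (nat_lit 76) (nat_lit 2122058801) (nat_lit 473) (nat_lit 5) (nat_lit 489) (nat_lit 5) (nat_lit 474) (nat_lit 5) (nat_lit 409) (nat_lit 371) (nat_lit 360)) (XT.lf (nat_lit 0) (nat_lit 1552332613) (nat_lit 1216) (nat_lit 3447874871) (nat_lit 1292) (nat_lit 1930033072) (nat_lit 457) (nat_lit 5) (nat_lit 473) (nat_lit 5) (nat_lit 474) (nat_lit 5) (nat_lit 410) (nat_lit 371) (nat_lit 359))) (XT.nd (nat_lit 78) (nat_lit 1292) (nat_lit 0) (XT.lf (nat_lit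 0) (nat_lit 837150546) (nat_lit 1292) (nat_lit 1227002494) (nat_lit 76) (nat_lit 4902309062) (nat_lit 456) (nat_lit 5) (nat_lit 473) (nat_lit 5) (nat_lit 457) (nat_lit 5) (nat_lit 411) (nat_lit 371) (nat_lit 358)) (XT.lf (nat_lit 0) (nat_lit 2983171688) (nat_lit 1292) (nat_lit 612118870) (nat_lit 1368) (nat_lit 3408714494) (nat_lit 439) (nat_lit 5) (nat_lit 456) (nat_lit 5) (nat_lit 457) (nat_lit 5) (nat_lit 412) (nat_lit 371) (nat_lit 357))))) (XT.nd (nat_lit 234) (nat_lit 3268) (nat_lit 0) (XT.nd (nat_lit 78) (nat_lit 1520) (nat_lit 0) (XT.lf (nat_lit 0) (nat_lit 197913920) (nat_lit 1368) (nat_lit 6168818334) (nat_lit 1444) (nat_lit 676483477) (nat_lit 421) (nat_lit 5) (nat_lit 439) (nat_lit 5) (nat_lit 440) (nat_lit 5) (nat_lit 413) (nat_lit 371) (nat_lit 356)) (XT.nd (nat_lit 78) (nat_lit 1444) (nat_lit 0) (XT.lf (nat_lit 0) (nat_lit 2057192210) (nat_lit 1444) (nat_lit 2596593609) (nat_lit 76) (nat_lit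 2429737755) (nat_lit 420) (nat_lit 5) (nat_lit 439) (nat_lit 5) (nat_lit 421) (nat_lit 5) (nat_lit 414) (nat_lit 371) (nat_lit 355)) (XT.lf (nat_lit 0) (nat_lit 1704445483) (nat_lit 1444) (nat_lit 3087489006) (nat_lit 1520) (nat_lit 2333579686) (nat_lit 401) (nat_lit 5) (nat_lit 420) (nat_lit 5) (nat_lit 421) (nat_lit 5) (nat_lit 415) (nat_lit 371) (nat_lit 354)))) (XT.nd (nat_lit 156) (nat_lit 1672) (nat_lit 0) (XT.nd (nat_lit 78) (nat_lit 1520) (nat_lit 0) (XT.lf (nat_lit 0) (nat_lit 369855244) (nat_lit 1520) (nat_lit 1095082255) (nat_lit 76) (nat_lit 5704180691) (nat_lit 400) (nat_lit 5) (nat_lit 420) (nat_lit 5) (nat_lit 401) (nat_lit 5) (nat_lit 416) (nat_lit 371) (nat_lit 353)) (XT.lf (nat_lit 0) (nat_lit 3064830935) (nat_lit 1596) (nat_lit 3920323032) (nat_lit 76) (nat_lit 228828172) (nat_lit 380) (nat_lit 5) (nat_lit 401) (nat_lit 5) (nat_lit 381) (nat_lit 5) (nat_lit 417) (nat_lit 371) (nat_lit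 352))) (XT.nd (nat_lit 78) (nat_lit 76) (nat_lit 0) (XT.lf (nat_lit 0) (nat_lit 471023647) (nat_lit 1596) (nat_lit 5309394178) (nat_lit 1672) (nat_lit 1480060647) (nat_lit 359) (nat_lit 5) (nat_lit 380) (nat_lit 5) (nat_lit 381) (nat_lit 5) (nat_lit 418) (nat_lit 371) (nat_lit 351)) (XT.lf (nat_lit 0) (nat_lit 1199457446) (nat_lit 1672) (nat_lit 2363546283) (nat_lit 76) (nat_lit 3745339515) (nat_lit 358) (nat_lit 5) (nat_lit 380) (nat_lit 5) (nat_lit 359) (nat_lit 5) (nat_lit 419) (nat_lit 371) (nat_lit 350))))))))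
noncomputable def xc80 : XT := (XT.nd (nat_lit 2106) (nat_lit 6688) (nat_lit 0) (XT.nd (nat_lit 1014) (nat_lit 5852) (nat_lit 0) (XT.nd (nat_lit 468) (nat_lit 3116) (nat_lit 0) (XT.nd (nat_lit 234) (nat_lit 1748) (nat_lit 0) (XT.nd (nat_lit 78) (nat_lit 1064) (nat_lit 0) (XT.lf (nat_lit 0) (nat_lit 2118604598) (nat_lit 1672) (nat_lit 1755817720) (nat_lit 1748) (nat_lit 3483379180) (nat_lit 336) (nat_lit 5) (nat_lit 358) (nat_lit 5) (nat_lit 359) (nat_lit 5) (nat_lit 420) (nat_lit 371) (nat_lit 349)) (XT.nd (nat_lit 78) (nat_lit 1064) (nat_lit 0) (XT.lf (nat_lit 0) (nat_lit 6568027813) (nat_lit 1748) (nat_lit 737198931) (nat_lit 76) (nat_lit 103783404) (nat_lit 336) (nat_lit 5) (nat_lit 359) (nat_lit 5) (nat_lit 337) (nat_lit 5) (nat_lit 421) (nat_lit 371) (nat_lit 348)) (XT.lf (nat_lit 0) (nat_lit 1815988305) (nat_lit 1064) (nat_lit 3629939045) (nat_lit 76) (nat_lit 2015415513) (nat_lit 322) (nat_lit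 5) (nat_lit 336) (nat_lit 5) (nat_lit 323) (nat_lit 5) (nat_lit 422) (nat_lit 371) (nat_lit 347)))) (XT.nd (nat_lit 78) (nat_lit 912) (nat_lit 0) (XT.lf (nat_lit 0) (nat_lit 943087302) (nat_lit 836) (nat_lit 3532754105) (nat_lit 912) (nat_lit 3039609936) (nat_lit 311) (nat_lit 5) (nat_lit 322) (nat_lit 5) (nat_lit 323) (nat_lit 5) (nat_lit 423) (nat_lit 371) (nat_lit 346)) (XT.nd (nat_lit 78) (nat_lit 912) (nat_lit 0) (XT.lf (nat_lit 0) (nat_lit 5606683185) (nat_lit 836) (nat_lit 1557114846) (nat_lit 912) (nat_lit 407405012) (nat_lit 311) (nat_lit 5) (nat_lit 322) (nat_lit 5) (nat_lit 323) (nat_lit 5) (nat_lit 424) (nat_lit 371) (nat_lit 345)) (XT.lf (nat_lit 0) (nat_lit 2219467392) (nat_lit 912) (nat_lit 4925269336) (nat_lit 76) (nat_lit 483656349) (nat_lit 299) (nat_lit 5) (nat_lit 311) (nat_lit 5) (nat_lit 300) (nat_lit 5) (nat_lit 425) (nat_lit 371) (nat_lit 344))))) (XT.nd (nat_lit 234) (nat_lit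 1520) (nat_lit 0) (XT.nd (nat_lit 78) (nat_lit 1596) (nat_lit 0) (XT.lf (nat_lit 0) (nat_lit 4868776948) (nat_lit 912) (nat_lit 259314805) (nat_lit 76) (nat_lit 2559129969) (nat_lit 299) (nat_lit 5) (nat_lit 311) (nat_lit 5) (nat_lit 300) (nat_lit 5) (nat_lit 426) (nat_lit 371) (nat_lit 343)) (XT.nd (nat_lit 78) (nat_lit 836) (nat_lit 0) (XT.lf (nat_lit 0) (nat_lit 4509589182) (nat_lit 760) (nat_lit 3043475962) (nat_lit 836) (nat_lit 194576618) (nat_lit 289) (nat_lit 5) (nat_lit 299) (nat_lit 5) (nat_lit 300) (nat_lit 5) (nat_lit 427) (nat_lit 371) (nat_lit 342)) (XT.lf (nat_lit 0) (nat_lit 1522123375) (nat_lit 760) (nat_lit 891689983) (nat_lit 836) (nat_lit 5395895265) (nat_lit 278) (nat_lit 5) (nat_lit 288) (nat_lit 5) (nat_lit 289) (nat_lit 5) (nat_lit 428) (nat_lit 371) (nat_lit 341)))) (XT.nd (nat_lit 156) (nat_lit 836) (nat_lit 0) (XT.nd (nat_lit 78) (nat_lit 684) (nat_lit 0) (XT.lf (nat_lit 0)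 (nat_lit 5055641562) (nat_lit 836) (nat_lit 1511577829) (nat_lit 76) (nat_lit 1306145711) (nat_lit 278) (nat_lit 5) (nat_lit 289) (nat_lit 5) (nat_lit 279) (nat_lit 5) (nat_lit 429) (nat_lit 371) (nat_lit 340)) (XT.lf (nat_lit 0) (nat_lit 3348452405) (nat_lit 684) (nat_lit 4383950156) (nat_lit 760) (nat_lit 206300734) (nat_lit 269) (nat_lit 5) (nat_lit 278) (nat_lit 5) (nat_lit 279) (nat_lit 5) (nat_lit 430) (nat_lit 371) (nat_lit 339))) (XT.nd (nat_lit 78) (nat_lit 0) (nat_lit 0) (XT.lf (nat_lit 0) (nat_lit 258564079) (nat_lit 760) (nat_lit 2133124990) (nat_lit 836) (nat_lit 5614057294) (nat_lit 258) (nat_lit 5) (nat_lit 268) (nat_lit 5) (nat_lit 269) (nat_lit 5) (nat_lit 431) (nat_lit 371) (nat_lit 338)) (XT.lf (nat_lit 0) (nat_lit 5026156464) (nat_lit 836) (nat_lit 2859980329) (nat_lit 76) (nat_lit 188268219) (nat_lit 258) (nat_lit 5) (nat_lit 269) (nat_lit 5) (nat_lit 259) (nat_lit 5) (nat_lit 432)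 (nat_lit 371) (nat_lit 337)))))) (XT.nd (nat_lit 546) (nat_lit 3040) (nat_lit 0) (XT.nd (nat_lit 234) (nat_lit 1368) (nat_lit 0) (XT.nd (nat_lit 78) (nat_lit 760) (nat_lit 0) (XT.lf (nat_lit 0) (nat_lit 2088805821) (nat_lit 684) (nat_lit 5608288230) (nat_lit 760) (nat_lit 447713829) (nat_lit 249) (nat_lit 5) (nat_lit 258) (nat_lit 5) (nat_lit 259) (nat_lit 5) (nat_lit 433) (nat_lit 371) (nat_lit 336)) (XT.nd (nat_lit 78) (nat_lit 684) (nat_lit 0) (XT.lf (nat_lit 0) (nat_lit 2151535958) (nat_lit 760) (nat_lit 1105070454) (nat_lit 76) (nat_lit 4960258518) (nat_lit 248) (nat_lit 5) (nat_lit 258) (nat_lit 5) (nat_lit 249) (nat_lit 5) (nat_lit 434) (nat_lit 371) (nat_lit 335)) (XT.lf (nat_lit 0) (nat_lit 3944899287) (nat_lit 684) (nat_lit 834653959) (nat_lit 760) (nat_lit 3511139110) (nat_lit 239) (nat_lit 5) (nat_lit 248) (nat_lit 5) (nat_lit 249) (nat_lit 5) (nat_lit 435) (nat_lit 371) (nat_lit 334)))) (XT.nd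 (nat_lit 156) (nat_lit 684) (nat_lit 0) (XT.nd (nat_lit 78) (nat_lit 76) (nat_lit 0) (XT.lf (nat_lit 0) (nat_lit 694151924) (nat_lit 608) (nat_lit 6746215592) (nat_lit 684) (nat_lit 926067191) (nat_lit 231) (nat_lit 5) (nat_lit 239) (nat_lit 5) (nat_lit 240) (nat_lit 5) (nat_lit 436) (nat_lit 371) (nat_lit 333)) (XT.lf (nat_lit 0) (nat_lit 1680991690) (nat_lit 684) (nat_lit 2615692182) (nat_lit 76) (nat_lit 4146972893) (nat_lit 230) (nat_lit 5) (nat_lit 239) (nat_lit 5) (nat_lit 231) (nat_lit 5) (nat_lit 437) (nat_lit 371) (nat_lit 332))) (XT.nd (nat_lit 78) (nat_lit 0) (nat_lit 0) (XT.lf (nat_lit 0) (nat_lit 2520364093) (nat_lit 684) (nat_lit 1782468324) (nat_lit 760) (nat_lit 4220008232) (nat_lit 221) (nat_lit 5) (nat_lit 230) (nat_lit 5) (nat_lit 231) (nat_lit 5) (nat_lit 438) (nat_lit 371) (nat_lit 331)) (XT.lf (nat_lit 0) (nat_lit 6958970428) (nat_lit 760) (nat_lit 862929919) (nat_lit 76) (nat_lit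 782110478) (nat_lit 221) (nat_lit 5) (nat_lit 231) (nat_lit 5) (nat_lit 222) (nat_lit 5) (nat_lit 439) (nat_lit 371) (nat_lit 330))))) (XT.nd (nat_lit 234) (nat_lit 1748) (nat_lit 0) (XT.nd (nat_lit 78) (nat_lit 608) (nat_lit 0) (XT.lf (nat_lit 0) (nat_lit 968655469) (nat_lit 684) (nat_lit 4316321125) (nat_lit 76) (nat_lit 3401736644) (nat_lit 212) (nat_lit 5) (nat_lit 221) (nat_lit 5) (nat_lit 213) (nat_lit 5) (nat_lit 440) (nat_lit 371) (nat_lit 329)) (XT.nd (nat_lit 78) (nat_lit 0) (nat_lit 0) (XT.lf (nat_lit 0) (nat_lit 901650594) (nat_lit 608) (nat_lit 2682742650) (nat_lit 684) (nat_lit 5187060610) (nat_lit 204) (nat_lit 5) (nat_lit 212) (nat_lit 5) (nat_lit 213) (nat_lit 5) (nat_lit 441) (nat_lit 371) (nat_lit 328)) (XT.lf (nat_lit 0) (nat_lit 6234442812) (nat_lit 608) (nat_lit 7529628) (nat_lit 684) (nat_lit 2616163102) (nat_lit 204) (nat_lit 5) (nat_lit 212) (nat_lit 5) (nat_lit 213) (nat_lit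 5) (nat_lit 442) (nat_lit 371) (nat_lit 327)))) (XT.nd (nat_lit 156) (nat_lit 1140) (nat_lit 0) (XT.nd (nat_lit 78) (nat_lit 0) (nat_lit 0) (XT.lf (nat_lit 0) (nat_lit 2472672) (nat_lit 608) (nat_lit 6249487923) (nat_lit 76) (nat_lit 2694696814) (nat_lit 196) (nat_lit 5) (nat_lit 204) (nat_lit 5) (nat_lit 197) (nat_lit 5) (nat_lit 443) (nat_lit 371) (nat_lit 326)) (XT.lf (nat_lit 0) (nat_lit 2617698852) (nat_lit 608) (nat_lit 942168305) (nat_lit 76) (nat_lit 5477186409) (nat_lit 196) (nat_lit 5) (nat_lit 204) (nat_lit 5) (nat_lit 197) (nat_lit 5) (nat_lit 444) (nat_lit 371) (nat_lit 325))) (XT.nd (nat_lit 78) (nat_lit 532) (nat_lit 0) (XT.lf (nat_lit 0) (nat_lit 4482942830) (nat_lit 608) (nat_lit 793591538) (nat_lit 684) (nat_lit 3852931175) (nat_lit 188) (nat_lit 5) (nat_lit 196) (nat_lit 5) (nat_lit 197) (nat_lit 5) (nat_lit 445) (nat_lit 371) (nat_lit 324)) (XT.lf (nat_lit 0) (nat_lit 754860925) (nat_lit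 532) (nat_lit 7220692374) (nat_lit 608) (nat_lit 1248465649) (nat_lit 181) (nat_lit 5) (nat_lit 188) (nat_lit 5) (nat_lit 189) (nat_lit 5) (nat_lit 446) (nat_lit 371) (nat_lit 323))))))) (XT.nd (nat_lit 1014) (nat_lit 3040) (nat_lit 0) (XT.nd (nat_lit 468) (nat_lit 1976) (nat_lit 0) (XT.nd (nat_lit 234) (nat_lit 1064) (nat_lit 0) (XT.nd (nat_lit 78) (nat_lit 532) (nat_lit 0) (XT.lf (nat_lit 0) (nat_lit 1388988496) (nat_lit 608) (nat_lit 3054959953) (nat_lit 76) (nat_lit 4876376826) (nat_lit 180) (nat_lit 5) (nat_lit 188) (nat_lit 5) (nat_lit 181) (nat_lit 5) (nat_lit 447) (nat_lit 371) (nat_lit 322)) (XT.nd (nat_lit 78) (nat_lit 0) (nat_lit 0) (XT.lf (nat_lit 0) (nat_lit 2444477679) (nat_lit 532) (nat_lit 1597338762) (nat_lit 608) (nat_lit 5377020810) (nat_lit 173) (nat_lit 5) (nat_lit 180) (nat_lit 5) (nat_lit 181) (nat_lit 5) (nat_lit 448) (nat_lit 371) (nat_lit 321)) (XT.lf (nat_lit 0) (nat_lit 6740619684)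 (nat_lit 608) (nat_lit 1479425047) (nat_lit 76) (nat_lit 1299447148) (nat_lit 173) (nat_lit 5) (nat_lit 181) (nat_lit 5) (nat_lit 174) (nat_lit 5) (nat_lit 449) (nat_lit 371) (nat_lit 320)))) (XT.nd (nat_lit 78) (nat_lit 608) (nat_lit 0) (XT.lf (nat_lit 0) (nat_lit 4122610367) (nat_lit 456) (nat_lit 5372645363) (nat_lit 532) (nat_lit 126896918) (nat_lit 167) (nat_lit 5) (nat_lit 173) (nat_lit 5) (nat_lit 174) (nat_lit 5) (nat_lit 450) (nat_lit 371) (nat_lit 319)) (XT.nd (nat_lit 78) (nat_lit 0) (nat_lit 0) (XT.lf (nat_lit 0) (nat_lit 67672873) (nat_lit 532) (nat_lit 2451712671) (nat_lit 608) (nat_lit 7207673720) (nat_lit 159) (nat_lit 5) (nat_lit 166) (nat_lit 5) (nat_lit 167) (nat_lit 5) (nat_lit 451) (nat_lit 371) (nat_lit 318)) (XT.lf (nat_lit 0) (nat_lit 5222438966) (nat_lit 608) (nat_lit 4063887871) (nat_lit 76) (nat_lit 547637952) (nat_lit 159) (nat_lit 5) (nat_lit 167) (nat_lit 5) (nat_lit 160)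 (nat_lit 5) (nat_lit 452) (nat_lit 371) (nat_lit 317))))) (XT.nd (nat_lit 234) (nat_lit 988) (nat_lit 0) (XT.nd (nat_lit 78) (nat_lit 532) (nat_lit 0) (XT.lf (nat_lit 0) (nat_lit 1602386492) (nat_lit 456) (nat_lit 6369461997) (nat_lit 532) (nat_lit 1971341921) (nat_lit 153) (nat_lit 5) (nat_lit 159) (nat_lit 5) (nat_lit 160) (nat_lit 5) (nat_lit 453) (nat_lit 371) (nat_lit 316)) (XT.nd (nat_lit 78) (nat_lit 456) (nat_lit 0) (XT.lf (nat_lit 0) (nat_lit 705412710) (nat_lit 532) (nat_lit 2667940428) (nat_lit 76) (nat_lit 6681315867) (nat_lit 152) (nat_lit 5) (nat_lit 159) (nat_lit 5) (nat_lit 153) (nat_lit 5) (nat_lit 454) (nat_lit 371) (nat_lit 315)) (XT.lf (nat_lit 0) (nat_lit 3100803752) (nat_lit 456) (nat_lit 295110674) (nat_lit 532) (nat_lit 6772496246) (nat_lit 146) (nat_lit 5) (nat_lit 152) (nat_lit 5) (nat_lit 153) (nat_lit 5) (nat_lit 455) (nat_lit 371) (nat_lit 314)))) (XT.nd (nat_lit 156) (nat_lit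 532) (nat_lit 0) (XT.nd (nat_lit 78) (nat_lit 456) (nat_lit 0) (XT.lf (nat_lit 0) (nat_lit 6143459130) (nat_lit 532) (nat_lit 1327074904) (nat_lit 76) (nat_lit 2813854242) (nat_lit 146) (nat_lit 5) (nat_lit 153) (nat_lit 5) (nat_lit 147) (nat_lit 5) (nat_lit 456) (nat_lit 371) (nat_lit 313)) (XT.lf (nat_lit 0) (nat_lit 4541260049) (nat_lit 456) (nat_lit 4403527497) (nat_lit 532) (nat_lit 1457946484) (nat_lit 140) (nat_lit 5) (nat_lit 146) (nat_lit 5) (nat_lit 147) (nat_lit 5) (nat_lit 457) (nat_lit 371) (nat_lit 312))) (XT.nd (nat_lit 78) (nat_lit 456) (nat_lit 0) (XT.lf (nat_lit 0) (nat_lit 1238396972) (nat_lit 532) (nat_lit 31454513) (nat_lit 76) (nat_lit 9253924018) (nat_lit 139) (nat_lit 5) (nat_lit 146) (nat_lit 5) (nat_lit 140) (nat_lit 5) (nat_lit 458) (nat_lit 371) (nat_lit 311)) (XT.lf (nat_lit 0) (nat_lit 3988620369) (nat_lit 532) (nat_lit 4720173189) (nat_lit 76) (nat_lit 1937885808) (nat_lit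 133) (nat_lit 5) (nat_lit 140) (nat_lit 5) (nat_lit 134) (nat_lit 5) (nat_lit 459) (nat_lit 371) (nat_lit 310)))))) (XT.nd (nat_lit 546) (nat_lit 1368) (nat_lit 0) (XT.nd (nat_lit 234) (nat_lit 836) (nat_lit 0) (XT.nd (nat_lit 78) (nat_lit 456) (nat_lit 0) (XT.lf (nat_lit 0) (nat_lit 1195094540) (nat_lit 380) (nat_lit 5583542324) (nat_lit 456) (nat_lit 3993732002) (nat_lit 128) (nat_lit 5) (nat_lit 133) (nat_lit 5) (nat_lit 134) (nat_lit 5) (nat_lit 460) (nat_lit 371) (nat_lit 309)) (XT.nd (nat_lit 78) (nat_lit 456) (nat_lit 0) (XT.lf (nat_lit 0) (nat_lit 7248757795) (nat_lit 380) (nat_lit 2376112422) (nat_lit 456) (nat_lit 1275716482) (nat_lit 128) (nat_lit 5) (nat_lit 133) (nat_lit 5) (nat_lit 134) (nat_lit 5) (nat_lit 461) (nat_lit 371) (nat_lit 308)) (XT.lf (nat_lit 0) (nat_lit 1467446133) (nat_lit 456) (nat_lit 8667377800) (nat_lit 76) (nat_lit 896564284) (nat_lit 122) (nat_lit 5) (nat_lit 128) (nat_lit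 5) (nat_lit 123) (nat_lit 5) (nat_lit 462) (nat_lit 371) (nat_lit 307)))) (XT.nd (nat_lit 156) (nat_lit 456) (nat_lit 0) (XT.nd (nat_lit 78) (nat_lit 380) (nat_lit 0) (XT.lf (nat_lit 0) (nat_lit 4258182397) (nat_lit 456) (nat_lit 2682723313) (nat_lit 76) (nat_lit 4223557116) (nat_lit 122) (nat_lit 5) (nat_lit 128) (nat_lit 5) (nat_lit 123) (nat_lit 5) (nat_lit 463) (nat_lit 371) (nat_lit 306)) (XT.lf (nat_lit 0) (nat_lit 3423654437) (nat_lit 380) (nat_lit 3673280568) (nat_lit 456) (nat_lit 4203441022) (nat_lit 117) (nat_lit 5) (nat_lit 122) (nat_lit 5) (nat_lit 123) (nat_lit 5) (nat_lit 464) (nat_lit 371) (nat_lit 305))) (XT.nd (nat_lit 78) (nat_lit 456) (nat_lit 0) (XT.lf (nat_lit 0) (nat_lit 9645935144) (nat_lit 380) (nat_lit 334815238) (nat_lit 456) (nat_lit 1458512076) (nat_lit 117) (nat_lit 5) (nat_lit 122) (nat_lit 5) (nat_lit 123) (nat_lit 5) (nat_lit 465) (nat_lit 371) (nat_lit 304)) (XT.lf (nat_lit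 0) (nat_lit 1343168273) (nat_lit 456) (nat_lit 7182069834) (nat_lit 76) (nat_lit 3055145362) (nat_lit 111) (nat_lit 5) (nat_lit 117) (nat_lit 5) (nat_lit 112) (nat_lit 5) (nat_lit 466) (nat_lit 371) (nat_lit 303))))) (XT.nd (nat_lit 234) (nat_lit 1064) (nat_lit 0) (XT.nd (nat_lit 78) (nat_lit 304) (nat_lit 0) (XT.lf (nat_lit 0) (nat_lit 4166577128) (nat_lit 456) (nat_lit 1040349807) (nat_lit 76) (nat_lit 6517522186) (nat_lit 111) (nat_lit 5) (nat_lit 117) (nat_lit 5) (nat_lit 112) (nat_lit 5) (nat_lit 467) (nat_lit 371) (nat_lit 302)) (XT.nd (nat_lit 78) (nat_lit 0) (nat_lit 0) (XT.lf (nat_lit 0) (nat_lit 5251506539) (nat_lit 304) (nat_lit 1800489897) (nat_lit 380) (nat_lit 4819307946) (nat_lit 107) (nat_lit 5) (nat_lit 111) (nat_lit 5) (nat_lit 112) (nat_lit 5) (nat_lit 468) (nat_lit 371) (nat_lit 301)) (XT.lf (nat_lit 0) (nat_lit 9984673981) (nat_lit 380) (nat_lit 390368736) (nat_lit 76) (nat_lit 1646281799)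 (nat_lit 107) (nat_lit 5) (nat_lit 112) (nat_lit 5) (nat_lit 108) (nat_lit 5) (nat_lit 469) (nat_lit 371) (nat_lit 300)))) (XT.nd (nat_lit 156) (nat_lit 304) (nat_lit 0) (XT.nd (nat_lit 78) (nat_lit 304) (nat_lit 0) (XT.lf (nat_lit 0) (nat_lit 814299591) (nat_lit 456) (nat_lit 6189963235) (nat_lit 76) (nat_lit 5169533097) (nat_lit 101) (nat_lit 5) (nat_lit 107) (nat_lit 5) (nat_lit 102) (nat_lit 5) (nat_lit 470) (nat_lit 371) (nat_lit 299)) (XT.lf (nat_lit 0) (nat_lit 108366306) (nat_lit 304) (nat_lit 3562287224) (nat_lit 380) (nat_lit 8658898555) (nat_lit 97) (nat_lit 5) (nat_lit 101) (nat_lit 5) (nat_lit 102) (nat_lit 5) (nat_lit 471) (nat_lit 371) (nat_lit 298))) (XT.nd (nat_lit 78) (nat_lit 304) (nat_lit 0) (XT.lf (nat_lit 0) (nat_lit 6575744219) (nat_lit 304) (nat_lit 22496076) (nat_lit 380) (nat_lit 5889918296) (nat_lit 97) (nat_lit 5) (nat_lit 101) (nat_lit 5) (nat_lit 102) (nat_lit 5) (nat_lit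 472) (nat_lit 371) (nat_lit 297)) (XT.lf (nat_lit 0) (nat_lit 464838691) (nat_lit 304) (nat_lit 9118874884) (nat_lit 380) (nat_lit 3066253955) (nat_lit 93) (nat_lit 5) (nat_lit 97) (nat_lit 5) (nat_lit 98) (nat_lit 5) (nat_lit 473) (nat_lit 371) (nat_lit 296))))))))
noncomputable def xc81 : XT := (XT.nd (nat_lit 2106) (nat_lit 1824) (nat_lit 0) (XT.nd (nat_lit 1014) (nat_lit 1596) (nat_lit 0) (XT.nd (nat_lit 468) (nat_lit 912) (nat_lit 0) (XT.nd (nat_lit 234) (nat_lit 608) (nat_lit 0) (XT.nd (nat_lit 78) (nat_lit 380) (nat_lit 0) (XT.lf (nat_lit 0) (nat_lit 7009402648) (nat_lit 304) (nat_lit 5632605382) (nat_lit 380) (nat_lit 172759045) (nat_lit 93) (nat_lit 5) (nat_lit 97) (nat_lit 5) (nat_lit 98) (nat_lit 5) (nat_lit 474) (nat_lit 371) (nat_lit 295)) (XT.nd (nat_lit 78) (nat_lit 0) (nat_lit 0) (XT.lf (nat_lit 0) (nat_lit 652709803) (nat_lit 304) (nat_lit 2067314374) (nat_lit 380) (nat_lit 10262936432)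 (nat_lit 88) (nat_lit 5) (nat_lit 92) (nat_lit 5) (nat_lit 93) (nat_lit 5) (nat_lit 475) (nat_lit 371) (nat_lit 294)) (XT.lf (nat_lit 0) (nat_lit 5691551648) (nat_lit 380) (nat_lit 5886685346) (nat_lit 76) (nat_lit 1575809849) (nat_lit 88) (nat_lit 5) (nat_lit 93) (nat_lit 5) (nat_lit 89) (nat_lit 5) (nat_lit 476) (nat_lit 371) (nat_lit 293)))) (XT.nd (nat_lit 78) (nat_lit 304) (nat_lit 0) (XT.lf (nat_lit 0) (nat_lit 641260735) (nat_lit 304) (nat_lit 8073412848) (nat_lit 380) (nat_lit 4614053335) (nat_lit 84) (nat_lit 5) (nat_lit 88) (nat_lit 5) (nat_lit 89) (nat_lit 5) (nat_lit 477) (nat_lit 371) (nat_lit 292)) (XT.nd (nat_lit 78) (nat_lit 304) (nat_lit 0) (XT.lf (nat_lit 0) (nat_lit 7340609154) (nat_lit 304) (nat_lit 4471711992) (nat_lit 380) (nat_lit 1694313275) (nat_lit 84) (nat_lit 5) (nat_lit 88) (nat_lit 5) (nat_lit 89) (nat_lit 5) (nat_lit 478) (nat_lit 371) (nat_lit 291)) (XT.lf (nat_lit 0) (nat_lit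 444806025) (nat_lit 228) (nat_lit 799945460) (nat_lit 304) (nat_lit 12443641040) (nat_lit 80) (nat_lit 5) (nat_lit 83) (nat_lit 5) (nat_lit 84) (nat_lit 5) (nat_lit 479) (nat_lit 371) (nat_lit 290))))) (XT.nd (nat_lit 234) (nat_lit 608) (nat_lit 0) (XT.nd (nat_lit 78) (nat_lit 304) (nat_lit 0) (XT.lf (nat_lit 0) (nat_lit 4255742178) (nat_lit 304) (nat_lit 6670847311) (nat_lit 76) (nat_lit 2946269906) (nat_lit 80) (nat_lit 5) (nat_lit 84) (nat_lit 5) (nat_lit 81) (nat_lit 5) (nat_lit 480) (nat_lit 371) (nat_lit 289)) (XT.nd (nat_lit 78) (nat_lit 304) (nat_lit 0) (XT.lf (nat_lit 0) (nat_lit 7307776247) (nat_lit 304) (nat_lit 9899918) (nat_lit 76) (nat_lit 6743736909) (nat_lit 80) (nat_lit 5) (nat_lit 84) (nat_lit 5) (nat_lit 81) (nat_lit 5) (nat_lit 481) (nat_lit 371) (nat_lit 288)) (XT.lf (nat_lit 0) (nat_lit 6836726488) (nat_lit 304) (nat_lit 3604518867) (nat_lit 380) (nat_lit 3812098253) (nat_lit 76)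 (nat_lit 5) (nat_lit 80) (nat_lit 5) (nat_lit 81) (nat_lit 5) (nat_lit 482) (nat_lit 371) (nat_lit 287)))) (XT.nd (nat_lit 156) (nat_lit 304) (nat_lit 0) (XT.nd (nat_lit 78) (nat_lit 304) (nat_lit 0) (XT.lf (nat_lit 0) (nat_lit 13614788860) (nat_lit 380) (nat_lit 667242824) (nat_lit 76) (nat_lit 167546371) (nat_lit 76) (nat_lit 5) (nat_lit 81) (nat_lit 5) (nat_lit 77) (nat_lit 5) (nat_lit 483) (nat_lit 371) (nat_lit 286)) (XT.lf (nat_lit 0) (nat_lit 2214437366) (nat_lit 304) (nat_lit 8425063404) (nat_lit 76) (nat_lit 4009138321) (nat_lit 72) (nat_lit 5) (nat_lit 76) (nat_lit 5) (nat_lit 73) (nat_lit 5) (nat_lit 484) (nat_lit 371) (nat_lit 285))) (XT.nd (nat_lit 78) (nat_lit 304) (nat_lit 0) (XT.lf (nat_lit 0) (nat_lit 5294662654) (nat_lit 304) (nat_lit 1632606707) (nat_lit 76) (nat_lit 7924690416) (nat_lit 72) (nat_lit 5) (nat_lit 76) (nat_lit 5) (nat_lit 73) (nat_lit 5) (nat_lit 485) (nat_lit 371) (nat_lit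 284)) (XT.lf (nat_lit 0) (nat_lit 5329605630) (nat_lit 304) (nat_lit 3118621889) (nat_lit 380) (nat_lit 6610897038) (nat_lit 68) (nat_lit 5) (nat_lit 72) (nat_lit 5) (nat_lit 73) (nat_lit 5) (nat_lit 486) (nat_lit 371) (nat_lit 283)))))) (XT.nd (nat_lit 546) (nat_lit 836) (nat_lit 0) (XT.nd (nat_lit 234) (nat_lit 456) (nat_lit 0) (XT.nd (nat_lit 78) (nat_lit 304) (nat_lit 0) (XT.lf (nat_lit 0) (nat_lit 11658129463) (nat_lit 380) (nat_lit 2858203656) (nat_lit 76) (nat_lit 754246335) (nat_lit 68) (nat_lit 5) (nat_lit 73) (nat_lit 5) (nat_lit 69) (nat_lit 5) (nat_lit 487) (nat_lit 371) (nat_lit 282)) (XT.nd (nat_lit 78) (nat_lit 76) (nat_lit 0) (XT.lf (nat_lit 0) (nat_lit 4148870982) (nat_lit 228) (nat_lit 10808657544) (nat_lit 304) (nat_lit 528240842) (nat_lit 65) (nat_lit 5) (nat_lit 68) (nat_lit 5) (nat_lit 69) (nat_lit 5) (nat_lit 488) (nat_lit 371) (nat_lit 281)) (XT.lf (nat_lit 0) (nat_lit 2580388136)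 (nat_lit 304) (nat_lit 4422672151) (nat_lit 76) (nat_lit 8701932990) (nat_lit 64) (nat_lit 5) (nat_lit 68) (nat_lit 5) (nat_lit 65) (nat_lit 5) (nat_lit 489) (nat_lit 371) (nat_lit 280)))) (XT.nd (nat_lit 156) (nat_lit 228) (nat_lit 0) (XT.nd (nat_lit 78) (nat_lit 0) (nat_lit 0) (XT.lf (nat_lit 0) (nat_lit 2625975633) (nat_lit 228) (nat_lit 3113392748) (nat_lit 304) (nat_lit 10189269624) (nat_lit 61) (nat_lit 5) (nat_lit 64) (nat_lit 5) (nat_lit 65) (nat_lit 5) (nat_lit 490) (nat_lit 371) (nat_lit 279)) (XT.lf (nat_lit 0) (nat_lit 8975262867) (nat_lit 304) (nat_lit 6321291561) (nat_lit 76) (nat_lit 859937503) (nat_lit 61) (nat_lit 5) (nat_lit 65) (nat_lit 5) (nat_lit 62) (nat_lit 5) (nat_lit 491) (nat_lit 371) (nat_lit 278))) (XT.nd (nat_lit 78) (nat_lit 0) (nat_lit 0) (XT.lf (nat_lit 0) (nat_lit 754737039) (nat_lit 228) (nat_lit 11525396610) (nat_lit 304) (nat_lit 4108694897) (nat_lit 58) (nat_lit 5)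 (nat_lit 61) (nat_lit 5) (nat_lit 62) (nat_lit 5) (nat_lit 492) (nat_lit 371) (nat_lit 277)) (XT.lf (nat_lit 0) (nat_lit 8023948666) (nat_lit 228) (nat_lit 7648507996) (nat_lit 304) (nat_lit 952938702) (nat_lit 58) (nat_lit 5) (nat_lit 61) (nat_lit 5) (nat_lit 62) (nat_lit 5) (nat_lit 493) (nat_lit 371) (nat_lit 276))))) (XT.nd (nat_lit 234) (nat_lit 532) (nat_lit 0) (XT.nd (nat_lit 78) (nat_lit 228) (nat_lit 0) (XT.lf (nat_lit 0) (nat_lit 2215416162) (nat_lit 304) (nat_lit 1476504660) (nat_lit 76) (nat_lit 13174904581) (nat_lit 57) (nat_lit 5) (nat_lit 61) (nat_lit 5) (nat_lit 58) (nat_lit 5) (nat_lit 494) (nat_lit 371) (nat_lit 275)) (XT.nd (nat_lit 78) (nat_lit 0) (nat_lit 0) (XT.lf (nat_lit 0) (nat_lit 5454282206) (nat_lit 304) (nat_lit 11286983983) (nat_lit 76) (nat_lit 371303754) (nat_lit 54) (nat_lit 5) (nat_lit 58) (nat_lit 5) (nat_lit 55) (nat_lit 5) (nat_lit 495) (nat_lit 371) (nat_lit 274))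 (XT.lf (nat_lit 0) (nat_lit 8772064085) (nat_lit 304) (nat_lit 4126913141) (nat_lit 76) (nat_lit 4463979140) (nat_lit 54) (nat_lit 5) (nat_lit 58) (nat_lit 5) (nat_lit 55) (nat_lit 5) (nat_lit 496) (nat_lit 371) (nat_lit 273)))) (XT.nd (nat_lit 156) (nat_lit 304) (nat_lit 0) (XT.nd (nat_lit 78) (nat_lit 0) (nat_lit 0) (XT.lf (nat_lit 0) (nat_lit 3185689708) (nat_lit 228) (nat_lit 8971308218) (nat_lit 304) (nat_lit 5461346236) (nat_lit 51) (nat_lit 5) (nat_lit 54) (nat_lit 5) (nat_lit 55) (nat_lit 5) (nat_lit 497) (nat_lit 371) (nat_lit 272)) (XT.lf (nat_lit 0) (nat_lit 10668249196) (nat_lit 228) (nat_lit 4949368367) (nat_lit 304) (nat_lit 2261071794) (nat_lit 51) (nat_lit 5) (nat_lit 54) (nat_lit 5) (nat_lit 55) (nat_lit 5) (nat_lit 498) (nat_lit 371) (nat_lit 271))) (XT.nd (nat_lit 78) (nat_lit 0) (nat_lit 0) (XT.lf (nat_lit 0) (nat_lit 119398543) (nat_lit 228) (nat_lit 851970287) (nat_lit 304) (nat_lit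 17173125013) (nat_lit 47) (nat_lit 5) (nat_lit 50) (nat_lit 5) (nat_lit 51) (nat_lit 5) (nat_lit 499) (nat_lit 371) (nat_lit 270)) (XT.lf (nat_lit 0) (nat_lit 4289158921) (nat_lit 304) (nat_lit 10789947929) (nat_lit 76) (nat_lit 3335197971) (nat_lit 47) (nat_lit 5) (nat_lit 51) (nat_lit 5) (nat_lit 48) (nat_lit 5) (nat_lit 500) (nat_lit 371) (nat_lit 269))))))) (XT.nd (nat_lit 1092) (nat_lit 760) (nat_lit 0) (XT.nd (nat_lit 546) (nat_lit 456) (nat_lit 0) (XT.nd (nat_lit 234) (nat_lit 456) (nat_lit 0) (XT.nd (nat_lit 78) (nat_lit 152) (nat_lit 0) (XT.lf (nat_lit 0) (nat_lit 7659964930) (nat_lit 304) (nat_lit 3447089513) (nat_lit 76) (nat_lit 7582733042) (nat_lit 47) (nat_lit 5) (nat_lit 51) (nat_lit 5) (nat_lit 48) (nat_lit 5) (nat_lit 501) (nat_lit 371) (nat_lit 268)) (XT.nd (nat_lit 78) (nat_lit 0) (nat_lit 0) (XT.lf (nat_lit 0) (nat_lit 4065206976) (nat_lit 152) (nat_lit 7040764230) (nat_lit 228) (nat_lit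 7864661412) (nat_lit 45) (nat_lit 5) (nat_lit 47) (nat_lit 5) (nat_lit 48) (nat_lit 5) (nat_lit 502) (nat_lit 371) (nat_lit 267)) (XT.lf (nat_lit 0) (nat_lit 11743942790) (nat_lit 152) (nat_lit 2881643388) (nat_lit 228) (nat_lit 4631423035) (nat_lit 45) (nat_lit 5) (nat_lit 47) (nat_lit 5) (nat_lit 48) (nat_lit 5) (nat_lit 503) (nat_lit 371) (nat_lit 266)))) (XT.nd (nat_lit 156) (nat_lit 152) (nat_lit 0) (XT.nd (nat_lit 78) (nat_lit 304) (nat_lit 0) (XT.lf (nat_lit 0) (nat_lit 18206269222) (nat_lit 228) (nat_lit 11921303) (nat_lit 76) (nat_lit 1331117471) (nat_lit 45) (nat_lit 5) (nat_lit 48) (nat_lit 5) (nat_lit 46) (nat_lit 5) (nat_lit 504) (nat_lit 371) (nat_lit 265)) (XT.lf (nat_lit 0) (nat_lit 2036287289) (nat_lit 304) (nat_lit 12168430177) (nat_lit 76) (nat_lit 5641450983) (nat_lit 41) (nat_lit 5) (nat_lit 45) (nat_lit 5) (nat_lit 42) (nat_lit 5) (nat_lit 505) (nat_lit 371) (nat_lit 264))) (XT.nd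 (nat_lit 78) (nat_lit 152) (nat_lit 0) (XT.lf (nat_lit 0) (nat_lit 5447544765) (nat_lit 304) (nat_lit 4666189869) (nat_lit 76) (nat_lit 10035415063) (nat_lit 41) (nat_lit 5) (nat_lit 45) (nat_lit 5) (nat_lit 42) (nat_lit 5) (nat_lit 506) (nat_lit 371) (nat_lit 263)) (XT.lf (nat_lit 0) (nat_lit 2996290995) (nat_lit 152) (nat_lit 5932769562) (nat_lit 228) (nat_lit 11529096897) (nat_lit 39) (nat_lit 5) (nat_lit 41) (nat_lit 5) (nat_lit 42) (nat_lit 5) (nat_lit 507) (nat_lit 371) (nat_lit 262))))) (XT.nd (nat_lit 234) (nat_lit 228) (nat_lit 0) (XT.nd (nat_lit 78) (nat_lit 228) (nat_lit 0) (XT.lf (nat_lit 0) (nat_lit 10846363221) (nat_lit 152) (nat_lit 1647889173) (nat_lit 228) (nat_lit 8278819455) (nat_lit 39) (nat_lit 5) (nat_lit 41) (nat_lit 5) (nat_lit 42) (nat_lit 5) (nat_lit 508) (nat_lit 371) (nat_lit 261)) (XT.nd (nat_lit 78) (nat_lit 228) (nat_lit 0) (XT.lf (nat_lit 0) (nat_lit 16131423165) (nat_lit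 228) (nat_lit 2287139685) (nat_lit 76) (nat_lit 2675715435) (nat_lit 39) (nat_lit 5) (nat_lit 42) (nat_lit 5) (nat_lit 40) (nat_lit 5) (nat_lit 509) (nat_lit 371) (nat_lit 260)) (XT.lf (nat_lit 0) (nat_lit 5538897631) (nat_lit 228) (nat_lit 14332646065) (nat_lit 304) (nat_lit 1549768137) (nat_lit 36) (nat_lit 5) (nat_lit 39) (nat_lit 5) (nat_lit 40) (nat_lit 5) (nat_lit 510) (nat_lit 371) (nat_lit 259)))) (XT.nd (nat_lit 156) (nat_lit 152) (nat_lit 0) (XT.nd (nat_lit 78) (nat_lit 0) (nat_lit 0) (XT.lf (nat_lit 0) (nat_lit 1905057681) (nat_lit 304) (nat_lit 8242860238) (nat_lit 76) (nat_lit 11606747944) (nat_lit 35) (nat_lit 5) (nat_lit 39) (nat_lit 5) (nat_lit 36) (nat_lit 5) (nat_lit 511) (nat_lit 371) (nat_lit 258)) (XT.lf (nat_lit 0) (nat_lit 5391934853) (nat_lit 304) (nat_lit 488324514) (nat_lit 76) (nat_lit 16214555305) (nat_lit 35) (nat_lit 5) (nat_lit 39) (nat_lit 5) (nat_lit 36) (nat_lit 5) (nat_lit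 512) (nat_lit 371) (nat_lit 257))) (XT.nd (nat_lit 78) (nat_lit 0) (nat_lit 0) (XT.lf (nat_lit 0) (nat_lit 7492562389) (nat_lit 152) (nat_lit 1488640562) (nat_lit 228) (nat_lit 13459917006) (nat_lit 33) (nat_lit 5) (nat_lit 35) (nat_lit 5) (nat_lit 36) (nat_lit 5) (nat_lit 513) (nat_lit 371) (nat_lit 256)) (XT.lf (nat_lit 0) (nat_lit 12649048210) (nat_lit 228) (nat_lit 7201119876) (nat_lit 76) (nat_lit 2944053869) (nat_lit 33) (nat_lit 5) (nat_lit 36) (nat_lit 5) (nat_lit 34) (nat_lit 5) (nat_lit 514) (nat_lit 371) (nat_lit 255)))))) (XT.nd (nat_lit 546) (nat_lit 228) (nat_lit 0) (XT.nd (nat_lit 234) (nat_lit 304) (nat_lit 0) (XT.nd (nat_lit 78) (nat_lit 76) (nat_lit 0) (XT.lf (nat_lit 0) (nat_lit 673694198) (nat_lit 152) (nat_lit 15715175904) (nat_lit 228) (nat_lit 6765549810) (nat_lit 31) (nat_lit 5) (nat_lit 33) (nat_lit 5) (nat_lit 34) (nat_lit 5) (nat_lit 515) (nat_lit 371) (nat_lit 254)) (XT.nd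 (nat_lit 78) (nat_lit 76) (nat_lit 0) (XT.lf (nat_lit 0) (nat_lit 8777242852) (nat_lit 152) (nat_lit 11459090891) (nat_lit 228) (nat_lit 3284837370) (nat_lit 31) (nat_lit 5) (nat_lit 33) (nat_lit 5) (nat_lit 34) (nat_lit 5) (nat_lit 516) (nat_lit 371) (nat_lit 253)) (XT.lf (nat_lit 0) (nat_lit 246726389) (nat_lit 228) (nat_lit 6880185246) (nat_lit 76) (nat_lit 16768622800) (nat_lit 30) (nat_lit 5) (nat_lit 33) (nat_lit 5) (nat_lit 31) (nat_lit 5) (nat_lit 517) (nat_lit 371) (nat_lit 252)))) (XT.nd (nat_lit 156) (nat_lit 152) (nat_lit 0) (XT.nd (nat_lit 78) (nat_lit 0) (nat_lit 0) (XT.lf (nat_lit 0) (nat_lit 1108055546) (nat_lit 152) (nat_lit 2689135891) (nat_lit 228) (nat_lit 20479920083) (nat_lit 28) (nat_lit 5) (nat_lit 30) (nat_lit 5) (nat_lit 31) (nat_lit 5) (nat_lit 518) (nat_lit 371) (nat_lit 251)) (XT.lf (nat_lit 0) (nat_lit 7462149959) (nat_lit 228) (nat_lit 15353930009) (nat_lit 76) (nat_lit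 1849376215) (nat_lit 28) (nat_lit 5) (nat_lit 31) (nat_lit 5) (nat_lit 29) (nat_lit 5) (nat_lit 519) (nat_lit 371) (nat_lit 250))) (XT.nd (nat_lit 78) (nat_lit 152) (nat_lit 0) (XT.lf (nat_lit 0) (nat_lit 11203588224) (nat_lit 228) (nat_lit 7425429764) (nat_lit 76) (nat_lit 6432491748) (nat_lit 28) (nat_lit 5) (nat_lit 31) (nat_lit 5) (nat_lit 29) (nat_lit 5) (nat_lit 520) (nat_lit 371) (nat_lit 249)) (XT.lf (nat_lit 0) (nat_lit 645479204) (nat_lit 152) (nat_lit 14364225482) (nat_lit 228) (nat_lit 10455988183) (nat_lit 26) (nat_lit 5) (nat_lit 28) (nat_lit 5) (nat_lit 29) (nat_lit 5) (nat_lit 521) (nat_lit 371) (nat_lit 248))))) (XT.nd (nat_lit 234) (nat_lit 152) (nat_lit 0) (XT.nd (nat_lit 78) (nat_lit 76) (nat_lit 0) (XT.lf (nat_lit 0) (nat_lit 8953995169) (nat_lit 152) (nat_lit 9973557767) (nat_lit 228) (nat_lit 6949699928) (nat_lit 26) (nat_lit 5) (nat_lit 28) (nat_lit 5) (nat_lit 29) (nat_lit 5)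 (nat_lit 522) (nat_lit 371) (nat_lit 247)) (XT.nd (nat_lit 78) (nat_lit 76) (nat_lit 0) (XT.lf (nat_lit 0) (nat_lit 17404696319) (nat_lit 152) (nat_lit 5505121556) (nat_lit 228) (nat_lit 3387510275) (nat_lit 26) (nat_lit 5) (nat_lit 28) (nat_lit 5) (nat_lit 29) (nat_lit 5) (nat_lit 523) (nat_lit 371) (nat_lit 246)) (XT.lf (nat_lit 0) (nat_lit 228935283) (nat_lit 228) (nat_lit 726692959) (nat_lit 76) (nat_lit 25770425094) (nat_lit 25) (nat_lit 5) (nat_lit 28) (nat_lit 5) (nat_lit 26) (nat_lit 5) (nat_lit 524) (nat_lit 371) (nat_lit 245)))) (XT.nd (nat_lit 156) (nat_lit 0) (nat_lit 0) (XT.nd (nat_lit 78) (nat_lit 0) (nat_lit 0) (XT.lf (nat_lit 0) (nat_lit 3932956149) (nat_lit 228) (nat_lit 19529203999) (nat_lit 76) (nat_lit 3699537925) (nat_lit 23) (nat_lit 5) (nat_lit 26) (nat_lit 5) (nat_lit 24) (nat_lit 5) (nat_lit 525) (nat_lit 371) (nat_lit 244)) (XT.lf (nat_lit 0) (nat_lit 7708853830) (nat_lit 228)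 (nat_lit 11466898359) (nat_lit 76) (nat_lit 8430352471) (nat_lit 23) (nat_lit 5) (nat_lit 26) (nat_lit 5) (nat_lit 24) (nat_lit 5) (nat_lit 526) (nat_lit 371) (nat_lit 243))) (XT.nd (nat_lit 49140) (nat_lit 0) (nat_lit 40964) (XT.lf (nat_lit 0) (nat_lit 11547091961) (nat_lit 228) (nat_lit 3266184436) (nat_lit 76) (nat_lit 13246391316) (nat_lit 23) (nat_lit 5) (nat_lit 26) (nat_lit 5) (nat_lit 24) (nat_lit 5) (nat_lit 527) (nat_lit 371) (nat_lit 242)) (XT.lf (nat_lit 0) (nat_lit 158741408) (nat_lit 684) (nat_lit 2968765215) (nat_lit 0) (nat_lit 158741408) (nat_lit 562) (nat_lit 5) (nat_lit 571) (nat_lit 4) (nat_lit 562) (nat_lit 4) (nat_lit 396) (nat_lit 372) (nat_lit 372))))))))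
noncomputable def xc82 : XT := (XT.nd (nat_lit 2106) (nat_lit 10944) (nat_lit 0) (XT.nd (nat_lit 1014) (nat_lit 12312) (nat_lit 0) (XT.nd (nat_lit 468) (nat_lit 4332) (nat_lit 0) (XT.nd (nat_lit 234) (nat_lit 1672) (nat_lit 0) (XT.nd (nat_lit 78) (nat_lit 760) (nat_lit 0) (XT.lf (nat_lit 0) (nat_lit 3285396321) (nat_lit 684) (nat_lit 2284613671) (nat_lit 0) (nat_lit 1019394346) (nat_lit 562) (nat_lit 5) (nat_lit 571) (nat_lit 4) (nat_lit 562) (nat_lit 4) (nat_lit 397) (nat_lit 372) (nat_lit 371)) (XT.nd (nat_lit 78) (nat_lit 76) (nat_lit 0) (XT.lf (nat_lit 0) (nat_lit 1410722644) (nat_lit 684) (nat_lit 4842404919) (nat_lit 684) (nat_lit 354832380) (nat_lit 553) (nat_lit 4) (nat_lit 562) (nat_lit 5) (nat_lit 562) (nat_lit 4) (nat_lit 398) (nat_lit 372) (nat_lit 370)) (XT.lf (nat_lit 0) (nat_lit 2565727966) (nat_lit 760) (nat_lit 1482812402) (nat_lit 76) (nat_lit 2579171506) (nat_lit 552) (nat_lit 5) (nat_lit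 562) (nat_lit 5) (nat_lit 553) (nat_lit 4) (nat_lit 399) (nat_lit 372) (nat_lit 369)))) (XT.nd (nat_lit 78) (nat_lit 912) (nat_lit 0) (XT.lf (nat_lit 0) (nat_lit 2284654075) (nat_lit 760) (nat_lit 3203237628) (nat_lit 836) (nat_lit 1161072890) (nat_lit 542) (nat_lit 5) (nat_lit 552) (nat_lit 5) (nat_lit 553) (nat_lit 4) (nat_lit 400) (nat_lit 372) (nat_lit 368)) (XT.nd (nat_lit 78) (nat_lit 836) (nat_lit 0) (XT.lf (nat_lit 0) (nat_lit 1717851134) (nat_lit 836) (nat_lit 584141750) (nat_lit 76) (nat_lit 4369651742) (nat_lit 541) (nat_lit 5) (nat_lit 552) (nat_lit 5) (nat_lit 542) (nat_lit 5) (nat_lit 401) (nat_lit 372) (nat_lit 367)) (XT.lf (nat_lit 0) (nat_lit 3258113667) (nat_lit 836) (nat_lit 1336722014) (nat_lit 912) (nat_lit 2100773604) (nat_lit 530) (nat_lit 5) (nat_lit 541) (nat_lit 5) (nat_lit 542) (nat_lit 5) (nat_lit 402) (nat_lit 372) (nat_lit 366))))) (XT.nd (nat_lit 234) (nat_lit 2356) (nat_lit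 0) (XT.nd (nat_lit 78) (nat_lit 988) (nat_lit 0) (XT.lf (nat_lit 0) (nat_lit 416135063) (nat_lit 912) (nat_lit 324502901) (nat_lit 988) (nat_lit 5980572285) (nat_lit 517) (nat_lit 5) (nat_lit 529) (nat_lit 5) (nat_lit 530) (nat_lit 5) (nat_lit 403) (nat_lit 372) (nat_lit 365)) (XT.nd (nat_lit 78) (nat_lit 988) (nat_lit 0) (XT.lf (nat_lit 0) (nat_lit 3574937134) (nat_lit 988) (nat_lit 2422435695) (nat_lit 76) (nat_lit 750487939) (nat_lit 517) (nat_lit 5) (nat_lit 530) (nat_lit 5) (nat_lit 518) (nat_lit 5) (nat_lit 404) (nat_lit 372) (nat_lit 364)) (XT.lf (nat_lit 0) (nat_lit 1506100929) (nat_lit 988) (nat_lit 4909342828) (nat_lit 1064) (nat_lit 360707204) (nat_lit 504) (nat_lit 5) (nat_lit 517) (nat_lit 5) (nat_lit 518) (nat_lit 5) (nat_lit 405) (nat_lit 372) (nat_lit 363)))) (XT.nd (nat_lit 156) (nat_lit 1216) (nat_lit 0) (XT.nd (nat_lit 78) (nat_lit 1064) (nat_lit 0) (XT.lf (nat_lit 0) (nat_lit 2429225283)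 (nat_lit 1064) (nat_lit 1324978433) (nat_lit 76) (nat_lit 3051483695) (nat_lit 503) (nat_lit 5) (nat_lit 517) (nat_lit 5) (nat_lit 504) (nat_lit 5) (nat_lit 406) (nat_lit 372) (nat_lit 362)) (XT.lf (nat_lit 0) (nat_lit 2682818933) (nat_lit 1064) (nat_lit 2543944392) (nat_lit 1140) (nat_lit 1609962334) (nat_lit 489) (nat_lit 5) (nat_lit 503) (nat_lit 5) (nat_lit 504) (nat_lit 5) (nat_lit 407) (nat_lit 372) (nat_lit 361))) (XT.nd (nat_lit 78) (nat_lit 1140) (nat_lit 0) (XT.lf (nat_lit 0) (nat_lit 1144528143) (nat_lit 1140) (nat_lit 136942204) (nat_lit 76) (nat_lit 5587873808) (nat_lit 488) (nat_lit 5) (nat_lit 503) (nat_lit 5) (nat_lit 489) (nat_lit 5) (nat_lit 408) (nat_lit 372) (nat_lit 360)) (XT.lf (nat_lit 0) (nat_lit 3899375378) (nat_lit 1216) (nat_lit 2950535133) (nat_lit 76) (nat_lit 53241401) (nat_lit 473) (nat_lit 5) (nat_lit 489) (nat_lit 5) (nat_lit 474) (nat_lit 5) (nat_lit 409) (nat_lit 372)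 (nat_lit 359)))))) (XT.nd (nat_lit 546) (nat_lit 6764) (nat_lit 0) (XT.nd (nat_lit 234) (nat_lit 2964) (nat_lit 0) (XT.nd (nat_lit 78) (nat_lit 1368) (nat_lit 0) (XT.lf (nat_lit 0) (nat_lit 1145164743) (nat_lit 1216) (nat_lit 5522703575) (nat_lit 1292) (nat_lit 270681054) (nat_lit 457) (nat_lit 5) (nat_lit 473) (nat_lit 5) (nat_lit 474) (nat_lit 5) (nat_lit 410) (nat_lit 372) (nat_lit 358)) (XT.nd (nat_lit 78) (nat_lit 1292) (nat_lit 0) (XT.lf (nat_lit 0) (nat_lit 2446058170) (nat_lit 1292) (nat_lit 1678051077) (nat_lit 76) (nat_lit 2851060050) (nat_lit 456) (nat_lit 5) (nat_lit 473) (nat_lit 5) (nat_lit 457) (nat_lit 5) (nat_lit 411) (nat_lit 372) (nat_lit 357)) (XT.lf (nat_lit 0) (nat_lit 2501493770) (nat_lit 1292) (nat_lit 2671457730) (nat_lit 1368) (nat_lit 1840425110) (nat_lit 439) (nat_lit 5) (nat_lit 456) (nat_lit 5) (nat_lit 457) (nat_lit 5) (nat_lit 412) (nat_lit 372) (nat_lit 356)))) (XT.nd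 (nat_lit 156) (nat_lit 1520) (nat_lit 0) (XT.nd (nat_lit 78) (nat_lit 1368) (nat_lit 0) (XT.lf (nat_lit 0) (nat_lit 845087493) (nat_lit 1368) (nat_lit 320292104) (nat_lit 76) (nat_lit 5887830232) (nat_lit 438) (nat_lit 5) (nat_lit 456) (nat_lit 5) (nat_lit 439) (nat_lit 5) (nat_lit 413) (nat_lit 372) (nat_lit 355)) (XT.lf (nat_lit 0) (nat_lit 3532666953) (nat_lit 1444) (nat_lit 3150912790) (nat_lit 76) (nat_lit 410631721) (nat_lit 420) (nat_lit 5) (nat_lit 439) (nat_lit 5) (nat_lit 421) (nat_lit 5) (nat_lit 414) (nat_lit 372) (nat_lit 354))) (XT.nd (nat_lit 78) (nat_lit 76) (nat_lit 0) (XT.lf (nat_lit 0) (nat_lit 1117915628) (nat_lit 1444) (nat_lit 5118688925) (nat_lit 1520) (nat_lit 900250033) (nat_lit 401) (nat_lit 5) (nat_lit 420) (nat_lit 5) (nat_lit 421) (nat_lit 5) (nat_lit 415) (nat_lit 372) (nat_lit 353)) (XT.lf (nat_lit 0) (nat_lit 1757549614) (nat_lit 1520) (nat_lit 1727007235) (nat_lit 76)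 (nat_lit 3696287381) (nat_lit 400) (nat_lit 5) (nat_lit 420) (nat_lit 5) (nat_lit 401) (nat_lit 5) (nat_lit 416) (nat_lit 372) (nat_lit 352))))) (XT.nd (nat_lit 234) (nat_lit 3572) (nat_lit 0) (XT.nd (nat_lit 78) (nat_lit 1672) (nat_lit 0) (XT.lf (nat_lit 0) (nat_lit 2630285969) (nat_lit 1520) (nat_lit 1790106166) (nat_lit 1596) (nat_lit 2805993033) (nat_lit 380) (nat_lit 5) (nat_lit 400) (nat_lit 5) (nat_lit 401) (nat_lit 5) (nat_lit 417) (nat_lit 372) (nat_lit 351)) (XT.nd (nat_lit 78) (nat_lit 1672) (nat_lit 0) (XT.lf (nat_lit 0) (nat_lit 7049445616) (nat_lit 1520) (nat_lit 46213405) (nat_lit 1596) (nat_lit 178062534) (nat_lit 380) (nat_lit 5) (nat_lit 400) (nat_lit 5) (nat_lit 401) (nat_lit 5) (nat_lit 418) (nat_lit 372) (nat_lit 350)) (XT.lf (nat_lit 0) (nat_lit 2456802477) (nat_lit 1672) (nat_lit 3108123768) (nat_lit 76) (nat_lit 1757074901) (nat_lit 358) (nat_lit 5) (nat_lit 380) (nat_lit 5) (nat_lit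 359) (nat_lit 5) (nat_lit 419) (nat_lit 372) (nat_lit 349)))) (XT.nd (nat_lit 156) (nat_lit 1824) (nat_lit 0) (XT.nd (nat_lit 78) (nat_lit 76) (nat_lit 0) (XT.lf (nat_lit 0) (nat_lit 1339414580) (nat_lit 1672) (nat_lit 3762007649) (nat_lit 1748) (nat_lit 2270675786) (nat_lit 336) (nat_lit 5) (nat_lit 358) (nat_lit 5) (nat_lit 359) (nat_lit 5) (nat_lit 420) (nat_lit 372) (nat_lit 348)) (XT.lf (nat_lit 0) (nat_lit 341015032) (nat_lit 1748) (nat_lit 1557009076) (nat_lit 76) (nat_lit 5525781385) (nat_lit 335) (nat_lit 5) (nat_lit 358) (nat_lit 5) (nat_lit 336) (nat_lit 5) (nat_lit 421) (nat_lit 372) (nat_lit 347))) (XT.nd (nat_lit 78) (nat_lit 836) (nat_lit 0) (XT.lf (nat_lit 0) (nat_lit 2944396855) (nat_lit 1064) (nat_lit 4493612641) (nat_lit 76) (nat_lit 38900576) (nat_lit 322) (nat_lit 5) (nat_lit 336) (nat_lit 5) (nat_lit 323) (nat_lit 5) (nat_lit 422) (nat_lit 372) (nat_lit 346)) (XT.lf (nat_lit 0) (nat_lit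 43136052) (nat_lit 836) (nat_lit 5530950484) (nat_lit 912) (nat_lit 1957564580) (nat_lit 311) (nat_lit 5) (nat_lit 322) (nat_lit 5) (nat_lit 323) (nat_lit 5) (nat_lit 423) (nat_lit 372) (nat_lit 345))))))) (XT.nd (nat_lit 1014) (nat_lit 5472) (nat_lit 0) (XT.nd (nat_lit 468) (nat_lit 2964) (nat_lit 0) (XT.nd (nat_lit 234) (nat_lit 1596) (nat_lit 0) (XT.nd (nat_lit 78) (nat_lit 836) (nat_lit 0) (XT.lf (nat_lit 0) (nat_lit 641603688) (nat_lit 912) (nat_lit 2909714322) (nat_lit 76) (nat_lit 4036509134) (nat_lit 310) (nat_lit 5) (nat_lit 322) (nat_lit 5) (nat_lit 311) (nat_lit 5) (nat_lit 424) (nat_lit 372) (nat_lit 344)) (XT.nd (nat_lit 78) (nat_lit 0) (nat_lit 0) (XT.lf (nat_lit 0) (nat_lit 1721432464) (nat_lit 836) (nat_lit 1508409287) (nat_lit 912) (nat_lit 4415815954) (nat_lit 299) (nat_lit 5) (nat_lit 310) (nat_lit 5) (nat_lit 311) (nat_lit 5) (nat_lit 425) (nat_lit 372) (nat_lit 343)) (XT.lf (nat_lit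 0) (nat_lit 5845948410) (nat_lit 912) (nat_lit 1272988853) (nat_lit 76) (nat_lit 586240211) (nat_lit 299) (nat_lit 5) (nat_lit 311) (nat_lit 5) (nat_lit 300) (nat_lit 5) (nat_lit 426) (nat_lit 372) (nat_lit 342)))) (XT.nd (nat_lit 78) (nat_lit 760) (nat_lit 0) (XT.lf (nat_lit 0) (nat_lit 724610018) (nat_lit 836) (nat_lit 4312893303) (nat_lit 76) (nat_lit 2728620932) (nat_lit 288) (nat_lit 5) (nat_lit 299) (nat_lit 5) (nat_lit 289) (nat_lit 5) (nat_lit 427) (nat_lit 372) (nat_lit 341)) (XT.nd (nat_lit 78) (nat_lit 0) (nat_lit 0) (XT.lf (nat_lit 0) (nat_lit 407194914) (nat_lit 760) (nat_lit 2893183318) (nat_lit 836) (nat_lit 4528414517) (nat_lit 278) (nat_lit 5) (nat_lit 288) (nat_lit 5) (nat_lit 289) (nat_lit 5) (nat_lit 428) (nat_lit 372) (nat_lit 340)) (XT.lf (nat_lit 0) (nat_lit 5231581030) (nat_lit 760) (nat_lit 679492908) (nat_lit 836) (nat_lit 1982022945) (nat_lit 278) (nat_lit 5) (nat_lit 288) (nat_lit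 5) (nat_lit 289) (nat_lit 5) (nat_lit 429) (nat_lit 372) (nat_lit 339))))) (XT.nd (nat_lit 234) (nat_lit 1444) (nat_lit 0) (XT.nd (nat_lit 78) (nat_lit 760) (nat_lit 0) (XT.lf (nat_lit 0) (nat_lit 586681188) (nat_lit 760) (nat_lit 5799648441) (nat_lit 76) (nat_lit 1572737031) (nat_lit 268) (nat_lit 5) (nat_lit 278) (nat_lit 5) (nat_lit 269) (nat_lit 5) (nat_lit 430) (nat_lit 372) (nat_lit 338)) (XT.nd (nat_lit 78) (nat_lit 760) (nat_lit 0) (XT.lf (nat_lit 0) (nat_lit 3158289710) (nat_lit 760) (nat_lit 979750013) (nat_lit 76) (nat_lit 3888540290) (nat_lit 268) (nat_lit 5) (nat_lit 278) (nat_lit 5) (nat_lit 269) (nat_lit 5) (nat_lit 431) (nat_lit 372) (nat_lit 337)) (XT.lf (nat_lit 0) (nat_lit 3940326739) (nat_lit 760) (nat_lit 1823024505) (nat_lit 836) (nat_lit 2332498635) (nat_lit 258) (nat_lit 5) (nat_lit 268) (nat_lit 5) (nat_lit 269) (nat_lit 5) (nat_lit 432) (nat_lit 372) (nat_lit 336)))) (XT.nd (nat_lit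 156) (nat_lit 684) (nat_lit 0) (XT.nd (nat_lit 78) (nat_lit 0) (nat_lit 0) (XT.lf (nat_lit 0) (nat_lit 222472062) (nat_lit 760) (nat_lit 7404842964) (nat_lit 76) (nat_lit 539766093) (nat_lit 248) (nat_lit 5) (nat_lit 258) (nat_lit 5) (nat_lit 249) (nat_lit 5) (nat_lit 433) (nat_lit 372) (nat_lit 335)) (XT.lf (nat_lit 0) (nat_lit 2794641530) (nat_lit 760) (nat_lit 2480953643) (nat_lit 76) (nat_lit 2963930796) (nat_lit 248) (nat_lit 5) (nat_lit 258) (nat_lit 5) (nat_lit 249) (nat_lit 5) (nat_lit 434) (nat_lit 372) (nat_lit 334))) (XT.nd (nat_lit 78) (nat_lit 0) (nat_lit 0) (XT.lf (nat_lit 0) (nat_lit 2526754690) (nat_lit 684) (nat_lit 2865903974) (nat_lit 760) (nat_lit 2921316076) (nat_lit 239) (nat_lit 5) (nat_lit 248) (nat_lit 5) (nat_lit 249) (nat_lit 5) (nat_lit 435) (nat_lit 372) (nat_lit 333)) (XT.lf (nat_lit 0) (nat_lit 7620764012) (nat_lit 684) (nat_lit 397034801) (nat_lit 760) (nat_lit 372652684)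 (nat_lit 239) (nat_lit 5) (nat_lit 248) (nat_lit 5) (nat_lit 249) (nat_lit 5) (nat_lit 436) (nat_lit 372) (nat_lit 332)))))) (XT.nd (nat_lit 546) (nat_lit 2204) (nat_lit 0) (XT.nd (nat_lit 234) (nat_lit 1900) (nat_lit 0) (XT.nd (nat_lit 78) (nat_lit 684) (nat_lit 0) (XT.lf (nat_lit 0) (nat_lit 2199010233) (nat_lit 684) (nat_lit 4138913784) (nat_lit 76) (nat_lit 2130260543) (nat_lit 230) (nat_lit 5) (nat_lit 239) (nat_lit 5) (nat_lit 231) (nat_lit 5) (nat_lit 437) (nat_lit 372) (nat_lit 331)) (XT.nd (nat_lit 78) (nat_lit 0) (nat_lit 0) (XT.lf (nat_lit 0) (nat_lit 953004326) (nat_lit 684) (nat_lit 3837608773) (nat_lit 760) (nat_lit 3757379817) (nat_lit 221) (nat_lit 5) (nat_lit 230) (nat_lit 5) (nat_lit 231) (nat_lit 5) (nat_lit 438) (nat_lit 372) (nat_lit 330)) (XT.lf (nat_lit 0) (nat_lit 6155542697) (nat_lit 684) (nat_lit 1266242688) (nat_lit 760) (nat_lit 1207896351) (nat_lit 221) (nat_lit 5) (nat_lit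 230) (nat_lit 5) (nat_lit 231) (nat_lit 5) (nat_lit 439) (nat_lit 372) (nat_lit 329)))) (XT.nd (nat_lit 156) (nat_lit 1216) (nat_lit 0) (XT.nd (nat_lit 78) (nat_lit 0) (nat_lit 0) (XT.lf (nat_lit 0) (nat_lit 1361417971) (nat_lit 684) (nat_lit 5993315588) (nat_lit 76) (nat_lit 1358385372) (nat_lit 212) (nat_lit 5) (nat_lit 221) (nat_lit 5) (nat_lit 213) (nat_lit 5) (nat_lit 440) (nat_lit 372) (nat_lit 328)) (XT.lf (nat_lit 0) (nat_lit 3951932245) (nat_lit 684) (nat_lit 810643261) (nat_lit 76) (nat_lit 4035806725) (nat_lit 212) (nat_lit 5) (nat_lit 221) (nat_lit 5) (nat_lit 213) (nat_lit 5) (nat_lit 441) (nat_lit 372) (nat_lit 327))) (XT.nd (nat_lit 78) (nat_lit 608) (nat_lit 0) (XT.lf (nat_lit 0) (nat_lit 4488056285) (nat_lit 608) (nat_lit 2096980974) (nat_lit 684) (nat_lit 2300534001) (nat_lit 204) (nat_lit 5) (nat_lit 212) (nat_lit 5) (nat_lit 213) (nat_lit 5) (nat_lit 442) (nat_lit 372) (nat_lit 326))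 (XT.lf (nat_lit 0) (nat_lit 269561121) (nat_lit 608) (nat_lit 8086766484) (nat_lit 76) (nat_lit 618629723) (nat_lit 196) (nat_lit 5) (nat_lit 204) (nat_lit 5) (nat_lit 197) (nat_lit 5) (nat_lit 443) (nat_lit 372) (nat_lit 325))))) (XT.nd (nat_lit 234) (nat_lit 1596) (nat_lit 0) (XT.nd (nat_lit 78) (nat_lit 608) (nat_lit 0) (XT.lf (nat_lit 0) (nat_lit 2866073724) (nat_lit 608) (nat_lit 2802788191) (nat_lit 76) (nat_lit 3396882670) (nat_lit 196) (nat_lit 5) (nat_lit 204) (nat_lit 5) (nat_lit 197) (nat_lit 5) (nat_lit 444) (nat_lit 372) (nat_lit 324)) (XT.nd (nat_lit 78) (nat_lit 0) (nat_lit 0) (XT.lf (nat_lit 0) (nat_lit 2574408522) (nat_lit 608) (nat_lit 2919762602) (nat_lit 684) (nat_lit 3664616696) (nat_lit 188) (nat_lit 5) (nat_lit 196) (nat_lit 5) (nat_lit 197) (nat_lit 5) (nat_lit 445) (nat_lit 372) (nat_lit 323)) (XT.lf (nat_lit 0) (nat_lit 8051220837) (nat_lit 608) (nat_lit 105786120) (nat_lit 684)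 (nat_lit 1097074105) (nat_lit 188) (nat_lit 5) (nat_lit 196) (nat_lit 5) (nat_lit 197) (nat_lit 5) (nat_lit 446) (nat_lit 372) (nat_lit 322)))) (XT.nd (nat_lit 156) (nat_lit 456) (nat_lit 0) (XT.nd (nat_lit 78) (nat_lit 532) (nat_lit 0) (XT.lf (nat_lit 0) (nat_lit 1511650071) (nat_lit 608) (nat_lit 5082316788) (nat_lit 76) (nat_lit 2756951305) (nat_lit 180) (nat_lit 5) (nat_lit 188) (nat_lit 5) (nat_lit 181) (nat_lit 5) (nat_lit 447) (nat_lit 372) (nat_lit 321)) (XT.lf (nat_lit 0) (nat_lit 367144653) (nat_lit 532) (nat_lit 3766109031) (nat_lit 608) (nat_lit 5316816185) (nat_lit 173) (nat_lit 5) (nat_lit 180) (nat_lit 5) (nat_lit 181) (nat_lit 5) (nat_lit 448) (nat_lit 372) (nat_lit 320))) (XT.nd (nat_lit 78) (nat_lit 456) (nat_lit 0) (XT.lf (nat_lit 0) (nat_lit 5948871736) (nat_lit 532) (nat_lit 857100453) (nat_lit 608) (nat_lit 2745288944) (nat_lit 173) (nat_lit 5) (nat_lit 180) (nat_lit 5) (nat_lit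 181) (nat_lit 5) (nat_lit 449) (nat_lit 372) (nat_lit 319)) (XT.lf (nat_lit 0) (nat_lit 1954307573) (nat_lit 456) (nat_lit 7569433711) (nat_lit 532) (nat_lit 130932606) (nat_lit 167) (nat_lit 5) (nat_lit 173) (nat_lit 5) (nat_lit 174) (nat_lit 5) (nat_lit 450) (nat_lit 372) (nat_lit 318))))))))
noncomputable def xc83 : XT := (XT.nd (nat_lit 2106) (nat_lit 3496) (nat_lit 0) (XT.nd (nat_lit 1014) (nat_lit 2584) (nat_lit 0) (XT.nd (nat_lit 468) (nat_lit 1824) (nat_lit 0) (XT.nd (nat_lit 234) (nat_lit 988) (nat_lit 0) (XT.nd (nat_lit 78) (nat_lit 532) (nat_lit 0) (XT.lf (nat_lit 0) (nat_lit 2497805241) (nat_lit 532) (nat_lit 2156572431) (nat_lit 76) (nat_lit 5105569390) (nat_lit 166) (nat_lit 5) (nat_lit 173) (nat_lit 5) (nat_lit 167) (nat_lit 5) (nat_lit 451) (nat_lit 372) (nat_lit 317)) (XT.nd (nat_lit 78) (nat_lit 0) (nat_lit 0) (XT.lf (nat_lit 0) (nat_lit 3498435332) (nat_lit 532) (nat_lit 1667665231)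 (nat_lit 608) (nat_lit 4701460991) (nat_lit 159) (nat_lit 5) (nat_lit 166) (nat_lit 5) (nat_lit 167) (nat_lit 5) (nat_lit 452) (nat_lit 372) (nat_lit 316)) (XT.lf (nat_lit 0) (nat_lit 7877609537) (nat_lit 608) (nat_lit 735323494) (nat_lit 76) (nat_lit 1364625688) (nat_lit 159) (nat_lit 5) (nat_lit 167) (nat_lit 5) (nat_lit 160) (nat_lit 5) (nat_lit 453) (nat_lit 372) (nat_lit 315)))) (XT.nd (nat_lit 78) (nat_lit 456) (nat_lit 0) (XT.lf (nat_lit 0) (nat_lit 557014103) (nat_lit 532) (nat_lit 5071391257) (nat_lit 76) (nat_lit 4461091223) (nat_lit 152) (nat_lit 5) (nat_lit 159) (nat_lit 5) (nat_lit 153) (nat_lit 5) (nat_lit 454) (nat_lit 372) (nat_lit 314)) (XT.nd (nat_lit 78) (nat_lit 0) (nat_lit 0) (XT.lf (nat_lit 0) (nat_lit 643188744) (nat_lit 456) (nat_lit 2572087903) (nat_lit 532) (nat_lit 6988619140) (nat_lit 146) (nat_lit 5) (nat_lit 152) (nat_lit 5) (nat_lit 153) (nat_lit 5) (nat_lit 455) (nat_lit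 372) (nat_lit 313)) (XT.lf (nat_lit 0) (nat_lit 5931895909) (nat_lit 532) (nat_lit 3827476911) (nat_lit 76) (nat_lit 561131583) (nat_lit 146) (nat_lit 5) (nat_lit 153) (nat_lit 5) (nat_lit 147) (nat_lit 5) (nat_lit 456) (nat_lit 372) (nat_lit 312))))) (XT.nd (nat_lit 234) (nat_lit 836) (nat_lit 0) (XT.nd (nat_lit 78) (nat_lit 532) (nat_lit 0) (XT.lf (nat_lit 0) (nat_lit 1985688785) (nat_lit 456) (nat_lit 6715117787) (nat_lit 532) (nat_lit 1738704199) (nat_lit 140) (nat_lit 5) (nat_lit 146) (nat_lit 5) (nat_lit 147) (nat_lit 5) (nat_lit 457) (nat_lit 372) (nat_lit 311)) (XT.nd (nat_lit 78) (nat_lit 456) (nat_lit 0) (XT.lf (nat_lit 0) (nat_lit 945551265) (nat_lit 532) (nat_lit 2643711041) (nat_lit 76) (nat_lit 6971653581) (nat_lit 139) (nat_lit 5) (nat_lit 146) (nat_lit 5) (nat_lit 140) (nat_lit 5) (nat_lit 458) (nat_lit 372) (nat_lit 310)) (XT.lf (nat_lit 0) (nat_lit 3270949949) (nat_lit 456) (nat_lit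 379288437) (nat_lit 532) (nat_lit 7034503639) (nat_lit 133) (nat_lit 5) (nat_lit 139) (nat_lit 5) (nat_lit 140) (nat_lit 5) (nat_lit 459) (nat_lit 372) (nat_lit 309)))) (XT.nd (nat_lit 156) (nat_lit 456) (nat_lit 0) (XT.nd (nat_lit 78) (nat_lit 380) (nat_lit 0) (XT.lf (nat_lit 0) (nat_lit 6414699609) (nat_lit 532) (nat_lit 1533179869) (nat_lit 76) (nat_lit 2863074477) (nat_lit 133) (nat_lit 5) (nat_lit 140) (nat_lit 5) (nat_lit 134) (nat_lit 5) (nat_lit 460) (nat_lit 372) (nat_lit 308)) (XT.lf (nat_lit 0) (nat_lit 4478805078) (nat_lit 380) (nat_lit 4756870180) (nat_lit 456) (nat_lit 1704012788) (nat_lit 128) (nat_lit 5) (nat_lit 133) (nat_lit 5) (nat_lit 134) (nat_lit 5) (nat_lit 461) (nat_lit 372) (nat_lit 307))) (XT.nd (nat_lit 78) (nat_lit 380) (nat_lit 0) (XT.lf (nat_lit 0) (nat_lit 1008498008) (nat_lit 456) (nat_lit 488425001) (nat_lit 76) (nat_lit 9574358220) (nat_lit 127) (nat_lit 5) (nat_lit 133)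 (nat_lit 5) (nat_lit 128) (nat_lit 5) (nat_lit 462) (nat_lit 372) (nat_lit 306)) (XT.lf (nat_lit 0) (nat_lit 3771415793) (nat_lit 456) (nat_lit 5593090224) (nat_lit 76) (nat_lit 1840416653) (nat_lit 122) (nat_lit 5) (nat_lit 128) (nat_lit 5) (nat_lit 123) (nat_lit 5) (nat_lit 463) (nat_lit 372) (nat_lit 305)))))) (XT.nd (nat_lit 546) (nat_lit 988) (nat_lit 0) (XT.nd (nat_lit 234) (nat_lit 760) (nat_lit 0) (XT.nd (nat_lit 78) (nat_lit 456) (nat_lit 0) (XT.lf (nat_lit 0) (nat_lit 453526311) (nat_lit 380) (nat_lit 6122784658) (nat_lit 456) (nat_lit 4765212309) (nat_lit 117) (nat_lit 5) (nat_lit 122) (nat_lit 5) (nat_lit 123) (nat_lit 5) (nat_lit 464) (nat_lit 372) (nat_lit 304)) (XT.nd (nat_lit 78) (nat_lit 456) (nat_lit 0) (XT.lf (nat_lit 0) (nat_lit 6655136459) (nat_lit 380) (nat_lit 2790568041) (nat_lit 456) (nat_lit 2035003701) (nat_lit 117) (nat_lit 5) (nat_lit 122) (nat_lit 5) (nat_lit 123) (nat_lit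 5) (nat_lit 465) (nat_lit 372) (nat_lit 303)) (XT.lf (nat_lit 0) (nat_lit 723793624) (nat_lit 456) (nat_lit 10297628533) (nat_lit 76) (nat_lit 601500455) (nat_lit 111) (nat_lit 5) (nat_lit 117) (nat_lit 5) (nat_lit 112) (nat_lit 5) (nat_lit 466) (nat_lit 372) (nat_lit 302)))) (XT.nd (nat_lit 156) (nat_lit 456) (nat_lit 0) (XT.nd (nat_lit 78) (nat_lit 304) (nat_lit 0) (XT.lf (nat_lit 0) (nat_lit 3533066842) (nat_lit 456) (nat_lit 4176488968) (nat_lit 76) (nat_lit 4057724643) (nat_lit 111) (nat_lit 5) (nat_lit 117) (nat_lit 5) (nat_lit 112) (nat_lit 5) (nat_lit 467) (nat_lit 372) (nat_lit 301)) (XT.lf (nat_lit 0) (nat_lit 2053244675) (nat_lit 304) (nat_lit 4330617770) (nat_lit 380) (nat_lit 5530975033) (nat_lit 107) (nat_lit 5) (nat_lit 111) (nat_lit 5) (nat_lit 112) (nat_lit 5) (nat_lit 468) (nat_lit 372) (nat_lit 300))) (XT.nd (nat_lit 78) (nat_lit 456) (nat_lit 0) (XT.lf (nat_lit 0) (nat_lit 8423697155)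 (nat_lit 304) (nat_lit 868295161) (nat_lit 380) (nat_lit 2773365359) (nat_lit 107) (nat_lit 5) (nat_lit 111) (nat_lit 5) (nat_lit 112) (nat_lit 5) (nat_lit 469) (nat_lit 372) (nat_lit 299)) (XT.lf (nat_lit 0) (nat_lit 46359591) (nat_lit 456) (nat_lit 9538705629) (nat_lit 76) (nat_lit 2633686026) (nat_lit 101) (nat_lit 5) (nat_lit 107) (nat_lit 5) (nat_lit 102) (nat_lit 5) (nat_lit 470) (nat_lit 372) (nat_lit 298))))) (XT.nd (nat_lit 234) (nat_lit 684) (nat_lit 0) (XT.nd (nat_lit 78) (nat_lit 304) (nat_lit 0) (XT.lf (nat_lit 0) (nat_lit 2888560884) (nat_lit 456) (nat_lit 3261742566) (nat_lit 76) (nat_lit 6224495593) (nat_lit 101) (nat_lit 5) (nat_lit 107) (nat_lit 5) (nat_lit 102) (nat_lit 5) (nat_lit 471) (nat_lit 372) (nat_lit 297)) (XT.nd (nat_lit 78) (nat_lit 0) (nat_lit 0) (XT.lf (nat_lit 0) (nat_lit 3142474487) (nat_lit 304) (nat_lit 2638900329) (nat_lit 380) (nat_lit 6752734604) (nat_lit 97) (nat_lit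 5) (nat_lit 101) (nat_lit 5) (nat_lit 102) (nat_lit 5) (nat_lit 472) (nat_lit 372) (nat_lit 296)) (XT.lf (nat_lit 0) (nat_lit 8733748307) (nat_lit 380) (nat_lit 3023144321) (nat_lit 76) (nat_lit 939695975) (nat_lit 97) (nat_lit 5) (nat_lit 102) (nat_lit 5) (nat_lit 98) (nat_lit 5) (nat_lit 473) (nat_lit 372) (nat_lit 295)))) (XT.nd (nat_lit 156) (nat_lit 304) (nat_lit 0) (XT.nd (nat_lit 78) (nat_lit 76) (nat_lit 0) (XT.lf (nat_lit 0) (nat_lit 3461719499) (nat_lit 304) (nat_lit 8297469829) (nat_lit 380) (nat_lit 1102863977) (nat_lit 93) (nat_lit 5) (nat_lit 97) (nat_lit 5) (nat_lit 98) (nat_lit 5) (nat_lit 474) (nat_lit 372) (nat_lit 294)) (XT.lf (nat_lit 0) (nat_lit 1785077791) (nat_lit 380) (nat_lit 2964100345) (nat_lit 76) (nat_lit 8281538054) (nat_lit 92) (nat_lit 5) (nat_lit 97) (nat_lit 5) (nat_lit 93) (nat_lit 5) (nat_lit 475) (nat_lit 372) (nat_lit 293))) (XT.nd (nat_lit 78) (nat_lit 0) (nat_lit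 0) (XT.lf (nat_lit 0) (nat_lit 3602542406) (nat_lit 304) (nat_lit 1111519313) (nat_lit 380) (nat_lit 8488599195) (nat_lit 88) (nat_lit 5) (nat_lit 92) (nat_lit 5) (nat_lit 93) (nat_lit 5) (nat_lit 476) (nat_lit 372) (nat_lit 292)) (XT.lf (nat_lit 0) (nat_lit 7713334800) (nat_lit 380) (nat_lit 3092396297) (nat_lit 76) (nat_lit 2572094341) (nat_lit 88) (nat_lit 5) (nat_lit 93) (nat_lit 5) (nat_lit 89) (nat_lit 5) (nat_lit 477) (nat_lit 372) (nat_lit 291))))))) (XT.nd (nat_lit 1092) (nat_lit 1444) (nat_lit 0) (XT.nd (nat_lit 546) (nat_lit 836) (nat_lit 0) (XT.nd (nat_lit 234) (nat_lit 608) (nat_lit 0) (XT.nd (nat_lit 78) (nat_lit 304) (nat_lit 0) (XT.lf (nat_lit 0) (nat_lit 3546950661) (nat_lit 304) (nat_lit 7231340083) (nat_lit 380) (nat_lit 2778103355) (nat_lit 84) (nat_lit 5) (nat_lit 88) (nat_lit 5) (nat_lit 89) (nat_lit 5) (nat_lit 478) (nat_lit 372) (nat_lit 290)) (XT.nd (nat_lit 78) (nat_lit 228)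 (nat_lit 0) (XT.lf (nat_lit 0) (nat_lit 160095468) (nat_lit 380) (nat_lit 3416112692) (nat_lit 76) (nat_lit 10162393418) (nat_lit 83) (nat_lit 5) (nat_lit 88) (nat_lit 5) (nat_lit 84) (nat_lit 5) (nat_lit 479) (nat_lit 372) (nat_lit 289)) (XT.lf (nat_lit 0) (nat_lit 3118321673) (nat_lit 304) (nat_lit 10628435331) (nat_lit 76) (nat_lit 177373635) (nat_lit 80) (nat_lit 5) (nat_lit 84) (nat_lit 5) (nat_lit 81) (nat_lit 5) (nat_lit 480) (nat_lit 372) (nat_lit 288)))) (XT.nd (nat_lit 156) (nat_lit 304) (nat_lit 0) (XT.nd (nat_lit 78) (nat_lit 304) (nat_lit 0) (XT.lf (nat_lit 0) (nat_lit 6158477423) (nat_lit 304) (nat_lit 3985906171) (nat_lit 76) (nat_lit 3968545057) (nat_lit 80) (nat_lit 5) (nat_lit 84) (nat_lit 5) (nat_lit 81) (nat_lit 5) (nat_lit 481) (nat_lit 372) (nat_lit 287)) (XT.lf (nat_lit 0) (nat_lit 2789584143) (nat_lit 304) (nat_lit 6464440245) (nat_lit 380) (nat_lit 5051599876) (nat_lit 76) (nat_lit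 5) (nat_lit 80) (nat_lit 5) (nat_lit 81) (nat_lit 5) (nat_lit 482) (nat_lit 372) (nat_lit 286))) (XT.nd (nat_lit 78) (nat_lit 304) (nat_lit 0) (XT.lf (nat_lit 0) (nat_lit 9718378917) (nat_lit 304) (nat_lit 2696553161) (nat_lit 380) (nat_lit 2087185855) (nat_lit 76) (nat_lit 5) (nat_lit 80) (nat_lit 5) (nat_lit 81) (nat_lit 5) (nat_lit 483) (nat_lit 372) (nat_lit 285)) (XT.lf (nat_lit 0) (nat_lit 922149396) (nat_lit 304) (nat_lit 12641702926) (nat_lit 76) (nat_lit 1138621860) (nat_lit 72) (nat_lit 5) (nat_lit 76) (nat_lit 5) (nat_lit 73) (nat_lit 5) (nat_lit 484) (nat_lit 372) (nat_lit 284))))) (XT.nd (nat_lit 234) (nat_lit 532) (nat_lit 0) (XT.nd (nat_lit 78) (nat_lit 304) (nat_lit 0) (XT.lf (nat_lit 0) (nat_lit 3991053762) (nat_lit 304) (nat_lit 5867064164) (nat_lit 76) (nat_lit 5047909490) (nat_lit 72) (nat_lit 5) (nat_lit 76) (nat_lit 5) (nat_lit 73) (nat_lit 5) (nat_lit 485) (nat_lit 372) (nat_lit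 283)) (XT.nd (nat_lit 78) (nat_lit 0) (nat_lit 0) (XT.lf (nat_lit 0) (nat_lit 1021173749) (nat_lit 304) (nat_lit 6084372735) (nat_lit 380) (nat_lit 8008433163) (nat_lit 68) (nat_lit 5) (nat_lit 72) (nat_lit 5) (nat_lit 73) (nat_lit 5) (nat_lit 486) (nat_lit 372) (nat_lit 282)) (XT.lf (nat_lit 0) (nat_lit 8091651668) (nat_lit 304) (nat_lit 2207840624) (nat_lit 380) (nat_lit 5026267267) (nat_lit 68) (nat_lit 5) (nat_lit 72) (nat_lit 5) (nat_lit 73) (nat_lit 5) (nat_lit 487) (nat_lit 372) (nat_lit 281)))) (XT.nd (nat_lit 156) (nat_lit 228) (nat_lit 0) (XT.nd (nat_lit 78) (nat_lit 304) (nat_lit 0) (XT.lf (nat_lit 0) (nat_lit 13546800466) (nat_lit 380) (nat_lit 284305910) (nat_lit 76) (nat_lit 1710890691) (nat_lit 68) (nat_lit 5) (nat_lit 73) (nat_lit 5) (nat_lit 69) (nat_lit 5) (nat_lit 488) (nat_lit 372) (nat_lit 280)) (XT.lf (nat_lit 0) (nat_lit 1119994710) (nat_lit 304) (nat_lit 8923585706) (nat_lit 76)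 (nat_lit 5718090140) (nat_lit 64) (nat_lit 5) (nat_lit 68) (nat_lit 5) (nat_lit 65) (nat_lit 5) (nat_lit 489) (nat_lit 372) (nat_lit 279))) (XT.nd (nat_lit 78) (nat_lit 228) (nat_lit 0) (XT.lf (nat_lit 0) (nat_lit 4251342797) (nat_lit 304) (nat_lit 1926270335) (nat_lit 76) (nat_lit 9808260239) (nat_lit 64) (nat_lit 5) (nat_lit 68) (nat_lit 5) (nat_lit 65) (nat_lit 5) (nat_lit 490) (nat_lit 372) (nat_lit 278)) (XT.lf (nat_lit 0) (nat_lit 5246344778) (nat_lit 228) (nat_lit 2212078152) (nat_lit 304) (nat_lit 8755885989) (nat_lit 61) (nat_lit 5) (nat_lit 64) (nat_lit 5) (nat_lit 65) (nat_lit 5) (nat_lit 491) (nat_lit 372) (nat_lit 277)))))) (XT.nd (nat_lit 546) (nat_lit 684) (nat_lit 0) (XT.nd (nat_lit 234) (nat_lit 456) (nat_lit 0) (XT.nd (nat_lit 78) (nat_lit 304) (nat_lit 0) (XT.lf (nat_lit 0) (nat_lit 10733712632) (nat_lit 304) (nat_lit 3904094587) (nat_lit 76) (nat_lit 1809435168) (nat_lit 61) (nat_lit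 5) (nat_lit 65) (nat_lit 5) (nat_lit 62) (nat_lit 5) (nat_lit 492) (nat_lit 372) (nat_lit 276)) (XT.nd (nat_lit 78) (nat_lit 76) (nat_lit 0) (XT.lf (nat_lit 0) (nat_lit 3296720224) (nat_lit 228) (nat_lit 10793407145) (nat_lit 304) (nat_lit 2594405130) (nat_lit 58) (nat_lit 5) (nat_lit 61) (nat_lit 5) (nat_lit 62) (nat_lit 5) (nat_lit 493) (nat_lit 372) (nat_lit 275)) (XT.lf (nat_lit 0) (nat_lit 585383540) (nat_lit 304) (nat_lit 6268541484) (nat_lit 76) (nat_lit 10072457480) (nat_lit 57) (nat_lit 5) (nat_lit 61) (nat_lit 5) (nat_lit 58) (nat_lit 5) (nat_lit 494) (nat_lit 372) (nat_lit 274)))) (XT.nd (nat_lit 156) (nat_lit 228) (nat_lit 0) (XT.nd (nat_lit 78) (nat_lit 0) (nat_lit 0) (XT.lf (nat_lit 0) (nat_lit 956135821) (nat_lit 228) (nat_lit 2824142703) (nat_lit 304) (nat_lit 13392732775) (nat_lit 54) (nat_lit 5) (nat_lit 57) (nat_lit 5) (nat_lit 58) (nat_lit 5) (nat_lit 495) (nat_lit 372) (nat_lit 273))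 (XT.lf (nat_lit 0) (nat_lit 7069879005) (nat_lit 304) (nat_lit 9054532934) (nat_lit 76) (nat_lit 1299554149) (nat_lit 54) (nat_lit 5) (nat_lit 58) (nat_lit 5) (nat_lit 55) (nat_lit 5) (nat_lit 496) (nat_lit 372) (nat_lit 272))) (XT.nd (nat_lit 78) (nat_lit 228) (nat_lit 0) (XT.lf (nat_lit 0) (nat_lit 10424477088) (nat_lit 304) (nat_lit 1799460493) (nat_lit 76) (nat_lit 5456027663) (nat_lit 54) (nat_lit 5) (nat_lit 58) (nat_lit 5) (nat_lit 55) (nat_lit 5) (nat_lit 497) (nat_lit 372) (nat_lit 271)) (XT.lf (nat_lit 0) (nat_lit 5643539209) (nat_lit 228) (nat_lit 8220154484) (nat_lit 304) (nat_lit 4077049360) (nat_lit 51) (nat_lit 5) (nat_lit 54) (nat_lit 5) (nat_lit 55) (nat_lit 5) (nat_lit 498) (nat_lit 372) (nat_lit 270))))) (XT.nd (nat_lit 234) (nat_lit 380) (nat_lit 0) (XT.nd (nat_lit 78) (nat_lit 304) (nat_lit 0) (XT.lf (nat_lit 0) (nat_lit 13228806049) (nat_lit 228) (nat_lit 4136022500) (nat_lit 304)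 (nat_lit 842054209) (nat_lit 51) (nat_lit 5) (nat_lit 54) (nat_lit 5) (nat_lit 55) (nat_lit 5) (nat_lit 499) (nat_lit 372) (nat_lit 269)) (XT.nd (nat_lit 78) (nat_lit 0) (nat_lit 0) (XT.lf (nat_lit 0) (nat_lit 2423092867) (nat_lit 304) (nat_lit 16005136478) (nat_lit 76) (nat_lit 49851759) (nat_lit 47) (nat_lit 5) (nat_lit 51) (nat_lit 5) (nat_lit 48) (nat_lit 5) (nat_lit 500) (nat_lit 372) (nat_lit 268)) (XT.lf (nat_lit 0) (nat_lit 5784686068) (nat_lit 304) (nat_lit 8677493416) (nat_lit 76) (nat_lit 4291572748) (nat_lit 47) (nat_lit 5) (nat_lit 51) (nat_lit 5) (nat_lit 48) (nat_lit 5) (nat_lit 501) (nat_lit 372) (nat_lit 267)))) (XT.nd (nat_lit 156) (nat_lit 228) (nat_lit 0) (XT.nd (nat_lit 78) (nat_lit 152) (nat_lit 0) (XT.lf (nat_lit 0) (nat_lit 9195266158) (nat_lit 304) (nat_lit 1233429860) (nat_lit 76) (nat_lit 8606613995) (nat_lit 47) (nat_lit 5) (nat_lit 51) (nat_lit 5) (nat_lit 48) (nat_lit 5)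 (nat_lit 502) (nat_lit 372) (nat_lit 266)) (XT.lf (nat_lit 0) (nat_lit 6414095444) (nat_lit 152) (nat_lit 6283719739) (nat_lit 228) (nat_lit 6624216790) (nat_lit 45) (nat_lit 5) (nat_lit 47) (nat_lit 5) (nat_lit 48) (nat_lit 5) (nat_lit 503) (nat_lit 372) (nat_lit 265))) (XT.nd (nat_lit 78) (nat_lit 228) (nat_lit 0) (XT.lf (nat_lit 0) (nat_lit 14201943537) (nat_lit 152) (nat_lit 2059021574) (nat_lit 228) (nat_lit 3353720270) (nat_lit 45) (nat_lit 5) (nat_lit 47) (nat_lit 5) (nat_lit 48) (nat_lit 5) (nat_lit 504) (nat_lit 372) (nat_lit 264)) (XT.lf (nat_lit 0) (nat_lit 2217780499) (nat_lit 228) (nat_lit 17689153023) (nat_lit 304) (nat_lit 6035078) (nat_lit 42) (nat_lit 5) (nat_lit 45) (nat_lit 5) (nat_lit 46) (nat_lit 5) (nat_lit 505) (nat_lit 372) (nat_lit 263))))))))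
noncomputable def xc84 : XT := (XT.nd (nat_lit 51012) (nat_lit 0) (nat_lit 20976) (XT.nd (nat_lit 1014) (nat_lit 532) (nat_lit 0) (XT.nd (nat_lit 468) (nat_lit 456) (nat_lit 0) (XT.nd (nat_lit 234) (nat_lit 228) (nat_lit 0) (XT.nd (nat_lit 78) (nat_lit 152) (nat_lit 0) (XT.lf (nat_lit 0) (nat_lit 3396677419) (nat_lit 304) (nat_lit 10207315116) (nat_lit 76) (nat_lit 6612134314) (nat_lit 41) (nat_lit 5) (nat_lit 45) (nat_lit 5) (nat_lit 42) (nat_lit 5) (nat_lit 506) (nat_lit 372) (nat_lit 262)) (XT.nd (nat_lit 78) (nat_lit 152) (nat_lit 0) (XT.lf (nat_lit 0) (nat_lit 6850284273) (nat_lit 304) (nat_lit 2598255172) (nat_lit 76) (nat_lit 11077157002) (nat_lit 41) (nat_lit 5) (nat_lit 45) (nat_lit 5) (nat_lit 42) (nat_lit 5) (nat_lit 507) (nat_lit 372) (nat_lit 261)) (XT.lf (nat_lit 0) (nat_lit 5203256504) (nat_lit 152) (nat_lit 5186745478) (nat_lit 228) (nat_lit 10451121934) (nat_lit 39) (nat_lit 5) (nat_lit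 41) (nat_lit 5) (nat_lit 42) (nat_lit 5) (nat_lit 508) (nat_lit 372) (nat_lit 260)))) (XT.nd (nat_lit 78) (nat_lit 228) (nat_lit 0) (XT.lf (nat_lit 0) (nat_lit 13168231357) (nat_lit 152) (nat_lit 833121981) (nat_lit 228) (nat_lit 7161496922) (nat_lit 39) (nat_lit 5) (nat_lit 41) (nat_lit 5) (nat_lit 42) (nat_lit 5) (nat_lit 509) (nat_lit 372) (nat_lit 259)) (XT.nd (nat_lit 78) (nat_lit 228) (nat_lit 0) (XT.lf (nat_lit 0) (nat_lit 17692012303) (nat_lit 228) (nat_lit 249431591) (nat_lit 76) (nat_lit 3549432597) (nat_lit 39) (nat_lit 5) (nat_lit 42) (nat_lit 5) (nat_lit 40) (nat_lit 5) (nat_lit 510) (nat_lit 372) (nat_lit 258)) (XT.lf (nat_lit 0) (nat_lit 7719419557) (nat_lit 228) (nat_lit 13776680100) (nat_lit 304) (nat_lit 328578121) (nat_lit 36) (nat_lit 5) (nat_lit 39) (nat_lit 5) (nat_lit 40) (nat_lit 5) (nat_lit 511) (nat_lit 372) (nat_lit 257))))) (XT.nd (nat_lit 234) (nat_lit 228) (nat_lit 0) (XT.nd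 (nat_lit 78) (nat_lit 152) (nat_lit 0) (XT.lf (nat_lit 0) (nat_lit 3154690935) (nat_lit 304) (nat_lit 6361958377) (nat_lit 76) (nat_lit 12648381543) (nat_lit 35) (nat_lit 5) (nat_lit 39) (nat_lit 5) (nat_lit 36) (nat_lit 5) (nat_lit 512) (nat_lit 372) (nat_lit 256)) (XT.nd (nat_lit 78) (nat_lit 0) (nat_lit 0) (XT.lf (nat_lit 0) (nat_lit 1527589752) (nat_lit 152) (nat_lit 5169878492) (nat_lit 228) (nat_lit 15814800902) (nat_lit 33) (nat_lit 5) (nat_lit 35) (nat_lit 5) (nat_lit 36) (nat_lit 5) (nat_lit 513) (nat_lit 372) (nat_lit 255)) (XT.lf (nat_lit 0) (nat_lit 9634864739) (nat_lit 152) (nat_lit 703385417) (nat_lit 228) (nat_lit 12527665380) (nat_lit 33) (nat_lit 5) (nat_lit 35) (nat_lit 5) (nat_lit 36) (nat_lit 5) (nat_lit 514) (nat_lit 372) (nat_lit 254)))) (XT.nd (nat_lit 156) (nat_lit 76) (nat_lit 0) (XT.nd (nat_lit 78) (nat_lit 152) (nat_lit 0) (XT.lf (nat_lit 0) (nat_lit 14061553536) (nat_lit 228)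 (nat_lit 5373391077) (nat_lit 76) (nat_lit 3791502316) (nat_lit 33) (nat_lit 5) (nat_lit 36) (nat_lit 5) (nat_lit 34) (nat_lit 5) (nat_lit 515) (nat_lit 372) (nat_lit 253)) (XT.lf (nat_lit 0) (nat_lit 2645947232) (nat_lit 152) (nat_lit 15220206556) (nat_lit 228) (nat_lit 5727904615) (nat_lit 31) (nat_lit 5) (nat_lit 33) (nat_lit 5) (nat_lit 34) (nat_lit 5) (nat_lit 516) (nat_lit 372) (nat_lit 252))) (XT.nd (nat_lit 78) (nat_lit 76) (nat_lit 0) (XT.lf (nat_lit 0) (nat_lit 10873159424) (nat_lit 152) (nat_lit 10894867938) (nat_lit 228) (nat_lit 2200577068) (nat_lit 31) (nat_lit 5) (nat_lit 33) (nat_lit 5) (nat_lit 34) (nat_lit 5) (nat_lit 517) (nat_lit 372) (nat_lit 251)) (XT.lf (nat_lit 0) (nat_lit 1364283619) (nat_lit 228) (nat_lit 5119852149) (nat_lit 76) (nat_lit 17866623637) (nat_lit 30) (nat_lit 5) (nat_lit 33) (nat_lit 5) (nat_lit 31) (nat_lit 5) (nat_lit 518) (nat_lit 372) (nat_lit 250)))))) (XT.nd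 (nat_lit 546) (nat_lit 0) (nat_lit 0) (XT.nd (nat_lit 234) (nat_lit 380) (nat_lit 0) (XT.nd (nat_lit 78) (nat_lit 0) (nat_lit 0) (XT.lf (nat_lit 0) (nat_lit 3015667032) (nat_lit 152) (nat_lit 1960516399) (nat_lit 228) (nat_lit 19763984588) (nat_lit 28) (nat_lit 5) (nat_lit 30) (nat_lit 5) (nat_lit 31) (nat_lit 5) (nat_lit 519) (nat_lit 372) (nat_lit 249)) (XT.nd (nat_lit 78) (nat_lit 0) (nat_lit 0) (XT.lf (nat_lit 0) (nat_lit 8697792997) (nat_lit 228) (nat_lit 13795463283) (nat_lit 76) (nat_lit 2643364587) (nat_lit 28) (nat_lit 5) (nat_lit 31) (nat_lit 5) (nat_lit 29) (nat_lit 5) (nat_lit 520) (nat_lit 372) (nat_lit 248)) (XT.lf (nat_lit 0) (nat_lit 12492758065) (nat_lit 228) (nat_lit 5744972354) (nat_lit 76) (nat_lit 7303299277) (nat_lit 28) (nat_lit 5) (nat_lit 31) (nat_lit 5) (nat_lit 29) (nat_lit 5) (nat_lit 521) (nat_lit 372) (nat_lit 247)))) (XT.nd (nat_lit 156) (nat_lit 228) (nat_lit 0) (XT.nd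 (nat_lit 78) (nat_lit 0) (nat_lit 0) (XT.lf (nat_lit 0) (nat_lit 2475322122) (nat_lit 152) (nat_lit 13890587195) (nat_lit 228) (nat_lit 9587576930) (nat_lit 26) (nat_lit 5) (nat_lit 28) (nat_lit 5) (nat_lit 29) (nat_lit 5) (nat_lit 522) (nat_lit 372) (nat_lit 246)) (XT.lf (nat_lit 0) (nat_lit 10914382263) (nat_lit 152) (nat_lit 9427026181) (nat_lit 228) (nat_lit 6032290969) (nat_lit 26) (nat_lit 5) (nat_lit 28) (nat_lit 5) (nat_lit 29) (nat_lit 5) (nat_lit 523) (nat_lit 372) (nat_lit 245))) (XT.nd (nat_lit 78) (nat_lit 228) (nat_lit 0) (XT.lf (nat_lit 0) (nat_lit 19499169844) (nat_lit 152) (nat_lit 4883848749) (nat_lit 228) (nat_lit 2419571307) (nat_lit 26) (nat_lit 5) (nat_lit 28) (nat_lit 5) (nat_lit 29) (nat_lit 5) (nat_lit 524) (nat_lit 372) (nat_lit 244)) (XT.lf (nat_lit 0) (nat_lit 997681512) (nat_lit 152) (nat_lit 244374718) (nat_lit 228) (nat_lit 25997977542) (nat_lit 23) (nat_lit 5) (nat_lit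 25) (nat_lit 5) (nat_lit 26) (nat_lit 5) (nat_lit 525) (nat_lit 372) (nat_lit 243))))) (XT.nd (nat_lit 49140) (nat_lit 0) (nat_lit 40204) (XT.nd (nat_lit 78) (nat_lit 0) (nat_lit 0) (XT.lf (nat_lit 0) (nat_lit 5009843752) (nat_lit 228) (nat_lit 18189765834) (nat_lit 76) (nat_lit 4484995345) (nat_lit 23) (nat_lit 5) (nat_lit 26) (nat_lit 5) (nat_lit 24) (nat_lit 5) (nat_lit 526) (nat_lit 372) (nat_lit 242)) (XT.nd (nat_lit 48984) (nat_lit 0) (nat_lit 42180) (XT.lf (nat_lit 0) (nat_lit 8841686279) (nat_lit 228) (nat_lit 10000136085) (nat_lit 76) (nat_lit 9296475855) (nat_lit 23) (nat_lit 5) (nat_lit 26) (nat_lit 5) (nat_lit 24) (nat_lit 5) (nat_lit 527) (nat_lit 372) (nat_lit 241)) (XT.lf (nat_lit 0) (nat_lit 1629611671) (nat_lit 532) (nat_lit 11602407) (nat_lit 0) (nat_lit 1629611671) (nat_lit 578) (nat_lit 5) (nat_lit 585) (nat_lit 4) (nat_lit 578) (nat_lit 4) (nat_lit 394) (nat_lit 373) (nat_lit 373))))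 (XT.nd (nat_lit 156) (nat_lit 760) (nat_lit 0) (XT.nd (nat_lit 78) (nat_lit 684) (nat_lit 0) (XT.lf (nat_lit 0) (nat_lit 3565883086) (nat_lit 532) (nat_lit 2674146280) (nat_lit 532) (nat_lit 316597825) (nat_lit 571) (nat_lit 4) (nat_lit 578) (nat_lit 5) (nat_lit 578) (nat_lit 4) (nat_lit 395) (nat_lit 373) (nat_lit 372)) (XT.lf (nat_lit 0) (nat_lit 597597218) (nat_lit 608) (nat_lit 2009565003) (nat_lit 684) (nat_lit 3965826457) (nat_lit 562) (nat_lit 5) (nat_lit 570) (nat_lit 5) (nat_lit 571) (nat_lit 4) (nat_lit 396) (nat_lit 373) (nat_lit 371))) (XT.nd (nat_lit 78) (nat_lit 760) (nat_lit 0) (XT.lf (nat_lit 0) (nat_lit 4248614111) (nat_lit 608) (nat_lit 1287765371) (nat_lit 684) (nat_lit 1054349987) (nat_lit 562) (nat_lit 5) (nat_lit 570) (nat_lit 5) (nat_lit 571) (nat_lit 4) (nat_lit 397) (nat_lit 373) (nat_lit 370)) (XT.lf (nat_lit 0) (nat_lit 1321123637) (nat_lit 684) (nat_lit 509639685) (nat_lit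 760) (nat_lit 4779116244) (nat_lit 552) (nat_lit 5) (nat_lit 561) (nat_lit 5) (nat_lit 562) (nat_lit 5) (nat_lit 398) (nat_lit 373) (nat_lit 369))))))) (XT.nd (nat_lit 1014) (nat_lit 11932) (nat_lit 0) (XT.nd (nat_lit 468) (nat_lit 4636) (nat_lit 0) (XT.nd (nat_lit 234) (nat_lit 1824) (nat_lit 0) (XT.nd (nat_lit 78) (nat_lit 836) (nat_lit 0) (XT.lf (nat_lit 0) (nat_lit 4710244951) (nat_lit 760) (nat_lit 1597514378) (nat_lit 76) (nat_lit 322609805) (nat_lit 552) (nat_lit 5) (nat_lit 562) (nat_lit 5) (nat_lit 553) (nat_lit 4) (nat_lit 399) (nat_lit 373) (nat_lit 368)) (XT.nd (nat_lit 78) (nat_lit 0) (nat_lit 0) (XT.lf (nat_lit 0) (nat_lit 934271769) (nat_lit 836) (nat_lit 4514091608) (nat_lit 76) (nat_lit 1203857222) (nat_lit 541) (nat_lit 5) (nat_lit 552) (nat_lit 5) (nat_lit 542) (nat_lit 5) (nat_lit 400) (nat_lit 373) (nat_lit 367)) (XT.lf (nat_lit 0) (nat_lit 3765720808) (nat_lit 836) (nat_lit 765500032)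 (nat_lit 76) (nat_lit 2144225998) (nat_lit 541) (nat_lit 5) (nat_lit 552) (nat_lit 5) (nat_lit 542) (nat_lit 5) (nat_lit 401) (nat_lit 373) (nat_lit 366)))) (XT.nd (nat_lit 78) (nat_lit 988) (nat_lit 0) (XT.lf (nat_lit 0) (nat_lit 3050464643) (nat_lit 836) (nat_lit 3559277510) (nat_lit 912) (nat_lit 90379614) (nat_lit 530) (nat_lit 5) (nat_lit 541) (nat_lit 5) (nat_lit 542) (nat_lit 5) (nat_lit 402) (nat_lit 373) (nat_lit 365)) (XT.nd (nat_lit 78) (nat_lit 0) (nat_lit 0) (XT.lf (nat_lit 0) (nat_lit 163731738) (nat_lit 912) (nat_lit 2527892031) (nat_lit 988) (nat_lit 4034547762) (nat_lit 517) (nat_lit 5) (nat_lit 529) (nat_lit 5) (nat_lit 530) (nat_lit 5) (nat_lit 403) (nat_lit 373) (nat_lit 364)) (XT.lf (nat_lit 0) (nat_lit 4054336323) (nat_lit 912) (nat_lit 1435708182) (nat_lit 988) (nat_lit 1263543179) (nat_lit 517) (nat_lit 5) (nat_lit 529) (nat_lit 5) (nat_lit 530) (nat_lit 5) (nat_lit 404) (nat_lit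 373) (nat_lit 363))))) (XT.nd (nat_lit 234) (nat_lit 2432) (nat_lit 0) (XT.nd (nat_lit 78) (nat_lit 1140) (nat_lit 0) (XT.lf (nat_lit 0) (nat_lit 1198884823) (nat_lit 988) (nat_lit 289508080) (nat_lit 1064) (nat_lit 5294129456) (nat_lit 503) (nat_lit 5) (nat_lit 516) (nat_lit 5) (nat_lit 517) (nat_lit 5) (nat_lit 405) (nat_lit 373) (nat_lit 362)) (XT.nd (nat_lit 78) (nat_lit 1140) (nat_lit 0) (XT.lf (nat_lit 0) (nat_lit 4241622705) (nat_lit 1064) (nat_lit 1663272034) (nat_lit 76) (nat_lit 907801961) (nat_lit 503) (nat_lit 5) (nat_lit 517) (nat_lit 5) (nat_lit 504) (nat_lit 5) (nat_lit 406) (nat_lit 373) (nat_lit 361)) (XT.lf (nat_lit 0) (nat_lit 160723567) (nat_lit 1140) (nat_lit 4529529170) (nat_lit 76) (nat_lit 2154143154) (nat_lit 488) (nat_lit 5) (nat_lit 503) (nat_lit 5) (nat_lit 489) (nat_lit 5) (nat_lit 407) (nat_lit 373) (nat_lit 360)))) (XT.nd (nat_lit 156) (nat_lit 1292) (nat_lit 0) (XT.nd (nat_lit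 78) (nat_lit 1140) (nat_lit 0) (XT.lf (nat_lit 0) (nat_lit 2864786521) (nat_lit 1140) (nat_lit 547061904) (nat_lit 76) (nat_lit 3465585835) (nat_lit 488) (nat_lit 5) (nat_lit 503) (nat_lit 5) (nat_lit 489) (nat_lit 5) (nat_lit 408) (nat_lit 373) (nat_lit 359)) (XT.lf (nat_lit 0) (nat_lit 3513517954) (nat_lit 1140) (nat_lit 2074174466) (nat_lit 1216) (nat_lit 1324230266) (nat_lit 473) (nat_lit 5) (nat_lit 488) (nat_lit 5) (nat_lit 489) (nat_lit 5) (nat_lit 409) (nat_lit 373) (nat_lit 358))) (XT.nd (nat_lit 78) (nat_lit 0) (nat_lit 0) (XT.lf (nat_lit 0) (nat_lit 667063882) (nat_lit 1216) (nat_lit 682641335) (nat_lit 1292) (nat_lit 5598285851) (nat_lit 456) (nat_lit 5) (nat_lit 472) (nat_lit 5) (nat_lit 473) (nat_lit 5) (nat_lit 410) (nat_lit 373) (nat_lit 357)) (XT.lf (nat_lit 0) (nat_lit 4030342943) (nat_lit 1292) (nat_lit 2187230957) (nat_lit 76) (nat_lit 767692404) (nat_lit 456) (nat_lit 5) (nat_lit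 473) (nat_lit 5) (nat_lit 457) (nat_lit 5) (nat_lit 411) (nat_lit 373) (nat_lit 356)))))) (XT.nd (nat_lit 546) (nat_lit 6080) (nat_lit 0) (XT.nd (nat_lit 234) (nat_lit 3116) (nat_lit 0) (XT.nd (nat_lit 78) (nat_lit 1444) (nat_lit 0) (XT.lf (nat_lit 0) (nat_lit 1961395062) (nat_lit 1292) (nat_lit 4764766583) (nat_lit 1368) (nat_lit 297972122) (nat_lit 439) (nat_lit 5) (nat_lit 456) (nat_lit 5) (nat_lit 457) (nat_lit 5) (nat_lit 412) (nat_lit 373) (nat_lit 355)) (XT.nd (nat_lit 78) (nat_lit 1368) (nat_lit 0) (XT.lf (nat_lit 0) (nat_lit 2339912385) (nat_lit 1368) (nat_lit 905242389) (nat_lit 76) (nat_lit 3819197045) (nat_lit 438) (nat_lit 5) (nat_lit 456) (nat_lit 5) (nat_lit 439) (nat_lit 5) (nat_lit 413) (nat_lit 373) (nat_lit 354)) (XT.lf (nat_lit 0) (nat_lit 3329408890) (nat_lit 1368) (nat_lit 1664516438) (nat_lit 1444) (nat_lit 2112135885) (nat_lit 420) (nat_lit 5) (nat_lit 438) (nat_lit 5) (nat_lit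 439) (nat_lit 5) (nat_lit 414) (nat_lit 373) (nat_lit 353)))) (XT.nd (nat_lit 156) (nat_lit 1596) (nat_lit 0) (XT.nd (nat_lit 78) (nat_lit 0) (nat_lit 0) (XT.lf (nat_lit 0) (nat_lit 466875874) (nat_lit 1444) (nat_lit 33509952) (nat_lit 1520) (nat_lit 6649113619) (nat_lit 400) (nat_lit 5) (nat_lit 419) (nat_lit 5) (nat_lit 420) (nat_lit 5) (nat_lit 415) (nat_lit 373) (nat_lit 352)) (XT.lf (nat_lit 0) (nat_lit 3119850271) (nat_lit 1520) (nat_lit 2420582619) (nat_lit 76) (nat_lit 1653504190) (nat_lit 400) (nat_lit 5) (nat_lit 420) (nat_lit 5) (nat_lit 401) (nat_lit 5) (nat_lit 416) (nat_lit 373) (nat_lit 351))) (XT.nd (nat_lit 78) (nat_lit 76) (nat_lit 0) (XT.lf (nat_lit 0) (nat_lit 1903389640) (nat_lit 1520) (nat_lit 3848788863) (nat_lit 1596) (nat_lit 1487943455) (nat_lit 380) (nat_lit 5) (nat_lit 400) (nat_lit 5) (nat_lit 401) (nat_lit 5) (nat_lit 417) (nat_lit 373) (nat_lit 350)) (XT.lf (nat_lit 0) (nat_lit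 1099392409) (nat_lit 1596) (nat_lit 996314816) (nat_lit 76) (nat_lit 5192148304) (nat_lit 379) (nat_lit 5) (nat_lit 400) (nat_lit 5) (nat_lit 380) (nat_lit 5) (nat_lit 418) (nat_lit 373) (nat_lit 349))))) (XT.nd (nat_lit 234) (nat_lit 2736) (nat_lit 0) (XT.nd (nat_lit 78) (nat_lit 1748) (nat_lit 0) (XT.lf (nat_lit 0) (nat_lit 3418351660) (nat_lit 1596) (nat_lit 271628415) (nat_lit 1672) (nat_lit 3647002477) (nat_lit 358) (nat_lit 5) (nat_lit 379) (nat_lit 5) (nat_lit 380) (nat_lit 5) (nat_lit 419) (nat_lit 373) (nat_lit 348)) (XT.nd (nat_lit 78) (nat_lit 76) (nat_lit 0) (XT.lf (nat_lit 0) (nat_lit 495690438) (nat_lit 1672) (nat_lit 5806877485) (nat_lit 1748) (nat_lit 1085183226) (nat_lit 336) (nat_lit 5) (nat_lit 358) (nat_lit 5) (nat_lit 359) (nat_lit 5) (nat_lit 420) (nat_lit 373) (nat_lit 347)) (XT.lf (nat_lit 0) (nat_lit 1486309124) (nat_lit 1748) (nat_lit 2448198510) (nat_lit 76) (nat_lit 3505319946)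 (nat_lit 335) (nat_lit 5) (nat_lit 358) (nat_lit 5) (nat_lit 336) (nat_lit 5) (nat_lit 421) (nat_lit 373) (nat_lit 346)))) (XT.nd (nat_lit 156) (nat_lit 1748) (nat_lit 0) (XT.nd (nat_lit 78) (nat_lit 0) (nat_lit 0) (XT.lf (nat_lit 0) (nat_lit 2056569099) (nat_lit 988) (nat_lit 2002680117) (nat_lit 1064) (nat_lit 3434321074) (nat_lit 322) (nat_lit 5) (nat_lit 335) (nat_lit 5) (nat_lit 336) (nat_lit 5) (nat_lit 422) (nat_lit 373) (nat_lit 345)) (XT.lf (nat_lit 0) (nat_lit 6637174767) (nat_lit 988) (nat_lit 14733525) (nat_lit 1064) (nat_lit 897172378) (nat_lit 322) (nat_lit 5) (nat_lit 335) (nat_lit 5) (nat_lit 336) (nat_lit 5) (nat_lit 423) (nat_lit 373) (nat_lit 344))) (XT.nd (nat_lit 78) (nat_lit 836) (nat_lit 0) (XT.lf (nat_lit 0) (nat_lit 1658239545) (nat_lit 912) (nat_lit 3925353584) (nat_lit 76) (nat_lit 2022150464) (nat_lit 310) (nat_lit 5) (nat_lit 322) (nat_lit 5) (nat_lit 311) (nat_lit 5) (nat_lit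 424) (nat_lit 373) (nat_lit 343)) (XT.lf (nat_lit 0) (nat_lit 668275332) (nat_lit 836) (nat_lit 3548115129) (nat_lit 912) (nat_lit 3447812500) (nat_lit 299) (nat_lit 5) (nat_lit 310) (nat_lit 5) (nat_lit 311) (nat_lit 5) (nat_lit 425) (nat_lit 373) (nat_lit 342))))))))
noncomputable def xc85 : XT := (XT.nd (nat_lit 2106) (nat_lit 5776) (nat_lit 0) (XT.nd (nat_lit 1014) (nat_lit 5396) (nat_lit 0) (XT.nd (nat_lit 468) (nat_lit 2888) (nat_lit 0) (XT.nd (nat_lit 234) (nat_lit 1520) (nat_lit 0) (XT.nd (nat_lit 78) (nat_lit 836) (nat_lit 0) (XT.lf (nat_lit 0) (nat_lit 5359415902) (nat_lit 836) (nat_lit 1446277992) (nat_lit 912) (nat_lit 918591435) (nat_lit 299) (nat_lit 5) (nat_lit 310) (nat_lit 5) (nat_lit 311) (nat_lit 5) (nat_lit 426) (nat_lit 373) (nat_lit 341)) (XT.nd (nat_lit 78) (nat_lit 0) (nat_lit 0) (XT.lf (nat_lit 0) (nat_lit 1613458821) (nat_lit 836) (nat_lit 5459407328) (nat_lit 76) (nat_lit 713058364)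 (nat_lit 288) (nat_lit 5) (nat_lit 299) (nat_lit 5) (nat_lit 289) (nat_lit 5) (nat_lit 427) (nat_lit 373) (nat_lit 340)) (XT.lf (nat_lit 0) (nat_lit 4164199923) (nat_lit 836) (nat_lit 768386928) (nat_lit 76) (nat_lit 2916531705) (nat_lit 288) (nat_lit 5) (nat_lit 299) (nat_lit 5) (nat_lit 289) (nat_lit 5) (nat_lit 428) (nat_lit 373) (nat_lit 339)))) (XT.nd (nat_lit 78) (nat_lit 760) (nat_lit 0) (XT.lf (nat_lit 0) (nat_lit 4022216447) (nat_lit 760) (nat_lit 2725526519) (nat_lit 836) (nat_lit 1166247292) (nat_lit 278) (nat_lit 5) (nat_lit 288) (nat_lit 5) (nat_lit 289) (nat_lit 5) (nat_lit 429) (nat_lit 373) (nat_lit 338)) (XT.nd (nat_lit 78) (nat_lit 0) (nat_lit 0) (XT.lf (nat_lit 0) (nat_lit 894263661) (nat_lit 684) (nat_lit 457033045) (nat_lit 760) (nat_lit 6629390182) (nat_lit 268) (nat_lit 5) (nat_lit 277) (nat_lit 5) (nat_lit 278) (nat_lit 5) (nat_lit 430) (nat_lit 373) (nat_lit 337)) (XT.lf (nat_lit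 0) (nat_lit 3898372335) (nat_lit 760) (nat_lit 2287269189) (nat_lit 76) (nat_lit 1863072475) (nat_lit 268) (nat_lit 5) (nat_lit 278) (nat_lit 5) (nat_lit 269) (nat_lit 5) (nat_lit 431) (nat_lit 373) (nat_lit 336))))) (XT.nd (nat_lit 234) (nat_lit 1368) (nat_lit 0) (XT.nd (nat_lit 78) (nat_lit 760) (nat_lit 0) (XT.lf (nat_lit 0) (nat_lit 2591875568) (nat_lit 760) (nat_lit 3881660585) (nat_lit 836) (nat_lit 1645068315) (nat_lit 258) (nat_lit 5) (nat_lit 268) (nat_lit 5) (nat_lit 269) (nat_lit 5) (nat_lit 432) (nat_lit 373) (nat_lit 335)) (XT.nd (nat_lit 78) (nat_lit 684) (nat_lit 0) (XT.lf (nat_lit 0) (nat_lit 871324811) (nat_lit 836) (nat_lit 643248368) (nat_lit 76) (nat_lit 6675786268) (nat_lit 257) (nat_lit 5) (nat_lit 268) (nat_lit 5) (nat_lit 258) (nat_lit 5) (nat_lit 433) (nat_lit 373) (nat_lit 334)) (XT.lf (nat_lit 0) (nat_lit 3408608124) (nat_lit 760) (nat_lit 3932152112) (nat_lit 76) (nat_lit 922763125)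 (nat_lit 248) (nat_lit 5) (nat_lit 258) (nat_lit 5) (nat_lit 249) (nat_lit 5) (nat_lit 434) (nat_lit 373) (nat_lit 333)))) (XT.nd (nat_lit 156) (nat_lit 608) (nat_lit 0) (XT.nd (nat_lit 78) (nat_lit 76) (nat_lit 0) (XT.lf (nat_lit 0) (nat_lit 1032764043) (nat_lit 684) (nat_lit 4943776315) (nat_lit 760) (nat_lit 2362054395) (nat_lit 239) (nat_lit 5) (nat_lit 248) (nat_lit 5) (nat_lit 249) (nat_lit 5) (nat_lit 435) (nat_lit 373) (nat_lit 332)) (XT.lf (nat_lit 0) (nat_lit 163873155) (nat_lit 760) (nat_lit 2312845069) (nat_lit 76) (nat_lit 5938754933) (nat_lit 238) (nat_lit 5) (nat_lit 248) (nat_lit 5) (nat_lit 239) (nat_lit 5) (nat_lit 436) (nat_lit 373) (nat_lit 331))) (XT.nd (nat_lit 78) (nat_lit 0) (nat_lit 0) (XT.lf (nat_lit 0) (nat_lit 2686864873) (nat_lit 684) (nat_lit 5740235377) (nat_lit 76) (nat_lit 66952971) (nat_lit 230) (nat_lit 5) (nat_lit 239) (nat_lit 5) (nat_lit 231) (nat_lit 5) (nat_lit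 437) (nat_lit 373) (nat_lit 330)) (XT.lf (nat_lit 0) (nat_lit 5252612045) (nat_lit 684) (nat_lit 683935658) (nat_lit 76) (nat_lit 2637850318) (nat_lit 230) (nat_lit 5) (nat_lit 239) (nat_lit 5) (nat_lit 231) (nat_lit 5) (nat_lit 438) (nat_lit 373) (nat_lit 329)))))) (XT.nd (nat_lit 546) (nat_lit 2204) (nat_lit 0) (XT.nd (nat_lit 234) (nat_lit 1824) (nat_lit 0) (XT.nd (nat_lit 78) (nat_lit 684) (nat_lit 0) (XT.lf (nat_lit 0) (nat_lit 4486546101) (nat_lit 684) (nat_lit 3373307025) (nat_lit 760) (nat_lit 796731291) (nat_lit 221) (nat_lit 5) (nat_lit 230) (nat_lit 5) (nat_lit 231) (nat_lit 5) (nat_lit 439) (nat_lit 373) (nat_lit 328)) (XT.nd (nat_lit 78) (nat_lit 0) (nat_lit 0) (XT.lf (nat_lit 0) (nat_lit 984683602) (nat_lit 608) (nat_lit 743050333) (nat_lit 684) (nat_lit 7013041630) (nat_lit 212) (nat_lit 5) (nat_lit 220) (nat_lit 5) (nat_lit 221) (nat_lit 5) (nat_lit 440) (nat_lit 373) (nat_lit 327)) (XT.lf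 (nat_lit 0) (nat_lit 4294434239) (nat_lit 684) (nat_lit 2591609070) (nat_lit 76) (nat_lit 1940489695) (nat_lit 212) (nat_lit 5) (nat_lit 221) (nat_lit 5) (nat_lit 213) (nat_lit 5) (nat_lit 441) (nat_lit 373) (nat_lit 326)))) (XT.nd (nat_lit 156) (nat_lit 1140) (nat_lit 0) (XT.nd (nat_lit 78) (nat_lit 76) (nat_lit 0) (XT.lf (nat_lit 0) (nat_lit 2660559978) (nat_lit 608) (nat_lit 4236496707) (nat_lit 684) (nat_lit 2017292506) (nat_lit 204) (nat_lit 5) (nat_lit 212) (nat_lit 5) (nat_lit 213) (nat_lit 5) (nat_lit 442) (nat_lit 373) (nat_lit 325)) (XT.lf (nat_lit 0) (nat_lit 520687731) (nat_lit 684) (nat_lit 1000151568) (nat_lit 76) (nat_lit 7483444011) (nat_lit 203) (nat_lit 5) (nat_lit 212) (nat_lit 5) (nat_lit 204) (nat_lit 5) (nat_lit 443) (nat_lit 373) (nat_lit 324))) (XT.nd (nat_lit 78) (nat_lit 608) (nat_lit 0) (XT.lf (nat_lit 0) (nat_lit 3082355871) (nat_lit 608) (nat_lit 4746845450) (nat_lit 76) (nat_lit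 1266582631) (nat_lit 196) (nat_lit 5) (nat_lit 204) (nat_lit 5) (nat_lit 197) (nat_lit 5) (nat_lit 444) (nat_lit 373) (nat_lit 323)) (XT.lf (nat_lit 0) (nat_lit 581782664) (nat_lit 608) (nat_lit 5097746253) (nat_lit 684) (nat_lit 3509932932) (nat_lit 188) (nat_lit 5) (nat_lit 196) (nat_lit 5) (nat_lit 197) (nat_lit 5) (nat_lit 445) (nat_lit 373) (nat_lit 322))))) (XT.nd (nat_lit 234) (nat_lit 1596) (nat_lit 0) (XT.nd (nat_lit 78) (nat_lit 608) (nat_lit 0) (XT.lf (nat_lit 0) (nat_lit 6036307625) (nat_lit 608) (nat_lit 2288278199) (nat_lit 684) (nat_lit 960540703) (nat_lit 188) (nat_lit 5) (nat_lit 196) (nat_lit 5) (nat_lit 197) (nat_lit 5) (nat_lit 446) (nat_lit 373) (nat_lit 321)) (XT.nd (nat_lit 78) (nat_lit 0) (nat_lit 0) (XT.lf (nat_lit 0) (nat_lit 1600936324) (nat_lit 608) (nat_lit 7196138582) (nat_lit 76) (nat_lit 585795366) (nat_lit 180) (nat_lit 5) (nat_lit 188) (nat_lit 5) (nat_lit 181) (nat_lit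 5) (nat_lit 447) (nat_lit 373) (nat_lit 320)) (XT.lf (nat_lit 0) (nat_lit 4202767065) (nat_lit 608) (nat_lit 1773778184) (nat_lit 76) (nat_lit 3505887125) (nat_lit 180) (nat_lit 5) (nat_lit 188) (nat_lit 5) (nat_lit 181) (nat_lit 5) (nat_lit 448) (nat_lit 373) (nat_lit 319)))) (XT.nd (nat_lit 156) (nat_lit 1064) (nat_lit 0) (XT.nd (nat_lit 78) (nat_lit 0) (nat_lit 0) (XT.lf (nat_lit 0) (nat_lit 3762237059) (nat_lit 532) (nat_lit 3084387012) (nat_lit 608) (nat_lit 2737591447) (nat_lit 173) (nat_lit 5) (nat_lit 180) (nat_lit 5) (nat_lit 181) (nat_lit 5) (nat_lit 449) (nat_lit 373) (nat_lit 318)) (XT.lf (nat_lit 0) (nat_lit 9389172222) (nat_lit 532) (nat_lit 132042267) (nat_lit 608) (nat_lit 167291722) (nat_lit 173) (nat_lit 5) (nat_lit 180) (nat_lit 5) (nat_lit 181) (nat_lit 5) (nat_lit 450) (nat_lit 373) (nat_lit 317))) (XT.nd (nat_lit 78) (nat_lit 532) (nat_lit 0) (XT.lf (nat_lit 0) (nat_lit 2442261600)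 (nat_lit 532) (nat_lit 4469074855) (nat_lit 76) (nat_lit 2882854681) (nat_lit 166) (nat_lit 5) (nat_lit 173) (nat_lit 5) (nat_lit 167) (nat_lit 5) (nat_lit 451) (nat_lit 373) (nat_lit 316)) (XT.lf (nat_lit 0) (nat_lit 1133228900) (nat_lit 532) (nat_lit 3945479639) (nat_lit 608) (nat_lit 4823747589) (nat_lit 159) (nat_lit 5) (nat_lit 166) (nat_lit 5) (nat_lit 167) (nat_lit 5) (nat_lit 452) (nat_lit 373) (nat_lit 315))))))) (XT.nd (nat_lit 1092) (nat_lit 2508) (nat_lit 0) (XT.nd (nat_lit 546) (nat_lit 1292) (nat_lit 0) (XT.nd (nat_lit 234) (nat_lit 1444) (nat_lit 0) (XT.nd (nat_lit 78) (nat_lit 532) (nat_lit 0) (XT.lf (nat_lit 0) (nat_lit 6864644909) (nat_lit 532) (nat_lit 900286421) (nat_lit 608) (nat_lit 2248040956) (nat_lit 159) (nat_lit 5) (nat_lit 166) (nat_lit 5) (nat_lit 167) (nat_lit 5) (nat_lit 453) (nat_lit 373) (nat_lit 314)) (XT.nd (nat_lit 78) (nat_lit 0) (nat_lit 0) (XT.lf (nat_lit 0) (nat_lit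 372756459) (nat_lit 532) (nat_lit 7567213978) (nat_lit 76) (nat_lit 2185733860) (nat_lit 152) (nat_lit 5) (nat_lit 159) (nat_lit 5) (nat_lit 153) (nat_lit 5) (nat_lit 454) (nat_lit 373) (nat_lit 313)) (XT.lf (nat_lit 0) (nat_lit 3010879558) (nat_lit 532) (nat_lit 1882571587) (nat_lit 76) (nat_lit 5347067648) (nat_lit 152) (nat_lit 5) (nat_lit 159) (nat_lit 5) (nat_lit 153) (nat_lit 5) (nat_lit 455) (nat_lit 373) (nat_lit 312)))) (XT.nd (nat_lit 156) (nat_lit 988) (nat_lit 0) (XT.nd (nat_lit 78) (nat_lit 0) (nat_lit 0) (XT.lf (nat_lit 0) (nat_lit 3924653650) (nat_lit 456) (nat_lit 1770979058) (nat_lit 532) (nat_lit 4662144280) (nat_lit 146) (nat_lit 5) (nat_lit 152) (nat_lit 5) (nat_lit 153) (nat_lit 5) (nat_lit 456) (nat_lit 373) (nat_lit 311)) (XT.lf (nat_lit 0) (nat_lit 8424637602) (nat_lit 532) (nat_lit 655729858) (nat_lit 76) (nat_lit 1397226028) (nat_lit 146) (nat_lit 5) (nat_lit 153) (nat_lit 5)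 (nat_lit 147) (nat_lit 5) (nat_lit 457) (nat_lit 373) (nat_lit 310))) (XT.nd (nat_lit 78) (nat_lit 456) (nat_lit 0) (XT.lf (nat_lit 0) (nat_lit 615617501) (nat_lit 532) (nat_lit 5351249372) (nat_lit 76) (nat_lit 4632580161) (nat_lit 139) (nat_lit 5) (nat_lit 146) (nat_lit 5) (nat_lit 140) (nat_lit 5) (nat_lit 458) (nat_lit 373) (nat_lit 309)) (XT.lf (nat_lit 0) (nat_lit 506264742) (nat_lit 456) (nat_lit 2780931905) (nat_lit 532) (nat_lit 7436750009) (nat_lit 133) (nat_lit 5) (nat_lit 139) (nat_lit 5) (nat_lit 140) (nat_lit 5) (nat_lit 459) (nat_lit 373) (nat_lit 308))))) (XT.nd (nat_lit 234) (nat_lit 836) (nat_lit 0) (XT.nd (nat_lit 78) (nat_lit 456) (nat_lit 0) (XT.lf (nat_lit 0) (nat_lit 6021032127) (nat_lit 532) (nat_lit 4342500404) (nat_lit 76) (nat_lit 487249672) (nat_lit 133) (nat_lit 5) (nat_lit 140) (nat_lit 5) (nat_lit 134) (nat_lit 5) (nat_lit 460) (nat_lit 373) (nat_lit 307)) (XT.nd (nat_lit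 78) (nat_lit 76) (nat_lit 0) (XT.lf (nat_lit 0) (nat_lit 1611264706) (nat_lit 380) (nat_lit 7197387172) (nat_lit 456) (nat_lit 2171542417) (nat_lit 128) (nat_lit 5) (nat_lit 133) (nat_lit 5) (nat_lit 134) (nat_lit 5) (nat_lit 461) (nat_lit 373) (nat_lit 306)) (XT.lf (nat_lit 0) (nat_lit 532411127) (nat_lit 456) (nat_lit 3414117708) (nat_lit 76) (nat_lit 7165623597) (nat_lit 127) (nat_lit 5) (nat_lit 133) (nat_lit 5) (nat_lit 128) (nat_lit 5) (nat_lit 462) (nat_lit 373) (nat_lit 305)))) (XT.nd (nat_lit 156) (nat_lit 456) (nat_lit 0) (XT.nd (nat_lit 78) (nat_lit 0) (nat_lit 0) (XT.lf (nat_lit 0) (nat_lit 2639063453) (nat_lit 380) (nat_lit 610375113) (nat_lit 456) (nat_lit 7997283369) (nat_lit 122) (nat_lit 5) (nat_lit 127) (nat_lit 5) (nat_lit 128) (nat_lit 5) (nat_lit 463) (nat_lit 373) (nat_lit 304)) (XT.lf (nat_lit 0) (nat_lit 6033138551) (nat_lit 456) (nat_lit 2583426527) (nat_lit 76) (nat_lit 2767191425)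 (nat_lit 122) (nat_lit 5) (nat_lit 128) (nat_lit 5) (nat_lit 123) (nat_lit 5) (nat_lit 464) (nat_lit 373) (nat_lit 303))) (XT.nd (nat_lit 78) (nat_lit 76) (nat_lit 0) (XT.lf (nat_lit 0) (nat_lit 3563585987) (nat_lit 380) (nat_lit 5307810803) (nat_lit 456) (nat_lit 2652177200) (nat_lit 117) (nat_lit 5) (nat_lit 122) (nat_lit 5) (nat_lit 123) (nat_lit 5) (nat_lit 465) (nat_lit 373) (nat_lit 302)) (XT.lf (nat_lit 0) (nat_lit 88163165) (nat_lit 456) (nat_lit 1838576039) (nat_lit 76) (nat_lit 9739669842) (nat_lit 116) (nat_lit 5) (nat_lit 122) (nat_lit 5) (nat_lit 117) (nat_lit 5) (nat_lit 466) (nat_lit 373) (nat_lit 301)))))) (XT.nd (nat_lit 546) (nat_lit 1064) (nat_lit 0) (XT.nd (nat_lit 234) (nat_lit 760) (nat_lit 0) (XT.nd (nat_lit 78) (nat_lit 304) (nat_lit 0) (XT.lf (nat_lit 0) (nat_lit 2858892246) (nat_lit 456) (nat_lit 7416108297) (nat_lit 76) (nat_lit 1536546517) (nat_lit 111) (nat_lit 5) (nat_lit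 117) (nat_lit 5) (nat_lit 112) (nat_lit 5) (nat_lit 467) (nat_lit 373) (nat_lit 300)) (XT.nd (nat_lit 78) (nat_lit 304) (nat_lit 0) (XT.lf (nat_lit 0) (nat_lit 5682770089) (nat_lit 456) (nat_lit 1233084623) (nat_lit 76) (nat_lit 5043796835) (nat_lit 111) (nat_lit 5) (nat_lit 117) (nat_lit 5) (nat_lit 112) (nat_lit 5) (nat_lit 468) (nat_lit 373) (nat_lit 299)) (XT.lf (nat_lit 0) (nat_lit 5101329652) (nat_lit 304) (nat_lit 3468009993) (nat_lit 380) (nat_lit 3541272233) (nat_lit 107) (nat_lit 5) (nat_lit 111) (nat_lit 5) (nat_lit 112) (nat_lit 5) (nat_lit 469) (nat_lit 373) (nat_lit 298)))) (XT.nd (nat_lit 156) (nat_lit 304) (nat_lit 0) (XT.nd (nat_lit 78) (nat_lit 456) (nat_lit 0) (XT.lf (nat_lit 0) (nat_lit 11495574920) (nat_lit 380) (nat_lit 725038073) (nat_lit 76) (nat_lit 44357421) (nat_lit 107) (nat_lit 5) (nat_lit 112) (nat_lit 5) (nat_lit 108) (nat_lit 5) (nat_lit 470) (nat_lit 373) (nat_lit 297))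 (XT.lf (nat_lit 0) (nat_lit 2064909628) (nat_lit 456) (nat_lit 6737303336) (nat_lit 76) (nat_lit 3619273308) (nat_lit 101) (nat_lit 5) (nat_lit 107) (nat_lit 5) (nat_lit 102) (nat_lit 5) (nat_lit 471) (nat_lit 373) (nat_lit 296))) (XT.nd (nat_lit 78) (nat_lit 304) (nat_lit 0) (XT.lf (nat_lit 0) (nat_lit 4924393714) (nat_lit 456) (nat_lit 393471138) (nat_lit 76) (nat_lit 7263606644) (nat_lit 101) (nat_lit 5) (nat_lit 107) (nat_lit 5) (nat_lit 102) (nat_lit 5) (nat_lit 472) (nat_lit 373) (nat_lit 295)) (XT.lf (nat_lit 0) (nat_lit 6119530873) (nat_lit 304) (nat_lit 1735668494) (nat_lit 380) (nat_lit 4889190755) (nat_lit 97) (nat_lit 5) (nat_lit 101) (nat_lit 5) (nat_lit 102) (nat_lit 5) (nat_lit 473) (nat_lit 373) (nat_lit 294))))) (XT.nd (nat_lit 234) (nat_lit 684) (nat_lit 0) (XT.nd (nat_lit 78) (nat_lit 380) (nat_lit 0) (XT.lf (nat_lit 0) (nat_lit 10834309651) (nat_lit 380) (nat_lit 193017665) (nat_lit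 76) (nat_lit 1883462052) (nat_lit 97) (nat_lit 5) (nat_lit 102) (nat_lit 5) (nat_lit 98) (nat_lit 5) (nat_lit 474) (nat_lit 373) (nat_lit 293)) (XT.nd (nat_lit 78) (nat_lit 0) (nat_lit 0) (XT.lf (nat_lit 0) (nat_lit 810401831) (nat_lit 380) (nat_lit 6682774718) (nat_lit 76) (nat_lit 5586686339) (nat_lit 92) (nat_lit 5) (nat_lit 97) (nat_lit 5) (nat_lit 93) (nat_lit 5) (nat_lit 475) (nat_lit 373) (nat_lit 292)) (XT.lf (nat_lit 0) (nat_lit 3703690665) (nat_lit 380) (nat_lit 181948990) (nat_lit 76) (nat_lit 9366889333) (nat_lit 92) (nat_lit 5) (nat_lit 97) (nat_lit 5) (nat_lit 93) (nat_lit 5) (nat_lit 476) (nat_lit 373) (nat_lit 291)))) (XT.nd (nat_lit 156) (nat_lit 380) (nat_lit 0) (XT.nd (nat_lit 78) (nat_lit 0) (nat_lit 0) (XT.lf (nat_lit 0) (nat_lit 6497332976) (nat_lit 304) (nat_lit 175328565) (nat_lit 380) (nat_lit 6755645338) (nat_lit 88) (nat_lit 5) (nat_lit 92) (nat_lit 5) (nat_lit 93) (nat_lit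 5) (nat_lit 477) (nat_lit 373) (nat_lit 290)) (XT.lf (nat_lit 0) (nat_lit 9701465508) (nat_lit 380) (nat_lit 355298860) (nat_lit 76) (nat_lit 3550841394) (nat_lit 88) (nat_lit 5) (nat_lit 93) (nat_lit 5) (nat_lit 89) (nat_lit 5) (nat_lit 478) (nat_lit 373) (nat_lit 289))) (XT.nd (nat_lit 78) (nat_lit 76) (nat_lit 0) (XT.lf (nat_lit 0) (nat_lit 6398420923) (nat_lit 304) (nat_lit 6411394583) (nat_lit 380) (nat_lit 980309938) (nat_lit 84) (nat_lit 5) (nat_lit 88) (nat_lit 5) (nat_lit 89) (nat_lit 5) (nat_lit 479) (nat_lit 373) (nat_lit 288)) (XT.lf (nat_lit 0) (nat_lit 1956482077) (nat_lit 380) (nat_lit 733557914) (nat_lit 76) (nat_lit 11286434402) (nat_lit 83) (nat_lit 5) (nat_lit 88) (nat_lit 5) (nat_lit 84) (nat_lit 5) (nat_lit 480) (nat_lit 373) (nat_lit 287))))))))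
noncomputable def xc86 : XT := (XT.nd (nat_lit 2106) (nat_lit 1368) (nat_lit 0) (XT.nd (nat_lit 1014) (nat_lit 1520) (nat_lit 0) (XT.nd (nat_lit 468) (nat_lit 836) (nat_lit 0) (XT.nd (nat_lit 234) (nat_lit 304) (nat_lit 0) (XT.nd (nat_lit 78) (nat_lit 304) (nat_lit 0) (XT.lf (nat_lit 0) (nat_lit 4962668893) (nat_lit 304) (nat_lit 8077907875) (nat_lit 76) (nat_lit 1125381650) (nat_lit 80) (nat_lit 5) (nat_lit 84) (nat_lit 5) (nat_lit 81) (nat_lit 5) (nat_lit 481) (nat_lit 373) (nat_lit 286)) (XT.nd (nat_lit 78) (nat_lit 304) (nat_lit 0) (XT.lf (nat_lit 0) (nat_lit 8028686959) (nat_lit 304) (nat_lit 1356706488) (nat_lit 76) (nat_lit 4973857667) (nat_lit 80) (nat_lit 5) (nat_lit 84) (nat_lit 5) (nat_lit 81) (nat_lit 5) (nat_lit 482) (nat_lit 373) (nat_lit 285)) (XT.lf (nat_lit 0) (nat_lit 5536471805) (nat_lit 304) (nat_lit 5632889752) (nat_lit 380) (nat_lit 3386794263) (nat_lit 76) (nat_lit 5) (nat_lit 80)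 (nat_lit 5) (nat_lit 81) (nat_lit 5) (nat_lit 483) (nat_lit 373) (nat_lit 284)))) (XT.nd (nat_lit 78) (nat_lit 304) (nat_lit 0) (XT.lf (nat_lit 0) (nat_lit 12551075886) (nat_lit 304) (nat_lit 1808484912) (nat_lit 380) (nat_lit 397716229) (nat_lit 76) (nat_lit 5) (nat_lit 80) (nat_lit 5) (nat_lit 81) (nat_lit 5) (nat_lit 484) (nat_lit 373) (nat_lit 283)) (XT.nd (nat_lit 78) (nat_lit 0) (nat_lit 0) (XT.lf (nat_lit 0) (nat_lit 2638952824) (nat_lit 304) (nat_lit 10221497271) (nat_lit 76) (nat_lit 2101186848) (nat_lit 72) (nat_lit 5) (nat_lit 76) (nat_lit 5) (nat_lit 73) (nat_lit 5) (nat_lit 485) (nat_lit 373) (nat_lit 282)) (XT.lf (nat_lit 0) (nat_lit 5735934092) (nat_lit 304) (nat_lit 3363778278) (nat_lit 76) (nat_lit 6070232925) (nat_lit 72) (nat_lit 5) (nat_lit 76) (nat_lit 5) (nat_lit 73) (nat_lit 5) (nat_lit 486) (nat_lit 373) (nat_lit 281))))) (XT.nd (nat_lit 234) (nat_lit 304) (nat_lit 0) (XT.nd (nat_lit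 78) (nat_lit 228) (nat_lit 0) (XT.lf (nat_lit 0) (nat_lit 3644983426) (nat_lit 304) (nat_lit 5251987932) (nat_lit 380) (nat_lit 6485417795) (nat_lit 68) (nat_lit 5) (nat_lit 72) (nat_lit 5) (nat_lit 73) (nat_lit 5) (nat_lit 487) (nat_lit 373) (nat_lit 280)) (XT.nd (nat_lit 78) (nat_lit 228) (nat_lit 0) (XT.lf (nat_lit 0) (nat_lit 10805824115) (nat_lit 304) (nat_lit 1316632477) (nat_lit 380) (nat_lit 3476612190) (nat_lit 68) (nat_lit 5) (nat_lit 72) (nat_lit 5) (nat_lit 73) (nat_lit 5) (nat_lit 488) (nat_lit 373) (nat_lit 279)) (XT.lf (nat_lit 0) (nat_lit 2268656288) (nat_lit 228) (nat_lit 13155032812) (nat_lit 304) (nat_lit 396179366) (nat_lit 65) (nat_lit 5) (nat_lit 68) (nat_lit 5) (nat_lit 69) (nat_lit 5) (nat_lit 489) (nat_lit 373) (nat_lit 278)))) (XT.nd (nat_lit 156) (nat_lit 0) (nat_lit 0) (XT.nd (nat_lit 78) (nat_lit 228) (nat_lit 0) (XT.lf (nat_lit 0) (nat_lit 2729989602) (nat_lit 304) (nat_lit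 6567885598) (nat_lit 76) (nat_lit 6746460364) (nat_lit 64) (nat_lit 5) (nat_lit 68) (nat_lit 5) (nat_lit 65) (nat_lit 5) (nat_lit 490) (nat_lit 373) (nat_lit 277)) (XT.lf (nat_lit 0) (nat_lit 526592796) (nat_lit 228) (nat_lit 5369661531) (nat_lit 304) (nat_lit 10377338326) (nat_lit 61) (nat_lit 5) (nat_lit 64) (nat_lit 5) (nat_lit 65) (nat_lit 5) (nat_lit 491) (nat_lit 373) (nat_lit 276))) (XT.nd (nat_lit 78) (nat_lit 0) (nat_lit 0) (XT.lf (nat_lit 0) (nat_lit 7819408575) (nat_lit 228) (nat_lit 1330154346) (nat_lit 304) (nat_lit 7357407950) (nat_lit 61) (nat_lit 5) (nat_lit 64) (nat_lit 5) (nat_lit 65) (nat_lit 5) (nat_lit 492) (nat_lit 373) (nat_lit 275)) (XT.lf (nat_lit 0) (nat_lit 12466019053) (nat_lit 304) (nat_lit 1537325647) (nat_lit 76) (nat_lit 2741720484) (nat_lit 61) (nat_lit 5) (nat_lit 65) (nat_lit 5) (nat_lit 62) (nat_lit 5) (nat_lit 493) (nat_lit 373) (nat_lit 274)))))) (XT.nd (nat_lit 546)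 (nat_lit 684) (nat_lit 0) (XT.nd (nat_lit 234) (nat_lit 304) (nat_lit 0) (XT.nd (nat_lit 78) (nat_lit 304) (nat_lit 0) (XT.lf (nat_lit 0) (nat_lit 5791420916) (nat_lit 228) (nat_lit 10084152837) (nat_lit 304) (nat_lit 1111822197) (nat_lit 58) (nat_lit 5) (nat_lit 61) (nat_lit 5) (nat_lit 62) (nat_lit 5) (nat_lit 494) (nat_lit 373) (nat_lit 273)) (XT.nd (nat_lit 78) (nat_lit 228) (nat_lit 0) (XT.lf (nat_lit 0) (nat_lit 2081744320) (nat_lit 304) (nat_lit 3992313606) (nat_lit 76) (nat_lit 11160434135) (nat_lit 57) (nat_lit 5) (nat_lit 61) (nat_lit 5) (nat_lit 58) (nat_lit 5) (nat_lit 495) (nat_lit 373) (nat_lit 272)) (XT.lf (nat_lit 0) (nat_lit 3361057254) (nat_lit 228) (nat_lit 1965859292) (nat_lit 304) (nat_lit 12159423515) (nat_lit 54) (nat_lit 5) (nat_lit 57) (nat_lit 5) (nat_lit 58) (nat_lit 5) (nat_lit 496) (nat_lit 373) (nat_lit 271)))) (XT.nd (nat_lit 156) (nat_lit 76) (nat_lit 0) (XT.nd (nat_lit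 78) (nat_lit 228) (nat_lit 0) (XT.lf (nat_lit 0) (nat_lit 8659288077) (nat_lit 304) (nat_lit 6872887406) (nat_lit 76) (nat_lit 2210612820) (nat_lit 54) (nat_lit 5) (nat_lit 58) (nat_lit 5) (nat_lit 55) (nat_lit 5) (nat_lit 497) (nat_lit 373) (nat_lit 270)) (XT.lf (nat_lit 0) (nat_lit 487350005) (nat_lit 228) (nat_lit 11568399933) (nat_lit 304) (nat_lit 5948675733) (nat_lit 51) (nat_lit 5) (nat_lit 54) (nat_lit 5) (nat_lit 55) (nat_lit 5) (nat_lit 498) (nat_lit 373) (nat_lit 269))) (XT.nd (nat_lit 78) (nat_lit 76) (nat_lit 0) (XT.lf (nat_lit 0) (nat_lit 8057578493) (nat_lit 228) (nat_lit 7490113227) (nat_lit 304) (nat_lit 2723061895) (nat_lit 51) (nat_lit 5) (nat_lit 54) (nat_lit 5) (nat_lit 55) (nat_lit 5) (nat_lit 499) (nat_lit 373) (nat_lit 268)) (XT.lf (nat_lit 0) (nat_lit 541292054) (nat_lit 304) (nat_lit 2796912318) (nat_lit 76) (nat_lit 15204505309) (nat_lit 50) (nat_lit 5) (nat_lit 54) (nat_lit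 5) (nat_lit 51) (nat_lit 5) (nat_lit 500) (nat_lit 373) (nat_lit 267))))) (XT.nd (nat_lit 234) (nat_lit 304) (nat_lit 0) (XT.nd (nat_lit 78) (nat_lit 152) (nat_lit 0) (XT.lf (nat_lit 0) (nat_lit 3853656654) (nat_lit 304) (nat_lit 14042637764) (nat_lit 76) (nat_lit 923075087) (nat_lit 47) (nat_lit 5) (nat_lit 51) (nat_lit 5) (nat_lit 48) (nat_lit 5) (nat_lit 501) (nat_lit 373) (nat_lit 266)) (XT.nd (nat_lit 78) (nat_lit 152) (nat_lit 0) (XT.lf (nat_lit 0) (nat_lit 7255381681) (nat_lit 304) (nat_lit 6613198732) (nat_lit 76) (nat_lit 5232528020) (nat_lit 47) (nat_lit 5) (nat_lit 51) (nat_lit 5) (nat_lit 48) (nat_lit 5) (nat_lit 502) (nat_lit 373) (nat_lit 265)) (XT.lf (nat_lit 0) (nat_lit 948303966) (nat_lit 152) (nat_lit 9765457760) (nat_lit 228) (nat_lit 8674956009) (nat_lit 45) (nat_lit 5) (nat_lit 47) (nat_lit 5) (nat_lit 48) (nat_lit 5) (nat_lit 503) (nat_lit 373) (nat_lit 264)))) (XT.nd (nat_lit 156)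 (nat_lit 304) (nat_lit 0) (XT.nd (nat_lit 78) (nat_lit 0) (nat_lit 0) (XT.lf (nat_lit 0) (nat_lit 8721908618) (nat_lit 152) (nat_lit 5546399347) (nat_lit 228) (nat_lit 5413239139) (nat_lit 45) (nat_lit 5) (nat_lit 47) (nat_lit 5) (nat_lit 48) (nat_lit 5) (nat_lit 504) (nat_lit 373) (nat_lit 263)) (XT.lf (nat_lit 0) (nat_lit 16622777766) (nat_lit 152) (nat_lit 1254128686) (nat_lit 228) (nat_lit 2103675080) (nat_lit 45) (nat_lit 5) (nat_lit 47) (nat_lit 5) (nat_lit 48) (nat_lit 5) (nat_lit 505) (nat_lit 373) (nat_lit 262))) (XT.nd (nat_lit 78) (nat_lit 0) (nat_lit 0) (XT.lf (nat_lit 0) (nat_lit 1287713566) (nat_lit 304) (nat_lit 15887793401) (nat_lit 76) (nat_lit 3109285559) (nat_lit 41) (nat_lit 5) (nat_lit 45) (nat_lit 5) (nat_lit 42) (nat_lit 5) (nat_lit 506) (nat_lit 373) (nat_lit 261)) (XT.lf (nat_lit 0) (nat_lit 4733031175) (nat_lit 304) (nat_lit 8292580541) (nat_lit 76) (nat_lit 7568919783) (nat_lit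 41) (nat_lit 5) (nat_lit 45) (nat_lit 5) (nat_lit 42) (nat_lit 5) (nat_lit 507) (nat_lit 373) (nat_lit 260))))))) (XT.nd (nat_lit 1092) (nat_lit 380) (nat_lit 0) (XT.nd (nat_lit 546) (nat_lit 380) (nat_lit 0) (XT.nd (nat_lit 234) (nat_lit 456) (nat_lit 0) (XT.nd (nat_lit 78) (nat_lit 152) (nat_lit 0) (XT.lf (nat_lit 0) (nat_lit 8230839182) (nat_lit 304) (nat_lit 572886082) (nat_lit 76) (nat_lit 12107075419) (nat_lit 41) (nat_lit 5) (nat_lit 45) (nat_lit 5) (nat_lit 42) (nat_lit 5) (nat_lit 508) (nat_lit 373) (nat_lit 259)) (XT.nd (nat_lit 78) (nat_lit 0) (nat_lit 0) (XT.lf (nat_lit 0) (nat_lit 7370989155) (nat_lit 152) (nat_lit 4459377470) (nat_lit 228) (nat_lit 9402400332) (nat_lit 39) (nat_lit 5) (nat_lit 41) (nat_lit 5) (nat_lit 42) (nat_lit 5) (nat_lit 509) (nat_lit 373) (nat_lit 258)) (XT.lf (nat_lit 0) (nat_lit 15454799436) (nat_lit 152) (nat_lit 34977639) (nat_lit 228) (nat_lit 6071644467) (nat_lit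 39) (nat_lit 5) (nat_lit 41) (nat_lit 5) (nat_lit 42) (nat_lit 5) (nat_lit 510) (nat_lit 373) (nat_lit 257)))) (XT.nd (nat_lit 156) (nat_lit 152) (nat_lit 0) (XT.nd (nat_lit 78) (nat_lit 76) (nat_lit 0) (XT.lf (nat_lit 0) (nat_lit 1771359423) (nat_lit 228) (nat_lit 17475883119) (nat_lit 304) (nat_lit 2648916042) (nat_lit 36) (nat_lit 5) (nat_lit 39) (nat_lit 5) (nat_lit 40) (nat_lit 5) (nat_lit 511) (nat_lit 373) (nat_lit 256)) (XT.lf (nat_lit 0) (nat_lit 857022433) (nat_lit 304) (nat_lit 12379541229) (nat_lit 76) (nat_lit 9000407736) (nat_lit 35) (nat_lit 5) (nat_lit 39) (nat_lit 5) (nat_lit 36) (nat_lit 5) (nat_lit 512) (nat_lit 373) (nat_lit 255))) (XT.nd (nat_lit 78) (nat_lit 152) (nat_lit 0) (XT.lf (nat_lit 0) (nat_lit 4382271586) (nat_lit 304) (nat_lit 4522877797) (nat_lit 76) (nat_lit 13679413995) (nat_lit 35) (nat_lit 5) (nat_lit 39) (nat_lit 5) (nat_lit 36) (nat_lit 5) (nat_lit 513) (nat_lit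 373) (nat_lit 254)) (XT.lf (nat_lit 0) (nat_lit 3511524981) (nat_lit 152) (nat_lit 4474229046) (nat_lit 228) (nat_lit 14953204796) (nat_lit 33) (nat_lit 5) (nat_lit 35) (nat_lit 5) (nat_lit 36) (nat_lit 5) (nat_lit 514) (nat_lit 373) (nat_lit 253))))) (XT.nd (nat_lit 234) (nat_lit 228) (nat_lit 0) (XT.nd (nat_lit 78) (nat_lit 152) (nat_lit 0) (XT.lf (nat_lit 0) (nat_lit 11677145568) (nat_lit 228) (nat_lit 11557924223) (nat_lit 76) (nat_lit 65061665) (nat_lit 33) (nat_lit 5) (nat_lit 36) (nat_lit 5) (nat_lit 34) (nat_lit 5) (nat_lit 515) (nat_lit 373) (nat_lit 252)) (XT.nd (nat_lit 78) (nat_lit 152) (nat_lit 0) (XT.lf (nat_lit 0) (nat_lit 15457283223) (nat_lit 228) (nat_lit 3585673203) (nat_lit 76) (nat_lit 4625278701) (nat_lit 33) (nat_lit 5) (nat_lit 36) (nat_lit 5) (nat_lit 34) (nat_lit 5) (nat_lit 516) (nat_lit 373) (nat_lit 251)) (XT.lf (nat_lit 0) (nat_lit 4581583544) (nat_lit 152) (nat_lit 14746762872)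 (nat_lit 228) (nat_lit 4715053835) (nat_lit 31) (nat_lit 5) (nat_lit 33) (nat_lit 5) (nat_lit 34) (nat_lit 5) (nat_lit 517) (nat_lit 373) (nat_lit 250)))) (XT.nd (nat_lit 156) (nat_lit 152) (nat_lit 0) (XT.nd (nat_lit 78) (nat_lit 76) (nat_lit 0) (XT.lf (nat_lit 0) (nat_lit 12936423954) (nat_lit 152) (nat_lit 10350169399) (nat_lit 228) (nat_lit 1139285793) (nat_lit 31) (nat_lit 5) (nat_lit 33) (nat_lit 5) (nat_lit 34) (nat_lit 5) (nat_lit 518) (nat_lit 373) (nat_lit 249)) (XT.lf (nat_lit 0) (nat_lit 2460987498) (nat_lit 228) (nat_lit 3398011590) (nat_lit 76) (nat_lit 18956970702) (nat_lit 30) (nat_lit 5) (nat_lit 33) (nat_lit 5) (nat_lit 31) (nat_lit 5) (nat_lit 519) (nat_lit 373) (nat_lit 248))) (XT.nd (nat_lit 78) (nat_lit 0) (nat_lit 0) (XT.lf (nat_lit 0) (nat_lit 4888216411) (nat_lit 152) (nat_lit 1247706149) (nat_lit 228) (nat_lit 19077436236) (nat_lit 28) (nat_lit 5) (nat_lit 30) (nat_lit 5) (nat_lit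 31) (nat_lit 5) (nat_lit 520) (nat_lit 373) (nat_lit 247)) (XT.lf (nat_lit 0) (nat_lit 9915962658) (nat_lit 228) (nat_lit 12278268622) (nat_lit 76) (nat_lit 3423837460) (nat_lit 28) (nat_lit 5) (nat_lit 31) (nat_lit 5) (nat_lit 29) (nat_lit 5) (nat_lit 521) (nat_lit 373) (nat_lit 246)))))) (XT.nd (nat_lit 49296) (nat_lit 0) (nat_lit 40128) (XT.nd (nat_lit 234) (nat_lit 228) (nat_lit 0) (XT.nd (nat_lit 78) (nat_lit 152) (nat_lit 0) (XT.lf (nat_lit 0) (nat_lit 13766352247) (nat_lit 228) (nat_lit 4101926775) (nat_lit 76) (nat_lit 8162704067) (nat_lit 28) (nat_lit 5) (nat_lit 31) (nat_lit 5) (nat_lit 29) (nat_lit 5) (nat_lit 522) (nat_lit 373) (nat_lit 245)) (XT.nd (nat_lit 78) (nat_lit 0) (nat_lit 0) (XT.lf (nat_lit 0) (nat_lit 4271208163) (nat_lit 152) (nat_lit 13437023702) (nat_lit 228) (nat_lit 8743639295) (nat_lit 26) (nat_lit 5) (nat_lit 28) (nat_lit 5) (nat_lit 29) (nat_lit 5) (nat_lit 523) (nat_lit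 373) (nat_lit 244)) (XT.lf (nat_lit 0) (nat_lit 12844806770) (nat_lit 152) (nat_lit 8898532158) (nat_lit 228) (nat_lit 5137555245) (nat_lit 26) (nat_lit 5) (nat_lit 28) (nat_lit 5) (nat_lit 29) (nat_lit 5) (nat_lit 524) (nat_lit 373) (nat_lit 243)))) (XT.nd (nat_lit 156) (nat_lit 0) (nat_lit 0) (XT.nd (nat_lit 78) (nat_lit 228) (nat_lit 0) (XT.lf (nat_lit 0) (nat_lit 21567718791) (nat_lit 152) (nat_lit 4278550679) (nat_lit 228) (nat_lit 1472490632) (nat_lit 26) (nat_lit 5) (nat_lit 28) (nat_lit 5) (nat_lit 29) (nat_lit 5) (nat_lit 525) (nat_lit 373) (nat_lit 242)) (XT.lf (nat_lit 0) (nat_lit 2243934352) (nat_lit 228) (nat_lit 25069480689) (nat_lit 76) (nat_lit 451523240) (nat_lit 23) (nat_lit 5) (nat_lit 26) (nat_lit 5) (nat_lit 24) (nat_lit 5) (nat_lit 526) (nat_lit 373) (nat_lit 241))) (XT.nd (nat_lit 48828) (nat_lit 0) (nat_lit 42712) (XT.lf (nat_lit 0) (nat_lit 6069506678) (nat_lit 228) (nat_lit 16890717777)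 (nat_lit 76) (nat_lit 5258534795) (nat_lit 23) (nat_lit 5) (nat_lit 26) (nat_lit 5) (nat_lit 24) (nat_lit 5) (nat_lit 527) (nat_lit 373) (nat_lit 240)) (XT.lf (nat_lit 0) (nat_lit 3009214822) (nat_lit 380) (nat_lit 124213225) (nat_lit 380) (nat_lit 124213225) (nat_lit 585) (nat_lit 4) (nat_lit 590) (nat_lit 5) (nat_lit 590) (nat_lit 4) (nat_lit 392) (nat_lit 374) (nat_lit 374))))) (XT.nd (nat_lit 234) (nat_lit 1444) (nat_lit 0) (XT.nd (nat_lit 78) (nat_lit 608) (nat_lit 0) (XT.lf (nat_lit 0) (nat_lit 2695245774) (nat_lit 532) (nat_lit 3542226823) (nat_lit 0) (nat_lit 290546350) (nat_lit 578) (nat_lit 5) (nat_lit 585) (nat_lit 4) (nat_lit 578) (nat_lit 4) (nat_lit 393) (nat_lit 374) (nat_lit 373)) (XT.nd (nat_lit 78) (nat_lit 608) (nat_lit 0) (XT.lf (nat_lit 0) (nat_lit 5629072971) (nat_lit 532) (nat_lit 46512609) (nat_lit 0) (nat_lit 866825092) (nat_lit 578) (nat_lit 5) (nat_lit 585) (nat_lit 4) (nat_lit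 578) (nat_lit 4) (nat_lit 394) (nat_lit 374) (nat_lit 372)) (XT.lf (nat_lit 0) (nat_lit 1990815241) (nat_lit 608) (nat_lit 3052123105) (nat_lit 76) (nat_lit 1514936429) (nat_lit 570) (nat_lit 5) (nat_lit 578) (nat_lit 5) (nat_lit 571) (nat_lit 4) (nat_lit 395) (nat_lit 374) (nat_lit 371)))) (XT.nd (nat_lit 156) (nat_lit 760) (nat_lit 0) (XT.nd (nat_lit 78) (nat_lit 76) (nat_lit 0) (XT.lf (nat_lit 0) (nat_lit 509801305) (nat_lit 608) (nat_lit 4366126008) (nat_lit 684) (nat_lit 1699016344) (nat_lit 562) (nat_lit 5) (nat_lit 570) (nat_lit 5) (nat_lit 571) (nat_lit 4) (nat_lit 396) (nat_lit 374) (nat_lit 370)) (XT.lf (nat_lit 0) (nat_lit 1162870344) (nat_lit 684) (nat_lit 2463299553) (nat_lit 76) (nat_lit 2967087187) (nat_lit 561) (nat_lit 5) (nat_lit 570) (nat_lit 5) (nat_lit 562) (nat_lit 5) (nat_lit 397) (nat_lit 374) (nat_lit 369))) (XT.nd (nat_lit 78) (nat_lit 76) (nat_lit 0) (XT.lf (nat_lit 0) (nat_lit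 1167986256) (nat_lit 684) (nat_lit 2832147542) (nat_lit 760) (nat_lit 2612872122) (nat_lit 552) (nat_lit 5) (nat_lit 561) (nat_lit 5) (nat_lit 562) (nat_lit 5) (nat_lit 398) (nat_lit 374) (nat_lit 368)) (XT.lf (nat_lit 0) (nat_lit 207957714) (nat_lit 760) (nat_lit 1776675785) (nat_lit 76) (nat_lit 4649581782) (nat_lit 551) (nat_lit 5) (nat_lit 561) (nat_lit 5) (nat_lit 552) (nat_lit 5) (nat_lit 399) (nat_lit 374) (nat_lit 367))))))))
noncomputable def xc87 : XT := (XT.nd (nat_lit 2106) (nat_lit 11172) (nat_lit 0) (XT.nd (nat_lit 1014) (nat_lit 10564) (nat_lit 0) (XT.nd (nat_lit 468) (nat_lit 4940) (nat_lit 0) (XT.nd (nat_lit 234) (nat_lit 1976) (nat_lit 0) (XT.nd (nat_lit 78) (nat_lit 912) (nat_lit 0) (XT.lf (nat_lit 0) (nat_lit 1926585859) (nat_lit 760) (nat_lit 1071220745) (nat_lit 836) (nat_lit 3658850122) (nat_lit 541) (nat_lit 5) (nat_lit 551) (nat_lit 5) (nat_lit 552) (nat_lit 5) (nat_lit 400) (nat_lit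 374) (nat_lit 366)) (XT.nd (nat_lit 78) (nat_lit 912) (nat_lit 0) (XT.lf (nat_lit 0) (nat_lit 5681888550) (nat_lit 760) (nat_lit 109508010) (nat_lit 836) (nat_lit 889294593) (nat_lit 541) (nat_lit 5) (nat_lit 551) (nat_lit 5) (nat_lit 552) (nat_lit 5) (nat_lit 401) (nat_lit 374) (nat_lit 365)) (XT.lf (nat_lit 0) (nat_lit 1871080060) (nat_lit 912) (nat_lit 3927023882) (nat_lit 76) (nat_lit 907733718) (nat_lit 529) (nat_lit 5) (nat_lit 541) (nat_lit 5) (nat_lit 530) (nat_lit 5) (nat_lit 402) (nat_lit 374) (nat_lit 364)))) (XT.nd (nat_lit 78) (nat_lit 1976) (nat_lit 0) (XT.lf (nat_lit 0) (nat_lit 4620048048) (nat_lit 912) (nat_lit 139779677) (nat_lit 76) (nat_lit 1972733029) (nat_lit 529) (nat_lit 5) (nat_lit 541) (nat_lit 5) (nat_lit 530) (nat_lit 5) (nat_lit 403) (nat_lit 374) (nat_lit 363)) (XT.nd (nat_lit 78) (nat_lit 988) (nat_lit 0) (XT.lf (nat_lit 0) (nat_lit 618348223) (nat_lit 988) (nat_lit 3039006347)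 (nat_lit 76) (nat_lit 3103213177) (nat_lit 516) (nat_lit 5) (nat_lit 529) (nat_lit 5) (nat_lit 517) (nat_lit 5) (nat_lit 404) (nat_lit 374) (nat_lit 362)) (XT.lf (nat_lit 0) (nat_lit 822748790) (nat_lit 988) (nat_lit 2498539716) (nat_lit 1064) (nat_lit 3468743617) (nat_lit 503) (nat_lit 5) (nat_lit 516) (nat_lit 5) (nat_lit 517) (nat_lit 5) (nat_lit 405) (nat_lit 374) (nat_lit 361))))) (XT.nd (nat_lit 234) (nat_lit 3800) (nat_lit 0) (XT.nd (nat_lit 78) (nat_lit 1140) (nat_lit 0) (XT.lf (nat_lit 0) (nat_lit 4756289189) (nat_lit 988) (nat_lit 1282712618) (nat_lit 1064) (nat_lit 781959392) (nat_lit 503) (nat_lit 5) (nat_lit 516) (nat_lit 5) (nat_lit 517) (nat_lit 5) (nat_lit 406) (nat_lit 374) (nat_lit 360)) (XT.nd (nat_lit 78) (nat_lit 0) (nat_lit 0) (XT.lf (nat_lit 0) (nat_lit 1881349656) (nat_lit 1064) (nat_lit 4755754) (nat_lit 1140) (nat_lit 4967170701) (nat_lit 488) (nat_lit 5) (nat_lit 502) (nat_lit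 5) (nat_lit 503) (nat_lit 5) (nat_lit 407) (nat_lit 374) (nat_lit 359)) (XT.lf (nat_lit 0) (nat_lit 4561399664) (nat_lit 1140) (nat_lit 1013001170) (nat_lit 76) (nat_lit 1312530864) (nat_lit 488) (nat_lit 5) (nat_lit 503) (nat_lit 5) (nat_lit 489) (nat_lit 5) (nat_lit 408) (nat_lit 374) (nat_lit 358)))) (XT.nd (nat_lit 156) (nat_lit 1368) (nat_lit 0) (XT.nd (nat_lit 78) (nat_lit 1216) (nat_lit 0) (XT.lf (nat_lit 0) (nat_lit 326485983) (nat_lit 1216) (nat_lit 3906268088) (nat_lit 76) (nat_lit 2689291952) (nat_lit 472) (nat_lit 5) (nat_lit 488) (nat_lit 5) (nat_lit 473) (nat_lit 5) (nat_lit 409) (nat_lit 374) (nat_lit 357)) (XT.lf (nat_lit 0) (nat_lit 120058609) (nat_lit 1216) (nat_lit 2831449254) (nat_lit 1292) (nat_lit 4007104939) (nat_lit 456) (nat_lit 5) (nat_lit 472) (nat_lit 5) (nat_lit 473) (nat_lit 5) (nat_lit 410) (nat_lit 374) (nat_lit 356))) (XT.nd (nat_lit 78) (nat_lit 1368) (nat_lit 0) (XT.lf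 (nat_lit 0) (nat_lit 4232965381) (nat_lit 1216) (nat_lit 1366533212) (nat_lit 1292) (nat_lit 1397081042) (nat_lit 456) (nat_lit 5) (nat_lit 472) (nat_lit 5) (nat_lit 473) (nat_lit 5) (nat_lit 411) (nat_lit 374) (nat_lit 355)) (XT.lf (nat_lit 0) (nat_lit 1203258677) (nat_lit 1368) (nat_lit 5681533156) (nat_lit 76) (nat_lit 151330583) (nat_lit 438) (nat_lit 5) (nat_lit 456) (nat_lit 5) (nat_lit 439) (nat_lit 5) (nat_lit 412) (nat_lit 374) (nat_lit 354)))))) (XT.nd (nat_lit 546) (nat_lit 4484) (nat_lit 0) (XT.nd (nat_lit 234) (nat_lit 4636) (nat_lit 0) (XT.nd (nat_lit 78) (nat_lit 1444) (nat_lit 0) (XT.lf (nat_lit 0) (nat_lit 3810373906) (nat_lit 1368) (nat_lit 1549579113) (nat_lit 76) (nat_lit 1716922412) (nat_lit 438) (nat_lit 5) (nat_lit 456) (nat_lit 5) (nat_lit 439) (nat_lit 5) (nat_lit 413) (nat_lit 374) (nat_lit 353)) (XT.nd (nat_lit 78) (nat_lit 76) (nat_lit 0) (XT.lf (nat_lit 0) (nat_lit 2653056945)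 (nat_lit 1368) (nat_lit 3780603951) (nat_lit 1444) (nat_lit 685574161) (nat_lit 420) (nat_lit 5) (nat_lit 438) (nat_lit 5) (nat_lit 439) (nat_lit 5) (nat_lit 414) (nat_lit 374) (nat_lit 352)) (XT.lf (nat_lit 0) (nat_lit 1879032600) (nat_lit 1444) (nat_lit 261409902) (nat_lit 76) (nat_lit 5022663975) (nat_lit 419) (nat_lit 5) (nat_lit 438) (nat_lit 5) (nat_lit 420) (nat_lit 5) (nat_lit 415) (nat_lit 374) (nat_lit 351)))) (XT.nd (nat_lit 156) (nat_lit 1672) (nat_lit 0) (XT.nd (nat_lit 78) (nat_lit 1520) (nat_lit 0) (XT.lf (nat_lit 0) (nat_lit 4029469706) (nat_lit 1444) (nat_lit 430617601) (nat_lit 1520) (nat_lit 2748258654) (nat_lit 400) (nat_lit 5) (nat_lit 419) (nat_lit 5) (nat_lit 420) (nat_lit 5) (nat_lit 416) (nat_lit 374) (nat_lit 350)) (XT.lf (nat_lit 0) (nat_lit 1114220620) (nat_lit 1520) (nat_lit 5944986239) (nat_lit 1596) (nat_lit 196021146) (nat_lit 380) (nat_lit 5) (nat_lit 400) (nat_lit 5)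 (nat_lit 401) (nat_lit 5) (nat_lit 417) (nat_lit 374) (nat_lit 349))) (XT.nd (nat_lit 78) (nat_lit 1596) (nat_lit 0) (XT.lf (nat_lit 0) (nat_lit 2349230240) (nat_lit 1596) (nat_lit 1832511435) (nat_lit 76) (nat_lit 3121586667) (nat_lit 379) (nat_lit 5) (nat_lit 400) (nat_lit 5) (nat_lit 380) (nat_lit 5) (nat_lit 418) (nat_lit 374) (nat_lit 348)) (XT.lf (nat_lit 0) (nat_lit 2547663719) (nat_lit 1596) (nat_lit 2361853373) (nat_lit 1672) (nat_lit 2443575379) (nat_lit 358) (nat_lit 5) (nat_lit 379) (nat_lit 5) (nat_lit 380) (nat_lit 5) (nat_lit 419) (nat_lit 374) (nat_lit 347))))) (XT.nd (nat_lit 234) (nat_lit 1748) (nat_lit 0) (XT.nd (nat_lit 78) (nat_lit 2660) (nat_lit 0) (XT.lf (nat_lit 0) (nat_lit 78501017) (nat_lit 1672) (nat_lit 411182682) (nat_lit 76) (nat_lit 6914955738) (nat_lit 357) (nat_lit 5) (nat_lit 379) (nat_lit 5) (nat_lit 358) (nat_lit 5) (nat_lit 420) (nat_lit 374) (nat_lit 346)) (XT.nd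 (nat_lit 78) (nat_lit 988) (nat_lit 0) (XT.lf (nat_lit 0) (nat_lit 2605691403) (nat_lit 1748) (nat_lit 3404969197) (nat_lit 76) (nat_lit 1446545044) (nat_lit 335) (nat_lit 5) (nat_lit 358) (nat_lit 5) (nat_lit 336) (nat_lit 5) (nat_lit 421) (nat_lit 374) (nat_lit 345)) (XT.lf (nat_lit 0) (nat_lit 1063596666) (nat_lit 988) (nat_lit 4084894483) (nat_lit 1064) (nat_lit 2363088733) (nat_lit 322) (nat_lit 5) (nat_lit 335) (nat_lit 5) (nat_lit 336) (nat_lit 5) (nat_lit 422) (nat_lit 374) (nat_lit 344)))) (XT.nd (nat_lit 156) (nat_lit 836) (nat_lit 0) (XT.nd (nat_lit 78) (nat_lit 836) (nat_lit 0) (XT.lf (nat_lit 0) (nat_lit 148216284) (nat_lit 1064) (nat_lit 1947385003) (nat_lit 76) (nat_lit 5471965198) (nat_lit 321) (nat_lit 5) (nat_lit 335) (nat_lit 5) (nat_lit 322) (nat_lit 5) (nat_lit 423) (nat_lit 374) (nat_lit 343)) (XT.lf (nat_lit 0) (nat_lit 2615603951) (nat_lit 836) (nat_lit 32853785) (nat_lit 912)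 (nat_lit 4976550314) (nat_lit 310) (nat_lit 5) (nat_lit 321) (nat_lit 5) (nat_lit 322) (nat_lit 5) (nat_lit 424) (nat_lit 374) (nat_lit 342))) (XT.nd (nat_lit 78) (nat_lit 836) (nat_lit 0) (XT.lf (nat_lit 0) (nat_lit 5179262976) (nat_lit 912) (nat_lit 447567136) (nat_lit 76) (nat_lit 2057210756) (nat_lit 310) (nat_lit 5) (nat_lit 322) (nat_lit 5) (nat_lit 311) (nat_lit 5) (nat_lit 425) (nat_lit 374) (nat_lit 341)) (XT.lf (nat_lit 0) (nat_lit 4214537691) (nat_lit 836) (nat_lit 3528587745) (nat_lit 912) (nat_lit 1532635) (nat_lit 299) (nat_lit 5) (nat_lit 310) (nat_lit 5) (nat_lit 311) (nat_lit 5) (nat_lit 426) (nat_lit 374) (nat_lit 340))))))) (XT.nd (nat_lit 1092) (nat_lit 5168) (nat_lit 0) (XT.nd (nat_lit 546) (nat_lit 2812) (nat_lit 0) (XT.nd (nat_lit 234) (nat_lit 1596) (nat_lit 0) (XT.nd (nat_lit 78) (nat_lit 760) (nat_lit 0) (XT.lf (nat_lit 0) (nat_lit 1121271817) (nat_lit 760) (nat_lit 1362444342)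 (nat_lit 836) (nat_lit 5323182498) (nat_lit 288) (nat_lit 5) (nat_lit 298) (nat_lit 5) (nat_lit 299) (nat_lit 5) (nat_lit 427) (nat_lit 374) (nat_lit 339)) (XT.nd (nat_lit 78) (nat_lit 760) (nat_lit 0) (XT.lf (nat_lit 0) (nat_lit 5003666925) (nat_lit 836) (nat_lit 2009022689) (nat_lit 76) (nat_lit 858043408) (nat_lit 288) (nat_lit 5) (nat_lit 299) (nat_lit 5) (nat_lit 289) (nat_lit 5) (nat_lit 428) (nat_lit 374) (nat_lit 338)) (XT.lf (nat_lit 0) (nat_lit 2741984189) (nat_lit 760) (nat_lit 4815399500) (nat_lit 836) (nat_lit 378841593) (nat_lit 278) (nat_lit 5) (nat_lit 288) (nat_lit 5) (nat_lit 289) (nat_lit 5) (nat_lit 429) (nat_lit 374) (nat_lit 337)))) (XT.nd (nat_lit 156) (nat_lit 836) (nat_lit 0) (XT.nd (nat_lit 78) (nat_lit 684) (nat_lit 0) (XT.lf (nat_lit 0) (nat_lit 2101165959) (nat_lit 836) (nat_lit 448007929) (nat_lit 76) (nat_lit 5454213066) (nat_lit 277) (nat_lit 5) (nat_lit 288) (nat_lit 5)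 (nat_lit 278) (nat_lit 5) (nat_lit 430) (nat_lit 374) (nat_lit 336)) (XT.lf (nat_lit 0) (nat_lit 4402909183) (nat_lit 684) (nat_lit 208996164) (nat_lit 760) (nat_lit 3460258092) (nat_lit 268) (nat_lit 5) (nat_lit 277) (nat_lit 5) (nat_lit 278) (nat_lit 5) (nat_lit 431) (nat_lit 374) (nat_lit 335))) (XT.nd (nat_lit 78) (nat_lit 76) (nat_lit 0) (XT.lf (nat_lit 0) (nat_lit 1169805745) (nat_lit 760) (nat_lit 5985945343) (nat_lit 836) (nat_lit 986951385) (nat_lit 258) (nat_lit 5) (nat_lit 268) (nat_lit 5) (nat_lit 269) (nat_lit 5) (nat_lit 432) (nat_lit 374) (nat_lit 334)) (XT.lf (nat_lit 0) (nat_lit 1500184700) (nat_lit 836) (nat_lit 2116625628) (nat_lit 76) (nat_lit 4597995520) (nat_lit 257) (nat_lit 5) (nat_lit 268) (nat_lit 5) (nat_lit 258) (nat_lit 5) (nat_lit 433) (nat_lit 374) (nat_lit 333))))) (XT.nd (nat_lit 234) (nat_lit 1368) (nat_lit 0) (XT.nd (nat_lit 78) (nat_lit 760) (nat_lit 0) (XT.lf (nat_lit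 0) (nat_lit 2821820204) (nat_lit 684) (nat_lit 1179514494) (nat_lit 760) (nat_lit 4287378654) (nat_lit 248) (nat_lit 5) (nat_lit 257) (nat_lit 5) (nat_lit 258) (nat_lit 5) (nat_lit 434) (nat_lit 374) (nat_lit 332)) (XT.nd (nat_lit 78) (nat_lit 760) (nat_lit 0) (XT.lf (nat_lit 0) (nat_lit 6534918138) (nat_lit 760) (nat_lit 530607043) (nat_lit 76) (nat_lit 1298967052) (nat_lit 248) (nat_lit 5) (nat_lit 258) (nat_lit 5) (nat_lit 249) (nat_lit 5) (nat_lit 435) (nat_lit 374) (nat_lit 331)) (XT.lf (nat_lit 0) (nat_lit 665965307) (nat_lit 760) (nat_lit 3935546817) (nat_lit 76) (nat_lit 3840277176) (nat_lit 238) (nat_lit 5) (nat_lit 248) (nat_lit 5) (nat_lit 239) (nat_lit 5) (nat_lit 436) (nat_lit 374) (nat_lit 330)))) (XT.nd (nat_lit 156) (nat_lit 760) (nat_lit 0) (XT.nd (nat_lit 78) (nat_lit 0) (nat_lit 0) (XT.lf (nat_lit 0) (nat_lit 1087273267) (nat_lit 608) (nat_lit 2070919441) (nat_lit 684) (nat_lit 5362811272)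 (nat_lit 230) (nat_lit 5) (nat_lit 238) (nat_lit 5) (nat_lit 239) (nat_lit 5) (nat_lit 437) (nat_lit 374) (nat_lit 329)) (XT.lf (nat_lit 0) (nat_lit 5691211589) (nat_lit 684) (nat_lit 2386651455) (nat_lit 76) (nat_lit 524159251) (nat_lit 230) (nat_lit 5) (nat_lit 239) (nat_lit 5) (nat_lit 231) (nat_lit 5) (nat_lit 438) (nat_lit 374) (nat_lit 328))) (XT.nd (nat_lit 78) (nat_lit 76) (nat_lit 0) (XT.lf (nat_lit 0) (nat_lit 2738684983) (nat_lit 684) (nat_lit 5529514994) (nat_lit 760) (nat_lit 416632347) (nat_lit 221) (nat_lit 5) (nat_lit 230) (nat_lit 5) (nat_lit 231) (nat_lit 5) (nat_lit 439) (nat_lit 374) (nat_lit 327)) (XT.lf (nat_lit 0) (nat_lit 2077635855) (nat_lit 760) (nat_lit 829151140) (nat_lit 76) (nat_lit 5862709218) (nat_lit 220) (nat_lit 5) (nat_lit 230) (nat_lit 5) (nat_lit 221) (nat_lit 5) (nat_lit 440) (nat_lit 374) (nat_lit 326)))))) (XT.nd (nat_lit 546) (nat_lit 2128) (nat_lit 0) (XT.nd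 (nat_lit 234) (nat_lit 1748) (nat_lit 0) (XT.nd (nat_lit 78) (nat_lit 684) (nat_lit 0) (XT.lf (nat_lit 0) (nat_lit 4400895353) (nat_lit 608) (nat_lit 206625624) (nat_lit 684) (nat_lit 4248486485) (nat_lit 212) (nat_lit 5) (nat_lit 220) (nat_lit 5) (nat_lit 221) (nat_lit 5) (nat_lit 441) (nat_lit 374) (nat_lit 325)) (XT.nd (nat_lit 78) (nat_lit 76) (nat_lit 0) (XT.lf (nat_lit 0) (nat_lit 751237225) (nat_lit 608) (nat_lit 6426915851) (nat_lit 684) (nat_lit 1766327544) (nat_lit 204) (nat_lit 5) (nat_lit 212) (nat_lit 5) (nat_lit 213) (nat_lit 5) (nat_lit 442) (nat_lit 374) (nat_lit 324)) (XT.lf (nat_lit 0) (nat_lit 750188191) (nat_lit 684) (nat_lit 2963467815) (nat_lit 76) (nat_lit 5321106102) (nat_lit 203) (nat_lit 5) (nat_lit 212) (nat_lit 5) (nat_lit 204) (nat_lit 5) (nat_lit 443) (nat_lit 374) (nat_lit 323)))) (XT.nd (nat_lit 156) (nat_lit 1216) (nat_lit 0) (XT.nd (nat_lit 78) (nat_lit 0) (nat_lit 0)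 (XT.lf (nat_lit 0) (nat_lit 2345943885) (nat_lit 532) (nat_lit 926702995) (nat_lit 608) (nat_lit 5854416233) (nat_lit 196) (nat_lit 5) (nat_lit 203) (nat_lit 5) (nat_lit 204) (nat_lit 5) (nat_lit 444) (nat_lit 374) (nat_lit 322)) (XT.lf (nat_lit 0) (nat_lit 5842391616) (nat_lit 608) (nat_lit 1476099580) (nat_lit 76) (nat_lit 1902814238) (nat_lit 196) (nat_lit 5) (nat_lit 204) (nat_lit 5) (nat_lit 197) (nat_lit 5) (nat_lit 445) (nat_lit 374) (nat_lit 321))) (XT.nd (nat_lit 78) (nat_lit 608) (nat_lit 0) (XT.lf (nat_lit 0) (nat_lit 3936958446) (nat_lit 608) (nat_lit 4523348575) (nat_lit 684) (nat_lit 857221466) (nat_lit 188) (nat_lit 5) (nat_lit 196) (nat_lit 5) (nat_lit 197) (nat_lit 5) (nat_lit 446) (nat_lit 374) (nat_lit 320)) (XT.lf (nat_lit 0) (nat_lit 7948385) (nat_lit 532) (nat_lit 1659709819) (nat_lit 608) (nat_lit 7748320400) (nat_lit 180) (nat_lit 5) (nat_lit 187) (nat_lit 5) (nat_lit 188) (nat_lit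 5) (nat_lit 447) (nat_lit 374) (nat_lit 319))))) (XT.nd (nat_lit 234) (nat_lit 1596) (nat_lit 0) (XT.nd (nat_lit 78) (nat_lit 532) (nat_lit 0) (XT.lf (nat_lit 0) (nat_lit 4241664846) (nat_lit 608) (nat_lit 3996742785) (nat_lit 76) (nat_lit 1277704208) (nat_lit 180) (nat_lit 5) (nat_lit 188) (nat_lit 5) (nat_lit 181) (nat_lit 5) (nat_lit 448) (nat_lit 374) (nat_lit 318)) (XT.nd (nat_lit 78) (nat_lit 0) (nat_lit 0) (XT.lf (nat_lit 0) (nat_lit 1488025272) (nat_lit 532) (nat_lit 5366017004) (nat_lit 608) (nat_lit 2764496660) (nat_lit 173) (nat_lit 5) (nat_lit 180) (nat_lit 5) (nat_lit 181) (nat_lit 5) (nat_lit 449) (nat_lit 374) (nat_lit 317)) (XT.lf (nat_lit 0) (nat_lit 7093680870) (nat_lit 532) (nat_lit 2418427502) (nat_lit 608) (nat_lit 211065825) (nat_lit 173) (nat_lit 5) (nat_lit 180) (nat_lit 5) (nat_lit 181) (nat_lit 5) (nat_lit 450) (nat_lit 374) (nat_lit 316)))) (XT.nd (nat_lit 156) (nat_lit 1064)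 (nat_lit 0) (XT.nd (nat_lit 78) (nat_lit 0) (nat_lit 0) (XT.lf (nat_lit 0) (nat_lit 2352293462) (nat_lit 532) (nat_lit 6871628805) (nat_lit 76) (nat_lit 605891435) (nat_lit 166) (nat_lit 5) (nat_lit 173) (nat_lit 5) (nat_lit 167) (nat_lit 5) (nat_lit 451) (nat_lit 374) (nat_lit 315)) (XT.lf (nat_lit 0) (nat_lit 4965214205) (nat_lit 532) (nat_lit 1305446274) (nat_lit 76) (nat_lit 3667902008) (nat_lit 166) (nat_lit 5) (nat_lit 173) (nat_lit 5) (nat_lit 167) (nat_lit 5) (nat_lit 452) (nat_lit 374) (nat_lit 314))) (XT.nd (nat_lit 78) (nat_lit 532) (nat_lit 0) (XT.lf (nat_lit 0) (nat_lit 4387502175) (nat_lit 532) (nat_lit 3239357747) (nat_lit 608) (nat_lit 2422723273) (nat_lit 159) (nat_lit 5) (nat_lit 166) (nat_lit 5) (nat_lit 167) (nat_lit 5) (nat_lit 453) (nat_lit 374) (nat_lit 313)) (XT.lf (nat_lit 0) (nat_lit 5941621) (nat_lit 456) (nat_lit 147584110) (nat_lit 532) (nat_lit 10009761448) (nat_lit 152)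 (nat_lit 5) (nat_lit 158) (nat_lit 5) (nat_lit 159) (nat_lit 5) (nat_lit 454) (nat_lit 374) (nat_lit 312))))))))
noncomputable def xc88 : XT := (XT.nd (nat_lit 2106) (nat_lit 2964) (nat_lit 0) (XT.nd (nat_lit 1014) (nat_lit 2356) (nat_lit 0) (XT.nd (nat_lit 468) (nat_lit 1672) (nat_lit 0) (XT.nd (nat_lit 234) (nat_lit 988) (nat_lit 0) (XT.nd (nat_lit 78) (nat_lit 456) (nat_lit 0) (XT.lf (nat_lit 0) (nat_lit 2775040188) (nat_lit 532) (nat_lit 4492825419) (nat_lit 76) (nat_lit 3010580499) (nat_lit 152) (nat_lit 5) (nat_lit 159) (nat_lit 5) (nat_lit 153) (nat_lit 5) (nat_lit 455) (nat_lit 374) (nat_lit 311)) (XT.nd (nat_lit 78) (nat_lit 0) (nat_lit 0) (XT.lf (nat_lit 0) (nat_lit 1258769140) (nat_lit 456) (nat_lit 4168371950) (nat_lit 532) (nat_lit 4969228273) (nat_lit 146) (nat_lit 5) (nat_lit 152) (nat_lit 5) (nat_lit 153) (nat_lit 5) (nat_lit 456) (nat_lit 374) (nat_lit 310)) (XT.lf (nat_lit 0) (nat_lit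 7144824088) (nat_lit 456) (nat_lit 986953614) (nat_lit 532) (nat_lit 2384907309) (nat_lit 146) (nat_lit 5) (nat_lit 152) (nat_lit 5) (nat_lit 153) (nat_lit 5) (nat_lit 457) (nat_lit 374) (nat_lit 309)))) (XT.nd (nat_lit 78) (nat_lit 456) (nat_lit 0) (XT.lf (nat_lit 0) (nat_lit 248466295) (nat_lit 532) (nat_lit 8155131285) (nat_lit 76) (nat_lit 2235786472) (nat_lit 139) (nat_lit 5) (nat_lit 146) (nat_lit 5) (nat_lit 140) (nat_lit 5) (nat_lit 458) (nat_lit 374) (nat_lit 308)) (XT.nd (nat_lit 78) (nat_lit 456) (nat_lit 0) (XT.lf (nat_lit 0) (nat_lit 2901897842) (nat_lit 532) (nat_lit 2324734897) (nat_lit 76) (nat_lit 5537624991) (nat_lit 139) (nat_lit 5) (nat_lit 146) (nat_lit 5) (nat_lit 140) (nat_lit 5) (nat_lit 459) (nat_lit 374) (nat_lit 307)) (XT.lf (nat_lit 0) (nat_lit 3629314108) (nat_lit 456) (nat_lit 1973218023) (nat_lit 532) (nat_lit 5289236054) (nat_lit 133) (nat_lit 5) (nat_lit 139) (nat_lit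 5) (nat_lit 140) (nat_lit 5) (nat_lit 460) (nat_lit 374) (nat_lit 306))))) (XT.nd (nat_lit 234) (nat_lit 1216) (nat_lit 0) (XT.nd (nat_lit 78) (nat_lit 456) (nat_lit 0) (XT.lf (nat_lit 0) (nat_lit 8352430101) (nat_lit 532) (nat_lit 1337216934) (nat_lit 76) (nat_lit 1332298350) (nat_lit 133) (nat_lit 5) (nat_lit 140) (nat_lit 5) (nat_lit 134) (nat_lit 5) (nat_lit 461) (nat_lit 374) (nat_lit 305)) (XT.nd (nat_lit 78) (nat_lit 0) (nat_lit 0) (XT.lf (nat_lit 0) (nat_lit 17712555) (nat_lit 456) (nat_lit 6439281942) (nat_lit 76) (nat_lit 4697449079) (nat_lit 127) (nat_lit 5) (nat_lit 133) (nat_lit 5) (nat_lit 128) (nat_lit 5) (nat_lit 462) (nat_lit 374) (nat_lit 304)) (XT.lf (nat_lit 0) (nat_lit 2703486848) (nat_lit 456) (nat_lit 440591078) (nat_lit 76) (nat_lit 8145570273) (nat_lit 127) (nat_lit 5) (nat_lit 133) (nat_lit 5) (nat_lit 128) (nat_lit 5) (nat_lit 463) (nat_lit 374) (nat_lit 303)))) (XT.nd (nat_lit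 156) (nat_lit 456) (nat_lit 0) (XT.nd (nat_lit 78) (nat_lit 380) (nat_lit 0) (XT.lf (nat_lit 0) (nat_lit 5453811043) (nat_lit 456) (nat_lit 5715450314) (nat_lit 76) (nat_lit 258098784) (nat_lit 122) (nat_lit 5) (nat_lit 128) (nat_lit 5) (nat_lit 123) (nat_lit 5) (nat_lit 464) (nat_lit 374) (nat_lit 302)) (XT.lf (nat_lit 0) (nat_lit 370071356) (nat_lit 380) (nat_lit 7887530678) (nat_lit 456) (nat_lit 3310274603) (nat_lit 117) (nat_lit 5) (nat_lit 122) (nat_lit 5) (nat_lit 123) (nat_lit 5) (nat_lit 465) (nat_lit 374) (nat_lit 301))) (XT.nd (nat_lit 78) (nat_lit 456) (nat_lit 0) (XT.lf (nat_lit 0) (nat_lit 6615431669) (nat_lit 380) (nat_lit 4512939003) (nat_lit 456) (nat_lit 582633898) (nat_lit 117) (nat_lit 5) (nat_lit 122) (nat_lit 5) (nat_lit 123) (nat_lit 5) (nat_lit 466) (nat_lit 374) (nat_lit 300)) (XT.lf (nat_lit 0) (nat_lit 1089762140) (nat_lit 380) (nat_lit 1060914979) (nat_lit 456) (nat_lit 9706451417)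 (nat_lit 111) (nat_lit 5) (nat_lit 116) (nat_lit 5) (nat_lit 117) (nat_lit 5) (nat_lit 467) (nat_lit 374) (nat_lit 299)))))) (XT.nd (nat_lit 546) (nat_lit 1292) (nat_lit 0) (XT.nd (nat_lit 234) (nat_lit 760) (nat_lit 0) (XT.nd (nat_lit 78) (nat_lit 304) (nat_lit 0) (XT.lf (nat_lit 0) (nat_lit 4954346473) (nat_lit 456) (nat_lit 4596847988) (nat_lit 76) (nat_lit 2454451662) (nat_lit 111) (nat_lit 5) (nat_lit 117) (nat_lit 5) (nat_lit 112) (nat_lit 5) (nat_lit 468) (nat_lit 374) (nat_lit 298)) (XT.nd (nat_lit 78) (nat_lit 0) (nat_lit 0) (XT.lf (nat_lit 0) (nat_lit 1673597802) (nat_lit 304) (nat_lit 6132003975) (nat_lit 380) (nat_lit 4351719717) (nat_lit 107) (nat_lit 5) (nat_lit 111) (nat_lit 5) (nat_lit 112) (nat_lit 5) (nat_lit 469) (nat_lit 374) (nat_lit 297)) (XT.lf (nat_lit 0) (nat_lit 8093610074) (nat_lit 304) (nat_lit 2625009436) (nat_lit 380) (nat_lit 1593333452) (nat_lit 107) (nat_lit 5) (nat_lit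 111) (nat_lit 5) (nat_lit 112) (nat_lit 5) (nat_lit 470) (nat_lit 374) (nat_lit 296)))) (XT.nd (nat_lit 156) (nat_lit 304) (nat_lit 0) (XT.nd (nat_lit 78) (nat_lit 0) (nat_lit 0) (XT.lf (nat_lit 0) (nat_lit 1198673175) (nat_lit 456) (nat_lit 10321100212) (nat_lit 76) (nat_lit 949872766) (nat_lit 101) (nat_lit 5) (nat_lit 107) (nat_lit 5) (nat_lit 102) (nat_lit 5) (nat_lit 471) (nat_lit 374) (nat_lit 295)) (XT.lf (nat_lit 0) (nat_lit 4045483911) (nat_lit 456) (nat_lit 3996062854) (nat_lit 76) (nat_lit 4588346166) (nat_lit 101) (nat_lit 5) (nat_lit 107) (nat_lit 5) (nat_lit 102) (nat_lit 5) (nat_lit 472) (nat_lit 374) (nat_lit 294))) (XT.nd (nat_lit 78) (nat_lit 0) (nat_lit 0) (XT.lf (nat_lit 0) (nat_lit 2450391418) (nat_lit 304) (nat_lit 4489650805) (nat_lit 380) (nat_lit 5853502210) (nat_lit 97) (nat_lit 5) (nat_lit 101) (nat_lit 5) (nat_lit 102) (nat_lit 5) (nat_lit 473) (nat_lit 374) (nat_lit 293))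 (XT.lf (nat_lit 0) (nat_lit 9042966181) (nat_lit 304) (nat_lit 851495050) (nat_lit 380) (nat_lit 3065984047) (nat_lit 97) (nat_lit 5) (nat_lit 101) (nat_lit 5) (nat_lit 102) (nat_lit 5) (nat_lit 474) (nat_lit 374) (nat_lit 292))))) (XT.nd (nat_lit 234) (nat_lit 608) (nat_lit 0) (XT.nd (nat_lit 78) (nat_lit 380) (nat_lit 0) (XT.lf (nat_lit 0) (nat_lit 2615772737) (nat_lit 304) (nat_lit 10303308300) (nat_lit 380) (nat_lit 211396249) (nat_lit 93) (nat_lit 5) (nat_lit 97) (nat_lit 5) (nat_lit 98) (nat_lit 5) (nat_lit 475) (nat_lit 374) (nat_lit 291)) (XT.nd (nat_lit 78) (nat_lit 304) (nat_lit 0) (XT.lf (nat_lit 0) (nat_lit 2672601357) (nat_lit 380) (nat_lit 4030711230) (nat_lit 76) (nat_lit 6600106848) (nat_lit 92) (nat_lit 5) (nat_lit 97) (nat_lit 5) (nat_lit 93) (nat_lit 5) (nat_lit 476) (nat_lit 374) (nat_lit 290)) (XT.lf (nat_lit 0) (nat_lit 2579337547) (nat_lit 304) (nat_lit 3024969278) (nat_lit 380)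 (nat_lit 7875642991) (nat_lit 88) (nat_lit 5) (nat_lit 92) (nat_lit 5) (nat_lit 93) (nat_lit 5) (nat_lit 477) (nat_lit 374) (nat_lit 289)))) (XT.nd (nat_lit 156) (nat_lit 304) (nat_lit 0) (XT.nd (nat_lit 78) (nat_lit 304) (nat_lit 0) (XT.lf (nat_lit 0) (nat_lit 8602859551) (nat_lit 380) (nat_lit 4324368183) (nat_lit 76) (nat_lit 732633029) (nat_lit 88) (nat_lit 5) (nat_lit 93) (nat_lit 5) (nat_lit 89) (nat_lit 5) (nat_lit 478) (nat_lit 374) (nat_lit 288)) (XT.lf (nat_lit 0) (nat_lit 2358790021) (nat_lit 304) (nat_lit 9314672464) (nat_lit 380) (nat_lit 2169679805) (nat_lit 84) (nat_lit 5) (nat_lit 88) (nat_lit 5) (nat_lit 89) (nat_lit 5) (nat_lit 479) (nat_lit 374) (nat_lit 287))) (XT.nd (nat_lit 78) (nat_lit 228) (nat_lit 0) (XT.lf (nat_lit 0) (nat_lit 771222157) (nat_lit 380) (nat_lit 4836108227) (nat_lit 76) (nat_lit 8422551709) (nat_lit 83) (nat_lit 5) (nat_lit 88) (nat_lit 5) (nat_lit 84) (nat_lit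 5) (nat_lit 480) (nat_lit 374) (nat_lit 286)) (XT.lf (nat_lit 0) (nat_lit 1921022608) (nat_lit 228) (nat_lit 1810614816) (nat_lit 304) (nat_lit 10488650631) (nat_lit 80) (nat_lit 5) (nat_lit 83) (nat_lit 5) (nat_lit 84) (nat_lit 5) (nat_lit 481) (nat_lit 374) (nat_lit 285))))))) (XT.nd (nat_lit 1014) (nat_lit 1292) (nat_lit 0) (XT.nd (nat_lit 468) (nat_lit 1064) (nat_lit 0) (XT.nd (nat_lit 234) (nat_lit 304) (nat_lit 0) (XT.nd (nat_lit 78) (nat_lit 304) (nat_lit 0) (XT.lf (nat_lit 0) (nat_lit 6774706572) (nat_lit 304) (nat_lit 5583664261) (nat_lit 76) (nat_lit 2055675272) (nat_lit 80) (nat_lit 5) (nat_lit 84) (nat_lit 5) (nat_lit 81) (nat_lit 5) (nat_lit 482) (nat_lit 374) (nat_lit 284)) (XT.nd (nat_lit 78) (nat_lit 0) (nat_lit 0) (XT.lf (nat_lit 0) (nat_lit 1236098259) (nat_lit 304) (nat_lit 8640388303) (nat_lit 380) (nat_lit 4735248394) (nat_lit 76) (nat_lit 5) (nat_lit 80) (nat_lit 5) (nat_lit 81)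 (nat_lit 5) (nat_lit 483) (nat_lit 374) (nat_lit 283)) (XT.lf (nat_lit 0) (nat_lit 8233798684) (nat_lit 304) (nat_lit 4822018810) (nat_lit 380) (nat_lit 1757262165) (nat_lit 76) (nat_lit 5) (nat_lit 80) (nat_lit 5) (nat_lit 81) (nat_lit 5) (nat_lit 484) (nat_lit 374) (nat_lit 282)))) (XT.nd (nat_lit 78) (nat_lit 0) (nat_lit 0) (XT.lf (nat_lit 0) (nat_lit 315045429) (nat_lit 228) (nat_lit 928814657) (nat_lit 304) (nat_lit 13774829471) (nat_lit 72) (nat_lit 5) (nat_lit 75) (nat_lit 5) (nat_lit 76) (nat_lit 5) (nat_lit 485) (nat_lit 374) (nat_lit 281)) (XT.nd (nat_lit 78) (nat_lit 0) (nat_lit 0) (XT.lf (nat_lit 0) (nat_lit 4324142914) (nat_lit 304) (nat_lit 7856684893) (nat_lit 76) (nat_lit 3046509846) (nat_lit 72) (nat_lit 5) (nat_lit 76) (nat_lit 5) (nat_lit 73) (nat_lit 5) (nat_lit 486) (nat_lit 374) (nat_lit 280)) (XT.lf (nat_lit 0) (nat_lit 7451055748) (nat_lit 304) (nat_lit 912188820) (nat_lit 76)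 (nat_lit 7077225094) (nat_lit 72) (nat_lit 5) (nat_lit 76) (nat_lit 5) (nat_lit 73) (nat_lit 5) (nat_lit 487) (nat_lit 374) (nat_lit 279))))) (XT.nd (nat_lit 234) (nat_lit 456) (nat_lit 0) (XT.nd (nat_lit 78) (nat_lit 304) (nat_lit 0) (XT.lf (nat_lit 0) (nat_lit 6220176637) (nat_lit 304) (nat_lit 4440003222) (nat_lit 380) (nat_lit 4997302207) (nat_lit 68) (nat_lit 5) (nat_lit 72) (nat_lit 5) (nat_lit 73) (nat_lit 5) (nat_lit 488) (nat_lit 374) (nat_lit 278)) (XT.nd (nat_lit 78) (nat_lit 304) (nat_lit 0) (XT.lf (nat_lit 0) (nat_lit 13475169561) (nat_lit 304) (nat_lit 443921530) (nat_lit 380) (nat_lit 1960042528) (nat_lit 68) (nat_lit 5) (nat_lit 72) (nat_lit 5) (nat_lit 73) (nat_lit 5) (nat_lit 489) (nat_lit 374) (nat_lit 277)) (XT.lf (nat_lit 0) (nat_lit 1157662614) (nat_lit 304) (nat_lit 11335130539) (nat_lit 76) (nat_lit 3611595351) (nat_lit 64) (nat_lit 5) (nat_lit 68) (nat_lit 5) (nat_lit 65) (nat_lit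 5) (nat_lit 490) (nat_lit 374) (nat_lit 276)))) (XT.nd (nat_lit 156) (nat_lit 228) (nat_lit 0) (XT.nd (nat_lit 78) (nat_lit 228) (nat_lit 0) (XT.lf (nat_lit 0) (nat_lit 4310536144) (nat_lit 304) (nat_lit 4263476468) (nat_lit 76) (nat_lit 7759905932) (nat_lit 64) (nat_lit 5) (nat_lit 68) (nat_lit 5) (nat_lit 65) (nat_lit 5) (nat_lit 491) (nat_lit 374) (nat_lit 275)) (XT.lf (nat_lit 0) (nat_lit 2956866712) (nat_lit 228) (nat_lit 4569049497) (nat_lit 304) (nat_lit 9042144152) (nat_lit 61) (nat_lit 5) (nat_lit 64) (nat_lit 5) (nat_lit 65) (nat_lit 5) (nat_lit 492) (nat_lit 374) (nat_lit 274))) (XT.nd (nat_lit 78) (nat_lit 228) (nat_lit 0) (XT.lf (nat_lit 0) (nat_lit 10348092884) (nat_lit 228) (nat_lit 466556193) (nat_lit 304) (nat_lit 5992064991) (nat_lit 61) (nat_lit 5) (nat_lit 64) (nat_lit 5) (nat_lit 65) (nat_lit 5) (nat_lit 493) (nat_lit 374) (nat_lit 273)) (XT.lf (nat_lit 0) (nat_lit 792232404) (nat_lit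 228) (nat_lit 13386951389) (nat_lit 304) (nat_lit 2870766275) (nat_lit 58) (nat_lit 5) (nat_lit 61) (nat_lit 5) (nat_lit 62) (nat_lit 5) (nat_lit 494) (nat_lit 374) (nat_lit 272)))))) (XT.nd (nat_lit 546) (nat_lit 684) (nat_lit 0) (XT.nd (nat_lit 234) (nat_lit 304) (nat_lit 0) (XT.nd (nat_lit 78) (nat_lit 228) (nat_lit 0) (XT.lf (nat_lit 0) (nat_lit 336357005) (nat_lit 304) (nat_lit 9058022938) (nat_lit 76) (nat_lit 7903089528) (nat_lit 57) (nat_lit 5) (nat_lit 61) (nat_lit 5) (nat_lit 58) (nat_lit 5) (nat_lit 495) (nat_lit 374) (nat_lit 271)) (XT.nd (nat_lit 78) (nat_lit 228) (nat_lit 0) (XT.lf (nat_lit 0) (nat_lit 3550381426) (nat_lit 304) (nat_lit 1763818176) (nat_lit 76) (nat_lit 12235745380) (nat_lit 57) (nat_lit 5) (nat_lit 61) (nat_lit 5) (nat_lit 58) (nat_lit 5) (nat_lit 496) (nat_lit 374) (nat_lit 270)) (XT.lf (nat_lit 0) (nat_lit 5721433643) (nat_lit 228) (nat_lit 1125931703) (nat_lit 304) (nat_lit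 10959740095) (nat_lit 54) (nat_lit 5) (nat_lit 57) (nat_lit 5) (nat_lit 58) (nat_lit 5) (nat_lit 497) (nat_lit 374) (nat_lit 269)))) (XT.nd (nat_lit 156) (nat_lit 76) (nat_lit 0) (XT.nd (nat_lit 78) (nat_lit 228) (nat_lit 0) (XT.lf (nat_lit 0) (nat_lit 10224257278) (nat_lit 304) (nat_lit 4739356894) (nat_lit 76) (nat_lit 3105524412) (nat_lit 54) (nat_lit 5) (nat_lit 58) (nat_lit 5) (nat_lit 55) (nat_lit 5) (nat_lit 498) (nat_lit 374) (nat_lit 268)) (XT.lf (nat_lit 0) (nat_lit 2753144553) (nat_lit 228) (nat_lit 10922861709) (nat_lit 304) (nat_lit 4660268413) (nat_lit 51) (nat_lit 5) (nat_lit 54) (nat_lit 5) (nat_lit 55) (nat_lit 5) (nat_lit 499) (nat_lit 374) (nat_lit 267))) (XT.nd (nat_lit 78) (nat_lit 76) (nat_lit 0) (XT.lf (nat_lit 0) (nat_lit 10430541385) (nat_lit 228) (nat_lit 6780203509) (nat_lit 304) (nat_lit 1397738001) (nat_lit 51) (nat_lit 5) (nat_lit 54) (nat_lit 5) (nat_lit 55) (nat_lit 5)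 (nat_lit 500) (nat_lit 374) (nat_lit 266)) (XT.lf (nat_lit 0) (nat_lit 1887107113) (nat_lit 304) (nat_lit 666047981) (nat_lit 76) (nat_lit 16333090189) (nat_lit 50) (nat_lit 5) (nat_lit 54) (nat_lit 5) (nat_lit 51) (nat_lit 5) (nat_lit 501) (nat_lit 374) (nat_lit 265))))) (XT.nd (nat_lit 234) (nat_lit 304) (nat_lit 0) (XT.nd (nat_lit 78) (nat_lit 152) (nat_lit 0) (XT.lf (nat_lit 0) (nat_lit 5259163014) (nat_lit 304) (nat_lit 12129525272) (nat_lit 76) (nat_lit 1779893272) (nat_lit 47) (nat_lit 5) (nat_lit 51) (nat_lit 5) (nat_lit 48) (nat_lit 5) (nat_lit 502) (nat_lit 374) (nat_lit 264)) (XT.nd (nat_lit 78) (nat_lit 152) (nat_lit 0) (XT.lf (nat_lit 0) (nat_lit 8702874831) (nat_lit 304) (nat_lit 4594516385) (nat_lit 76) (nat_lit 6159096896) (nat_lit 47) (nat_lit 5) (nat_lit 51) (nat_lit 5) (nat_lit 48) (nat_lit 5) (nat_lit 503) (nat_lit 374) (nat_lit 263)) (XT.lf (nat_lit 0) (nat_lit 3104065404) (nat_lit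 152) (nat_lit 9114693596) (nat_lit 228) (nat_lit 7531335535) (nat_lit 45) (nat_lit 5) (nat_lit 47) (nat_lit 5) (nat_lit 48) (nat_lit 5) (nat_lit 504) (nat_lit 374) (nat_lit 262)))) (XT.nd (nat_lit 156) (nat_lit 304) (nat_lit 0) (XT.nd (nat_lit 78) (nat_lit 0) (nat_lit 0) (XT.lf (nat_lit 0) (nat_lit 10991244201) (nat_lit 152) (nat_lit 4827843687) (nat_lit 228) (nat_lit 4230210201) (nat_lit 45) (nat_lit 5) (nat_lit 47) (nat_lit 5) (nat_lit 48) (nat_lit 5) (nat_lit 505) (nat_lit 374) (nat_lit 261)) (XT.lf (nat_lit 0) (nat_lit 19009054311) (nat_lit 152) (nat_lit 465991998) (nat_lit 228) (nat_lit 879774347) (nat_lit 45) (nat_lit 5) (nat_lit 47) (nat_lit 5) (nat_lit 48) (nat_lit 5) (nat_lit 506) (nat_lit 374) (nat_lit 260))) (XT.nd (nat_lit 78) (nat_lit 0) (nat_lit 0) (XT.lf (nat_lit 0) (nat_lit 2557017061) (nat_lit 304) (nat_lit 14128215076) (nat_lit 76) (nat_lit 3979846547) (nat_lit 41) (nat_lit 5) (nat_lit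 45) (nat_lit 5) (nat_lit 42) (nat_lit 5) (nat_lit 507) (nat_lit 374) (nat_lit 259)) (XT.lf (nat_lit 0) (nat_lit 6046857704) (nat_lit 304) (nat_lit 6421830002) (nat_lit 76) (nat_lit 8512822960) (nat_lit 41) (nat_lit 5) (nat_lit 45) (nat_lit 5) (nat_lit 42) (nat_lit 5) (nat_lit 508) (nat_lit 374) (nat_lit 258))))))))
noncomputable def xc89 : XT := (XT.nd (nat_lit 50700) (nat_lit 0) (nat_lit 21812) (XT.nd (nat_lit 1014) (nat_lit 380) (nat_lit 0) (XT.nd (nat_lit 468) (nat_lit 532) (nat_lit 0) (XT.nd (nat_lit 234) (nat_lit 304) (nat_lit 0) (XT.nd (nat_lit 78) (nat_lit 0) (nat_lit 0) (XT.lf (nat_lit 0) (nat_lit 1431094026) (nat_lit 152) (nat_lit 8168914243) (nat_lit 228) (nat_lit 11704399593) (nat_lit 39) (nat_lit 5) (nat_lit 41) (nat_lit 5) (nat_lit 42) (nat_lit 5) (nat_lit 509) (nat_lit 374) (nat_lit 257)) (XT.nd (nat_lit 78) (nat_lit 0) (nat_lit 0) (XT.lf (nat_lit 0) (nat_lit 9501941734) (nat_lit 152) (nat_lit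 3749734841) (nat_lit 228) (nat_lit 8381544031) (nat_lit 39) (nat_lit 5) (nat_lit 41) (nat_lit 5) (nat_lit 42) (nat_lit 5) (nat_lit 510) (nat_lit 374) (nat_lit 256)) (XT.lf (nat_lit 0) (nat_lit 16965898970) (nat_lit 228) (nat_lit 4265240605) (nat_lit 76) (nat_lit 737686188) (nat_lit 39) (nat_lit 5) (nat_lit 42) (nat_lit 5) (nat_lit 40) (nat_lit 5) (nat_lit 511) (nat_lit 374) (nat_lit 255)))) (XT.nd (nat_lit 78) (nat_lit 76) (nat_lit 0) (XT.lf (nat_lit 0) (nat_lit 3757152585) (nat_lit 228) (nat_lit 17031382185) (nat_lit 304) (nat_lit 1521932113) (nat_lit 36) (nat_lit 5) (nat_lit 39) (nat_lit 5) (nat_lit 40) (nat_lit 5) (nat_lit 512) (nat_lit 374) (nat_lit 254)) (XT.nd (nat_lit 78) (nat_lit 0) (nat_lit 0) (XT.lf (nat_lit 0) (nat_lit 2015816638) (nat_lit 304) (nat_lit 10699367595) (nat_lit 76) (nat_lit 9943224539) (nat_lit 35) (nat_lit 5) (nat_lit 39) (nat_lit 5) (nat_lit 36) (nat_lit 5) (nat_lit 513) (nat_lit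 374) (nat_lit 253)) (XT.lf (nat_lit 0) (nat_lit 5589185407) (nat_lit 304) (nat_lit 2723370197) (nat_lit 76) (nat_lit 14700853891) (nat_lit 35) (nat_lit 5) (nat_lit 39) (nat_lit 5) (nat_lit 36) (nat_lit 5) (nat_lit 514) (nat_lit 374) (nat_lit 252))))) (XT.nd (nat_lit 234) (nat_lit 380) (nat_lit 0) (XT.nd (nat_lit 78) (nat_lit 0) (nat_lit 0) (XT.lf (nat_lit 0) (nat_lit 5459286654) (nat_lit 152) (nat_lit 3795694581) (nat_lit 228) (nat_lit 14120115754) (nat_lit 33) (nat_lit 5) (nat_lit 35) (nat_lit 5) (nat_lit 36) (nat_lit 5) (nat_lit 515) (nat_lit 374) (nat_lit 251)) (XT.nd (nat_lit 78) (nat_lit 0) (nat_lit 0) (XT.lf (nat_lit 0) (nat_lit 13003334182) (nat_lit 228) (nat_lit 9931057517) (nat_lit 76) (nat_lit 809447544) (nat_lit 33) (nat_lit 5) (nat_lit 36) (nat_lit 5) (nat_lit 34) (nat_lit 5) (nat_lit 516) (nat_lit 374) (nat_lit 250)) (XT.lf (nat_lit 0) (nat_lit 16837650165) (nat_lit 228) (nat_lit 1835793343)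 (nat_lit 76) (nat_lit 5446298633) (nat_lit 33) (nat_lit 5) (nat_lit 36) (nat_lit 5) (nat_lit 34) (nat_lit 5) (nat_lit 517) (nat_lit 374) (nat_lit 249)))) (XT.nd (nat_lit 156) (nat_lit 228) (nat_lit 0) (XT.nd (nat_lit 78) (nat_lit 0) (nat_lit 0) (XT.lf (nat_lit 0) (nat_lit 6482824373) (nat_lit 152) (nat_lit 14294055093) (nat_lit 228) (nat_lit 3725724699) (nat_lit 31) (nat_lit 5) (nat_lit 33) (nat_lit 5) (nat_lit 34) (nat_lit 5) (nat_lit 518) (nat_lit 374) (nat_lit 248)) (XT.lf (nat_lit 0) (nat_lit 14969279058) (nat_lit 152) (nat_lit 9824189418) (nat_lit 228) (nat_lit 99688948) (nat_lit 31) (nat_lit 5) (nat_lit 33) (nat_lit 5) (nat_lit 34) (nat_lit 5) (nat_lit 519) (nat_lit 374) (nat_lit 247))) (XT.nd (nat_lit 78) (nat_lit 152) (nat_lit 0) (XT.lf (nat_lit 0) (nat_lit 3538098643) (nat_lit 228) (nat_lit 1712571589) (nat_lit 76) (nat_lit 20040660858) (nat_lit 30) (nat_lit 5) (nat_lit 33) (nat_lit 5) (nat_lit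 31) (nat_lit 5) (nat_lit 520) (nat_lit 374) (nat_lit 246)) (XT.lf (nat_lit 0) (nat_lit 6727845445) (nat_lit 152) (nat_lit 549841569) (nat_lit 228) (nat_lit 18419165619) (nat_lit 28) (nat_lit 5) (nat_lit 30) (nat_lit 5) (nat_lit 31) (nat_lit 5) (nat_lit 521) (nat_lit 374) (nat_lit 245)))))) (XT.nd (nat_lit 49140) (nat_lit 0) (nat_lit 40888) (XT.nd (nat_lit 234) (nat_lit 228) (nat_lit 0) (XT.nd (nat_lit 78) (nat_lit 152) (nat_lit 0) (XT.lf (nat_lit 0) (nat_lit 11117947618) (nat_lit 228) (nat_lit 10800358479) (nat_lit 76) (nat_lit 4191665979) (nat_lit 28) (nat_lit 5) (nat_lit 31) (nat_lit 5) (nat_lit 29) (nat_lit 5) (nat_lit 522) (nat_lit 374) (nat_lit 244)) (XT.nd (nat_lit 78) (nat_lit 152) (nat_lit 0) (XT.lf (nat_lit 0) (nat_lit 15025665279) (nat_lit 228) (nat_lit 2494283432) (nat_lit 76) (nat_lit 9011597139) (nat_lit 28) (nat_lit 5) (nat_lit 31) (nat_lit 5) (nat_lit 29) (nat_lit 5) (nat_lit 523) (nat_lit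 374) (nat_lit 243)) (XT.lf (nat_lit 0) (nat_lit 6035197877) (nat_lit 152) (nat_lit 13002789130) (nat_lit 228) (nat_lit 7923039980) (nat_lit 26) (nat_lit 5) (nat_lit 28) (nat_lit 5) (nat_lit 29) (nat_lit 5) (nat_lit 524) (nat_lit 374) (nat_lit 242)))) (XT.nd (nat_lit 156) (nat_lit 228) (nat_lit 0) (XT.nd (nat_lit 78) (nat_lit 0) (nat_lit 0) (XT.lf (nat_lit 0) (nat_lit 14747355405) (nat_lit 152) (nat_lit 8387311580) (nat_lit 228) (nat_lit 4264353310) (nat_lit 26) (nat_lit 5) (nat_lit 28) (nat_lit 5) (nat_lit 29) (nat_lit 5) (nat_lit 525) (nat_lit 374) (nat_lit 241)) (XT.lf (nat_lit 0) (nat_lit 23612457971) (nat_lit 152) (nat_lit 3688444025) (nat_lit 228) (nat_lit 545123738) (nat_lit 26) (nat_lit 5) (nat_lit 28) (nat_lit 5) (nat_lit 29) (nat_lit 5) (nat_lit 526) (nat_lit 374) (nat_lit 240))) (XT.nd (nat_lit 48672) (nat_lit 0) (nat_lit 43092) (XT.lf (nat_lit 0) (nat_lit 3229466030) (nat_lit 228) (nat_lit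 23940631701) (nat_lit 76) (nat_lit 1130984629) (nat_lit 23) (nat_lit 5) (nat_lit 26) (nat_lit 5) (nat_lit 24) (nat_lit 5) (nat_lit 527) (nat_lit 374) (nat_lit 239)) (XT.lf (nat_lit 0) (nat_lit 1415904986) (nat_lit 380) (nat_lit 414548132) (nat_lit 0) (nat_lit 1415904986) (nat_lit 590) (nat_lit 5) (nat_lit 595) (nat_lit 4) (nat_lit 590) (nat_lit 4) (nat_lit 390) (nat_lit 375) (nat_lit 375))))) (XT.nd (nat_lit 234) (nat_lit 1292) (nat_lit 0) (XT.nd (nat_lit 78) (nat_lit 532) (nat_lit 0) (XT.lf (nat_lit 0) (nat_lit 2566353639) (nat_lit 380) (nat_lit 3219525203) (nat_lit 380) (nat_lit 717675923) (nat_lit 585) (nat_lit 4) (nat_lit 590) (nat_lit 5) (nat_lit 590) (nat_lit 4) (nat_lit 391) (nat_lit 375) (nat_lit 374)) (XT.nd (nat_lit 78) (nat_lit 456) (nat_lit 0) (XT.lf (nat_lit 0) (nat_lit 2188388226) (nat_lit 456) (nat_lit 534098475) (nat_lit 76) (nat_lit 3793276264) (nat_lit 584) (nat_lit 5) (nat_lit 590)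 (nat_lit 5) (nat_lit 585) (nat_lit 4) (nat_lit 392) (nat_lit 375) (nat_lit 373)) (XT.lf (nat_lit 0) (nat_lit 2925900839) (nat_lit 456) (nat_lit 2165803594) (nat_lit 532) (nat_lit 1437566808) (nat_lit 578) (nat_lit 5) (nat_lit 584) (nat_lit 5) (nat_lit 585) (nat_lit 4) (nat_lit 393) (nat_lit 375) (nat_lit 372)))) (XT.nd (nat_lit 156) (nat_lit 684) (nat_lit 0) (XT.nd (nat_lit 78) (nat_lit 532) (nat_lit 0) (XT.lf (nat_lit 0) (nat_lit 1424084514) (nat_lit 532) (nat_lit 136005295) (nat_lit 76) (nat_lit 4984207478) (nat_lit 577) (nat_lit 5) (nat_lit 584) (nat_lit 5) (nat_lit 578) (nat_lit 5) (nat_lit 394) (nat_lit 375) (nat_lit 371)) (XT.lf (nat_lit 0) (nat_lit 3391014111) (nat_lit 532) (nat_lit 886352030) (nat_lit 608) (nat_lit 2283113092) (nat_lit 570) (nat_lit 5) (nat_lit 577) (nat_lit 5) (nat_lit 578) (nat_lit 5) (nat_lit 395) (nat_lit 375) (nat_lit 370))) (XT.nd (nat_lit 78) (nat_lit 0) (nat_lit 0) (XT.lf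 (nat_lit 0) (nat_lit 368949684) (nat_lit 608) (nat_lit 169187392) (nat_lit 684) (nat_lit 6040173831) (nat_lit 561) (nat_lit 5) (nat_lit 569) (nat_lit 5) (nat_lit 570) (nat_lit 5) (nat_lit 396) (nat_lit 375) (nat_lit 369)) (XT.lf (nat_lit 0) (nat_lit 3343614787) (nat_lit 684) (nat_lit 2640550312) (nat_lit 76) (nat_lit 612976346) (nat_lit 561) (nat_lit 5) (nat_lit 570) (nat_lit 5) (nat_lit 562) (nat_lit 5) (nat_lit 397) (nat_lit 375) (nat_lit 368))))))) (XT.nd (nat_lit 1092) (nat_lit 11020) (nat_lit 0) (XT.nd (nat_lit 546) (nat_lit 4636) (nat_lit 0) (XT.nd (nat_lit 234) (nat_lit 1900) (nat_lit 0) (XT.nd (nat_lit 78) (nat_lit 836) (nat_lit 0) (XT.lf (nat_lit 0) (nat_lit 965432673) (nat_lit 684) (nat_lit 5181750459) (nat_lit 760) (nat_lit 470435180) (nat_lit 552) (nat_lit 5) (nat_lit 561) (nat_lit 5) (nat_lit 562) (nat_lit 5) (nat_lit 398) (nat_lit 375) (nat_lit 367)) (XT.nd (nat_lit 78) (nat_lit 760) (nat_lit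 0) (XT.lf (nat_lit 0) (nat_lit 2290141476) (nat_lit 760) (nat_lit 2020728537) (nat_lit 76) (nat_lit 2328374580) (nat_lit 551) (nat_lit 5) (nat_lit 561) (nat_lit 5) (nat_lit 552) (nat_lit 5) (nat_lit 399) (nat_lit 375) (nat_lit 366)) (XT.lf (nat_lit 0) (nat_lit 1656464282) (nat_lit 760) (nat_lit 3390248027) (nat_lit 836) (nat_lit 1615690297) (nat_lit 541) (nat_lit 5) (nat_lit 551) (nat_lit 5) (nat_lit 552) (nat_lit 5) (nat_lit 400) (nat_lit 375) (nat_lit 365)))) (XT.nd (nat_lit 156) (nat_lit 988) (nat_lit 0) (XT.nd (nat_lit 78) (nat_lit 836) (nat_lit 0) (XT.lf (nat_lit 0) (nat_lit 1107425673) (nat_lit 836) (nat_lit 1305004724) (nat_lit 76) (nat_lit 4274531956) (nat_lit 540) (nat_lit 5) (nat_lit 551) (nat_lit 5) (nat_lit 541) (nat_lit 5) (nat_lit 401) (nat_lit 375) (nat_lit 364)) (XT.lf (nat_lit 0) (nat_lit 2446090418) (nat_lit 836) (nat_lit 1371182350) (nat_lit 912) (nat_lit 2895545965) (nat_lit 529) (nat_lit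 5) (nat_lit 540) (nat_lit 5) (nat_lit 541) (nat_lit 5) (nat_lit 402) (nat_lit 375) (nat_lit 363))) (XT.nd (nat_lit 78) (nat_lit 988) (nat_lit 0) (XT.lf (nat_lit 0) (nat_lit 6244956656) (nat_lit 836) (nat_lit 284042337) (nat_lit 912) (nat_lit 211334793) (nat_lit 529) (nat_lit 5) (nat_lit 540) (nat_lit 5) (nat_lit 541) (nat_lit 5) (nat_lit 403) (nat_lit 375) (nat_lit 362)) (XT.lf (nat_lit 0) (nat_lit 2460410626) (nat_lit 988) (nat_lit 3440877543) (nat_lit 76) (nat_lit 867534652) (nat_lit 516) (nat_lit 5) (nat_lit 529) (nat_lit 5) (nat_lit 517) (nat_lit 5) (nat_lit 404) (nat_lit 375) (nat_lit 361))))) (XT.nd (nat_lit 234) (nat_lit 2508) (nat_lit 0) (XT.nd (nat_lit 78) (nat_lit 1140) (nat_lit 0) (XT.lf (nat_lit 0) (nat_lit 392445664) (nat_lit 988) (nat_lit 4738717237) (nat_lit 1064) (nat_lit 1667812461) (nat_lit 503) (nat_lit 5) (nat_lit 516) (nat_lit 5) (nat_lit 517) (nat_lit 5) (nat_lit 405) (nat_lit 375)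 (nat_lit 360)) (XT.nd (nat_lit 78) (nat_lit 1064) (nat_lit 0) (XT.lf (nat_lit 0) (nat_lit 976408160) (nat_lit 1064) (nat_lit 2533603448) (nat_lit 76) (nat_lit 3320387186) (nat_lit 502) (nat_lit 5) (nat_lit 516) (nat_lit 5) (nat_lit 503) (nat_lit 5) (nat_lit 406) (nat_lit 375) (nat_lit 359)) (XT.lf (nat_lit 0) (nat_lit 1378124437) (nat_lit 1064) (nat_lit 2224198652) (nat_lit 1140) (nat_lit 3260968806) (nat_lit 488) (nat_lit 5) (nat_lit 502) (nat_lit 5) (nat_lit 503) (nat_lit 5) (nat_lit 407) (nat_lit 375) (nat_lit 358)))) (XT.nd (nat_lit 156) (nat_lit 1292) (nat_lit 0) (XT.nd (nat_lit 78) (nat_lit 1216) (nat_lit 0) (XT.lf (nat_lit 0) (nat_lit 5357044985) (nat_lit 1064) (nat_lit 883725660) (nat_lit 1140) (nat_lit 656954795) (nat_lit 488) (nat_lit 5) (nat_lit 502) (nat_lit 5) (nat_lit 503) (nat_lit 5) (nat_lit 408) (nat_lit 375) (nat_lit 357)) (XT.lf (nat_lit 0) (nat_lit 1935952669) (nat_lit 1216) (nat_lit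 4480265977) (nat_lit 76) (nat_lit 517188417) (nat_lit 472) (nat_lit 5) (nat_lit 488) (nat_lit 5) (nat_lit 473) (nat_lit 5) (nat_lit 409) (nat_lit 375) (nat_lit 356))) (XT.nd (nat_lit 78) (nat_lit 1292) (nat_lit 0) (XT.lf (nat_lit 0) (nat_lit 4532749397) (nat_lit 1216) (nat_lit 478425695) (nat_lit 76) (nat_lit 1959401908) (nat_lit 472) (nat_lit 5) (nat_lit 488) (nat_lit 5) (nat_lit 473) (nat_lit 5) (nat_lit 410) (nat_lit 375) (nat_lit 355)) (XT.lf (nat_lit 0) (nat_lit 139497666) (nat_lit 1292) (nat_lit 3404741578) (nat_lit 76) (nat_lit 3464928189) (nat_lit 455) (nat_lit 5) (nat_lit 472) (nat_lit 5) (nat_lit 456) (nat_lit 5) (nat_lit 411) (nat_lit 375) (nat_lit 354)))))) (XT.nd (nat_lit 546) (nat_lit 5244) (nat_lit 0) (XT.nd (nat_lit 234) (nat_lit 3040) (nat_lit 0) (XT.nd (nat_lit 78) (nat_lit 1444) (nat_lit 0) (XT.lf (nat_lit 0) (nat_lit 673757575) (nat_lit 1292) (nat_lit 2015597126) (nat_lit 1368) (nat_lit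 4359853721) (nat_lit 438) (nat_lit 5) (nat_lit 455) (nat_lit 5) (nat_lit 456) (nat_lit 5) (nat_lit 412) (nat_lit 375) (nat_lit 353)) (XT.nd (nat_lit 78) (nat_lit 1444) (nat_lit 0) (XT.lf (nat_lit 0) (nat_lit 4834413418) (nat_lit 1292) (nat_lit 425397251) (nat_lit 1368) (nat_lit 1830919665) (nat_lit 438) (nat_lit 5) (nat_lit 455) (nat_lit 5) (nat_lit 456) (nat_lit 5) (nat_lit 413) (nat_lit 375) (nat_lit 352)) (XT.lf (nat_lit 0) (nat_lit 706554799) (nat_lit 1444) (nat_lit 5221707421) (nat_lit 76) (nat_lit 1205437003) (nat_lit 419) (nat_lit 5) (nat_lit 438) (nat_lit 5) (nat_lit 420) (nat_lit 5) (nat_lit 414) (nat_lit 375) (nat_lit 351)))) (XT.nd (nat_lit 156) (nat_lit 1596) (nat_lit 0) (XT.nd (nat_lit 78) (nat_lit 1444) (nat_lit 0) (XT.lf (nat_lit 0) (nat_lit 3236509280) (nat_lit 1444) (nat_lit 1044306729) (nat_lit 76) (nat_lit 2897212481) (nat_lit 419) (nat_lit 5) (nat_lit 438) (nat_lit 5) (nat_lit 420)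 (nat_lit 5) (nat_lit 415) (nat_lit 375) (nat_lit 350)) (XT.lf (nat_lit 0) (nat_lit 3213403041) (nat_lit 1444) (nat_lit 2573704801) (nat_lit 1520) (nat_lit 1436802248) (nat_lit 400) (nat_lit 5) (nat_lit 419) (nat_lit 5) (nat_lit 420) (nat_lit 5) (nat_lit 416) (nat_lit 375) (nat_lit 349))) (XT.nd (nat_lit 78) (nat_lit 0) (nat_lit 0) (XT.lf (nat_lit 0) (nat_lit 250007274) (nat_lit 1520) (nat_lit 811505162) (nat_lit 1596) (nat_lit 6209952440) (nat_lit 379) (nat_lit 5) (nat_lit 399) (nat_lit 5) (nat_lit 400) (nat_lit 5) (nat_lit 417) (nat_lit 375) (nat_lit 348)) (XT.lf (nat_lit 0) (nat_lit 3574276411) (nat_lit 1596) (nat_lit 2732037615) (nat_lit 76) (nat_lit 1013855154) (nat_lit 379) (nat_lit 5) (nat_lit 400) (nat_lit 5) (nat_lit 380) (nat_lit 5) (nat_lit 418) (nat_lit 375) (nat_lit 347))))) (XT.nd (nat_lit 234) (nat_lit 1900) (nat_lit 0) (XT.nd (nat_lit 78) (nat_lit 1748) (nat_lit 0) (XT.lf (nat_lit 0) (nat_lit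 1613263006) (nat_lit 1596) (nat_lit 4491069067) (nat_lit 1672) (nat_lit 1266236342) (nat_lit 358) (nat_lit 5) (nat_lit 379) (nat_lit 5) (nat_lit 380) (nat_lit 5) (nat_lit 419) (nat_lit 375) (nat_lit 346)) (XT.nd (nat_lit 78) (nat_lit 1672) (nat_lit 0) (XT.lf (nat_lit 0) (nat_lit 1216375167) (nat_lit 1672) (nat_lit 1393522853) (nat_lit 76) (nat_lit 4812574254) (nat_lit 357) (nat_lit 5) (nat_lit 379) (nat_lit 5) (nat_lit 358) (nat_lit 5) (nat_lit 420) (nat_lit 375) (nat_lit 345)) (XT.lf (nat_lit 0) (nat_lit 3043879252) (nat_lit 1672) (nat_lit 660006791) (nat_lit 1748) (nat_lit 3771974750) (nat_lit 335) (nat_lit 5) (nat_lit 357) (nat_lit 5) (nat_lit 358) (nat_lit 5) (nat_lit 421) (nat_lit 375) (nat_lit 344)))) (XT.nd (nat_lit 156) (nat_lit 836) (nat_lit 0) (XT.nd (nat_lit 78) (nat_lit 76) (nat_lit 0) (XT.lf (nat_lit 0) (nat_lit 4251776) (nat_lit 988) (nat_lit 6208042108) (nat_lit 1064) (nat_lit 1318657147)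 (nat_lit 322) (nat_lit 5) (nat_lit 335) (nat_lit 5) (nat_lit 336) (nat_lit 5) (nat_lit 422) (nat_lit 375) (nat_lit 343)) (XT.lf (nat_lit 0) (nat_lit 1155851090) (nat_lit 1064) (nat_lit 3055790969) (nat_lit 76) (nat_lit 3375648993) (nat_lit 321) (nat_lit 5) (nat_lit 335) (nat_lit 5) (nat_lit 322) (nat_lit 5) (nat_lit 423) (nat_lit 375) (nat_lit 342))) (XT.nd (nat_lit 78) (nat_lit 0) (nat_lit 0) (XT.lf (nat_lit 0) (nat_lit 1469709783) (nat_lit 836) (nat_lit 2156296901) (nat_lit 912) (nat_lit 4019354186) (nat_lit 310) (nat_lit 5) (nat_lit 321) (nat_lit 5) (nat_lit 322) (nat_lit 5) (nat_lit 424) (nat_lit 375) (nat_lit 341)) (XT.lf (nat_lit 0) (nat_lit 6082072699) (nat_lit 836) (nat_lit 38858165) (nat_lit 912) (nat_lit 1584206460) (nat_lit 310) (nat_lit 5) (nat_lit 321) (nat_lit 5) (nat_lit 322) (nat_lit 5) (nat_lit 425) (nat_lit 375) (nat_lit 340))))))))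
noncomputable def xc90 : XT := (XT.nd (nat_lit 2106) (nat_lit 5928) (nat_lit 0) (XT.nd (nat_lit 1014) (nat_lit 4864) (nat_lit 0) (XT.nd (nat_lit 468) (nat_lit 2888) (nat_lit 0) (XT.nd (nat_lit 234) (nat_lit 1520) (nat_lit 0) (XT.nd (nat_lit 78) (nat_lit 760) (nat_lit 0) (XT.lf (nat_lit 0) (nat_lit 876721815) (nat_lit 912) (nat_lit 4771109734) (nat_lit 76) (nat_lit 2118433914) (nat_lit 298) (nat_lit 5) (nat_lit 310) (nat_lit 5) (nat_lit 299) (nat_lit 5) (nat_lit 426) (nat_lit 375) (nat_lit 339)) (XT.nd (nat_lit 78) (nat_lit 760) (nat_lit 0) (XT.lf (nat_lit 0) (nat_lit 3332879707) (nat_lit 912) (nat_lit 156938554) (nat_lit 76) (nat_lit 4339293521) (nat_lit 298) (nat_lit 5) (nat_lit 310) (nat_lit 5) (nat_lit 299) (nat_lit 5) (nat_lit 427) (nat_lit 375) (nat_lit 338)) (XT.lf (nat_lit 0) (nat_lit 4564814930) (nat_lit 760) (nat_lit 1259829377) (nat_lit 836) (nat_lit 2068889596) (nat_lit 288) (nat_lit 5) (nat_lit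 298) (nat_lit 5) (nat_lit 299) (nat_lit 5) (nat_lit 428) (nat_lit 375) (nat_lit 337)))) (XT.nd (nat_lit 78) (nat_lit 684) (nat_lit 0) (XT.lf (nat_lit 0) (nat_lit 375512571) (nat_lit 836) (nat_lit 6571898948) (nat_lit 76) (nat_lit 1012349747) (nat_lit 277) (nat_lit 5) (nat_lit 288) (nat_lit 5) (nat_lit 278) (nat_lit 5) (nat_lit 429) (nat_lit 375) (nat_lit 336)) (XT.nd (nat_lit 78) (nat_lit 684) (nat_lit 0) (XT.lf (nat_lit 0) (nat_lit 2829567897) (nat_lit 836) (nat_lit 1850638730) (nat_lit 76) (nat_lit 3347109438) (nat_lit 277) (nat_lit 5) (nat_lit 288) (nat_lit 5) (nat_lit 278) (nat_lit 5) (nat_lit 430) (nat_lit 375) (nat_lit 335)) (XT.lf (nat_lit 0) (nat_lit 2959273015) (nat_lit 684) (nat_lit 2351089019) (nat_lit 760) (nat_lit 2786351625) (nat_lit 268) (nat_lit 5) (nat_lit 277) (nat_lit 5) (nat_lit 278) (nat_lit 5) (nat_lit 431) (nat_lit 375) (nat_lit 334))))) (XT.nd (nat_lit 234) (nat_lit 1368) (nat_lit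 0) (XT.nd (nat_lit 78) (nat_lit 1520) (nat_lit 0) (XT.lf (nat_lit 0) (nat_lit 7812383051) (nat_lit 760) (nat_lit 322159080) (nat_lit 76) (nat_lit 33568824) (nat_lit 268) (nat_lit 5) (nat_lit 278) (nat_lit 5) (nat_lit 269) (nat_lit 5) (nat_lit 432) (nat_lit 375) (nat_lit 333)) (XT.nd (nat_lit 78) (nat_lit 684) (nat_lit 0) (XT.lf (nat_lit 0) (nat_lit 2100774775) (nat_lit 836) (nat_lit 3664893700) (nat_lit 76) (nat_lit 2474931908) (nat_lit 257) (nat_lit 5) (nat_lit 268) (nat_lit 5) (nat_lit 258) (nat_lit 5) (nat_lit 433) (nat_lit 375) (nat_lit 332)) (XT.lf (nat_lit 0) (nat_lit 1230637638) (nat_lit 684) (nat_lit 3341131325) (nat_lit 760) (nat_lit 3743362552) (nat_lit 248) (nat_lit 5) (nat_lit 257) (nat_lit 5) (nat_lit 258) (nat_lit 5) (nat_lit 434) (nat_lit 375) (nat_lit 331)))) (XT.nd (nat_lit 156) (nat_lit 608) (nat_lit 0) (XT.nd (nat_lit 78) (nat_lit 760) (nat_lit 0) (XT.lf (nat_lit 0) (nat_lit 6229518566)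 (nat_lit 684) (nat_lit 847709730) (nat_lit 760) (nat_lit 1314264692) (nat_lit 248) (nat_lit 5) (nat_lit 257) (nat_lit 5) (nat_lit 258) (nat_lit 5) (nat_lit 435) (nat_lit 375) (nat_lit 330)) (XT.lf (nat_lit 0) (nat_lit 1138708077) (nat_lit 760) (nat_lit 5636009574) (nat_lit 76) (nat_lit 1694740985) (nat_lit 238) (nat_lit 5) (nat_lit 248) (nat_lit 5) (nat_lit 239) (nat_lit 5) (nat_lit 436) (nat_lit 375) (nat_lit 329))) (XT.nd (nat_lit 78) (nat_lit 608) (nat_lit 0) (XT.lf (nat_lit 0) (nat_lit 3604757938) (nat_lit 760) (nat_lit 649438680) (nat_lit 76) (nat_lit 4295019199) (nat_lit 238) (nat_lit 5) (nat_lit 248) (nat_lit 5) (nat_lit 239) (nat_lit 5) (nat_lit 437) (nat_lit 375) (nat_lit 328)) (XT.lf (nat_lit 0) (nat_lit 4451700838) (nat_lit 608) (nat_lit 1659469736) (nat_lit 684) (nat_lit 2519614262) (nat_lit 230) (nat_lit 5) (nat_lit 238) (nat_lit 5) (nat_lit 239) (nat_lit 5) (nat_lit 438) (nat_lit 375) (nat_lit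 327)))))) (XT.nd (nat_lit 546) (nat_lit 2280) (nat_lit 0) (XT.nd (nat_lit 234) (nat_lit 1216) (nat_lit 0) (XT.nd (nat_lit 78) (nat_lit 684) (nat_lit 0) (XT.lf (nat_lit 0) (nat_lit 911273907) (nat_lit 684) (nat_lit 7735712167) (nat_lit 760) (nat_lit 67450463) (nat_lit 221) (nat_lit 5) (nat_lit 230) (nat_lit 5) (nat_lit 231) (nat_lit 5) (nat_lit 439) (nat_lit 375) (nat_lit 326)) (XT.nd (nat_lit 78) (nat_lit 608) (nat_lit 0) (XT.lf (nat_lit 0) (nat_lit 2403788411) (nat_lit 760) (nat_lit 2710339000) (nat_lit 76) (nat_lit 3685314174) (nat_lit 220) (nat_lit 5) (nat_lit 230) (nat_lit 5) (nat_lit 221) (nat_lit 5) (nat_lit 440) (nat_lit 375) (nat_lit 325)) (XT.lf (nat_lit 0) (nat_lit 2472946160) (nat_lit 608) (nat_lit 2430121864) (nat_lit 684) (nat_lit 3983514085) (nat_lit 212) (nat_lit 5) (nat_lit 220) (nat_lit 5) (nat_lit 221) (nat_lit 5) (nat_lit 441) (nat_lit 375) (nat_lit 324)))) (XT.nd (nat_lit 156) (nat_lit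 532) (nat_lit 0) (XT.nd (nat_lit 78) (nat_lit 684) (nat_lit 0) (XT.lf (nat_lit 0) (nat_lit 7436491860) (nat_lit 684) (nat_lit 1224389239) (nat_lit 76) (nat_lit 314935161) (nat_lit 212) (nat_lit 5) (nat_lit 221) (nat_lit 5) (nat_lit 213) (nat_lit 5) (nat_lit 442) (nat_lit 375) (nat_lit 323)) (XT.lf (nat_lit 0) (nat_lit 948288894) (nat_lit 684) (nat_lit 5010079721) (nat_lit 76) (nat_lit 3108234336) (nat_lit 203) (nat_lit 5) (nat_lit 212) (nat_lit 5) (nat_lit 204) (nat_lit 5) (nat_lit 443) (nat_lit 375) (nat_lit 322))) (XT.nd (nat_lit 78) (nat_lit 0) (nat_lit 0) (XT.lf (nat_lit 0) (nat_lit 250480284) (nat_lit 532) (nat_lit 3189194790) (nat_lit 608) (nat_lit 5719866189) (nat_lit 196) (nat_lit 5) (nat_lit 203) (nat_lit 5) (nat_lit 204) (nat_lit 5) (nat_lit 444) (nat_lit 375) (nat_lit 321)) (XT.lf (nat_lit 0) (nat_lit 5641282412) (nat_lit 532) (nat_lit 338356179) (nat_lit 608) (nat_lit 3274756162) (nat_lit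 196) (nat_lit 5) (nat_lit 203) (nat_lit 5) (nat_lit 204) (nat_lit 5) (nat_lit 445) (nat_lit 375) (nat_lit 320))))) (XT.nd (nat_lit 234) (nat_lit 1064) (nat_lit 0) (XT.nd (nat_lit 78) (nat_lit 608) (nat_lit 0) (XT.lf (nat_lit 0) (nat_lit 1752350028) (nat_lit 608) (nat_lit 6811873746) (nat_lit 684) (nat_lit 787075878) (nat_lit 188) (nat_lit 5) (nat_lit 196) (nat_lit 5) (nat_lit 197) (nat_lit 5) (nat_lit 446) (nat_lit 375) (nat_lit 319)) (XT.nd (nat_lit 78) (nat_lit 532) (nat_lit 0) (XT.lf (nat_lit 0) (nat_lit 1719953039) (nat_lit 684) (nat_lit 2232231710) (nat_lit 76) (nat_lit 5497909177) (nat_lit 187) (nat_lit 5) (nat_lit 196) (nat_lit 5) (nat_lit 188) (nat_lit 5) (nat_lit 447) (nat_lit 375) (nat_lit 318)) (XT.lf (nat_lit 0) (nat_lit 3236996748) (nat_lit 532) (nat_lit 1017186034) (nat_lit 608) (nat_lit 5296854278) (nat_lit 180) (nat_lit 5) (nat_lit 187) (nat_lit 5) (nat_lit 188) (nat_lit 5) (nat_lit 448)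 (nat_lit 375) (nat_lit 317)))) (XT.nd (nat_lit 156) (nat_lit 532) (nat_lit 0) (XT.nd (nat_lit 78) (nat_lit 532) (nat_lit 0) (XT.lf (nat_lit 0) (nat_lit 6833908559) (nat_lit 608) (nat_lit 863184207) (nat_lit 76) (nat_lit 1957038506) (nat_lit 180) (nat_lit 5) (nat_lit 188) (nat_lit 5) (nat_lit 181) (nat_lit 5) (nat_lit 449) (nat_lit 375) (nat_lit 316)) (XT.lf (nat_lit 0) (nat_lit 4710137807) (nat_lit 532) (nat_lit 4759957687) (nat_lit 608) (nat_lit 289122425) (nat_lit 173) (nat_lit 5) (nat_lit 180) (nat_lit 5) (nat_lit 181) (nat_lit 5) (nat_lit 450) (nat_lit 375) (nat_lit 315))) (XT.nd (nat_lit 78) (nat_lit 0) (nat_lit 0) (XT.lf (nat_lit 0) (nat_lit 490068473) (nat_lit 456) (nat_lit 1749153737) (nat_lit 532) (nat_lit 7627379386) (nat_lit 166) (nat_lit 5) (nat_lit 172) (nat_lit 5) (nat_lit 173) (nat_lit 5) (nat_lit 451) (nat_lit 375) (nat_lit 314)) (XT.lf (nat_lit 0) (nat_lit 4824934795) (nat_lit 532) (nat_lit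 3819835814) (nat_lit 76) (nat_lit 1331136945) (nat_lit 166) (nat_lit 5) (nat_lit 173) (nat_lit 5) (nat_lit 167) (nat_lit 5) (nat_lit 452) (nat_lit 375) (nat_lit 313))))))) (XT.nd (nat_lit 1014) (nat_lit 2584) (nat_lit 0) (XT.nd (nat_lit 468) (nat_lit 1824) (nat_lit 0) (XT.nd (nat_lit 234) (nat_lit 456) (nat_lit 0) (XT.nd (nat_lit 78) (nat_lit 532) (nat_lit 0) (XT.lf (nat_lit 0) (nat_lit 1818992952) (nat_lit 532) (nat_lit 5635370414) (nat_lit 608) (nat_lit 2633221990) (nat_lit 159) (nat_lit 5) (nat_lit 166) (nat_lit 5) (nat_lit 167) (nat_lit 5) (nat_lit 453) (nat_lit 375) (nat_lit 312)) (XT.nd (nat_lit 78) (nat_lit 532) (nat_lit 0) (XT.lf (nat_lit 0) (nat_lit 7581373611) (nat_lit 532) (nat_lit 2549597146) (nat_lit 608) (nat_lit 70659410) (nat_lit 159) (nat_lit 5) (nat_lit 166) (nat_lit 5) (nat_lit 167) (nat_lit 5) (nat_lit 454) (nat_lit 375) (nat_lit 311)) (XT.lf (nat_lit 0) (nat_lit 2503490045) (nat_lit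 532) (nat_lit 7197031916) (nat_lit 76) (nat_lit 617254159) (nat_lit 152) (nat_lit 5) (nat_lit 159) (nat_lit 5) (nat_lit 153) (nat_lit 5) (nat_lit 455) (nat_lit 375) (nat_lit 310)))) (XT.nd (nat_lit 78) (nat_lit 456) (nat_lit 0) (XT.lf (nat_lit 0) (nat_lit 5132375479) (nat_lit 532) (nat_lit 1482208226) (nat_lit 76) (nat_lit 3821591764) (nat_lit 152) (nat_lit 5) (nat_lit 159) (nat_lit 5) (nat_lit 153) (nat_lit 5) (nat_lit 456) (nat_lit 375) (nat_lit 309)) (XT.nd (nat_lit 78) (nat_lit 0) (nat_lit 0) (XT.lf (nat_lit 0) (nat_lit 4364020371) (nat_lit 456) (nat_lit 3448361914) (nat_lit 532) (nat_lit 2744612980) (nat_lit 146) (nat_lit 5) (nat_lit 152) (nat_lit 5) (nat_lit 153) (nat_lit 5) (nat_lit 457) (nat_lit 375) (nat_lit 308)) (XT.lf (nat_lit 0) (nat_lit 10307402774) (nat_lit 456) (nat_lit 219067711) (nat_lit 532) (nat_lit 154174221) (nat_lit 146) (nat_lit 5) (nat_lit 152) (nat_lit 5) (nat_lit 153) (nat_lit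 5) (nat_lit 458) (nat_lit 375) (nat_lit 307))))) (XT.nd (nat_lit 234) (nat_lit 836) (nat_lit 0) (XT.nd (nat_lit 78) (nat_lit 456) (nat_lit 0) (XT.lf (nat_lit 0) (nat_lit 2482816005) (nat_lit 532) (nat_lit 5246136399) (nat_lit 76) (nat_lit 3076966150) (nat_lit 139) (nat_lit 5) (nat_lit 146) (nat_lit 5) (nat_lit 140) (nat_lit 5) (nat_lit 459) (nat_lit 375) (nat_lit 306)) (XT.nd (nat_lit 78) (nat_lit 0) (nat_lit 0) (XT.lf (nat_lit 0) (nat_lit 649144355) (nat_lit 456) (nat_lit 4500673162) (nat_lit 532) (nat_lit 5784294819) (nat_lit 133) (nat_lit 5) (nat_lit 139) (nat_lit 5) (nat_lit 140) (nat_lit 5) (nat_lit 460) (nat_lit 375) (nat_lit 305)) (XT.lf (nat_lit 0) (nat_lit 6693945825) (nat_lit 456) (nat_lit 1182874118) (nat_lit 532) (nat_lit 3187937966) (nat_lit 133) (nat_lit 5) (nat_lit 139) (nat_lit 5) (nat_lit 140) (nat_lit 5) (nat_lit 461) (nat_lit 375) (nat_lit 304)))) (XT.nd (nat_lit 156) (nat_lit 380)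 (nat_lit 0) (XT.nd (nat_lit 78) (nat_lit 76) (nat_lit 0) (XT.lf (nat_lit 0) (nat_lit 1629471707) (nat_lit 380) (nat_lit 9025708995) (nat_lit 456) (nat_lit 542920046) (nat_lit 128) (nat_lit 5) (nat_lit 133) (nat_lit 5) (nat_lit 134) (nat_lit 5) (nat_lit 462) (nat_lit 375) (nat_lit 303)) (XT.lf (nat_lit 0) (nat_lit 2136132981) (nat_lit 456) (nat_lit 3585901911) (nat_lit 76) (nat_lit 5611627672) (nat_lit 127) (nat_lit 5) (nat_lit 133) (nat_lit 5) (nat_lit 128) (nat_lit 5) (nat_lit 463) (nat_lit 375) (nat_lit 302))) (XT.nd (nat_lit 78) (nat_lit 0) (nat_lit 0) (XT.lf (nat_lit 0) (nat_lit 2507170931) (nat_lit 380) (nat_lit 2343199336) (nat_lit 456) (nat_lit 6621735641) (nat_lit 122) (nat_lit 5) (nat_lit 127) (nat_lit 5) (nat_lit 128) (nat_lit 5) (nat_lit 464) (nat_lit 375) (nat_lit 301)) (XT.lf (nat_lit 0) (nat_lit 7623081346) (nat_lit 456) (nat_lit 2888276122) (nat_lit 76) (nat_lit 1101896012) (nat_lit 122)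 (nat_lit 5) (nat_lit 128) (nat_lit 5) (nat_lit 123) (nat_lit 5) (nat_lit 465) (nat_lit 375) (nat_lit 300)))))) (XT.nd (nat_lit 546) (nat_lit 988) (nat_lit 0) (XT.nd (nat_lit 234) (nat_lit 760) (nat_lit 0) (XT.nd (nat_lit 78) (nat_lit 456) (nat_lit 0) (XT.lf (nat_lit 0) (nat_lit 3299604118) (nat_lit 380) (nat_lit 7161920492) (nat_lit 456) (nat_lit 1295512600) (nat_lit 117) (nat_lit 5) (nat_lit 122) (nat_lit 5) (nat_lit 123) (nat_lit 5) (nat_lit 466) (nat_lit 375) (nat_lit 299)) (XT.nd (nat_lit 78) (nat_lit 380) (nat_lit 0) (XT.lf (nat_lit 0) (nat_lit 1426914689) (nat_lit 456) (nat_lit 2300667745) (nat_lit 76) (nat_lit 8176084906) (nat_lit 116) (nat_lit 5) (nat_lit 122) (nat_lit 5) (nat_lit 117) (nat_lit 5) (nat_lit 467) (nat_lit 375) (nat_lit 298)) (XT.lf (nat_lit 0) (nat_lit 3985482876) (nat_lit 380) (nat_lit 200795737) (nat_lit 456) (nat_lit 7866801177) (nat_lit 111) (nat_lit 5) (nat_lit 116) (nat_lit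 5) (nat_lit 117) (nat_lit 5) (nat_lit 468) (nat_lit 375) (nat_lit 297)))) (XT.nd (nat_lit 156) (nat_lit 456) (nat_lit 0) (XT.nd (nat_lit 78) (nat_lit 304) (nat_lit 0) (XT.lf (nat_lit 0) (nat_lit 7012561030) (nat_lit 456) (nat_lit 1836437318) (nat_lit 76) (nat_lit 3356264853) (nat_lit 111) (nat_lit 5) (nat_lit 117) (nat_lit 5) (nat_lit 112) (nat_lit 5) (nat_lit 469) (nat_lit 375) (nat_lit 296)) (XT.lf (nat_lit 0) (nat_lit 4540651943) (nat_lit 304) (nat_lit 5360172724) (nat_lit 380) (nat_lit 2459573498) (nat_lit 107) (nat_lit 5) (nat_lit 111) (nat_lit 5) (nat_lit 112) (nat_lit 5) (nat_lit 470) (nat_lit 375) (nat_lit 295))) (XT.nd (nat_lit 78) (nat_lit 380) (nat_lit 0) (XT.lf (nat_lit 0) (nat_lit 311039477) (nat_lit 380) (nat_lit 1487450231) (nat_lit 76) (nat_lit 10720377310) (nat_lit 106) (nat_lit 5) (nat_lit 111) (nat_lit 5) (nat_lit 107) (nat_lit 5) (nat_lit 471) (nat_lit 375) (nat_lit 294)) (XT.lf (nat_lit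 0) (nat_lit 3123897708) (nat_lit 456) (nat_lit 7707927560) (nat_lit 76) (nat_lit 1847975507) (nat_lit 101) (nat_lit 5) (nat_lit 107) (nat_lit 5) (nat_lit 102) (nat_lit 5) (nat_lit 472) (nat_lit 375) (nat_lit 293))))) (XT.nd (nat_lit 234) (nat_lit 684) (nat_lit 0) (XT.nd (nat_lit 78) (nat_lit 304) (nat_lit 0) (XT.lf (nat_lit 0) (nat_lit 5990365226) (nat_lit 456) (nat_lit 1311675625) (nat_lit 76) (nat_lit 5541981016) (nat_lit 101) (nat_lit 5) (nat_lit 107) (nat_lit 5) (nat_lit 102) (nat_lit 5) (nat_lit 473) (nat_lit 375) (nat_lit 292)) (XT.nd (nat_lit 78) (nat_lit 0) (nat_lit 0) (XT.lf (nat_lit 0) (nat_lit 5245521493) (nat_lit 304) (nat_lit 3678574396) (nat_lit 380) (nat_lit 4087248211) (nat_lit 97) (nat_lit 5) (nat_lit 101) (nat_lit 5) (nat_lit 102) (nat_lit 5) (nat_lit 474) (nat_lit 375) (nat_lit 291)) (XT.lf (nat_lit 0) (nat_lit 11901517163) (nat_lit 380) (nat_lit 1266322554) (nat_lit 76) (nat_lit 14487832)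 (nat_lit 97) (nat_lit 5) (nat_lit 102) (nat_lit 5) (nat_lit 98) (nat_lit 5) (nat_lit 475) (nat_lit 375) (nat_lit 290)))) (XT.nd (nat_lit 156) (nat_lit 304) (nat_lit 0) (XT.nd (nat_lit 78) (nat_lit 0) (nat_lit 0) (XT.lf (nat_lit 0) (nat_lit 1596999352) (nat_lit 380) (nat_lit 7992501623) (nat_lit 76) (nat_lit 3766319039) (nat_lit 92) (nat_lit 5) (nat_lit 97) (nat_lit 5) (nat_lit 93) (nat_lit 5) (nat_lit 476) (nat_lit 375) (nat_lit 289)) (XT.lf (nat_lit 0) (nat_lit 4500362773) (nat_lit 380) (nat_lit 1433779335) (nat_lit 76) (nat_lit 7598782170) (nat_lit 92) (nat_lit 5) (nat_lit 97) (nat_lit 5) (nat_lit 93) (nat_lit 5) (nat_lit 477) (nat_lit 375) (nat_lit 288))) (XT.nd (nat_lit 78) (nat_lit 0) (nat_lit 0) (XT.lf (nat_lit 0) (nat_lit 5290854983) (nat_lit 304) (nat_lit 2182327022) (nat_lit 380) (nat_lit 6240174793) (nat_lit 88) (nat_lit 5) (nat_lit 92) (nat_lit 5) (nat_lit 93) (nat_lit 5) (nat_lit 478) (nat_lit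 375) (nat_lit 287)) (XT.lf (nat_lit 0) (nat_lit 10503007760) (nat_lit 380) (nat_lit 1773346818) (nat_lit 76) (nat_lit 1621106059) (nat_lit 88) (nat_lit 5) (nat_lit 93) (nat_lit 5) (nat_lit 89) (nat_lit 5) (nat_lit 479) (nat_lit 375) (nat_lit 286))))))))
noncomputable def xc91 : XT := (XT.nd (nat_lit 2106) (nat_lit 1520) (nat_lit 0) (XT.nd (nat_lit 1014) (nat_lit 1444) (nat_lit 0) (XT.nd (nat_lit 468) (nat_lit 912) (nat_lit 0) (XT.nd (nat_lit 234) (nat_lit 304) (nat_lit 0) (XT.nd (nat_lit 78) (nat_lit 304) (nat_lit 0) (XT.lf (nat_lit 0) (nat_lit 5026122519) (nat_lit 304) (nat_lit 8592027891) (nat_lit 380) (nat_lit 466615135) (nat_lit 84) (nat_lit 5) (nat_lit 88) (nat_lit 5) (nat_lit 89) (nat_lit 5) (nat_lit 480) (nat_lit 375) (nat_lit 285)) (XT.nd (nat_lit 78) (nat_lit 228) (nat_lit 0) (XT.lf (nat_lit 0) (nat_lit 2476404593) (nat_lit 380) (nat_lit 2340617525) (nat_lit 76) (nat_lit 9458686662) (nat_lit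 83) (nat_lit 5) (nat_lit 88) (nat_lit 5) (nat_lit 84) (nat_lit 5) (nat_lit 481) (nat_lit 375) (nat_lit 284)) (XT.lf (nat_lit 0) (nat_lit 4534601895) (nat_lit 228) (nat_lit 945013400) (nat_lit 304) (nat_lit 8990654957) (nat_lit 80) (nat_lit 5) (nat_lit 83) (nat_lit 5) (nat_lit 84) (nat_lit 5) (nat_lit 482) (nat_lit 375) (nat_lit 283)))) (XT.nd (nat_lit 78) (nat_lit 304) (nat_lit 0) (XT.lf (nat_lit 0) (nat_lit 8556475503) (nat_lit 304) (nat_lit 3142663795) (nat_lit 76) (nat_lit 2969324330) (nat_lit 80) (nat_lit 5) (nat_lit 84) (nat_lit 5) (nat_lit 81) (nat_lit 5) (nat_lit 483) (nat_lit 375) (nat_lit 282)) (XT.nd (nat_lit 78) (nat_lit 0) (nat_lit 0) (XT.lf (nat_lit 0) (nat_lit 3796700069) (nat_lit 304) (nat_lit 7907775739) (nat_lit 380) (nat_lit 3165965142) (nat_lit 76) (nat_lit 5) (nat_lit 80) (nat_lit 5) (nat_lit 81) (nat_lit 5) (nat_lit 484) (nat_lit 375) (nat_lit 281)) (XT.lf (nat_lit 0) (nat_lit 10884631369)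 (nat_lit 304) (nat_lit 4030792196) (nat_lit 380) (nat_lit 161046409) (nat_lit 76) (nat_lit 5) (nat_lit 80) (nat_lit 5) (nat_lit 81) (nat_lit 5) (nat_lit 485) (nat_lit 375) (nat_lit 280))))) (XT.nd (nat_lit 234) (nat_lit 304) (nat_lit 0) (XT.nd (nat_lit 78) (nat_lit 304) (nat_lit 0) (XT.lf (nat_lit 0) (nat_lit 2813279581) (nat_lit 228) (nat_lit 50034447) (nat_lit 304) (nat_lit 12422991306) (nat_lit 72) (nat_lit 5) (nat_lit 75) (nat_lit 5) (nat_lit 76) (nat_lit 5) (nat_lit 486) (nat_lit 375) (nat_lit 279)) (XT.nd (nat_lit 78) (nat_lit 304) (nat_lit 0) (XT.lf (nat_lit 0) (nat_lit 5979648297) (nat_lit 304) (nat_lit 5544343078) (nat_lit 76) (nat_lit 3975663092) (nat_lit 72) (nat_lit 5) (nat_lit 76) (nat_lit 5) (nat_lit 73) (nat_lit 5) (nat_lit 487) (nat_lit 375) (nat_lit 278)) (XT.lf (nat_lit 0) (nat_lit 1510431406) (nat_lit 304) (nat_lit 7637709555) (nat_lit 380) (nat_lit 6569343980) (nat_lit 68) (nat_lit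 5) (nat_lit 72) (nat_lit 5) (nat_lit 73) (nat_lit 5) (nat_lit 488) (nat_lit 375) (nat_lit 277)))) (XT.nd (nat_lit 156) (nat_lit 304) (nat_lit 0) (XT.nd (nat_lit 78) (nat_lit 0) (nat_lit 0) (XT.lf (nat_lit 0) (nat_lit 8749706604) (nat_lit 304) (nat_lit 3647387995) (nat_lit 380) (nat_lit 3542246383) (nat_lit 68) (nat_lit 5) (nat_lit 72) (nat_lit 5) (nat_lit 73) (nat_lit 5) (nat_lit 489) (nat_lit 375) (nat_lit 276)) (XT.lf (nat_lit 0) (nat_lit 15693978011) (nat_lit 380) (nat_lit 66069709) (nat_lit 76) (nat_lit 405937975) (nat_lit 68) (nat_lit 5) (nat_lit 73) (nat_lit 5) (nat_lit 69) (nat_lit 5) (nat_lit 490) (nat_lit 375) (nat_lit 275))) (XT.nd (nat_lit 78) (nat_lit 0) (nat_lit 0) (XT.lf (nat_lit 0) (nat_lit 2676842091) (nat_lit 304) (nat_lit 9173826442) (nat_lit 76) (nat_lit 4545117808) (nat_lit 64) (nat_lit 5) (nat_lit 68) (nat_lit 5) (nat_lit 65) (nat_lit 5) (nat_lit 491) (nat_lit 375) (nat_lit 274))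 (XT.lf (nat_lit 0) (nat_lit 5863439245) (nat_lit 304) (nat_lit 2007562950) (nat_lit 76) (nat_lit 8759506551) (nat_lit 64) (nat_lit 5) (nat_lit 68) (nat_lit 5) (nat_lit 65) (nat_lit 5) (nat_lit 492) (nat_lit 375) (nat_lit 273)))))) (XT.nd (nat_lit 546) (nat_lit 684) (nat_lit 0) (XT.nd (nat_lit 234) (nat_lit 304) (nat_lit 0) (XT.nd (nat_lit 78) (nat_lit 228) (nat_lit 0) (XT.lf (nat_lit 0) (nat_lit 5341784573) (nat_lit 228) (nat_lit 3787684174) (nat_lit 304) (nat_lit 7740152606) (nat_lit 61) (nat_lit 5) (nat_lit 64) (nat_lit 5) (nat_lit 65) (nat_lit 5) (nat_lit 493) (nat_lit 375) (nat_lit 272)) (XT.nd (nat_lit 78) (nat_lit 228) (nat_lit 0) (XT.lf (nat_lit 0) (nat_lit 12457950971) (nat_lit 304) (nat_lit 4280866289) (nat_lit 76) (nat_lit 374765881) (nat_lit 61) (nat_lit 5) (nat_lit 65) (nat_lit 5) (nat_lit 62) (nat_lit 5) (nat_lit 494) (nat_lit 375) (nat_lit 271)) (XT.lf (nat_lit 0) (nat_lit 3096757770) (nat_lit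 228) (nat_lit 12782926869) (nat_lit 304) (nat_lit 1482215273) (nat_lit 58) (nat_lit 5) (nat_lit 61) (nat_lit 5) (nat_lit 62) (nat_lit 5) (nat_lit 495) (nat_lit 375) (nat_lit 270)))) (XT.nd (nat_lit 156) (nat_lit 0) (nat_lit 0) (XT.nd (nat_lit 78) (nat_lit 228) (nat_lit 0) (XT.lf (nat_lit 0) (nat_lit 1742105929) (nat_lit 304) (nat_lit 6976103296) (nat_lit 76) (nat_lit 8896545988) (nat_lit 57) (nat_lit 5) (nat_lit 61) (nat_lit 5) (nat_lit 58) (nat_lit 5) (nat_lit 496) (nat_lit 375) (nat_lit 269)) (XT.lf (nat_lit 0) (nat_lit 425187856) (nat_lit 228) (nat_lit 4570551783) (nat_lit 304) (nat_lit 12877047413) (nat_lit 54) (nat_lit 5) (nat_lit 57) (nat_lit 5) (nat_lit 58) (nat_lit 5) (nat_lit 497) (nat_lit 375) (nat_lit 268))) (XT.nd (nat_lit 78) (nat_lit 0) (nat_lit 0) (XT.lf (nat_lit 0) (nat_lit 8039971547) (nat_lit 228) (nat_lit 303347707) (nat_lit 304) (nat_lit 9792091480) (nat_lit 54) (nat_lit 5) (nat_lit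 57) (nat_lit 5) (nat_lit 58) (nat_lit 5) (nat_lit 498) (nat_lit 375) (nat_lit 267)) (XT.lf (nat_lit 0) (nat_lit 11766481217) (nat_lit 304) (nat_lit 2651341013) (nat_lit 76) (nat_lit 3985300544) (nat_lit 54) (nat_lit 5) (nat_lit 58) (nat_lit 5) (nat_lit 55) (nat_lit 5) (nat_lit 499) (nat_lit 375) (nat_lit 266))))) (XT.nd (nat_lit 234) (nat_lit 152) (nat_lit 0) (XT.nd (nat_lit 78) (nat_lit 304) (nat_lit 0) (XT.lf (nat_lit 0) (nat_lit 4976649917) (nat_lit 228) (nat_lit 10298464059) (nat_lit 304) (nat_lit 3400743259) (nat_lit 51) (nat_lit 5) (nat_lit 54) (nat_lit 5) (nat_lit 55) (nat_lit 5) (nat_lit 500) (nat_lit 375) (nat_lit 265)) (XT.nd (nat_lit 78) (nat_lit 304) (nat_lit 0) (XT.lf (nat_lit 0) (nat_lit 12765076205) (nat_lit 228) (nat_lit 6089479260) (nat_lit 304) (nat_lit 99486366) (nat_lit 51) (nat_lit 5) (nat_lit 54) (nat_lit 5) (nat_lit 55) (nat_lit 5) (nat_lit 501) (nat_lit 375) (nat_lit 264)) (XT.lf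 (nat_lit 0) (nat_lit 1441421940) (nat_lit 228) (nat_lit 1775935942) (nat_lit 304) (nat_lit 16020167358) (nat_lit 47) (nat_lit 5) (nat_lit 50) (nat_lit 5) (nat_lit 51) (nat_lit 5) (nat_lit 502) (nat_lit 375) (nat_lit 263)))) (XT.nd (nat_lit 156) (nat_lit 152) (nat_lit 0) (XT.nd (nat_lit 78) (nat_lit 0) (nat_lit 0) (XT.lf (nat_lit 0) (nat_lit 6641194820) (nat_lit 304) (nat_lit 10263344875) (nat_lit 76) (nat_lit 2621293408) (nat_lit 47) (nat_lit 5) (nat_lit 51) (nat_lit 5) (nat_lit 48) (nat_lit 5) (nat_lit 503) (nat_lit 375) (nat_lit 262)) (XT.lf (nat_lit 0) (nat_lit 10128744627) (nat_lit 304) (nat_lit 2618984259) (nat_lit 76) (nat_lit 7072281061) (nat_lit 47) (nat_lit 5) (nat_lit 51) (nat_lit 5) (nat_lit 48) (nat_lit 5) (nat_lit 504) (nat_lit 375) (nat_lit 261))) (XT.nd (nat_lit 78) (nat_lit 0) (nat_lit 0) (XT.lf (nat_lit 0) (nat_lit 5219967702) (nat_lit 152) (nat_lit 8483768206) (nat_lit 228) (nat_lit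 6415988010) (nat_lit 45) (nat_lit 5) (nat_lit 47) (nat_lit 5) (nat_lit 48) (nat_lit 5) (nat_lit 505) (nat_lit 375) (nat_lit 260)) (XT.lf (nat_lit 0) (nat_lit 13224619075) (nat_lit 152) (nat_lit 4127126775) (nat_lit 228) (nat_lit 3073663194) (nat_lit 45) (nat_lit 5) (nat_lit 47) (nat_lit 5) (nat_lit 48) (nat_lit 5) (nat_lit 506) (nat_lit 375) (nat_lit 259))))))) (XT.nd (nat_lit 1092) (nat_lit 380) (nat_lit 0) (XT.nd (nat_lit 546) (nat_lit 456) (nat_lit 0) (XT.nd (nat_lit 234) (nat_lit 380) (nat_lit 0) (XT.nd (nat_lit 78) (nat_lit 0) (nat_lit 0) (XT.lf (nat_lit 0) (nat_lit 321388591) (nat_lit 304) (nat_lit 20107447259) (nat_lit 76) (nat_lit 308529815) (nat_lit 41) (nat_lit 5) (nat_lit 45) (nat_lit 5) (nat_lit 42) (nat_lit 5) (nat_lit 507) (nat_lit 375) (nat_lit 258)) (XT.nd (nat_lit 78) (nat_lit 0) (nat_lit 0) (XT.lf (nat_lit 0) (nat_lit 3803418094) (nat_lit 304) (nat_lit 12414110602) (nat_lit 76) (nat_lit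 4836428558) (nat_lit 41) (nat_lit 5) (nat_lit 45) (nat_lit 5) (nat_lit 42) (nat_lit 5) (nat_lit 508) (nat_lit 375) (nat_lit 257)) (XT.lf (nat_lit 0) (nat_lit 7339619066) (nat_lit 304) (nat_lit 4592748195) (nat_lit 76) (nat_lit 9444829497) (nat_lit 41) (nat_lit 5) (nat_lit 45) (nat_lit 5) (nat_lit 42) (nat_lit 5) (nat_lit 509) (nat_lit 375) (nat_lit 256)))) (XT.nd (nat_lit 156) (nat_lit 228) (nat_lit 0) (XT.nd (nat_lit 78) (nat_lit 0) (nat_lit 0) (XT.lf (nat_lit 0) (nat_lit 3404355902) (nat_lit 152) (nat_lit 7549125686) (nat_lit 228) (nat_lit 10753287284) (nat_lit 39) (nat_lit 5) (nat_lit 41) (nat_lit 5) (nat_lit 42) (nat_lit 5) (nat_lit 510) (nat_lit 375) (nat_lit 255)) (XT.lf (nat_lit 0) (nat_lit 11598490369) (nat_lit 152) (nat_lit 3056918909) (nat_lit 228) (nat_lit 7387213832) (nat_lit 39) (nat_lit 5) (nat_lit 41) (nat_lit 5) (nat_lit 42) (nat_lit 5) (nat_lit 511) (nat_lit 375) (nat_lit 254))) (XT.nd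 (nat_lit 78) (nat_lit 228) (nat_lit 0) (XT.lf (nat_lit 0) (nat_lit 18426476075) (nat_lit 228) (nat_lit 2463499758) (nat_lit 76) (nat_lit 1495322906) (nat_lit 39) (nat_lit 5) (nat_lit 42) (nat_lit 5) (nat_lit 40) (nat_lit 5) (nat_lit 512) (nat_lit 375) (nat_lit 253)) (XT.lf (nat_lit 0) (nat_lit 5706926522) (nat_lit 228) (nat_lit 16608823943) (nat_lit 304) (nat_lit 418227879) (nat_lit 36) (nat_lit 5) (nat_lit 39) (nat_lit 5) (nat_lit 40) (nat_lit 5) (nat_lit 513) (nat_lit 375) (nat_lit 252))))) (XT.nd (nat_lit 234) (nat_lit 228) (nat_lit 0) (XT.nd (nat_lit 78) (nat_lit 152) (nat_lit 0) (XT.lf (nat_lit 0) (nat_lit 3153454921) (nat_lit 304) (nat_lit 9060447932) (nat_lit 76) (nat_lit 10875276889) (nat_lit 35) (nat_lit 5) (nat_lit 39) (nat_lit 5) (nat_lit 36) (nat_lit 5) (nat_lit 514) (nat_lit 375) (nat_lit 251)) (XT.nd (nat_lit 78) (nat_lit 152) (nat_lit 0) (XT.lf (nat_lit 0) (nat_lit 6776774948) (nat_lit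 304) (nat_lit 961262096) (nat_lit 76) (nat_lit 15713682596) (nat_lit 35) (nat_lit 5) (nat_lit 39) (nat_lit 5) (nat_lit 36) (nat_lit 5) (nat_lit 515) (nat_lit 375) (nat_lit 250)) (XT.lf (nat_lit 0) (nat_lit 7373096738) (nat_lit 152) (nat_lit 3133412542) (nat_lit 228) (nat_lit 13314327818) (nat_lit 33) (nat_lit 5) (nat_lit 35) (nat_lit 5) (nat_lit 36) (nat_lit 5) (nat_lit 516) (nat_lit 375) (nat_lit 249)))) (XT.nd (nat_lit 156) (nat_lit 228) (nat_lit 0) (XT.nd (nat_lit 78) (nat_lit 0) (nat_lit 0) (XT.lf (nat_lit 0) (nat_lit 14313617805) (nat_lit 228) (nat_lit 8343802859) (nat_lit 76) (nat_lit 1539866258) (nat_lit 33) (nat_lit 5) (nat_lit 36) (nat_lit 5) (nat_lit 34) (nat_lit 5) (nat_lit 517) (nat_lit 375) (nat_lit 248)) (XT.lf (nat_lit 0) (nat_lit 18204027618) (nat_lit 228) (nat_lit 121650574) (nat_lit 76) (nat_lit 6255449864) (nat_lit 33) (nat_lit 5) (nat_lit 36) (nat_lit 5) (nat_lit 34) (nat_lit 5) (nat_lit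 518) (nat_lit 375) (nat_lit 247))) (XT.nd (nat_lit 78) (nat_lit 76) (nat_lit 0) (XT.lf (nat_lit 0) (nat_lit 8351820689) (nat_lit 152) (nat_lit 13861325049) (nat_lit 228) (nat_lit 2758687663) (nat_lit 31) (nat_lit 5) (nat_lit 33) (nat_lit 5) (nat_lit 34) (nat_lit 5) (nat_lit 519) (nat_lit 375) (nat_lit 246)) (XT.lf (nat_lit 0) (nat_lit 907387520) (nat_lit 228) (nat_lit 8402675907) (nat_lit 76) (nat_lit 16060423197) (nat_lit 30) (nat_lit 5) (nat_lit 33) (nat_lit 5) (nat_lit 31) (nat_lit 5) (nat_lit 520) (nat_lit 375) (nat_lit 245)))))) (XT.nd (nat_lit 48984) (nat_lit 0) (nat_lit 41952) (XT.nd (nat_lit 234) (nat_lit 228) (nat_lit 0) (XT.nd (nat_lit 78) (nat_lit 152) (nat_lit 0) (XT.lf (nat_lit 0) (nat_lit 4596837734) (nat_lit 228) (nat_lit 61509456) (nat_lit 76) (nat_lit 21118666253) (nat_lit 30) (nat_lit 5) (nat_lit 33) (nat_lit 5) (nat_lit 31) (nat_lit 5) (nat_lit 521) (nat_lit 375) (nat_lit 244)) (XT.nd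 (nat_lit 78) (nat_lit 0) (nat_lit 0) (XT.lf (nat_lit 0) (nat_lit 8403585407) (nat_lit 228) (nat_lit 17655064119) (nat_lit 76) (nat_lit 132156085) (nat_lit 28) (nat_lit 5) (nat_lit 31) (nat_lit 5) (nat_lit 29) (nat_lit 5) (nat_lit 522) (nat_lit 375) (nat_lit 243)) (XT.lf (nat_lit 0) (nat_lit 12304998714) (nat_lit 228) (nat_lit 9359814787) (nat_lit 76) (nat_lit 4947694387) (nat_lit 28) (nat_lit 5) (nat_lit 31) (nat_lit 5) (nat_lit 29) (nat_lit 5) (nat_lit 523) (nat_lit 375) (nat_lit 242)))) (XT.nd (nat_lit 156) (nat_lit 76) (nat_lit 0) (XT.nd (nat_lit 78) (nat_lit 152) (nat_lit 0) (XT.lf (nat_lit 0) (nat_lit 16271955196) (nat_lit 228) (nat_lit 920099629) (nat_lit 76) (nat_lit 9850843874) (nat_lit 28) (nat_lit 5) (nat_lit 31) (nat_lit 5) (nat_lit 29) (nat_lit 5) (nat_lit 524) (nat_lit 375) (nat_lit 241)) (XT.lf (nat_lit 0) (nat_lit 7769286639) (nat_lit 152) (nat_lit 12587167245) (nat_lit 228) (nat_lit 7124684073)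 (nat_lit 26) (nat_lit 5) (nat_lit 28) (nat_lit 5) (nat_lit 29) (nat_lit 5) (nat_lit 525) (nat_lit 375) (nat_lit 240))) (XT.nd (nat_lit 78) (nat_lit 76) (nat_lit 0) (XT.lf (nat_lit 0) (nat_lit 16624052322) (nat_lit 152) (nat_lit 7892628726) (nat_lit 228) (nat_lit 3411584782) (nat_lit 26) (nat_lit 5) (nat_lit 28) (nat_lit 5) (nat_lit 29) (nat_lit 5) (nat_lit 526) (nat_lit 375) (nat_lit 239)) (XT.lf (nat_lit 0) (nat_lit 358866980) (nat_lit 228) (nat_lit 2751497458) (nat_lit 76) (nat_lit 25274167070) (nat_lit 25) (nat_lit 5) (nat_lit 28) (nat_lit 5) (nat_lit 26) (nat_lit 5) (nat_lit 527) (nat_lit 375) (nat_lit 238))))) (XT.nd (nat_lit 234) (nat_lit 988) (nat_lit 0) (XT.nd (nat_lit 78) (nat_lit 380) (nat_lit 0) (XT.lf (nat_lit 0) (nat_lit 2745190632) (nat_lit 228) (nat_lit 246057283) (nat_lit 228) (nat_lit 246057283) (nat_lit 595) (nat_lit 4) (nat_lit 598) (nat_lit 5) (nat_lit 598) (nat_lit 4) (nat_lit 388)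 (nat_lit 376) (nat_lit 376)) (XT.nd (nat_lit 78) (nat_lit 0) (nat_lit 0) (XT.lf (nat_lit 0) (nat_lit 2313525703) (nat_lit 304) (nat_lit 120360284) (nat_lit 380) (nat_lit 4049408149) (nat_lit 590) (nat_lit 5) (nat_lit 594) (nat_lit 5) (nat_lit 595) (nat_lit 4) (nat_lit 389) (nat_lit 376) (nat_lit 375)) (XT.lf (nat_lit 0) (nat_lit 5347955078) (nat_lit 380) (nat_lit 851322407) (nat_lit 0) (nat_lit 294219531) (nat_lit 590) (nat_lit 5) (nat_lit 595) (nat_lit 4) (nat_lit 590) (nat_lit 4) (nat_lit 390) (nat_lit 376) (nat_lit 374)))) (XT.nd (nat_lit 156) (nat_lit 532) (nat_lit 0) (XT.nd (nat_lit 78) (nat_lit 0) (nat_lit 0) (XT.lf (nat_lit 0) (nat_lit 1738483619) (nat_lit 456) (nat_lit 3994792046) (nat_lit 76) (nat_lit 771602445) (nat_lit 584) (nat_lit 5) (nat_lit 590) (nat_lit 5) (nat_lit 585) (nat_lit 4) (nat_lit 391) (nat_lit 376) (nat_lit 373)) (XT.lf (nat_lit 0) (nat_lit 4600350461) (nat_lit 456) (nat_lit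 618520451) (nat_lit 76) (nat_lit 1298880081) (nat_lit 584) (nat_lit 5) (nat_lit 590) (nat_lit 5) (nat_lit 585) (nat_lit 4) (nat_lit 392) (nat_lit 376) (nat_lit 372))) (XT.nd (nat_lit 78) (nat_lit 0) (nat_lit 0) (XT.lf (nat_lit 0) (nat_lit 924562254) (nat_lit 532) (nat_lit 3719767521) (nat_lit 76) (nat_lit 1887564822) (nat_lit 577) (nat_lit 5) (nat_lit 584) (nat_lit 5) (nat_lit 578) (nat_lit 5) (nat_lit 393) (nat_lit 376) (nat_lit 371)) (XT.lf (nat_lit 0) (nat_lit 3733503983) (nat_lit 532) (nat_lit 283838255) (nat_lit 76) (nat_lit 2530127437) (nat_lit 577) (nat_lit 5) (nat_lit 584) (nat_lit 5) (nat_lit 578) (nat_lit 5) (nat_lit 394) (nat_lit 376) (nat_lit 370))))))))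
noncomputable def xc92 : XT := (XT.nd (nat_lit 2106) (nat_lit 11780) (nat_lit 0) (XT.nd (nat_lit 1014) (nat_lit 11628) (nat_lit 0) (XT.nd (nat_lit 468) (nat_lit 3952) (nat_lit 0) (XT.nd (nat_lit 234) (nat_lit 1596) (nat_lit 0) (XT.nd (nat_lit 78) (nat_lit 684) (nat_lit 0) (XT.lf (nat_lit 0) (nat_lit 3219259734) (nat_lit 532) (nat_lit 3333218922) (nat_lit 608) (nat_lit 11916547) (nat_lit 570) (nat_lit 5) (nat_lit 577) (nat_lit 5) (nat_lit 578) (nat_lit 5) (nat_lit 395) (nat_lit 376) (nat_lit 369)) (XT.nd (nat_lit 78) (nat_lit 0) (nat_lit 0) (XT.lf (nat_lit 0) (nat_lit 153690657) (nat_lit 608) (nat_lit 2591505450) (nat_lit 684) (nat_lit 3837478066) (nat_lit 561) (nat_lit 5) (nat_lit 569) (nat_lit 5) (nat_lit 570) (nat_lit 5) (nat_lit 396) (nat_lit 376) (nat_lit 368)) (XT.lf (nat_lit 0) (nat_lit 3723570959) (nat_lit 608) (nat_lit 1790621467) (nat_lit 684) (nat_lit 1088096041) (nat_lit 561) (nat_lit 5) (nat_lit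 569) (nat_lit 5) (nat_lit 570) (nat_lit 5) (nat_lit 397) (nat_lit 376) (nat_lit 367)))) (XT.nd (nat_lit 78) (nat_lit 836) (nat_lit 0) (XT.lf (nat_lit 0) (nat_lit 696255830) (nat_lit 684) (nat_lit 937236695) (nat_lit 760) (nat_lit 4989890190) (nat_lit 551) (nat_lit 5) (nat_lit 560) (nat_lit 5) (nat_lit 561) (nat_lit 5) (nat_lit 398) (nat_lit 376) (nat_lit 366)) (XT.nd (nat_lit 78) (nat_lit 836) (nat_lit 0) (XT.lf (nat_lit 0) (nat_lit 4330453750) (nat_lit 684) (nat_lit 19965811) (nat_lit 760) (nat_lit 2295328950) (nat_lit 551) (nat_lit 5) (nat_lit 560) (nat_lit 5) (nat_lit 561) (nat_lit 5) (nat_lit 399) (nat_lit 376) (nat_lit 365)) (XT.lf (nat_lit 0) (nat_lit 398951511) (nat_lit 836) (nat_lit 5336506728) (nat_lit 76) (nat_lit 934108160) (nat_lit 540) (nat_lit 5) (nat_lit 551) (nat_lit 5) (nat_lit 541) (nat_lit 5) (nat_lit 400) (nat_lit 376) (nat_lit 364))))) (XT.nd (nat_lit 234) (nat_lit 3040) (nat_lit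 0) (XT.nd (nat_lit 78) (nat_lit 912) (nat_lit 0) (XT.lf (nat_lit 0) (nat_lit 3070184856) (nat_lit 836) (nat_lit 1668458365) (nat_lit 76) (nat_lit 1955935040) (nat_lit 540) (nat_lit 5) (nat_lit 551) (nat_lit 5) (nat_lit 541) (nat_lit 5) (nat_lit 401) (nat_lit 376) (nat_lit 363)) (XT.nd (nat_lit 78) (nat_lit 76) (nat_lit 0) (XT.lf (nat_lit 0) (nat_lit 2055558902) (nat_lit 836) (nat_lit 3691846718) (nat_lit 912) (nat_lit 973728670) (nat_lit 529) (nat_lit 5) (nat_lit 540) (nat_lit 5) (nat_lit 541) (nat_lit 5) (nat_lit 402) (nat_lit 376) (nat_lit 362)) (XT.lf (nat_lit 0) (nat_lit 1658164973) (nat_lit 912) (nat_lit 927583766) (nat_lit 76) (nat_lit 4163321470) (nat_lit 528) (nat_lit 5) (nat_lit 540) (nat_lit 5) (nat_lit 529) (nat_lit 5) (nat_lit 403) (nat_lit 376) (nat_lit 361)))) (XT.nd (nat_lit 156) (nat_lit 2052) (nat_lit 0) (XT.nd (nat_lit 78) (nat_lit 76) (nat_lit 0) (XT.lf (nat_lit 0) (nat_lit 2872318531)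 (nat_lit 912) (nat_lit 1416818397) (nat_lit 988) (nat_lit 2489199313) (nat_lit 516) (nat_lit 5) (nat_lit 528) (nat_lit 5) (nat_lit 529) (nat_lit 5) (nat_lit 404) (nat_lit 376) (nat_lit 360)) (XT.lf (nat_lit 0) (nat_lit 109869286) (nat_lit 988) (nat_lit 93029132) (nat_lit 76) (nat_lit 6606404294) (nat_lit 515) (nat_lit 5) (nat_lit 528) (nat_lit 5) (nat_lit 516) (nat_lit 5) (nat_lit 405) (nat_lit 376) (nat_lit 359))) (XT.nd (nat_lit 78) (nat_lit 1064) (nat_lit 0) (XT.lf (nat_lit 0) (nat_lit 2701655746) (nat_lit 1064) (nat_lit 3062778177) (nat_lit 76) (nat_lit 1076728704) (nat_lit 502) (nat_lit 5) (nat_lit 516) (nat_lit 5) (nat_lit 503) (nat_lit 5) (nat_lit 406) (nat_lit 376) (nat_lit 358)) (XT.lf (nat_lit 0) (nat_lit 819449157) (nat_lit 1064) (nat_lit 4476428479) (nat_lit 1140) (nat_lit 1578852976) (nat_lit 488) (nat_lit 5) (nat_lit 502) (nat_lit 5) (nat_lit 503) (nat_lit 5) (nat_lit 407) (nat_lit 376)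 (nat_lit 357)))))) (XT.nd (nat_lit 546) (nat_lit 6384) (nat_lit 0) (XT.nd (nat_lit 234) (nat_lit 4028) (nat_lit 0) (XT.nd (nat_lit 78) (nat_lit 1140) (nat_lit 0) (XT.lf (nat_lit 0) (nat_lit 983834545) (nat_lit 1140) (nat_lit 2139887983) (nat_lit 76) (nat_lit 3785905564) (nat_lit 487) (nat_lit 5) (nat_lit 502) (nat_lit 5) (nat_lit 488) (nat_lit 5) (nat_lit 408) (nat_lit 376) (nat_lit 356)) (XT.nd (nat_lit 78) (nat_lit 0) (nat_lit 0) (XT.lf (nat_lit 0) (nat_lit 1822829052) (nat_lit 1140) (nat_lit 1710444760) (nat_lit 1216) (nat_lit 3412686294) (nat_lit 472) (nat_lit 5) (nat_lit 487) (nat_lit 5) (nat_lit 488) (nat_lit 5) (nat_lit 409) (nat_lit 376) (nat_lit 355)) (XT.lf (nat_lit 0) (nat_lit 5849664450) (nat_lit 1140) (nat_lit 243977309) (nat_lit 1216) (nat_lit 890254760) (nat_lit 472) (nat_lit 5) (nat_lit 487) (nat_lit 5) (nat_lit 488) (nat_lit 5) (nat_lit 410) (nat_lit 376) (nat_lit 354)))) (XT.nd (nat_lit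 156) (nat_lit 2736) (nat_lit 0) (XT.nd (nat_lit 78) (nat_lit 0) (nat_lit 0) (XT.lf (nat_lit 0) (nat_lit 1634109547) (nat_lit 1292) (nat_lit 4113810861) (nat_lit 76) (nat_lit 1275055299) (nat_lit 455) (nat_lit 5) (nat_lit 472) (nat_lit 5) (nat_lit 456) (nat_lit 5) (nat_lit 411) (nat_lit 376) (nat_lit 353)) (XT.lf (nat_lit 0) (nat_lit 4153379242) (nat_lit 1292) (nat_lit 66409477) (nat_lit 76) (nat_lit 2843875435) (nat_lit 455) (nat_lit 5) (nat_lit 472) (nat_lit 5) (nat_lit 456) (nat_lit 5) (nat_lit 412) (nat_lit 376) (nat_lit 352))) (XT.nd (nat_lit 78) (nat_lit 1444) (nat_lit 0) (XT.lf (nat_lit 0) (nat_lit 4071248955) (nat_lit 1292) (nat_lit 2626306885) (nat_lit 1368) (nat_lit 408190827) (nat_lit 438) (nat_lit 5) (nat_lit 455) (nat_lit 5) (nat_lit 456) (nat_lit 5) (nat_lit 413) (nat_lit 376) (nat_lit 351)) (XT.lf (nat_lit 0) (nat_lit 1099851093) (nat_lit 1368) (nat_lit 971979804) (nat_lit 1444) (nat_lit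 5077509434) (nat_lit 419) (nat_lit 5) (nat_lit 437) (nat_lit 5) (nat_lit 438) (nat_lit 5) (nat_lit 414) (nat_lit 376) (nat_lit 350))))) (XT.nd (nat_lit 234) (nat_lit 4864) (nat_lit 0) (XT.nd (nat_lit 78) (nat_lit 1520) (nat_lit 0) (XT.lf (nat_lit 0) (nat_lit 4570316941) (nat_lit 1444) (nat_lit 1888244786) (nat_lit 76) (nat_lit 735770233) (nat_lit 419) (nat_lit 5) (nat_lit 438) (nat_lit 5) (nat_lit 420) (nat_lit 5) (nat_lit 415) (nat_lit 376) (nat_lit 349)) (XT.nd (nat_lit 78) (nat_lit 76) (nat_lit 0) (XT.lf (nat_lit 0) (nat_lit 2335930323) (nat_lit 1444) (nat_lit 4754623635) (nat_lit 1520) (nat_lit 150299179) (nat_lit 400) (nat_lit 5) (nat_lit 419) (nat_lit 5) (nat_lit 420) (nat_lit 5) (nat_lit 416) (nat_lit 376) (nat_lit 348)) (XT.lf (nat_lit 0) (nat_lit 2305004335) (nat_lit 1520) (nat_lit 678278633) (nat_lit 76) (nat_lit 4305511759) (nat_lit 399) (nat_lit 5) (nat_lit 419) (nat_lit 5) (nat_lit 400) (nat_lit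 5) (nat_lit 417) (nat_lit 376) (nat_lit 347)))) (XT.nd (nat_lit 156) (nat_lit 1748) (nat_lit 0) (XT.nd (nat_lit 78) (nat_lit 1596) (nat_lit 0) (XT.lf (nat_lit 0) (nat_lit 3635543077) (nat_lit 1520) (nat_lit 1146914788) (nat_lit 1596) (nat_lit 2555777856) (nat_lit 379) (nat_lit 5) (nat_lit 399) (nat_lit 5) (nat_lit 400) (nat_lit 5) (nat_lit 418) (nat_lit 376) (nat_lit 346)) (XT.lf (nat_lit 0) (nat_lit 614783089) (nat_lit 1596) (nat_lit 6660110484) (nat_lit 1672) (nat_lit 114523664) (nat_lit 358) (nat_lit 5) (nat_lit 379) (nat_lit 5) (nat_lit 380) (nat_lit 5) (nat_lit 419) (nat_lit 376) (nat_lit 345))) (XT.nd (nat_lit 78) (nat_lit 1672) (nat_lit 0) (XT.lf (nat_lit 0) (nat_lit 2329430109) (nat_lit 1672) (nat_lit 2440701281) (nat_lit 76) (nat_lit 2671539931) (nat_lit 357) (nat_lit 5) (nat_lit 379) (nat_lit 5) (nat_lit 358) (nat_lit 5) (nat_lit 420) (nat_lit 376) (nat_lit 344)) (XT.lf (nat_lit 0) (nat_lit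 1960559550) (nat_lit 1672) (nat_lit 2826256807) (nat_lit 1748) (nat_lit 2708874135) (nat_lit 335) (nat_lit 5) (nat_lit 357) (nat_lit 5) (nat_lit 358) (nat_lit 5) (nat_lit 421) (nat_lit 376) (nat_lit 343))))))) (XT.nd (nat_lit 1014) (nat_lit 5852) (nat_lit 0) (XT.nd (nat_lit 468) (nat_lit 3116) (nat_lit 0) (XT.nd (nat_lit 234) (nat_lit 912) (nat_lit 0) (XT.nd (nat_lit 78) (nat_lit 1900) (nat_lit 0) (XT.lf (nat_lit 0) (nat_lit 6438916082) (nat_lit 1672) (nat_lit 824797642) (nat_lit 1748) (nat_lit 287724822) (nat_lit 335) (nat_lit 5) (nat_lit 357) (nat_lit 5) (nat_lit 358) (nat_lit 5) (nat_lit 422) (nat_lit 376) (nat_lit 342)) (XT.nd (nat_lit 78) (nat_lit 836) (nat_lit 0) (XT.lf (nat_lit 0) (nat_lit 2137893767) (nat_lit 1064) (nat_lit 4231733433) (nat_lit 76) (nat_lit 1238751409) (nat_lit 321) (nat_lit 5) (nat_lit 335) (nat_lit 5) (nat_lit 322) (nat_lit 5) (nat_lit 423) (nat_lit 376) (nat_lit 341)) (XT.lf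 (nat_lit 0) (nat_lit 255827830) (nat_lit 836) (nat_lit 4322138290) (nat_lit 912) (nat_lit 3089109987) (nat_lit 310) (nat_lit 5) (nat_lit 321) (nat_lit 5) (nat_lit 322) (nat_lit 5) (nat_lit 424) (nat_lit 376) (nat_lit 340)))) (XT.nd (nat_lit 78) (nat_lit 912) (nat_lit 0) (XT.lf (nat_lit 0) (nat_lit 4846316400) (nat_lit 836) (nat_lit 2204665294) (nat_lit 912) (nat_lit 676334544) (nat_lit 310) (nat_lit 5) (nat_lit 321) (nat_lit 5) (nat_lit 322) (nat_lit 5) (nat_lit 425) (nat_lit 376) (nat_lit 339)) (XT.nd (nat_lit 78) (nat_lit 0) (nat_lit 0) (XT.lf (nat_lit 0) (nat_lit 1706699423) (nat_lit 836) (nat_lit 21946580) (nat_lit 912) (nat_lit 6060585815) (nat_lit 298) (nat_lit 5) (nat_lit 309) (nat_lit 5) (nat_lit 310) (nat_lit 5) (nat_lit 426) (nat_lit 376) (nat_lit 338)) (XT.lf (nat_lit 0) (nat_lit 4163297911) (nat_lit 912) (nat_lit 1490282826) (nat_lit 76) (nat_lit 2198951552) (nat_lit 298) (nat_lit 5) (nat_lit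 310) (nat_lit 5) (nat_lit 299) (nat_lit 5) (nat_lit 427) (nat_lit 376) (nat_lit 337))))) (XT.nd (nat_lit 234) (nat_lit 1520) (nat_lit 0) (XT.nd (nat_lit 78) (nat_lit 836) (nat_lit 0) (XT.lf (nat_lit 0) (nat_lit 3191832268) (nat_lit 760) (nat_lit 3433371328) (nat_lit 836) (nat_lit 1292371556) (nat_lit 288) (nat_lit 5) (nat_lit 298) (nat_lit 5) (nat_lit 299) (nat_lit 5) (nat_lit 428) (nat_lit 376) (nat_lit 336)) (XT.nd (nat_lit 78) (nat_lit 760) (nat_lit 0) (XT.lf (nat_lit 0) (nat_lit 1105298060) (nat_lit 836) (nat_lit 47489693) (nat_lit 76) (nat_lit 6831667543) (nat_lit 287) (nat_lit 5) (nat_lit 298) (nat_lit 5) (nat_lit 288) (nat_lit 5) (nat_lit 429) (nat_lit 376) (nat_lit 335)) (XT.lf (nat_lit 0) (nat_lit 3530982015) (nat_lit 836) (nat_lit 3325907221) (nat_lit 76) (nat_lit 1195710491) (nat_lit 277) (nat_lit 5) (nat_lit 288) (nat_lit 5) (nat_lit 278) (nat_lit 5) (nat_lit 430) (nat_lit 376) (nat_lit 334))))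 (XT.nd (nat_lit 156) (nat_lit 760) (nat_lit 0) (XT.nd (nat_lit 78) (nat_lit 76) (nat_lit 0) (XT.lf (nat_lit 0) (nat_lit 1442472373) (nat_lit 684) (nat_lit 4539286872) (nat_lit 760) (nat_lit 2140860182) (nat_lit 268) (nat_lit 5) (nat_lit 277) (nat_lit 5) (nat_lit 278) (nat_lit 5) (nat_lit 431) (nat_lit 376) (nat_lit 333)) (XT.lf (nat_lit 0) (nat_lit 265675058) (nat_lit 760) (nat_lit 1888308780) (nat_lit 76) (nat_lit 6040421944) (nat_lit 267) (nat_lit 5) (nat_lit 277) (nat_lit 5) (nat_lit 268) (nat_lit 5) (nat_lit 432) (nat_lit 376) (nat_lit 332))) (XT.nd (nat_lit 78) (nat_lit 0) (nat_lit 0) (XT.lf (nat_lit 0) (nat_lit 2673330561) (nat_lit 836) (nat_lit 5288659748) (nat_lit 76) (nat_lit 305762856) (nat_lit 257) (nat_lit 5) (nat_lit 268) (nat_lit 5) (nat_lit 258) (nat_lit 5) (nat_lit 433) (nat_lit 376) (nat_lit 331)) (XT.lf (nat_lit 0) (nat_lit 5116898559) (nat_lit 836) (nat_lit 430882020) (nat_lit 76) (nat_lit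 2795072354) (nat_lit 257) (nat_lit 5) (nat_lit 268) (nat_lit 5) (nat_lit 258) (nat_lit 5) (nat_lit 434) (nat_lit 376) (nat_lit 330)))))) (XT.nd (nat_lit 546) (nat_lit 2432) (nat_lit 0) (XT.nd (nat_lit 234) (nat_lit 1976) (nat_lit 0) (XT.nd (nat_lit 78) (nat_lit 760) (nat_lit 0) (XT.lf (nat_lit 0) (nat_lit 4540801330) (nat_lit 684) (nat_lit 3059527428) (nat_lit 760) (nat_lit 819345945) (nat_lit 248) (nat_lit 5) (nat_lit 257) (nat_lit 5) (nat_lit 258) (nat_lit 5) (nat_lit 435) (nat_lit 376) (nat_lit 329)) (XT.nd (nat_lit 78) (nat_lit 0) (nat_lit 0) (XT.lf (nat_lit 0) (nat_lit 1080245321) (nat_lit 684) (nat_lit 505322422) (nat_lit 760) (nat_lit 6912858654) (nat_lit 238) (nat_lit 5) (nat_lit 247) (nat_lit 5) (nat_lit 248) (nat_lit 5) (nat_lit 436) (nat_lit 376) (nat_lit 328)) (XT.lf (nat_lit 0) (nat_lit 4029593341) (nat_lit 760) (nat_lit 2449887537) (nat_lit 76) (nat_lit 2099161764) (nat_lit 238) (nat_lit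 5) (nat_lit 248) (nat_lit 5) (nat_lit 239) (nat_lit 5) (nat_lit 437) (nat_lit 376) (nat_lit 327)))) (XT.nd (nat_lit 156) (nat_lit 1292) (nat_lit 0) (XT.nd (nat_lit 78) (nat_lit 76) (nat_lit 0) (XT.lf (nat_lit 0) (nat_lit 2605908552) (nat_lit 608) (nat_lit 3899737461) (nat_lit 684) (nat_lit 2155191063) (nat_lit 230) (nat_lit 5) (nat_lit 238) (nat_lit 5) (nat_lit 239) (nat_lit 5) (nat_lit 438) (nat_lit 376) (nat_lit 326)) (XT.lf (nat_lit 0) (nat_lit 262389968) (nat_lit 684) (nat_lit 993225715) (nat_lit 76) (nat_lit 7489465797) (nat_lit 229) (nat_lit 5) (nat_lit 238) (nat_lit 5) (nat_lit 230) (nat_lit 5) (nat_lit 439) (nat_lit 376) (nat_lit 325))) (XT.nd (nat_lit 78) (nat_lit 608) (nat_lit 0) (XT.lf (nat_lit 0) (nat_lit 2699926290) (nat_lit 760) (nat_lit 4672532002) (nat_lit 76) (nat_lit 1458293001) (nat_lit 220) (nat_lit 5) (nat_lit 230) (nat_lit 5) (nat_lit 221) (nat_lit 5) (nat_lit 440) (nat_lit 376)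 (nat_lit 324)) (XT.lf (nat_lit 0) (nat_lit 463342003) (nat_lit 608) (nat_lit 4705082897) (nat_lit 684) (nat_lit 3750099362) (nat_lit 212) (nat_lit 5) (nat_lit 220) (nat_lit 5) (nat_lit 221) (nat_lit 5) (nat_lit 441) (nat_lit 376) (nat_lit 323))))) (XT.nd (nat_lit 234) (nat_lit 1748) (nat_lit 0) (XT.nd (nat_lit 78) (nat_lit 684) (nat_lit 0) (XT.lf (nat_lit 0) (nat_lit 5723019928) (nat_lit 608) (nat_lit 1959235458) (nat_lit 684) (nat_lit 1325911392) (nat_lit 212) (nat_lit 5) (nat_lit 220) (nat_lit 5) (nat_lit 221) (nat_lit 5) (nat_lit 442) (nat_lit 376) (nat_lit 322)) (XT.nd (nat_lit 78) (nat_lit 0) (nat_lit 0) (XT.lf (nat_lit 0) (nat_lit 1115067525) (nat_lit 684) (nat_lit 7140789878) (nat_lit 76) (nat_lit 843960919) (nat_lit 203) (nat_lit 5) (nat_lit 212) (nat_lit 5) (nat_lit 204) (nat_lit 5) (nat_lit 443) (nat_lit 376) (nat_lit 321)) (XT.lf (nat_lit 0) (nat_lit 3587702550) (nat_lit 684) (nat_lit 1904465274)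 (nat_lit 76) (nat_lit 3700979380) (nat_lit 203) (nat_lit 5) (nat_lit 212) (nat_lit 5) (nat_lit 204) (nat_lit 5) (nat_lit 444) (nat_lit 376) (nat_lit 320)))) (XT.nd (nat_lit 156) (nat_lit 1216) (nat_lit 0) (XT.nd (nat_lit 78) (nat_lit 0) (nat_lit 0) (XT.lf (nat_lit 0) (nat_lit 3440215036) (nat_lit 532) (nat_lit 2657997435) (nat_lit 608) (nat_lit 3190392536) (nat_lit 196) (nat_lit 5) (nat_lit 203) (nat_lit 5) (nat_lit 204) (nat_lit 5) (nat_lit 445) (nat_lit 376) (nat_lit 319)) (XT.lf (nat_lit 0) (nat_lit 8639742465) (nat_lit 608) (nat_lit 511575765) (nat_lit 76) (nat_lit 235067722) (nat_lit 196) (nat_lit 5) (nat_lit 204) (nat_lit 5) (nat_lit 197) (nat_lit 5) (nat_lit 446) (nat_lit 376) (nat_lit 318))) (XT.nd (nat_lit 78) (nat_lit 532) (nat_lit 0) (XT.lf (nat_lit 0) (nat_lit 1739919021) (nat_lit 684) (nat_lit 4559174263) (nat_lit 76) (nat_lit 3186494776) (nat_lit 187) (nat_lit 5) (nat_lit 196) (nat_lit 5)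 (nat_lit 188) (nat_lit 5) (nat_lit 447) (nat_lit 376) (nat_lit 317)) (XT.lf (nat_lit 0) (nat_lit 858443006) (nat_lit 532) (nat_lit 3384038873) (nat_lit 608) (nat_lit 5344696734) (nat_lit 180) (nat_lit 5) (nat_lit 187) (nat_lit 5) (nat_lit 188) (nat_lit 5) (nat_lit 448) (nat_lit 376) (nat_lit 316))))))))
noncomputable def xc93 : XT := (XT.nd (nat_lit 2106) (nat_lit 3800) (nat_lit 0) (XT.nd (nat_lit 1014) (nat_lit 2736) (nat_lit 0) (XT.nd (nat_lit 468) (nat_lit 1976) (nat_lit 0) (XT.nd (nat_lit 234) (nat_lit 988) (nat_lit 0) (XT.nd (nat_lit 78) (nat_lit 608) (nat_lit 0) (XT.lf (nat_lit 0) (nat_lit 6405244369) (nat_lit 532) (nat_lit 388050727) (nat_lit 608) (nat_lit 2897569785) (nat_lit 180) (nat_lit 5) (nat_lit 187) (nat_lit 5) (nat_lit 188) (nat_lit 5) (nat_lit 449) (nat_lit 376) (nat_lit 315)) (XT.nd (nat_lit 78) (nat_lit 76) (nat_lit 0) (XT.lf (nat_lit 0) (nat_lit 2237608311) (nat_lit 532) (nat_lit 7157551070)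 (nat_lit 608) (nat_lit 401492134) (nat_lit 173) (nat_lit 5) (nat_lit 180) (nat_lit 5) (nat_lit 181) (nat_lit 5) (nat_lit 450) (nat_lit 376) (nat_lit 314)) (XT.lf (nat_lit 0) (nat_lit 2109456947) (nat_lit 608) (nat_lit 2045866071) (nat_lit 76) (nat_lit 5749117159) (nat_lit 172) (nat_lit 5) (nat_lit 180) (nat_lit 5) (nat_lit 173) (nat_lit 5) (nat_lit 451) (nat_lit 376) (nat_lit 313)))) (XT.nd (nat_lit 78) (nat_lit 532) (nat_lit 0) (XT.lf (nat_lit 0) (nat_lit 3581741025) (nat_lit 456) (nat_lit 1075700760) (nat_lit 532) (nat_lit 5357071656) (nat_lit 166) (nat_lit 5) (nat_lit 172) (nat_lit 5) (nat_lit 173) (nat_lit 5) (nat_lit 452) (nat_lit 376) (nat_lit 312)) (XT.nd (nat_lit 78) (nat_lit 532) (nat_lit 0) (XT.lf (nat_lit 0) (nat_lit 7252840127) (nat_lit 532) (nat_lit 830848478) (nat_lit 76) (nat_lit 2043195748) (nat_lit 166) (nat_lit 5) (nat_lit 173) (nat_lit 5) (nat_lit 167) (nat_lit 5) (nat_lit 453) (nat_lit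 376) (nat_lit 311)) (XT.lf (nat_lit 0) (nat_lit 4900589862) (nat_lit 532) (nat_lit 5008325120) (nat_lit 608) (nat_lit 332437088) (nat_lit 159) (nat_lit 5) (nat_lit 166) (nat_lit 5) (nat_lit 167) (nat_lit 5) (nat_lit 454) (nat_lit 376) (nat_lit 310))))) (XT.nd (nat_lit 234) (nat_lit 988) (nat_lit 0) (XT.nd (nat_lit 78) (nat_lit 456) (nat_lit 0) (XT.lf (nat_lit 0) (nat_lit 349966610) (nat_lit 456) (nat_lit 1858220829) (nat_lit 532) (nat_lit 8150095524) (nat_lit 152) (nat_lit 5) (nat_lit 158) (nat_lit 5) (nat_lit 159) (nat_lit 5) (nat_lit 455) (nat_lit 376) (nat_lit 309)) (XT.nd (nat_lit 78) (nat_lit 456) (nat_lit 0) (XT.lf (nat_lit 0) (nat_lit 4810260323) (nat_lit 532) (nat_lit 4301292455) (nat_lit 76) (nat_lit 1365677336) (nat_lit 152) (nat_lit 5) (nat_lit 159) (nat_lit 5) (nat_lit 153) (nat_lit 5) (nat_lit 456) (nat_lit 376) (nat_lit 308)) (XT.lf (nat_lit 0) (nat_lit 1487738090) (nat_lit 456) (nat_lit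 5969395729) (nat_lit 532) (nat_lit 3141590080) (nat_lit 146) (nat_lit 5) (nat_lit 152) (nat_lit 5) (nat_lit 153) (nat_lit 5) (nat_lit 457) (nat_lit 376) (nat_lit 307)))) (XT.nd (nat_lit 156) (nat_lit 456) (nat_lit 0) (XT.nd (nat_lit 78) (nat_lit 532) (nat_lit 0) (XT.lf (nat_lit 0) (nat_lit 7411773527) (nat_lit 456) (nat_lit 2745147804) (nat_lit 532) (nat_lit 565749127) (nat_lit 146) (nat_lit 5) (nat_lit 152) (nat_lit 5) (nat_lit 153) (nat_lit 5) (nat_lit 458) (nat_lit 376) (nat_lit 306)) (XT.lf (nat_lit 0) (nat_lit 2026499783) (nat_lit 532) (nat_lit 8265725164) (nat_lit 76) (nat_lit 556786258) (nat_lit 139) (nat_lit 5) (nat_lit 146) (nat_lit 5) (nat_lit 140) (nat_lit 5) (nat_lit 459) (nat_lit 376) (nat_lit 305))) (XT.nd (nat_lit 78) (nat_lit 456) (nat_lit 0) (XT.lf (nat_lit 0) (nat_lit 4675283151) (nat_lit 532) (nat_lit 2398254906) (nat_lit 76) (nat_lit 3904041756) (nat_lit 139) (nat_lit 5) (nat_lit 146)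 (nat_lit 5) (nat_lit 140) (nat_lit 5) (nat_lit 460) (nat_lit 376) (nat_lit 304)) (XT.lf (nat_lit 0) (nat_lit 3595505120) (nat_lit 456) (nat_lit 3777149110) (nat_lit 532) (nat_lit 3736174040) (nat_lit 133) (nat_lit 5) (nat_lit 139) (nat_lit 5) (nat_lit 140) (nat_lit 5) (nat_lit 461) (nat_lit 376) (nat_lit 303)))))) (XT.nd (nat_lit 546) (nat_lit 1064) (nat_lit 0) (XT.nd (nat_lit 234) (nat_lit 1216) (nat_lit 0) (XT.nd (nat_lit 78) (nat_lit 456) (nat_lit 0) (XT.lf (nat_lit 0) (nat_lit 9703685406) (nat_lit 456) (nat_lit 408945801) (nat_lit 532) (nat_lit 1130317631) (nat_lit 133) (nat_lit 5) (nat_lit 139) (nat_lit 5) (nat_lit 140) (nat_lit 5) (nat_lit 462) (nat_lit 376) (nat_lit 302)) (XT.nd (nat_lit 78) (nat_lit 0) (nat_lit 0) (XT.lf (nat_lit 0) (nat_lit 1530019922) (nat_lit 456) (nat_lit 6832714291) (nat_lit 76) (nat_lit 3016390769) (nat_lit 127) (nat_lit 5) (nat_lit 133) (nat_lit 5) (nat_lit 128) (nat_lit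 5) (nat_lit 463) (nat_lit 376) (nat_lit 301)) (XT.lf (nat_lit 0) (nat_lit 4214674724) (nat_lit 456) (nat_lit 791255406) (nat_lit 76) (nat_lit 6512239322) (nat_lit 127) (nat_lit 5) (nat_lit 133) (nat_lit 5) (nat_lit 128) (nat_lit 5) (nat_lit 464) (nat_lit 376) (nat_lit 300)))) (XT.nd (nat_lit 156) (nat_lit 836) (nat_lit 0) (XT.nd (nat_lit 78) (nat_lit 0) (nat_lit 0) (XT.lf (nat_lit 0) (nat_lit 5404821232) (nat_lit 380) (nat_lit 1556945407) (nat_lit 456) (nat_lit 4698072058) (nat_lit 122) (nat_lit 5) (nat_lit 127) (nat_lit 5) (nat_lit 128) (nat_lit 5) (nat_lit 465) (nat_lit 376) (nat_lit 299)) (XT.lf (nat_lit 0) (nat_lit 9755737209) (nat_lit 456) (nat_lit 118779824) (nat_lit 76) (nat_lit 1930003956) (nat_lit 122) (nat_lit 5) (nat_lit 128) (nat_lit 5) (nat_lit 123) (nat_lit 5) (nat_lit 466) (nat_lit 376) (nat_lit 298))) (XT.nd (nat_lit 78) (nat_lit 380) (nat_lit 0) (XT.lf (nat_lit 0) (nat_lit 669836367)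 (nat_lit 456) (nat_lit 5781768757) (nat_lit 76) (nat_lit 5499926293) (nat_lit 116) (nat_lit 5) (nat_lit 122) (nat_lit 5) (nat_lit 117) (nat_lit 5) (nat_lit 467) (nat_lit 376) (nat_lit 297)) (XT.lf (nat_lit 0) (nat_lit 439706755) (nat_lit 380) (nat_lit 2953825135) (nat_lit 456) (nat_lit 8708133926) (nat_lit 111) (nat_lit 5) (nat_lit 116) (nat_lit 5) (nat_lit 117) (nat_lit 5) (nat_lit 468) (nat_lit 376) (nat_lit 296))))) (XT.nd (nat_lit 234) (nat_lit 760) (nat_lit 0) (XT.nd (nat_lit 78) (nat_lit 304) (nat_lit 0) (XT.lf (nat_lit 0) (nat_lit 6189387772) (nat_lit 456) (nat_lit 5431199834) (nat_lit 76) (nat_lit 633878566) (nat_lit 111) (nat_lit 5) (nat_lit 117) (nat_lit 5) (nat_lit 112) (nat_lit 5) (nat_lit 469) (nat_lit 376) (nat_lit 295)) (XT.nd (nat_lit 78) (nat_lit 0) (nat_lit 0) (XT.lf (nat_lit 0) (nat_lit 879962294) (nat_lit 304) (nat_lit 8161615568) (nat_lit 380) (nat_lit 3368752995) (nat_lit 107) (nat_lit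 5) (nat_lit 111) (nat_lit 5) (nat_lit 112) (nat_lit 5) (nat_lit 470) (nat_lit 376) (nat_lit 294)) (XT.lf (nat_lit 0) (nat_lit 7355015718) (nat_lit 304) (nat_lit 4607638259) (nat_lit 380) (nat_lit 606438350) (nat_lit 107) (nat_lit 5) (nat_lit 111) (nat_lit 5) (nat_lit 112) (nat_lit 5) (nat_lit 471) (nat_lit 376) (nat_lit 293)))) (XT.nd (nat_lit 156) (nat_lit 304) (nat_lit 0) (XT.nd (nat_lit 78) (nat_lit 0) (nat_lit 0) (XT.lf (nat_lit 0) (nat_lit 1194261135) (nat_lit 380) (nat_lit 971319010) (nat_lit 456) (nat_lit 10565508326) (nat_lit 101) (nat_lit 5) (nat_lit 106) (nat_lit 5) (nat_lit 107) (nat_lit 5) (nat_lit 472) (nat_lit 376) (nat_lit 292)) (XT.lf (nat_lit 0) (nat_lit 5013798835) (nat_lit 456) (nat_lit 5151979753) (nat_lit 76) (nat_lit 2729903573) (nat_lit 101) (nat_lit 5) (nat_lit 107) (nat_lit 5) (nat_lit 102) (nat_lit 5) (nat_lit 473) (nat_lit 376) (nat_lit 291))) (XT.nd (nat_lit 78) (nat_lit 0)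 (nat_lit 0) (XT.lf (nat_lit 0) (nat_lit 1336587465) (nat_lit 304) (nat_lit 6573854424) (nat_lit 380) (nat_lit 5153311729) (nat_lit 97) (nat_lit 5) (nat_lit 101) (nat_lit 5) (nat_lit 102) (nat_lit 5) (nat_lit 474) (nat_lit 376) (nat_lit 290)) (XT.lf (nat_lit 0) (nat_lit 7989918895) (nat_lit 304) (nat_lit 2886258316) (nat_lit 380) (nat_lit 2358800901) (nat_lit 97) (nat_lit 5) (nat_lit 101) (nat_lit 5) (nat_lit 102) (nat_lit 5) (nat_lit 475) (nat_lit 376) (nat_lit 289))))))) (XT.nd (nat_lit 1092) (nat_lit 1596) (nat_lit 0) (XT.nd (nat_lit 546) (nat_lit 912) (nat_lit 0) (XT.nd (nat_lit 234) (nat_lit 608) (nat_lit 0) (XT.nd (nat_lit 78) (nat_lit 304) (nat_lit 0) (XT.lf (nat_lit 0) (nat_lit 476462847) (nat_lit 380) (nat_lit 12068873812) (nat_lit 76) (nat_lit 864414619) (nat_lit 92) (nat_lit 5) (nat_lit 97) (nat_lit 5) (nat_lit 93) (nat_lit 5) (nat_lit 476) (nat_lit 376) (nat_lit 288)) (XT.nd (nat_lit 78) (nat_lit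 304) (nat_lit 0) (XT.lf (nat_lit 0) (nat_lit 3368458349) (nat_lit 380) (nat_lit 5527306440) (nat_lit 76) (nat_lit 4691325014) (nat_lit 92) (nat_lit 5) (nat_lit 97) (nat_lit 5) (nat_lit 93) (nat_lit 5) (nat_lit 477) (nat_lit 376) (nat_lit 287)) (XT.lf (nat_lit 0) (nat_lit 1125885002) (nat_lit 304) (nat_lit 5177205811) (nat_lit 380) (nat_lit 7465202012) (nat_lit 88) (nat_lit 5) (nat_lit 92) (nat_lit 5) (nat_lit 93) (nat_lit 5) (nat_lit 478) (nat_lit 376) (nat_lit 286)))) (XT.nd (nat_lit 156) (nat_lit 304) (nat_lit 0) (XT.nd (nat_lit 78) (nat_lit 304) (nat_lit 0) (XT.lf (nat_lit 0) (nat_lit 7953314417) (nat_lit 304) (nat_lit 1357902012) (nat_lit 380) (nat_lit 4641620872) (nat_lit 88) (nat_lit 5) (nat_lit 92) (nat_lit 5) (nat_lit 93) (nat_lit 5) (nat_lit 479) (nat_lit 376) (nat_lit 285)) (XT.lf (nat_lit 0) (nat_lit 735929139) (nat_lit 304) (nat_lit 11642904054) (nat_lit 380) (nat_lit 1762266040) (nat_lit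 84) (nat_lit 5) (nat_lit 88) (nat_lit 5) (nat_lit 89) (nat_lit 5) (nat_lit 480) (nat_lit 376) (nat_lit 284))) (XT.nd (nat_lit 78) (nat_lit 228) (nat_lit 0) (XT.lf (nat_lit 0) (nat_lit 1186920181) (nat_lit 380) (nat_lit 6695340557) (nat_lit 76) (nat_lit 6450172750) (nat_lit 83) (nat_lit 5) (nat_lit 88) (nat_lit 5) (nat_lit 84) (nat_lit 5) (nat_lit 481) (nat_lit 376) (nat_lit 283)) (XT.lf (nat_lit 0) (nat_lit 105507961) (nat_lit 228) (nat_lit 4045252382) (nat_lit 304) (nat_lit 10377028156) (nat_lit 80) (nat_lit 5) (nat_lit 83) (nat_lit 5) (nat_lit 84) (nat_lit 5) (nat_lit 482) (nat_lit 376) (nat_lit 282))))) (XT.nd (nat_lit 234) (nat_lit 608) (nat_lit 0) (XT.nd (nat_lit 78) (nat_lit 304) (nat_lit 0) (XT.lf (nat_lit 0) (nat_lit 7100456211) (nat_lit 228) (nat_lit 97118481) (nat_lit 304) (nat_lit 7529014108) (nat_lit 80) (nat_lit 5) (nat_lit 83) (nat_lit 5) (nat_lit 84) (nat_lit 5) (nat_lit 483) (nat_lit 376)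 (nat_lit 281)) (XT.nd (nat_lit 78) (nat_lit 304) (nat_lit 0) (XT.lf (nat_lit 0) (nat_lit 10309952955) (nat_lit 304) (nat_lit 751966752) (nat_lit 76) (nat_lit 3867364750) (nat_lit 80) (nat_lit 5) (nat_lit 84) (nat_lit 5) (nat_lit 81) (nat_lit 5) (nat_lit 484) (nat_lit 376) (nat_lit 280)) (XT.lf (nat_lit 0) (nat_lit 6310042611) (nat_lit 304) (nat_lit 7195669498) (nat_lit 380) (nat_lit 1629910917) (nat_lit 76) (nat_lit 5) (nat_lit 80) (nat_lit 5) (nat_lit 81) (nat_lit 5) (nat_lit 485) (nat_lit 376) (nat_lit 279)))) (XT.nd (nat_lit 156) (nat_lit 304) (nat_lit 0) (XT.nd (nat_lit 78) (nat_lit 228) (nat_lit 0) (XT.lf (nat_lit 0) (nat_lit 1385335545) (nat_lit 380) (nat_lit 1863578363) (nat_lit 76) (nat_lit 12097308335) (nat_lit 75) (nat_lit 5) (nat_lit 80) (nat_lit 5) (nat_lit 76) (nat_lit 5) (nat_lit 486) (nat_lit 376) (nat_lit 278)) (XT.lf (nat_lit 0) (nat_lit 4458506332) (nat_lit 304) (nat_lit 10301100491)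 (nat_lit 76) (nat_lit 800833266) (nat_lit 72) (nat_lit 5) (nat_lit 76) (nat_lit 5) (nat_lit 73) (nat_lit 5) (nat_lit 487) (nat_lit 376) (nat_lit 277))) (XT.nd (nat_lit 78) (nat_lit 304) (nat_lit 0) (XT.lf (nat_lit 0) (nat_lit 7607336730) (nat_lit 304) (nat_lit 3281647171) (nat_lit 76) (nat_lit 4889685244) (nat_lit 72) (nat_lit 5) (nat_lit 76) (nat_lit 5) (nat_lit 73) (nat_lit 5) (nat_lit 488) (nat_lit 376) (nat_lit 276)) (XT.lf (nat_lit 0) (nat_lit 3898607127) (nat_lit 304) (nat_lit 6926331107) (nat_lit 380) (nat_lit 5176219224) (nat_lit 68) (nat_lit 5) (nat_lit 72) (nat_lit 5) (nat_lit 73) (nat_lit 5) (nat_lit 489) (nat_lit 376) (nat_lit 275)))))) (XT.nd (nat_lit 546) (nat_lit 836) (nat_lit 0) (XT.nd (nat_lit 234) (nat_lit 456) (nat_lit 0) (XT.nd (nat_lit 78) (nat_lit 304) (nat_lit 0) (XT.lf (nat_lit 0) (nat_lit 11236433180) (nat_lit 304) (nat_lit 2873146893) (nat_lit 380) (nat_lit 2118472060) (nat_lit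 68) (nat_lit 5) (nat_lit 72) (nat_lit 5) (nat_lit 73) (nat_lit 5) (nat_lit 490) (nat_lit 376) (nat_lit 274)) (XT.nd (nat_lit 78) (nat_lit 0) (nat_lit 0) (XT.lf (nat_lit 0) (nat_lit 991112514) (nat_lit 304) (nat_lit 14213289113) (nat_lit 76) (nat_lit 1254887057) (nat_lit 64) (nat_lit 5) (nat_lit 68) (nat_lit 5) (nat_lit 65) (nat_lit 5) (nat_lit 491) (nat_lit 376) (nat_lit 273)) (XT.lf (nat_lit 0) (nat_lit 4168312637) (nat_lit 304) (nat_lit 7062025474) (nat_lit 76) (nat_lit 5463865752) (nat_lit 64) (nat_lit 5) (nat_lit 68) (nat_lit 5) (nat_lit 65) (nat_lit 5) (nat_lit 492) (nat_lit 376) (nat_lit 272)))) (XT.nd (nat_lit 156) (nat_lit 228) (nat_lit 0) (XT.nd (nat_lit 78) (nat_lit 0) (nat_lit 0) (XT.lf (nat_lit 0) (nat_lit 205249733) (nat_lit 228) (nat_lit 7186529839) (nat_lit 304) (nat_lit 9542392887) (nat_lit 61) (nat_lit 5) (nat_lit 64) (nat_lit 5) (nat_lit 65) (nat_lit 5) (nat_lit 493) (nat_lit 376) (nat_lit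 271)) (XT.lf (nat_lit 0) (nat_lit 7684087899) (nat_lit 228) (nat_lit 3024581347) (nat_lit 304) (nat_lit 6469701497) (nat_lit 61) (nat_lit 5) (nat_lit 64) (nat_lit 5) (nat_lit 65) (nat_lit 5) (nat_lit 494) (nat_lit 376) (nat_lit 270))) (XT.nd (nat_lit 78) (nat_lit 228) (nat_lit 0) (XT.lf (nat_lit 0) (nat_lit 14081676203) (nat_lit 304) (nat_lit 2152106891) (nat_lit 76) (nat_lit 1193883509) (nat_lit 61) (nat_lit 5) (nat_lit 65) (nat_lit 5) (nat_lit 62) (nat_lit 5) (nat_lit 495) (nat_lit 376) (nat_lit 269)) (XT.lf (nat_lit 0) (nat_lit 5358501381) (nat_lit 228) (nat_lit 12200673500) (nat_lit 304) (nat_lit 122041885) (nat_lit 58) (nat_lit 5) (nat_lit 61) (nat_lit 5) (nat_lit 62) (nat_lit 5) (nat_lit 496) (nat_lit 376) (nat_lit 268))))) (XT.nd (nat_lit 234) (nat_lit 532) (nat_lit 0) (XT.nd (nat_lit 78) (nat_lit 228) (nat_lit 0) (XT.lf (nat_lit 0) (nat_lit 3121644110) (nat_lit 304) (nat_lit 4940423419) (nat_lit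 76) (nat_lit 9877432183) (nat_lit 57) (nat_lit 5) (nat_lit 61) (nat_lit 5) (nat_lit 58) (nat_lit 5) (nat_lit 497) (nat_lit 376) (nat_lit 267)) (XT.nd (nat_lit 78) (nat_lit 0) (nat_lit 0) (XT.lf (nat_lit 0) (nat_lit 2594583017) (nat_lit 228) (nat_lit 3833430830) (nat_lit 304) (nat_lit 11774937953) (nat_lit 54) (nat_lit 5) (nat_lit 57) (nat_lit 5) (nat_lit 58) (nat_lit 5) (nat_lit 498) (nat_lit 376) (nat_lit 266)) (XT.lf (nat_lit 0) (nat_lit 9819685336) (nat_lit 304) (nat_lit 8155336087) (nat_lit 76) (nat_lit 496276350) (nat_lit 54) (nat_lit 5) (nat_lit 58) (nat_lit 5) (nat_lit 55) (nat_lit 5) (nat_lit 499) (nat_lit 376) (nat_lit 265)))) (XT.nd (nat_lit 156) (nat_lit 304) (nat_lit 0) (XT.nd (nat_lit 78) (nat_lit 228) (nat_lit 0) (XT.lf (nat_lit 0) (nat_lit 13287603607) (nat_lit 304) (nat_lit 606325716) (nat_lit 76) (nat_lit 4850921245) (nat_lit 54) (nat_lit 5) (nat_lit 58) (nat_lit 5) (nat_lit 55) (nat_lit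 5) (nat_lit 500) (nat_lit 376) (nat_lit 264)) (XT.lf (nat_lit 0) (nat_lit 7160422124) (nat_lit 228) (nat_lit 9694307537) (nat_lit 304) (nat_lit 2168555777) (nat_lit 51) (nat_lit 5) (nat_lit 54) (nat_lit 5) (nat_lit 55) (nat_lit 5) (nat_lit 501) (nat_lit 376) (nat_lit 263))) (XT.nd (nat_lit 78) (nat_lit 228) (nat_lit 0) (XT.lf (nat_lit 0) (nat_lit 1157844939) (nat_lit 304) (nat_lit 4251413174) (nat_lit 76) (nat_lit 13898134814) (nat_lit 50) (nat_lit 5) (nat_lit 54) (nat_lit 5) (nat_lit 51) (nat_lit 5) (nat_lit 502) (nat_lit 376) (nat_lit 262)) (XT.lf (nat_lit 0) (nat_lit 3517366236) (nat_lit 228) (nat_lit 1010953721) (nat_lit 304) (nat_lit 15068451808) (nat_lit 47) (nat_lit 5) (nat_lit 50) (nat_lit 5) (nat_lit 51) (nat_lit 5) (nat_lit 503) (nat_lit 376) (nat_lit 261))))))))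
noncomputable def xc94 : XT := (XT.nd (nat_lit 50388) (nat_lit 0) (nat_lit 28348) (XT.nd (nat_lit 1014) (nat_lit 532) (nat_lit 0) (XT.nd (nat_lit 468) (nat_lit 608) (nat_lit 0) (XT.nd (nat_lit 234) (nat_lit 304) (nat_lit 0) (XT.nd (nat_lit 78) (nat_lit 152) (nat_lit 0) (XT.lf (nat_lit 0) (nat_lit 8001285677) (nat_lit 304) (nat_lit 8441727013) (nat_lit 76) (nat_lit 3448231263) (nat_lit 47) (nat_lit 5) (nat_lit 51) (nat_lit 5) (nat_lit 48) (nat_lit 5) (nat_lit 504) (nat_lit 376) (nat_lit 260)) (XT.nd (nat_lit 78) (nat_lit 152) (nat_lit 0) (XT.lf (nat_lit 0) (nat_lit 11534522422) (nat_lit 304) (nat_lit 684222024) (nat_lit 76) (nat_lit 7973052159) (nat_lit 47) (nat_lit 5) (nat_lit 51) (nat_lit 5) (nat_lit 48) (nat_lit 5) (nat_lit 505) (nat_lit 376) (nat_lit 259)) (XT.lf (nat_lit 0) (nat_lit 7298435674) (nat_lit 152) (nat_lit 7871802603) (nat_lit 228) (nat_lit 5327492857) (nat_lit 45) (nat_lit 5) (nat_lit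 47) (nat_lit 5) (nat_lit 48) (nat_lit 5) (nat_lit 506) (nat_lit 376) (nat_lit 258)))) (XT.nd (nat_lit 78) (nat_lit 304) (nat_lit 0) (XT.lf (nat_lit 0) (nat_lit 15424472847) (nat_lit 152) (nat_lit 3443354638) (nat_lit 228) (nat_lit 1942180661) (nat_lit 45) (nat_lit 5) (nat_lit 47) (nat_lit 5) (nat_lit 48) (nat_lit 5) (nat_lit 507) (nat_lit 376) (nat_lit 257)) (XT.nd (nat_lit 78) (nat_lit 0) (nat_lit 0) (XT.lf (nat_lit 0) (nat_lit 1499640570) (nat_lit 304) (nat_lit 18552077798) (nat_lit 76) (nat_lit 1076450489) (nat_lit 41) (nat_lit 5) (nat_lit 45) (nat_lit 5) (nat_lit 42) (nat_lit 5) (nat_lit 508) (nat_lit 376) (nat_lit 256)) (XT.lf (nat_lit 0) (nat_lit 5028333718) (nat_lit 304) (nat_lit 10743257122) (nat_lit 76) (nat_lit 5679970931) (nat_lit 41) (nat_lit 5) (nat_lit 45) (nat_lit 5) (nat_lit 42) (nat_lit 5) (nat_lit 509) (nat_lit 376) (nat_lit 255))))) (XT.nd (nat_lit 234) (nat_lit 456) (nat_lit 0) (XT.nd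 (nat_lit 78) (nat_lit 152) (nat_lit 0) (XT.lf (nat_lit 0) (nat_lit 8612732292) (nat_lit 304) (nat_lit 2803097578) (nat_lit 76) (nat_lit 10365896481) (nat_lit 41) (nat_lit 5) (nat_lit 45) (nat_lit 5) (nat_lit 42) (nat_lit 5) (nat_lit 510) (nat_lit 376) (nat_lit 254)) (XT.nd (nat_lit 78) (nat_lit 0) (nat_lit 0) (XT.lf (nat_lit 0) (nat_lit 5341570275) (nat_lit 152) (nat_lit 6947352682) (nat_lit 228) (nat_lit 9829175500) (nat_lit 39) (nat_lit 5) (nat_lit 41) (nat_lit 5) (nat_lit 42) (nat_lit 5) (nat_lit 511) (nat_lit 376) (nat_lit 253)) (XT.lf (nat_lit 0) (nat_lit 13662937878) (nat_lit 152) (nat_lit 2380061681) (nat_lit 228) (nat_lit 6418117394) (nat_lit 39) (nat_lit 5) (nat_lit 41) (nat_lit 5) (nat_lit 42) (nat_lit 5) (nat_lit 512) (nat_lit 376) (nat_lit 252)))) (XT.nd (nat_lit 156) (nat_lit 152) (nat_lit 0) (XT.nd (nat_lit 78) (nat_lit 304) (nat_lit 0) (XT.lf (nat_lit 0) (nat_lit 19872724863) (nat_lit 228)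 (nat_lit 699000376) (nat_lit 76) (nat_lit 2239265306) (nat_lit 39) (nat_lit 5) (nat_lit 42) (nat_lit 5) (nat_lit 40) (nat_lit 5) (nat_lit 513) (nat_lit 376) (nat_lit 251)) (XT.lf (nat_lit 0) (nat_lit 654808233) (nat_lit 304) (nat_lit 15548247632) (nat_lit 76) (nat_lit 6963699394) (nat_lit 35) (nat_lit 5) (nat_lit 39) (nat_lit 5) (nat_lit 36) (nat_lit 5) (nat_lit 514) (nat_lit 376) (nat_lit 250))) (XT.nd (nat_lit 78) (nat_lit 152) (nat_lit 0) (XT.lf (nat_lit 0) (nat_lit 4271235621) (nat_lit 304) (nat_lit 7460700513) (nat_lit 76) (nat_lit 11797499708) (nat_lit 35) (nat_lit 5) (nat_lit 39) (nat_lit 5) (nat_lit 36) (nat_lit 5) (nat_lit 515) (nat_lit 376) (nat_lit 249)) (XT.lf (nat_lit 0) (nat_lit 775722060) (nat_lit 152) (nat_lit 7175655871) (nat_lit 228) (nat_lit 15948169984) (nat_lit 33) (nat_lit 5) (nat_lit 35) (nat_lit 5) (nat_lit 36) (nat_lit 5) (nat_lit 516) (nat_lit 376) (nat_lit 248)))))) (XT.nd (nat_lit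 546) (nat_lit 152) (nat_lit 0) (XT.nd (nat_lit 234) (nat_lit 228) (nat_lit 0) (XT.nd (nat_lit 78) (nat_lit 152) (nat_lit 0) (XT.lf (nat_lit 0) (nat_lit 9255107260) (nat_lit 152) (nat_lit 2486549909) (nat_lit 228) (nat_lit 12534679876) (nat_lit 33) (nat_lit 5) (nat_lit 35) (nat_lit 5) (nat_lit 36) (nat_lit 5) (nat_lit 517) (nat_lit 376) (nat_lit 247)) (XT.nd (nat_lit 78) (nat_lit 152) (nat_lit 0) (XT.lf (nat_lit 0) (nat_lit 15609325896) (nat_lit 228) (nat_lit 6794150842) (nat_lit 76) (nat_lit 2257158934) (nat_lit 33) (nat_lit 5) (nat_lit 36) (nat_lit 5) (nat_lit 34) (nat_lit 5) (nat_lit 518) (nat_lit 376) (nat_lit 246)) (XT.lf (nat_lit 0) (nat_lit 1579502534) (nat_lit 152) (nat_lit 17988503691) (nat_lit 228) (nat_lit 5484346162) (nat_lit 31) (nat_lit 5) (nat_lit 33) (nat_lit 5) (nat_lit 34) (nat_lit 5) (nat_lit 519) (nat_lit 376) (nat_lit 245)))) (XT.nd (nat_lit 156) (nat_lit 152) (nat_lit 0) (XT.nd (nat_lit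 78) (nat_lit 76) (nat_lit 0) (XT.lf (nat_lit 0) (nat_lit 10190656247) (nat_lit 152) (nat_lit 13447844950) (nat_lit 228) (nat_lit 1812754602) (nat_lit 31) (nat_lit 5) (nat_lit 33) (nat_lit 5) (nat_lit 34) (nat_lit 5) (nat_lit 520) (nat_lit 376) (nat_lit 244)) (XT.lf (nat_lit 0) (nat_lit 1894140289) (nat_lit 228) (nat_lit 6918461224) (nat_lit 76) (nat_lit 17045545561) (nat_lit 30) (nat_lit 5) (nat_lit 33) (nat_lit 5) (nat_lit 31) (nat_lit 5) (nat_lit 521) (nat_lit 376) (nat_lit 243))) (XT.nd (nat_lit 78) (nat_lit 0) (nat_lit 0) (XT.lf (nat_lit 0) (nat_lit 1577824592) (nat_lit 152) (nat_lit 4070806944) (nat_lit 228) (nat_lit 20624355250) (nat_lit 28) (nat_lit 5) (nat_lit 30) (nat_lit 5) (nat_lit 31) (nat_lit 5) (nat_lit 522) (nat_lit 376) (nat_lit 242)) (XT.lf (nat_lit 0) (nat_lit 9517433726) (nat_lit 228) (nat_lit 16384095930) (nat_lit 76) (nat_lit 793813999) (nat_lit 28) (nat_lit 5) (nat_lit 31) (nat_lit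 5) (nat_lit 29) (nat_lit 5) (nat_lit 523) (nat_lit 376) (nat_lit 241))))) (XT.nd (nat_lit 234) (nat_lit 0) (nat_lit 0) (XT.nd (nat_lit 78) (nat_lit 152) (nat_lit 0) (XT.lf (nat_lit 0) (nat_lit 13478330661) (nat_lit 228) (nat_lit 7954786110) (nat_lit 76) (nat_lit 5692741209) (nat_lit 28) (nat_lit 5) (nat_lit 31) (nat_lit 5) (nat_lit 29) (nat_lit 5) (nat_lit 524) (nat_lit 376) (nat_lit 240)) (XT.nd (nat_lit 78) (nat_lit 0) (nat_lit 0) (XT.lf (nat_lit 0) (nat_lit 630775993) (nat_lit 152) (nat_lit 16879764676) (nat_lit 228) (nat_lit 10054604619) (nat_lit 26) (nat_lit 5) (nat_lit 28) (nat_lit 5) (nat_lit 29) (nat_lit 5) (nat_lit 525) (nat_lit 376) (nat_lit 239)) (XT.lf (nat_lit 0) (nat_lit 9475407477) (nat_lit 152) (nat_lit 12189470310) (nat_lit 228) (nat_lit 6347515407) (nat_lit 26) (nat_lit 5) (nat_lit 28) (nat_lit 5) (nat_lit 29) (nat_lit 5) (nat_lit 526) (nat_lit 376) (nat_lit 238)))) (XT.nd (nat_lit 48438)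 (nat_lit 0) (nat_lit 43168) (XT.nd (nat_lit 48360) (nat_lit 0) (nat_lit 43472) (XT.lf (nat_lit 0) (nat_lit 18476861903) (nat_lit 152) (nat_lit 7413775143) (nat_lit 228) (nat_lit 2578186726) (nat_lit 26) (nat_lit 5) (nat_lit 28) (nat_lit 5) (nat_lit 29) (nat_lit 5) (nat_lit 527) (nat_lit 376) (nat_lit 237)) (XT.lf (nat_lit 0) (nat_lit 1366994150) (nat_lit 228) (nat_lit 496166945) (nat_lit 0) (nat_lit 1366994150) (nat_lit 598) (nat_lit 5) (nat_lit 601) (nat_lit 4) (nat_lit 598) (nat_lit 4) (nat_lit 386) (nat_lit 377) (nat_lit 377))) (XT.nd (nat_lit 78) (nat_lit 76) (nat_lit 0) (XT.lf (nat_lit 0) (nat_lit 2220845422) (nat_lit 228) (nat_lit 3450596680) (nat_lit 228) (nat_lit 795614209) (nat_lit 595) (nat_lit 4) (nat_lit 598) (nat_lit 5) (nat_lit 598) (nat_lit 4) (nat_lit 387) (nat_lit 377) (nat_lit 376)) (XT.lf (nat_lit 0) (nat_lit 2098090973) (nat_lit 304) (nat_lit 1019762697) (nat_lit 76) (nat_lit 3357271386)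 (nat_lit 594) (nat_lit 5) (nat_lit 598) (nat_lit 5) (nat_lit 595) (nat_lit 4) (nat_lit 388) (nat_lit 377) (nat_lit 375))))))) (XT.nd (nat_lit 1092) (nat_lit 9804) (nat_lit 0) (XT.nd (nat_lit 546) (nat_lit 3116) (nat_lit 0) (XT.nd (nat_lit 234) (nat_lit 1140) (nat_lit 0) (XT.nd (nat_lit 78) (nat_lit 456) (nat_lit 0) (XT.lf (nat_lit 0) (nat_lit 2252932917) (nat_lit 304) (nat_lit 2728614432) (nat_lit 380) (nat_lit 1502985325) (nat_lit 590) (nat_lit 5) (nat_lit 594) (nat_lit 5) (nat_lit 595) (nat_lit 4) (nat_lit 389) (nat_lit 377) (nat_lit 374)) (XT.nd (nat_lit 78) (nat_lit 380) (nat_lit 0) (XT.lf (nat_lit 0) (nat_lit 1345130538) (nat_lit 380) (nat_lit 941765748) (nat_lit 76) (nat_lit 4208468332) (nat_lit 589) (nat_lit 5) (nat_lit 594) (nat_lit 5) (nat_lit 590) (nat_lit 5) (nat_lit 390) (nat_lit 377) (nat_lit 373)) (XT.lf (nat_lit 0) (nat_lit 2392783986) (nat_lit 380) (nat_lit 1782690663) (nat_lit 456) (nat_lit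 2331957636) (nat_lit 584) (nat_lit 5) (nat_lit 589) (nat_lit 5) (nat_lit 590) (nat_lit 5) (nat_lit 391) (nat_lit 377) (nat_lit 372)))) (XT.nd (nat_lit 156) (nat_lit 608) (nat_lit 0) (XT.nd (nat_lit 78) (nat_lit 456) (nat_lit 0) (XT.lf (nat_lit 0) (nat_lit 472287769) (nat_lit 456) (nat_lit 759665379) (nat_lit 76) (nat_lit 5289103994) (nat_lit 583) (nat_lit 5) (nat_lit 589) (nat_lit 5) (nat_lit 584) (nat_lit 5) (nat_lit 392) (nat_lit 377) (nat_lit 371)) (XT.lf (nat_lit 0) (nat_lit 2639159624) (nat_lit 456) (nat_lit 611122655) (nat_lit 532) (nat_lit 3285504502) (nat_lit 577) (nat_lit 5) (nat_lit 583) (nat_lit 5) (nat_lit 584) (nat_lit 5) (nat_lit 393) (nat_lit 377) (nat_lit 370))) (XT.nd (nat_lit 78) (nat_lit 608) (nat_lit 0) (XT.lf (nat_lit 0) (nat_lit 6022064383) (nat_lit 532) (nat_lit 478398906) (nat_lit 76) (nat_lit 51699203) (nat_lit 577) (nat_lit 5) (nat_lit 584) (nat_lit 5) (nat_lit 578) (nat_lit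 5) (nat_lit 394) (nat_lit 377) (nat_lit 369)) (XT.lf (nat_lit 0) (nat_lit 2207912748) (nat_lit 608) (nat_lit 3583762089) (nat_lit 76) (nat_lit 777858201) (nat_lit 569) (nat_lit 5) (nat_lit 577) (nat_lit 5) (nat_lit 570) (nat_lit 5) (nat_lit 395) (nat_lit 377) (nat_lit 368))))) (XT.nd (nat_lit 234) (nat_lit 1748) (nat_lit 0) (XT.nd (nat_lit 78) (nat_lit 1368) (nat_lit 0) (XT.lf (nat_lit 0) (nat_lit 4931564626) (nat_lit 608) (nat_lit 108616665) (nat_lit 76) (nat_lit 1548349387) (nat_lit 569) (nat_lit 5) (nat_lit 577) (nat_lit 5) (nat_lit 570) (nat_lit 5) (nat_lit 396) (nat_lit 377) (nat_lit 367)) (XT.nd (nat_lit 78) (nat_lit 684) (nat_lit 0) (XT.lf (nat_lit 0) (nat_lit 1045293971) (nat_lit 684) (nat_lit 3177350965) (nat_lit 76) (nat_lit 2386066106) (nat_lit 560) (nat_lit 5) (nat_lit 569) (nat_lit 5) (nat_lit 561) (nat_lit 5) (nat_lit 397) (nat_lit 377) (nat_lit 366)) (XT.lf (nat_lit 0) (nat_lit 364715481)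 (nat_lit 684) (nat_lit 3354297380) (nat_lit 760) (nat_lit 2911374125) (nat_lit 551) (nat_lit 5) (nat_lit 560) (nat_lit 5) (nat_lit 561) (nat_lit 5) (nat_lit 398) (nat_lit 377) (nat_lit 365)))) (XT.nd (nat_lit 156) (nat_lit 912) (nat_lit 0) (XT.nd (nat_lit 78) (nat_lit 836) (nat_lit 0) (XT.lf (nat_lit 0) (nat_lit 3977560768) (nat_lit 684) (nat_lit 2427410569) (nat_lit 760) (nat_lit 248450822) (nat_lit 551) (nat_lit 5) (nat_lit 560) (nat_lit 5) (nat_lit 561) (nat_lit 5) (nat_lit 399) (nat_lit 377) (nat_lit 364)) (XT.lf (nat_lit 0) (nat_lit 938830290) (nat_lit 760) (nat_lit 1440797644) (nat_lit 836) (nat_lit 4298181515) (nat_lit 540) (nat_lit 5) (nat_lit 550) (nat_lit 5) (nat_lit 551) (nat_lit 5) (nat_lit 400) (nat_lit 377) (nat_lit 363))) (XT.nd (nat_lit 78) (nat_lit 912) (nat_lit 0) (XT.lf (nat_lit 0) (nat_lit 4617499407) (nat_lit 760) (nat_lit 396490798) (nat_lit 836) (nat_lit 1689615649) (nat_lit 540)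 (nat_lit 5) (nat_lit 550) (nat_lit 5) (nat_lit 551) (nat_lit 5) (nat_lit 401) (nat_lit 377) (nat_lit 362)) (XT.lf (nat_lit 0) (nat_lit 913220348) (nat_lit 912) (nat_lit 5123757608) (nat_lit 76) (nat_lit 693808914) (nat_lit 528) (nat_lit 5) (nat_lit 540) (nat_lit 5) (nat_lit 529) (nat_lit 5) (nat_lit 402) (nat_lit 377) (nat_lit 361)))))) (XT.nd (nat_lit 546) (nat_lit 5548) (nat_lit 0) (XT.nd (nat_lit 234) (nat_lit 3268) (nat_lit 0) (XT.nd (nat_lit 78) (nat_lit 988) (nat_lit 0) (XT.lf (nat_lit 0) (nat_lit 3503045088) (nat_lit 912) (nat_lit 1413905700) (nat_lit 76) (nat_lit 1842275927) (nat_lit 528) (nat_lit 5) (nat_lit 540) (nat_lit 5) (nat_lit 529) (nat_lit 5) (nat_lit 403) (nat_lit 377) (nat_lit 360)) (XT.nd (nat_lit 78) (nat_lit 76) (nat_lit 0) (XT.lf (nat_lit 0) (nat_lit 2357859548) (nat_lit 912) (nat_lit 3744093486) (nat_lit 988) (nat_lit 687224529) (nat_lit 516) (nat_lit 5) (nat_lit 528) (nat_lit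 5) (nat_lit 529) (nat_lit 5) (nat_lit 404) (nat_lit 377) (nat_lit 359)) (XT.lf (nat_lit 0) (nat_lit 1859682767) (nat_lit 988) (nat_lit 651699122) (nat_lit 76) (nat_lit 4309140557) (nat_lit 515) (nat_lit 5) (nat_lit 528) (nat_lit 5) (nat_lit 516) (nat_lit 5) (nat_lit 405) (nat_lit 377) (nat_lit 358)))) (XT.nd (nat_lit 156) (nat_lit 1140) (nat_lit 0) (XT.nd (nat_lit 78) (nat_lit 1140) (nat_lit 0) (XT.lf (nat_lit 0) (nat_lit 3197987942) (nat_lit 988) (nat_lit 1214613605) (nat_lit 1064) (nat_lit 2440599190) (nat_lit 502) (nat_lit 5) (nat_lit 515) (nat_lit 5) (nat_lit 516) (nat_lit 5) (nat_lit 406) (nat_lit 377) (nat_lit 357)) (XT.lf (nat_lit 0) (nat_lit 78789372) (nat_lit 1140) (nat_lit 6683010372) (nat_lit 76) (nat_lit 125786635) (nat_lit 487) (nat_lit 5) (nat_lit 502) (nat_lit 5) (nat_lit 488) (nat_lit 5) (nat_lit 407) (nat_lit 377) (nat_lit 356))) (XT.nd (nat_lit 78) (nat_lit 1140) (nat_lit 0) (XT.lf (nat_lit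 0) (nat_lit 2593435330) (nat_lit 1140) (nat_lit 2799865413) (nat_lit 76) (nat_lit 1529563446) (nat_lit 487) (nat_lit 5) (nat_lit 502) (nat_lit 5) (nat_lit 488) (nat_lit 5) (nat_lit 408) (nat_lit 377) (nat_lit 355)) (XT.lf (nat_lit 0) (nat_lit 1132228035) (nat_lit 1140) (nat_lit 3979364069) (nat_lit 1216) (nat_lit 1848267648) (nat_lit 472) (nat_lit 5) (nat_lit 487) (nat_lit 5) (nat_lit 488) (nat_lit 5) (nat_lit 409) (nat_lit 377) (nat_lit 354))))) (XT.nd (nat_lit 234) (nat_lit 4256) (nat_lit 0) (XT.nd (nat_lit 78) (nat_lit 1216) (nat_lit 0) (XT.lf (nat_lit 0) (nat_lit 638698231) (nat_lit 1216) (nat_lit 1864924442) (nat_lit 76) (nat_lit 4494654854) (nat_lit 471) (nat_lit 5) (nat_lit 487) (nat_lit 5) (nat_lit 472) (nat_lit 5) (nat_lit 410) (nat_lit 377) (nat_lit 353)) (XT.nd (nat_lit 78) (nat_lit 0) (nat_lit 0) (XT.lf (nat_lit 0) (nat_lit 2149790236) (nat_lit 1216) (nat_lit 962120177) (nat_lit 1292) (nat_lit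 3926155938) (nat_lit 455) (nat_lit 5) (nat_lit 471) (nat_lit 5) (nat_lit 472) (nat_lit 5) (nat_lit 411) (nat_lit 377) (nat_lit 352)) (XT.lf (nat_lit 0) (nat_lit 5599234505) (nat_lit 1292) (nat_lit 856452831) (nat_lit 76) (nat_lit 623741387) (nat_lit 455) (nat_lit 5) (nat_lit 472) (nat_lit 5) (nat_lit 456) (nat_lit 5) (nat_lit 412) (nat_lit 377) (nat_lit 351)))) (XT.nd (nat_lit 156) (nat_lit 1520) (nat_lit 0) (XT.nd (nat_lit 78) (nat_lit 1368) (nat_lit 0) (XT.lf (nat_lit 0) (nat_lit 977727978) (nat_lit 1368) (nat_lit 3879563548) (nat_lit 76) (nat_lit 2264736056) (nat_lit 437) (nat_lit 5) (nat_lit 455) (nat_lit 5) (nat_lit 438) (nat_lit 5) (nat_lit 413) (nat_lit 377) (nat_lit 350)) (XT.lf (nat_lit 0) (nat_lit 218960135) (nat_lit 1368) (nat_lit 3202680063) (nat_lit 1444) (nat_lit 3744576156) (nat_lit 419) (nat_lit 5) (nat_lit 437) (nat_lit 5) (nat_lit 438) (nat_lit 5) (nat_lit 414) (nat_lit 377) (nat_lit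 349))) (XT.nd (nat_lit 78) (nat_lit 1520) (nat_lit 0) (XT.lf (nat_lit 0) (nat_lit 4408654039) (nat_lit 1368) (nat_lit 1481946387) (nat_lit 1444) (nat_lit 1321230421) (nat_lit 419) (nat_lit 5) (nat_lit 437) (nat_lit 5) (nat_lit 438) (nat_lit 5) (nat_lit 415) (nat_lit 377) (nat_lit 348)) (XT.lf (nat_lit 0) (nat_lit 1097174196) (nat_lit 1520) (nat_lit 5869692552) (nat_lit 76) (nat_lit 292170634) (nat_lit 399) (nat_lit 5) (nat_lit 419) (nat_lit 5) (nat_lit 400) (nat_lit 5) (nat_lit 416) (nat_lit 377) (nat_lit 347))))))))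
noncomputable def xc95 : XT := (XT.nd (nat_lit 2106) (nat_lit 7904) (nat_lit 0) (XT.nd (nat_lit 1014) (nat_lit 5776) (nat_lit 0) (XT.nd (nat_lit 468) (nat_lit 3572) (nat_lit 0) (XT.nd (nat_lit 234) (nat_lit 3344) (nat_lit 0) (XT.nd (nat_lit 78) (nat_lit 1596) (nat_lit 0) (XT.lf (nat_lit 0) (nat_lit 3526471962) (nat_lit 1520) (nat_lit 1665826587) (nat_lit 76) (nat_lit 2115172078) (nat_lit 399) (nat_lit 5) (nat_lit 419) (nat_lit 5) (nat_lit 400) (nat_lit 5) (nat_lit 417) (nat_lit 377) (nat_lit 346)) (XT.nd (nat_lit 78) (nat_lit 76) (nat_lit 0) (XT.lf (nat_lit 0) (nat_lit 2613212192) (nat_lit 1520) (nat_lit 3360512367) (nat_lit 1596) (nat_lit 1383820963) (nat_lit 379) (nat_lit 5) (nat_lit 399) (nat_lit 5) (nat_lit 400) (nat_lit 5) (nat_lit 418) (nat_lit 377) (nat_lit 345)) (XT.lf (nat_lit 0) (nat_lit 1011321437) (nat_lit 1596) (nat_lit 458530540) (nat_lit 76) (nat_lit 5939411340) (nat_lit 378) (nat_lit 5)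 (nat_lit 399) (nat_lit 5) (nat_lit 379) (nat_lit 5) (nat_lit 419) (nat_lit 377) (nat_lit 344)))) (XT.nd (nat_lit 78) (nat_lit 1748) (nat_lit 0) (XT.lf (nat_lit 0) (nat_lit 3418102335) (nat_lit 1672) (nat_lit 3553128627) (nat_lit 76) (nat_lit 491013146) (nat_lit 357) (nat_lit 5) (nat_lit 379) (nat_lit 5) (nat_lit 358) (nat_lit 5) (nat_lit 420) (nat_lit 377) (nat_lit 343)) (XT.nd (nat_lit 78) (nat_lit 76) (nat_lit 0) (XT.lf (nat_lit 0) (nat_lit 811559589) (nat_lit 1672) (nat_lit 5033830692) (nat_lit 1748) (nat_lit 1671502572) (nat_lit 335) (nat_lit 5) (nat_lit 357) (nat_lit 5) (nat_lit 358) (nat_lit 5) (nat_lit 421) (nat_lit 377) (nat_lit 342)) (XT.lf (nat_lit 0) (nat_lit 717307336) (nat_lit 1748) (nat_lit 2309279445) (nat_lit 76) (nat_lit 4546433468) (nat_lit 334) (nat_lit 5) (nat_lit 357) (nat_lit 5) (nat_lit 335) (nat_lit 5) (nat_lit 422) (nat_lit 377) (nat_lit 341))))) (XT.nd (nat_lit 234) (nat_lit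 1672) (nat_lit 0) (XT.nd (nat_lit 78) (nat_lit 912) (nat_lit 0) (XT.lf (nat_lit 0) (nat_lit 2148858898) (nat_lit 988) (nat_lit 952051885) (nat_lit 1064) (nat_lit 4529803016) (nat_lit 321) (nat_lit 5) (nat_lit 334) (nat_lit 5) (nat_lit 335) (nat_lit 5) (nat_lit 423) (nat_lit 377) (nat_lit 340)) (XT.nd (nat_lit 78) (nat_lit 912) (nat_lit 0) (XT.lf (nat_lit 0) (nat_lit 5511374196) (nat_lit 1064) (nat_lit 1013054973) (nat_lit 76) (nat_lit 1165599810) (nat_lit 321) (nat_lit 5) (nat_lit 335) (nat_lit 5) (nat_lit 322) (nat_lit 5) (nat_lit 424) (nat_lit 377) (nat_lit 339)) (XT.lf (nat_lit 0) (nat_lit 202695203) (nat_lit 912) (nat_lit 4209665322) (nat_lit 76) (nat_lit 3338469796) (nat_lit 309) (nat_lit 5) (nat_lit 321) (nat_lit 5) (nat_lit 310) (nat_lit 5) (nat_lit 425) (nat_lit 377) (nat_lit 338)))) (XT.nd (nat_lit 156) (nat_lit 836) (nat_lit 0) (XT.nd (nat_lit 78) (nat_lit 0) (nat_lit 0) (XT.lf (nat_lit 0) (nat_lit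 334312632) (nat_lit 836) (nat_lit 2234360907) (nat_lit 912) (nat_lit 5244611211) (nat_lit 298) (nat_lit 5) (nat_lit 309) (nat_lit 5) (nat_lit 310) (nat_lit 5) (nat_lit 426) (nat_lit 377) (nat_lit 337)) (XT.lf (nat_lit 0) (nat_lit 4968016386) (nat_lit 912) (nat_lit 2893989562) (nat_lit 76) (nat_lit 15309018) (nat_lit 298) (nat_lit 5) (nat_lit 310) (nat_lit 5) (nat_lit 299) (nat_lit 5) (nat_lit 427) (nat_lit 377) (nat_lit 336))) (XT.nd (nat_lit 78) (nat_lit 76) (nat_lit 0) (XT.lf (nat_lit 0) (nat_lit 1747981847) (nat_lit 760) (nat_lit 5652031867) (nat_lit 836) (nat_lit 542965382) (nat_lit 288) (nat_lit 5) (nat_lit 298) (nat_lit 5) (nat_lit 299) (nat_lit 5) (nat_lit 428) (nat_lit 377) (nat_lit 335)) (XT.lf (nat_lit 0) (nat_lit 1824450979) (nat_lit 836) (nat_lit 1542971142) (nat_lit 76) (nat_lit 4642770504) (nat_lit 287) (nat_lit 5) (nat_lit 298) (nat_lit 5) (nat_lit 288) (nat_lit 5) (nat_lit 429) (nat_lit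 377) (nat_lit 334)))))) (XT.nd (nat_lit 546) (nat_lit 2736) (nat_lit 0) (XT.nd (nat_lit 234) (nat_lit 1520) (nat_lit 0) (XT.nd (nat_lit 78) (nat_lit 760) (nat_lit 0) (XT.lf (nat_lit 0) (nat_lit 3198139837) (nat_lit 760) (nat_lit 1014127930) (nat_lit 836) (nat_lit 3866848399) (nat_lit 277) (nat_lit 5) (nat_lit 287) (nat_lit 5) (nat_lit 288) (nat_lit 5) (nat_lit 430) (nat_lit 377) (nat_lit 333)) (XT.nd (nat_lit 78) (nat_lit 760) (nat_lit 0) (XT.lf (nat_lit 0) (nat_lit 6627321756) (nat_lit 836) (nat_lit 146145371) (nat_lit 76) (nat_lit 1376404544) (nat_lit 277) (nat_lit 5) (nat_lit 288) (nat_lit 5) (nat_lit 278) (nat_lit 5) (nat_lit 431) (nat_lit 377) (nat_lit 332)) (XT.lf (nat_lit 0) (nat_lit 855235802) (nat_lit 760) (nat_lit 3531505429) (nat_lit 76) (nat_lit 3835269825) (nat_lit 267) (nat_lit 5) (nat_lit 277) (nat_lit 5) (nat_lit 268) (nat_lit 5) (nat_lit 432) (nat_lit 377) (nat_lit 331)))) (XT.nd (nat_lit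 156) (nat_lit 760) (nat_lit 0) (XT.nd (nat_lit 78) (nat_lit 0) (nat_lit 0) (XT.lf (nat_lit 0) (nat_lit 1294894766) (nat_lit 760) (nat_lit 1935749997) (nat_lit 836) (nat_lit 5065378718) (nat_lit 257) (nat_lit 5) (nat_lit 267) (nat_lit 5) (nat_lit 268) (nat_lit 5) (nat_lit 433) (nat_lit 377) (nat_lit 330)) (XT.lf (nat_lit 0) (nat_lit 5642589612) (nat_lit 836) (nat_lit 2151972595) (nat_lit 76) (nat_lit 577213219) (nat_lit 257) (nat_lit 5) (nat_lit 268) (nat_lit 5) (nat_lit 258) (nat_lit 5) (nat_lit 434) (nat_lit 377) (nat_lit 329))) (XT.nd (nat_lit 78) (nat_lit 76) (nat_lit 0) (XT.lf (nat_lit 0) (nat_lit 2775787992) (nat_lit 684) (nat_lit 5320090833) (nat_lit 760) (nat_lit 353340522) (nat_lit 248) (nat_lit 5) (nat_lit 257) (nat_lit 5) (nat_lit 258) (nat_lit 5) (nat_lit 435) (nat_lit 377) (nat_lit 328)) (XT.lf (nat_lit 0) (nat_lit 2019857830) (nat_lit 760) (nat_lit 752409139) (nat_lit 76) (nat_lit 5756174209)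 (nat_lit 247) (nat_lit 5) (nat_lit 257) (nat_lit 5) (nat_lit 248) (nat_lit 5) (nat_lit 436) (nat_lit 377) (nat_lit 327))))) (XT.nd (nat_lit 234) (nat_lit 1368) (nat_lit 0) (XT.nd (nat_lit 78) (nat_lit 684) (nat_lit 0) (XT.lf (nat_lit 0) (nat_lit 4279422274) (nat_lit 684) (nat_lit 147340581) (nat_lit 760) (nat_lit 4182655196) (nat_lit 238) (nat_lit 5) (nat_lit 247) (nat_lit 5) (nat_lit 248) (nat_lit 5) (nat_lit 437) (nat_lit 377) (nat_lit 326)) (XT.nd (nat_lit 78) (nat_lit 76) (nat_lit 0) (XT.lf (nat_lit 0) (nat_lit 680787526) (nat_lit 608) (nat_lit 6190556659) (nat_lit 684) (nat_lit 1820915583) (nat_lit 230) (nat_lit 5) (nat_lit 238) (nat_lit 5) (nat_lit 239) (nat_lit 5) (nat_lit 438) (nat_lit 377) (nat_lit 325)) (XT.lf (nat_lit 0) (nat_lit 574350283) (nat_lit 684) (nat_lit 2972780015) (nat_lit 76) (nat_lit 5229706252) (nat_lit 229) (nat_lit 5) (nat_lit 238) (nat_lit 5) (nat_lit 230) (nat_lit 5) (nat_lit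 439) (nat_lit 377) (nat_lit 324)))) (XT.nd (nat_lit 156) (nat_lit 684) (nat_lit 0) (XT.nd (nat_lit 78) (nat_lit 0) (nat_lit 0) (XT.lf (nat_lit 0) (nat_lit 2141440531) (nat_lit 684) (nat_lit 830114746) (nat_lit 760) (nat_lit 5891774540) (nat_lit 220) (nat_lit 5) (nat_lit 229) (nat_lit 5) (nat_lit 230) (nat_lit 5) (nat_lit 440) (nat_lit 377) (nat_lit 323)) (XT.lf (nat_lit 0) (nat_lit 5414270303) (nat_lit 760) (nat_lit 1607344435) (nat_lit 76) (nat_lit 1930020218) (nat_lit 220) (nat_lit 5) (nat_lit 230) (nat_lit 5) (nat_lit 221) (nat_lit 5) (nat_lit 441) (nat_lit 377) (nat_lit 322))) (XT.nd (nat_lit 78) (nat_lit 76) (nat_lit 0) (XT.lf (nat_lit 0) (nat_lit 3610466534) (nat_lit 608) (nat_lit 4289881768) (nat_lit 684) (nat_lit 1141500394) (nat_lit 212) (nat_lit 5) (nat_lit 220) (nat_lit 5) (nat_lit 221) (nat_lit 5) (nat_lit 442) (nat_lit 377) (nat_lit 321)) (XT.lf (nat_lit 0) (nat_lit 1261783272) (nat_lit 684)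 (nat_lit 228853206) (nat_lit 76) (nat_lit 7643560895) (nat_lit 211) (nat_lit 5) (nat_lit 220) (nat_lit 5) (nat_lit 212) (nat_lit 5) (nat_lit 443) (nat_lit 377) (nat_lit 320))))))) (XT.nd (nat_lit 1092) (nat_lit 3420) (nat_lit 0) (XT.nd (nat_lit 546) (nat_lit 2128) (nat_lit 0) (XT.nd (nat_lit 234) (nat_lit 1216) (nat_lit 0) (XT.nd (nat_lit 78) (nat_lit 532) (nat_lit 0) (XT.lf (nat_lit 0) (nat_lit 3706435422) (nat_lit 684) (nat_lit 4140648772) (nat_lit 76) (nat_lit 1381016959) (nat_lit 203) (nat_lit 5) (nat_lit 212) (nat_lit 5) (nat_lit 204) (nat_lit 5) (nat_lit 444) (nat_lit 377) (nat_lit 319)) (XT.nd (nat_lit 78) (nat_lit 0) (nat_lit 0) (XT.lf (nat_lit 0) (nat_lit 1153909447) (nat_lit 532) (nat_lit 5031731792) (nat_lit 608) (nat_lit 3138558742) (nat_lit 196) (nat_lit 5) (nat_lit 203) (nat_lit 5) (nat_lit 204) (nat_lit 5) (nat_lit 445) (nat_lit 377) (nat_lit 318)) (XT.lf (nat_lit 0) (nat_lit 6570077724)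 (nat_lit 532) (nat_lit 2139279979) (nat_lit 608) (nat_lit 712994142) (nat_lit 196) (nat_lit 5) (nat_lit 203) (nat_lit 5) (nat_lit 204) (nat_lit 5) (nat_lit 446) (nat_lit 377) (nat_lit 317)))) (XT.nd (nat_lit 156) (nat_lit 532) (nat_lit 0) (XT.nd (nat_lit 78) (nat_lit 0) (nat_lit 0) (XT.lf (nat_lit 0) (nat_lit 1727512374) (nat_lit 684) (nat_lit 6973896046) (nat_lit 76) (nat_lit 821067538) (nat_lit 187) (nat_lit 5) (nat_lit 196) (nat_lit 5) (nat_lit 188) (nat_lit 5) (nat_lit 447) (nat_lit 377) (nat_lit 316)) (XT.lf (nat_lit 0) (nat_lit 4208596027) (nat_lit 684) (nat_lit 1587553125) (nat_lit 76) (nat_lit 3828360748) (nat_lit 187) (nat_lit 5) (nat_lit 196) (nat_lit 5) (nat_lit 188) (nat_lit 5) (nat_lit 448) (nat_lit 377) (nat_lit 315))) (XT.nd (nat_lit 78) (nat_lit 0) (nat_lit 0) (XT.lf (nat_lit 0) (nat_lit 3918266459) (nat_lit 532) (nat_lit 2814975505) (nat_lit 608) (nat_lit 2995491081) (nat_lit 180) (nat_lit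 5) (nat_lit 187) (nat_lit 5) (nat_lit 188) (nat_lit 5) (nat_lit 449) (nat_lit 377) (nat_lit 314)) (XT.lf (nat_lit 0) (nat_lit 9289379962) (nat_lit 608) (nat_lit 320616415) (nat_lit 76) (nat_lit 225451098) (nat_lit 180) (nat_lit 5) (nat_lit 188) (nat_lit 5) (nat_lit 181) (nat_lit 5) (nat_lit 450) (nat_lit 377) (nat_lit 313))))) (XT.nd (nat_lit 234) (nat_lit 1064) (nat_lit 0) (XT.nd (nat_lit 78) (nat_lit 456) (nat_lit 0) (XT.lf (nat_lit 0) (nat_lit 1949274557) (nat_lit 608) (nat_lit 4666113292) (nat_lit 76) (nat_lit 3328229879) (nat_lit 172) (nat_lit 5) (nat_lit 180) (nat_lit 5) (nat_lit 173) (nat_lit 5) (nat_lit 451) (nat_lit 377) (nat_lit 312)) (XT.nd (nat_lit 78) (nat_lit 0) (nat_lit 0) (XT.lf (nat_lit 0) (nat_lit 906926690) (nat_lit 456) (nat_lit 3557887746) (nat_lit 532) (nat_lit 5589537958) (nat_lit 166) (nat_lit 5) (nat_lit 172) (nat_lit 5) (nat_lit 173) (nat_lit 5) (nat_lit 452) (nat_lit 377) (nat_lit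 311)) (XT.lf (nat_lit 0) (nat_lit 6615574215) (nat_lit 456) (nat_lit 416288160) (nat_lit 532) (nat_lit 3135440196) (nat_lit 166) (nat_lit 5) (nat_lit 172) (nat_lit 5) (nat_lit 173) (nat_lit 5) (nat_lit 453) (nat_lit 377) (nat_lit 310)))) (XT.nd (nat_lit 156) (nat_lit 456) (nat_lit 0) (XT.nd (nat_lit 78) (nat_lit 76) (nat_lit 0) (XT.lf (nat_lit 0) (nat_lit 2126779094) (nat_lit 532) (nat_lit 7525801569) (nat_lit 608) (nat_lit 629908774) (nat_lit 159) (nat_lit 5) (nat_lit 166) (nat_lit 5) (nat_lit 167) (nat_lit 5) (nat_lit 454) (nat_lit 377) (nat_lit 309)) (XT.lf (nat_lit 0) (nat_lit 1897756025) (nat_lit 608) (nat_lit 2486973452) (nat_lit 76) (nat_lit 6015078254) (nat_lit 158) (nat_lit 5) (nat_lit 166) (nat_lit 5) (nat_lit 159) (nat_lit 5) (nat_lit 455) (nat_lit 377) (nat_lit 308))) (XT.nd (nat_lit 78) (nat_lit 0) (nat_lit 0) (XT.lf (nat_lit 0) (nat_lit 3295905199) (nat_lit 456) (nat_lit 1164149772) (nat_lit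 532) (nat_lit 6059506714) (nat_lit 152) (nat_lit 5) (nat_lit 158) (nat_lit 5) (nat_lit 159) (nat_lit 5) (nat_lit 456) (nat_lit 377) (nat_lit 307)) (XT.lf (nat_lit 0) (nat_lit 7075535578) (nat_lit 532) (nat_lit 1465672687) (nat_lit 76) (nat_lit 2100486166) (nat_lit 152) (nat_lit 5) (nat_lit 159) (nat_lit 5) (nat_lit 153) (nat_lit 5) (nat_lit 457) (nat_lit 377) (nat_lit 306)))))) (XT.nd (nat_lit 546) (nat_lit 1520) (nat_lit 0) (XT.nd (nat_lit 234) (nat_lit 912) (nat_lit 0) (XT.nd (nat_lit 78) (nat_lit 532) (nat_lit 0) (XT.lf (nat_lit 0) (nat_lit 4419917116) (nat_lit 456) (nat_lit 5331743106) (nat_lit 532) (nat_lit 1014464909) (nat_lit 146) (nat_lit 5) (nat_lit 152) (nat_lit 5) (nat_lit 153) (nat_lit 5) (nat_lit 458) (nat_lit 377) (nat_lit 305)) (XT.nd (nat_lit 78) (nat_lit 456) (nat_lit 0) (XT.lf (nat_lit 0) (nat_lit 1549362320) (nat_lit 532) (nat_lit 498094797) (nat_lit 76) (nat_lit 8845763625) (nat_lit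 145) (nat_lit 5) (nat_lit 152) (nat_lit 5) (nat_lit 146) (nat_lit 5) (nat_lit 459) (nat_lit 377) (nat_lit 304)) (XT.lf (nat_lit 0) (nat_lit 4167824706) (nat_lit 532) (nat_lit 5536133568) (nat_lit 76) (nat_lit 1318447750) (nat_lit 139) (nat_lit 5) (nat_lit 146) (nat_lit 5) (nat_lit 140) (nat_lit 5) (nat_lit 460) (nat_lit 377) (nat_lit 303)))) (XT.nd (nat_lit 156) (nat_lit 456) (nat_lit 0) (XT.nd (nat_lit 78) (nat_lit 0) (nat_lit 0) (XT.lf (nat_lit 0) (nat_lit 397131683) (nat_lit 456) (nat_lit 6433838442) (nat_lit 532) (nat_lit 4323378925) (nat_lit 133) (nat_lit 5) (nat_lit 139) (nat_lit 5) (nat_lit 140) (nat_lit 5) (nat_lit 461) (nat_lit 377) (nat_lit 302)) (XT.lf (nat_lit 0) (nat_lit 6486886462) (nat_lit 456) (nat_lit 3070745230) (nat_lit 532) (nat_lit 1731114095) (nat_lit 133) (nat_lit 5) (nat_lit 139) (nat_lit 5) (nat_lit 140) (nat_lit 5) (nat_lit 462) (nat_lit 377) (nat_lit 301))) (XT.nd (nat_lit 78)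 (nat_lit 0) (nat_lit 0) (XT.lf (nat_lit 0) (nat_lit 884909981) (nat_lit 456) (nat_lit 10182301478) (nat_lit 76) (nat_lit 358841823) (nat_lit 127) (nat_lit 5) (nat_lit 133) (nat_lit 5) (nat_lit 128) (nat_lit 5) (nat_lit 463) (nat_lit 377) (nat_lit 300)) (XT.lf (nat_lit 0) (nat_lit 3556521383) (nat_lit 456) (nat_lit 4159207260) (nat_lit 76) (nat_lit 3849639267) (nat_lit 127) (nat_lit 5) (nat_lit 133) (nat_lit 5) (nat_lit 128) (nat_lit 5) (nat_lit 464) (nat_lit 377) (nat_lit 299))))) (XT.nd (nat_lit 234) (nat_lit 760) (nat_lit 0) (XT.nd (nat_lit 78) (nat_lit 380) (nat_lit 0) (XT.lf (nat_lit 0) (nat_lit 1973867223) (nat_lit 380) (nat_lit 4294682398) (nat_lit 456) (nat_lit 5439197915) (nat_lit 122) (nat_lit 5) (nat_lit 127) (nat_lit 5) (nat_lit 128) (nat_lit 5) (nat_lit 465) (nat_lit 377) (nat_lit 298)) (XT.nd (nat_lit 78) (nat_lit 380) (nat_lit 0) (XT.lf (nat_lit 0) (nat_lit 8249852375) (nat_lit 380) (nat_lit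 787317384) (nat_lit 456) (nat_lit 2815776007) (nat_lit 122) (nat_lit 5) (nat_lit 127) (nat_lit 5) (nat_lit 128) (nat_lit 5) (nat_lit 466) (nat_lit 377) (nat_lit 297)) (XT.lf (nat_lit 0) (nat_lit 2630824108) (nat_lit 380) (nat_lit 9240409779) (nat_lit 456) (nat_lit 129630324) (nat_lit 117) (nat_lit 5) (nat_lit 122) (nat_lit 5) (nat_lit 123) (nat_lit 5) (nat_lit 467) (nat_lit 377) (nat_lit 296)))) (XT.nd (nat_lit 156) (nat_lit 304) (nat_lit 0) (XT.nd (nat_lit 78) (nat_lit 380) (nat_lit 0) (XT.lf (nat_lit 0) (nat_lit 2580511564) (nat_lit 456) (nat_lit 3171305090) (nat_lit 76) (nat_lit 6399512279) (nat_lit 116) (nat_lit 5) (nat_lit 122) (nat_lit 5) (nat_lit 117) (nat_lit 5) (nat_lit 468) (nat_lit 377) (nat_lit 295)) (XT.lf (nat_lit 0) (nat_lit 3156665070) (nat_lit 380) (nat_lit 2182397588) (nat_lit 456) (nat_lit 6965820976) (nat_lit 111) (nat_lit 5) (nat_lit 116) (nat_lit 5) (nat_lit 117) (nat_lit 5) (nat_lit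 469) (nat_lit 377) (nat_lit 294))) (XT.nd (nat_lit 78) (nat_lit 304) (nat_lit 0) (XT.lf (nat_lit 0) (nat_lit 8159305247) (nat_lit 456) (nat_lit 2851992953) (nat_lit 76) (nat_lit 1450097157) (nat_lit 111) (nat_lit 5) (nat_lit 117) (nat_lit 5) (nat_lit 112) (nat_lit 5) (nat_lit 470) (nat_lit 377) (nat_lit 293)) (XT.lf (nat_lit 0) (nat_lit 3567709320) (nat_lit 304) (nat_lit 7481967567) (nat_lit 380) (nat_lit 1571101959) (nat_lit 107) (nat_lit 5) (nat_lit 111) (nat_lit 5) (nat_lit 112) (nat_lit 5) (nat_lit 471) (nat_lit 377) (nat_lit 292))))))))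
noncomputable def xc96 : XT := (XT.nd (nat_lit 2106) (nat_lit 2204) (nat_lit 0) (XT.nd (nat_lit 1014) (nat_lit 1748) (nat_lit 0) (XT.nd (nat_lit 468) (nat_lit 912) (nat_lit 0) (XT.nd (nat_lit 234) (nat_lit 684) (nat_lit 0) (XT.nd (nat_lit 78) (nat_lit 380) (nat_lit 0) (XT.lf (nat_lit 0) (nat_lit 1194021916) (nat_lit 380) (nat_lit 2671403345) (nat_lit 76) (nat_lit 8917873541) (nat_lit 106) (nat_lit 5) (nat_lit 111) (nat_lit 5) (nat_lit 107) (nat_lit 5) (nat_lit 472) (nat_lit 377) (nat_lit 291)) (XT.nd (nat_lit 78) (nat_lit 0) (nat_lit 0) (XT.lf (nat_lit 0) (nat_lit 3843697253) (nat_lit 380) (nat_lit 151335838) (nat_lit 456) (nat_lit 8953811023) (nat_lit 101) (nat_lit 5) (nat_lit 106) (nat_lit 5) (nat_lit 107) (nat_lit 5) (nat_lit 473) (nat_lit 377) (nat_lit 290)) (XT.lf (nat_lit 0) (nat_lit 6870536916) (nat_lit 456) (nat_lit 2650149722) (nat_lit 76) (nat_lit 3596659042) (nat_lit 101) (nat_lit 5) (nat_lit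 107) (nat_lit 5) (nat_lit 102) (nat_lit 5) (nat_lit 474) (nat_lit 377) (nat_lit 289)))) (XT.nd (nat_lit 78) (nat_lit 380) (nat_lit 0) (XT.lf (nat_lit 0) (nat_lit 3951051540) (nat_lit 304) (nat_lit 5856422132) (nat_lit 380) (nat_lit 3481679655) (nat_lit 97) (nat_lit 5) (nat_lit 101) (nat_lit 5) (nat_lit 102) (nat_lit 5) (nat_lit 475) (nat_lit 377) (nat_lit 288)) (XT.nd (nat_lit 78) (nat_lit 380) (nat_lit 0) (XT.lf (nat_lit 0) (nat_lit 10686709749) (nat_lit 304) (nat_lit 2111719383) (nat_lit 380) (nat_lit 666076616) (nat_lit 97) (nat_lit 5) (nat_lit 101) (nat_lit 5) (nat_lit 102) (nat_lit 5) (nat_lit 476) (nat_lit 377) (nat_lit 287)) (XT.lf (nat_lit 0) (nat_lit 2191402897) (nat_lit 380) (nat_lit 9736677548) (nat_lit 76) (nat_lit 1714722120) (nat_lit 92) (nat_lit 5) (nat_lit 97) (nat_lit 5) (nat_lit 93) (nat_lit 5) (nat_lit 477) (nat_lit 377) (nat_lit 286))))) (XT.nd (nat_lit 234) (nat_lit 608) (nat_lit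 0) (XT.nd (nat_lit 78) (nat_lit 304) (nat_lit 0) (XT.lf (nat_lit 0) (nat_lit 5107798882) (nat_lit 380) (nat_lit 3114741059) (nat_lit 76) (nat_lit 5601837013) (nat_lit 92) (nat_lit 5) (nat_lit 97) (nat_lit 5) (nat_lit 93) (nat_lit 5) (nat_lit 478) (nat_lit 377) (nat_lit 285)) (XT.nd (nat_lit 78) (nat_lit 0) (nat_lit 0) (XT.lf (nat_lit 0) (nat_lit 3654914795) (nat_lit 304) (nat_lit 4429699388) (nat_lit 380) (nat_lit 5924939956) (nat_lit 88) (nat_lit 5) (nat_lit 92) (nat_lit 5) (nat_lit 93) (nat_lit 5) (nat_lit 479) (nat_lit 377) (nat_lit 284)) (XT.lf (nat_lit 0) (nat_lit 10569745502) (nat_lit 304) (nat_lit 550696778) (nat_lit 380) (nat_lit 3078015941) (nat_lit 88) (nat_lit 5) (nat_lit 92) (nat_lit 5) (nat_lit 93) (nat_lit 5) (nat_lit 480) (nat_lit 377) (nat_lit 283)))) (XT.nd (nat_lit 156) (nat_lit 228) (nat_lit 0) (XT.nd (nat_lit 78) (nat_lit 76) (nat_lit 0) (XT.lf (nat_lit 0) (nat_lit 3219679898) (nat_lit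 304) (nat_lit 11019249535) (nat_lit 380) (nat_lit 151784729) (nat_lit 84) (nat_lit 5) (nat_lit 88) (nat_lit 5) (nat_lit 89) (nat_lit 5) (nat_lit 481) (nat_lit 377) (nat_lit 282)) (XT.lf (nat_lit 0) (nat_lit 2802955281) (nat_lit 380) (nat_lit 4386547288) (nat_lit 76) (nat_lit 7396814140) (nat_lit 83) (nat_lit 5) (nat_lit 88) (nat_lit 5) (nat_lit 84) (nat_lit 5) (nat_lit 482) (nat_lit 377) (nat_lit 281))) (XT.nd (nat_lit 78) (nat_lit 0) (nat_lit 0) (XT.lf (nat_lit 0) (nat_lit 2534247805) (nat_lit 228) (nat_lit 3276358227) (nat_lit 304) (nat_lit 8975300143) (nat_lit 80) (nat_lit 5) (nat_lit 83) (nat_lit 5) (nat_lit 84) (nat_lit 5) (nat_lit 483) (nat_lit 377) (nat_lit 280)) (XT.lf (nat_lit 0) (nat_lit 8892204530) (nat_lit 304) (nat_lit 5372570584) (nat_lit 76) (nat_lit 724448088) (nat_lit 80) (nat_lit 5) (nat_lit 84) (nat_lit 5) (nat_lit 81) (nat_lit 5) (nat_lit 484) (nat_lit 377) (nat_lit 279)))))) (XT.nd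 (nat_lit 546) (nat_lit 836) (nat_lit 0) (XT.nd (nat_lit 234) (nat_lit 304) (nat_lit 0) (XT.nd (nat_lit 78) (nat_lit 304) (nat_lit 0) (XT.lf (nat_lit 0) (nat_lit 1612417021) (nat_lit 304) (nat_lit 10435107316) (nat_lit 380) (nat_lit 3148851883) (nat_lit 76) (nat_lit 5) (nat_lit 80) (nat_lit 5) (nat_lit 81) (nat_lit 5) (nat_lit 485) (nat_lit 377) (nat_lit 278)) (XT.nd (nat_lit 78) (nat_lit 304) (nat_lit 0) (XT.lf (nat_lit 0) (nat_lit 8779004459) (nat_lit 304) (nat_lit 6503114457) (nat_lit 380) (nat_lit 125241229) (nat_lit 76) (nat_lit 5) (nat_lit 80) (nat_lit 5) (nat_lit 81) (nat_lit 5) (nat_lit 486) (nat_lit 377) (nat_lit 277)) (XT.lf (nat_lit 0) (nat_lit 422093124) (nat_lit 228) (nat_lit 2481048817) (nat_lit 304) (nat_lit 12719386252) (nat_lit 72) (nat_lit 5) (nat_lit 75) (nat_lit 5) (nat_lit 76) (nat_lit 5) (nat_lit 487) (nat_lit 377) (nat_lit 276)))) (XT.nd (nat_lit 156) (nat_lit 304) (nat_lit 0) (XT.nd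 (nat_lit 78) (nat_lit 0) (nat_lit 0) (XT.lf (nat_lit 0) (nat_lit 6026201426) (nat_lit 304) (nat_lit 8180080571) (nat_lit 76) (nat_lit 1634995902) (nat_lit 72) (nat_lit 5) (nat_lit 76) (nat_lit 5) (nat_lit 73) (nat_lit 5) (nat_lit 488) (nat_lit 377) (nat_lit 275)) (XT.lf (nat_lit 0) (nat_lit 9209017746) (nat_lit 304) (nat_lit 1065866457) (nat_lit 76) (nat_lit 5789582842) (nat_lit 72) (nat_lit 5) (nat_lit 76) (nat_lit 5) (nat_lit 73) (nat_lit 5) (nat_lit 489) (nat_lit 377) (nat_lit 274))) (XT.nd (nat_lit 78) (nat_lit 0) (nat_lit 0) (XT.lf (nat_lit 0) (nat_lit 6242983627) (nat_lit 304) (nat_lit 6234280414) (nat_lit 380) (nat_lit 3814430618) (nat_lit 68) (nat_lit 5) (nat_lit 72) (nat_lit 5) (nat_lit 73) (nat_lit 5) (nat_lit 490) (nat_lit 377) (nat_lit 273)) (XT.lf (nat_lit 0) (nat_lit 13683126900) (nat_lit 304) (nat_lit 2116318345) (nat_lit 380) (nat_lit 724260138) (nat_lit 68) (nat_lit 5) (nat_lit 72) (nat_lit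 5) (nat_lit 73) (nat_lit 5) (nat_lit 491) (nat_lit 377) (nat_lit 272))))) (XT.nd (nat_lit 234) (nat_lit 304) (nat_lit 0) (XT.nd (nat_lit 78) (nat_lit 228) (nat_lit 0) (XT.lf (nat_lit 0) (nat_lit 2420673690) (nat_lit 304) (nat_lit 12247282839) (nat_lit 76) (nat_lit 2091598120) (nat_lit 64) (nat_lit 5) (nat_lit 68) (nat_lit 5) (nat_lit 65) (nat_lit 5) (nat_lit 492) (nat_lit 377) (nat_lit 271)) (XT.nd (nat_lit 78) (nat_lit 228) (nat_lit 0) (XT.lf (nat_lit 0) (nat_lit 5633775875) (nat_lit 304) (nat_lit 4997116909) (nat_lit 76) (nat_lit 6368842402) (nat_lit 64) (nat_lit 5) (nat_lit 68) (nat_lit 5) (nat_lit 65) (nat_lit 5) (nat_lit 493) (nat_lit 377) (nat_lit 270)) (XT.lf (nat_lit 0) (nat_lit 2400989663) (nat_lit 228) (nat_lit 6507852092) (nat_lit 304) (nat_lit 8335932744) (nat_lit 61) (nat_lit 5) (nat_lit 64) (nat_lit 5) (nat_lit 65) (nat_lit 5) (nat_lit 494) (nat_lit 377) (nat_lit 269)))) (XT.nd (nat_lit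 156) (nat_lit 304) (nat_lit 0) (XT.nd (nat_lit 78) (nat_lit 0) (nat_lit 0) (XT.lf (nat_lit 0) (nat_lit 9986431359) (nat_lit 228) (nat_lit 2278790284) (nat_lit 304) (nat_lit 5229185723) (nat_lit 61) (nat_lit 5) (nat_lit 64) (nat_lit 5) (nat_lit 65) (nat_lit 5) (nat_lit 495) (nat_lit 377) (nat_lit 268)) (XT.lf (nat_lit 0) (nat_lit 15684499858) (nat_lit 304) (nat_lit 66759252) (nat_lit 76) (nat_lit 1997867206) (nat_lit 61) (nat_lit 5) (nat_lit 65) (nat_lit 5) (nat_lit 62) (nat_lit 5) (nat_lit 496) (nat_lit 377) (nat_lit 267))) (XT.nd (nat_lit 78) (nat_lit 0) (nat_lit 0) (XT.lf (nat_lit 0) (nat_lit 1195479363) (nat_lit 304) (nat_lit 10435810546) (nat_lit 76) (nat_lit 6376556962) (nat_lit 57) (nat_lit 5) (nat_lit 61) (nat_lit 5) (nat_lit 58) (nat_lit 5) (nat_lit 497) (nat_lit 377) (nat_lit 266)) (XT.lf (nat_lit 0) (nat_lit 4476556868) (nat_lit 304) (nat_lit 2948495688) (nat_lit 76) (nat_lit 10846756370) (nat_lit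 57) (nat_lit 5) (nat_lit 61) (nat_lit 5) (nat_lit 58) (nat_lit 5) (nat_lit 498) (nat_lit 377) (nat_lit 265))))))) (XT.nd (nat_lit 1014) (nat_lit 988) (nat_lit 0) (XT.nd (nat_lit 468) (nat_lit 456) (nat_lit 0) (XT.nd (nat_lit 234) (nat_lit 304) (nat_lit 0) (XT.nd (nat_lit 78) (nat_lit 228) (nat_lit 0) (XT.lf (nat_lit 0) (nat_lit 4723456033) (nat_lit 228) (nat_lit 3113740364) (nat_lit 304) (nat_lit 10703583186) (nat_lit 54) (nat_lit 5) (nat_lit 57) (nat_lit 5) (nat_lit 58) (nat_lit 5) (nat_lit 499) (nat_lit 377) (nat_lit 264)) (XT.nd (nat_lit 78) (nat_lit 228) (nat_lit 0) (XT.lf (nat_lit 0) (nat_lit 11276660185) (nat_lit 304) (nat_lit 6261538772) (nat_lit 76) (nat_lit 1276706475) (nat_lit 54) (nat_lit 5) (nat_lit 58) (nat_lit 5) (nat_lit 55) (nat_lit 5) (nat_lit 500) (nat_lit 377) (nat_lit 263)) (XT.lf (nat_lit 0) (nat_lit 1416700637) (nat_lit 228) (nat_lit 13381717066) (nat_lit 304) (nat_lit 4295833857)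 (nat_lit 51) (nat_lit 5) (nat_lit 54) (nat_lit 5) (nat_lit 55) (nat_lit 5) (nat_lit 501) (nat_lit 377) (nat_lit 262)))) (XT.nd (nat_lit 78) (nat_lit 304) (nat_lit 0) (XT.lf (nat_lit 0) (nat_lit 9306936226) (nat_lit 228) (nat_lit 9109526057) (nat_lit 304) (nat_lit 962212987) (nat_lit 51) (nat_lit 5) (nat_lit 54) (nat_lit 5) (nat_lit 55) (nat_lit 5) (nat_lit 502) (nat_lit 377) (nat_lit 261)) (XT.nd (nat_lit 78) (nat_lit 228) (nat_lit 0) (XT.lf (nat_lit 0) (nat_lit 2390142703) (nat_lit 304) (nat_lit 2355786963) (nat_lit 76) (nat_lit 14922867830) (nat_lit 50) (nat_lit 5) (nat_lit 54) (nat_lit 5) (nat_lit 51) (nat_lit 5) (nat_lit 503) (nat_lit 377) (nat_lit 260)) (XT.lf (nat_lit 0) (nat_lit 5555337413) (nat_lit 228) (nat_lit 261756282) (nat_lit 304) (nat_lit 14147099875) (nat_lit 47) (nat_lit 5) (nat_lit 50) (nat_lit 5) (nat_lit 51) (nat_lit 5) (nat_lit 504) (nat_lit 377) (nat_lit 259))))) (XT.nd (nat_lit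 234) (nat_lit 304) (nat_lit 0) (XT.nd (nat_lit 78) (nat_lit 152) (nat_lit 0) (XT.lf (nat_lit 0) (nat_lit 9340922080) (nat_lit 304) (nat_lit 6662383201) (nat_lit 76) (nat_lit 4261632630) (nat_lit 47) (nat_lit 5) (nat_lit 51) (nat_lit 5) (nat_lit 48) (nat_lit 5) (nat_lit 505) (nat_lit 377) (nat_lit 258)) (XT.nd (nat_lit 78) (nat_lit 0) (nat_lit 0) (XT.lf (nat_lit 0) (nat_lit 1228180115) (nat_lit 152) (nat_lit 11701487983) (nat_lit 228) (nat_lit 7642147190) (nat_lit 45) (nat_lit 5) (nat_lit 47) (nat_lit 5) (nat_lit 48) (nat_lit 5) (nat_lit 506) (nat_lit 377) (nat_lit 257)) (XT.lf (nat_lit 0) (nat_lit 9341817516) (nat_lit 152) (nat_lit 7277949760) (nat_lit 228) (nat_lit 4264478207) (nat_lit 45) (nat_lit 5) (nat_lit 47) (nat_lit 5) (nat_lit 48) (nat_lit 5) (nat_lit 507) (nat_lit 377) (nat_lit 256)))) (XT.nd (nat_lit 156) (nat_lit 0) (nat_lit 0) (XT.nd (nat_lit 78) (nat_lit 304) (nat_lit 0) (XT.lf (nat_lit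 0) (nat_lit 17593171253) (nat_lit 152) (nat_lit 2775663990) (nat_lit 228) (nat_lit 834392405) (nat_lit 45) (nat_lit 5) (nat_lit 47) (nat_lit 5) (nat_lit 48) (nat_lit 5) (nat_lit 508) (nat_lit 377) (nat_lit 255)) (XT.lf (nat_lit 0) (nat_lit 2655954227) (nat_lit 304) (nat_lit 17041613772) (nat_lit 76) (nat_lit 1830149894) (nat_lit 41) (nat_lit 5) (nat_lit 45) (nat_lit 5) (nat_lit 42) (nat_lit 5) (nat_lit 509) (nat_lit 377) (nat_lit 254))) (XT.nd (nat_lit 78) (nat_lit 0) (nat_lit 0) (XT.lf (nat_lit 0) (nat_lit 6233136515) (nat_lit 304) (nat_lit 9113508949) (nat_lit 76) (nat_lit 6511384462) (nat_lit 41) (nat_lit 5) (nat_lit 45) (nat_lit 5) (nat_lit 42) (nat_lit 5) (nat_lit 510) (nat_lit 377) (nat_lit 253)) (XT.lf (nat_lit 0) (nat_lit 9867571372) (nat_lit 304) (nat_lit 1050715103) (nat_lit 76) (nat_lit 11276953737) (nat_lit 41) (nat_lit 5) (nat_lit 45) (nat_lit 5) (nat_lit 42) (nat_lit 5) (nat_lit 511) (nat_lit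 377) (nat_lit 252)))))) (XT.nd (nat_lit 546) (nat_lit 380) (nat_lit 0) (XT.nd (nat_lit 234) (nat_lit 228) (nat_lit 0) (XT.nd (nat_lit 78) (nat_lit 228) (nat_lit 0) (XT.lf (nat_lit 0) (nat_lit 7244948446) (nat_lit 152) (nat_lit 6362774631) (nat_lit 228) (nat_lit 8930817133) (nat_lit 39) (nat_lit 5) (nat_lit 41) (nat_lit 5) (nat_lit 42) (nat_lit 5) (nat_lit 512) (nat_lit 377) (nat_lit 251)) (XT.nd (nat_lit 78) (nat_lit 228) (nat_lit 0) (XT.lf (nat_lit 0) (nat_lit 15697516994) (nat_lit 152) (nat_lit 1718324578) (nat_lit 228) (nat_lit 5473007313) (nat_lit 39) (nat_lit 5) (nat_lit 41) (nat_lit 5) (nat_lit 42) (nat_lit 5) (nat_lit 513) (nat_lit 377) (nat_lit 250)) (XT.lf (nat_lit 0) (nat_lit 1044051033) (nat_lit 228) (nat_lit 20268777112) (nat_lit 304) (nat_lit 1933087307) (nat_lit 36) (nat_lit 5) (nat_lit 39) (nat_lit 5) (nat_lit 40) (nat_lit 5) (nat_lit 514) (nat_lit 377) (nat_lit 249)))) (XT.nd (nat_lit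 156) (nat_lit 152) (nat_lit 0) (XT.nd (nat_lit 78) (nat_lit 0) (nat_lit 0) (XT.lf (nat_lit 0) (nat_lit 1701935379) (nat_lit 304) (nat_lit 14113176921) (nat_lit 76) (nat_lit 7793872677) (nat_lit 35) (nat_lit 5) (nat_lit 39) (nat_lit 5) (nat_lit 36) (nat_lit 5) (nat_lit 515) (nat_lit 377) (nat_lit 248)) (XT.lf (nat_lit 0) (nat_lit 5370416198) (nat_lit 304) (nat_lit 5898114852) (nat_lit 76) (nat_lit 12710801952) (nat_lit 35) (nat_lit 5) (nat_lit 39) (nat_lit 5) (nat_lit 36) (nat_lit 5) (nat_lit 516) (nat_lit 377) (nat_lit 247))) (XT.nd (nat_lit 78) (nat_lit 0) (nat_lit 0) (XT.lf (nat_lit 0) (nat_lit 2491774332) (nat_lit 152) (nat_lit 6623550476) (nat_lit 228) (nat_lit 15241707406) (nat_lit 33) (nat_lit 5) (nat_lit 35) (nat_lit 5) (nat_lit 36) (nat_lit 5) (nat_lit 517) (nat_lit 377) (nat_lit 246)) (XT.lf (nat_lit 0) (nat_lit 11107403357) (nat_lit 152) (nat_lit 1854301974) (nat_lit 228) (nat_lit 11780053887)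 (nat_lit 33) (nat_lit 5) (nat_lit 35) (nat_lit 5) (nat_lit 36) (nat_lit 5) (nat_lit 518) (nat_lit 377) (nat_lit 245))))) (XT.nd (nat_lit 234) (nat_lit 228) (nat_lit 0) (XT.nd (nat_lit 78) (nat_lit 152) (nat_lit 0) (XT.lf (nat_lit 0) (nat_lit 16891750529) (nat_lit 228) (nat_lit 5280160662) (nat_lit 76) (nat_lit 2962140012) (nat_lit 33) (nat_lit 5) (nat_lit 36) (nat_lit 5) (nat_lit 34) (nat_lit 5) (nat_lit 519) (nat_lit 377) (nat_lit 244)) (XT.nd (nat_lit 78) (nat_lit 0) (nat_lit 0) (XT.lf (nat_lit 0) (nat_lit 3250111353) (nat_lit 152) (nat_lit 17671110432) (nat_lit 228) (nat_lit 4612555816) (nat_lit 31) (nat_lit 5) (nat_lit 33) (nat_lit 5) (nat_lit 34) (nat_lit 5) (nat_lit 520) (nat_lit 377) (nat_lit 243)) (XT.lf (nat_lit 0) (nat_lit 12001350517) (nat_lit 152) (nat_lit 13052916229) (nat_lit 228) (nat_lit 886777077) (nat_lit 31) (nat_lit 5) (nat_lit 33) (nat_lit 5) (nat_lit 34) (nat_lit 5) (nat_lit 521)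 (nat_lit 377) (nat_lit 242)))) (XT.nd (nat_lit 156) (nat_lit 0) (nat_lit 0) (XT.nd (nat_lit 78) (nat_lit 152) (nat_lit 0) (XT.lf (nat_lit 0) (nat_lit 2863016000) (nat_lit 228) (nat_lit 5468721836) (nat_lit 76) (nat_lit 18024589786) (nat_lit 30) (nat_lit 5) (nat_lit 33) (nat_lit 5) (nat_lit 31) (nat_lit 5) (nat_lit 522) (nat_lit 377) (nat_lit 241)) (XT.lf (nat_lit 0) (nat_lit 3187041613) (nat_lit 152) (nat_lit 3497543914) (nat_lit 228) (nat_lit 20095045941) (nat_lit 28) (nat_lit 5) (nat_lit 30) (nat_lit 5) (nat_lit 31) (nat_lit 5) (nat_lit 523) (nat_lit 377) (nat_lit 240))) (XT.nd (nat_lit 78) (nat_lit 0) (nat_lit 0) (XT.lf (nat_lit 0) (nat_lit 10616833354) (nat_lit 228) (nat_lit 15150772973) (nat_lit 76) (nat_lit 1443114724) (nat_lit 28) (nat_lit 5) (nat_lit 31) (nat_lit 5) (nat_lit 29) (nat_lit 5) (nat_lit 524) (nat_lit 377) (nat_lit 239)) (XT.lf (nat_lit 0) (nat_lit 14639123699) (nat_lit 228) (nat_lit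 6583484896) (nat_lit 76) (nat_lit 6427600391) (nat_lit 28) (nat_lit 5) (nat_lit 31) (nat_lit 5) (nat_lit 29) (nat_lit 5) (nat_lit 525) (nat_lit 377) (nat_lit 238))))))))
noncomputable def xc97 : XT := (XT.nd (nat_lit 50310) (nat_lit 0) (nat_lit 16112) (XT.nd (nat_lit 49218) (nat_lit 0) (nat_lit 33896) (XT.nd (nat_lit 48672) (nat_lit 0) (nat_lit 41268) (XT.nd (nat_lit 48438) (nat_lit 0) (nat_lit 43168) (XT.nd (nat_lit 48282) (nat_lit 0) (nat_lit 43472) (XT.lf (nat_lit 0) (nat_lit 2163720048) (nat_lit 152) (nat_lit 16580653812) (nat_lit 228) (nat_lit 9354066959) (nat_lit 26) (nat_lit 5) (nat_lit 28) (nat_lit 5) (nat_lit 29) (nat_lit 5) (nat_lit 526) (nat_lit 377) (nat_lit 237)) (XT.nd (nat_lit 78) (nat_lit 228) (nat_lit 0) (XT.lf (nat_lit 0) (nat_lit 2814167371) (nat_lit 76) (nat_lit 205514719) (nat_lit 76) (nat_lit 205514719) (nat_lit 601) (nat_lit 4) (nat_lit 602) (nat_lit 5) (nat_lit 602) (nat_lit 4)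 (nat_lit 384) (nat_lit 378) (nat_lit 378)) (XT.lf (nat_lit 0) (nat_lit 2297937159) (nat_lit 152) (nat_lit 207102901) (nat_lit 228) (nat_lit 3949939032) (nat_lit 598) (nat_lit 5) (nat_lit 600) (nat_lit 5) (nat_lit 601) (nat_lit 4) (nat_lit 385) (nat_lit 378) (nat_lit 377)))) (XT.nd (nat_lit 78) (nat_lit 304) (nat_lit 0) (XT.lf (nat_lit 0) (nat_lit 5405383337) (nat_lit 228) (nat_lit 1013412176) (nat_lit 0) (nat_lit 42318745) (nat_lit 598) (nat_lit 5) (nat_lit 601) (nat_lit 4) (nat_lit 598) (nat_lit 4) (nat_lit 386) (nat_lit 378) (nat_lit 376)) (XT.nd (nat_lit 78) (nat_lit 0) (nat_lit 0) (XT.lf (nat_lit 0) (nat_lit 1813836280) (nat_lit 304) (nat_lit 4302039296) (nat_lit 76) (nat_lit 352539330) (nat_lit 594) (nat_lit 5) (nat_lit 598) (nat_lit 5) (nat_lit 595) (nat_lit 4) (nat_lit 387) (nat_lit 378) (nat_lit 375)) (XT.lf (nat_lit 0) (nat_lit 4661410241) (nat_lit 304) (nat_lit 1101826162) (nat_lit 76) (nat_lit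 713923851) (nat_lit 594) (nat_lit 5) (nat_lit 598) (nat_lit 5) (nat_lit 595) (nat_lit 4) (nat_lit 388) (nat_lit 378) (nat_lit 374))))) (XT.nd (nat_lit 234) (nat_lit 1064) (nat_lit 0) (XT.nd (nat_lit 78) (nat_lit 456) (nat_lit 0) (XT.lf (nat_lit 0) (nat_lit 1008446432) (nat_lit 380) (nat_lit 4345132442) (nat_lit 76) (nat_lit 1133634445) (nat_lit 589) (nat_lit 5) (nat_lit 594) (nat_lit 5) (nat_lit 590) (nat_lit 5) (nat_lit 389) (nat_lit 378) (nat_lit 373)) (XT.nd (nat_lit 78) (nat_lit 456) (nat_lit 0) (XT.lf (nat_lit 0) (nat_lit 3802115992) (nat_lit 380) (nat_lit 1086100970) (nat_lit 76) (nat_lit 1610389999) (nat_lit 589) (nat_lit 5) (nat_lit 594) (nat_lit 5) (nat_lit 590) (nat_lit 5) (nat_lit 390) (nat_lit 378) (nat_lit 372)) (XT.lf (nat_lit 0) (nat_lit 84756750) (nat_lit 456) (nat_lit 4286371055) (nat_lit 76) (nat_lit 2140299402) (nat_lit 583) (nat_lit 5) (nat_lit 589) (nat_lit 5) (nat_lit 584) (nat_lit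 5) (nat_lit 391) (nat_lit 378) (nat_lit 371)))) (XT.nd (nat_lit 156) (nat_lit 608) (nat_lit 0) (XT.nd (nat_lit 78) (nat_lit 456) (nat_lit 0) (XT.lf (nat_lit 0) (nat_lit 2824618482) (nat_lit 456) (nat_lit 967532315) (nat_lit 76) (nat_lit 2733333037) (nat_lit 583) (nat_lit 5) (nat_lit 589) (nat_lit 5) (nat_lit 584) (nat_lit 5) (nat_lit 392) (nat_lit 378) (nat_lit 370)) (XT.lf (nat_lit 0) (nat_lit 2407664862) (nat_lit 456) (nat_lit 3160308219) (nat_lit 532) (nat_lit 972990633) (nat_lit 577) (nat_lit 5) (nat_lit 583) (nat_lit 5) (nat_lit 584) (nat_lit 5) (nat_lit 393) (nat_lit 378) (nat_lit 369))) (XT.nd (nat_lit 78) (nat_lit 532) (nat_lit 0) (XT.lf (nat_lit 0) (nat_lit 1725805107) (nat_lit 532) (nat_lit 747249428) (nat_lit 76) (nat_lit 4084773327) (nat_lit 576) (nat_lit 5) (nat_lit 583) (nat_lit 5) (nat_lit 577) (nat_lit 5) (nat_lit 394) (nat_lit 378) (nat_lit 368)) (XT.lf (nat_lit 0) (nat_lit 2693922204)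 (nat_lit 532) (nat_lit 1723990917) (nat_lit 608) (nat_lit 2158049591) (nat_lit 569) (nat_lit 5) (nat_lit 576) (nat_lit 5) (nat_lit 577) (nat_lit 5) (nat_lit 395) (nat_lit 378) (nat_lit 367)))))) (XT.nd (nat_lit 546) (nat_lit 4256) (nat_lit 0) (XT.nd (nat_lit 234) (nat_lit 2432) (nat_lit 0) (XT.nd (nat_lit 78) (nat_lit 608) (nat_lit 0) (XT.lf (nat_lit 0) (nat_lit 502323804) (nat_lit 608) (nat_lit 426221537) (nat_lit 76) (nat_lit 5667138301) (nat_lit 568) (nat_lit 5) (nat_lit 576) (nat_lit 5) (nat_lit 569) (nat_lit 5) (nat_lit 396) (nat_lit 378) (nat_lit 366)) (XT.nd (nat_lit 78) (nat_lit 0) (nat_lit 0) (XT.lf (nat_lit 0) (nat_lit 3083512077) (nat_lit 608) (nat_lit 60152294) (nat_lit 684) (nat_lit 3472819240) (nat_lit 560) (nat_lit 5) (nat_lit 568) (nat_lit 5) (nat_lit 569) (nat_lit 5) (nat_lit 397) (nat_lit 378) (nat_lit 365)) (XT.lf (nat_lit 0) (nat_lit 5783794815) (nat_lit 684) (nat_lit 16370437) (nat_lit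 76) (nat_lit 838716080) (nat_lit 560) (nat_lit 5) (nat_lit 569) (nat_lit 5) (nat_lit 561) (nat_lit 5) (nat_lit 398) (nat_lit 378) (nat_lit 364)))) (XT.nd (nat_lit 156) (nat_lit 912) (nat_lit 0) (XT.nd (nat_lit 78) (nat_lit 760) (nat_lit 0) (XT.lf (nat_lit 0) (nat_lit 1753407482) (nat_lit 760) (nat_lit 3098787146) (nat_lit 76) (nat_lit 1810149571) (nat_lit 550) (nat_lit 5) (nat_lit 560) (nat_lit 5) (nat_lit 551) (nat_lit 5) (nat_lit 399) (nat_lit 378) (nat_lit 363)) (XT.lf (nat_lit 0) (nat_lit 487401427) (nat_lit 760) (nat_lit 3857884787) (nat_lit 836) (nat_lit 2342118967) (nat_lit 540) (nat_lit 5) (nat_lit 550) (nat_lit 5) (nat_lit 551) (nat_lit 5) (nat_lit 400) (nat_lit 378) (nat_lit 362))) (XT.nd (nat_lit 78) (nat_lit 836) (nat_lit 0) (XT.lf (nat_lit 0) (nat_lit 233153680) (nat_lit 836) (nat_lit 2570133769) (nat_lit 76) (nat_lit 3910520805) (nat_lit 539) (nat_lit 5) (nat_lit 550) (nat_lit 5) (nat_lit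 540) (nat_lit 5) (nat_lit 401) (nat_lit 378) (nat_lit 361)) (XT.lf (nat_lit 0) (nat_lit 1088976579) (nat_lit 836) (nat_lit 1687680752) (nat_lit 912) (nat_lit 3964900395) (nat_lit 528) (nat_lit 5) (nat_lit 539) (nat_lit 5) (nat_lit 540) (nat_lit 5) (nat_lit 402) (nat_lit 378) (nat_lit 360))))) (XT.nd (nat_lit 234) (nat_lit 3268) (nat_lit 0) (XT.nd (nat_lit 78) (nat_lit 988) (nat_lit 0) (XT.lf (nat_lit 0) (nat_lit 4814256697) (nat_lit 836) (nat_lit 515893554) (nat_lit 912) (nat_lit 1440617491) (nat_lit 528) (nat_lit 5) (nat_lit 539) (nat_lit 5) (nat_lit 540) (nat_lit 5) (nat_lit 403) (nat_lit 378) (nat_lit 359)) (XT.nd (nat_lit 78) (nat_lit 0) (nat_lit 0) (XT.lf (nat_lit 0) (nat_lit 1078070214) (nat_lit 988) (nat_lit 5018369559) (nat_lit 76) (nat_lit 704883562) (nat_lit 515) (nat_lit 5) (nat_lit 528) (nat_lit 5) (nat_lit 516) (nat_lit 5) (nat_lit 404) (nat_lit 378) (nat_lit 358)) (XT.lf (nat_lit 0) (nat_lit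 3587995731) (nat_lit 988) (nat_lit 1264457750) (nat_lit 76) (nat_lit 1980725896) (nat_lit 515) (nat_lit 5) (nat_lit 528) (nat_lit 5) (nat_lit 516) (nat_lit 5) (nat_lit 405) (nat_lit 378) (nat_lit 357)))) (XT.nd (nat_lit 156) (nat_lit 2204) (nat_lit 0) (XT.nd (nat_lit 78) (nat_lit 76) (nat_lit 0) (XT.lf (nat_lit 0) (nat_lit 2555980679) (nat_lit 988) (nat_lit 3553345196) (nat_lit 1064) (nat_lit 757203785) (nat_lit 502) (nat_lit 5) (nat_lit 515) (nat_lit 5) (nat_lit 516) (nat_lit 5) (nat_lit 406) (nat_lit 378) (nat_lit 356)) (XT.lf (nat_lit 0) (nat_lit 1710710653) (nat_lit 1064) (nat_lit 484632082) (nat_lit 76) (nat_lit 4705980551) (nat_lit 501) (nat_lit 5) (nat_lit 515) (nat_lit 5) (nat_lit 502) (nat_lit 5) (nat_lit 407) (nat_lit 378) (nat_lit 355))) (XT.nd (nat_lit 78) (nat_lit 1140) (nat_lit 0) (XT.lf (nat_lit 0) (nat_lit 3415816867) (nat_lit 1064) (nat_lit 770279149) (nat_lit 1140) (nat_lit 2751328190)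 (nat_lit 487) (nat_lit 5) (nat_lit 501) (nat_lit 5) (nat_lit 502) (nat_lit 5) (nat_lit 408) (nat_lit 378) (nat_lit 354)) (XT.lf (nat_lit 0) (nat_lit 384537819) (nat_lit 1140) (nat_lit 6283586120) (nat_lit 1216) (nat_lit 307055563) (nat_lit 472) (nat_lit 5) (nat_lit 487) (nat_lit 5) (nat_lit 488) (nat_lit 5) (nat_lit 409) (nat_lit 378) (nat_lit 353))))))) (XT.nd (nat_lit 1092) (nat_lit 6308) (nat_lit 0) (XT.nd (nat_lit 546) (nat_lit 5928) (nat_lit 0) (XT.nd (nat_lit 234) (nat_lit 4256) (nat_lit 0) (XT.nd (nat_lit 78) (nat_lit 1216) (nat_lit 0) (XT.lf (nat_lit 0) (nat_lit 2133595206) (nat_lit 1216) (nat_lit 2659327833) (nat_lit 76) (nat_lit 2221031856) (nat_lit 471) (nat_lit 5) (nat_lit 487) (nat_lit 5) (nat_lit 472) (nat_lit 5) (nat_lit 410) (nat_lit 378) (nat_lit 352)) (XT.nd (nat_lit 78) (nat_lit 0) (nat_lit 0) (XT.lf (nat_lit 0) (nat_lit 1323583491) (nat_lit 1216) (nat_lit 3252269577) (nat_lit 1292)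 (nat_lit 2478544749) (nat_lit 455) (nat_lit 5) (nat_lit 471) (nat_lit 5) (nat_lit 472) (nat_lit 5) (nat_lit 411) (nat_lit 378) (nat_lit 351)) (XT.lf (nat_lit 0) (nat_lit 5380125222) (nat_lit 1216) (nat_lit 1653724867) (nat_lit 1292) (nat_lit 62530969) (nat_lit 455) (nat_lit 5) (nat_lit 471) (nat_lit 5) (nat_lit 472) (nat_lit 5) (nat_lit 412) (nat_lit 378) (nat_lit 350)))) (XT.nd (nat_lit 156) (nat_lit 2888) (nat_lit 0) (XT.nd (nat_lit 78) (nat_lit 0) (nat_lit 0) (XT.lf (nat_lit 0) (nat_lit 2335330502) (nat_lit 1368) (nat_lit 4787910053) (nat_lit 76) (nat_lit 16417623) (nat_lit 437) (nat_lit 5) (nat_lit 455) (nat_lit 5) (nat_lit 438) (nat_lit 5) (nat_lit 413) (nat_lit 378) (nat_lit 349)) (XT.lf (nat_lit 0) (nat_lit 4753275325) (nat_lit 1368) (nat_lit 713455945) (nat_lit 76) (nat_lit 1717667374) (nat_lit 437) (nat_lit 5) (nat_lit 455) (nat_lit 5) (nat_lit 438) (nat_lit 5) (nat_lit 414) (nat_lit 378) (nat_lit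 348))) (XT.nd (nat_lit 78) (nat_lit 1520) (nat_lit 0) (XT.lf (nat_lit 0) (nat_lit 3445698087) (nat_lit 1368) (nat_lit 3747642475) (nat_lit 1444) (nat_lit 37282186) (nat_lit 419) (nat_lit 5) (nat_lit 437) (nat_lit 5) (nat_lit 438) (nat_lit 5) (nat_lit 415) (nat_lit 378) (nat_lit 347)) (XT.lf (nat_lit 0) (nat_lit 366790862) (nat_lit 1444) (nat_lit 1965003873) (nat_lit 1520) (nat_lit 4946548075) (nat_lit 399) (nat_lit 5) (nat_lit 418) (nat_lit 5) (nat_lit 419) (nat_lit 5) (nat_lit 416) (nat_lit 378) (nat_lit 346))))) (XT.nd (nat_lit 234) (nat_lit 4332) (nat_lit 0) (XT.nd (nat_lit 78) (nat_lit 1596) (nat_lit 0) (XT.lf (nat_lit 0) (nat_lit 4610467691) (nat_lit 1444) (nat_lit 115050404) (nat_lit 1520) (nat_lit 2601999332) (nat_lit 399) (nat_lit 5) (nat_lit 418) (nat_lit 5) (nat_lit 419) (nat_lit 5) (nat_lit 417) (nat_lit 378) (nat_lit 345)) (XT.nd (nat_lit 78) (nat_lit 76) (nat_lit 0) (XT.lf (nat_lit 0) (nat_lit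 1527541500) (nat_lit 1520) (nat_lit 5614332058) (nat_lit 1596) (nat_lit 236366003) (nat_lit 379) (nat_lit 5) (nat_lit 399) (nat_lit 5) (nat_lit 400) (nat_lit 5) (nat_lit 418) (nat_lit 378) (nat_lit 344)) (XT.lf (nat_lit 0) (nat_lit 2120764634) (nat_lit 1596) (nat_lit 1593496526) (nat_lit 76) (nat_lit 3716034608) (nat_lit 378) (nat_lit 5) (nat_lit 399) (nat_lit 5) (nat_lit 379) (nat_lit 5) (nat_lit 419) (nat_lit 378) (nat_lit 343)))) (XT.nd (nat_lit 156) (nat_lit 2736) (nat_lit 0) (XT.nd (nat_lit 78) (nat_lit 0) (nat_lit 0) (XT.lf (nat_lit 0) (nat_lit 2741349288) (nat_lit 1596) (nat_lit 1752850152) (nat_lit 1672) (nat_lit 2989771647) (nat_lit 357) (nat_lit 5) (nat_lit 378) (nat_lit 5) (nat_lit 379) (nat_lit 5) (nat_lit 420) (nat_lit 378) (nat_lit 342)) (XT.lf (nat_lit 0) (nat_lit 6882643192) (nat_lit 1672) (nat_lit 398278310) (nat_lit 76) (nat_lit 258502280) (nat_lit 357) (nat_lit 5) (nat_lit 379) (nat_lit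 5) (nat_lit 358) (nat_lit 5) (nat_lit 421) (nat_lit 378) (nat_lit 341))) (XT.nd (nat_lit 78) (nat_lit 988) (nat_lit 0) (XT.lf (nat_lit 0) (nat_lit 1694017125) (nat_lit 1748) (nat_lit 3574826697) (nat_lit 76) (nat_lit 2327095687) (nat_lit 334) (nat_lit 5) (nat_lit 357) (nat_lit 5) (nat_lit 335) (nat_lit 5) (nat_lit 422) (nat_lit 378) (nat_lit 340)) (XT.lf (nat_lit 0) (nat_lit 845370860) (nat_lit 988) (nat_lit 3202152948) (nat_lit 1064) (nat_lit 3606736688) (nat_lit 321) (nat_lit 5) (nat_lit 334) (nat_lit 5) (nat_lit 335) (nat_lit 5) (nat_lit 423) (nat_lit 378) (nat_lit 339)))))) (XT.nd (nat_lit 546) (nat_lit 2964) (nat_lit 0) (XT.nd (nat_lit 234) (nat_lit 2432) (nat_lit 0) (XT.nd (nat_lit 78) (nat_lit 912) (nat_lit 0) (XT.lf (nat_lit 0) (nat_lit 5360599591) (nat_lit 988) (nat_lit 1068375296) (nat_lit 1064) (nat_lit 1285206042) (nat_lit 321) (nat_lit 5) (nat_lit 334) (nat_lit 5) (nat_lit 335) (nat_lit 5)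 (nat_lit 424) (nat_lit 378) (nat_lit 338)) (XT.nd (nat_lit 78) (nat_lit 0) (nat_lit 0) (XT.lf (nat_lit 0) (nat_lit 1047390428) (nat_lit 912) (nat_lit 5612471762) (nat_lit 76) (nat_lit 1115768814) (nat_lit 309) (nat_lit 5) (nat_lit 321) (nat_lit 5) (nat_lit 310) (nat_lit 5) (nat_lit 425) (nat_lit 378) (nat_lit 337)) (XT.lf (nat_lit 0) (nat_lit 3390392777) (nat_lit 912) (nat_lit 1093791117) (nat_lit 76) (nat_lit 3354384621) (nat_lit 309) (nat_lit 5) (nat_lit 321) (nat_lit 5) (nat_lit 310) (nat_lit 5) (nat_lit 426) (nat_lit 378) (nat_lit 336)))) (XT.nd (nat_lit 156) (nat_lit 760) (nat_lit 0) (XT.nd (nat_lit 78) (nat_lit 836) (nat_lit 0) (XT.lf (nat_lit 0) (nat_lit 3520013321) (nat_lit 836) (nat_lit 2241893244) (nat_lit 912) (nat_lit 2141271848) (nat_lit 298) (nat_lit 5) (nat_lit 309) (nat_lit 5) (nat_lit 310) (nat_lit 5) (nat_lit 427) (nat_lit 378) (nat_lit 335)) (XT.lf (nat_lit 0) (nat_lit 177267024) (nat_lit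 836) (nat_lit 7738224477) (nat_lit 76) (nat_lit 54240872) (nat_lit 287) (nat_lit 5) (nat_lit 298) (nat_lit 5) (nat_lit 288) (nat_lit 5) (nat_lit 428) (nat_lit 378) (nat_lit 334))) (XT.nd (nat_lit 78) (nat_lit 760) (nat_lit 0) (XT.lf (nat_lit 0) (nat_lit 2517538121) (nat_lit 836) (nat_lit 3110666252) (nat_lit 76) (nat_lit 2409093274) (nat_lit 287) (nat_lit 5) (nat_lit 298) (nat_lit 5) (nat_lit 288) (nat_lit 5) (nat_lit 429) (nat_lit 378) (nat_lit 333)) (XT.lf (nat_lit 0) (nat_lit 1588806074) (nat_lit 760) (nat_lit 3286468429) (nat_lit 836) (nat_lit 3231569635) (nat_lit 277) (nat_lit 5) (nat_lit 287) (nat_lit 5) (nat_lit 288) (nat_lit 5) (nat_lit 430) (nat_lit 378) (nat_lit 332))))) (XT.nd (nat_lit 234) (nat_lit 2204) (nat_lit 0) (XT.nd (nat_lit 78) (nat_lit 760) (nat_lit 0) (XT.lf (nat_lit 0) (nat_lit 6383232064) (nat_lit 760) (nat_lit 878662092) (nat_lit 836) (nat_lit 916295097) (nat_lit 277) (nat_lit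 5) (nat_lit 287) (nat_lit 5) (nat_lit 288) (nat_lit 5) (nat_lit 431) (nat_lit 378) (nat_lit 331)) (XT.nd (nat_lit 78) (nat_lit 0) (nat_lit 0) (XT.lf (nat_lit 0) (nat_lit 1417628652) (nat_lit 760) (nat_lit 5249861487) (nat_lit 76) (nat_lit 1583498101) (nat_lit 267) (nat_lit 5) (nat_lit 277) (nat_lit 5) (nat_lit 268) (nat_lit 5) (nat_lit 432) (nat_lit 378) (nat_lit 330)) (XT.lf (nat_lit 0) (nat_lit 3765721781) (nat_lit 760) (nat_lit 460971867) (nat_lit 76) (nat_lit 4098873050) (nat_lit 267) (nat_lit 5) (nat_lit 277) (nat_lit 5) (nat_lit 268) (nat_lit 5) (nat_lit 433) (nat_lit 378) (nat_lit 329)))) (XT.nd (nat_lit 156) (nat_lit 684) (nat_lit 0) (XT.nd (nat_lit 78) (nat_lit 760) (nat_lit 0) (XT.lf (nat_lit 0) (nat_lit 4441290782) (nat_lit 760) (nat_lit 1710875517) (nat_lit 836) (nat_lit 2249681680) (nat_lit 257) (nat_lit 5) (nat_lit 267) (nat_lit 5) (nat_lit 268) (nat_lit 5) (nat_lit 434) (nat_lit 378) (nat_lit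 328)) (XT.lf (nat_lit 0) (nat_lit 82833511) (nat_lit 760) (nat_lit 7546897073) (nat_lit 76) (nat_lit 850397021) (nat_lit 247) (nat_lit 5) (nat_lit 257) (nat_lit 5) (nat_lit 248) (nat_lit 5) (nat_lit 435) (nat_lit 378) (nat_lit 327))) (XT.nd (nat_lit 78) (nat_lit 684) (nat_lit 0) (XT.lf (nat_lit 0) (nat_lit 2433172325) (nat_lit 760) (nat_lit 2648662362) (nat_lit 76) (nat_lit 3477851590) (nat_lit 247) (nat_lit 5) (nat_lit 257) (nat_lit 5) (nat_lit 248) (nat_lit 5) (nat_lit 436) (nat_lit 378) (nat_lit 326)) (XT.lf (nat_lit 0) (nat_lit 2337610285) (nat_lit 684) (nat_lit 2471991480) (nat_lit 760) (nat_lit 3831688753) (nat_lit 238) (nat_lit 5) (nat_lit 247) (nat_lit 5) (nat_lit 248) (nat_lit 5) (nat_lit 437) (nat_lit 378) (nat_lit 325))))))))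
noncomputable def xc98 : XT := (XT.nd (nat_lit 2106) (nat_lit 4484) (nat_lit 0) (XT.nd (nat_lit 1014) (nat_lit 4028) (nat_lit 0) (XT.nd (nat_lit 468) (nat_lit 2356) (nat_lit 0) (XT.nd (nat_lit 234) (nat_lit 684) (nat_lit 0) (XT.nd (nat_lit 78) (nat_lit 1368) (nat_lit 0) (XT.lf (nat_lit 0) (nat_lit 7217007496) (nat_lit 760) (nat_lit 1307047218) (nat_lit 76) (nat_lit 200838541) (nat_lit 238) (nat_lit 5) (nat_lit 248) (nat_lit 5) (nat_lit 239) (nat_lit 5) (nat_lit 438) (nat_lit 378) (nat_lit 324)) (XT.nd (nat_lit 78) (nat_lit 684) (nat_lit 0) (XT.lf (nat_lit 0) (nat_lit 857039231) (nat_lit 684) (nat_lit 5033197260) (nat_lit 76) (nat_lit 2919734435) (nat_lit 229) (nat_lit 5) (nat_lit 238) (nat_lit 5) (nat_lit 230) (nat_lit 5) (nat_lit 439) (nat_lit 378) (nat_lit 323)) (XT.lf (nat_lit 0) (nat_lit 33344232) (nat_lit 684) (nat_lit 3189978038) (nat_lit 760) (nat_lit 5673776860) (nat_lit 220) (nat_lit 5) (nat_lit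 229) (nat_lit 5) (nat_lit 230) (nat_lit 5) (nat_lit 440) (nat_lit 378) (nat_lit 322)))) (XT.nd (nat_lit 78) (nat_lit 684) (nat_lit 0) (XT.lf (nat_lit 0) (nat_lit 5229246463) (nat_lit 684) (nat_lit 407067272) (nat_lit 760) (nat_lit 3349701178) (nat_lit 220) (nat_lit 5) (nat_lit 229) (nat_lit 5) (nat_lit 230) (nat_lit 5) (nat_lit 441) (nat_lit 378) (nat_lit 321)) (XT.nd (nat_lit 78) (nat_lit 76) (nat_lit 0) (XT.lf (nat_lit 0) (nat_lit 1415051768) (nat_lit 608) (nat_lit 6673732425) (nat_lit 684) (nat_lit 988132468) (nat_lit 212) (nat_lit 5) (nat_lit 220) (nat_lit 5) (nat_lit 221) (nat_lit 5) (nat_lit 442) (nat_lit 378) (nat_lit 320)) (XT.lf (nat_lit 0) (nat_lit 1396504250) (nat_lit 684) (nat_lit 2480277934) (nat_lit 76) (nat_lit 5292811189) (nat_lit 211) (nat_lit 5) (nat_lit 220) (nat_lit 5) (nat_lit 212) (nat_lit 5) (nat_lit 443) (nat_lit 378) (nat_lit 319))))) (XT.nd (nat_lit 234) (nat_lit 1216) (nat_lit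 0) (XT.nd (nat_lit 78) (nat_lit 532) (nat_lit 0) (XT.lf (nat_lit 0) (nat_lit 2795559749) (nat_lit 608) (nat_lit 1005261042) (nat_lit 684) (nat_lit 5463498018) (nat_lit 203) (nat_lit 5) (nat_lit 211) (nat_lit 5) (nat_lit 212) (nat_lit 5) (nat_lit 444) (nat_lit 378) (nat_lit 318)) (XT.nd (nat_lit 78) (nat_lit 532) (nat_lit 0) (XT.lf (nat_lit 0) (nat_lit 6249870692) (nat_lit 684) (nat_lit 1202549691) (nat_lit 76) (nat_lit 1908615020) (nat_lit 203) (nat_lit 5) (nat_lit 212) (nat_lit 5) (nat_lit 204) (nat_lit 5) (nat_lit 445) (nat_lit 378) (nat_lit 317)) (XT.lf (nat_lit 0) (nat_lit 4178025271) (nat_lit 532) (nat_lit 4571702306) (nat_lit 608) (nat_lit 709951246) (nat_lit 196) (nat_lit 5) (nat_lit 203) (nat_lit 5) (nat_lit 204) (nat_lit 5) (nat_lit 446) (nat_lit 378) (nat_lit 316)))) (XT.nd (nat_lit 156) (nat_lit 532) (nat_lit 0) (XT.nd (nat_lit 78) (nat_lit 0) (nat_lit 0) (XT.lf (nat_lit 0) (nat_lit 72695934)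 (nat_lit 608) (nat_lit 1620554010) (nat_lit 684) (nat_lit 7867311708) (nat_lit 187) (nat_lit 5) (nat_lit 195) (nat_lit 5) (nat_lit 196) (nat_lit 5) (nat_lit 447) (nat_lit 378) (nat_lit 315)) (XT.lf (nat_lit 0) (nat_lit 4148218137) (nat_lit 684) (nat_lit 4110624336) (nat_lit 76) (nat_lit 1404288964) (nat_lit 187) (nat_lit 5) (nat_lit 196) (nat_lit 5) (nat_lit 188) (nat_lit 5) (nat_lit 448) (nat_lit 378) (nat_lit 314))) (XT.nd (nat_lit 78) (nat_lit 0) (nat_lit 0) (XT.lf (nat_lit 0) (nat_lit 1342170811) (nat_lit 532) (nat_lit 5298679553) (nat_lit 608) (nat_lit 3127157762) (nat_lit 180) (nat_lit 5) (nat_lit 187) (nat_lit 5) (nat_lit 188) (nat_lit 5) (nat_lit 449) (nat_lit 378) (nat_lit 313)) (XT.lf (nat_lit 0) (nat_lit 6921136396) (nat_lit 532) (nat_lit 2259256421) (nat_lit 608) (nat_lit 694674656) (nat_lit 180) (nat_lit 5) (nat_lit 187) (nat_lit 5) (nat_lit 188) (nat_lit 5) (nat_lit 450) (nat_lit 378) (nat_lit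 312)))))) (XT.nd (nat_lit 546) (nat_lit 1900) (nat_lit 0) (XT.nd (nat_lit 234) (nat_lit 1064) (nat_lit 0) (XT.nd (nat_lit 78) (nat_lit 456) (nat_lit 0) (XT.lf (nat_lit 0) (nat_lit 1755430371) (nat_lit 608) (nat_lit 7378128073) (nat_lit 76) (nat_lit 850654803) (nat_lit 172) (nat_lit 5) (nat_lit 180) (nat_lit 5) (nat_lit 173) (nat_lit 5) (nat_lit 451) (nat_lit 378) (nat_lit 311)) (XT.nd (nat_lit 78) (nat_lit 456) (nat_lit 0) (XT.lf (nat_lit 0) (nat_lit 4250299244) (nat_lit 608) (nat_lit 1836086953) (nat_lit 76) (nat_lit 4008987395) (nat_lit 172) (nat_lit 5) (nat_lit 180) (nat_lit 5) (nat_lit 173) (nat_lit 5) (nat_lit 452) (nat_lit 378) (nat_lit 310)) (XT.lf (nat_lit 0) (nat_lit 3829181272) (nat_lit 456) (nat_lit 2961470387) (nat_lit 532) (nat_lit 3418218038) (nat_lit 166) (nat_lit 5) (nat_lit 172) (nat_lit 5) (nat_lit 173) (nat_lit 5) (nat_lit 453) (nat_lit 378) (nat_lit 309)))) (XT.nd (nat_lit 156) (nat_lit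 456) (nat_lit 0) (XT.nd (nat_lit 78) (nat_lit 608) (nat_lit 0) (XT.lf (nat_lit 0) (nat_lit 9366679291) (nat_lit 532) (nat_lit 731426192) (nat_lit 76) (nat_lit 226856676) (nat_lit 166) (nat_lit 5) (nat_lit 173) (nat_lit 5) (nat_lit 167) (nat_lit 5) (nat_lit 454) (nat_lit 378) (nat_lit 308)) (XT.lf (nat_lit 0) (nat_lit 1554541883) (nat_lit 608) (nat_lit 5414258430) (nat_lit 76) (nat_lit 3473917039) (nat_lit 158) (nat_lit 5) (nat_lit 166) (nat_lit 5) (nat_lit 159) (nat_lit 5) (nat_lit 455) (nat_lit 378) (nat_lit 307))) (XT.nd (nat_lit 78) (nat_lit 0) (nat_lit 0) (XT.lf (nat_lit 0) (nat_lit 310888496) (nat_lit 456) (nat_lit 3772549222) (nat_lit 532) (nat_lit 6479712753) (nat_lit 152) (nat_lit 5) (nat_lit 158) (nat_lit 5) (nat_lit 159) (nat_lit 5) (nat_lit 456) (nat_lit 378) (nat_lit 306)) (XT.lf (nat_lit 0) (nat_lit 6186639967) (nat_lit 456) (nat_lit 484592058) (nat_lit 532) (nat_lit 4014615802) (nat_lit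 152) (nat_lit 5) (nat_lit 158) (nat_lit 5) (nat_lit 159) (nat_lit 5) (nat_lit 457) (nat_lit 378) (nat_lit 305))))) (XT.nd (nat_lit 234) (nat_lit 912) (nat_lit 0) (XT.nd (nat_lit 78) (nat_lit 532) (nat_lit 0) (XT.lf (nat_lit 0) (nat_lit 1330660263) (nat_lit 456) (nat_lit 7979867969) (nat_lit 532) (nat_lit 1500497535) (nat_lit 146) (nat_lit 5) (nat_lit 152) (nat_lit 5) (nat_lit 153) (nat_lit 5) (nat_lit 458) (nat_lit 378) (nat_lit 304)) (XT.nd (nat_lit 78) (nat_lit 456) (nat_lit 0) (XT.lf (nat_lit 0) (nat_lit 1056128672) (nat_lit 532) (nat_lit 3647518385) (nat_lit 76) (nat_lit 6234819199) (nat_lit 145) (nat_lit 5) (nat_lit 152) (nat_lit 5) (nat_lit 146) (nat_lit 5) (nat_lit 459) (nat_lit 378) (nat_lit 303)) (XT.lf (nat_lit 0) (nat_lit 2285541616) (nat_lit 456) (nat_lit 1346227490) (nat_lit 532) (nat_lit 7436748928) (nat_lit 139) (nat_lit 5) (nat_lit 145) (nat_lit 5) (nat_lit 146) (nat_lit 5) (nat_lit 460)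 (nat_lit 378) (nat_lit 302)))) (XT.nd (nat_lit 156) (nat_lit 456) (nat_lit 0) (XT.nd (nat_lit 78) (nat_lit 456) (nat_lit 0) (XT.lf (nat_lit 0) (nat_lit 6270399700) (nat_lit 532) (nat_lit 2864362872) (nat_lit 76) (nat_lit 2066198642) (nat_lit 139) (nat_lit 5) (nat_lit 146) (nat_lit 5) (nat_lit 140) (nat_lit 5) (nat_lit 461) (nat_lit 378) (nat_lit 301)) (XT.lf (nat_lit 0) (nat_lit 3169261807) (nat_lit 456) (nat_lit 5795900640) (nat_lit 532) (nat_lit 2370843145) (nat_lit 133) (nat_lit 5) (nat_lit 139) (nat_lit 5) (nat_lit 140) (nat_lit 5) (nat_lit 462) (nat_lit 378) (nat_lit 300))) (XT.nd (nat_lit 78) (nat_lit 380) (nat_lit 0) (XT.lf (nat_lit 0) (nat_lit 230226927) (nat_lit 532) (nat_lit 2148805350) (nat_lit 76) (nat_lit 9094840055) (nat_lit 132) (nat_lit 5) (nat_lit 139) (nat_lit 5) (nat_lit 133) (nat_lit 5) (nat_lit 463) (nat_lit 378) (nat_lit 299)) (XT.lf (nat_lit 0) (nat_lit 2859373928) (nat_lit 456)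 (nat_lit 7630887393) (nat_lit 76) (nat_lit 1123784035) (nat_lit 127) (nat_lit 5) (nat_lit 133) (nat_lit 5) (nat_lit 128) (nat_lit 5) (nat_lit 464) (nat_lit 378) (nat_lit 298))))))) (XT.nd (nat_lit 1014) (nat_lit 2128) (nat_lit 0) (XT.nd (nat_lit 468) (nat_lit 1140) (nat_lit 0) (XT.nd (nat_lit 234) (nat_lit 836) (nat_lit 0) (XT.nd (nat_lit 78) (nat_lit 380) (nat_lit 0) (XT.lf (nat_lit 0) (nat_lit 5546049603) (nat_lit 456) (nat_lit 1541352077) (nat_lit 76) (nat_lit 4669539283) (nat_lit 127) (nat_lit 5) (nat_lit 133) (nat_lit 5) (nat_lit 128) (nat_lit 5) (nat_lit 465) (nat_lit 378) (nat_lit 297)) (XT.nd (nat_lit 78) (nat_lit 0) (nat_lit 0) (XT.lf (nat_lit 0) (nat_lit 4696613900) (nat_lit 380) (nat_lit 3595510427) (nat_lit 456) (nat_lit 3610474527) (nat_lit 122) (nat_lit 5) (nat_lit 127) (nat_lit 5) (nat_lit 128) (nat_lit 5) (nat_lit 466) (nat_lit 378) (nat_lit 296)) (XT.lf (nat_lit 0) (nat_lit 11045505631)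 (nat_lit 380) (nat_lit 33391556) (nat_lit 456) (nat_lit 972574521) (nat_lit 122) (nat_lit 5) (nat_lit 127) (nat_lit 5) (nat_lit 128) (nat_lit 5) (nat_lit 467) (nat_lit 378) (nat_lit 295)))) (XT.nd (nat_lit 78) (nat_lit 380) (nat_lit 0) (XT.lf (nat_lit 0) (nat_lit 1729588128) (nat_lit 456) (nat_lit 6883936307) (nat_lit 76) (nat_lit 3588910396) (nat_lit 116) (nat_lit 5) (nat_lit 122) (nat_lit 5) (nat_lit 117) (nat_lit 5) (nat_lit 468) (nat_lit 378) (nat_lit 294)) (XT.nd (nat_lit 78) (nat_lit 380) (nat_lit 0) (XT.lf (nat_lit 0) (nat_lit 4455726631) (nat_lit 456) (nat_lit 614489898) (nat_lit 76) (nat_lit 7286429342) (nat_lit 116) (nat_lit 5) (nat_lit 122) (nat_lit 5) (nat_lit 117) (nat_lit 5) (nat_lit 469) (nat_lit 378) (nat_lit 293)) (XT.lf (nat_lit 0) (nat_lit 5822801236) (nat_lit 380) (nat_lit 1427790974) (nat_lit 456) (nat_lit 5263080852) (nat_lit 111) (nat_lit 5) (nat_lit 116) (nat_lit 5) (nat_lit 117)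 (nat_lit 5) (nat_lit 470) (nat_lit 378) (nat_lit 292))))) (XT.nd (nat_lit 234) (nat_lit 760) (nat_lit 0) (XT.nd (nat_lit 78) (nat_lit 380) (nat_lit 0) (XT.lf (nat_lit 0) (nat_lit 10096933604) (nat_lit 456) (nat_lit 325573683) (nat_lit 76) (nat_lit 2251437643) (nat_lit 111) (nat_lit 5) (nat_lit 117) (nat_lit 5) (nat_lit 112) (nat_lit 5) (nat_lit 471) (nat_lit 378) (nat_lit 291)) (XT.nd (nat_lit 78) (nat_lit 0) (nat_lit 0) (XT.lf (nat_lit 0) (nat_lit 187587916) (nat_lit 380) (nat_lit 6632609945) (nat_lit 76) (nat_lit 6016679463) (nat_lit 106) (nat_lit 5) (nat_lit 111) (nat_lit 5) (nat_lit 107) (nat_lit 5) (nat_lit 472) (nat_lit 378) (nat_lit 290)) (XT.lf (nat_lit 0) (nat_lit 2952308751) (nat_lit 380) (nat_lit 184521291) (nat_lit 76) (nat_lit 9866325725) (nat_lit 106) (nat_lit 5) (nat_lit 111) (nat_lit 5) (nat_lit 107) (nat_lit 5) (nat_lit 473) (nat_lit 378) (nat_lit 289)))) (XT.nd (nat_lit 156) (nat_lit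 380) (nat_lit 0) (XT.nd (nat_lit 78) (nat_lit 0) (nat_lit 0) (XT.lf (nat_lit 0) (nat_lit 5795953199) (nat_lit 456) (nat_lit 6732453824) (nat_lit 76) (nat_lit 643894679) (nat_lit 101) (nat_lit 5) (nat_lit 107) (nat_lit 5) (nat_lit 102) (nat_lit 5) (nat_lit 474) (nat_lit 378) (nat_lit 288)) (XT.lf (nat_lit 0) (nat_lit 8696204194) (nat_lit 456) (nat_lit 199433353) (nat_lit 76) (nat_lit 4449212558) (nat_lit 101) (nat_lit 5) (nat_lit 107) (nat_lit 5) (nat_lit 102) (nat_lit 5) (nat_lit 475) (nat_lit 378) (nat_lit 287))) (XT.nd (nat_lit 78) (nat_lit 76) (nat_lit 0) (XT.lf (nat_lit 0) (nat_lit 6517320096) (nat_lit 304) (nat_lit 5157605380) (nat_lit 380) (nat_lit 1845528637) (nat_lit 97) (nat_lit 5) (nat_lit 101) (nat_lit 5) (nat_lit 102) (nat_lit 5) (nat_lit 476) (nat_lit 378) (nat_lit 286)) (XT.lf (nat_lit 0) (nat_lit 979917121) (nat_lit 380) (nat_lit 367514621) (nat_lit 76) (nat_lit 12352429029) (nat_lit 96)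 (nat_lit 5) (nat_lit 101) (nat_lit 5) (nat_lit 97) (nat_lit 5) (nat_lit 477) (nat_lit 378) (nat_lit 285)))))) (XT.nd (nat_lit 546) (nat_lit 912) (nat_lit 0) (XT.nd (nat_lit 234) (nat_lit 608) (nat_lit 0) (XT.nd (nat_lit 78) (nat_lit 304) (nat_lit 0) (XT.lf (nat_lit 0) (nat_lit 3874418569) (nat_lit 380) (nat_lit 7457772364) (nat_lit 76) (nat_lit 2549688621) (nat_lit 92) (nat_lit 5) (nat_lit 97) (nat_lit 5) (nat_lit 93) (nat_lit 5) (nat_lit 478) (nat_lit 378) (nat_lit 284)) (XT.nd (nat_lit 78) (nat_lit 304) (nat_lit 0) (XT.lf (nat_lit 0) (nat_lit 6817001539) (nat_lit 380) (nat_lit 751899864) (nat_lit 76) (nat_lit 6498846359) (nat_lit 92) (nat_lit 5) (nat_lit 97) (nat_lit 5) (nat_lit 93) (nat_lit 5) (nat_lit 479) (nat_lit 378) (nat_lit 283)) (XT.lf (nat_lit 0) (nat_lit 6137194264) (nat_lit 304) (nat_lit 3700290166) (nat_lit 380) (nat_lit 4419480571) (nat_lit 88) (nat_lit 5) (nat_lit 92) (nat_lit 5) (nat_lit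 93) (nat_lit 5) (nat_lit 480) (nat_lit 378) (nat_lit 282)))) (XT.nd (nat_lit 156) (nat_lit 228) (nat_lit 0) (XT.nd (nat_lit 78) (nat_lit 380) (nat_lit 0) (XT.lf (nat_lit 0) (nat_lit 12904389404) (nat_lit 380) (nat_lit 1308767058) (nat_lit 76) (nat_lit 237102253) (nat_lit 88) (nat_lit 5) (nat_lit 93) (nat_lit 5) (nat_lit 89) (nat_lit 5) (nat_lit 481) (nat_lit 378) (nat_lit 281)) (XT.lf (nat_lit 0) (nat_lit 1408285265) (nat_lit 380) (nat_lit 8998645754) (nat_lit 76) (nat_lit 4239494543) (nat_lit 83) (nat_lit 5) (nat_lit 88) (nat_lit 5) (nat_lit 84) (nat_lit 5) (nat_lit 482) (nat_lit 378) (nat_lit 280))) (XT.nd (nat_lit 78) (nat_lit 228) (nat_lit 0) (XT.lf (nat_lit 0) (nat_lit 4389480261) (nat_lit 380) (nat_lit 2126431175) (nat_lit 76) (nat_lit 8330638481) (nat_lit 83) (nat_lit 5) (nat_lit 88) (nat_lit 5) (nat_lit 84) (nat_lit 5) (nat_lit 483) (nat_lit 378) (nat_lit 279)) (XT.lf (nat_lit 0) (nat_lit 4917333457)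 (nat_lit 228) (nat_lit 2525084928) (nat_lit 304) (nat_lit 7608027430) (nat_lit 80) (nat_lit 5) (nat_lit 83) (nat_lit 5) (nat_lit 84) (nat_lit 5) (nat_lit 484) (nat_lit 378) (nat_lit 278))))) (XT.nd (nat_lit 234) (nat_lit 532) (nat_lit 0) (XT.nd (nat_lit 78) (nat_lit 380) (nat_lit 0) (XT.lf (nat_lit 0) (nat_lit 10561130427) (nat_lit 304) (nat_lit 3167986732) (nat_lit 76) (nat_lit 1529219382) (nat_lit 80) (nat_lit 5) (nat_lit 84) (nat_lit 5) (nat_lit 81) (nat_lit 5) (nat_lit 485) (nat_lit 378) (nat_lit 277)) (XT.nd (nat_lit 78) (nat_lit 76) (nat_lit 0) (XT.lf (nat_lit 0) (nat_lit 3941489867) (nat_lit 304) (nat_lit 9823742374) (nat_lit 380) (nat_lit 1704703523) (nat_lit 76) (nat_lit 5) (nat_lit 80) (nat_lit 5) (nat_lit 81) (nat_lit 5) (nat_lit 486) (nat_lit 378) (nat_lit 276)) (XT.lf (nat_lit 0) (nat_lit 1332124629) (nat_lit 380) (nat_lit 4488125518) (nat_lit 76) (nat_lit 9865309393) (nat_lit 75) (nat_lit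 5) (nat_lit 80) (nat_lit 5) (nat_lit 76) (nat_lit 5) (nat_lit 487) (nat_lit 378) (nat_lit 275)))) (XT.nd (nat_lit 156) (nat_lit 304) (nat_lit 0) (XT.nd (nat_lit 78) (nat_lit 0) (nat_lit 0) (XT.lf (nat_lit 0) (nat_lit 2687555701) (nat_lit 228) (nat_lit 1717906362) (nat_lit 304) (nat_lit 11499846752) (nat_lit 72) (nat_lit 5) (nat_lit 75) (nat_lit 5) (nat_lit 76) (nat_lit 5) (nat_lit 488) (nat_lit 378) (nat_lit 274)) (XT.lf (nat_lit 0) (nat_lit 7567837496) (nat_lit 304) (nat_lit 6107002126) (nat_lit 76) (nat_lit 2454072186) (nat_lit 72) (nat_lit 5) (nat_lit 76) (nat_lit 5) (nat_lit 73) (nat_lit 5) (nat_lit 489) (nat_lit 378) (nat_lit 273))) (XT.nd (nat_lit 78) (nat_lit 0) (nat_lit 0) (XT.lf (nat_lit 0) (nat_lit 1120333168) (nat_lit 304) (nat_lit 9673385978) (nat_lit 380) (nat_lit 5563272497) (nat_lit 68) (nat_lit 5) (nat_lit 72) (nat_lit 5) (nat_lit 73) (nat_lit 5) (nat_lit 490) (nat_lit 378) (nat_lit 272))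 (XT.lf (nat_lit 0) (nat_lit 8546240413) (nat_lit 304) (nat_lit 5560641037) (nat_lit 380) (nat_lit 2482306129) (nat_lit 68) (nat_lit 5) (nat_lit 72) (nat_lit 5) (nat_lit 73) (nat_lit 5) (nat_lit 491) (nat_lit 378) (nat_lit 271))))))))
noncomputable def xc99 : XT := (XT.nd (nat_lit 2106) (nat_lit 380) (nat_lit 0) (XT.nd (nat_lit 1014) (nat_lit 1292) (nat_lit 0) (XT.nd (nat_lit 468) (nat_lit 608) (nat_lit 0) (XT.nd (nat_lit 234) (nat_lit 456) (nat_lit 0) (XT.nd (nat_lit 78) (nat_lit 228) (nat_lit 0) (XT.lf (nat_lit 0) (nat_lit 633631192) (nat_lit 380) (nat_lit 738089967) (nat_lit 76) (nat_lit 15454589691) (nat_lit 67) (nat_lit 5) (nat_lit 72) (nat_lit 5) (nat_lit 68) (nat_lit 5) (nat_lit 492) (nat_lit 378) (nat_lit 270)) (XT.nd (nat_lit 78) (nat_lit 0) (nat_lit 0) (XT.lf (nat_lit 0) (nat_lit 3824084208) (nat_lit 304) (nat_lit 10329337247) (nat_lit 76) (nat_lit 2913527469) (nat_lit 64) (nat_lit 5) (nat_lit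 68) (nat_lit 5) (nat_lit 65) (nat_lit 5) (nat_lit 493) (nat_lit 378) (nat_lit 269)) (XT.lf (nat_lit 0) (nat_lit 7074879868) (nat_lit 304) (nat_lit 2976577630) (nat_lit 76) (nat_lit 7261020610) (nat_lit 64) (nat_lit 5) (nat_lit 68) (nat_lit 5) (nat_lit 65) (nat_lit 5) (nat_lit 494) (nat_lit 378) (nat_lit 268)))) (XT.nd (nat_lit 78) (nat_lit 228) (nat_lit 0) (XT.lf (nat_lit 0) (nat_lit 4555540537) (nat_lit 228) (nat_lit 5847535909) (nat_lit 304) (nat_lit 7159602571) (nat_lit 61) (nat_lit 5) (nat_lit 64) (nat_lit 5) (nat_lit 65) (nat_lit 5) (nat_lit 495) (nat_lit 378) (nat_lit 267)) (XT.nd (nat_lit 78) (nat_lit 228) (nat_lit 0) (XT.lf (nat_lit 0) (nat_lit 12251386535) (nat_lit 228) (nat_lit 1549392340) (nat_lit 304) (nat_lit 4017054900) (nat_lit 61) (nat_lit 5) (nat_lit 64) (nat_lit 5) (nat_lit 65) (nat_lit 5) (nat_lit 496) (nat_lit 378) (nat_lit 266)) (XT.lf (nat_lit 0) (nat_lit 2003929263) (nat_lit 228)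 (nat_lit 15277158139) (nat_lit 304) (nat_lit 796719684) (nat_lit 58) (nat_lit 5) (nat_lit 61) (nat_lit 5) (nat_lit 62) (nat_lit 5) (nat_lit 497) (nat_lit 378) (nat_lit 265))))) (XT.nd (nat_lit 234) (nat_lit 304) (nat_lit 0) (XT.nd (nat_lit 78) (nat_lit 228) (nat_lit 0) (XT.lf (nat_lit 0) (nat_lit 2486526083) (nat_lit 304) (nat_lit 8594785384) (nat_lit 76) (nat_lit 7260730791) (nat_lit 57) (nat_lit 5) (nat_lit 61) (nat_lit 5) (nat_lit 58) (nat_lit 5) (nat_lit 498) (nat_lit 378) (nat_lit 264)) (XT.nd (nat_lit 78) (nat_lit 228) (nat_lit 0) (XT.lf (nat_lit 0) (nat_lit 5808379313) (nat_lit 304) (nat_lit 997915237) (nat_lit 76) (nat_lit 11805498056) (nat_lit 57) (nat_lit 5) (nat_lit 61) (nat_lit 5) (nat_lit 58) (nat_lit 5) (nat_lit 499) (nat_lit 378) (nat_lit 263)) (XT.lf (nat_lit 0) (nat_lit 6814254793) (nat_lit 228) (nat_lit 2410579682) (nat_lit 304) (nat_lit 9661548039) (nat_lit 54) (nat_lit 5) (nat_lit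 57) (nat_lit 5) (nat_lit 58) (nat_lit 5) (nat_lit 500) (nat_lit 378) (nat_lit 262)))) (XT.nd (nat_lit 156) (nat_lit 76) (nat_lit 0) (XT.nd (nat_lit 78) (nat_lit 228) (nat_lit 0) (XT.lf (nat_lit 0) (nat_lit 12713824629) (nat_lit 304) (nat_lit 4409737602) (nat_lit 76) (nat_lit 2042825570) (nat_lit 54) (nat_lit 5) (nat_lit 58) (nat_lit 5) (nat_lit 55) (nat_lit 5) (nat_lit 501) (nat_lit 378) (nat_lit 261)) (XT.lf (nat_lit 0) (nat_lit 3409059807) (nat_lit 228) (nat_lit 12885951770) (nat_lit 304) (nat_lit 3156540823) (nat_lit 51) (nat_lit 5) (nat_lit 54) (nat_lit 5) (nat_lit 55) (nat_lit 5) (nat_lit 502) (nat_lit 378) (nat_lit 260))) (XT.nd (nat_lit 78) (nat_lit 0) (nat_lit 0) (XT.lf (nat_lit 0) (nat_lit 216846961) (nat_lit 304) (nat_lit 8324983442) (nat_lit 76) (nat_lit 11200287691) (nat_lit 50) (nat_lit 5) (nat_lit 54) (nat_lit 5) (nat_lit 51) (nat_lit 5) (nat_lit 503) (nat_lit 378) (nat_lit 259)) (XT.lf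 (nat_lit 0) (nat_lit 3600134009) (nat_lit 304) (nat_lit 499159454) (nat_lit 76) (nat_lit 15939097505) (nat_lit 50) (nat_lit 5) (nat_lit 54) (nat_lit 5) (nat_lit 51) (nat_lit 5) (nat_lit 504) (nat_lit 378) (nat_lit 258)))))) (XT.nd (nat_lit 546) (nat_lit 608) (nat_lit 0) (XT.nd (nat_lit 234) (nat_lit 304) (nat_lit 0) (XT.nd (nat_lit 78) (nat_lit 152) (nat_lit 0) (XT.lf (nat_lit 0) (nat_lit 7088183152) (nat_lit 304) (nat_lit 12785321018) (nat_lit 76) (nat_lit 466350175) (nat_lit 47) (nat_lit 5) (nat_lit 51) (nat_lit 5) (nat_lit 48) (nat_lit 5) (nat_lit 505) (nat_lit 378) (nat_lit 257)) (XT.nd (nat_lit 78) (nat_lit 152) (nat_lit 0) (XT.lf (nat_lit 0) (nat_lit 10661545489) (nat_lit 304) (nat_lit 4923102651) (nat_lit 76) (nat_lit 5062394639) (nat_lit 47) (nat_lit 5) (nat_lit 51) (nat_lit 5) (nat_lit 48) (nat_lit 5) (nat_lit 506) (nat_lit 378) (nat_lit 256)) (XT.lf (nat_lit 0) (nat_lit 3112952666) (nat_lit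 152) (nat_lit 11198960002) (nat_lit 228) (nat_lit 6648358264) (nat_lit 45) (nat_lit 5) (nat_lit 47) (nat_lit 5) (nat_lit 48) (nat_lit 5) (nat_lit 507) (nat_lit 378) (nat_lit 255)))) (XT.nd (nat_lit 156) (nat_lit 228) (nat_lit 0) (XT.nd (nat_lit 78) (nat_lit 76) (nat_lit 0) (XT.lf (nat_lit 0) (nat_lit 11352388129) (nat_lit 152) (nat_lit 6701393324) (nat_lit 228) (nat_lit 3225618880) (nat_lit 45) (nat_lit 5) (nat_lit 47) (nat_lit 5) (nat_lit 48) (nat_lit 5) (nat_lit 508) (nat_lit 378) (nat_lit 254)) (XT.lf (nat_lit 0) (nat_lit 247734245) (nat_lit 228) (nat_lit 1873824292) (nat_lit 76) (nat_lit 19483612773) (nat_lit 44) (nat_lit 5) (nat_lit 47) (nat_lit 5) (nat_lit 45) (nat_lit 5) (nat_lit 509) (nat_lit 378) (nat_lit 253))) (XT.nd (nat_lit 78) (nat_lit 0) (nat_lit 0) (XT.lf (nat_lit 0) (nat_lit 3791657745) (nat_lit 304) (nat_lit 15574001621) (nat_lit 76) (nat_lit 2570492217) (nat_lit 41) (nat_lit 5) (nat_lit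 45) (nat_lit 5) (nat_lit 42) (nat_lit 5) (nat_lit 510) (nat_lit 378) (nat_lit 252)) (XT.lf (nat_lit 0) (nat_lit 7419156534) (nat_lit 304) (nat_lit 7522794396) (nat_lit 76) (nat_lit 7331552666) (nat_lit 41) (nat_lit 5) (nat_lit 45) (nat_lit 5) (nat_lit 42) (nat_lit 5) (nat_lit 511) (nat_lit 378) (nat_lit 251))))) (XT.nd (nat_lit 234) (nat_lit 456) (nat_lit 0) (XT.nd (nat_lit 78) (nat_lit 0) (nat_lit 0) (XT.lf (nat_lit 0) (nat_lit 675348233) (nat_lit 152) (nat_lit 10434505737) (nat_lit 228) (nat_lit 11507941657) (nat_lit 39) (nat_lit 5) (nat_lit 41) (nat_lit 5) (nat_lit 42) (nat_lit 5) (nat_lit 512) (nat_lit 378) (nat_lit 250)) (XT.nd (nat_lit 78) (nat_lit 0) (nat_lit 0) (XT.lf (nat_lit 0) (nat_lit 9116632081) (nat_lit 152) (nat_lit 5794600381) (nat_lit 228) (nat_lit 8057009526) (nat_lit 39) (nat_lit 5) (nat_lit 41) (nat_lit 5) (nat_lit 42) (nat_lit 5) (nat_lit 513) (nat_lit 378) (nat_lit 249)) (XT.lf (nat_lit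 0) (nat_lit 17704393476) (nat_lit 152) (nat_lit 1070897204) (nat_lit 228) (nat_lit 4550679273) (nat_lit 39) (nat_lit 5) (nat_lit 41) (nat_lit 5) (nat_lit 42) (nat_lit 5) (nat_lit 514) (nat_lit 378) (nat_lit 248)))) (XT.nd (nat_lit 156) (nat_lit 152) (nat_lit 0) (XT.nd (nat_lit 78) (nat_lit 76) (nat_lit 0) (XT.lf (nat_lit 0) (nat_lit 2762843004) (nat_lit 228) (nat_lit 19982911683) (nat_lit 304) (nat_lit 944520906) (nat_lit 36) (nat_lit 5) (nat_lit 39) (nat_lit 5) (nat_lit 40) (nat_lit 5) (nat_lit 515) (nat_lit 378) (nat_lit 247)) (XT.lf (nat_lit 0) (nat_lit 2729852386) (nat_lit 304) (nat_lit 12717205488) (nat_lit 76) (nat_lit 8613820964) (nat_lit 35) (nat_lit 5) (nat_lit 39) (nat_lit 5) (nat_lit 36) (nat_lit 5) (nat_lit 516) (nat_lit 378) (nat_lit 246))) (XT.nd (nat_lit 78) (nat_lit 152) (nat_lit 0) (XT.lf (nat_lit 0) (nat_lit 6452215011) (nat_lit 304) (nat_lit 4370748746) (nat_lit 76) (nat_lit 13616067827)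 (nat_lit 35) (nat_lit 5) (nat_lit 39) (nat_lit 5) (nat_lit 36) (nat_lit 5) (nat_lit 517) (nat_lit 378) (nat_lit 245)) (XT.lf (nat_lit 0) (nat_lit 4176113693) (nat_lit 152) (nat_lit 6087414687) (nat_lit 228) (nat_lit 14560934116) (nat_lit 33) (nat_lit 5) (nat_lit 35) (nat_lit 5) (nat_lit 36) (nat_lit 5) (nat_lit 518) (nat_lit 378) (nat_lit 244))))))) (XT.nd (nat_lit 49140) (nat_lit 0) (nat_lit 38836) (XT.nd (nat_lit 546) (nat_lit 0) (nat_lit 0) (XT.nd (nat_lit 234) (nat_lit 228) (nat_lit 0) (XT.nd (nat_lit 78) (nat_lit 152) (nat_lit 0) (XT.lf (nat_lit 0) (nat_lit 12932006203) (nat_lit 152) (nat_lit 1235891152) (nat_lit 228) (nat_lit 11049373164) (nat_lit 33) (nat_lit 5) (nat_lit 35) (nat_lit 5) (nat_lit 36) (nat_lit 5) (nat_lit 519) (nat_lit 378) (nat_lit 243)) (XT.nd (nat_lit 78) (nat_lit 152) (nat_lit 0) (XT.lf (nat_lit 0) (nat_lit 18162148126) (nat_lit 228) (nat_lit 3799957265) (nat_lit 76) (nat_lit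 3655598402) (nat_lit 33) (nat_lit 5) (nat_lit 36) (nat_lit 5) (nat_lit 34) (nat_lit 5) (nat_lit 520) (nat_lit 378) (nat_lit 242)) (XT.lf (nat_lit 0) (nat_lit 4890487252) (nat_lit 152) (nat_lit 17373664386) (nat_lit 228) (nat_lit 3761441622) (nat_lit 31) (nat_lit 5) (nat_lit 33) (nat_lit 5) (nat_lit 34) (nat_lit 5) (nat_lit 521) (nat_lit 378) (nat_lit 241)))) (XT.nd (nat_lit 156) (nat_lit 152) (nat_lit 0) (XT.nd (nat_lit 78) (nat_lit 0) (nat_lit 0) (XT.lf (nat_lit 0) (nat_lit 20088369) (nat_lit 228) (nat_lit 12655645248) (nat_lit 76) (nat_lit 13765638346) (nat_lit 30) (nat_lit 5) (nat_lit 33) (nat_lit 5) (nat_lit 31) (nat_lit 5) (nat_lit 522) (nat_lit 378) (nat_lit 240)) (XT.lf (nat_lit 0) (nat_lit 3815117636) (nat_lit 228) (nat_lit 4051655853) (nat_lit 76) (nat_lit 18998435402) (nat_lit 30) (nat_lit 5) (nat_lit 33) (nat_lit 5) (nat_lit 31) (nat_lit 5) (nat_lit 523) (nat_lit 378) (nat_lit 239))) (XT.nd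 (nat_lit 78) (nat_lit 0) (nat_lit 0) (XT.lf (nat_lit 0) (nat_lit 4767180494) (nat_lit 152) (nat_lit 2938237613) (nat_lit 228) (nat_lit 19591721547) (nat_lit 28) (nat_lit 5) (nat_lit 30) (nat_lit 5) (nat_lit 31) (nat_lit 5) (nat_lit 524) (nat_lit 378) (nat_lit 238)) (XT.lf (nat_lit 0) (nat_lit 11702921418) (nat_lit 228) (nat_lit 13953399280) (nat_lit 76) (nat_lit 2080804820) (nat_lit 28) (nat_lit 5) (nat_lit 31) (nat_lit 5) (nat_lit 29) (nat_lit 5) (nat_lit 525) (nat_lit 378) (nat_lit 237))))) (XT.nd (nat_lit 48282) (nat_lit 0) (nat_lit 43016) (XT.nd (nat_lit 48126) (nat_lit 0) (nat_lit 43548) (XT.lf (nat_lit 0) (nat_lit 15788525189) (nat_lit 228) (nat_lit 5244184836) (nat_lit 76) (nat_lit 7153042400) (nat_lit 28) (nat_lit 5) (nat_lit 31) (nat_lit 5) (nat_lit 29) (nat_lit 5) (nat_lit 526) (nat_lit 378) (nat_lit 236)) (XT.nd (nat_lit 78) (nat_lit 76) (nat_lit 0) (XT.lf (nat_lit 0) (nat_lit 1485264399) (nat_lit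 76) (nat_lit 251580014) (nat_lit 0) (nat_lit 1485264399) (nat_lit 602) (nat_lit 5) (nat_lit 603) (nat_lit 0) (nat_lit 602) (nat_lit 4) (nat_lit 382) (nat_lit 379) (nat_lit 379)) (XT.lf (nat_lit 0) (nat_lit 2538819378) (nat_lit 76) (nat_lit 3362783242) (nat_lit 76) (nat_lit 545294603) (nat_lit 601) (nat_lit 4) (nat_lit 602) (nat_lit 5) (nat_lit 602) (nat_lit 4) (nat_lit 383) (nat_lit 379) (nat_lit 378)))) (XT.nd (nat_lit 156) (nat_lit 304) (nat_lit 0) (XT.nd (nat_lit 78) (nat_lit 152) (nat_lit 0) (XT.lf (nat_lit 0) (nat_lit 2337500628) (nat_lit 152) (nat_lit 857981131) (nat_lit 76) (nat_lit 3255418745) (nat_lit 600) (nat_lit 5) (nat_lit 602) (nat_lit 5) (nat_lit 601) (nat_lit 4) (nat_lit 384) (nat_lit 379) (nat_lit 377)) (XT.lf (nat_lit 0) (nat_lit 2238668994) (nat_lit 152) (nat_lit 2972461459) (nat_lit 228) (nat_lit 1245113150) (nat_lit 598) (nat_lit 5) (nat_lit 600) (nat_lit 5) (nat_lit 601) (nat_lit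 4) (nat_lit 385) (nat_lit 379) (nat_lit 376))) (XT.nd (nat_lit 78) (nat_lit 228) (nat_lit 0) (XT.lf (nat_lit 0) (nat_lit 1590806290) (nat_lit 228) (nat_lit 1104691394) (nat_lit 76) (nat_lit 3767467456) (nat_lit 597) (nat_lit 5) (nat_lit 600) (nat_lit 5) (nat_lit 598) (nat_lit 5) (nat_lit 386) (nat_lit 379) (nat_lit 375)) (XT.lf (nat_lit 0) (nat_lit 2048833387) (nat_lit 228) (nat_lit 2359209502) (nat_lit 304) (nat_lit 2062921484) (nat_lit 594) (nat_lit 5) (nat_lit 597) (nat_lit 5) (nat_lit 598) (nat_lit 5) (nat_lit 387) (nat_lit 379) (nat_lit 374)))))) (XT.nd (nat_lit 546) (nat_lit 2812) (nat_lit 0) (XT.nd (nat_lit 234) (nat_lit 988) (nat_lit 0) (XT.nd (nat_lit 78) (nat_lit 304) (nat_lit 0) (XT.lf (nat_lit 0) (nat_lit 727945388) (nat_lit 304) (nat_lit 1244886338) (nat_lit 76) (nat_lit 4507596371) (nat_lit 593) (nat_lit 5) (nat_lit 597) (nat_lit 5) (nat_lit 594) (nat_lit 5) (nat_lit 388) (nat_lit 379) (nat_lit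 373)) (XT.nd (nat_lit 78) (nat_lit 0) (nat_lit 0) (XT.lf (nat_lit 0) (nat_lit 1967799915) (nat_lit 304) (nat_lit 1521918605) (nat_lit 380) (nat_lit 3001361228) (nat_lit 589) (nat_lit 5) (nat_lit 593) (nat_lit 5) (nat_lit 594) (nat_lit 5) (nat_lit 389) (nat_lit 379) (nat_lit 372)) (XT.lf (nat_lit 0) (nat_lit 5221629852) (nat_lit 304) (nat_lit 1024475182) (nat_lit 380) (nat_lit 257174974) (nat_lit 589) (nat_lit 5) (nat_lit 593) (nat_lit 5) (nat_lit 594) (nat_lit 5) (nat_lit 390) (nat_lit 379) (nat_lit 371)))) (XT.nd (nat_lit 156) (nat_lit 532) (nat_lit 0) (XT.nd (nat_lit 78) (nat_lit 0) (nat_lit 0) (XT.lf (nat_lit 0) (nat_lit 1994237875) (nat_lit 380) (nat_lit 459077203) (nat_lit 456) (nat_lit 4063302325) (nat_lit 583) (nat_lit 5) (nat_lit 588) (nat_lit 5) (nat_lit 589) (nat_lit 5) (nat_lit 391) (nat_lit 379) (nat_lit 370)) (XT.lf (nat_lit 0) (nat_lit 5157059284) (nat_lit 456) (nat_lit 1221151885) (nat_lit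 76) (nat_lit 153242654) (nat_lit 583) (nat_lit 5) (nat_lit 589) (nat_lit 5) (nat_lit 584) (nat_lit 5) (nat_lit 392) (nat_lit 379) (nat_lit 369))) (XT.nd (nat_lit 78) (nat_lit 0) (nat_lit 0) (XT.lf (nat_lit 0) (nat_lit 1301157874) (nat_lit 532) (nat_lit 4426017477) (nat_lit 76) (nat_lit 820329234) (nat_lit 576) (nat_lit 5) (nat_lit 583) (nat_lit 5) (nat_lit 577) (nat_lit 5) (nat_lit 393) (nat_lit 379) (nat_lit 368)) (XT.lf (nat_lit 0) (nat_lit 3954946031) (nat_lit 532) (nat_lit 1066823178) (nat_lit 76) (nat_lit 1543172239) (nat_lit 576) (nat_lit 5) (nat_lit 583) (nat_lit 5) (nat_lit 577) (nat_lit 5) (nat_lit 394) (nat_lit 379) (nat_lit 367))))) (XT.nd (nat_lit 234) (nat_lit 1596) (nat_lit 0) (XT.nd (nat_lit 78) (nat_lit 608) (nat_lit 0) (XT.lf (nat_lit 0) (nat_lit 29012851) (nat_lit 608) (nat_lit 4234298447) (nat_lit 76) (nat_lit 2320491236) (nat_lit 568) (nat_lit 5) (nat_lit 576) (nat_lit 5) (nat_lit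 569) (nat_lit 5) (nat_lit 395) (nat_lit 379) (nat_lit 366)) (XT.nd (nat_lit 78) (nat_lit 608) (nat_lit 0) (XT.lf (nat_lit 0) (nat_lit 2629701242) (nat_lit 608) (nat_lit 812961674) (nat_lit 76) (nat_lit 3161258962) (nat_lit 568) (nat_lit 5) (nat_lit 576) (nat_lit 5) (nat_lit 569) (nat_lit 5) (nat_lit 396) (nat_lit 379) (nat_lit 365)) (XT.lf (nat_lit 0) (nat_lit 2671296334) (nat_lit 608) (nat_lit 2566302629) (nat_lit 684) (nat_lit 1387841746) (nat_lit 560) (nat_lit 5) (nat_lit 568) (nat_lit 5) (nat_lit 569) (nat_lit 5) (nat_lit 397) (nat_lit 379) (nat_lit 364)))) (XT.nd (nat_lit 156) (nat_lit 836) (nat_lit 0) (XT.nd (nat_lit 78) (nat_lit 684) (nat_lit 0) (XT.lf (nat_lit 0) (nat_lit 1177664677) (nat_lit 684) (nat_lit 460365370) (nat_lit 76) (nat_lit 5010418663) (nat_lit 559) (nat_lit 5) (nat_lit 568) (nat_lit 5) (nat_lit 560) (nat_lit 5) (nat_lit 398) (nat_lit 379) (nat_lit 363)) (XT.lf (nat_lit 0) (nat_lit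 3094297840) (nat_lit 684) (nat_lit 641223356) (nat_lit 760) (nat_lit 2937114926) (nat_lit 550) (nat_lit 5) (nat_lit 559) (nat_lit 5) (nat_lit 560) (nat_lit 5) (nat_lit 399) (nat_lit 379) (nat_lit 362))) (XT.nd (nat_lit 78) (nat_lit 836) (nat_lit 0) (XT.lf (nat_lit 0) (nat_lit 6290650018) (nat_lit 760) (nat_lit 14937085) (nat_lit 76) (nat_lit 392891198) (nat_lit 550) (nat_lit 5) (nat_lit 560) (nat_lit 5) (nat_lit 551) (nat_lit 5) (nat_lit 400) (nat_lit 379) (nat_lit 361)) (XT.lf (nat_lit 0) (nat_lit 2112762442) (nat_lit 836) (nat_lit 3117159583) (nat_lit 76) (nat_lit 1495338847) (nat_lit 539) (nat_lit 5) (nat_lit 550) (nat_lit 5) (nat_lit 540) (nat_lit 5) (nat_lit 401) (nat_lit 379) (nat_lit 360))))))))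
noncomputable def xc100 : XT := (XT.nd (nat_lit 2106) (nat_lit 10564) (nat_lit 0) (XT.nd (nat_lit 1014) (nat_lit 10640) (nat_lit 0) (XT.nd (nat_lit 468) (nat_lit 4864) (nat_lit 0) (XT.nd (nat_lit 234) (nat_lit 1064) (nat_lit 0) (XT.nd (nat_lit 78) (nat_lit 988) (nat_lit 0) (XT.lf (nat_lit 0) (nat_lit 513962626) (nat_lit 836) (nat_lit 4109928497) (nat_lit 912) (nat_lit 2129810254) (nat_lit 528) (nat_lit 5) (nat_lit 539) (nat_lit 5) (nat_lit 540) (nat_lit 5) (nat_lit 402) (nat_lit 379) (nat_lit 359)) (XT.nd (nat_lit 78) (nat_lit 912) (nat_lit 0) (XT.lf (nat_lit 0) (nat_lit 360858236) (nat_lit 912) (nat_lit 2566961846) (nat_lit 76) (nat_lit 3855650748) (nat_lit 527) (nat_lit 5) (nat_lit 539) (nat_lit 5) (nat_lit 528) (nat_lit 5) (nat_lit 403) (nat_lit 379) (nat_lit 358)) (XT.lf (nat_lit 0) (nat_lit 1139047177) (nat_lit 912) (nat_lit 1684872865) (nat_lit 988) (nat_lit 3990694972) (nat_lit 515) (nat_lit 5)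 (nat_lit 527) (nat_lit 5) (nat_lit 528) (nat_lit 5) (nat_lit 404) (nat_lit 379) (nat_lit 357)))) (XT.nd (nat_lit 78) (nat_lit 1064) (nat_lit 0) (XT.lf (nat_lit 0) (nat_lit 4913184815) (nat_lit 912) (nat_lit 384799506) (nat_lit 988) (nat_lit 1549244179) (nat_lit 515) (nat_lit 5) (nat_lit 527) (nat_lit 5) (nat_lit 528) (nat_lit 5) (nat_lit 405) (nat_lit 379) (nat_lit 356)) (XT.nd (nat_lit 78) (nat_lit 0) (nat_lit 0) (XT.lf (nat_lit 0) (nat_lit 892256452) (nat_lit 1064) (nat_lit 5027830095) (nat_lit 76) (nat_lit 961092345) (nat_lit 501) (nat_lit 5) (nat_lit 515) (nat_lit 5) (nat_lit 502) (nat_lit 5) (nat_lit 406) (nat_lit 379) (nat_lit 355)) (XT.lf (nat_lit 0) (nat_lit 3323539219) (nat_lit 1064) (nat_lit 1227508052) (nat_lit 76) (nat_lit 2365398838) (nat_lit 501) (nat_lit 5) (nat_lit 515) (nat_lit 5) (nat_lit 502) (nat_lit 5) (nat_lit 407) (nat_lit 379) (nat_lit 354))))) (XT.nd (nat_lit 234) (nat_lit 2584)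 (nat_lit 0) (XT.nd (nat_lit 78) (nat_lit 1216) (nat_lit 0) (XT.lf (nat_lit 0) (nat_lit 2642525924) (nat_lit 1064) (nat_lit 3125200679) (nat_lit 1140) (nat_lit 1185481542) (nat_lit 487) (nat_lit 5) (nat_lit 501) (nat_lit 5) (nat_lit 502) (nat_lit 5) (nat_lit 408) (nat_lit 379) (nat_lit 353)) (XT.nd (nat_lit 78) (nat_lit 1140) (nat_lit 0) (XT.lf (nat_lit 0) (nat_lit 1209203531) (nat_lit 1140) (nat_lit 433694170) (nat_lit 76) (nat_lit 5348599560) (nat_lit 486) (nat_lit 5) (nat_lit 501) (nat_lit 5) (nat_lit 487) (nat_lit 5) (nat_lit 409) (nat_lit 379) (nat_lit 352)) (XT.lf (nat_lit 0) (nat_lit 3518488739) (nat_lit 1140) (nat_lit 88785965) (nat_lit 1216) (nat_lit 3423764141) (nat_lit 471) (nat_lit 5) (nat_lit 486) (nat_lit 5) (nat_lit 487) (nat_lit 5) (nat_lit 410) (nat_lit 379) (nat_lit 351)))) (XT.nd (nat_lit 156) (nat_lit 1292) (nat_lit 0) (XT.nd (nat_lit 78) (nat_lit 76) (nat_lit 0) (XT.lf (nat_lit 0)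 (nat_lit 438776902) (nat_lit 1216) (nat_lit 5579346186) (nat_lit 1292) (nat_lit 1054021195) (nat_lit 455) (nat_lit 5) (nat_lit 471) (nat_lit 5) (nat_lit 472) (nat_lit 5) (nat_lit 411) (nat_lit 379) (nat_lit 350)) (XT.lf (nat_lit 0) (nat_lit 1319203896) (nat_lit 1292) (nat_lit 2648437233) (nat_lit 76) (nat_lit 3146841047) (nat_lit 454) (nat_lit 5) (nat_lit 471) (nat_lit 5) (nat_lit 455) (nat_lit 5) (nat_lit 412) (nat_lit 379) (nat_lit 349))) (XT.nd (nat_lit 78) (nat_lit 0) (nat_lit 0) (XT.lf (nat_lit 0) (nat_lit 1386228676) (nat_lit 1292) (nat_lit 2299201901) (nat_lit 1368) (nat_lit 3472969239) (nat_lit 437) (nat_lit 5) (nat_lit 454) (nat_lit 5) (nat_lit 455) (nat_lit 5) (nat_lit 413) (nat_lit 379) (nat_lit 348)) (XT.lf (nat_lit 0) (nat_lit 5496595770) (nat_lit 1292) (nat_lit 571497753) (nat_lit 1368) (nat_lit 1135784108) (nat_lit 437) (nat_lit 5) (nat_lit 454) (nat_lit 5) (nat_lit 455) (nat_lit 5) (nat_lit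 414) (nat_lit 379) (nat_lit 347)))))) (XT.nd (nat_lit 546) (nat_lit 4484) (nat_lit 0) (XT.nd (nat_lit 234) (nat_lit 3268) (nat_lit 0) (XT.nd (nat_lit 78) (nat_lit 1444) (nat_lit 0) (XT.lf (nat_lit 0) (nat_lit 1207350731) (nat_lit 1444) (nat_lit 4836975850) (nat_lit 76) (nat_lit 1206326405) (nat_lit 418) (nat_lit 5) (nat_lit 437) (nat_lit 5) (nat_lit 419) (nat_lit 5) (nat_lit 415) (nat_lit 379) (nat_lit 346)) (XT.nd (nat_lit 78) (nat_lit 1444) (nat_lit 0) (XT.lf (nat_lit 0) (nat_lit 3550111674) (nat_lit 1444) (nat_lit 710895068) (nat_lit 76) (nat_lit 3037907888) (nat_lit 418) (nat_lit 5) (nat_lit 437) (nat_lit 5) (nat_lit 419) (nat_lit 5) (nat_lit 416) (nat_lit 379) (nat_lit 345)) (XT.lf (nat_lit 0) (nat_lit 3502887593) (nat_lit 1444) (nat_lit 2413151893) (nat_lit 1520) (nat_lit 1432634967) (nat_lit 399) (nat_lit 5) (nat_lit 418) (nat_lit 5) (nat_lit 419) (nat_lit 5) (nat_lit 417) (nat_lit 379) (nat_lit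 344)))) (XT.nd (nat_lit 156) (nat_lit 1672) (nat_lit 0) (XT.nd (nat_lit 78) (nat_lit 0) (nat_lit 0) (XT.lf (nat_lit 0) (nat_lit 368854276) (nat_lit 1520) (nat_lit 509859424) (nat_lit 1596) (nat_lit 6521430861) (nat_lit 378) (nat_lit 5) (nat_lit 398) (nat_lit 5) (nat_lit 399) (nat_lit 5) (nat_lit 418) (nat_lit 379) (nat_lit 343)) (XT.lf (nat_lit 0) (nat_lit 3206921575) (nat_lit 1596) (nat_lit 2793049535) (nat_lit 76) (nat_lit 1452743027) (nat_lit 378) (nat_lit 5) (nat_lit 399) (nat_lit 5) (nat_lit 379) (nat_lit 5) (nat_lit 419) (nat_lit 379) (nat_lit 342))) (XT.nd (nat_lit 78) (nat_lit 76) (nat_lit 0) (XT.lf (nat_lit 0) (nat_lit 1505254789) (nat_lit 1596) (nat_lit 4045005031) (nat_lit 1672) (nat_lit 1956758634) (nat_lit 357) (nat_lit 5) (nat_lit 378) (nat_lit 5) (nat_lit 379) (nat_lit 5) (nat_lit 420) (nat_lit 379) (nat_lit 341)) (XT.lf (nat_lit 0) (nat_lit 347646398) (nat_lit 1672) (nat_lit 1678664712)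 (nat_lit 76) (nat_lit 5536610232) (nat_lit 356) (nat_lit 5) (nat_lit 378) (nat_lit 5) (nat_lit 357) (nat_lit 5) (nat_lit 421) (nat_lit 379) (nat_lit 340))))) (XT.nd (nat_lit 234) (nat_lit 1824) (nat_lit 0) (XT.nd (nat_lit 78) (nat_lit 988) (nat_lit 0) (XT.lf (nat_lit 0) (nat_lit 2646561130) (nat_lit 1748) (nat_lit 4907792411) (nat_lit 76) (nat_lit 65889131) (nat_lit 334) (nat_lit 5) (nat_lit 357) (nat_lit 5) (nat_lit 335) (nat_lit 5) (nat_lit 422) (nat_lit 379) (nat_lit 339)) (XT.nd (nat_lit 78) (nat_lit 988) (nat_lit 0) (XT.lf (nat_lit 0) (nat_lit 4973369642) (nat_lit 1748) (nat_lit 519118618) (nat_lit 76) (nat_lit 2186634367) (nat_lit 334) (nat_lit 5) (nat_lit 357) (nat_lit 5) (nat_lit 335) (nat_lit 5) (nat_lit 423) (nat_lit 379) (nat_lit 338)) (XT.lf (nat_lit 0) (nat_lit 3968909175) (nat_lit 988) (nat_lit 3361570883) (nat_lit 1064) (nat_lit 409074329) (nat_lit 321) (nat_lit 5) (nat_lit 334) (nat_lit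 5) (nat_lit 335) (nat_lit 5) (nat_lit 424) (nat_lit 379) (nat_lit 337)))) (XT.nd (nat_lit 156) (nat_lit 912) (nat_lit 0) (XT.nd (nat_lit 78) (nat_lit 0) (nat_lit 0) (XT.lf (nat_lit 0) (nat_lit 708515867) (nat_lit 836) (nat_lit 1166007257) (nat_lit 912) (nat_lit 5927141301) (nat_lit 309) (nat_lit 5) (nat_lit 320) (nat_lit 5) (nat_lit 321) (nat_lit 5) (nat_lit 425) (nat_lit 379) (nat_lit 336)) (XT.lf (nat_lit 0) (nat_lit 4189557520) (nat_lit 912) (nat_lit 2587400108) (nat_lit 76) (nat_lit 1088226768) (nat_lit 309) (nat_lit 5) (nat_lit 321) (nat_lit 5) (nat_lit 310) (nat_lit 5) (nat_lit 426) (nat_lit 379) (nat_lit 335))) (XT.nd (nat_lit 78) (nat_lit 76) (nat_lit 0) (XT.lf (nat_lit 0) (nat_lit 1986187252) (nat_lit 836) (nat_lit 4544927930) (nat_lit 912) (nat_lit 1399300880) (nat_lit 298) (nat_lit 5) (nat_lit 309) (nat_lit 5) (nat_lit 310) (nat_lit 5) (nat_lit 427) (nat_lit 379) (nat_lit 334)) (XT.lf (nat_lit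 0) (nat_lit 887756937) (nat_lit 912) (nat_lit 1357304743) (nat_lit 76) (nat_lit 5752268764) (nat_lit 297) (nat_lit 5) (nat_lit 309) (nat_lit 5) (nat_lit 298) (nat_lit 5) (nat_lit 428) (nat_lit 379) (nat_lit 333))))))) (XT.nd (nat_lit 1014) (nat_lit 4712) (nat_lit 0) (XT.nd (nat_lit 468) (nat_lit 2812) (nat_lit 0) (XT.nd (nat_lit 234) (nat_lit 1520) (nat_lit 0) (XT.nd (nat_lit 78) (nat_lit 760) (nat_lit 0) (XT.lf (nat_lit 0) (nat_lit 3184831287) (nat_lit 836) (nat_lit 4751189805) (nat_lit 76) (nat_lit 129759902) (nat_lit 287) (nat_lit 5) (nat_lit 298) (nat_lit 5) (nat_lit 288) (nat_lit 5) (nat_lit 429) (nat_lit 379) (nat_lit 332)) (XT.nd (nat_lit 78) (nat_lit 760) (nat_lit 0) (XT.lf (nat_lit 0) (nat_lit 5513005475) (nat_lit 836) (nat_lit 92684320) (nat_lit 76) (nat_lit 2530249858) (nat_lit 287) (nat_lit 5) (nat_lit 298) (nat_lit 5) (nat_lit 288) (nat_lit 5) (nat_lit 430) (nat_lit 379) (nat_lit 331)) (XT.lf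 (nat_lit 0) (nat_lit 4680513010) (nat_lit 760) (nat_lit 3199503291) (nat_lit 836) (nat_lit 327681155) (nat_lit 277) (nat_lit 5) (nat_lit 287) (nat_lit 5) (nat_lit 288) (nat_lit 5) (nat_lit 431) (nat_lit 379) (nat_lit 330)))) (XT.nd (nat_lit 78) (nat_lit 760) (nat_lit 0) (XT.lf (nat_lit 0) (nat_lit 1232494646) (nat_lit 684) (nat_lit 725288563) (nat_lit 760) (nat_lit 6323471309) (nat_lit 267) (nat_lit 5) (nat_lit 276) (nat_lit 5) (nat_lit 277) (nat_lit 5) (nat_lit 432) (nat_lit 379) (nat_lit 329)) (XT.nd (nat_lit 78) (nat_lit 760) (nat_lit 0) (XT.lf (nat_lit 0) (nat_lit 4282629522) (nat_lit 760) (nat_lit 2275286490) (nat_lit 76) (nat_lit 1798401229) (nat_lit 267) (nat_lit 5) (nat_lit 277) (nat_lit 5) (nat_lit 268) (nat_lit 5) (nat_lit 433) (nat_lit 379) (nat_lit 328)) (XT.lf (nat_lit 0) (nat_lit 2582871983) (nat_lit 760) (nat_lit 4055961694) (nat_lit 836) (nat_lit 1794388604) (nat_lit 257) (nat_lit 5) (nat_lit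 267) (nat_lit 5) (nat_lit 268) (nat_lit 5) (nat_lit 434) (nat_lit 379) (nat_lit 327))))) (XT.nd (nat_lit 234) (nat_lit 1368) (nat_lit 0) (XT.nd (nat_lit 78) (nat_lit 1368) (nat_lit 0) (XT.lf (nat_lit 0) (nat_lit 502382060) (nat_lit 836) (nat_lit 985985740) (nat_lit 76) (nat_lit 7023688665) (nat_lit 256) (nat_lit 5) (nat_lit 267) (nat_lit 5) (nat_lit 257) (nat_lit 5) (nat_lit 435) (nat_lit 379) (nat_lit 326)) (XT.nd (nat_lit 78) (nat_lit 684) (nat_lit 0) (XT.lf (nat_lit 0) (nat_lit 2818659643) (nat_lit 760) (nat_lit 4623425585) (nat_lit 76) (nat_lit 1150228991) (nat_lit 247) (nat_lit 5) (nat_lit 257) (nat_lit 5) (nat_lit 248) (nat_lit 5) (nat_lit 436) (nat_lit 379) (nat_lit 325)) (XT.lf (nat_lit 0) (nat_lit 316644126) (nat_lit 684) (nat_lit 4847805805) (nat_lit 760) (nat_lit 3510098820) (nat_lit 238) (nat_lit 5) (nat_lit 247) (nat_lit 5) (nat_lit 248) (nat_lit 5) (nat_lit 437) (nat_lit 379) (nat_lit 324))))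 (XT.nd (nat_lit 156) (nat_lit 684) (nat_lit 0) (XT.nd (nat_lit 78) (nat_lit 684) (nat_lit 0) (XT.lf (nat_lit 0) (nat_lit 5378659599) (nat_lit 684) (nat_lit 2174573493) (nat_lit 760) (nat_lit 1205308010) (nat_lit 238) (nat_lit 5) (nat_lit 247) (nat_lit 5) (nat_lit 248) (nat_lit 5) (nat_lit 438) (nat_lit 379) (nat_lit 323)) (XT.lf (nat_lit 0) (nat_lit 1110567669) (nat_lit 684) (nat_lit 7175285455) (nat_lit 76) (nat_lit 558644475) (nat_lit 229) (nat_lit 5) (nat_lit 238) (nat_lit 5) (nat_lit 230) (nat_lit 5) (nat_lit 439) (nat_lit 379) (nat_lit 322))) (XT.nd (nat_lit 78) (nat_lit 684) (nat_lit 0) (XT.lf (nat_lit 0) (nat_lit 3459737357) (nat_lit 684) (nat_lit 2128819506) (nat_lit 76) (nat_lit 3343427381) (nat_lit 229) (nat_lit 5) (nat_lit 238) (nat_lit 5) (nat_lit 230) (nat_lit 5) (nat_lit 440) (nat_lit 379) (nat_lit 321)) (XT.lf (nat_lit 0) (nat_lit 3019282804) (nat_lit 684) (nat_lit 2822748413) (nat_lit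 760) (nat_lit 3179498620) (nat_lit 220) (nat_lit 5) (nat_lit 229) (nat_lit 5) (nat_lit 230) (nat_lit 5) (nat_lit 441) (nat_lit 379) (nat_lit 320)))))) (XT.nd (nat_lit 546) (nat_lit 2204) (nat_lit 0) (XT.nd (nat_lit 234) (nat_lit 1216) (nat_lit 0) (XT.nd (nat_lit 78) (nat_lit 1292) (nat_lit 0) (XT.lf (nat_lit 0) (nat_lit 8253247171) (nat_lit 760) (nat_lit 852752682) (nat_lit 76) (nat_lit 7272368) (nat_lit 220) (nat_lit 5) (nat_lit 230) (nat_lit 5) (nat_lit 221) (nat_lit 5) (nat_lit 442) (nat_lit 379) (nat_lit 319)) (XT.nd (nat_lit 78) (nat_lit 608) (nat_lit 0) (XT.lf (nat_lit 0) (nat_lit 1500974833) (nat_lit 684) (nat_lit 4816232517) (nat_lit 76) (nat_lit 2889179024) (nat_lit 211) (nat_lit 5) (nat_lit 220) (nat_lit 5) (nat_lit 212) (nat_lit 5) (nat_lit 443) (nat_lit 379) (nat_lit 318)) (XT.lf (nat_lit 0) (nat_lit 409135083) (nat_lit 608) (nat_lit 3464672516) (nat_lit 684) (nat_lit 5427948535) (nat_lit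 203) (nat_lit 5) (nat_lit 211) (nat_lit 5) (nat_lit 212) (nat_lit 5) (nat_lit 444) (nat_lit 379) (nat_lit 317)))) (XT.nd (nat_lit 156) (nat_lit 684) (nat_lit 0) (XT.nd (nat_lit 78) (nat_lit 532) (nat_lit 0) (XT.lf (nat_lit 0) (nat_lit 5765823294) (nat_lit 608) (nat_lit 528677868) (nat_lit 684) (nat_lit 3104553056) (nat_lit 203) (nat_lit 5) (nat_lit 211) (nat_lit 5) (nat_lit 212) (nat_lit 5) (nat_lit 445) (nat_lit 379) (nat_lit 316)) (XT.lf (nat_lit 0) (nat_lit 1699292196) (nat_lit 532) (nat_lit 7060029221) (nat_lit 608) (nat_lit 739091034) (nat_lit 196) (nat_lit 5) (nat_lit 203) (nat_lit 5) (nat_lit 204) (nat_lit 5) (nat_lit 446) (nat_lit 379) (nat_lit 315))) (XT.nd (nat_lit 78) (nat_lit 608) (nat_lit 0) (XT.lf (nat_lit 0) (nat_lit 1648576416) (nat_lit 608) (nat_lit 2464604269) (nat_lit 76) (nat_lit 5486450230) (nat_lit 195) (nat_lit 5) (nat_lit 203) (nat_lit 5) (nat_lit 196) (nat_lit 5) (nat_lit 447)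 (nat_lit 379) (nat_lit 314)) (XT.lf (nat_lit 0) (nat_lit 2972933301) (nat_lit 608) (nat_lit 1089893964) (nat_lit 684) (nat_lit 5640201051) (nat_lit 187) (nat_lit 5) (nat_lit 195) (nat_lit 5) (nat_lit 196) (nat_lit 5) (nat_lit 448) (nat_lit 379) (nat_lit 313))))) (XT.nd (nat_lit 234) (nat_lit 1596) (nat_lit 0) (XT.nd (nat_lit 78) (nat_lit 608) (nat_lit 0) (XT.lf (nat_lit 0) (nat_lit 6524680689) (nat_lit 684) (nat_lit 1306687619) (nat_lit 76) (nat_lit 1977165280) (nat_lit 187) (nat_lit 5) (nat_lit 196) (nat_lit 5) (nat_lit 188) (nat_lit 5) (nat_lit 449) (nat_lit 379) (nat_lit 312)) (XT.nd (nat_lit 78) (nat_lit 76) (nat_lit 0) (XT.lf (nat_lit 0) (nat_lit 4236175607) (nat_lit 532) (nat_lit 4804634914) (nat_lit 608) (nat_lit 875263421) (nat_lit 180) (nat_lit 5) (nat_lit 187) (nat_lit 5) (nat_lit 188) (nat_lit 5) (nat_lit 450) (nat_lit 379) (nat_lit 311)) (XT.lf (nat_lit 0) (nat_lit 1540022135) (nat_lit 608)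 (nat_lit 165831888) (nat_lit 76) (nat_lit 8320145158) (nat_lit 179) (nat_lit 5) (nat_lit 187) (nat_lit 5) (nat_lit 180) (nat_lit 5) (nat_lit 451) (nat_lit 379) (nat_lit 310)))) (XT.nd (nat_lit 156) (nat_lit 608) (nat_lit 0) (XT.nd (nat_lit 78) (nat_lit 456) (nat_lit 0) (XT.lf (nat_lit 0) (nat_lit 4008224465) (nat_lit 608) (nat_lit 4659662590) (nat_lit 76) (nat_lit 1469817820) (nat_lit 172) (nat_lit 5) (nat_lit 180) (nat_lit 5) (nat_lit 173) (nat_lit 5) (nat_lit 452) (nat_lit 379) (nat_lit 309)) (XT.lf (nat_lit 0) (nat_lit 949475261) (nat_lit 456) (nat_lit 5566196048) (nat_lit 532) (nat_lit 3736199564) (nat_lit 166) (nat_lit 5) (nat_lit 172) (nat_lit 5) (nat_lit 173) (nat_lit 5) (nat_lit 453) (nat_lit 379) (nat_lit 308))) (XT.nd (nat_lit 78) (nat_lit 608) (nat_lit 0) (XT.lf (nat_lit 0) (nat_lit 6697110580) (nat_lit 456) (nat_lit 2379047436) (nat_lit 532) (nat_lit 1292127689) (nat_lit 166) (nat_lit 5) (nat_lit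 172) (nat_lit 5) (nat_lit 173) (nat_lit 5) (nat_lit 454) (nat_lit 379) (nat_lit 307)) (XT.lf (nat_lit 0) (nat_lit 1176138205) (nat_lit 608) (nat_lit 8437626151) (nat_lit 76) (nat_lit 873309741) (nat_lit 158) (nat_lit 5) (nat_lit 166) (nat_lit 5) (nat_lit 159) (nat_lit 5) (nat_lit 455) (nat_lit 379) (nat_lit 306))))))))
noncomputable def xc101 : XT := (XT.nd (nat_lit 2106) (nat_lit 3040) (nat_lit 0) (XT.nd (nat_lit 1014) (nat_lit 2432) (nat_lit 0) (XT.nd (nat_lit 468) (nat_lit 1748) (nat_lit 0) (XT.nd (nat_lit 234) (nat_lit 988) (nat_lit 0) (XT.nd (nat_lit 78) (nat_lit 456) (nat_lit 0) (XT.lf (nat_lit 0) (nat_lit 3689268092) (nat_lit 608) (nat_lit 2734774913) (nat_lit 76) (nat_lit 4183790414) (nat_lit 158) (nat_lit 5) (nat_lit 166) (nat_lit 5) (nat_lit 159) (nat_lit 5) (nat_lit 456) (nat_lit 379) (nat_lit 305)) (XT.nd (nat_lit 78) (nat_lit 0) (nat_lit 0) (XT.lf (nat_lit 0) (nat_lit 3086534367) (nat_lit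 456) (nat_lit 3158940688) (nat_lit 532) (nat_lit 4485698139) (nat_lit 152) (nat_lit 5) (nat_lit 158) (nat_lit 5) (nat_lit 159) (nat_lit 5) (nat_lit 457) (nat_lit 379) (nat_lit 304)) (XT.lf (nat_lit 0) (nat_lit 8845410598) (nat_lit 532) (nat_lit 1832850881) (nat_lit 76) (nat_lit 178887330) (nat_lit 152) (nat_lit 5) (nat_lit 159) (nat_lit 5) (nat_lit 153) (nat_lit 5) (nat_lit 458) (nat_lit 379) (nat_lit 303)))) (XT.nd (nat_lit 78) (nat_lit 456) (nat_lit 0) (XT.lf (nat_lit 0) (nat_lit 526145682) (nat_lit 532) (nat_lit 6896412725) (nat_lit 76) (nat_lit 3562616280) (nat_lit 145) (nat_lit 5) (nat_lit 152) (nat_lit 5) (nat_lit 146) (nat_lit 5) (nat_lit 459) (nat_lit 379) (nat_lit 302)) (XT.nd (nat_lit 78) (nat_lit 456) (nat_lit 0) (XT.lf (nat_lit 0) (nat_lit 3073898586) (nat_lit 532) (nat_lit 1011034419) (nat_lit 76) (nat_lit 7030861068) (nat_lit 145) (nat_lit 5) (nat_lit 152) (nat_lit 5) (nat_lit 146) (nat_lit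 5) (nat_lit 460) (nat_lit 379) (nat_lit 301)) (XT.lf (nat_lit 0) (nat_lit 5022861555) (nat_lit 456) (nat_lit 656516037) (nat_lit 532) (nat_lit 5569532360) (nat_lit 139) (nat_lit 5) (nat_lit 145) (nat_lit 5) (nat_lit 146) (nat_lit 5) (nat_lit 461) (nat_lit 379) (nat_lit 300))))) (XT.nd (nat_lit 234) (nat_lit 836) (nat_lit 0) (XT.nd (nat_lit 78) (nat_lit 912) (nat_lit 0) (XT.lf (nat_lit 0) (nat_lit 8336617479) (nat_lit 532) (nat_lit 247204371) (nat_lit 76) (nat_lit 2800892412) (nat_lit 139) (nat_lit 5) (nat_lit 146) (nat_lit 5) (nat_lit 140) (nat_lit 5) (nat_lit 462) (nat_lit 379) (nat_lit 299)) (XT.nd (nat_lit 78) (nat_lit 456) (nat_lit 0) (XT.lf (nat_lit 0) (nat_lit 5889497764) (nat_lit 456) (nat_lit 5174972661) (nat_lit 532) (nat_lit 458433635) (nat_lit 133) (nat_lit 5) (nat_lit 139) (nat_lit 5) (nat_lit 140) (nat_lit 5) (nat_lit 463) (nat_lit 379) (nat_lit 298)) (XT.lf (nat_lit 0) (nat_lit 445381241)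 (nat_lit 380) (nat_lit 1688540854) (nat_lit 456) (nat_lit 9530079521) (nat_lit 127) (nat_lit 5) (nat_lit 132) (nat_lit 5) (nat_lit 133) (nat_lit 5) (nat_lit 464) (nat_lit 379) (nat_lit 297)))) (XT.nd (nat_lit 156) (nat_lit 456) (nat_lit 0) (XT.nd (nat_lit 78) (nat_lit 380) (nat_lit 0) (XT.lf (nat_lit 0) (nat_lit 4797343556) (nat_lit 456) (nat_lit 5135427368) (nat_lit 76) (nat_lit 1874600138) (nat_lit 127) (nat_lit 5) (nat_lit 133) (nat_lit 5) (nat_lit 128) (nat_lit 5) (nat_lit 465) (nat_lit 379) (nat_lit 296)) (XT.lf (nat_lit 0) (nat_lit 1037583656) (nat_lit 380) (nat_lit 6470027688) (nat_lit 456) (nat_lit 4446142331) (nat_lit 122) (nat_lit 5) (nat_lit 127) (nat_lit 5) (nat_lit 128) (nat_lit 5) (nat_lit 466) (nat_lit 379) (nat_lit 295))) (XT.nd (nat_lit 78) (nat_lit 456) (nat_lit 0) (XT.lf (nat_lit 0) (nat_lit 7369620892) (nat_lit 380) (nat_lit 2912840071) (nat_lit 456) (nat_lit 1820412444) (nat_lit 122)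 (nat_lit 5) (nat_lit 127) (nat_lit 5) (nat_lit 128) (nat_lit 5) (nat_lit 467) (nat_lit 379) (nat_lit 294)) (XT.lf (nat_lit 0) (nat_lit 837573019) (nat_lit 456) (nat_lit 10705409662) (nat_lit 76) (nat_lit 712077966) (nat_lit 116) (nat_lit 5) (nat_lit 122) (nat_lit 5) (nat_lit 117) (nat_lit 5) (nat_lit 468) (nat_lit 379) (nat_lit 293)))))) (XT.nd (nat_lit 546) (nat_lit 1292) (nat_lit 0) (XT.nd (nat_lit 234) (nat_lit 760) (nat_lit 0) (XT.nd (nat_lit 78) (nat_lit 380) (nat_lit 0) (XT.lf (nat_lit 0) (nat_lit 3552027768) (nat_lit 456) (nat_lit 4452751019) (nat_lit 76) (nat_lit 4404734503) (nat_lit 116) (nat_lit 5) (nat_lit 122) (nat_lit 5) (nat_lit 117) (nat_lit 5) (nat_lit 469) (nat_lit 379) (nat_lit 292)) (XT.nd (nat_lit 78) (nat_lit 0) (nat_lit 0) (XT.lf (nat_lit 0) (nat_lit 1916854324) (nat_lit 380) (nat_lit 4393224366) (nat_lit 456) (nat_lit 6257205858) (nat_lit 111) (nat_lit 5) (nat_lit 116) (nat_lit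 5) (nat_lit 117) (nat_lit 5) (nat_lit 470) (nat_lit 379) (nat_lit 291)) (XT.lf (nat_lit 0) (nat_lit 8441182351) (nat_lit 380) (nat_lit 689089426) (nat_lit 456) (nat_lit 3597815225) (nat_lit 111) (nat_lit 5) (nat_lit 116) (nat_lit 5) (nat_lit 117) (nat_lit 5) (nat_lit 471) (nat_lit 379) (nat_lit 290)))) (XT.nd (nat_lit 156) (nat_lit 380) (nat_lit 0) (XT.nd (nat_lit 78) (nat_lit 76) (nat_lit 0) (XT.lf (nat_lit 0) (nat_lit 2179641495) (nat_lit 304) (nat_lit 9838920955) (nat_lit 380) (nat_lit 873324274) (nat_lit 107) (nat_lit 5) (nat_lit 111) (nat_lit 5) (nat_lit 112) (nat_lit 5) (nat_lit 472) (nat_lit 379) (nat_lit 289)) (XT.lf (nat_lit 0) (nat_lit 1891738103) (nat_lit 380) (nat_lit 4274762026) (nat_lit 76) (nat_lit 6892007869) (nat_lit 106) (nat_lit 5) (nat_lit 111) (nat_lit 5) (nat_lit 107) (nat_lit 5) (nat_lit 473) (nat_lit 379) (nat_lit 288))) (XT.nd (nat_lit 78) (nat_lit 0) (nat_lit 0) (XT.lf (nat_lit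 0) (nat_lit 2283402296) (nat_lit 380) (nat_lit 2409835275) (nat_lit 456) (nat_lit 8535266303) (nat_lit 101) (nat_lit 5) (nat_lit 106) (nat_lit 5) (nat_lit 107) (nat_lit 5) (nat_lit 474) (nat_lit 379) (nat_lit 287)) (XT.lf (nat_lit 0) (nat_lit 7567025734) (nat_lit 456) (nat_lit 4412476073) (nat_lit 76) (nat_lit 1422086628) (nat_lit 101) (nat_lit 5) (nat_lit 107) (nat_lit 5) (nat_lit 102) (nat_lit 5) (nat_lit 475) (nat_lit 379) (nat_lit 286))))) (XT.nd (nat_lit 234) (nat_lit 608) (nat_lit 0) (XT.nd (nat_lit 78) (nat_lit 380) (nat_lit 0) (XT.lf (nat_lit 0) (nat_lit 2232352574) (nat_lit 304) (nat_lit 8274969098) (nat_lit 380) (nat_lit 3070646045) (nat_lit 97) (nat_lit 5) (nat_lit 101) (nat_lit 5) (nat_lit 102) (nat_lit 5) (nat_lit 476) (nat_lit 379) (nat_lit 285)) (XT.nd (nat_lit 78) (nat_lit 380) (nat_lit 0) (XT.lf (nat_lit 0) (nat_lit 9038331171) (nat_lit 304) (nat_lit 4476496439) (nat_lit 380) (nat_lit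 242892295) (nat_lit 97) (nat_lit 5) (nat_lit 101) (nat_lit 5) (nat_lit 102) (nat_lit 5) (nat_lit 477) (nat_lit 379) (nat_lit 284)) (XT.lf (nat_lit 0) (nat_lit 2017440194) (nat_lit 304) (nat_lit 581491439) (nat_lit 380) (nat_lit 11341962234) (nat_lit 92) (nat_lit 5) (nat_lit 96) (nat_lit 5) (nat_lit 97) (nat_lit 5) (nat_lit 478) (nat_lit 379) (nat_lit 283)))) (XT.nd (nat_lit 156) (nat_lit 304) (nat_lit 0) (XT.nd (nat_lit 78) (nat_lit 304) (nat_lit 0) (XT.lf (nat_lit 0) (nat_lit 5527442901) (nat_lit 380) (nat_lit 5229343482) (nat_lit 76) (nat_lit 3370263379) (nat_lit 92) (nat_lit 5) (nat_lit 97) (nat_lit 5) (nat_lit 93) (nat_lit 5) (nat_lit 479) (nat_lit 379) (nat_lit 282)) (XT.lf (nat_lit 0) (nat_lit 1584812263) (nat_lit 304) (nat_lit 6923462058) (nat_lit 380) (nat_lit 5808791838) (nat_lit 88) (nat_lit 5) (nat_lit 92) (nat_lit 5) (nat_lit 93) (nat_lit 5) (nat_lit 480) (nat_lit 379) (nat_lit 281))) (XT.nd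 (nat_lit 78) (nat_lit 304) (nat_lit 0) (XT.lf (nat_lit 0) (nat_lit 8575567881) (nat_lit 304) (nat_lit 2988056821) (nat_lit 380) (nat_lit 2946972273) (nat_lit 88) (nat_lit 5) (nat_lit 92) (nat_lit 5) (nat_lit 93) (nat_lit 5) (nat_lit 481) (nat_lit 379) (nat_lit 280)) (XT.lf (nat_lit 0) (nat_lit 973941083) (nat_lit 304) (nat_lit 13699266806) (nat_lit 380) (nat_lit 34939902) (nat_lit 84) (nat_lit 5) (nat_lit 88) (nat_lit 5) (nat_lit 89) (nat_lit 5) (nat_lit 482) (nat_lit 379) (nat_lit 279))))))) (XT.nd (nat_lit 1092) (nat_lit 1292) (nat_lit 0) (XT.nd (nat_lit 546) (nat_lit 836) (nat_lit 0) (XT.nd (nat_lit 234) (nat_lit 608) (nat_lit 0) (XT.nd (nat_lit 78) (nat_lit 228) (nat_lit 0) (XT.lf (nat_lit 0) (nat_lit 2936907711) (nat_lit 380) (nat_lit 6876807827) (nat_lit 76) (nat_lit 5094762922) (nat_lit 83) (nat_lit 5) (nat_lit 88) (nat_lit 5) (nat_lit 84) (nat_lit 5) (nat_lit 483) (nat_lit 379) (nat_lit 278))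 (XT.nd (nat_lit 78) (nat_lit 0) (nat_lit 0) (XT.lf (nat_lit 0) (nat_lit 88883216) (nat_lit 228) (nat_lit 5859999759) (nat_lit 304) (nat_lit 9164316190) (nat_lit 80) (nat_lit 5) (nat_lit 83) (nat_lit 5) (nat_lit 84) (nat_lit 5) (nat_lit 484) (nat_lit 379) (nat_lit 277)) (XT.lf (nat_lit 0) (nat_lit 7257510861) (nat_lit 228) (nat_lit 1790503520) (nat_lit 304) (nat_lit 6273472565) (nat_lit 80) (nat_lit 5) (nat_lit 83) (nat_lit 5) (nat_lit 84) (nat_lit 5) (nat_lit 485) (nat_lit 379) (nat_lit 276)))) (XT.nd (nat_lit 156) (nat_lit 304) (nat_lit 0) (XT.nd (nat_lit 78) (nat_lit 304) (nat_lit 0) (XT.lf (nat_lit 0) (nat_lit 12205534319) (nat_lit 304) (nat_lit 1009090349) (nat_lit 76) (nat_lit 2319398476) (nat_lit 80) (nat_lit 5) (nat_lit 84) (nat_lit 5) (nat_lit 81) (nat_lit 5) (nat_lit 486) (nat_lit 379) (nat_lit 275)) (XT.lf (nat_lit 0) (nat_lit 6227955676) (nat_lit 304) (nat_lit 9231994337) (nat_lit 380) (nat_lit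 290195712) (nat_lit 76) (nat_lit 5) (nat_lit 80) (nat_lit 5) (nat_lit 81) (nat_lit 5) (nat_lit 487) (nat_lit 379) (nat_lit 274))) (XT.nd (nat_lit 78) (nat_lit 228) (nat_lit 0) (XT.lf (nat_lit 0) (nat_lit 2760338893) (nat_lit 380) (nat_lit 2394143438) (nat_lit 76) (nat_lit 10815987556) (nat_lit 75) (nat_lit 5) (nat_lit 80) (nat_lit 5) (nat_lit 76) (nat_lit 5) (nat_lit 488) (nat_lit 379) (nat_lit 273)) (XT.lf (nat_lit 0) (nat_lit 4910684665) (nat_lit 228) (nat_lit 971061652) (nat_lit 304) (nat_lit 10313150853) (nat_lit 72) (nat_lit 5) (nat_lit 75) (nat_lit 5) (nat_lit 76) (nat_lit 5) (nat_lit 489) (nat_lit 379) (nat_lit 272))))) (XT.nd (nat_lit 234) (nat_lit 532) (nat_lit 0) (XT.nd (nat_lit 78) (nat_lit 304) (nat_lit 0) (XT.lf (nat_lit 0) (nat_lit 9085122775) (nat_lit 304) (nat_lit 4079315125) (nat_lit 76) (nat_lit 3258994042) (nat_lit 72) (nat_lit 5) (nat_lit 76) (nat_lit 5) (nat_lit 73) (nat_lit 5) (nat_lit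 490) (nat_lit 379) (nat_lit 271)) (XT.nd (nat_lit 78) (nat_lit 0) (nat_lit 0) (XT.lf (nat_lit 0) (nat_lit 3278423276) (nat_lit 304) (nat_lit 9084182143) (nat_lit 380) (nat_lit 4293740789) (nat_lit 68) (nat_lit 5) (nat_lit 72) (nat_lit 5) (nat_lit 73) (nat_lit 5) (nat_lit 491) (nat_lit 379) (nat_lit 270)) (XT.lf (nat_lit 0) (nat_lit 10810972519) (nat_lit 304) (nat_lit 4904528804) (nat_lit 380) (nat_lit 1178229547) (nat_lit 68) (nat_lit 5) (nat_lit 72) (nat_lit 5) (nat_lit 73) (nat_lit 5) (nat_lit 492) (nat_lit 379) (nat_lit 269)))) (XT.nd (nat_lit 156) (nat_lit 228) (nat_lit 0) (XT.nd (nat_lit 78) (nat_lit 0) (nat_lit 0) (XT.lf (nat_lit 0) (nat_lit 1335505284) (nat_lit 228) (nat_lit 629242446) (nat_lit 304) (nat_lit 15171037246) (nat_lit 64) (nat_lit 5) (nat_lit 67) (nat_lit 5) (nat_lit 68) (nat_lit 5) (nat_lit 493) (nat_lit 379) (nat_lit 268)) (XT.lf (nat_lit 0) (nat_lit 5202946750) (nat_lit 304) (nat_lit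 8457020446) (nat_lit 76) (nat_lit 3721603274) (nat_lit 64) (nat_lit 5) (nat_lit 68) (nat_lit 5) (nat_lit 65) (nat_lit 5) (nat_lit 494) (nat_lit 379) (nat_lit 267))) (XT.nd (nat_lit 78) (nat_lit 228) (nat_lit 0) (XT.lf (nat_lit 0) (nat_lit 8493221443) (nat_lit 304) (nat_lit 997968451) (nat_lit 76) (nat_lit 8141344213) (nat_lit 64) (nat_lit 5) (nat_lit 68) (nat_lit 5) (nat_lit 65) (nat_lit 5) (nat_lit 495) (nat_lit 379) (nat_lit 266)) (XT.lf (nat_lit 0) (nat_lit 6671383258) (nat_lit 228) (nat_lit 5204708441) (nat_lit 304) (nat_lit 6011898017) (nat_lit 61) (nat_lit 5) (nat_lit 64) (nat_lit 5) (nat_lit 65) (nat_lit 5) (nat_lit 496) (nat_lit 379) (nat_lit 265)))))) (XT.nd (nat_lit 546) (nat_lit 532) (nat_lit 0) (XT.nd (nat_lit 234) (nat_lit 456) (nat_lit 0) (XT.nd (nat_lit 78) (nat_lit 304) (nat_lit 0) (XT.lf (nat_lit 0) (nat_lit 14481445551) (nat_lit 228) (nat_lit 835499612) (nat_lit 304) (nat_lit 2831811090)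 (nat_lit 61) (nat_lit 5) (nat_lit 64) (nat_lit 5) (nat_lit 65) (nat_lit 5) (nat_lit 497) (nat_lit 379) (nat_lit 264)) (XT.nd (nat_lit 78) (nat_lit 0) (nat_lit 0) (XT.lf (nat_lit 0) (nat_lit 440295333) (nat_lit 304) (nat_lit 14380528725) (nat_lit 76) (nat_lit 3593192195) (nat_lit 57) (nat_lit 5) (nat_lit 61) (nat_lit 5) (nat_lit 58) (nat_lit 5) (nat_lit 498) (nat_lit 379) (nat_lit 263)) (XT.lf (nat_lit 0) (nat_lit 3754189259) (nat_lit 304) (nat_lit 6796533675) (nat_lit 76) (nat_lit 8133206739) (nat_lit 57) (nat_lit 5) (nat_lit 61) (nat_lit 5) (nat_lit 58) (nat_lit 5) (nat_lit 499) (nat_lit 379) (nat_lit 262)))) (XT.nd (nat_lit 156) (nat_lit 228) (nat_lit 0) (XT.nd (nat_lit 78) (nat_lit 0) (nat_lit 0) (XT.lf (nat_lit 0) (nat_lit 925785375) (nat_lit 228) (nat_lit 6198823959) (nat_lit 304) (nat_lit 11834834761) (nat_lit 54) (nat_lit 5) (nat_lit 57) (nat_lit 5) (nat_lit 58) (nat_lit 5) (nat_lit 500) (nat_lit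 379) (nat_lit 261)) (XT.lf (nat_lit 0) (nat_lit 8869349615) (nat_lit 228) (nat_lit 1723078580) (nat_lit 304) (nat_lit 8647448347) (nat_lit 54) (nat_lit 5) (nat_lit 57) (nat_lit 5) (nat_lit 58) (nat_lit 5) (nat_lit 501) (nat_lit 379) (nat_lit 260))) (XT.nd (nat_lit 78) (nat_lit 228) (nat_lit 0) (XT.lf (nat_lit 0) (nat_lit 14132683244) (nat_lit 304) (nat_lit 2597670968) (nat_lit 76) (nat_lit 2795509230) (nat_lit 54) (nat_lit 5) (nat_lit 58) (nat_lit 5) (nat_lit 55) (nat_lit 5) (nat_lit 502) (nat_lit 379) (nat_lit 259)) (XT.lf (nat_lit 0) (nat_lit 5365000669) (nat_lit 228) (nat_lit 12409914906) (nat_lit 304) (nat_lit 2042038314) (nat_lit 51) (nat_lit 5) (nat_lit 54) (nat_lit 5) (nat_lit 55) (nat_lit 5) (nat_lit 503) (nat_lit 379) (nat_lit 258))))) (XT.nd (nat_lit 234) (nat_lit 228) (nat_lit 0) (XT.nd (nat_lit 78) (nat_lit 228) (nat_lit 0) (XT.lf (nat_lit 0) (nat_lit 1360584344) (nat_lit 304) (nat_lit 6625068162)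 (nat_lit 76) (nat_lit 12127991796) (nat_lit 50) (nat_lit 5) (nat_lit 54) (nat_lit 5) (nat_lit 51) (nat_lit 5) (nat_lit 504) (nat_lit 379) (nat_lit 257)) (XT.nd (nat_lit 78) (nat_lit 0) (nat_lit 0) (XT.lf (nat_lit 0) (nat_lit 1338227021) (nat_lit 228) (nat_lit 3459657584) (nat_lit 304) (nat_lit 15618241436) (nat_lit 47) (nat_lit 5) (nat_lit 50) (nat_lit 5) (nat_lit 51) (nat_lit 5) (nat_lit 505) (nat_lit 379) (nat_lit 256)) (XT.lf (nat_lit 0) (nat_lit 8341520313) (nat_lit 304) (nat_lit 11205215464) (nat_lit 76) (nat_lit 1177176547) (nat_lit 47) (nat_lit 5) (nat_lit 51) (nat_lit 5) (nat_lit 48) (nat_lit 5) (nat_lit 506) (nat_lit 379) (nat_lit 255)))) (XT.nd (nat_lit 156) (nat_lit 76) (nat_lit 0) (XT.nd (nat_lit 78) (nat_lit 152) (nat_lit 0) (XT.lf (nat_lit 0) (nat_lit 11964554338) (nat_lit 304) (nat_lit 3221749044) (nat_lit 76) (nat_lit 5851387011) (nat_lit 47) (nat_lit 5) (nat_lit 51) (nat_lit 5) (nat_lit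 48) (nat_lit 5) (nat_lit 507) (nat_lit 379) (nat_lit 254)) (XT.lf (nat_lit 0) (nat_lit 4963186487) (nat_lit 152) (nat_lit 10714982897) (nat_lit 228) (nat_lit 5679218673) (nat_lit 45) (nat_lit 5) (nat_lit 47) (nat_lit 5) (nat_lit 48) (nat_lit 5) (nat_lit 508) (nat_lit 379) (nat_lit 253))) (XT.nd (nat_lit 78) (nat_lit 76) (nat_lit 0) (XT.lf (nat_lit 0) (nat_lit 13332352331) (nat_lit 152) (nat_lit 6141346381) (nat_lit 228) (nat_lit 2209634437) (nat_lit 45) (nat_lit 5) (nat_lit 47) (nat_lit 5) (nat_lit 48) (nat_lit 5) (nat_lit 509) (nat_lit 379) (nat_lit 252)) (XT.lf (nat_lit 0) (nat_lit 1298106489) (nat_lit 228) (nat_lit 178402417) (nat_lit 76) (nat_lit 20539397696) (nat_lit 44) (nat_lit 5) (nat_lit 47) (nat_lit 5) (nat_lit 45) (nat_lit 5) (nat_lit 510) (nat_lit 379) (nat_lit 251))))))))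
noncomputable def xc102 : XT := (XT.nd (nat_lit 49998) (nat_lit 0) (nat_lit 28120) (XT.nd (nat_lit 1014) (nat_lit 152) (nat_lit 0) (XT.nd (nat_lit 468) (nat_lit 380) (nat_lit 0) (XT.nd (nat_lit 234) (nat_lit 304) (nat_lit 0) (XT.nd (nat_lit 78) (nat_lit 152) (nat_lit 0) (XT.lf (nat_lit 0) (nat_lit 4908037261) (nat_lit 304) (nat_lit 14147261329) (nat_lit 76) (nat_lit 3298314331) (nat_lit 41) (nat_lit 5) (nat_lit 45) (nat_lit 5) (nat_lit 42) (nat_lit 5) (nat_lit 511) (nat_lit 379) (nat_lit 250)) (XT.nd (nat_lit 78) (nat_lit 152) (nat_lit 0) (XT.lf (nat_lit 0) (nat_lit 8587683156) (nat_lit 304) (nat_lit 5969112710) (nat_lit 76) (nat_lit 8141333004) (nat_lit 41) (nat_lit 5) (nat_lit 45) (nat_lit 5) (nat_lit 42) (nat_lit 5) (nat_lit 512) (nat_lit 379) (nat_lit 249)) (XT.lf (nat_lit 0) (nat_lit 2381781340) (nat_lit 152) (nat_lit 9961401986) (nat_lit 228) (nat_lit 10706312304) (nat_lit 39) (nat_lit 5) (nat_lit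 41) (nat_lit 5) (nat_lit 42) (nat_lit 5) (nat_lit 513) (nat_lit 379) (nat_lit 248)))) (XT.nd (nat_lit 78) (nat_lit 304) (nat_lit 0) (XT.lf (nat_lit 0) (nat_lit 10958696234) (nat_lit 152) (nat_lit 5242067031) (nat_lit 228) (nat_lit 7206592671) (nat_lit 39) (nat_lit 5) (nat_lit 41) (nat_lit 5) (nat_lit 42) (nat_lit 5) (nat_lit 514) (nat_lit 379) (nat_lit 247)) (XT.nd (nat_lit 78) (nat_lit 304) (nat_lit 0) (XT.lf (nat_lit 0) (nat_lit 19685669102) (nat_lit 152) (nat_lit 436996170) (nat_lit 228) (nat_lit 3649970266) (nat_lit 39) (nat_lit 5) (nat_lit 41) (nat_lit 5) (nat_lit 42) (nat_lit 5) (nat_lit 515) (nat_lit 379) (nat_lit 246)) (XT.lf (nat_lit 0) (nat_lit 23614476) (nat_lit 304) (nat_lit 19694397733) (nat_lit 76) (nat_lit 4426305920) (nat_lit 35) (nat_lit 5) (nat_lit 39) (nat_lit 5) (nat_lit 36) (nat_lit 5) (nat_lit 516) (nat_lit 379) (nat_lit 245))))) (XT.nd (nat_lit 234) (nat_lit 228) (nat_lit 0) (XT.nd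 (nat_lit 78) (nat_lit 152) (nat_lit 0) (XT.lf (nat_lit 0) (nat_lit 3739734226) (nat_lit 304) (nat_lit 11358482535) (nat_lit 76) (nat_lit 9424381536) (nat_lit 35) (nat_lit 5) (nat_lit 39) (nat_lit 5) (nat_lit 36) (nat_lit 5) (nat_lit 517) (nat_lit 379) (nat_lit 244)) (XT.nd (nat_lit 78) (nat_lit 152) (nat_lit 0) (XT.lf (nat_lit 0) (nat_lit 7517813030) (nat_lit 304) (nat_lit 2876725425) (nat_lit 76) (nat_lit 14514157961) (nat_lit 35) (nat_lit 5) (nat_lit 39) (nat_lit 5) (nat_lit 36) (nat_lit 5) (nat_lit 518) (nat_lit 379) (nat_lit 243)) (XT.lf (nat_lit 0) (nat_lit 5830670063) (nat_lit 152) (nat_lit 5566519000) (nat_lit 228) (nat_lit 13904817699) (nat_lit 33) (nat_lit 5) (nat_lit 35) (nat_lit 5) (nat_lit 36) (nat_lit 5) (nat_lit 519) (nat_lit 379) (nat_lit 242)))) (XT.nd (nat_lit 156) (nat_lit 228) (nat_lit 0) (XT.nd (nat_lit 78) (nat_lit 0) (nat_lit 0) (XT.lf (nat_lit 0) (nat_lit 14730875834) (nat_lit 152)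 (nat_lit 630565856) (nat_lit 228) (nat_lit 10341600725) (nat_lit 33) (nat_lit 5) (nat_lit 35) (nat_lit 5) (nat_lit 36) (nat_lit 5) (nat_lit 520) (nat_lit 379) (nat_lit 241)) (XT.lf (nat_lit 0) (nat_lit 19421741133) (nat_lit 228) (nat_lit 2351728604) (nat_lit 76) (nat_lit 4338298596) (nat_lit 33) (nat_lit 5) (nat_lit 36) (nat_lit 5) (nat_lit 34) (nat_lit 5) (nat_lit 521) (nat_lit 379) (nat_lit 240))) (XT.nd (nat_lit 78) (nat_lit 76) (nat_lit 0) (XT.lf (nat_lit 0) (nat_lit 6502496989) (nat_lit 152) (nat_lit 17095543426) (nat_lit 228) (nat_lit 2929937168) (nat_lit 31) (nat_lit 5) (nat_lit 33) (nat_lit 5) (nat_lit 34) (nat_lit 5) (nat_lit 522) (nat_lit 379) (nat_lit 239)) (XT.lf (nat_lit 0) (nat_lit 897785544) (nat_lit 228) (nat_lit 11412247938) (nat_lit 76) (nat_lit 14642278388) (nat_lit 30) (nat_lit 5) (nat_lit 33) (nat_lit 5) (nat_lit 31) (nat_lit 5) (nat_lit 523) (nat_lit 379) (nat_lit 238)))))) (XT.nd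 (nat_lit 48438) (nat_lit 0) (nat_lit 42560) (XT.nd (nat_lit 48126) (nat_lit 0) (nat_lit 43472) (XT.nd (nat_lit 78) (nat_lit 152) (nat_lit 0) (XT.lf (nat_lit 0) (nat_lit 4751513526) (nat_lit 228) (nat_lit 2665522092) (nat_lit 76) (nat_lit 19967940653) (nat_lit 30) (nat_lit 5) (nat_lit 33) (nat_lit 5) (nat_lit 31) (nat_lit 5) (nat_lit 524) (nat_lit 379) (nat_lit 237)) (XT.nd (nat_lit 78) (nat_lit 0) (nat_lit 0) (XT.lf (nat_lit 0) (nat_lit 6320038568) (nat_lit 152) (nat_lit 2392180010) (nat_lit 228) (nat_lit 19113481668) (nat_lit 28) (nat_lit 5) (nat_lit 30) (nat_lit 5) (nat_lit 31) (nat_lit 5) (nat_lit 525) (nat_lit 379) (nat_lit 236)) (XT.lf (nat_lit 0) (nat_lit 12776802412) (nat_lit 228) (nat_lit 12790340052) (nat_lit 76) (nat_lit 2707607193) (nat_lit 28) (nat_lit 5) (nat_lit 31) (nat_lit 5) (nat_lit 29) (nat_lit 5) (nat_lit 526) (nat_lit 379) (nat_lit 235)))) (XT.nd (nat_lit 156) (nat_lit 152) (nat_lit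 0) (XT.nd (nat_lit 78) (nat_lit 76) (nat_lit 0) (XT.lf (nat_lit 0) (nat_lit 1073741823) (nat_lit 0) (nat_lit 0) (nat_lit 0) (nat_lit 0) (nat_lit 603) (nat_lit 0) (nat_lit 1) (nat_lit 0) (nat_lit 1) (nat_lit 0) (nat_lit 380) (nat_lit 380) (nat_lit 380)) (XT.lf (nat_lit 0) (nat_lit 2912283137) (nat_lit 76) (nat_lit 3492179515) (nat_lit 0) (nat_lit 38444725) (nat_lit 602) (nat_lit 5) (nat_lit 603) (nat_lit 0) (nat_lit 602) (nat_lit 4) (nat_lit 381) (nat_lit 380) (nat_lit 379))) (XT.nd (nat_lit 78) (nat_lit 152) (nat_lit 0) (XT.lf (nat_lit 0) (nat_lit 5806676303) (nat_lit 76) (nat_lit 523020197) (nat_lit 0) (nat_lit 115349253) (nat_lit 602) (nat_lit 5) (nat_lit 603) (nat_lit 0) (nat_lit 602) (nat_lit 4) (nat_lit 382) (nat_lit 380) (nat_lit 378)) (XT.lf (nat_lit 0) (nat_lit 2222461738) (nat_lit 152) (nat_lit 3964198101) (nat_lit 76) (nat_lit 261590144) (nat_lit 600) (nat_lit 5) (nat_lit 602) (nat_lit 5) (nat_lit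 601) (nat_lit 4) (nat_lit 383) (nat_lit 380) (nat_lit 377))))) (XT.nd (nat_lit 234) (nat_lit 684) (nat_lit 0) (XT.nd (nat_lit 78) (nat_lit 228) (nat_lit 0) (XT.lf (nat_lit 0) (nat_lit 5061441192) (nat_lit 152) (nat_lit 937541725) (nat_lit 76) (nat_lit 454002843) (nat_lit 600) (nat_lit 5) (nat_lit 602) (nat_lit 5) (nat_lit 601) (nat_lit 4) (nat_lit 384) (nat_lit 380) (nat_lit 376)) (XT.nd (nat_lit 78) (nat_lit 0) (nat_lit 0) (XT.lf (nat_lit 0) (nat_lit 1420467289) (nat_lit 228) (nat_lit 4330192550) (nat_lit 76) (nat_lit 708282704) (nat_lit 597) (nat_lit 5) (nat_lit 600) (nat_lit 5) (nat_lit 598) (nat_lit 5) (nat_lit 385) (nat_lit 380) (nat_lit 375)) (XT.lf (nat_lit 0) (nat_lit 4204389949) (nat_lit 228) (nat_lit 1245314789) (nat_lit 76) (nat_lit 1016576982) (nat_lit 597) (nat_lit 5) (nat_lit 600) (nat_lit 5) (nat_lit 598) (nat_lit 5) (nat_lit 386) (nat_lit 380) (nat_lit 374)))) (XT.nd (nat_lit 156) (nat_lit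 380) (nat_lit 0) (XT.nd (nat_lit 78) (nat_lit 0) (nat_lit 0) (XT.lf (nat_lit 0) (nat_lit 503843474) (nat_lit 304) (nat_lit 4591829935) (nat_lit 76) (nat_lit 1379326360) (nat_lit 593) (nat_lit 5) (nat_lit 597) (nat_lit 5) (nat_lit 594) (nat_lit 5) (nat_lit 387) (nat_lit 380) (nat_lit 373)) (XT.lf (nat_lit 0) (nat_lit 3232956422) (nat_lit 304) (nat_lit 1447904689) (nat_lit 76) (nat_lit 1804090650) (nat_lit 593) (nat_lit 5) (nat_lit 597) (nat_lit 5) (nat_lit 594) (nat_lit 5) (nat_lit 388) (nat_lit 380) (nat_lit 372))) (XT.nd (nat_lit 78) (nat_lit 76) (nat_lit 0) (XT.lf (nat_lit 0) (nat_lit 1742289100) (nat_lit 304) (nat_lit 4216958311) (nat_lit 380) (nat_lit 537126602) (nat_lit 589) (nat_lit 5) (nat_lit 593) (nat_lit 5) (nat_lit 594) (nat_lit 5) (nat_lit 389) (nat_lit 380) (nat_lit 371)) (XT.lf (nat_lit 0) (nat_lit 2144356028) (nat_lit 380) (nat_lit 1546698475) (nat_lit 76) (nat_lit 2817966919) (nat_lit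 588) (nat_lit 5) (nat_lit 593) (nat_lit 5) (nat_lit 589) (nat_lit 5) (nat_lit 390) (nat_lit 380) (nat_lit 370))))))) (XT.nd (nat_lit 1092) (nat_lit 8892) (nat_lit 0) (XT.nd (nat_lit 546) (nat_lit 3344) (nat_lit 0) (XT.nd (nat_lit 234) (nat_lit 1292) (nat_lit 0) (XT.nd (nat_lit 78) (nat_lit 532) (nat_lit 0) (XT.lf (nat_lit 0) (nat_lit 1704192730) (nat_lit 380) (nat_lit 3112301566) (nat_lit 456) (nat_lit 1706588147) (nat_lit 583) (nat_lit 5) (nat_lit 588) (nat_lit 5) (nat_lit 589) (nat_lit 5) (nat_lit 391) (nat_lit 380) (nat_lit 369)) (XT.nd (nat_lit 78) (nat_lit 456) (nat_lit 0) (XT.lf (nat_lit 0) (nat_lit 935577485) (nat_lit 456) (nat_lit 1542911420) (nat_lit 76) (nat_lit 4060034789) (nat_lit 582) (nat_lit 5) (nat_lit 588) (nat_lit 5) (nat_lit 583) (nat_lit 5) (nat_lit 392) (nat_lit 380) (nat_lit 368)) (XT.lf (nat_lit 0) (nat_lit 1771130491) (nat_lit 456) (nat_lit 1783081436) (nat_lit 532) (nat_lit 3001016038)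 (nat_lit 576) (nat_lit 5) (nat_lit 582) (nat_lit 5) (nat_lit 583) (nat_lit 5) (nat_lit 393) (nat_lit 380) (nat_lit 367)))) (XT.nd (nat_lit 156) (nat_lit 684) (nat_lit 0) (XT.nd (nat_lit 78) (nat_lit 608) (nat_lit 0) (XT.lf (nat_lit 0) (nat_lit 5133244174) (nat_lit 456) (nat_lit 1038305985) (nat_lit 532) (nat_lit 401896737) (nat_lit 576) (nat_lit 5) (nat_lit 582) (nat_lit 5) (nat_lit 583) (nat_lit 5) (nat_lit 394) (nat_lit 380) (nat_lit 366)) (XT.lf (nat_lit 0) (nat_lit 1942137487) (nat_lit 532) (nat_lit 226891684) (nat_lit 608) (nat_lit 4423825542) (nat_lit 568) (nat_lit 5) (nat_lit 575) (nat_lit 5) (nat_lit 576) (nat_lit 5) (nat_lit 395) (nat_lit 380) (nat_lit 365))) (XT.nd (nat_lit 78) (nat_lit 684) (nat_lit 0) (XT.lf (nat_lit 0) (nat_lit 4737477964) (nat_lit 608) (nat_lit 1247976645) (nat_lit 76) (nat_lit 628214246) (nat_lit 568) (nat_lit 5) (nat_lit 576) (nat_lit 5) (nat_lit 569) (nat_lit 5) (nat_lit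 396) (nat_lit 380) (nat_lit 364)) (XT.lf (nat_lit 0) (nat_lit 667451213) (nat_lit 684) (nat_lit 4429727978) (nat_lit 76) (nat_lit 1538632792) (nat_lit 559) (nat_lit 5) (nat_lit 568) (nat_lit 5) (nat_lit 560) (nat_lit 5) (nat_lit 397) (nat_lit 380) (nat_lit 363))))) (XT.nd (nat_lit 234) (nat_lit 2584) (nat_lit 0) (XT.nd (nat_lit 78) (nat_lit 760) (nat_lit 0) (XT.lf (nat_lit 0) (nat_lit 3184813053) (nat_lit 684) (nat_lit 964951168) (nat_lit 76) (nat_lit 2509521526) (nat_lit 559) (nat_lit 5) (nat_lit 568) (nat_lit 5) (nat_lit 560) (nat_lit 5) (nat_lit 398) (nat_lit 380) (nat_lit 362)) (XT.nd (nat_lit 78) (nat_lit 76) (nat_lit 0) (XT.lf (nat_lit 0) (nat_lit 2563146478) (nat_lit 684) (nat_lit 3146718830) (nat_lit 760) (nat_lit 974310135) (nat_lit 550) (nat_lit 5) (nat_lit 559) (nat_lit 5) (nat_lit 560) (nat_lit 5) (nat_lit 399) (nat_lit 380) (nat_lit 361)) (XT.lf (nat_lit 0) (nat_lit 1502838159) (nat_lit 760)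 (nat_lit 585023947) (nat_lit 76) (nat_lit 4622632891) (nat_lit 549) (nat_lit 5) (nat_lit 559) (nat_lit 5) (nat_lit 550) (nat_lit 5) (nat_lit 400) (nat_lit 380) (nat_lit 360)))) (XT.nd (nat_lit 156) (nat_lit 1824) (nat_lit 0) (XT.nd (nat_lit 78) (nat_lit 0) (nat_lit 0) (XT.lf (nat_lit 0) (nat_lit 3015381961) (nat_lit 760) (nat_lit 962977679) (nat_lit 836) (nat_lit 2759702914) (nat_lit 539) (nat_lit 5) (nat_lit 549) (nat_lit 5) (nat_lit 550) (nat_lit 5) (nat_lit 401) (nat_lit 380) (nat_lit 359)) (XT.lf (nat_lit 0) (nat_lit 6451819047) (nat_lit 836) (nat_lit 112092619) (nat_lit 76) (nat_lit 203387460) (nat_lit 539) (nat_lit 5) (nat_lit 550) (nat_lit 5) (nat_lit 540) (nat_lit 5) (nat_lit 402) (nat_lit 380) (nat_lit 358))) (XT.nd (nat_lit 78) (nat_lit 912) (nat_lit 0) (XT.lf (nat_lit 0) (nat_lit 2122767640) (nat_lit 912) (nat_lit 3240219700) (nat_lit 76) (nat_lit 1434459175) (nat_lit 527) (nat_lit 5) (nat_lit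 539) (nat_lit 5) (nat_lit 528) (nat_lit 5) (nat_lit 403) (nat_lit 380) (nat_lit 357)) (XT.lf (nat_lit 0) (nat_lit 436650294) (nat_lit 912) (nat_lit 4117282285) (nat_lit 988) (nat_lit 2275336277) (nat_lit 515) (nat_lit 5) (nat_lit 527) (nat_lit 5) (nat_lit 528) (nat_lit 5) (nat_lit 404) (nat_lit 380) (nat_lit 356)))))) (XT.nd (nat_lit 546) (nat_lit 5472) (nat_lit 0) (XT.nd (nat_lit 234) (nat_lit 2356) (nat_lit 0) (XT.nd (nat_lit 78) (nat_lit 988) (nat_lit 0) (XT.lf (nat_lit 0) (nat_lit 136789683) (nat_lit 988) (nat_lit 2672368221) (nat_lit 76) (nat_lit 4053284448) (nat_lit 514) (nat_lit 5) (nat_lit 527) (nat_lit 5) (nat_lit 515) (nat_lit 5) (nat_lit 405) (nat_lit 380) (nat_lit 355)) (XT.nd (nat_lit 78) (nat_lit 0) (nat_lit 0) (XT.lf (nat_lit 0) (nat_lit 1081406937) (nat_lit 988) (nat_lit 1438574022) (nat_lit 1064) (nat_lit 4377008325) (nat_lit 501) (nat_lit 5) (nat_lit 514) (nat_lit 5) (nat_lit 515) (nat_lit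 5) (nat_lit 406) (nat_lit 380) (nat_lit 354)) (XT.lf (nat_lit 0) (nat_lit 4906750791) (nat_lit 988) (nat_lit 9054282) (nat_lit 1064) (nat_lit 2017197755) (nat_lit 501) (nat_lit 5) (nat_lit 514) (nat_lit 5) (nat_lit 515) (nat_lit 5) (nat_lit 407) (nat_lit 380) (nat_lit 353)))) (XT.nd (nat_lit 156) (nat_lit 1216) (nat_lit 0) (XT.nd (nat_lit 78) (nat_lit 0) (nat_lit 0) (XT.lf (nat_lit 0) (nat_lit 353759686) (nat_lit 1140) (nat_lit 5159663949) (nat_lit 76) (nat_lit 1456953270) (nat_lit 486) (nat_lit 5) (nat_lit 501) (nat_lit 5) (nat_lit 487) (nat_lit 5) (nat_lit 408) (nat_lit 380) (nat_lit 352)) (XT.lf (nat_lit 0) (nat_lit 2707405271) (nat_lit 1140) (nat_lit 1310491466) (nat_lit 76) (nat_lit 2991160192) (nat_lit 486) (nat_lit 5) (nat_lit 501) (nat_lit 5) (nat_lit 487) (nat_lit 5) (nat_lit 409) (nat_lit 380) (nat_lit 351))) (XT.nd (nat_lit 78) (nat_lit 76) (nat_lit 0) (XT.lf (nat_lit 0) (nat_lit 2610052993)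 (nat_lit 1140) (nat_lit 2464533435) (nat_lit 1216) (nat_lit 1974664211) (nat_lit 471) (nat_lit 5) (nat_lit 486) (nat_lit 5) (nat_lit 487) (nat_lit 5) (nat_lit 410) (nat_lit 380) (nat_lit 350)) (XT.lf (nat_lit 0) (nat_lit 352336945) (nat_lit 1216) (nat_lit 506261605) (nat_lit 76) (nat_lit 6232490424) (nat_lit 470) (nat_lit 5) (nat_lit 486) (nat_lit 5) (nat_lit 471) (nat_lit 5) (nat_lit 411) (nat_lit 380) (nat_lit 349))))) (XT.nd (nat_lit 234) (nat_lit 2888) (nat_lit 0) (XT.nd (nat_lit 78) (nat_lit 1368) (nat_lit 0) (XT.lf (nat_lit 0) (nat_lit 2678373875) (nat_lit 1292) (nat_lit 3640839577) (nat_lit 76) (nat_lit 814776183) (nat_lit 454) (nat_lit 5) (nat_lit 471) (nat_lit 5) (nat_lit 455) (nat_lit 5) (nat_lit 412) (nat_lit 380) (nat_lit 348)) (XT.nd (nat_lit 78) (nat_lit 76) (nat_lit 0) (XT.lf (nat_lit 0) (nat_lit 360394066) (nat_lit 1292) (nat_lit 4653588083) (nat_lit 1368) (nat_lit 2164569205) (nat_lit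 437) (nat_lit 5) (nat_lit 454) (nat_lit 5) (nat_lit 455) (nat_lit 5) (nat_lit 413) (nat_lit 380) (nat_lit 347)) (XT.lf (nat_lit 0) (nat_lit 146547847) (nat_lit 1368) (nat_lit 2774582398) (nat_lit 76) (nat_lit 4303383075) (nat_lit 436) (nat_lit 5) (nat_lit 454) (nat_lit 5) (nat_lit 437) (nat_lit 5) (nat_lit 414) (nat_lit 380) (nat_lit 346)))) (XT.nd (nat_lit 156) (nat_lit 1520) (nat_lit 0) (XT.nd (nat_lit 78) (nat_lit 0) (nat_lit 0) (XT.lf (nat_lit 0) (nat_lit 1312754762) (nat_lit 1368) (nat_lit 1123557638) (nat_lit 1444) (nat_lit 4835628158) (nat_lit 418) (nat_lit 5) (nat_lit 436) (nat_lit 5) (nat_lit 437) (nat_lit 5) (nat_lit 415) (nat_lit 380) (nat_lit 345)) (XT.lf (nat_lit 0) (nat_lit 4748792611) (nat_lit 1444) (nat_lit 1845988715) (nat_lit 76) (nat_lit 726055787) (nat_lit 418) (nat_lit 5) (nat_lit 437) (nat_lit 5) (nat_lit 419) (nat_lit 5) (nat_lit 416) (nat_lit 380) (nat_lit 344))) (XT.nd (nat_lit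 78) (nat_lit 76) (nat_lit 0) (XT.lf (nat_lit 0) (nat_lit 2332663321) (nat_lit 1444) (nat_lit 4751924084) (nat_lit 1520) (nat_lit 286640916) (nat_lit 399) (nat_lit 5) (nat_lit 418) (nat_lit 5) (nat_lit 419) (nat_lit 5) (nat_lit 417) (nat_lit 380) (nat_lit 343)) (XT.lf (nat_lit 0) (nat_lit 1984887158) (nat_lit 1520) (nat_lit 856180015) (nat_lit 76) (nat_lit 4582005864) (nat_lit 398) (nat_lit 5) (nat_lit 418) (nat_lit 5) (nat_lit 399) (nat_lit 5) (nat_lit 418) (nat_lit 380) (nat_lit 342))))))))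
noncomputable def xc103 : XT := (XT.nd (nat_lit 2106) (nat_lit 7372) (nat_lit 0) (XT.nd (nat_lit 1014) (nat_lit 5548) (nat_lit 0) (XT.nd (nat_lit 468) (nat_lit 3344) (nat_lit 0) (XT.nd (nat_lit 234) (nat_lit 2736) (nat_lit 0) (XT.nd (nat_lit 78) (nat_lit 1672) (nat_lit 0) (XT.lf (nat_lit 0) (nat_lit 3413154225) (nat_lit 1520) (nat_lit 862664971) (nat_lit 1596) (nat_lit 3200596000) (nat_lit 378) (nat_lit 5) (nat_lit 398) (nat_lit 5) (nat_lit 399) (nat_lit 5) (nat_lit 419) (nat_lit 380) (nat_lit 341)) (XT.nd (nat_lit 78) (nat_lit 76) (nat_lit 0) (XT.lf (nat_lit 0) (nat_lit 203642199) (nat_lit 1596) (nat_lit 6379825067) (nat_lit 1672) (nat_lit 947992586) (nat_lit 357) (nat_lit 5) (nat_lit 378) (nat_lit 5) (nat_lit 379) (nat_lit 5) (nat_lit 420) (nat_lit 380) (nat_lit 340)) (XT.lf (nat_lit 0) (nat_lit 1321672757) (nat_lit 1672) (nat_lit 3031379770) (nat_lit 76) (nat_lit 3234634917) (nat_lit 356) (nat_lit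 5) (nat_lit 378) (nat_lit 5) (nat_lit 357) (nat_lit 5) (nat_lit 421) (nat_lit 380) (nat_lit 339)))) (XT.nd (nat_lit 78) (nat_lit 1064) (nat_lit 0) (XT.lf (nat_lit 0) (nat_lit 1322221303) (nat_lit 1672) (nat_lit 2267815759) (nat_lit 1748) (nat_lit 4055607725) (nat_lit 334) (nat_lit 5) (nat_lit 356) (nat_lit 5) (nat_lit 357) (nat_lit 5) (nat_lit 422) (nat_lit 380) (nat_lit 338)) (XT.nd (nat_lit 78) (nat_lit 1064) (nat_lit 0) (XT.lf (nat_lit 0) (nat_lit 5764418938) (nat_lit 1672) (nat_lit 117672890) (nat_lit 1748) (nat_lit 1823152504) (nat_lit 334) (nat_lit 5) (nat_lit 356) (nat_lit 5) (nat_lit 357) (nat_lit 5) (nat_lit 423) (nat_lit 380) (nat_lit 337)) (XT.lf (nat_lit 0) (nat_lit 436461799) (nat_lit 1064) (nat_lit 5260005348) (nat_lit 76) (nat_lit 2069788097) (nat_lit 320) (nat_lit 5) (nat_lit 334) (nat_lit 5) (nat_lit 321) (nat_lit 5) (nat_lit 424) (nat_lit 380) (nat_lit 336))))) (XT.nd (nat_lit 234) (nat_lit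 1672) (nat_lit 0) (XT.nd (nat_lit 78) (nat_lit 1672) (nat_lit 0) (XT.lf (nat_lit 0) (nat_lit 2689824715) (nat_lit 1064) (nat_lit 812598799) (nat_lit 76) (nat_lit 4326409137) (nat_lit 320) (nat_lit 5) (nat_lit 334) (nat_lit 5) (nat_lit 321) (nat_lit 5) (nat_lit 425) (nat_lit 380) (nat_lit 335)) (XT.nd (nat_lit 78) (nat_lit 836) (nat_lit 0) (XT.lf (nat_lit 0) (nat_lit 3733497254) (nat_lit 836) (nat_lit 1238856815) (nat_lit 912) (nat_lit 2920671302) (nat_lit 309) (nat_lit 5) (nat_lit 320) (nat_lit 5) (nat_lit 321) (nat_lit 5) (nat_lit 426) (nat_lit 380) (nat_lit 334)) (XT.lf (nat_lit 0) (nat_lit 381348430) (nat_lit 836) (nat_lit 6894494741) (nat_lit 912) (nat_lit 683197441) (nat_lit 298) (nat_lit 5) (nat_lit 309) (nat_lit 5) (nat_lit 310) (nat_lit 5) (nat_lit 427) (nat_lit 380) (nat_lit 333)))) (XT.nd (nat_lit 156) (nat_lit 836) (nat_lit 0) (XT.nd (nat_lit 78) (nat_lit 760) (nat_lit 0) (XT.lf (nat_lit 0)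 (nat_lit 1574970847) (nat_lit 912) (nat_lit 3015274883) (nat_lit 76) (nat_lit 3436027571) (nat_lit 297) (nat_lit 5) (nat_lit 309) (nat_lit 5) (nat_lit 298) (nat_lit 5) (nat_lit 428) (nat_lit 380) (nat_lit 332)) (XT.lf (nat_lit 0) (nat_lit 1615731547) (nat_lit 760) (nat_lit 2225308793) (nat_lit 836) (nat_lit 4254324531) (nat_lit 287) (nat_lit 5) (nat_lit 297) (nat_lit 5) (nat_lit 298) (nat_lit 5) (nat_lit 429) (nat_lit 380) (nat_lit 331))) (XT.nd (nat_lit 78) (nat_lit 836) (nat_lit 0) (XT.lf (nat_lit 0) (nat_lit 6135897120) (nat_lit 836) (nat_lit 1826414329) (nat_lit 76) (nat_lit 203898941) (nat_lit 287) (nat_lit 5) (nat_lit 298) (nat_lit 5) (nat_lit 288) (nat_lit 5) (nat_lit 430) (nat_lit 380) (nat_lit 330)) (XT.lf (nat_lit 0) (nat_lit 231213631) (nat_lit 836) (nat_lit 5335972297) (nat_lit 76) (nat_lit 2671372607) (nat_lit 276) (nat_lit 5) (nat_lit 287) (nat_lit 5) (nat_lit 277) (nat_lit 5) (nat_lit 431)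 (nat_lit 380) (nat_lit 329)))))) (XT.nd (nat_lit 546) (nat_lit 2660) (nat_lit 0) (XT.nd (nat_lit 234) (nat_lit 1444) (nat_lit 0) (XT.nd (nat_lit 78) (nat_lit 1444) (nat_lit 0) (XT.lf (nat_lit 0) (nat_lit 2485976529) (nat_lit 836) (nat_lit 614069423) (nat_lit 76) (nat_lit 5212574501) (nat_lit 276) (nat_lit 5) (nat_lit 287) (nat_lit 5) (nat_lit 277) (nat_lit 5) (nat_lit 432) (nat_lit 380) (nat_lit 328)) (XT.nd (nat_lit 78) (nat_lit 760) (nat_lit 0) (XT.lf (nat_lit 0) (nat_lit 4219018121) (nat_lit 684) (nat_lit 557766650) (nat_lit 760) (nat_lit 3611598117) (nat_lit 267) (nat_lit 5) (nat_lit 276) (nat_lit 5) (nat_lit 277) (nat_lit 5) (nat_lit 433) (nat_lit 380) (nat_lit 327)) (XT.lf (nat_lit 0) (nat_lit 647691047) (nat_lit 760) (nat_lit 6451294091) (nat_lit 836) (nat_lit 1367001443) (nat_lit 257) (nat_lit 5) (nat_lit 267) (nat_lit 5) (nat_lit 268) (nat_lit 5) (nat_lit 434) (nat_lit 380) (nat_lit 326)))) (XT.nd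 (nat_lit 156) (nat_lit 684) (nat_lit 0) (XT.nd (nat_lit 78) (nat_lit 684) (nat_lit 0) (XT.lf (nat_lit 0) (nat_lit 906436159) (nat_lit 836) (nat_lit 2976175850) (nat_lit 76) (nat_lit 4662525673) (nat_lit 256) (nat_lit 5) (nat_lit 267) (nat_lit 5) (nat_lit 257) (nat_lit 5) (nat_lit 435) (nat_lit 380) (nat_lit 325)) (XT.lf (nat_lit 0) (nat_lit 1940626688) (nat_lit 684) (nat_lit 1243920624) (nat_lit 760) (nat_lit 5441628960) (nat_lit 247) (nat_lit 5) (nat_lit 256) (nat_lit 5) (nat_lit 257) (nat_lit 5) (nat_lit 436) (nat_lit 380) (nat_lit 324))) (XT.nd (nat_lit 78) (nat_lit 684) (nat_lit 0) (XT.lf (nat_lit 0) (nat_lit 5503031166) (nat_lit 760) (nat_lit 1760867733) (nat_lit 76) (nat_lit 1445075198) (nat_lit 247) (nat_lit 5) (nat_lit 257) (nat_lit 5) (nat_lit 248) (nat_lit 5) (nat_lit 437) (nat_lit 380) (nat_lit 323)) (XT.lf (nat_lit 0) (nat_lit 3258562409) (nat_lit 684) (nat_lit 4604705239) (nat_lit 760) (nat_lit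 930286562) (nat_lit 238) (nat_lit 5) (nat_lit 247) (nat_lit 5) (nat_lit 248) (nat_lit 5) (nat_lit 438) (nat_lit 380) (nat_lit 322))))) (XT.nd (nat_lit 234) (nat_lit 1292) (nat_lit 0) (XT.nd (nat_lit 78) (nat_lit 1292) (nat_lit 0) (XT.lf (nat_lit 0) (nat_lit 1350689053) (nat_lit 760) (nat_lit 524923171) (nat_lit 76) (nat_lit 7004504807) (nat_lit 237) (nat_lit 5) (nat_lit 247) (nat_lit 5) (nat_lit 238) (nat_lit 5) (nat_lit 439) (nat_lit 380) (nat_lit 321)) (XT.nd (nat_lit 78) (nat_lit 684) (nat_lit 0) (XT.lf (nat_lit 0) (nat_lit 3667639161) (nat_lit 684) (nat_lit 4372671852) (nat_lit 76) (nat_lit 927952911) (nat_lit 229) (nat_lit 5) (nat_lit 238) (nat_lit 5) (nat_lit 230) (nat_lit 5) (nat_lit 440) (nat_lit 380) (nat_lit 320)) (XT.lf (nat_lit 0) (nat_lit 726484342) (nat_lit 684) (nat_lit 5292321578) (nat_lit 760) (nat_lit 3039641685) (nat_lit 220) (nat_lit 5) (nat_lit 229) (nat_lit 5) (nat_lit 230) (nat_lit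 5) (nat_lit 441) (nat_lit 380) (nat_lit 319)))) (XT.nd (nat_lit 156) (nat_lit 608) (nat_lit 0) (XT.nd (nat_lit 78) (nat_lit 684) (nat_lit 0) (XT.lf (nat_lit 0) (nat_lit 5949018409) (nat_lit 684) (nat_lit 2464911585) (nat_lit 760) (nat_lit 736597072) (nat_lit 220) (nat_lit 5) (nat_lit 229) (nat_lit 5) (nat_lit 230) (nat_lit 5) (nat_lit 442) (nat_lit 380) (nat_lit 318)) (XT.lf (nat_lit 0) (nat_lit 1575235991) (nat_lit 684) (nat_lit 7237633013) (nat_lit 76) (nat_lit 431721798) (nat_lit 211) (nat_lit 5) (nat_lit 220) (nat_lit 5) (nat_lit 212) (nat_lit 5) (nat_lit 443) (nat_lit 380) (nat_lit 317))) (XT.nd (nat_lit 78) (nat_lit 608) (nat_lit 0) (XT.lf (nat_lit 0) (nat_lit 3929736377) (nat_lit 684) (nat_lit 2036427072) (nat_lit 76) (nat_lit 3374178124) (nat_lit 211) (nat_lit 5) (nat_lit 220) (nat_lit 5) (nat_lit 212) (nat_lit 5) (nat_lit 444) (nat_lit 380) (nat_lit 316)) (XT.lf (nat_lit 0) (nat_lit 3274525971)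 (nat_lit 608) (nat_lit 3047016560) (nat_lit 684) (nat_lit 3116688955) (nat_lit 203) (nat_lit 5) (nat_lit 211) (nat_lit 5) (nat_lit 212) (nat_lit 5) (nat_lit 445) (nat_lit 380) (nat_lit 315))))))) (XT.nd (nat_lit 1092) (nat_lit 3040) (nat_lit 0) (XT.nd (nat_lit 546) (nat_lit 1976) (nat_lit 0) (XT.nd (nat_lit 234) (nat_lit 1140) (nat_lit 0) (XT.nd (nat_lit 78) (nat_lit 1216) (nat_lit 0) (XT.lf (nat_lit 0) (nat_lit 8682324256) (nat_lit 608) (nat_lit 61850047) (nat_lit 684) (nat_lit 794272988) (nat_lit 203) (nat_lit 5) (nat_lit 211) (nat_lit 5) (nat_lit 212) (nat_lit 5) (nat_lit 446) (nat_lit 380) (nat_lit 314)) (XT.nd (nat_lit 78) (nat_lit 608) (nat_lit 0) (XT.lf (nat_lit 0) (nat_lit 1572905820) (nat_lit 608) (nat_lit 5089442635) (nat_lit 76) (nat_lit 2977761984) (nat_lit 195) (nat_lit 5) (nat_lit 203) (nat_lit 5) (nat_lit 196) (nat_lit 5) (nat_lit 447) (nat_lit 380) (nat_lit 313)) (XT.lf (nat_lit 0) (nat_lit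 294639842) (nat_lit 608) (nat_lit 3660283351) (nat_lit 684) (nat_lit 5789242323) (nat_lit 187) (nat_lit 5) (nat_lit 195) (nat_lit 5) (nat_lit 196) (nat_lit 5) (nat_lit 448) (nat_lit 380) (nat_lit 312)))) (XT.nd (nat_lit 156) (nat_lit 608) (nat_lit 0) (XT.nd (nat_lit 78) (nat_lit 532) (nat_lit 0) (XT.lf (nat_lit 0) (nat_lit 5818612122) (nat_lit 608) (nat_lit 570485454) (nat_lit 684) (nat_lit 3461139547) (nat_lit 187) (nat_lit 5) (nat_lit 195) (nat_lit 5) (nat_lit 196) (nat_lit 5) (nat_lit 449) (nat_lit 380) (nat_lit 311)) (XT.lf (nat_lit 0) (nat_lit 1460408662) (nat_lit 532) (nat_lit 7408686442) (nat_lit 608) (nat_lit 1089417521) (nat_lit 180) (nat_lit 5) (nat_lit 187) (nat_lit 5) (nat_lit 188) (nat_lit 5) (nat_lit 450) (nat_lit 380) (nat_lit 310))) (XT.nd (nat_lit 78) (nat_lit 532) (nat_lit 0) (XT.lf (nat_lit 0) (nat_lit 1314329629) (nat_lit 608) (nat_lit 3000859349) (nat_lit 76) (nat_lit 5753575655)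 (nat_lit 179) (nat_lit 5) (nat_lit 187) (nat_lit 5) (nat_lit 180) (nat_lit 5) (nat_lit 451) (nat_lit 380) (nat_lit 309)) (XT.lf (nat_lit 0) (nat_lit 2597109608) (nat_lit 532) (nat_lit 1142917772) (nat_lit 608) (nat_lit 6441304820) (nat_lit 172) (nat_lit 5) (nat_lit 179) (nat_lit 5) (nat_lit 180) (nat_lit 5) (nat_lit 452) (nat_lit 380) (nat_lit 308))))) (XT.nd (nat_lit 234) (nat_lit 1444) (nat_lit 0) (XT.nd (nat_lit 78) (nat_lit 532) (nat_lit 0) (XT.lf (nat_lit 0) (nat_lit 6219959011) (nat_lit 608) (nat_lit 1998119160) (nat_lit 76) (nat_lit 2077981881) (nat_lit 172) (nat_lit 5) (nat_lit 180) (nat_lit 5) (nat_lit 173) (nat_lit 5) (nat_lit 453) (nat_lit 380) (nat_lit 307)) (XT.nd (nat_lit 78) (nat_lit 76) (nat_lit 0) (XT.lf (nat_lit 0) (nat_lit 3705078181) (nat_lit 456) (nat_lit 5048449029) (nat_lit 532) (nat_lit 1659497370) (nat_lit 166) (nat_lit 5) (nat_lit 172) (nat_lit 5) (nat_lit 173) (nat_lit 5) (nat_lit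 454) (nat_lit 380) (nat_lit 306)) (XT.lf (nat_lit 0) (nat_lit 780893451) (nat_lit 532) (nat_lit 1023758512) (nat_lit 76) (nat_lit 8727873461) (nat_lit 165) (nat_lit 5) (nat_lit 172) (nat_lit 5) (nat_lit 166) (nat_lit 5) (nat_lit 455) (nat_lit 380) (nat_lit 305)))) (XT.nd (nat_lit 156) (nat_lit 912) (nat_lit 0) (XT.nd (nat_lit 78) (nat_lit 0) (nat_lit 0) (XT.lf (nat_lit 0) (nat_lit 3262048587) (nat_lit 608) (nat_lit 5873272120) (nat_lit 76) (nat_lit 1518614205) (nat_lit 158) (nat_lit 5) (nat_lit 166) (nat_lit 5) (nat_lit 159) (nat_lit 5) (nat_lit 456) (nat_lit 380) (nat_lit 304)) (XT.lf (nat_lit 0) (nat_lit 5785002099) (nat_lit 608) (nat_lit 109954181) (nat_lit 76) (nat_lit 4882993938) (nat_lit 158) (nat_lit 5) (nat_lit 166) (nat_lit 5) (nat_lit 159) (nat_lit 5) (nat_lit 457) (nat_lit 380) (nat_lit 303))) (XT.nd (nat_lit 78) (nat_lit 456) (nat_lit 0) (XT.lf (nat_lit 0) (nat_lit 5810152888) (nat_lit 456)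 (nat_lit 2559817003) (nat_lit 532) (nat_lit 2534265554) (nat_lit 152) (nat_lit 5) (nat_lit 158) (nat_lit 5) (nat_lit 159) (nat_lit 5) (nat_lit 458) (nat_lit 380) (nat_lit 302)) (XT.lf (nat_lit 0) (nat_lit 787038705) (nat_lit 456) (nat_lit 10204983653) (nat_lit 532) (nat_lit 41336625) (nat_lit 146) (nat_lit 5) (nat_lit 152) (nat_lit 5) (nat_lit 153) (nat_lit 5) (nat_lit 459) (nat_lit 380) (nat_lit 301)))))) (XT.nd (nat_lit 546) (nat_lit 1596) (nat_lit 0) (XT.nd (nat_lit 234) (nat_lit 912) (nat_lit 0) (XT.nd (nat_lit 78) (nat_lit 456) (nat_lit 0) (XT.lf (nat_lit 0) (nat_lit 2494165988) (nat_lit 532) (nat_lit 4378032810) (nat_lit 76) (nat_lit 4292050454) (nat_lit 145) (nat_lit 5) (nat_lit 152) (nat_lit 5) (nat_lit 146) (nat_lit 5) (nat_lit 460) (nat_lit 380) (nat_lit 300)) (XT.nd (nat_lit 78) (nat_lit 0) (nat_lit 0) (XT.lf (nat_lit 0) (nat_lit 1593872512) (nat_lit 456) (nat_lit 3470967614) (nat_lit 532)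 (nat_lit 6233230577) (nat_lit 139) (nat_lit 5) (nat_lit 145) (nat_lit 5) (nat_lit 146) (nat_lit 5) (nat_lit 461) (nat_lit 380) (nat_lit 299)) (XT.lf (nat_lit 0) (nat_lit 7691372047) (nat_lit 532) (nat_lit 3724215931) (nat_lit 76) (nat_lit 18910485) (nat_lit 139) (nat_lit 5) (nat_lit 146) (nat_lit 5) (nat_lit 140) (nat_lit 5) (nat_lit 462) (nat_lit 380) (nat_lit 298)))) (XT.nd (nat_lit 156) (nat_lit 380) (nat_lit 0) (XT.nd (nat_lit 78) (nat_lit 76) (nat_lit 0) (XT.lf (nat_lit 0) (nat_lit 2349256229) (nat_lit 456) (nat_lit 8034792304) (nat_lit 532) (nat_lit 1189352363) (nat_lit 133) (nat_lit 5) (nat_lit 139) (nat_lit 5) (nat_lit 140) (nat_lit 5) (nat_lit 463) (nat_lit 380) (nat_lit 297)) (XT.lf (nat_lit 0) (nat_lit 1397548928) (nat_lit 532) (nat_lit 3163311532) (nat_lit 76) (nat_lit 7154042472) (nat_lit 132) (nat_lit 5) (nat_lit 139) (nat_lit 5) (nat_lit 133) (nat_lit 5) (nat_lit 464) (nat_lit 380) (nat_lit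 296))) (XT.nd (nat_lit 78) (nat_lit 0) (nat_lit 0) (XT.lf (nat_lit 0) (nat_lit 3017043884) (nat_lit 380) (nat_lit 998762962) (nat_lit 456) (nat_lit 7843377383) (nat_lit 127) (nat_lit 5) (nat_lit 132) (nat_lit 5) (nat_lit 133) (nat_lit 5) (nat_lit 465) (nat_lit 380) (nat_lit 295)) (XT.lf (nat_lit 0) (nat_lit 6701039513) (nat_lit 456) (nat_lit 2692886230) (nat_lit 76) (nat_lit 2612150216) (nat_lit 127) (nat_lit 5) (nat_lit 133) (nat_lit 5) (nat_lit 128) (nat_lit 5) (nat_lit 466) (nat_lit 380) (nat_lit 294))))) (XT.nd (nat_lit 234) (nat_lit 760) (nat_lit 0) (XT.nd (nat_lit 78) (nat_lit 456) (nat_lit 0) (XT.lf (nat_lit 0) (nat_lit 3586839950) (nat_lit 380) (nat_lit 5859643374) (nat_lit 456) (nat_lit 2709308732) (nat_lit 122) (nat_lit 5) (nat_lit 127) (nat_lit 5) (nat_lit 128) (nat_lit 5) (nat_lit 467) (nat_lit 380) (nat_lit 293)) (XT.nd (nat_lit 78) (nat_lit 456) (nat_lit 0) (XT.lf (nat_lit 0) (nat_lit 9995939410)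 (nat_lit 380) (nat_lit 2245817591) (nat_lit 456) (nat_lit 66863393) (nat_lit 122) (nat_lit 5) (nat_lit 127) (nat_lit 5) (nat_lit 128) (nat_lit 5) (nat_lit 468) (nat_lit 380) (nat_lit 292)) (XT.lf (nat_lit 0) (nat_lit 2607116516) (nat_lit 456) (nat_lit 8401023724) (nat_lit 76) (nat_lit 1455776289) (nat_lit 116) (nat_lit 5) (nat_lit 122) (nat_lit 5) (nat_lit 117) (nat_lit 5) (nat_lit 469) (nat_lit 380) (nat_lit 291)))) (XT.nd (nat_lit 156) (nat_lit 380) (nat_lit 0) (XT.nd (nat_lit 78) (nat_lit 380) (nat_lit 0) (XT.lf (nat_lit 0) (nat_lit 5341491889) (nat_lit 456) (nat_lit 2072694147) (nat_lit 76) (nat_lit 5207982883) (nat_lit 116) (nat_lit 5) (nat_lit 122) (nat_lit 5) (nat_lit 117) (nat_lit 5) (nat_lit 470) (nat_lit 380) (nat_lit 290)) (XT.lf (nat_lit 0) (nat_lit 4408059146) (nat_lit 380) (nat_lit 3728875748) (nat_lit 456) (nat_lit 4646538952) (nat_lit 111) (nat_lit 5) (nat_lit 116) (nat_lit 5) (nat_lit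 117) (nat_lit 5) (nat_lit 471) (nat_lit 380) (nat_lit 289))) (XT.nd (nat_lit 78) (nat_lit 380) (nat_lit 0) (XT.lf (nat_lit 0) (nat_lit 10980410272) (nat_lit 456) (nat_lit 1933628001) (nat_lit 76) (nat_lit 34138926) (nat_lit 111) (nat_lit 5) (nat_lit 117) (nat_lit 5) (nat_lit 112) (nat_lit 5) (nat_lit 472) (nat_lit 380) (nat_lit 288)) (XT.lf (nat_lit 0) (nat_lit 787949403) (nat_lit 380) (nat_lit 8479039747) (nat_lit 76) (nat_lit 3848432477) (nat_lit 106) (nat_lit 5) (nat_lit 111) (nat_lit 5) (nat_lit 107) (nat_lit 5) (nat_lit 473) (nat_lit 380) (nat_lit 287))))))))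
noncomputable def xc104 : XT := (XT.nd (nat_lit 2106) (nat_lit 2204) (nat_lit 0) (XT.nd (nat_lit 1014) (nat_lit 1748) (nat_lit 0) (XT.nd (nat_lit 468) (nat_lit 912) (nat_lit 0) (XT.nd (nat_lit 234) (nat_lit 684) (nat_lit 0) (XT.nd (nat_lit 78) (nat_lit 380) (nat_lit 0) (XT.lf (nat_lit 0) (nat_lit 3563942749) (nat_lit 380) (nat_lit 1966466304) (nat_lit 76) (nat_lit 7755525475) (nat_lit 106) (nat_lit 5) (nat_lit 111) (nat_lit 5) (nat_lit 107) (nat_lit 5) (nat_lit 474) (nat_lit 380) (nat_lit 286)) (XT.nd (nat_lit 78) (nat_lit 0) (nat_lit 0) (XT.lf (nat_lit 0) (nat_lit 4707112680) (nat_lit 380) (nat_lit 1697752886) (nat_lit 456) (nat_lit 7054817597) (nat_lit 101) (nat_lit 5) (nat_lit 106) (nat_lit 5) (nat_lit 107) (nat_lit 5) (nat_lit 475) (nat_lit 380) (nat_lit 285)) (XT.lf (nat_lit 0) (nat_lit 9309248092) (nat_lit 456) (nat_lit 2141414919) (nat_lit 76) (nat_lit 2186124337) (nat_lit 101) (nat_lit 5) (nat_lit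 107) (nat_lit 5) (nat_lit 102) (nat_lit 5) (nat_lit 476) (nat_lit 380) (nat_lit 284)))) (XT.nd (nat_lit 78) (nat_lit 380) (nat_lit 0) (XT.lf (nat_lit 0) (nat_lit 4620788520) (nat_lit 304) (nat_lit 7671585099) (nat_lit 380) (nat_lit 1524660030) (nat_lit 97) (nat_lit 5) (nat_lit 101) (nat_lit 5) (nat_lit 102) (nat_lit 5) (nat_lit 477) (nat_lit 380) (nat_lit 283)) (XT.nd (nat_lit 78) (nat_lit 304) (nat_lit 0) (XT.lf (nat_lit 0) (nat_lit 1310712489) (nat_lit 380) (nat_lit 2492711072) (nat_lit 76) (nat_lit 10197421984) (nat_lit 96) (nat_lit 5) (nat_lit 101) (nat_lit 5) (nat_lit 97) (nat_lit 5) (nat_lit 478) (nat_lit 380) (nat_lit 282)) (XT.lf (nat_lit 0) (nat_lit 4191702429) (nat_lit 380) (nat_lit 9827106782) (nat_lit 76) (nat_lit 169148786) (nat_lit 92) (nat_lit 5) (nat_lit 97) (nat_lit 5) (nat_lit 93) (nat_lit 5) (nat_lit 479) (nat_lit 380) (nat_lit 281))))) (XT.nd (nat_lit 234) (nat_lit 608) (nat_lit 0)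 (XT.nd (nat_lit 78) (nat_lit 304) (nat_lit 0) (XT.lf (nat_lit 0) (nat_lit 7152347739) (nat_lit 380) (nat_lit 3048670520) (nat_lit 76) (nat_lit 4177365865) (nat_lit 92) (nat_lit 5) (nat_lit 97) (nat_lit 5) (nat_lit 93) (nat_lit 5) (nat_lit 480) (nat_lit 380) (nat_lit 280)) (XT.nd (nat_lit 78) (nat_lit 0) (nat_lit 0) (XT.lf (nat_lit 0) (nat_lit 3886733736) (nat_lit 304) (nat_lit 6291108604) (nat_lit 380) (nat_lit 4394675606) (nat_lit 88) (nat_lit 5) (nat_lit 92) (nat_lit 5) (nat_lit 93) (nat_lit 5) (nat_lit 481) (nat_lit 380) (nat_lit 279)) (XT.lf (nat_lit 0) (nat_lit 10972790246) (nat_lit 304) (nat_lit 2292109433) (nat_lit 380) (nat_lit 1505625377) (nat_lit 88) (nat_lit 5) (nat_lit 92) (nat_lit 5) (nat_lit 93) (nat_lit 5) (nat_lit 482) (nat_lit 380) (nat_lit 278)))) (XT.nd (nat_lit 156) (nat_lit 228) (nat_lit 0) (XT.nd (nat_lit 78) (nat_lit 0) (nat_lit 0) (XT.lf (nat_lit 0) (nat_lit 1435864726) (nat_lit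 380) (nat_lit 11751982157) (nat_lit 76) (nat_lit 1784198282) (nat_lit 83) (nat_lit 5) (nat_lit 88) (nat_lit 5) (nat_lit 84) (nat_lit 5) (nat_lit 483) (nat_lit 380) (nat_lit 277)) (XT.lf (nat_lit 0) (nat_lit 4437838041) (nat_lit 380) (nat_lit 4801915261) (nat_lit 76) (nat_lit 5937218050) (nat_lit 83) (nat_lit 5) (nat_lit 88) (nat_lit 5) (nat_lit 84) (nat_lit 5) (nat_lit 484) (nat_lit 380) (nat_lit 276))) (XT.nd (nat_lit 78) (nat_lit 0) (nat_lit 0) (XT.lf (nat_lit 0) (nat_lit 2288534150) (nat_lit 228) (nat_lit 5207510434) (nat_lit 304) (nat_lit 7890038383) (nat_lit 80) (nat_lit 5) (nat_lit 83) (nat_lit 5) (nat_lit 84) (nat_lit 5) (nat_lit 485) (nat_lit 380) (nat_lit 275)) (XT.lf (nat_lit 0) (nat_lit 9557438794) (nat_lit 228) (nat_lit 1071716217) (nat_lit 304) (nat_lit 4969957575) (nat_lit 80) (nat_lit 5) (nat_lit 83) (nat_lit 5) (nat_lit 84) (nat_lit 5) (nat_lit 486) (nat_lit 380) (nat_lit 274)))))) (XT.nd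 (nat_lit 546) (nat_lit 760) (nat_lit 0) (XT.nd (nat_lit 234) (nat_lit 608) (nat_lit 0) (XT.nd (nat_lit 78) (nat_lit 76) (nat_lit 0) (XT.lf (nat_lit 0) (nat_lit 1121398388) (nat_lit 304) (nat_lit 12713056586) (nat_lit 380) (nat_lit 1981767636) (nat_lit 76) (nat_lit 5) (nat_lit 80) (nat_lit 5) (nat_lit 81) (nat_lit 5) (nat_lit 487) (nat_lit 380) (nat_lit 273)) (XT.nd (nat_lit 78) (nat_lit 0) (nat_lit 0) (XT.lf (nat_lit 0) (nat_lit 1081972433) (nat_lit 380) (nat_lit 7569785956) (nat_lit 76) (nat_lit 7385192565) (nat_lit 75) (nat_lit 5) (nat_lit 80) (nat_lit 5) (nat_lit 76) (nat_lit 5) (nat_lit 488) (nat_lit 380) (nat_lit 272)) (XT.lf (nat_lit 0) (nat_lit 4162692703) (nat_lit 380) (nat_lit 343079181) (nat_lit 76) (nat_lit 11756424929) (nat_lit 75) (nat_lit 5) (nat_lit 80) (nat_lit 5) (nat_lit 76) (nat_lit 5) (nat_lit 489) (nat_lit 380) (nat_lit 271)))) (XT.nd (nat_lit 156) (nat_lit 380) (nat_lit 0) (XT.nd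 (nat_lit 78) (nat_lit 0) (nat_lit 0) (XT.lf (nat_lit 0) (nat_lit 7094036621) (nat_lit 228) (nat_lit 239615106) (nat_lit 304) (nat_lit 9157732945) (nat_lit 72) (nat_lit 5) (nat_lit 75) (nat_lit 5) (nat_lit 76) (nat_lit 5) (nat_lit 490) (nat_lit 380) (nat_lit 270)) (XT.lf (nat_lit 0) (nat_lit 10579713089) (nat_lit 304) (nat_lit 2094554788) (nat_lit 76) (nat_lit 4050664132) (nat_lit 72) (nat_lit 5) (nat_lit 76) (nat_lit 5) (nat_lit 73) (nat_lit 5) (nat_lit 491) (nat_lit 380) (nat_lit 269))) (XT.nd (nat_lit 78) (nat_lit 76) (nat_lit 0) (XT.lf (nat_lit 0) (nat_lit 5396743995) (nat_lit 304) (nat_lit 8513586321) (nat_lit 380) (nat_lit 3052436483) (nat_lit 68) (nat_lit 5) (nat_lit 72) (nat_lit 5) (nat_lit 73) (nat_lit 5) (nat_lit 492) (nat_lit 380) (nat_lit 268)) (XT.lf (nat_lit 0) (nat_lit 98058714) (nat_lit 380) (nat_lit 4166373754) (nat_lit 76) (nat_lit 12940977439) (nat_lit 67) (nat_lit 5) (nat_lit 72) (nat_lit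 5) (nat_lit 68) (nat_lit 5) (nat_lit 493) (nat_lit 380) (nat_lit 267))))) (XT.nd (nat_lit 234) (nat_lit 304) (nat_lit 0) (XT.nd (nat_lit 78) (nat_lit 228) (nat_lit 0) (XT.lf (nat_lit 0) (nat_lit 3276719495) (nat_lit 304) (nat_lit 14073977386) (nat_lit 76) (nat_lit 101693575) (nat_lit 64) (nat_lit 5) (nat_lit 68) (nat_lit 5) (nat_lit 65) (nat_lit 5) (nat_lit 494) (nat_lit 380) (nat_lit 266)) (XT.nd (nat_lit 78) (nat_lit 228) (nat_lit 0) (XT.lf (nat_lit 0) (nat_lit 6558813507) (nat_lit 304) (nat_lit 6627983667) (nat_lit 76) (nat_lit 4516724742) (nat_lit 64) (nat_lit 5) (nat_lit 68) (nat_lit 5) (nat_lit 65) (nat_lit 5) (nat_lit 495) (nat_lit 380) (nat_lit 265)) (XT.lf (nat_lit 0) (nat_lit 953575739) (nat_lit 228) (nat_lit 8942963949) (nat_lit 304) (nat_lit 8063344842) (nat_lit 61) (nat_lit 5) (nat_lit 64) (nat_lit 5) (nat_lit 65) (nat_lit 5) (nat_lit 496) (nat_lit 380) (nat_lit 264)))) (XT.nd (nat_lit 156)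 (nat_lit 304) (nat_lit 0) (XT.nd (nat_lit 78) (nat_lit 0) (nat_lit 0) (XT.lf (nat_lit 0) (nat_lit 8750920027) (nat_lit 228) (nat_lit 4578527536) (nat_lit 304) (nat_lit 4891366460) (nat_lit 61) (nat_lit 5) (nat_lit 64) (nat_lit 5) (nat_lit 65) (nat_lit 5) (nat_lit 497) (nat_lit 380) (nat_lit 263)) (XT.lf (nat_lit 0) (nat_lit 16679024563) (nat_lit 228) (nat_lit 136253650) (nat_lit 304) (nat_lit 1672006609) (nat_lit 61) (nat_lit 5) (nat_lit 64) (nat_lit 5) (nat_lit 65) (nat_lit 5) (nat_lit 498) (nat_lit 380) (nat_lit 262))) (XT.nd (nat_lit 78) (nat_lit 0) (nat_lit 0) (XT.lf (nat_lit 0) (nat_lit 1643152862) (nat_lit 304) (nat_lit 12736622224) (nat_lit 76) (nat_lit 4378057345) (nat_lit 57) (nat_lit 5) (nat_lit 61) (nat_lit 5) (nat_lit 58) (nat_lit 5) (nat_lit 499) (nat_lit 380) (nat_lit 261)) (XT.lf (nat_lit 0) (nat_lit 4999911889) (nat_lit 304) (nat_lit 5038820157) (nat_lit 76) (nat_lit 8994891762) (nat_lit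 57) (nat_lit 5) (nat_lit 61) (nat_lit 5) (nat_lit 58) (nat_lit 5) (nat_lit 500) (nat_lit 380) (nat_lit 260))))))) (XT.nd (nat_lit 1014) (nat_lit 988) (nat_lit 0) (XT.nd (nat_lit 468) (nat_lit 456) (nat_lit 0) (XT.nd (nat_lit 234) (nat_lit 532) (nat_lit 0) (XT.nd (nat_lit 78) (nat_lit 0) (nat_lit 0) (XT.lf (nat_lit 0) (nat_lit 2825487088) (nat_lit 228) (nat_lit 5601513481) (nat_lit 304) (nat_lit 10887873954) (nat_lit 54) (nat_lit 5) (nat_lit 57) (nat_lit 5) (nat_lit 58) (nat_lit 5) (nat_lit 501) (nat_lit 380) (nat_lit 259)) (XT.nd (nat_lit 78) (nat_lit 0) (nat_lit 0) (XT.lf (nat_lit 0) (nat_lit 10891036613) (nat_lit 228) (nat_lit 1050396076) (nat_lit 304) (nat_lit 7659948783) (nat_lit 54) (nat_lit 5) (nat_lit 57) (nat_lit 5) (nat_lit 58) (nat_lit 5) (nat_lit 502) (nat_lit 380) (nat_lit 258)) (XT.lf (nat_lit 0) (nat_lit 15534696888) (nat_lit 304) (nat_lit 823152467) (nat_lit 76) (nat_lit 3535605448) (nat_lit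 54) (nat_lit 5) (nat_lit 58) (nat_lit 5) (nat_lit 55) (nat_lit 5) (nat_lit 503) (nat_lit 380) (nat_lit 257)))) (XT.nd (nat_lit 78) (nat_lit 304) (nat_lit 0) (XT.lf (nat_lit 0) (nat_lit 7286756340) (nat_lit 228) (nat_lit 11952849941) (nat_lit 304) (nat_lit 950974693) (nat_lit 51) (nat_lit 5) (nat_lit 54) (nat_lit 5) (nat_lit 55) (nat_lit 5) (nat_lit 504) (nat_lit 380) (nat_lit 256)) (XT.nd (nat_lit 78) (nat_lit 228) (nat_lit 0) (XT.lf (nat_lit 0) (nat_lit 2482952166) (nat_lit 304) (nat_lit 4963629744) (nat_lit 76) (nat_lit 13046924518) (nat_lit 50) (nat_lit 5) (nat_lit 54) (nat_lit 5) (nat_lit 51) (nat_lit 5) (nat_lit 505) (nat_lit 380) (nat_lit 255)) (XT.lf (nat_lit 0) (nat_lit 3147129107) (nat_lit 228) (nat_lit 2831966494) (nat_lit 304) (nat_lit 14823150210) (nat_lit 47) (nat_lit 5) (nat_lit 50) (nat_lit 5) (nat_lit 51) (nat_lit 5) (nat_lit 506) (nat_lit 380) (nat_lit 254))))) (XT.nd (nat_lit 234) (nat_lit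 304) (nat_lit 0) (XT.nd (nat_lit 78) (nat_lit 152) (nat_lit 0) (XT.lf (nat_lit 0) (nat_lit 9576760464) (nat_lit 304) (nat_lit 9664794616) (nat_lit 76) (nat_lit 1874979371) (nat_lit 47) (nat_lit 5) (nat_lit 51) (nat_lit 5) (nat_lit 48) (nat_lit 5) (nat_lit 507) (nat_lit 380) (nat_lit 253)) (XT.nd (nat_lit 78) (nat_lit 152) (nat_lit 0) (XT.lf (nat_lit 0) (nat_lit 13251305959) (nat_lit 304) (nat_lit 1556257400) (nat_lit 76) (nat_lit 6629453274) (nat_lit 47) (nat_lit 5) (nat_lit 51) (nat_lit 5) (nat_lit 48) (nat_lit 5) (nat_lit 508) (nat_lit 380) (nat_lit 252)) (XT.lf (nat_lit 0) (nat_lit 6780995746) (nat_lit 152) (nat_lit 10248817055) (nat_lit 228) (nat_lit 4733492438) (nat_lit 45) (nat_lit 5) (nat_lit 47) (nat_lit 5) (nat_lit 48) (nat_lit 5) (nat_lit 509) (nat_lit 380) (nat_lit 251)))) (XT.nd (nat_lit 156) (nat_lit 0) (nat_lit 0) (XT.nd (nat_lit 78) (nat_lit 304) (nat_lit 0) (XT.lf (nat_lit 0) (nat_lit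 15283847936) (nat_lit 152) (nat_lit 5597050270) (nat_lit 228) (nat_lit 1215287314) (nat_lit 45) (nat_lit 5) (nat_lit 47) (nat_lit 5) (nat_lit 48) (nat_lit 5) (nat_lit 510) (nat_lit 380) (nat_lit 250)) (XT.lf (nat_lit 0) (nat_lit 1503354098) (nat_lit 228) (nat_lit 835298013) (nat_lit 304) (nat_lit 20096839025) (nat_lit 41) (nat_lit 5) (nat_lit 44) (nat_lit 5) (nat_lit 45) (nat_lit 5) (nat_lit 511) (nat_lit 380) (nat_lit 249))) (XT.nd (nat_lit 78) (nat_lit 0) (nat_lit 0) (XT.lf (nat_lit 0) (nat_lit 6006338684) (nat_lit 304) (nat_lit 12759483444) (nat_lit 76) (nat_lit 4014426975) (nat_lit 41) (nat_lit 5) (nat_lit 45) (nat_lit 5) (nat_lit 42) (nat_lit 5) (nat_lit 512) (nat_lit 380) (nat_lit 248)) (XT.lf (nat_lit 0) (nat_lit 9739966895) (nat_lit 304) (nat_lit 4450531130) (nat_lit 76) (nat_lit 8941558053) (nat_lit 41) (nat_lit 5) (nat_lit 45) (nat_lit 5) (nat_lit 42) (nat_lit 5) (nat_lit 513) (nat_lit 380)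 (nat_lit 247)))))) (XT.nd (nat_lit 546) (nat_lit 380) (nat_lit 0) (XT.nd (nat_lit 234) (nat_lit 456) (nat_lit 0) (XT.nd (nat_lit 78) (nat_lit 0) (nat_lit 0) (XT.lf (nat_lit 0) (nat_lit 4056604724) (nat_lit 152) (nat_lit 9505311047) (nat_lit 228) (nat_lit 9928715957) (nat_lit 39) (nat_lit 5) (nat_lit 41) (nat_lit 5) (nat_lit 42) (nat_lit 5) (nat_lit 514) (nat_lit 380) (nat_lit 246)) (XT.nd (nat_lit 78) (nat_lit 0) (nat_lit 0) (XT.lf (nat_lit 0) (nat_lit 12773152274) (nat_lit 152) (nat_lit 4704438785) (nat_lit 228) (nat_lit 6378447472) (nat_lit 39) (nat_lit 5) (nat_lit 41) (nat_lit 5) (nat_lit 42) (nat_lit 5) (nat_lit 515) (nat_lit 380) (nat_lit 245)) (XT.lf (nat_lit 0) (nat_lit 21460444041) (nat_lit 228) (nat_lit 2586816358) (nat_lit 76) (nat_lit 181721072) (nat_lit 39) (nat_lit 5) (nat_lit 42) (nat_lit 5) (nat_lit 40) (nat_lit 5) (nat_lit 516) (nat_lit 380) (nat_lit 244)))) (XT.nd (nat_lit 156) (nat_lit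 152) (nat_lit 0) (XT.nd (nat_lit 78) (nat_lit 0) (nat_lit 0) (XT.lf (nat_lit 0) (nat_lit 960640484) (nat_lit 304) (nat_lit 18506847391) (nat_lit 76) (nat_lit 5140600816) (nat_lit 35) (nat_lit 5) (nat_lit 39) (nat_lit 5) (nat_lit 36) (nat_lit 5) (nat_lit 517) (nat_lit 380) (nat_lit 243)) (XT.lf (nat_lit 0) (nat_lit 4732718831) (nat_lit 304) (nat_lit 10035222484) (nat_lit 76) (nat_lit 10226367969) (nat_lit 35) (nat_lit 5) (nat_lit 39) (nat_lit 5) (nat_lit 36) (nat_lit 5) (nat_lit 518) (nat_lit 380) (nat_lit 242))) (XT.nd (nat_lit 78) (nat_lit 152) (nat_lit 0) (XT.lf (nat_lit 0) (nat_lit 8568355487) (nat_lit 304) (nat_lit 1414230814) (nat_lit 76) (nat_lit 15405910534) (nat_lit 35) (nat_lit 5) (nat_lit 39) (nat_lit 5) (nat_lit 36) (nat_lit 5) (nat_lit 519) (nat_lit 380) (nat_lit 241)) (XT.lf (nat_lit 0) (nat_lit 7457312393) (nat_lit 152) (nat_lit 5060160048) (nat_lit 228) (nat_lit 13272365130) (nat_lit 33)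 (nat_lit 5) (nat_lit 35) (nat_lit 5) (nat_lit 36) (nat_lit 5) (nat_lit 520) (nat_lit 380) (nat_lit 240))))) (XT.nd (nat_lit 234) (nat_lit 228) (nat_lit 0) (XT.nd (nat_lit 78) (nat_lit 152) (nat_lit 0) (XT.lf (nat_lit 0) (nat_lit 16505913869) (nat_lit 152) (nat_lit 37599397) (nat_lit 228) (nat_lit 9655737717) (nat_lit 33) (nat_lit 5) (nat_lit 35) (nat_lit 5) (nat_lit 36) (nat_lit 5) (nat_lit 521) (nat_lit 380) (nat_lit 239)) (XT.nd (nat_lit 78) (nat_lit 152) (nat_lit 0) (XT.lf (nat_lit 0) (nat_lit 20671719636) (nat_lit 228) (nat_lit 933722993) (nat_lit 76) (nat_lit 5010981740) (nat_lit 33) (nat_lit 5) (nat_lit 36) (nat_lit 5) (nat_lit 34) (nat_lit 5) (nat_lit 522) (nat_lit 380) (nat_lit 238)) (XT.lf (nat_lit 0) (nat_lit 8087948689) (nat_lit 152) (nat_lit 16836152634) (nat_lit 228) (nat_lit 2117012184) (nat_lit 31) (nat_lit 5) (nat_lit 33) (nat_lit 5) (nat_lit 34) (nat_lit 5) (nat_lit 523) (nat_lit 380)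 (nat_lit 237)))) (XT.nd (nat_lit 156) (nat_lit 152) (nat_lit 0) (XT.nd (nat_lit 78) (nat_lit 0) (nat_lit 0) (XT.lf (nat_lit 0) (nat_lit 1758970213) (nat_lit 228) (nat_lit 10202093997) (nat_lit 76) (nat_lit 15513100959) (nat_lit 30) (nat_lit 5) (nat_lit 33) (nat_lit 5) (nat_lit 31) (nat_lit 5) (nat_lit 524) (nat_lit 380) (nat_lit 236)) (XT.lf (nat_lit 0) (nat_lit 5673238853) (nat_lit 228) (nat_lit 1308637534) (nat_lit 76) (nat_lit 20933943588) (nat_lit 30) (nat_lit 5) (nat_lit 33) (nat_lit 5) (nat_lit 31) (nat_lit 5) (nat_lit 525) (nat_lit 380) (nat_lit 235))) (XT.nd (nat_lit 48048) (nat_lit 0) (nat_lit 43624) (XT.lf (nat_lit 0) (nat_lit 7847356741) (nat_lit 152) (nat_lit 1858687243) (nat_lit 228) (nat_lit 18659463037) (nat_lit 28) (nat_lit 5) (nat_lit 30) (nat_lit 5) (nat_lit 31) (nat_lit 5) (nat_lit 526) (nat_lit 380) (nat_lit 234)) (XT.lf (nat_lit 0) (nat_lit 1446561689) (nat_lit 0) (nat_lit 1446561689)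 (nat_lit 76) (nat_lit 328978875) (nat_lit 602) (nat_lit 5) (nat_lit 602) (nat_lit 3) (nat_lit 603) (nat_lit 0) (nat_lit 381) (nat_lit 381) (nat_lit 378))))))))
noncomputable def xc105 : XT := (XT.nd (nat_lit 2106) (nat_lit 17480) (nat_lit 0) (XT.nd (nat_lit 1014) (nat_lit 6764) (nat_lit 0) (XT.nd (nat_lit 468) (nat_lit 1292) (nat_lit 0) (XT.nd (nat_lit 234) (nat_lit 304) (nat_lit 0) (XT.nd (nat_lit 78) (nat_lit 228) (nat_lit 0) (XT.lf (nat_lit 0) (nat_lit 2167094904) (nat_lit 228) (nat_lit 615023469) (nat_lit 228) (nat_lit 3664763782) (nat_lit 599) (nat_lit 3) (nat_lit 602) (nat_lit 3) (nat_lit 602) (nat_lit 5) (nat_lit 382) (nat_lit 381) (nat_lit 377)) (XT.nd (nat_lit 78) (nat_lit 228) (nat_lit 0) (XT.lf (nat_lit 76) (nat_lit 2368628756) (nat_lit 0) (nat_lit 2612550625) (nat_lit 228) (nat_lit 1469661618) (nat_lit 600) (nat_lit 5) (nat_lit 599) (nat_lit 3) (nat_lit 602) (nat_lit 5) (nat_lit 383) (nat_lit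 381) (nat_lit 376)) (XT.lf (nat_lit 0) (nat_lit 1309045969) (nat_lit 228) (nat_lit 1082298559) (nat_lit 304) (nat_lit 4064875143) (nat_lit 596) (nat_lit 5) (nat_lit 599) (nat_lit 3) (nat_lit 600) (nat_lit 5) (nat_lit 384) (nat_lit 381) (nat_lit 375)))) (XT.nd (nat_lit 78) (nat_lit 304) (nat_lit 0) (XT.lf (nat_lit 76) (nat_lit 1955589728) (nat_lit 0) (nat_lit 2108757445) (nat_lit 304) (nat_lit 2398483773) (nat_lit 597) (nat_lit 5) (nat_lit 596) (nat_lit 5) (nat_lit 600) (nat_lit 5) (nat_lit 385) (nat_lit 381) (nat_lit 374)) (XT.nd (nat_lit 78) (nat_lit 0) (nat_lit 0) (XT.lf (nat_lit 0) (nat_lit 335728928) (nat_lit 304) (nat_lit 1441968102) (nat_lit 380) (nat_lit 4693235653) (nat_lit 592) (nat_lit 5) (nat_lit 596) (nat_lit 5) (nat_lit 597) (nat_lit 5) (nat_lit 386) (nat_lit 381) (nat_lit 373)) (XT.lf (nat_lit 76) (nat_lit 1652391278) (nat_lit 0) (nat_lit 1380830379) (nat_lit 380) (nat_lit 3446969088) (nat_lit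 593) (nat_lit 5) (nat_lit 592) (nat_lit 5) (nat_lit 597) (nat_lit 5) (nat_lit 387) (nat_lit 381) (nat_lit 372))))) (XT.nd (nat_lit 234) (nat_lit 912) (nat_lit 0) (XT.nd (nat_lit 78) (nat_lit 380) (nat_lit 0) (XT.lf (nat_lit 76) (nat_lit 4790427540) (nat_lit 0) (nat_lit 934994424) (nat_lit 380) (nat_lit 765519983) (nat_lit 593) (nat_lit 5) (nat_lit 592) (nat_lit 5) (nat_lit 597) (nat_lit 5) (nat_lit 388) (nat_lit 381) (nat_lit 371)) (XT.nd (nat_lit 78) (nat_lit 0) (nat_lit 76) (XT.lf (nat_lit 76) (nat_lit 1457605374) (nat_lit 0) (nat_lit 427451463) (nat_lit 456) (nat_lit 4617887340) (nat_lit 588) (nat_lit 5) (nat_lit 587) (nat_lit 5) (nat_lit 593) (nat_lit 5) (nat_lit 389) (nat_lit 381) (nat_lit 370)) (XT.lf (nat_lit 0) (nat_lit 4523623934) (nat_lit 380) (nat_lit 1858187531) (nat_lit 76) (nat_lit 134485237) (nat_lit 588) (nat_lit 5) (nat_lit 593) (nat_lit 5) (nat_lit 589) (nat_lit 5) (nat_lit 390) (nat_lit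 381) (nat_lit 369)))) (XT.nd (nat_lit 156) (nat_lit 532) (nat_lit 0) (XT.nd (nat_lit 78) (nat_lit 0) (nat_lit 0) (XT.lf (nat_lit 0) (nat_lit 621770736) (nat_lit 456) (nat_lit 5166027568) (nat_lit 76) (nat_lit 743226363) (nat_lit 582) (nat_lit 5) (nat_lit 588) (nat_lit 5) (nat_lit 583) (nat_lit 5) (nat_lit 391) (nat_lit 381) (nat_lit 368)) (XT.lf (nat_lit 0) (nat_lit 3209354158) (nat_lit 456) (nat_lit 1920625979) (nat_lit 76) (nat_lit 1416962303) (nat_lit 582) (nat_lit 5) (nat_lit 588) (nat_lit 5) (nat_lit 583) (nat_lit 5) (nat_lit 392) (nat_lit 381) (nat_lit 367))) (XT.nd (nat_lit 78) (nat_lit 76) (nat_lit 0) (XT.lf (nat_lit 0) (nat_lit 1369028166) (nat_lit 456) (nat_lit 4424781089) (nat_lit 532) (nat_lit 770574110) (nat_lit 576) (nat_lit 5) (nat_lit 582) (nat_lit 5) (nat_lit 583) (nat_lit 5) (nat_lit 393) (nat_lit 381) (nat_lit 366)) (XT.lf (nat_lit 0) (nat_lit 1773233444) (nat_lit 532) (nat_lit 1882788313)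 (nat_lit 76) (nat_lit 2927020705) (nat_lit 575) (nat_lit 5) (nat_lit 582) (nat_lit 5) (nat_lit 576) (nat_lit 5) (nat_lit 394) (nat_lit 381) (nat_lit 365)))))) (XT.nd (nat_lit 546) (nat_lit 4028) (nat_lit 0) (XT.nd (nat_lit 234) (nat_lit 1520) (nat_lit 0) (XT.nd (nat_lit 78) (nat_lit 684) (nat_lit 0) (XT.lf (nat_lit 0) (nat_lit 1471698372) (nat_lit 532) (nat_lit 2833419899) (nat_lit 608) (nat_lit 2298005230) (nat_lit 568) (nat_lit 5) (nat_lit 575) (nat_lit 5) (nat_lit 576) (nat_lit 5) (nat_lit 395) (nat_lit 381) (nat_lit 364)) (XT.nd (nat_lit 78) (nat_lit 608) (nat_lit 0) (XT.lf (nat_lit 0) (nat_lit 211710009) (nat_lit 608) (nat_lit 1745546908) (nat_lit 76) (nat_lit 4667389285) (nat_lit 567) (nat_lit 5) (nat_lit 575) (nat_lit 5) (nat_lit 568) (nat_lit 5) (nat_lit 396) (nat_lit 381) (nat_lit 363)) (XT.lf (nat_lit 0) (nat_lit 1676393007) (nat_lit 608) (nat_lit 1014996791) (nat_lit 684) (nat_lit 3955990140)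 (nat_lit 559) (nat_lit 5) (nat_lit 567) (nat_lit 5) (nat_lit 568) (nat_lit 5) (nat_lit 397) (nat_lit 381) (nat_lit 362)))) (XT.nd (nat_lit 156) (nat_lit 760) (nat_lit 0) (XT.nd (nat_lit 78) (nat_lit 760) (nat_lit 0) (XT.lf (nat_lit 0) (nat_lit 5152262368) (nat_lit 608) (nat_lit 20677814) (nat_lit 684) (nat_lit 1498675947) (nat_lit 559) (nat_lit 5) (nat_lit 567) (nat_lit 5) (nat_lit 568) (nat_lit 5) (nat_lit 398) (nat_lit 381) (nat_lit 361)) (XT.lf (nat_lit 0) (nat_lit 955403517) (nat_lit 760) (nat_lit 4721448683) (nat_lit 76) (nat_lit 1020226951) (nat_lit 549) (nat_lit 5) (nat_lit 559) (nat_lit 5) (nat_lit 550) (nat_lit 5) (nat_lit 399) (nat_lit 381) (nat_lit 360))) (XT.nd (nat_lit 78) (nat_lit 760) (nat_lit 0) (XT.lf (nat_lit 0) (nat_lit 3391202361) (nat_lit 760) (nat_lit 1211281464) (nat_lit 76) (nat_lit 2121403322) (nat_lit 549) (nat_lit 5) (nat_lit 559) (nat_lit 5) (nat_lit 550) (nat_lit 5) (nat_lit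 400) (nat_lit 381) (nat_lit 359)) (XT.lf (nat_lit 0) (nat_lit 2361418248) (nat_lit 760) (nat_lit 3473048648) (nat_lit 836) (nat_lit 917675627) (nat_lit 539) (nat_lit 5) (nat_lit 549) (nat_lit 5) (nat_lit 550) (nat_lit 5) (nat_lit 401) (nat_lit 381) (nat_lit 358))))) (XT.nd (nat_lit 234) (nat_lit 3116) (nat_lit 0) (XT.nd (nat_lit 78) (nat_lit 836) (nat_lit 0) (XT.lf (nat_lit 0) (nat_lit 1477370224) (nat_lit 836) (nat_lit 808114805) (nat_lit 76) (nat_lit 4496319982) (nat_lit 538) (nat_lit 5) (nat_lit 549) (nat_lit 5) (nat_lit 539) (nat_lit 5) (nat_lit 402) (nat_lit 381) (nat_lit 357)) (XT.nd (nat_lit 78) (nat_lit 0) (nat_lit 0) (XT.lf (nat_lit 0) (nat_lit 2838854113) (nat_lit 836) (nat_lit 1032545479) (nat_lit 912) (nat_lit 2941353677) (nat_lit 527) (nat_lit 5) (nat_lit 538) (nat_lit 5) (nat_lit 539) (nat_lit 5) (nat_lit 403) (nat_lit 381) (nat_lit 356)) (XT.lf (nat_lit 0) (nat_lit 6266225106) (nat_lit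 912) (nat_lit 315588181) (nat_lit 76) (nat_lit 263528540) (nat_lit 527) (nat_lit 5) (nat_lit 539) (nat_lit 5) (nat_lit 528) (nat_lit 5) (nat_lit 404) (nat_lit 381) (nat_lit 355)))) (XT.nd (nat_lit 156) (nat_lit 1140) (nat_lit 0) (XT.nd (nat_lit 78) (nat_lit 988) (nat_lit 0) (XT.lf (nat_lit 0) (nat_lit 1782059094) (nat_lit 988) (nat_lit 3475713726) (nat_lit 76) (nat_lit 1621134222) (nat_lit 514) (nat_lit 5) (nat_lit 527) (nat_lit 5) (nat_lit 515) (nat_lit 5) (nat_lit 405) (nat_lit 381) (nat_lit 354)) (XT.lf (nat_lit 0) (nat_lit 247716352) (nat_lit 988) (nat_lit 3886029055) (nat_lit 1064) (nat_lit 2780375821) (nat_lit 501) (nat_lit 5) (nat_lit 514) (nat_lit 5) (nat_lit 515) (nat_lit 5) (nat_lit 406) (nat_lit 381) (nat_lit 353))) (XT.nd (nat_lit 78) (nat_lit 1140) (nat_lit 0) (XT.lf (nat_lit 0) (nat_lit 4053776833) (nat_lit 988) (nat_lit 2450087008) (nat_lit 1064) (nat_lit 446821473) (nat_lit 501) (nat_lit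 5) (nat_lit 514) (nat_lit 5) (nat_lit 515) (nat_lit 5) (nat_lit 407) (nat_lit 381) (nat_lit 352)) (XT.lf (nat_lit 0) (nat_lit 908397371) (nat_lit 1064) (nat_lit 954231910) (nat_lit 1140) (nat_lit 5126079421) (nat_lit 486) (nat_lit 5) (nat_lit 500) (nat_lit 5) (nat_lit 501) (nat_lit 5) (nat_lit 408) (nat_lit 381) (nat_lit 351))))))) (XT.nd (nat_lit 1092) (nat_lit 7600) (nat_lit 0) (XT.nd (nat_lit 546) (nat_lit 4712) (nat_lit 0) (XT.nd (nat_lit 234) (nat_lit 3952) (nat_lit 0) (XT.nd (nat_lit 78) (nat_lit 1216) (nat_lit 0) (XT.lf (nat_lit 0) (nat_lit 4185087512) (nat_lit 1140) (nat_lit 2244667494) (nat_lit 76) (nat_lit 598291794) (nat_lit 486) (nat_lit 5) (nat_lit 501) (nat_lit 5) (nat_lit 487) (nat_lit 5) (nat_lit 409) (nat_lit 381) (nat_lit 350)) (XT.nd (nat_lit 78) (nat_lit 76) (nat_lit 0) (XT.lf (nat_lit 0) (nat_lit 1643867870) (nat_lit 1140) (nat_lit 4877625873) (nat_lit 1216) (nat_lit 547395919) (nat_lit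 471) (nat_lit 5) (nat_lit 486) (nat_lit 5) (nat_lit 487) (nat_lit 5) (nat_lit 410) (nat_lit 381) (nat_lit 349)) (XT.lf (nat_lit 0) (nat_lit 1736547778) (nat_lit 1216) (nat_lit 1520918501) (nat_lit 76) (nat_lit 3853595500) (nat_lit 470) (nat_lit 5) (nat_lit 486) (nat_lit 5) (nat_lit 471) (nat_lit 5) (nat_lit 411) (nat_lit 381) (nat_lit 348)))) (XT.nd (nat_lit 156) (nat_lit 2736) (nat_lit 0) (XT.nd (nat_lit 78) (nat_lit 0) (nat_lit 0) (XT.lf (nat_lit 0) (nat_lit 2451039229) (nat_lit 1216) (nat_lit 1575522184) (nat_lit 1292) (nat_lit 3128153205) (nat_lit 454) (nat_lit 5) (nat_lit 470) (nat_lit 5) (nat_lit 471) (nat_lit 5) (nat_lit 412) (nat_lit 381) (nat_lit 347)) (XT.lf (nat_lit 0) (nat_lit 6326112193) (nat_lit 1292) (nat_lit 716525573) (nat_lit 76) (nat_lit 157390811) (nat_lit 454) (nat_lit 5) (nat_lit 471) (nat_lit 5) (nat_lit 455) (nat_lit 5) (nat_lit 413) (nat_lit 381) (nat_lit 346))) (XT.nd (nat_lit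 78) (nat_lit 1368) (nat_lit 0) (XT.lf (nat_lit 0) (nat_lit 1392190882) (nat_lit 1368) (nat_lit 3910742041) (nat_lit 76) (nat_lit 1943481561) (nat_lit 436) (nat_lit 5) (nat_lit 454) (nat_lit 5) (nat_lit 437) (nat_lit 5) (nat_lit 414) (nat_lit 381) (nat_lit 345)) (XT.lf (nat_lit 0) (nat_lit 141828708) (nat_lit 1368) (nat_lit 3509644456) (nat_lit 1444) (nat_lit 3643007501) (nat_lit 418) (nat_lit 5) (nat_lit 436) (nat_lit 5) (nat_lit 437) (nat_lit 5) (nat_lit 415) (nat_lit 381) (nat_lit 344))))) (XT.nd (nat_lit 234) (nat_lit 3192) (nat_lit 0) (XT.nd (nat_lit 78) (nat_lit 1520) (nat_lit 0) (XT.lf (nat_lit 0) (nat_lit 4289512749) (nat_lit 1368) (nat_lit 1647107534) (nat_lit 1444) (nat_lit 1407332321) (nat_lit 418) (nat_lit 5) (nat_lit 436) (nat_lit 5) (nat_lit 437) (nat_lit 5) (nat_lit 416) (nat_lit 381) (nat_lit 343)) (XT.nd (nat_lit 78) (nat_lit 0) (nat_lit 0) (XT.lf (nat_lit 0) (nat_lit 825462271) (nat_lit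 1520) (nat_lit 6301282582) (nat_lit 76) (nat_lit 268334404) (nat_lit 398) (nat_lit 5) (nat_lit 418) (nat_lit 5) (nat_lit 399) (nat_lit 5) (nat_lit 417) (nat_lit 381) (nat_lit 342)) (XT.lf (nat_lit 0) (nat_lit 3071274303) (nat_lit 1520) (nat_lit 2140344943) (nat_lit 76) (nat_lit 2235733705) (nat_lit 398) (nat_lit 5) (nat_lit 418) (nat_lit 5) (nat_lit 399) (nat_lit 5) (nat_lit 418) (nat_lit 381) (nat_lit 341)))) (XT.nd (nat_lit 156) (nat_lit 1596) (nat_lit 0) (XT.nd (nat_lit 78) (nat_lit 76) (nat_lit 0) (XT.lf (nat_lit 0) (nat_lit 2092465995) (nat_lit 1520) (nat_lit 3239639391) (nat_lit 1596) (nat_lit 2169218279) (nat_lit 378) (nat_lit 5) (nat_lit 398) (nat_lit 5) (nat_lit 399) (nat_lit 5) (nat_lit 419) (nat_lit 381) (nat_lit 340)) (XT.lf (nat_lit 0) (nat_lit 51948423) (nat_lit 1596) (nat_lit 1156925705) (nat_lit 76) (nat_lit 6348115732) (nat_lit 377) (nat_lit 5) (nat_lit 398) (nat_lit 5) (nat_lit 378)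 (nat_lit 5) (nat_lit 420) (nat_lit 381) (nat_lit 339))) (XT.nd (nat_lit 78) (nat_lit 0) (nat_lit 0) (XT.lf (nat_lit 0) (nat_lit 2272582315) (nat_lit 1672) (nat_lit 4450977770) (nat_lit 76) (nat_lit 890291239) (nat_lit 356) (nat_lit 5) (nat_lit 378) (nat_lit 5) (nat_lit 357) (nat_lit 5) (nat_lit 421) (nat_lit 381) (nat_lit 338)) (XT.lf (nat_lit 0) (nat_lit 4511687582) (nat_lit 1672) (nat_lit 134048405) (nat_lit 76) (nat_lit 3026682374) (nat_lit 356) (nat_lit 5) (nat_lit 378) (nat_lit 5) (nat_lit 357) (nat_lit 5) (nat_lit 422) (nat_lit 381) (nat_lit 337)))))) (XT.nd (nat_lit 546) (nat_lit 3116) (nat_lit 0) (XT.nd (nat_lit 234) (nat_lit 1748) (nat_lit 0) (XT.nd (nat_lit 78) (nat_lit 1064) (nat_lit 0) (XT.lf (nat_lit 0) (nat_lit 4287164433) (nat_lit 1672) (nat_lit 2495302416) (nat_lit 1748) (nat_lit 950000603) (nat_lit 334) (nat_lit 5) (nat_lit 356) (nat_lit 5) (nat_lit 357) (nat_lit 5) (nat_lit 423) (nat_lit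 381) (nat_lit 336)) (XT.nd (nat_lit 78) (nat_lit 0) (nat_lit 0) (XT.lf (nat_lit 0) (nat_lit 970551738) (nat_lit 988) (nat_lit 283783051) (nat_lit 1064) (nat_lit 6539929841) (nat_lit 320) (nat_lit 5) (nat_lit 333) (nat_lit 5) (nat_lit 334) (nat_lit 5) (nat_lit 424) (nat_lit 381) (nat_lit 335)) (XT.lf (nat_lit 0) (nat_lit 3485983336) (nat_lit 1064) (nat_lit 2393881714) (nat_lit 76) (nat_lit 1977433922) (nat_lit 320) (nat_lit 5) (nat_lit 334) (nat_lit 5) (nat_lit 321) (nat_lit 5) (nat_lit 425) (nat_lit 381) (nat_lit 334)))) (XT.nd (nat_lit 156) (nat_lit 836) (nat_lit 0) (XT.nd (nat_lit 78) (nat_lit 76) (nat_lit 0) (XT.lf (nat_lit 0) (nat_lit 2111909792) (nat_lit 836) (nat_lit 3626592258) (nat_lit 912) (nat_lit 2183612057) (nat_lit 309) (nat_lit 5) (nat_lit 320) (nat_lit 5) (nat_lit 321) (nat_lit 5) (nat_lit 426) (nat_lit 381) (nat_lit 333)) (XT.lf (nat_lit 0) (nat_lit 24257667) (nat_lit 912) (nat_lit 1286819627)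 (nat_lit 76) (nat_lit 6677644357) (nat_lit 308) (nat_lit 5) (nat_lit 320) (nat_lit 5) (nat_lit 309) (nat_lit 5) (nat_lit 427) (nat_lit 381) (nat_lit 332))) (XT.nd (nat_lit 78) (nat_lit 0) (nat_lit 0) (XT.lf (nat_lit 0) (nat_lit 2237315935) (nat_lit 912) (nat_lit 4745729765) (nat_lit 76) (nat_lit 1073563841) (nat_lit 297) (nat_lit 5) (nat_lit 309) (nat_lit 5) (nat_lit 298) (nat_lit 5) (nat_lit 428) (nat_lit 381) (nat_lit 331)) (XT.lf (nat_lit 0) (nat_lit 4474154444) (nat_lit 912) (nat_lit 155000209) (nat_lit 76) (nat_lit 3497151592) (nat_lit 297) (nat_lit 5) (nat_lit 309) (nat_lit 5) (nat_lit 298) (nat_lit 5) (nat_lit 429) (nat_lit 381) (nat_lit 330))))) (XT.nd (nat_lit 234) (nat_lit 1520) (nat_lit 0) (XT.nd (nat_lit 78) (nat_lit 836) (nat_lit 0) (XT.lf (nat_lit 0) (nat_lit 4549412006) (nat_lit 760) (nat_lit 2198741811) (nat_lit 836) (nat_lit 1449435205) (nat_lit 287) (nat_lit 5) (nat_lit 297) (nat_lit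 5) (nat_lit 298) (nat_lit 5) (nat_lit 430) (nat_lit 381) (nat_lit 329)) (XT.nd (nat_lit 78) (nat_lit 0) (nat_lit 0) (XT.lf (nat_lit 0) (nat_lit 759731335) (nat_lit 836) (nat_lit 7222464278) (nat_lit 76) (nat_lit 288580295) (nat_lit 276) (nat_lit 5) (nat_lit 287) (nat_lit 5) (nat_lit 277) (nat_lit 5) (nat_lit 431) (nat_lit 381) (nat_lit 328)) (XT.lf (nat_lit 0) (nat_lit 2996453353) (nat_lit 836) (nat_lit 2519663665) (nat_lit 76) (nat_lit 2829100575) (nat_lit 276) (nat_lit 5) (nat_lit 287) (nat_lit 5) (nat_lit 277) (nat_lit 5) (nat_lit 432) (nat_lit 381) (nat_lit 327)))) (XT.nd (nat_lit 156) (nat_lit 836) (nat_lit 0) (XT.nd (nat_lit 78) (nat_lit 0) (nat_lit 0) (XT.lf (nat_lit 0) (nat_lit 2269122944) (nat_lit 684) (nat_lit 2987791501) (nat_lit 760) (nat_lit 3164691106) (nat_lit 267) (nat_lit 5) (nat_lit 276) (nat_lit 5) (nat_lit 277) (nat_lit 5) (nat_lit 433) (nat_lit 381) (nat_lit 326)) (XT.lf (nat_lit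 0) (nat_lit 7150258904) (nat_lit 684) (nat_lit 393962656) (nat_lit 760) (nat_lit 955703765) (nat_lit 267) (nat_lit 5) (nat_lit 276) (nat_lit 5) (nat_lit 277) (nat_lit 5) (nat_lit 434) (nat_lit 381) (nat_lit 325))) (XT.nd (nat_lit 78) (nat_lit 0) (nat_lit 0) (XT.lf (nat_lit 0) (nat_lit 1283463343) (nat_lit 836) (nat_lit 5044727980) (nat_lit 76) (nat_lit 2251426726) (nat_lit 256) (nat_lit 5) (nat_lit 267) (nat_lit 5) (nat_lit 257) (nat_lit 5) (nat_lit 435) (nat_lit 381) (nat_lit 324)) (XT.lf (nat_lit 0) (nat_lit 3531935252) (nat_lit 836) (nat_lit 172091057) (nat_lit 76) (nat_lit 4957240280) (nat_lit 256) (nat_lit 5) (nat_lit 267) (nat_lit 5) (nat_lit 257) (nat_lit 5) (nat_lit 436) (nat_lit 381) (nat_lit 323))))))))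
noncomputable def xc106 : XT := (XT.nd (nat_lit 2106) (nat_lit 5092) (nat_lit 0) (XT.nd (nat_lit 1014) (nat_lit 3648) (nat_lit 0) (XT.nd (nat_lit 468) (nat_lit 2508) (nat_lit 0) (XT.nd (nat_lit 234) (nat_lit 1292) (nat_lit 0) (XT.nd (nat_lit 78) (nat_lit 760) (nat_lit 0) (XT.lf (nat_lit 0) (nat_lit 4824208004) (nat_lit 684) (nat_lit 998745841) (nat_lit 760) (nat_lit 2921676700) (nat_lit 247) (nat_lit 5) (nat_lit 256) (nat_lit 5) (nat_lit 257) (nat_lit 5) (nat_lit 437) (nat_lit 381) (nat_lit 322)) (XT.nd (nat_lit 78) (nat_lit 76) (nat_lit 0) (XT.lf (nat_lit 0) (nat_lit 1058070788) (nat_lit 684) (nat_lit 7087840649) (nat_lit 760) (nat_lit 684061296) (nat_lit 238) (nat_lit 5) (nat_lit 247) (nat_lit 5) (nat_lit 248) (nat_lit 5) (nat_lit 438) (nat_lit 381) (nat_lit 321)) (XT.lf (nat_lit 0) (nat_lit 1577257732) (nat_lit 760) (nat_lit 2782105514) (nat_lit 76) (nat_lit 4557484737) (nat_lit 237) (nat_lit 5) (nat_lit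 247) (nat_lit 5) (nat_lit 238) (nat_lit 5) (nat_lit 439) (nat_lit 381) (nat_lit 320)))) (XT.nd (nat_lit 78) (nat_lit 684) (nat_lit 0) (XT.lf (nat_lit 0) (nat_lit 2296089327) (nat_lit 608) (nat_lit 1560938038) (nat_lit 684) (nat_lit 5148726667) (nat_lit 229) (nat_lit 5) (nat_lit 237) (nat_lit 5) (nat_lit 238) (nat_lit 5) (nat_lit 440) (nat_lit 381) (nat_lit 319)) (XT.nd (nat_lit 78) (nat_lit 684) (nat_lit 0) (XT.lf (nat_lit 0) (nat_lit 6177420374) (nat_lit 684) (nat_lit 1628407380) (nat_lit 76) (nat_lit 1290740676) (nat_lit 229) (nat_lit 5) (nat_lit 238) (nat_lit 5) (nat_lit 230) (nat_lit 5) (nat_lit 441) (nat_lit 381) (nat_lit 318)) (XT.lf (nat_lit 0) (nat_lit 3554102215) (nat_lit 684) (nat_lit 4991999581) (nat_lit 760) (nat_lit 643089891) (nat_lit 220) (nat_lit 5) (nat_lit 229) (nat_lit 5) (nat_lit 230) (nat_lit 5) (nat_lit 442) (nat_lit 381) (nat_lit 317))))) (XT.nd (nat_lit 234) (nat_lit 1216) (nat_lit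 0) (XT.nd (nat_lit 78) (nat_lit 1216) (nat_lit 0) (XT.lf (nat_lit 0) (nat_lit 1636089615) (nat_lit 760) (nat_lit 468936838) (nat_lit 76) (nat_lit 7178859734) (nat_lit 219) (nat_lit 5) (nat_lit 229) (nat_lit 5) (nat_lit 220) (nat_lit 5) (nat_lit 443) (nat_lit 381) (nat_lit 316)) (XT.nd (nat_lit 78) (nat_lit 608) (nat_lit 0) (XT.lf (nat_lit 0) (nat_lit 3958448600) (nat_lit 684) (nat_lit 4562650286) (nat_lit 76) (nat_lit 859194979) (nat_lit 211) (nat_lit 5) (nat_lit 220) (nat_lit 5) (nat_lit 212) (nat_lit 5) (nat_lit 444) (nat_lit 381) (nat_lit 315)) (XT.lf (nat_lit 0) (nat_lit 696424577) (nat_lit 608) (nat_lit 5622024147) (nat_lit 684) (nat_lit 3160384979) (nat_lit 203) (nat_lit 5) (nat_lit 211) (nat_lit 5) (nat_lit 212) (nat_lit 5) (nat_lit 445) (nat_lit 381) (nat_lit 314)))) (XT.nd (nat_lit 156) (nat_lit 608) (nat_lit 0) (XT.nd (nat_lit 78) (nat_lit 608) (nat_lit 0) (XT.lf (nat_lit 0) (nat_lit 6086275801)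 (nat_lit 608) (nat_lit 2639916323) (nat_lit 684) (nat_lit 853168686) (nat_lit 203) (nat_lit 5) (nat_lit 211) (nat_lit 5) (nat_lit 212) (nat_lit 5) (nat_lit 446) (nat_lit 381) (nat_lit 313)) (XT.lf (nat_lit 0) (nat_lit 1465736491) (nat_lit 608) (nat_lit 7803801930) (nat_lit 76) (nat_lit 412487114) (nat_lit 195) (nat_lit 5) (nat_lit 203) (nat_lit 5) (nat_lit 196) (nat_lit 5) (nat_lit 447) (nat_lit 381) (nat_lit 312))) (XT.nd (nat_lit 78) (nat_lit 608) (nat_lit 0) (XT.lf (nat_lit 0) (nat_lit 3831287712) (nat_lit 608) (nat_lit 2441553112) (nat_lit 76) (nat_lit 3513581864) (nat_lit 195) (nat_lit 5) (nat_lit 203) (nat_lit 5) (nat_lit 196) (nat_lit 5) (nat_lit 448) (nat_lit 381) (nat_lit 311)) (XT.lf (nat_lit 0) (nat_lit 3032121026) (nat_lit 608) (nat_lit 3202894519) (nat_lit 684) (nat_lit 3658100184) (nat_lit 187) (nat_lit 5) (nat_lit 195) (nat_lit 5) (nat_lit 196) (nat_lit 5) (nat_lit 449) (nat_lit 381) (nat_lit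 310)))))) (XT.nd (nat_lit 546) (nat_lit 1444) (nat_lit 0) (XT.nd (nat_lit 234) (nat_lit 1596) (nat_lit 0) (XT.nd (nat_lit 78) (nat_lit 608) (nat_lit 0) (XT.lf (nat_lit 0) (nat_lit 8613012194) (nat_lit 608) (nat_lit 61704478) (nat_lit 684) (nat_lit 1327492745) (nat_lit 187) (nat_lit 5) (nat_lit 195) (nat_lit 5) (nat_lit 196) (nat_lit 5) (nat_lit 450) (nat_lit 381) (nat_lit 309)) (XT.nd (nat_lit 78) (nat_lit 0) (nat_lit 0) (XT.lf (nat_lit 0) (nat_lit 1055710436) (nat_lit 608) (nat_lit 5928654782) (nat_lit 76) (nat_lit 3128612231) (nat_lit 179) (nat_lit 5) (nat_lit 187) (nat_lit 5) (nat_lit 180) (nat_lit 5) (nat_lit 451) (nat_lit 381) (nat_lit 308)) (XT.lf (nat_lit 0) (nat_lit 3450756068) (nat_lit 608) (nat_lit 382252443) (nat_lit 76) (nat_lit 6393161099) (nat_lit 179) (nat_lit 5) (nat_lit 187) (nat_lit 5) (nat_lit 180) (nat_lit 5) (nat_lit 452) (nat_lit 381) (nat_lit 307)))) (XT.nd (nat_lit 156) (nat_lit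 608) (nat_lit 0) (XT.nd (nat_lit 78) (nat_lit 456) (nat_lit 0) (XT.lf (nat_lit 0) (nat_lit 5310053366) (nat_lit 532) (nat_lit 590816104) (nat_lit 608) (nat_lit 4440635681) (nat_lit 172) (nat_lit 5) (nat_lit 179) (nat_lit 5) (nat_lit 180) (nat_lit 5) (nat_lit 453) (nat_lit 381) (nat_lit 306)) (XT.lf (nat_lit 0) (nat_lit 617787752) (nat_lit 456) (nat_lit 7779380120) (nat_lit 532) (nat_lit 2062058305) (nat_lit 166) (nat_lit 5) (nat_lit 172) (nat_lit 5) (nat_lit 173) (nat_lit 5) (nat_lit 454) (nat_lit 381) (nat_lit 305))) (XT.nd (nat_lit 78) (nat_lit 532) (nat_lit 0) (XT.lf (nat_lit 0) (nat_lit 370275599) (nat_lit 532) (nat_lit 4172014318) (nat_lit 76) (nat_lit 6036766781) (nat_lit 165) (nat_lit 5) (nat_lit 172) (nat_lit 5) (nat_lit 166) (nat_lit 5) (nat_lit 455) (nat_lit 381) (nat_lit 304)) (XT.lf (nat_lit 0) (nat_lit 1583495876) (nat_lit 532) (nat_lit 1224044606) (nat_lit 608) (nat_lit 7893813970) (nat_lit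 158) (nat_lit 5) (nat_lit 165) (nat_lit 5) (nat_lit 166) (nat_lit 5) (nat_lit 456) (nat_lit 381) (nat_lit 303))))) (XT.nd (nat_lit 234) (nat_lit 988) (nat_lit 0) (XT.nd (nat_lit 78) (nat_lit 456) (nat_lit 0) (XT.lf (nat_lit 0) (nat_lit 5309592153) (nat_lit 608) (nat_lit 3363760867) (nat_lit 76) (nat_lit 2152445033) (nat_lit 158) (nat_lit 5) (nat_lit 166) (nat_lit 5) (nat_lit 159) (nat_lit 5) (nat_lit 457) (nat_lit 381) (nat_lit 302)) (XT.nd (nat_lit 78) (nat_lit 0) (nat_lit 0) (XT.lf (nat_lit 0) (nat_lit 2496050231) (nat_lit 456) (nat_lit 5364291839) (nat_lit 532) (nat_lit 3092435622) (nat_lit 152) (nat_lit 5) (nat_lit 158) (nat_lit 5) (nat_lit 159) (nat_lit 5) (nat_lit 458) (nat_lit 381) (nat_lit 301)) (XT.lf (nat_lit 0) (nat_lit 8484879431) (nat_lit 456) (nat_lit 1974428858) (nat_lit 532) (nat_lit 623064525) (nat_lit 152) (nat_lit 5) (nat_lit 158) (nat_lit 5) (nat_lit 159) (nat_lit 5) (nat_lit 459)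 (nat_lit 381) (nat_lit 300)))) (XT.nd (nat_lit 156) (nat_lit 456) (nat_lit 0) (XT.nd (nat_lit 78) (nat_lit 0) (nat_lit 0) (XT.lf (nat_lit 0) (nat_lit 1877504713) (nat_lit 532) (nat_lit 7846749235) (nat_lit 76) (nat_lit 1489945407) (nat_lit 145) (nat_lit 5) (nat_lit 152) (nat_lit 5) (nat_lit 146) (nat_lit 5) (nat_lit 460) (nat_lit 381) (nat_lit 299)) (XT.lf (nat_lit 0) (nat_lit 4425534691) (nat_lit 532) (nat_lit 1912432980) (nat_lit 76) (nat_lit 5010515308) (nat_lit 145) (nat_lit 5) (nat_lit 152) (nat_lit 5) (nat_lit 146) (nat_lit 5) (nat_lit 461) (nat_lit 381) (nat_lit 298))) (XT.nd (nat_lit 78) (nat_lit 0) (nat_lit 0) (XT.lf (nat_lit 0) (nat_lit 4162113340) (nat_lit 456) (nat_lit 2865084855) (nat_lit 532) (nat_lit 4458219020) (nat_lit 139) (nat_lit 5) (nat_lit 145) (nat_lit 5) (nat_lit 146) (nat_lit 5) (nat_lit 462) (nat_lit 381) (nat_lit 297)) (XT.lf (nat_lit 0) (nat_lit 9674067895) (nat_lit 532) (nat_lit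 1278510278) (nat_lit 76) (nat_lit 672666541) (nat_lit 139) (nat_lit 5) (nat_lit 146) (nat_lit 5) (nat_lit 140) (nat_lit 5) (nat_lit 463) (nat_lit 381) (nat_lit 296))))))) (XT.nd (nat_lit 1014) (nat_lit 2204) (nat_lit 0) (XT.nd (nat_lit 468) (nat_lit 1140) (nat_lit 0) (XT.nd (nat_lit 234) (nat_lit 836) (nat_lit 0) (XT.nd (nat_lit 78) (nat_lit 380) (nat_lit 0) (XT.lf (nat_lit 0) (nat_lit 625338334) (nat_lit 532) (nat_lit 6871607031) (nat_lit 76) (nat_lit 4270316444) (nat_lit 132) (nat_lit 5) (nat_lit 139) (nat_lit 5) (nat_lit 133) (nat_lit 5) (nat_lit 464) (nat_lit 381) (nat_lit 295)) (XT.nd (nat_lit 78) (nat_lit 380) (nat_lit 0) (XT.lf (nat_lit 0) (nat_lit 3212330498) (nat_lit 532) (nat_lit 747024797) (nat_lit 76) (nat_lit 7952821541) (nat_lit 132) (nat_lit 5) (nat_lit 139) (nat_lit 5) (nat_lit 133) (nat_lit 5) (nat_lit 465) (nat_lit 381) (nat_lit 294)) (XT.lf (nat_lit 0) (nat_lit 5540624880) (nat_lit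 380) (nat_lit 323285791) (nat_lit 456) (nat_lit 6195839194) (nat_lit 127) (nat_lit 5) (nat_lit 132) (nat_lit 5) (nat_lit 133) (nat_lit 5) (nat_lit 466) (nat_lit 381) (nat_lit 293)))) (XT.nd (nat_lit 78) (nat_lit 836) (nat_lit 0) (XT.lf (nat_lit 0) (nat_lit 8572612289) (nat_lit 456) (nat_lit 300329417) (nat_lit 76) (nat_lit 3337267188) (nat_lit 127) (nat_lit 5) (nat_lit 133) (nat_lit 5) (nat_lit 128) (nat_lit 5) (nat_lit 467) (nat_lit 381) (nat_lit 292)) (XT.nd (nat_lit 78) (nat_lit 456) (nat_lit 0) (XT.lf (nat_lit 0) (nat_lit 6088896455) (nat_lit 380) (nat_lit 5265778123) (nat_lit 456) (nat_lit 1008634809) (nat_lit 122) (nat_lit 5) (nat_lit 127) (nat_lit 5) (nat_lit 128) (nat_lit 5) (nat_lit 468) (nat_lit 381) (nat_lit 291)) (XT.lf (nat_lit 0) (nat_lit 48541397) (nat_lit 380) (nat_lit 1582354618) (nat_lit 456) (nat_lit 10888775432) (nat_lit 116) (nat_lit 5) (nat_lit 121) (nat_lit 5) (nat_lit 122) (nat_lit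 5) (nat_lit 469) (nat_lit 381) (nat_lit 290))))) (XT.nd (nat_lit 234) (nat_lit 760) (nat_lit 0) (XT.nd (nat_lit 78) (nat_lit 380) (nat_lit 0) (XT.lf (nat_lit 0) (nat_lit 4343987832) (nat_lit 456) (nat_lit 6148346264) (nat_lit 76) (nat_lit 2186022883) (nat_lit 116) (nat_lit 5) (nat_lit 122) (nat_lit 5) (nat_lit 117) (nat_lit 5) (nat_lit 470) (nat_lit 381) (nat_lit 289)) (XT.nd (nat_lit 78) (nat_lit 0) (nat_lit 0) (XT.lf (nat_lit 0) (nat_lit 262528345) (nat_lit 380) (nat_lit 6839192974) (nat_lit 456) (nat_lit 5738702103) (nat_lit 111) (nat_lit 5) (nat_lit 116) (nat_lit 5) (nat_lit 117) (nat_lit 5) (nat_lit 471) (nat_lit 381) (nat_lit 288)) (XT.lf (nat_lit 0) (nat_lit 6853840221) (nat_lit 380) (nat_lit 3080449509) (nat_lit 456) (nat_lit 3071062366) (nat_lit 111) (nat_lit 5) (nat_lit 116) (nat_lit 5) (nat_lit 117) (nat_lit 5) (nat_lit 472) (nat_lit 381) (nat_lit 287)))) (XT.nd (nat_lit 156) (nat_lit 380)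 (nat_lit 0) (XT.nd (nat_lit 78) (nat_lit 76) (nat_lit 0) (XT.lf (nat_lit 0) (nat_lit 372503417) (nat_lit 304) (nat_lit 12437100618) (nat_lit 380) (nat_lit 364267640) (nat_lit 107) (nat_lit 5) (nat_lit 111) (nat_lit 5) (nat_lit 112) (nat_lit 5) (nat_lit 473) (nat_lit 381) (nat_lit 286)) (XT.lf (nat_lit 0) (nat_lit 2406031808) (nat_lit 380) (nat_lit 6301766657) (nat_lit 76) (nat_lit 4636849605) (nat_lit 106) (nat_lit 5) (nat_lit 111) (nat_lit 5) (nat_lit 107) (nat_lit 5) (nat_lit 474) (nat_lit 381) (nat_lit 285))) (XT.nd (nat_lit 78) (nat_lit 0) (nat_lit 0) (XT.lf (nat_lit 0) (nat_lit 298962458) (nat_lit 380) (nat_lit 4909105518) (nat_lit 456) (nat_lit 8311113096) (nat_lit 101) (nat_lit 5) (nat_lit 106) (nat_lit 5) (nat_lit 107) (nat_lit 5) (nat_lit 475) (nat_lit 381) (nat_lit 284)) (XT.lf (nat_lit 0) (nat_lit 7086954990) (nat_lit 380) (nat_lit 1000951414) (nat_lit 456) (nat_lit 5608876240) (nat_lit 101)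 (nat_lit 5) (nat_lit 106) (nat_lit 5) (nat_lit 107) (nat_lit 5) (nat_lit 476) (nat_lit 381) (nat_lit 283)))))) (XT.nd (nat_lit 546) (nat_lit 1216) (nat_lit 0) (XT.nd (nat_lit 234) (nat_lit 608) (nat_lit 0) (XT.nd (nat_lit 78) (nat_lit 76) (nat_lit 0) (XT.lf (nat_lit 0) (nat_lit 84561589) (nat_lit 304) (nat_lit 10940526458) (nat_lit 380) (nat_lit 2852866153) (nat_lit 97) (nat_lit 5) (nat_lit 101) (nat_lit 5) (nat_lit 102) (nat_lit 5) (nat_lit 477) (nat_lit 381) (nat_lit 282)) (XT.nd (nat_lit 78) (nat_lit 76) (nat_lit 0) (XT.lf (nat_lit 0) (nat_lit 6965981007) (nat_lit 304) (nat_lit 7085990099) (nat_lit 380) (nat_lit 10171554) (nat_lit 97) (nat_lit 5) (nat_lit 101) (nat_lit 5) (nat_lit 102) (nat_lit 5) (nat_lit 478) (nat_lit 381) (nat_lit 281)) (XT.lf (nat_lit 0) (nat_lit 2831749253) (nat_lit 380) (nat_lit 313175752) (nat_lit 76) (nat_lit 11105121488) (nat_lit 96) (nat_lit 5) (nat_lit 101) (nat_lit 5) (nat_lit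 97) (nat_lit 5) (nat_lit 479) (nat_lit 381) (nat_lit 280)))) (XT.nd (nat_lit 156) (nat_lit 304) (nat_lit 0) (XT.nd (nat_lit 78) (nat_lit 0) (nat_lit 0) (XT.lf (nat_lit 0) (nat_lit 5760199202) (nat_lit 380) (nat_lit 7783198103) (nat_lit 76) (nat_lit 897725113) (nat_lit 92) (nat_lit 5) (nat_lit 97) (nat_lit 5) (nat_lit 93) (nat_lit 5) (nat_lit 480) (nat_lit 381) (nat_lit 279)) (XT.lf (nat_lit 0) (nat_lit 8750946384) (nat_lit 380) (nat_lit 913123524) (nat_lit 76) (nat_lit 4971887057) (nat_lit 92) (nat_lit 5) (nat_lit 97) (nat_lit 5) (nat_lit 93) (nat_lit 5) (nat_lit 481) (nat_lit 381) (nat_lit 278))) (XT.nd (nat_lit 78) (nat_lit 0) (nat_lit 0) (XT.lf (nat_lit 0) (nat_lit 6146538026) (nat_lit 304) (nat_lit 5676040067) (nat_lit 380) (nat_lit 3011700157) (nat_lit 88) (nat_lit 5) (nat_lit 92) (nat_lit 5) (nat_lit 93) (nat_lit 5) (nat_lit 482) (nat_lit 381) (nat_lit 277)) (XT.lf (nat_lit 0) (nat_lit 13331529987)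 (nat_lit 304) (nat_lit 1611588180) (nat_lit 380) (nat_lit 93709491) (nat_lit 88) (nat_lit 5) (nat_lit 92) (nat_lit 5) (nat_lit 93) (nat_lit 5) (nat_lit 483) (nat_lit 381) (nat_lit 276))))) (XT.nd (nat_lit 234) (nat_lit 608) (nat_lit 0) (XT.nd (nat_lit 78) (nat_lit 228) (nat_lit 0) (XT.lf (nat_lit 0) (nat_lit 2878495919) (nat_lit 380) (nat_lit 9817974034) (nat_lit 76) (nat_lit 2545921336) (nat_lit 83) (nat_lit 5) (nat_lit 88) (nat_lit 5) (nat_lit 84) (nat_lit 5) (nat_lit 484) (nat_lit 381) (nat_lit 275)) (XT.nd (nat_lit 78) (nat_lit 228) (nat_lit 0) (XT.lf (nat_lit 0) (nat_lit 5912784899) (nat_lit 380) (nat_lit 2771436149) (nat_lit 76) (nat_lit 6767765438) (nat_lit 83) (nat_lit 5) (nat_lit 88) (nat_lit 5) (nat_lit 84) (nat_lit 5) (nat_lit 485) (nat_lit 381) (nat_lit 274)) (XT.lf (nat_lit 0) (nat_lit 4446832004) (nat_lit 228) (nat_lit 4571859297) (nat_lit 304) (nat_lit 6646874012) (nat_lit 80) (nat_lit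 5) (nat_lit 83) (nat_lit 5) (nat_lit 84) (nat_lit 5) (nat_lit 486) (nat_lit 381) (nat_lit 273)))) (XT.nd (nat_lit 156) (nat_lit 304) (nat_lit 0) (XT.nd (nat_lit 78) (nat_lit 304) (nat_lit 0) (XT.lf (nat_lit 0) (nat_lit 11819692640) (nat_lit 228) (nat_lit 367855105) (nat_lit 304) (nat_lit 3695861492) (nat_lit 80) (nat_lit 5) (nat_lit 83) (nat_lit 5) (nat_lit 84) (nat_lit 5) (nat_lit 487) (nat_lit 381) (nat_lit 272)) (XT.lf (nat_lit 0) (nat_lit 3224131076) (nat_lit 304) (nat_lit 12224557689) (nat_lit 380) (nat_lit 656353082) (nat_lit 76) (nat_lit 5) (nat_lit 80) (nat_lit 5) (nat_lit 81) (nat_lit 5) (nat_lit 488) (nat_lit 381) (nat_lit 271))) (XT.nd (nat_lit 78) (nat_lit 228) (nat_lit 0) (XT.lf (nat_lit 0) (nat_lit 2424344266) (nat_lit 380) (nat_lit 5663390375) (nat_lit 76) (nat_lit 8242815655) (nat_lit 75) (nat_lit 5) (nat_lit 80) (nat_lit 5) (nat_lit 76) (nat_lit 5) (nat_lit 489) (nat_lit 381) (nat_lit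 270)) (XT.lf (nat_lit 0) (nat_lit 1689661906) (nat_lit 228) (nat_lit 3862090727) (nat_lit 304) (nat_lit 11008861180) (nat_lit 72) (nat_lit 5) (nat_lit 75) (nat_lit 5) (nat_lit 76) (nat_lit 5) (nat_lit 490) (nat_lit 381) (nat_lit 269))))))))
noncomputable def xc107 : XT := (XT.nd (nat_lit 2106) (nat_lit 836) (nat_lit 0) (XT.nd (nat_lit 1014) (nat_lit 1140) (nat_lit 0) (XT.nd (nat_lit 468) (nat_lit 760) (nat_lit 0) (XT.nd (nat_lit 234) (nat_lit 304) (nat_lit 0) (XT.nd (nat_lit 78) (nat_lit 304) (nat_lit 0) (XT.lf (nat_lit 0) (nat_lit 8765882868) (nat_lit 304) (nat_lit 7557878119) (nat_lit 76) (nat_lit 471043340) (nat_lit 72) (nat_lit 5) (nat_lit 76) (nat_lit 5) (nat_lit 73) (nat_lit 5) (nat_lit 491) (nat_lit 381) (nat_lit 268)) (XT.nd (nat_lit 78) (nat_lit 304) (nat_lit 0) (XT.lf (nat_lit 0) (nat_lit 12053214175) (nat_lit 304) (nat_lit 150338003) (nat_lit 76) (nat_lit 4829957123) (nat_lit 72) (nat_lit 5)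 (nat_lit 76) (nat_lit 5) (nat_lit 73) (nat_lit 5) (nat_lit 492) (nat_lit 381) (nat_lit 267)) (XT.lf (nat_lit 0) (nat_lit 7477720257) (nat_lit 304) (nat_lit 7960790512) (nat_lit 380) (nat_lit 1837842074) (nat_lit 68) (nat_lit 5) (nat_lit 72) (nat_lit 5) (nat_lit 73) (nat_lit 5) (nat_lit 493) (nat_lit 381) (nat_lit 266)))) (XT.nd (nat_lit 78) (nat_lit 228) (nat_lit 0) (XT.lf (nat_lit 0) (nat_lit 1334248172) (nat_lit 380) (nat_lit 2298300882) (nat_lit 76) (nat_lit 13891640678) (nat_lit 67) (nat_lit 5) (nat_lit 72) (nat_lit 5) (nat_lit 68) (nat_lit 5) (nat_lit 494) (nat_lit 381) (nat_lit 265)) (XT.nd (nat_lit 78) (nat_lit 0) (nat_lit 0) (XT.lf (nat_lit 0) (nat_lit 4569516455) (nat_lit 304) (nat_lit 12396459691) (nat_lit 76) (nat_lit 810285685) (nat_lit 64) (nat_lit 5) (nat_lit 68) (nat_lit 5) (nat_lit 65) (nat_lit 5) (nat_lit 495) (nat_lit 381) (nat_lit 264)) (XT.lf (nat_lit 0) (nat_lit 7893188376) (nat_lit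 304) (nat_lit 4839957808) (nat_lit 76) (nat_lit 5299763392) (nat_lit 64) (nat_lit 5) (nat_lit 68) (nat_lit 5) (nat_lit 65) (nat_lit 5) (nat_lit 496) (nat_lit 381) (nat_lit 263))))) (XT.nd (nat_lit 234) (nat_lit 304) (nat_lit 0) (XT.nd (nat_lit 78) (nat_lit 228) (nat_lit 0) (XT.lf (nat_lit 0) (nat_lit 2880597355) (nat_lit 228) (nat_lit 8405867274) (nat_lit 304) (nat_lit 7008171036) (nat_lit 61) (nat_lit 5) (nat_lit 64) (nat_lit 5) (nat_lit 65) (nat_lit 5) (nat_lit 497) (nat_lit 381) (nat_lit 262)) (XT.nd (nat_lit 78) (nat_lit 228) (nat_lit 0) (XT.lf (nat_lit 0) (nat_lit 10796477742) (nat_lit 228) (nat_lit 3968180485) (nat_lit 304) (nat_lit 3796604865) (nat_lit 61) (nat_lit 5) (nat_lit 64) (nat_lit 5) (nat_lit 65) (nat_lit 5) (nat_lit 498) (nat_lit 381) (nat_lit 261)) (XT.lf (nat_lit 0) (nat_lit 9492760) (nat_lit 228) (nat_lit 18291425825) (nat_lit 304) (nat_lit 532542122) (nat_lit 58) (nat_lit 5) (nat_lit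 61) (nat_lit 5) (nat_lit 62) (nat_lit 5) (nat_lit 499) (nat_lit 381) (nat_lit 260)))) (XT.nd (nat_lit 156) (nat_lit 228) (nat_lit 0) (XT.nd (nat_lit 78) (nat_lit 0) (nat_lit 0) (XT.lf (nat_lit 0) (nat_lit 2823701061) (nat_lit 304) (nat_lit 11134840756) (nat_lit 76) (nat_lit 5150933088) (nat_lit 57) (nat_lit 5) (nat_lit 61) (nat_lit 5) (nat_lit 58) (nat_lit 5) (nat_lit 500) (nat_lit 381) (nat_lit 259)) (XT.lf (nat_lit 0) (nat_lit 6225091639) (nat_lit 304) (nat_lit 3319484881) (nat_lit 76) (nat_lit 9846666653) (nat_lit 57) (nat_lit 5) (nat_lit 61) (nat_lit 5) (nat_lit 58) (nat_lit 5) (nat_lit 501) (nat_lit 381) (nat_lit 258))) (XT.nd (nat_lit 78) (nat_lit 0) (nat_lit 0) (XT.lf (nat_lit 0) (nat_lit 4690134091) (nat_lit 228) (nat_lit 5020265245) (nat_lit 304) (nat_lit 9967936794) (nat_lit 54) (nat_lit 5) (nat_lit 57) (nat_lit 5) (nat_lit 58) (nat_lit 5) (nat_lit 502) (nat_lit 381) (nat_lit 257)) (XT.lf (nat_lit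 0) (nat_lit 12881540934) (nat_lit 228) (nat_lit 391719189) (nat_lit 304) (nat_lit 6697760857) (nat_lit 54) (nat_lit 5) (nat_lit 57) (nat_lit 5) (nat_lit 58) (nat_lit 5) (nat_lit 503) (nat_lit 381) (nat_lit 256)))))) (XT.nd (nat_lit 546) (nat_lit 456) (nat_lit 0) (XT.nd (nat_lit 234) (nat_lit 380) (nat_lit 0) (XT.nd (nat_lit 78) (nat_lit 76) (nat_lit 0) (XT.lf (nat_lit 0) (nat_lit 928104530) (nat_lit 228) (nat_lit 15999206033) (nat_lit 304) (nat_lit 3341857151) (nat_lit 51) (nat_lit 5) (nat_lit 54) (nat_lit 5) (nat_lit 55) (nat_lit 5) (nat_lit 504) (nat_lit 381) (nat_lit 255)) (XT.nd (nat_lit 78) (nat_lit 0) (nat_lit 0) (XT.lf (nat_lit 0) (nat_lit 116409946) (nat_lit 304) (nat_lit 11396838790) (nat_lit 76) (nat_lit 9059298482) (nat_lit 50) (nat_lit 5) (nat_lit 54) (nat_lit 5) (nat_lit 51) (nat_lit 5) (nat_lit 505) (nat_lit 381) (nat_lit 254)) (XT.lf (nat_lit 0) (nat_lit 3585241097) (nat_lit 304) (nat_lit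 3338623426) (nat_lit 76) (nat_lit 13957971512) (nat_lit 50) (nat_lit 5) (nat_lit 54) (nat_lit 5) (nat_lit 51) (nat_lit 5) (nat_lit 506) (nat_lit 381) (nat_lit 253)))) (XT.nd (nat_lit 156) (nat_lit 152) (nat_lit 0) (XT.nd (nat_lit 78) (nat_lit 0) (nat_lit 0) (XT.lf (nat_lit 0) (nat_lit 4923006662) (nat_lit 228) (nat_lit 2218782447) (nat_lit 304) (nat_lit 14055161029) (nat_lit 47) (nat_lit 5) (nat_lit 50) (nat_lit 5) (nat_lit 51) (nat_lit 5) (nat_lit 507) (nat_lit 381) (nat_lit 252)) (XT.lf (nat_lit 0) (nat_lit 10795217765) (nat_lit 304) (nat_lit 8162084013) (nat_lit 76) (nat_lit 2560555942) (nat_lit 47) (nat_lit 5) (nat_lit 51) (nat_lit 5) (nat_lit 48) (nat_lit 5) (nat_lit 508) (nat_lit 381) (nat_lit 251))) (XT.nd (nat_lit 78) (nat_lit 0) (nat_lit 0) (XT.lf (nat_lit 0) (nat_lit 76370530) (nat_lit 152) (nat_lit 14447243760) (nat_lit 228) (nat_lit 7321537248) (nat_lit 45) (nat_lit 5) (nat_lit 47) (nat_lit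 5) (nat_lit 48) (nat_lit 5) (nat_lit 509) (nat_lit 381) (nat_lit 250)) (XT.lf (nat_lit 0) (nat_lit 8568427972) (nat_lit 152) (nat_lit 9799751202) (nat_lit 228) (nat_lit 3809986001) (nat_lit 45) (nat_lit 5) (nat_lit 47) (nat_lit 5) (nat_lit 48) (nat_lit 5) (nat_lit 510) (nat_lit 381) (nat_lit 249))))) (XT.nd (nat_lit 234) (nat_lit 152) (nat_lit 0) (XT.nd (nat_lit 78) (nat_lit 304) (nat_lit 0) (XT.lf (nat_lit 0) (nat_lit 17208948729) (nat_lit 152) (nat_lit 5067773437) (nat_lit 228) (nat_lit 241381015) (nat_lit 45) (nat_lit 5) (nat_lit 47) (nat_lit 5) (nat_lit 48) (nat_lit 5) (nat_lit 511) (nat_lit 381) (nat_lit 248)) (XT.nd (nat_lit 78) (nat_lit 0) (nat_lit 0) (XT.lf (nat_lit 0) (nat_lit 3155626924) (nat_lit 228) (nat_lit 206134895) (nat_lit 304) (nat_lit 19502487638) (nat_lit 41) (nat_lit 5) (nat_lit 44) (nat_lit 5) (nat_lit 45) (nat_lit 5) (nat_lit 512) (nat_lit 381) (nat_lit 247)) (XT.lf (nat_lit 0)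 (nat_lit 7087769454) (nat_lit 304) (nat_lit 11408826216) (nat_lit 76) (nat_lit 4719615896) (nat_lit 41) (nat_lit 5) (nat_lit 45) (nat_lit 5) (nat_lit 42) (nat_lit 5) (nat_lit 513) (nat_lit 381) (nat_lit 246)))) (XT.nd (nat_lit 156) (nat_lit 0) (nat_lit 0) (XT.nd (nat_lit 78) (nat_lit 152) (nat_lit 0) (XT.lf (nat_lit 0) (nat_lit 10877221131) (nat_lit 304) (nat_lit 2965182050) (nat_lit 76) (nat_lit 9733036647) (nat_lit 41) (nat_lit 5) (nat_lit 45) (nat_lit 5) (nat_lit 42) (nat_lit 5) (nat_lit 514) (nat_lit 381) (nat_lit 245)) (XT.lf (nat_lit 0) (nat_lit 5701738891) (nat_lit 152) (nat_lit 9065545124) (nat_lit 228) (nat_lit 9174077480) (nat_lit 39) (nat_lit 5) (nat_lit 41) (nat_lit 5) (nat_lit 42) (nat_lit 5) (nat_lit 515) (nat_lit 381) (nat_lit 244))) (XT.nd (nat_lit 78) (nat_lit 0) (nat_lit 0) (XT.lf (nat_lit 0) (nat_lit 14561950685) (nat_lit 152) (nat_lit 4181005851) (nat_lit 228) (nat_lit 5571494073)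 (nat_lit 39) (nat_lit 5) (nat_lit 41) (nat_lit 5) (nat_lit 42) (nat_lit 5) (nat_lit 516) (nat_lit 381) (nat_lit 243)) (XT.lf (nat_lit 0) (nat_lit 22791440193) (nat_lit 228) (nat_lit 1120871608) (nat_lit 76) (nat_lit 782828828) (nat_lit 39) (nat_lit 5) (nat_lit 42) (nat_lit 5) (nat_lit 40) (nat_lit 5) (nat_lit 517) (nat_lit 381) (nat_lit 242))))))) (XT.nd (nat_lit 49140) (nat_lit 0) (nat_lit 39596) (XT.nd (nat_lit 546) (nat_lit 228) (nat_lit 0) (XT.nd (nat_lit 234) (nat_lit 152) (nat_lit 0) (XT.nd (nat_lit 78) (nat_lit 152) (nat_lit 0) (XT.lf (nat_lit 0) (nat_lit 1880039490) (nat_lit 304) (nat_lit 17356955220) (nat_lit 76) (nat_lit 5844882246) (nat_lit 35) (nat_lit 5) (nat_lit 39) (nat_lit 5) (nat_lit 36) (nat_lit 5) (nat_lit 518) (nat_lit 381) (nat_lit 241)) (XT.nd (nat_lit 78) (nat_lit 152) (nat_lit 0) (XT.lf (nat_lit 0) (nat_lit 5709908694) (nat_lit 304) (nat_lit 8745702306) (nat_lit 76) (nat_lit 11020571224)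 (nat_lit 35) (nat_lit 5) (nat_lit 39) (nat_lit 5) (nat_lit 36) (nat_lit 5) (nat_lit 519) (nat_lit 381) (nat_lit 240)) (XT.lf (nat_lit 0) (nat_lit 18734816) (nat_lit 152) (nat_lit 9586340288) (nat_lit 228) (nat_lit 16273529190) (nat_lit 33) (nat_lit 5) (nat_lit 35) (nat_lit 5) (nat_lit 36) (nat_lit 5) (nat_lit 520) (nat_lit 381) (nat_lit 239)))) (XT.nd (nat_lit 156) (nat_lit 152) (nat_lit 0) (XT.nd (nat_lit 78) (nat_lit 0) (nat_lit 0) (XT.lf (nat_lit 0) (nat_lit 9057851305) (nat_lit 152) (nat_lit 4567659546) (nat_lit 228) (nat_lit 12662621234) (nat_lit 33) (nat_lit 5) (nat_lit 35) (nat_lit 5) (nat_lit 36) (nat_lit 5) (nat_lit 521) (nat_lit 381) (nat_lit 238)) (XT.lf (nat_lit 0) (nat_lit 17718785195) (nat_lit 228) (nat_lit 8450640949) (nat_lit 76) (nat_lit 536580199) (nat_lit 33) (nat_lit 5) (nat_lit 36) (nat_lit 5) (nat_lit 34) (nat_lit 5) (nat_lit 522) (nat_lit 381) (nat_lit 237))) (XT.nd (nat_lit 78)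 (nat_lit 0) (nat_lit 0) (XT.lf (nat_lit 0) (nat_lit 461810157) (nat_lit 152) (nat_lit 21454431138) (nat_lit 228) (nat_lit 5215554889) (nat_lit 31) (nat_lit 5) (nat_lit 33) (nat_lit 5) (nat_lit 34) (nat_lit 5) (nat_lit 523) (nat_lit 381) (nat_lit 236)) (XT.lf (nat_lit 0) (nat_lit 9648594400) (nat_lit 152) (nat_lit 16594923302) (nat_lit 228) (nat_lit 1321671029) (nat_lit 31) (nat_lit 5) (nat_lit 33) (nat_lit 5) (nat_lit 34) (nat_lit 5) (nat_lit 524) (nat_lit 381) (nat_lit 235))))) (XT.nd (nat_lit 48282) (nat_lit 0) (nat_lit 42864) (XT.nd (nat_lit 78) (nat_lit 152) (nat_lit 0) (XT.lf (nat_lit 0) (nat_lit 2604634967) (nat_lit 228) (nat_lit 9023591759) (nat_lit 76) (nat_lit 16378896430) (nat_lit 30) (nat_lit 5) (nat_lit 33) (nat_lit 5) (nat_lit 31) (nat_lit 5) (nat_lit 525) (nat_lit 381) (nat_lit 234)) (XT.nd (nat_lit 48126) (nat_lit 0) (nat_lit 43396) (XT.lf (nat_lit 0) (nat_lit 20899221) (nat_lit 152) (nat_lit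 6560533581) (nat_lit 228) (nat_lit 21876499569) (nat_lit 28) (nat_lit 5) (nat_lit 30) (nat_lit 5) (nat_lit 31) (nat_lit 5) (nat_lit 526) (nat_lit 381) (nat_lit 233)) (XT.lf (nat_lit 0) (nat_lit 2473430915) (nat_lit 228) (nat_lit 375853921) (nat_lit 228) (nat_lit 375853921) (nat_lit 599) (nat_lit 3) (nat_lit 602) (nat_lit 3) (nat_lit 602) (nat_lit 5) (nat_lit 382) (nat_lit 382) (nat_lit 376)))) (XT.nd (nat_lit 156) (nat_lit 304) (nat_lit 0) (XT.nd (nat_lit 78) (nat_lit 0) (nat_lit 0) (XT.lf (nat_lit 0) (nat_lit 1252301923) (nat_lit 228) (nat_lit 4251761674) (nat_lit 304) (nat_lit 950815791) (nat_lit 596) (nat_lit 5) (nat_lit 599) (nat_lit 3) (nat_lit 600) (nat_lit 5) (nat_lit 383) (nat_lit 382) (nat_lit 375)) (XT.lf (nat_lit 0) (nat_lit 3976082582) (nat_lit 228) (nat_lit 1280171553) (nat_lit 304) (nat_lit 1204592107) (nat_lit 596) (nat_lit 5) (nat_lit 599) (nat_lit 3) (nat_lit 600) (nat_lit 5) (nat_lit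 384) (nat_lit 382) (nat_lit 374))) (XT.nd (nat_lit 78) (nat_lit 0) (nat_lit 0) (XT.lf (nat_lit 0) (nat_lit 223784159) (nat_lit 304) (nat_lit 4733292865) (nat_lit 380) (nat_lit 1511143256) (nat_lit 592) (nat_lit 5) (nat_lit 596) (nat_lit 5) (nat_lit 597) (nat_lit 5) (nat_lit 385) (nat_lit 382) (nat_lit 373)) (XT.lf (nat_lit 0) (nat_lit 2891863597) (nat_lit 304) (nat_lit 1702407449) (nat_lit 380) (nat_lit 1882495232) (nat_lit 592) (nat_lit 5) (nat_lit 596) (nat_lit 5) (nat_lit 597) (nat_lit 5) (nat_lit 386) (nat_lit 382) (nat_lit 372)))))) (XT.nd (nat_lit 546) (nat_lit 1900) (nat_lit 0) (XT.nd (nat_lit 234) (nat_lit 988) (nat_lit 0) (XT.nd (nat_lit 78) (nat_lit 380) (nat_lit 0) (XT.lf (nat_lit 76) (nat_lit 1369799461) (nat_lit 0) (nat_lit 4183725308) (nat_lit 380) (nat_lit 933277158) (nat_lit 593) (nat_lit 5) (nat_lit 592) (nat_lit 5) (nat_lit 597) (nat_lit 5) (nat_lit 387) (nat_lit 382) (nat_lit 371))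 (XT.nd (nat_lit 78) (nat_lit 0) (nat_lit 0) (XT.lf (nat_lit 0) (nat_lit 1691514704) (nat_lit 380) (nat_lit 2019899411) (nat_lit 456) (nat_lit 2786645194) (nat_lit 587) (nat_lit 5) (nat_lit 592) (nat_lit 5) (nat_lit 593) (nat_lit 5) (nat_lit 388) (nat_lit 382) (nat_lit 370)) (XT.lf (nat_lit 76) (nat_lit 1110231779) (nat_lit 0) (nat_lit 3186496148) (nat_lit 456) (nat_lit 2213998122) (nat_lit 588) (nat_lit 5) (nat_lit 587) (nat_lit 5) (nat_lit 593) (nat_lit 5) (nat_lit 389) (nat_lit 382) (nat_lit 369)))) (XT.nd (nat_lit 156) (nat_lit 532) (nat_lit 0) (XT.nd (nat_lit 78) (nat_lit 0) (nat_lit 0) (XT.lf (nat_lit 0) (nat_lit 372122602) (nat_lit 456) (nat_lit 2233954495) (nat_lit 532) (nat_lit 3918677303) (nat_lit 581) (nat_lit 5) (nat_lit 587) (nat_lit 5) (nat_lit 588) (nat_lit 5) (nat_lit 390) (nat_lit 382) (nat_lit 368)) (XT.lf (nat_lit 76) (nat_lit 956503333) (nat_lit 0) (nat_lit 1965078199) (nat_lit 532)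 (nat_lit 3618473213) (nat_lit 582) (nat_lit 5) (nat_lit 581) (nat_lit 5) (nat_lit 588) (nat_lit 5) (nat_lit 391) (nat_lit 382) (nat_lit 367))) (XT.nd (nat_lit 78) (nat_lit 532) (nat_lit 0) (XT.lf (nat_lit 76) (nat_lit 4204002306) (nat_lit 0) (nat_lit 1269075104) (nat_lit 532) (nat_lit 1083669927) (nat_lit 582) (nat_lit 5) (nat_lit 581) (nat_lit 5) (nat_lit 588) (nat_lit 5) (nat_lit 392) (nat_lit 382) (nat_lit 366)) (XT.lf (nat_lit 76) (nat_lit 907563032) (nat_lit 0) (nat_lit 517253802) (nat_lit 608) (nat_lit 5150011280) (nat_lit 575) (nat_lit 5) (nat_lit 574) (nat_lit 5) (nat_lit 582) (nat_lit 5) (nat_lit 393) (nat_lit 382) (nat_lit 365))))) (XT.nd (nat_lit 234) (nat_lit 1368) (nat_lit 0) (XT.nd (nat_lit 78) (nat_lit 608) (nat_lit 0) (XT.lf (nat_lit 0) (nat_lit 3924444084) (nat_lit 532) (nat_lit 2375417171) (nat_lit 76) (nat_lit 294257382) (nat_lit 575) (nat_lit 5) (nat_lit 582) (nat_lit 5) (nat_lit 576)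 (nat_lit 5) (nat_lit 394) (nat_lit 382) (nat_lit 364)) (XT.nd (nat_lit 78) (nat_lit 76) (nat_lit 0) (XT.lf (nat_lit 0) (nat_lit 953573972) (nat_lit 532) (nat_lit 5469277468) (nat_lit 608) (nat_lit 192066812) (nat_lit 568) (nat_lit 5) (nat_lit 575) (nat_lit 5) (nat_lit 576) (nat_lit 5) (nat_lit 395) (nat_lit 382) (nat_lit 363)) (XT.lf (nat_lit 0) (nat_lit 2260141298) (nat_lit 608) (nat_lit 2308160736) (nat_lit 76) (nat_lit 2068510325) (nat_lit 567) (nat_lit 5) (nat_lit 575) (nat_lit 5) (nat_lit 568) (nat_lit 5) (nat_lit 396) (nat_lit 382) (nat_lit 362)))) (XT.nd (nat_lit 156) (nat_lit 684) (nat_lit 0) (XT.nd (nat_lit 78) (nat_lit 76) (nat_lit 0) (XT.lf (nat_lit 0) (nat_lit 1087405950) (nat_lit 608) (nat_lit 3619289701) (nat_lit 684) (nat_lit 1953559151) (nat_lit 559) (nat_lit 5) (nat_lit 567) (nat_lit 5) (nat_lit 568) (nat_lit 5) (nat_lit 397) (nat_lit 382) (nat_lit 361)) (XT.lf (nat_lit 0) (nat_lit 468065376)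 (nat_lit 684) (nat_lit 2143443165) (nat_lit 76) (nat_lit 4073543100) (nat_lit 558) (nat_lit 5) (nat_lit 567) (nat_lit 5) (nat_lit 559) (nat_lit 5) (nat_lit 398) (nat_lit 382) (nat_lit 360))) (XT.nd (nat_lit 78) (nat_lit 0) (nat_lit 0) (XT.lf (nat_lit 0) (nat_lit 1321401741) (nat_lit 684) (nat_lit 1541570963) (nat_lit 760) (nat_lit 3848181220) (nat_lit 549) (nat_lit 5) (nat_lit 558) (nat_lit 5) (nat_lit 559) (nat_lit 5) (nat_lit 399) (nat_lit 382) (nat_lit 359)) (XT.lf (nat_lit 0) (nat_lit 4847303631) (nat_lit 684) (nat_lit 416149958) (nat_lit 760) (nat_lit 1475257371) (nat_lit 549) (nat_lit 5) (nat_lit 558) (nat_lit 5) (nat_lit 559) (nat_lit 5) (nat_lit 400) (nat_lit 382) (nat_lit 358))))))))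
noncomputable def xc108 : XT := (XT.nd (nat_lit 2106) (nat_lit 10336) (nat_lit 0) (XT.nd (nat_lit 1014) (nat_lit 11020) (nat_lit 0) (XT.nd (nat_lit 468) (nat_lit 4636) (nat_lit 0) (XT.nd (nat_lit 234) (nat_lit 988) (nat_lit 0) (XT.nd (nat_lit 78) (nat_lit 836) (nat_lit 0) (XT.lf (nat_lit 0) (nat_lit 892411603) (nat_lit 836) (nat_lit 5117585979) (nat_lit 76) (nat_lit 757588049) (nat_lit 538) (nat_lit 5) (nat_lit 549) (nat_lit 5) (nat_lit 539) (nat_lit 5) (nat_lit 401) (nat_lit 382) (nat_lit 357)) (XT.nd (nat_lit 78) (nat_lit 836) (nat_lit 0) (XT.lf (nat_lit 0) (nat_lit 3248158145) (nat_lit 836) (nat_lit 1559968084) (nat_lit 76) (nat_lit 1989588222) (nat_lit 538) (nat_lit 5) (nat_lit 549) (nat_lit 5) (nat_lit 539) (nat_lit 5) (nat_lit 402) (nat_lit 382) (nat_lit 356)) (XT.lf (nat_lit 0) (nat_lit 2058100903) (nat_lit 836) (nat_lit 3552288198) (nat_lit 912) (nat_lit 1218949006) (nat_lit 527) (nat_lit 5) (nat_lit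 538) (nat_lit 5) (nat_lit 539) (nat_lit 5) (nat_lit 403) (nat_lit 382) (nat_lit 355)))) (XT.nd (nat_lit 78) (nat_lit 912) (nat_lit 0) (XT.lf (nat_lit 0) (nat_lit 1100010309) (nat_lit 912) (nat_lit 1137532013) (nat_lit 76) (nat_lit 4624839447) (nat_lit 526) (nat_lit 5) (nat_lit 538) (nat_lit 5) (nat_lit 527) (nat_lit 5) (nat_lit 404) (nat_lit 382) (nat_lit 354)) (XT.nd (nat_lit 78) (nat_lit 0) (nat_lit 0) (XT.lf (nat_lit 0) (nat_lit 2556823058) (nat_lit 912) (nat_lit 856264248) (nat_lit 988) (nat_lit 3483631705) (nat_lit 514) (nat_lit 5) (nat_lit 526) (nat_lit 5) (nat_lit 527) (nat_lit 5) (nat_lit 405) (nat_lit 382) (nat_lit 353)) (XT.lf (nat_lit 0) (nat_lit 5732025366) (nat_lit 988) (nat_lit 633185752) (nat_lit 76) (nat_lit 567413472) (nat_lit 514) (nat_lit 5) (nat_lit 527) (nat_lit 5) (nat_lit 515) (nat_lit 5) (nat_lit 406) (nat_lit 382) (nat_lit 352))))) (XT.nd (nat_lit 234) (nat_lit 2508) (nat_lit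 0) (XT.nd (nat_lit 78) (nat_lit 1064) (nat_lit 0) (XT.lf (nat_lit 0) (nat_lit 1088499138) (nat_lit 1064) (nat_lit 3831418159) (nat_lit 76) (nat_lit 2049751214) (nat_lit 500) (nat_lit 5) (nat_lit 514) (nat_lit 5) (nat_lit 501) (nat_lit 5) (nat_lit 407) (nat_lit 382) (nat_lit 351)) (XT.nd (nat_lit 78) (nat_lit 1064) (nat_lit 0) (XT.lf (nat_lit 0) (nat_lit 3361286155) (nat_lit 1064) (nat_lit 59827048) (nat_lit 76) (nat_lit 3587171074) (nat_lit 500) (nat_lit 5) (nat_lit 514) (nat_lit 5) (nat_lit 501) (nat_lit 5) (nat_lit 408) (nat_lit 382) (nat_lit 350)) (XT.lf (nat_lit 0) (nat_lit 3799599124) (nat_lit 1064) (nat_lit 1855276297) (nat_lit 1140) (nat_lit 1393357986) (nat_lit 486) (nat_lit 5) (nat_lit 500) (nat_lit 5) (nat_lit 501) (nat_lit 5) (nat_lit 409) (nat_lit 382) (nat_lit 349)))) (XT.nd (nat_lit 156) (nat_lit 1292) (nat_lit 0) (XT.nd (nat_lit 78) (nat_lit 0) (nat_lit 0) (XT.lf (nat_lit 0) (nat_lit 612301660)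 (nat_lit 1140) (nat_lit 236574083) (nat_lit 1216) (nat_lit 6240945659) (nat_lit 470) (nat_lit 5) (nat_lit 485) (nat_lit 5) (nat_lit 486) (nat_lit 5) (nat_lit 410) (nat_lit 382) (nat_lit 348)) (XT.lf (nat_lit 0) (nat_lit 3100242898) (nat_lit 1216) (nat_lit 2594616843) (nat_lit 76) (nat_lit 1437602356) (nat_lit 470) (nat_lit 5) (nat_lit 486) (nat_lit 5) (nat_lit 471) (nat_lit 5) (nat_lit 411) (nat_lit 382) (nat_lit 347))) (XT.nd (nat_lit 78) (nat_lit 76) (nat_lit 0) (XT.lf (nat_lit 0) (nat_lit 1344015870) (nat_lit 1216) (nat_lit 4015659652) (nat_lit 1292) (nat_lit 1817082124) (nat_lit 454) (nat_lit 5) (nat_lit 470) (nat_lit 5) (nat_lit 471) (nat_lit 5) (nat_lit 412) (nat_lit 382) (nat_lit 346)) (XT.lf (nat_lit 0) (nat_lit 407140154) (nat_lit 1292) (nat_lit 1866409132) (nat_lit 76) (nat_lit 4948981061) (nat_lit 453) (nat_lit 5) (nat_lit 470) (nat_lit 5) (nat_lit 454) (nat_lit 5) (nat_lit 413) (nat_lit 382)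 (nat_lit 345)))))) (XT.nd (nat_lit 546) (nat_lit 5244) (nat_lit 0) (XT.nd (nat_lit 234) (nat_lit 3116) (nat_lit 0) (XT.nd (nat_lit 78) (nat_lit 1368) (nat_lit 0) (XT.lf (nat_lit 0) (nat_lit 2157847639) (nat_lit 1292) (nat_lit 461679385) (nat_lit 1368) (nat_lit 4650150222) (nat_lit 436) (nat_lit 5) (nat_lit 453) (nat_lit 5) (nat_lit 454) (nat_lit 5) (nat_lit 414) (nat_lit 382) (nat_lit 344)) (XT.nd (nat_lit 78) (nat_lit 1368) (nat_lit 0) (XT.lf (nat_lit 0) (nat_lit 4852459713) (nat_lit 1368) (nat_lit 1077150366) (nat_lit 76) (nat_lit 1388689061) (nat_lit 436) (nat_lit 5) (nat_lit 454) (nat_lit 5) (nat_lit 437) (nat_lit 5) (nat_lit 415) (nat_lit 382) (nat_lit 343)) (XT.lf (nat_lit 0) (nat_lit 3037315175) (nat_lit 1368) (nat_lit 4071091016) (nat_lit 1444) (nat_lit 259977062) (nat_lit 418) (nat_lit 5) (nat_lit 436) (nat_lit 5) (nat_lit 437) (nat_lit 5) (nat_lit 416) (nat_lit 382) (nat_lit 342)))) (XT.nd (nat_lit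 156) (nat_lit 1596) (nat_lit 0) (XT.nd (nat_lit 78) (nat_lit 1444) (nat_lit 0) (XT.lf (nat_lit 0) (nat_lit 1927039716) (nat_lit 1444) (nat_lit 221699763) (nat_lit 76) (nat_lit 5271263105) (nat_lit 417) (nat_lit 5) (nat_lit 436) (nat_lit 5) (nat_lit 418) (nat_lit 5) (nat_lit 417) (nat_lit 382) (nat_lit 341)) (XT.lf (nat_lit 0) (nat_lit 3983041063) (nat_lit 1444) (nat_lit 153864249) (nat_lit 1520) (nat_lit 3336116430) (nat_lit 398) (nat_lit 5) (nat_lit 417) (nat_lit 5) (nat_lit 418) (nat_lit 5) (nat_lit 418) (nat_lit 382) (nat_lit 340))) (XT.nd (nat_lit 78) (nat_lit 76) (nat_lit 0) (XT.lf (nat_lit 0) (nat_lit 706830666) (nat_lit 1520) (nat_lit 5659806188) (nat_lit 1596) (nat_lit 1161003609) (nat_lit 378) (nat_lit 5) (nat_lit 398) (nat_lit 5) (nat_lit 399) (nat_lit 5) (nat_lit 419) (nat_lit 382) (nat_lit 339)) (XT.lf (nat_lit 0) (nat_lit 1025965471) (nat_lit 1596) (nat_lit 2594429448) (nat_lit 76) (nat_lit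 3963225317) (nat_lit 377) (nat_lit 5) (nat_lit 398) (nat_lit 5) (nat_lit 378) (nat_lit 5) (nat_lit 420) (nat_lit 382) (nat_lit 338))))) (XT.nd (nat_lit 234) (nat_lit 1976) (nat_lit 0) (XT.nd (nat_lit 78) (nat_lit 1672) (nat_lit 0) (XT.lf (nat_lit 0) (nat_lit 1693359884) (nat_lit 1596) (nat_lit 1517239015) (nat_lit 1672) (nat_lit 4430627323) (nat_lit 356) (nat_lit 5) (nat_lit 377) (nat_lit 5) (nat_lit 378) (nat_lit 5) (nat_lit 421) (nat_lit 382) (nat_lit 337)) (XT.nd (nat_lit 78) (nat_lit 1672) (nat_lit 0) (XT.lf (nat_lit 0) (nat_lit 5419584324) (nat_lit 1672) (nat_lit 1640037560) (nat_lit 76) (nat_lit 640797808) (nat_lit 356) (nat_lit 5) (nat_lit 378) (nat_lit 5) (nat_lit 357) (nat_lit 5) (nat_lit 422) (nat_lit 382) (nat_lit 336)) (XT.lf (nat_lit 0) (nat_lit 2742334647) (nat_lit 1672) (nat_lit 4918127392) (nat_lit 1748) (nat_lit 100628336) (nat_lit 334) (nat_lit 5) (nat_lit 356) (nat_lit 5) (nat_lit 357)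 (nat_lit 5) (nat_lit 423) (nat_lit 382) (nat_lit 335)))) (XT.nd (nat_lit 156) (nat_lit 912) (nat_lit 0) (XT.nd (nat_lit 78) (nat_lit 988) (nat_lit 0) (XT.lf (nat_lit 0) (nat_lit 2066511616) (nat_lit 1748) (nat_lit 639887465) (nat_lit 76) (nat_lit 5116921942) (nat_lit 333) (nat_lit 5) (nat_lit 356) (nat_lit 5) (nat_lit 334) (nat_lit 5) (nat_lit 424) (nat_lit 382) (nat_lit 334)) (XT.lf (nat_lit 0) (nat_lit 3839124372) (nat_lit 988) (nat_lit 422328716) (nat_lit 1064) (nat_lit 3625658623) (nat_lit 320) (nat_lit 5) (nat_lit 333) (nat_lit 5) (nat_lit 334) (nat_lit 5) (nat_lit 425) (nat_lit 382) (nat_lit 333))) (XT.nd (nat_lit 78) (nat_lit 76) (nat_lit 0) (XT.lf (nat_lit 0) (nat_lit 419688561) (nat_lit 836) (nat_lit 6061453967) (nat_lit 912) (nat_lit 1471462671) (nat_lit 309) (nat_lit 5) (nat_lit 320) (nat_lit 5) (nat_lit 321) (nat_lit 5) (nat_lit 426) (nat_lit 382) (nat_lit 332)) (XT.lf (nat_lit 0) (nat_lit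 708075135) (nat_lit 912) (nat_lit 3032970082) (nat_lit 76) (nat_lit 4278475812) (nat_lit 308) (nat_lit 5) (nat_lit 320) (nat_lit 5) (nat_lit 309) (nat_lit 5) (nat_lit 427) (nat_lit 382) (nat_lit 331))))))) (XT.nd (nat_lit 1014) (nat_lit 4940) (nat_lit 0) (XT.nd (nat_lit 468) (nat_lit 2280) (nat_lit 0) (XT.nd (nat_lit 234) (nat_lit 1520) (nat_lit 0) (XT.nd (nat_lit 78) (nat_lit 760) (nat_lit 0) (XT.lf (nat_lit 0) (nat_lit 1530037473) (nat_lit 836) (nat_lit 1353804268) (nat_lit 912) (nat_lit 5204333526) (nat_lit 297) (nat_lit 5) (nat_lit 308) (nat_lit 5) (nat_lit 309) (nat_lit 5) (nat_lit 428) (nat_lit 382) (nat_lit 330)) (XT.nd (nat_lit 78) (nat_lit 760) (nat_lit 0) (XT.lf (nat_lit 0) (nat_lit 5093517333) (nat_lit 912) (nat_lit 1977330466) (nat_lit 76) (nat_lit 1087587539) (nat_lit 297) (nat_lit 5) (nat_lit 309) (nat_lit 5) (nat_lit 298) (nat_lit 5) (nat_lit 429) (nat_lit 382) (nat_lit 329)) (XT.lf (nat_lit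 0) (nat_lit 2684275020) (nat_lit 760) (nat_lit 4653119115) (nat_lit 836) (nat_lit 892946148) (nat_lit 287) (nat_lit 5) (nat_lit 297) (nat_lit 5) (nat_lit 298) (nat_lit 5) (nat_lit 430) (nat_lit 382) (nat_lit 328)))) (XT.nd (nat_lit 78) (nat_lit 1444) (nat_lit 0) (XT.lf (nat_lit 0) (nat_lit 1282289669) (nat_lit 836) (nat_lit 883508838) (nat_lit 76) (nat_lit 6138207996) (nat_lit 286) (nat_lit 5) (nat_lit 297) (nat_lit 5) (nat_lit 287) (nat_lit 5) (nat_lit 431) (nat_lit 382) (nat_lit 327)) (XT.nd (nat_lit 78) (nat_lit 684) (nat_lit 0) (XT.lf (nat_lit 0) (nat_lit 3481411697) (nat_lit 836) (nat_lit 4501199762) (nat_lit 76) (nat_lit 396607308) (nat_lit 276) (nat_lit 5) (nat_lit 287) (nat_lit 5) (nat_lit 277) (nat_lit 5) (nat_lit 432) (nat_lit 382) (nat_lit 326)) (XT.lf (nat_lit 0) (nat_lit 242648777) (nat_lit 684) (nat_lit 5468726467) (nat_lit 760) (nat_lit 2744859646) (nat_lit 267) (nat_lit 5) (nat_lit 276)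 (nat_lit 5) (nat_lit 277) (nat_lit 5) (nat_lit 433) (nat_lit 382) (nat_lit 325))))) (XT.nd (nat_lit 234) (nat_lit 1444) (nat_lit 0) (XT.nd (nat_lit 78) (nat_lit 836) (nat_lit 0) (XT.lf (nat_lit 0) (nat_lit 5105545032) (nat_lit 684) (nat_lit 2876018579) (nat_lit 760) (nat_lit 553351286) (nat_lit 267) (nat_lit 5) (nat_lit 276) (nat_lit 5) (nat_lit 277) (nat_lit 5) (nat_lit 434) (nat_lit 382) (nat_lit 324)) (XT.nd (nat_lit 78) (nat_lit 0) (nat_lit 0) (XT.lf (nat_lit 0) (nat_lit 1421644833) (nat_lit 760) (nat_lit 213351851) (nat_lit 836) (nat_lit 6980486697) (nat_lit 256) (nat_lit 5) (nat_lit 266) (nat_lit 5) (nat_lit 267) (nat_lit 5) (nat_lit 435) (nat_lit 382) (nat_lit 323)) (XT.lf (nat_lit 0) (nat_lit 3865378070) (nat_lit 836) (nat_lit 2338163412) (nat_lit 76) (nat_lit 2493969078) (nat_lit 256) (nat_lit 5) (nat_lit 267) (nat_lit 5) (nat_lit 257) (nat_lit 5) (nat_lit 436) (nat_lit 382) (nat_lit 322))))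 (XT.nd (nat_lit 156) (nat_lit 760) (nat_lit 0) (XT.nd (nat_lit 78) (nat_lit 0) (nat_lit 0) (XT.lf (nat_lit 0) (nat_lit 2611123383) (nat_lit 684) (nat_lit 3514526719) (nat_lit 760) (nat_lit 2655855843) (nat_lit 247) (nat_lit 5) (nat_lit 256) (nat_lit 5) (nat_lit 257) (nat_lit 5) (nat_lit 437) (nat_lit 382) (nat_lit 321)) (XT.lf (nat_lit 0) (nat_lit 7654995107) (nat_lit 684) (nat_lit 759154057) (nat_lit 760) (nat_lit 453404314) (nat_lit 247) (nat_lit 5) (nat_lit 256) (nat_lit 5) (nat_lit 257) (nat_lit 5) (nat_lit 438) (nat_lit 382) (nat_lit 320))) (XT.nd (nat_lit 78) (nat_lit 0) (nat_lit 0) (XT.lf (nat_lit 0) (nat_lit 1775825293) (nat_lit 760) (nat_lit 5121412439) (nat_lit 76) (nat_lit 2057757877) (nat_lit 237) (nat_lit 5) (nat_lit 247) (nat_lit 5) (nat_lit 238) (nat_lit 5) (nat_lit 439) (nat_lit 382) (nat_lit 319)) (XT.lf (nat_lit 0) (nat_lit 4024897786) (nat_lit 760) (nat_lit 91279646) (nat_lit 76) (nat_lit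 4928353410) (nat_lit 237) (nat_lit 5) (nat_lit 247) (nat_lit 5) (nat_lit 238) (nat_lit 5) (nat_lit 440) (nat_lit 382) (nat_lit 318)))))) (XT.nd (nat_lit 546) (nat_lit 2280) (nat_lit 0) (XT.nd (nat_lit 234) (nat_lit 1292) (nat_lit 0) (XT.nd (nat_lit 78) (nat_lit 760) (nat_lit 0) (XT.lf (nat_lit 0) (nat_lit 5070410224) (nat_lit 608) (nat_lit 1250192755) (nat_lit 684) (nat_lit 2815250959) (nat_lit 229) (nat_lit 5) (nat_lit 237) (nat_lit 5) (nat_lit 238) (nat_lit 5) (nat_lit 441) (nat_lit 382) (nat_lit 317)) (XT.nd (nat_lit 78) (nat_lit 76) (nat_lit 0) (XT.lf (nat_lit 0) (nat_lit 1074880575) (nat_lit 684) (nat_lit 7574885989) (nat_lit 760) (nat_lit 579515638) (nat_lit 220) (nat_lit 5) (nat_lit 229) (nat_lit 5) (nat_lit 230) (nat_lit 5) (nat_lit 442) (nat_lit 382) (nat_lit 316)) (XT.lf (nat_lit 0) (nat_lit 1683597131) (nat_lit 760) (nat_lit 3006548206) (nat_lit 76) (nat_lit 4634141848) (nat_lit 219) (nat_lit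 5) (nat_lit 229) (nat_lit 5) (nat_lit 220) (nat_lit 5) (nat_lit 443) (nat_lit 382) (nat_lit 315)))) (XT.nd (nat_lit 156) (nat_lit 684) (nat_lit 0) (XT.nd (nat_lit 78) (nat_lit 0) (nat_lit 0) (XT.lf (nat_lit 0) (nat_lit 2234305570) (nat_lit 608) (nat_lit 1734253506) (nat_lit 684) (nat_lit 5452897534) (nat_lit 211) (nat_lit 5) (nat_lit 219) (nat_lit 5) (nat_lit 220) (nat_lit 5) (nat_lit 444) (nat_lit 382) (nat_lit 314)) (XT.lf (nat_lit 0) (nat_lit 6298005778) (nat_lit 684) (nat_lit 1943661667) (nat_lit 76) (nat_lit 1278953604) (nat_lit 211) (nat_lit 5) (nat_lit 220) (nat_lit 5) (nat_lit 212) (nat_lit 5) (nat_lit 445) (nat_lit 382) (nat_lit 313))) (XT.nd (nat_lit 78) (nat_lit 76) (nat_lit 0) (XT.lf (nat_lit 0) (nat_lit 3402764158) (nat_lit 608) (nat_lit 5275601329) (nat_lit 684) (nat_lit 943343612) (nat_lit 203) (nat_lit 5) (nat_lit 211) (nat_lit 5) (nat_lit 212) (nat_lit 5) (nat_lit 446) (nat_lit 382) (nat_lit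 312)) (XT.lf (nat_lit 0) (nat_lit 1347400003) (nat_lit 684) (nat_lit 886406901) (nat_lit 76) (nat_lit 7491178265) (nat_lit 202) (nat_lit 5) (nat_lit 211) (nat_lit 5) (nat_lit 203) (nat_lit 5) (nat_lit 447) (nat_lit 382) (nat_lit 311))))) (XT.nd (nat_lit 234) (nat_lit 1140) (nat_lit 0) (XT.nd (nat_lit 78) (nat_lit 608) (nat_lit 0) (XT.lf (nat_lit 0) (nat_lit 3678309825) (nat_lit 608) (nat_lit 5264114855) (nat_lit 76) (nat_lit 887662974) (nat_lit 195) (nat_lit 5) (nat_lit 203) (nat_lit 5) (nat_lit 196) (nat_lit 5) (nat_lit 448) (nat_lit 382) (nat_lit 310)) (XT.nd (nat_lit 78) (nat_lit 0) (nat_lit 0) (XT.lf (nat_lit 0) (nat_lit 154547760) (nat_lit 608) (nat_lit 5894818744) (nat_lit 684) (nat_lit 3888079871) (nat_lit 187) (nat_lit 5) (nat_lit 195) (nat_lit 5) (nat_lit 196) (nat_lit 5) (nat_lit 449) (nat_lit 382) (nat_lit 309)) (XT.lf (nat_lit 0) (nat_lit 5718280927) (nat_lit 608) (nat_lit 2756961542) (nat_lit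 684) (nat_lit 1571586116) (nat_lit 187) (nat_lit 5) (nat_lit 195) (nat_lit 5) (nat_lit 196) (nat_lit 5) (nat_lit 450) (nat_lit 382) (nat_lit 308)))) (XT.nd (nat_lit 156) (nat_lit 532) (nat_lit 0) (XT.nd (nat_lit 78) (nat_lit 0) (nat_lit 0) (XT.lf (nat_lit 0) (nat_lit 764063138) (nat_lit 608) (nat_lit 8950366342) (nat_lit 76) (nat_lit 444225488) (nat_lit 179) (nat_lit 5) (nat_lit 187) (nat_lit 5) (nat_lit 180) (nat_lit 5) (nat_lit 451) (nat_lit 382) (nat_lit 307)) (XT.lf (nat_lit 0) (nat_lit 3145589201) (nat_lit 608) (nat_lit 3421125825) (nat_lit 76) (nat_lit 3705413819) (nat_lit 179) (nat_lit 5) (nat_lit 187) (nat_lit 5) (nat_lit 180) (nat_lit 5) (nat_lit 452) (nat_lit 382) (nat_lit 306))) (XT.nd (nat_lit 78) (nat_lit 0) (nat_lit 0) (XT.lf (nat_lit 0) (nat_lit 2213746040) (nat_lit 532) (nat_lit 3348598802) (nat_lit 608) (nat_lit 4825797803) (nat_lit 172) (nat_lit 5) (nat_lit 179) (nat_lit 5) (nat_lit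 180) (nat_lit 5) (nat_lit 453) (nat_lit 382) (nat_lit 305)) (XT.lf (nat_lit 0) (nat_lit 7973926066) (nat_lit 532) (nat_lit 49998802) (nat_lit 608) (nat_lit 2482644054) (nat_lit 172) (nat_lit 5) (nat_lit 179) (nat_lit 5) (nat_lit 180) (nat_lit 5) (nat_lit 454) (nat_lit 382) (nat_lit 304))))))))
noncomputable def xc109 : XT := (XT.nd (nat_lit 2106) (nat_lit 3420) (nat_lit 0) (XT.nd (nat_lit 1014) (nat_lit 2660) (nat_lit 0) (XT.nd (nat_lit 468) (nat_lit 1824) (nat_lit 0) (XT.nd (nat_lit 234) (nat_lit 532) (nat_lit 0) (XT.nd (nat_lit 78) (nat_lit 608) (nat_lit 0) (XT.lf (nat_lit 0) (nat_lit 3208915448) (nat_lit 456) (nat_lit 7342180126) (nat_lit 532) (nat_lit 75962525) (nat_lit 166) (nat_lit 5) (nat_lit 172) (nat_lit 5) (nat_lit 173) (nat_lit 5) (nat_lit 455) (nat_lit 382) (nat_lit 303)) (XT.nd (nat_lit 78) (nat_lit 532) (nat_lit 0) (XT.lf (nat_lit 0) (nat_lit 2339198814) (nat_lit 532) (nat_lit 1699609775)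 (nat_lit 76) (nat_lit 6711029383) (nat_lit 165) (nat_lit 5) (nat_lit 172) (nat_lit 5) (nat_lit 166) (nat_lit 5) (nat_lit 456) (nat_lit 382) (nat_lit 302)) (XT.lf (nat_lit 0) (nat_lit 4154195855) (nat_lit 532) (nat_lit 649037076) (nat_lit 608) (nat_lit 6071819046) (nat_lit 158) (nat_lit 5) (nat_lit 165) (nat_lit 5) (nat_lit 166) (nat_lit 5) (nat_lit 457) (nat_lit 382) (nat_lit 301)))) (XT.nd (nat_lit 78) (nat_lit 532) (nat_lit 0) (XT.lf (nat_lit 0) (nat_lit 7321111364) (nat_lit 608) (nat_lit 906068095) (nat_lit 76) (nat_lit 2775519447) (nat_lit 158) (nat_lit 5) (nat_lit 166) (nat_lit 5) (nat_lit 159) (nat_lit 5) (nat_lit 458) (nat_lit 382) (nat_lit 300)) (XT.nd (nat_lit 78) (nat_lit 76) (nat_lit 0) (XT.lf (nat_lit 0) (nat_lit 5054327593) (nat_lit 456) (nat_lit 4847475240) (nat_lit 532) (nat_lit 1230866354) (nat_lit 152) (nat_lit 5) (nat_lit 158) (nat_lit 5) (nat_lit 159) (nat_lit 5) (nat_lit 459) (nat_lit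 382) (nat_lit 299)) (XT.lf (nat_lit 0) (nat_lit 1233781776) (nat_lit 532) (nat_lit 159991200) (nat_lit 76) (nat_lit 9871688818) (nat_lit 151) (nat_lit 5) (nat_lit 158) (nat_lit 5) (nat_lit 152) (nat_lit 5) (nat_lit 460) (nat_lit 382) (nat_lit 298))))) (XT.nd (nat_lit 234) (nat_lit 912) (nat_lit 0) (XT.nd (nat_lit 78) (nat_lit 456) (nat_lit 0) (XT.lf (nat_lit 0) (nat_lit 3759648320) (nat_lit 532) (nat_lit 5500585704) (nat_lit 76) (nat_lit 2139963771) (nat_lit 145) (nat_lit 5) (nat_lit 152) (nat_lit 5) (nat_lit 146) (nat_lit 5) (nat_lit 461) (nat_lit 382) (nat_lit 297)) (XT.nd (nat_lit 78) (nat_lit 0) (nat_lit 0) (XT.lf (nat_lit 0) (nat_lit 510025590) (nat_lit 456) (nat_lit 5815756231) (nat_lit 532) (nat_lit 5212069739) (nat_lit 139) (nat_lit 5) (nat_lit 145) (nat_lit 5) (nat_lit 146) (nat_lit 5) (nat_lit 462) (nat_lit 382) (nat_lit 296)) (XT.lf (nat_lit 0) (nat_lit 6683228903) (nat_lit 456) (nat_lit 2273307244)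 (nat_lit 532) (nat_lit 2721473973) (nat_lit 139) (nat_lit 5) (nat_lit 145) (nat_lit 5) (nat_lit 146) (nat_lit 5) (nat_lit 463) (nat_lit 382) (nat_lit 295)))) (XT.nd (nat_lit 156) (nat_lit 380) (nat_lit 0) (XT.nd (nat_lit 78) (nat_lit 76) (nat_lit 0) (XT.lf (nat_lit 0) (nat_lit 1133108358) (nat_lit 456) (nat_lit 10499649004) (nat_lit 532) (nat_lit 188374792) (nat_lit 133) (nat_lit 5) (nat_lit 139) (nat_lit 5) (nat_lit 140) (nat_lit 5) (nat_lit 464) (nat_lit 382) (nat_lit 294)) (XT.lf (nat_lit 0) (nat_lit 2389639799) (nat_lit 532) (nat_lit 4578104891) (nat_lit 76) (nat_lit 4998564165) (nat_lit 132) (nat_lit 5) (nat_lit 139) (nat_lit 5) (nat_lit 133) (nat_lit 5) (nat_lit 465) (nat_lit 382) (nat_lit 293))) (XT.nd (nat_lit 78) (nat_lit 0) (nat_lit 0) (XT.lf (nat_lit 0) (nat_lit 1642849880) (nat_lit 380) (nat_lit 3361839481) (nat_lit 456) (nat_lit 7109931221) (nat_lit 127) (nat_lit 5) (nat_lit 132) (nat_lit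 5) (nat_lit 133) (nat_lit 5) (nat_lit 466) (nat_lit 382) (nat_lit 292)) (XT.lf (nat_lit 0) (nat_lit 7682530258) (nat_lit 456) (nat_lit 4248920895) (nat_lit 76) (nat_lit 334253603) (nat_lit 127) (nat_lit 5) (nat_lit 133) (nat_lit 5) (nat_lit 128) (nat_lit 5) (nat_lit 467) (nat_lit 382) (nat_lit 291)))))) (XT.nd (nat_lit 546) (nat_lit 1064) (nat_lit 0) (XT.nd (nat_lit 234) (nat_lit 760) (nat_lit 0) (XT.nd (nat_lit 78) (nat_lit 456) (nat_lit 0) (XT.lf (nat_lit 0) (nat_lit 2072259327) (nat_lit 380) (nat_lit 8355340413) (nat_lit 456) (nat_lit 1991953138) (nat_lit 122) (nat_lit 5) (nat_lit 127) (nat_lit 5) (nat_lit 128) (nat_lit 5) (nat_lit 468) (nat_lit 382) (nat_lit 290)) (XT.nd (nat_lit 78) (nat_lit 380) (nat_lit 0) (XT.lf (nat_lit 0) (nat_lit 649280637) (nat_lit 456) (nat_lit 4034009168) (nat_lit 76) (nat_lit 7892984161) (nat_lit 121) (nat_lit 5) (nat_lit 127) (nat_lit 5) (nat_lit 122) (nat_lit 5) (nat_lit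 469) (nat_lit 382) (nat_lit 289)) (XT.lf (nat_lit 0) (nat_lit 2393203414) (nat_lit 380) (nat_lit 917483346) (nat_lit 456) (nat_lit 9425313776) (nat_lit 116) (nat_lit 5) (nat_lit 121) (nat_lit 5) (nat_lit 122) (nat_lit 5) (nat_lit 470) (nat_lit 382) (nat_lit 288)))) (XT.nd (nat_lit 156) (nat_lit 380) (nat_lit 0) (XT.nd (nat_lit 78) (nat_lit 380) (nat_lit 0) (XT.lf (nat_lit 0) (nat_lit 6050176495) (nat_lit 456) (nat_lit 3944613906) (nat_lit 76) (nat_lit 2903648635) (nat_lit 116) (nat_lit 5) (nat_lit 122) (nat_lit 5) (nat_lit 117) (nat_lit 5) (nat_lit 471) (nat_lit 382) (nat_lit 287)) (XT.lf (nat_lit 0) (nat_lit 2579170963) (nat_lit 380) (nat_lit 6267149624) (nat_lit 456) (nat_lit 4217782650) (nat_lit 111) (nat_lit 5) (nat_lit 116) (nat_lit 5) (nat_lit 117) (nat_lit 5) (nat_lit 472) (nat_lit 382) (nat_lit 286))) (XT.nd (nat_lit 78) (nat_lit 380) (nat_lit 0) (XT.lf (nat_lit 0) (nat_lit 9256987664) (nat_lit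 380) (nat_lit 2447129862) (nat_lit 456) (nat_lit 1528862539) (nat_lit 111) (nat_lit 5) (nat_lit 116) (nat_lit 5) (nat_lit 117) (nat_lit 5) (nat_lit 473) (nat_lit 382) (nat_lit 285)) (XT.lf (nat_lit 0) (nat_lit 1204225301) (nat_lit 380) (nat_lit 10754146112) (nat_lit 76) (nat_lit 1446592618) (nat_lit 106) (nat_lit 5) (nat_lit 111) (nat_lit 5) (nat_lit 107) (nat_lit 5) (nat_lit 474) (nat_lit 382) (nat_lit 284))))) (XT.nd (nat_lit 234) (nat_lit 684) (nat_lit 0) (XT.nd (nat_lit 78) (nat_lit 380) (nat_lit 0) (XT.lf (nat_lit 0) (nat_lit 3994255689) (nat_lit 380) (nat_lit 4172079301) (nat_lit 76) (nat_lit 5413408664) (nat_lit 106) (nat_lit 5) (nat_lit 111) (nat_lit 5) (nat_lit 107) (nat_lit 5) (nat_lit 475) (nat_lit 382) (nat_lit 283)) (XT.nd (nat_lit 78) (nat_lit 0) (nat_lit 0) (XT.lf (nat_lit 0) (nat_lit 2545824115) (nat_lit 380) (nat_lit 4290859658) (nat_lit 456) (nat_lit 6921416036) (nat_lit 101) (nat_lit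 5) (nat_lit 106) (nat_lit 5) (nat_lit 107) (nat_lit 5) (nat_lit 476) (nat_lit 382) (nat_lit 282)) (XT.lf (nat_lit 0) (nat_lit 9425637627) (nat_lit 380) (nat_lit 318590079) (nat_lit 456) (nat_lit 4195642665) (nat_lit 101) (nat_lit 5) (nat_lit 106) (nat_lit 5) (nat_lit 107) (nat_lit 5) (nat_lit 477) (nat_lit 382) (nat_lit 281)))) (XT.nd (nat_lit 156) (nat_lit 304) (nat_lit 0) (XT.nd (nat_lit 78) (nat_lit 76) (nat_lit 0) (XT.lf (nat_lit 0) (nat_lit 2294857444) (nat_lit 304) (nat_lit 10434801005) (nat_lit 380) (nat_lit 1395235558) (nat_lit 97) (nat_lit 5) (nat_lit 101) (nat_lit 5) (nat_lit 102) (nat_lit 5) (nat_lit 478) (nat_lit 382) (nat_lit 280)) (XT.lf (nat_lit 0) (nat_lit 1455273352) (nat_lit 380) (nat_lit 5052341504) (nat_lit 76) (nat_lit 7805560274) (nat_lit 96) (nat_lit 5) (nat_lit 101) (nat_lit 5) (nat_lit 97) (nat_lit 5) (nat_lit 479) (nat_lit 382) (nat_lit 279))) (XT.nd (nat_lit 78) (nat_lit 0)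 (nat_lit 0) (XT.lf (nat_lit 0) (nat_lit 1847612127) (nat_lit 304) (nat_lit 2489544768) (nat_lit 380) (nat_lit 10168031266) (nat_lit 92) (nat_lit 5) (nat_lit 96) (nat_lit 5) (nat_lit 97) (nat_lit 5) (nat_lit 480) (nat_lit 382) (nat_lit 278)) (XT.lf (nat_lit 0) (nat_lit 7302414648) (nat_lit 380) (nat_lit 5785410685) (nat_lit 76) (nat_lit 1612712825) (nat_lit 92) (nat_lit 5) (nat_lit 97) (nat_lit 5) (nat_lit 93) (nat_lit 5) (nat_lit 481) (nat_lit 382) (nat_lit 277))))))) (XT.nd (nat_lit 1092) (nat_lit 1520) (nat_lit 0) (XT.nd (nat_lit 546) (nat_lit 988) (nat_lit 0) (XT.nd (nat_lit 234) (nat_lit 228) (nat_lit 0) (XT.nd (nat_lit 78) (nat_lit 380) (nat_lit 0) (XT.lf (nat_lit 0) (nat_lit 1195520312) (nat_lit 304) (nat_lit 9137237956) (nat_lit 380) (nat_lit 4566932488) (nat_lit 88) (nat_lit 5) (nat_lit 92) (nat_lit 5) (nat_lit 93) (nat_lit 5) (nat_lit 482) (nat_lit 382) (nat_lit 276)) (XT.nd (nat_lit 78) (nat_lit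 380) (nat_lit 0) (XT.lf (nat_lit 0) (nat_lit 8366805979) (nat_lit 304) (nat_lit 5077439847) (nat_lit 380) (nat_lit 1658180832) (nat_lit 88) (nat_lit 5) (nat_lit 92) (nat_lit 5) (nat_lit 93) (nat_lit 5) (nat_lit 483) (nat_lit 382) (nat_lit 275)) (XT.lf (nat_lit 0) (nat_lit 340879152) (nat_lit 304) (nat_lit 934858583) (nat_lit 380) (nat_lit 14033637040) (nat_lit 83) (nat_lit 5) (nat_lit 87) (nat_lit 5) (nat_lit 88) (nat_lit 5) (nat_lit 484) (nat_lit 382) (nat_lit 274)))) (XT.nd (nat_lit 156) (nat_lit 228) (nat_lit 0) (XT.nd (nat_lit 78) (nat_lit 0) (nat_lit 0) (XT.lf (nat_lit 0) (nat_lit 4295075736) (nat_lit 380) (nat_lit 7929512516) (nat_lit 76) (nat_lit 3294685867) (nat_lit 83) (nat_lit 5) (nat_lit 88) (nat_lit 5) (nat_lit 84) (nat_lit 5) (nat_lit 485) (nat_lit 382) (nat_lit 273)) (XT.lf (nat_lit 0) (nat_lit 7363403242) (nat_lit 380) (nat_lit 782922717) (nat_lit 76) (nat_lit 7587283595) (nat_lit 83) (nat_lit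 5) (nat_lit 88) (nat_lit 5) (nat_lit 84) (nat_lit 5) (nat_lit 486) (nat_lit 382) (nat_lit 272))) (XT.nd (nat_lit 78) (nat_lit 0) (nat_lit 0) (XT.lf (nat_lit 0) (nat_lit 6566263812) (nat_lit 228) (nat_lit 3952222525) (nat_lit 304) (nat_lit 5433247537) (nat_lit 80) (nat_lit 5) (nat_lit 83) (nat_lit 5) (nat_lit 84) (nat_lit 5) (nat_lit 487) (nat_lit 382) (nat_lit 271)) (XT.lf (nat_lit 0) (nat_lit 13726939018) (nat_lit 304) (nat_lit 2129788970) (nat_lit 76) (nat_lit 317697096) (nat_lit 80) (nat_lit 5) (nat_lit 84) (nat_lit 5) (nat_lit 81) (nat_lit 5) (nat_lit 488) (nat_lit 382) (nat_lit 270))))) (XT.nd (nat_lit 234) (nat_lit 380) (nat_lit 0) (XT.nd (nat_lit 78) (nat_lit 228) (nat_lit 0) (XT.lf (nat_lit 0) (nat_lit 634135878) (nat_lit 380) (nat_lit 11116739827) (nat_lit 76) (nat_lit 4649746386) (nat_lit 75) (nat_lit 5) (nat_lit 80) (nat_lit 5) (nat_lit 76) (nat_lit 5) (nat_lit 489) (nat_lit 382) (nat_lit 269))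 (XT.nd (nat_lit 78) (nat_lit 228) (nat_lit 0) (XT.lf (nat_lit 0) (nat_lit 3742277887) (nat_lit 380) (nat_lit 3798773427) (nat_lit 76) (nat_lit 9090024176) (nat_lit 75) (nat_lit 5) (nat_lit 80) (nat_lit 5) (nat_lit 76) (nat_lit 5) (nat_lit 490) (nat_lit 382) (nat_lit 268)) (XT.lf (nat_lit 0) (nat_lit 3688327500) (nat_lit 228) (nat_lit 3231773064) (nat_lit 304) (nat_lit 9945896056) (nat_lit 72) (nat_lit 5) (nat_lit 75) (nat_lit 5) (nat_lit 76) (nat_lit 5) (nat_lit 491) (nat_lit 382) (nat_lit 267)))) (XT.nd (nat_lit 156) (nat_lit 76) (nat_lit 0) (XT.nd (nat_lit 78) (nat_lit 304) (nat_lit 0) (XT.lf (nat_lit 0) (nat_lit 10178364078) (nat_lit 304) (nat_lit 5761871092) (nat_lit 76) (nat_lit 1165052156) (nat_lit 72) (nat_lit 5) (nat_lit 76) (nat_lit 5) (nat_lit 73) (nat_lit 5) (nat_lit 492) (nat_lit 382) (nat_lit 266)) (XT.lf (nat_lit 0) (nat_lit 1778971660) (nat_lit 304) (nat_lit 11739762505) (nat_lit 380) (nat_lit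 3830299525) (nat_lit 68) (nat_lit 5) (nat_lit 72) (nat_lit 5) (nat_lit 73) (nat_lit 5) (nat_lit 493) (nat_lit 382) (nat_lit 265))) (XT.nd (nat_lit 78) (nat_lit 76) (nat_lit 0) (XT.lf (nat_lit 0) (nat_lit 9523700442) (nat_lit 304) (nat_lit 7425016380) (nat_lit 380) (nat_lit 648490554) (nat_lit 68) (nat_lit 5) (nat_lit 72) (nat_lit 5) (nat_lit 73) (nat_lit 5) (nat_lit 494) (nat_lit 382) (nat_lit 264)) (XT.lf (nat_lit 0) (nat_lit 2547234831) (nat_lit 380) (nat_lit 468641807) (nat_lit 76) (nat_lit 14834452048) (nat_lit 67) (nat_lit 5) (nat_lit 72) (nat_lit 5) (nat_lit 68) (nat_lit 5) (nat_lit 495) (nat_lit 382) (nat_lit 263)))))) (XT.nd (nat_lit 546) (nat_lit 760) (nat_lit 0) (XT.nd (nat_lit 234) (nat_lit 304) (nat_lit 0) (XT.nd (nat_lit 78) (nat_lit 228) (nat_lit 0) (XT.lf (nat_lit 0) (nat_lit 5840513254) (nat_lit 304) (nat_lit 10761461893) (nat_lit 76) (nat_lit 1505613119) (nat_lit 64) (nat_lit 5) (nat_lit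 68) (nat_lit 5) (nat_lit 65) (nat_lit 5) (nat_lit 496) (nat_lit 382) (nat_lit 262)) (XT.nd (nat_lit 78) (nat_lit 228) (nat_lit 0) (XT.lf (nat_lit 0) (nat_lit 9207529074) (nat_lit 304) (nat_lit 3090750109) (nat_lit 76) (nat_lit 6071564268) (nat_lit 64) (nat_lit 5) (nat_lit 68) (nat_lit 5) (nat_lit 65) (nat_lit 5) (nat_lit 497) (nat_lit 382) (nat_lit 261)) (XT.lf (nat_lit 0) (nat_lit 4772071375) (nat_lit 228) (nat_lit 7885830108) (nat_lit 304) (nat_lit 5979129629) (nat_lit 61) (nat_lit 5) (nat_lit 64) (nat_lit 5) (nat_lit 65) (nat_lit 5) (nat_lit 498) (nat_lit 382) (nat_lit 260)))) (XT.nd (nat_lit 156) (nat_lit 0) (nat_lit 0) (XT.nd (nat_lit 78) (nat_lit 304) (nat_lit 0) (XT.lf (nat_lit 0) (nat_lit 12810311290) (nat_lit 228) (nat_lit 3372882808) (nat_lit 304) (nat_lit 2726257720) (nat_lit 61) (nat_lit 5) (nat_lit 64) (nat_lit 5) (nat_lit 65) (nat_lit 5) (nat_lit 499) (nat_lit 382) (nat_lit 259)) (XT.lf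 (nat_lit 0) (nat_lit 589112620) (nat_lit 304) (nat_lit 17376808858) (nat_lit 76) (nat_lit 1221225866) (nat_lit 57) (nat_lit 5) (nat_lit 61) (nat_lit 5) (nat_lit 58) (nat_lit 5) (nat_lit 500) (nat_lit 382) (nat_lit 258))) (XT.nd (nat_lit 78) (nat_lit 0) (nat_lit 0) (XT.lf (nat_lit 0) (nat_lit 3983294211) (nat_lit 304) (nat_lit 9573114355) (nat_lit 76) (nat_lit 5912654745) (nat_lit 57) (nat_lit 5) (nat_lit 61) (nat_lit 5) (nat_lit 58) (nat_lit 5) (nat_lit 501) (nat_lit 382) (nat_lit 257)) (XT.lf (nat_lit 0) (nat_lit 7431082814) (nat_lit 304) (nat_lit 1636440053) (nat_lit 76) (nat_lit 10689387236) (nat_lit 57) (nat_lit 5) (nat_lit 61) (nat_lit 5) (nat_lit 58) (nat_lit 5) (nat_lit 502) (nat_lit 382) (nat_lit 256))))) (XT.nd (nat_lit 234) (nat_lit 304) (nat_lit 0) (XT.nd (nat_lit 78) (nat_lit 228) (nat_lit 0) (XT.lf (nat_lit 0) (nat_lit 6521861859) (nat_lit 228) (nat_lit 4454312894) (nat_lit 304) (nat_lit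 9073778960) (nat_lit 54) (nat_lit 5) (nat_lit 57) (nat_lit 5) (nat_lit 58) (nat_lit 5) (nat_lit 503) (nat_lit 382) (nat_lit 255)) (XT.nd (nat_lit 78) (nat_lit 228) (nat_lit 0) (XT.lf (nat_lit 0) (nat_lit 14590929068) (nat_lit 304) (nat_lit 5507550197) (nat_lit 76) (nat_lit 250410423) (nat_lit 54) (nat_lit 5) (nat_lit 58) (nat_lit 5) (nat_lit 55) (nat_lit 5) (nat_lit 504) (nat_lit 382) (nat_lit 254)) (XT.lf (nat_lit 0) (nat_lit 2656468712) (nat_lit 228) (nat_lit 15654604829) (nat_lit 304) (nat_lit 2342075509) (nat_lit 51) (nat_lit 5) (nat_lit 54) (nat_lit 5) (nat_lit 55) (nat_lit 5) (nat_lit 505) (nat_lit 382) (nat_lit 253)))) (XT.nd (nat_lit 156) (nat_lit 228) (nat_lit 0) (XT.nd (nat_lit 78) (nat_lit 0) (nat_lit 0) (XT.lf (nat_lit 0) (nat_lit 1150728231) (nat_lit 304) (nat_lit 9934306043) (nat_lit 76) (nat_lit 9877845729) (nat_lit 50) (nat_lit 5) (nat_lit 54) (nat_lit 5) (nat_lit 51) (nat_lit 5) (nat_lit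 506) (nat_lit 382) (nat_lit 252)) (XT.lf (nat_lit 0) (nat_lit 4668700905) (nat_lit 304) (nat_lit 1748072833) (nat_lit 76) (nat_lit 14861994939) (nat_lit 50) (nat_lit 5) (nat_lit 54) (nat_lit 5) (nat_lit 51) (nat_lit 5) (nat_lit 507) (nat_lit 382) (nat_lit 251))) (XT.nd (nat_lit 78) (nat_lit 0) (nat_lit 0) (XT.lf (nat_lit 0) (nat_lit 6667886416) (nat_lit 228) (nat_lit 1619344777) (nat_lit 304) (nat_lit 13313146040) (nat_lit 47) (nat_lit 5) (nat_lit 50) (nat_lit 5) (nat_lit 51) (nat_lit 5) (nat_lit 508) (nat_lit 382) (nat_lit 250)) (XT.lf (nat_lit 0) (nat_lit 11998167576) (nat_lit 304) (nat_lit 6695177198) (nat_lit 76) (nat_lit 3234678425) (nat_lit 47) (nat_lit 5) (nat_lit 51) (nat_lit 5) (nat_lit 48) (nat_lit 5) (nat_lit 509) (nat_lit 382) (nat_lit 249))))))))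
noncomputable def xc110 : XT := (XT.nd (nat_lit 50232) (nat_lit 0) (nat_lit 26372) (XT.nd (nat_lit 1014) (nat_lit 228) (nat_lit 0) (XT.nd (nat_lit 468) (nat_lit 608) (nat_lit 0) (XT.nd (nat_lit 234) (nat_lit 228) (nat_lit 0) (XT.nd (nat_lit 78) (nat_lit 76) (nat_lit 0) (XT.lf (nat_lit 0) (nat_lit 1697321776) (nat_lit 152) (nat_lit 14094970797) (nat_lit 228) (nat_lit 6469755948) (nat_lit 45) (nat_lit 5) (nat_lit 47) (nat_lit 5) (nat_lit 48) (nat_lit 5) (nat_lit 510) (nat_lit 382) (nat_lit 248)) (XT.nd (nat_lit 78) (nat_lit 76) (nat_lit 0) (XT.lf (nat_lit 0) (nat_lit 10327466958) (nat_lit 152) (nat_lit 9367101286) (nat_lit 228) (nat_lit 2907546461) (nat_lit 45) (nat_lit 5) (nat_lit 47) (nat_lit 5) (nat_lit 48) (nat_lit 5) (nat_lit 511) (nat_lit 382) (nat_lit 247)) (XT.lf (nat_lit 0) (nat_lit 703887326) (nat_lit 228) (nat_lit 3844199557) (nat_lit 76) (nat_lit 18401056556) (nat_lit 44) (nat_lit 5) (nat_lit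 47) (nat_lit 5) (nat_lit 45) (nat_lit 5) (nat_lit 512) (nat_lit 382) (nat_lit 246)))) (XT.nd (nat_lit 78) (nat_lit 0) (nat_lit 0) (XT.lf (nat_lit 0) (nat_lit 4370086823) (nat_lit 304) (nat_lit 18527070150) (nat_lit 76) (nat_lit 405147405) (nat_lit 41) (nat_lit 5) (nat_lit 45) (nat_lit 5) (nat_lit 42) (nat_lit 5) (nat_lit 513) (nat_lit 382) (nat_lit 245)) (XT.nd (nat_lit 78) (nat_lit 0) (nat_lit 0) (XT.lf (nat_lit 0) (nat_lit 8153500234) (nat_lit 304) (nat_lit 10093512835) (nat_lit 76) (nat_lit 5414642952) (nat_lit 41) (nat_lit 5) (nat_lit 45) (nat_lit 5) (nat_lit 42) (nat_lit 5) (nat_lit 514) (nat_lit 382) (nat_lit 244)) (XT.lf (nat_lit 0) (nat_lit 12000623780) (nat_lit 304) (nat_lit 1511260294) (nat_lit 76) (nat_lit 10516554966) (nat_lit 41) (nat_lit 5) (nat_lit 45) (nat_lit 5) (nat_lit 42) (nat_lit 5) (nat_lit 515) (nat_lit 382) (nat_lit 243))))) (XT.nd (nat_lit 234) (nat_lit 228) (nat_lit 0) (XT.nd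 (nat_lit 78) (nat_lit 228) (nat_lit 0) (XT.lf (nat_lit 0) (nat_lit 7319043636) (nat_lit 152) (nat_lit 8641442586) (nat_lit 228) (nat_lit 8441360647) (nat_lit 39) (nat_lit 5) (nat_lit 41) (nat_lit 5) (nat_lit 42) (nat_lit 5) (nat_lit 516) (nat_lit 382) (nat_lit 242)) (XT.nd (nat_lit 78) (nat_lit 228) (nat_lit 0) (XT.lf (nat_lit 0) (nat_lit 16326983784) (nat_lit 152) (nat_lit 3671083379) (nat_lit 228) (nat_lit 4784690247) (nat_lit 39) (nat_lit 5) (nat_lit 41) (nat_lit 5) (nat_lit 42) (nat_lit 5) (nat_lit 517) (nat_lit 382) (nat_lit 241)) (XT.lf (nat_lit 0) (nat_lit 319650909) (nat_lit 228) (nat_lit 23796463246) (nat_lit 304) (nat_lit 1055182598) (nat_lit 36) (nat_lit 5) (nat_lit 39) (nat_lit 5) (nat_lit 40) (nat_lit 5) (nat_lit 518) (nat_lit 382) (nat_lit 240)))) (XT.nd (nat_lit 156) (nat_lit 152) (nat_lit 0) (XT.nd (nat_lit 78) (nat_lit 0) (nat_lit 0) (XT.lf (nat_lit 0) (nat_lit 2782871149) (nat_lit 304)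 (nat_lit 16243089787) (nat_lit 76) (nat_lit 6539893514) (nat_lit 35) (nat_lit 5) (nat_lit 39) (nat_lit 5) (nat_lit 36) (nat_lit 5) (nat_lit 519) (nat_lit 382) (nat_lit 239)) (XT.lf (nat_lit 0) (nat_lit 6672372426) (nat_lit 304) (nat_lit 7488258964) (nat_lit 76) (nat_lit 11807760710) (nat_lit 35) (nat_lit 5) (nat_lit 39) (nat_lit 5) (nat_lit 36) (nat_lit 5) (nat_lit 520) (nat_lit 382) (nat_lit 238))) (XT.nd (nat_lit 78) (nat_lit 0) (nat_lit 0) (XT.lf (nat_lit 0) (nat_lit 1442043497) (nat_lit 152) (nat_lit 9196004640) (nat_lit 228) (nat_lit 15740969187) (nat_lit 33) (nat_lit 5) (nat_lit 35) (nat_lit 5) (nat_lit 36) (nat_lit 5) (nat_lit 521) (nat_lit 382) (nat_lit 237)) (XT.lf (nat_lit 0) (nat_lit 10634041650) (nat_lit 152) (nat_lit 4088363273) (nat_lit 228) (nat_lit 12074667201) (nat_lit 33) (nat_lit 5) (nat_lit 35) (nat_lit 5) (nat_lit 36) (nat_lit 5) (nat_lit 522) (nat_lit 382) (nat_lit 236)))))) (XT.nd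 (nat_lit 48672) (nat_lit 0) (nat_lit 41344) (XT.nd (nat_lit 234) (nat_lit 76) (nat_lit 0) (XT.nd (nat_lit 78) (nat_lit 152) (nat_lit 0) (XT.lf (nat_lit 0) (nat_lit 18885012751) (nat_lit 228) (nat_lit 7239113682) (nat_lit 76) (nat_lit 1099434641) (nat_lit 33) (nat_lit 5) (nat_lit 36) (nat_lit 5) (nat_lit 34) (nat_lit 5) (nat_lit 523) (nat_lit 382) (nat_lit 235)) (XT.nd (nat_lit 78) (nat_lit 0) (nat_lit 0) (XT.lf (nat_lit 0) (nat_lit 1842503945) (nat_lit 152) (nat_lit 21316899776) (nat_lit 228) (nat_lit 4498609713) (nat_lit 31) (nat_lit 5) (nat_lit 33) (nat_lit 5) (nat_lit 34) (nat_lit 5) (nat_lit 524) (nat_lit 382) (nat_lit 234)) (XT.lf (nat_lit 0) (nat_lit 11186132548) (nat_lit 152) (nat_lit 16371311980) (nat_lit 228) (nat_lit 542951240) (nat_lit 31) (nat_lit 5) (nat_lit 33) (nat_lit 5) (nat_lit 34) (nat_lit 5) (nat_lit 525) (nat_lit 382) (nat_lit 233)))) (XT.nd (nat_lit 48282) (nat_lit 0) (nat_lit 42636)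 (XT.nd (nat_lit 48204) (nat_lit 0) (nat_lit 43016) (XT.lf (nat_lit 0) (nat_lit 3435740882) (nat_lit 228) (nat_lit 7875205350) (nat_lit 76) (nat_lit 17240435770) (nat_lit 30) (nat_lit 5) (nat_lit 33) (nat_lit 5) (nat_lit 31) (nat_lit 5) (nat_lit 526) (nat_lit 382) (nat_lit 232)) (XT.lf (nat_lit 0) (nat_lit 987462434) (nat_lit 0) (nat_lit 987462434) (nat_lit 228) (nat_lit 1255135663) (nat_lit 596) (nat_lit 5) (nat_lit 596) (nat_lit 3) (nat_lit 599) (nat_lit 3) (nat_lit 383) (nat_lit 383) (nat_lit 374))) (XT.nd (nat_lit 78) (nat_lit 0) (nat_lit 0) (XT.lf (nat_lit 0) (nat_lit 167776981) (nat_lit 380) (nat_lit 1531339730) (nat_lit 380) (nat_lit 4767748548) (nat_lit 591) (nat_lit 3) (nat_lit 596) (nat_lit 3) (nat_lit 596) (nat_lit 5) (nat_lit 384) (nat_lit 383) (nat_lit 373)) (XT.lf (nat_lit 76) (nat_lit 1448183405) (nat_lit 0) (nat_lit 1356991889) (nat_lit 380) (nat_lit 3669574754) (nat_lit 592) (nat_lit 5)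 (nat_lit 591) (nat_lit 3) (nat_lit 596) (nat_lit 5) (nat_lit 385) (nat_lit 383) (nat_lit 372))))) (XT.nd (nat_lit 234) (nat_lit 912) (nat_lit 0) (XT.nd (nat_lit 78) (nat_lit 380) (nat_lit 0) (XT.lf (nat_lit 76) (nat_lit 4472510777) (nat_lit 0) (nat_lit 964196887) (nat_lit 380) (nat_lit 1047380281) (nat_lit 592) (nat_lit 5) (nat_lit 591) (nat_lit 3) (nat_lit 596) (nat_lit 5) (nat_lit 386) (nat_lit 383) (nat_lit 371)) (XT.nd (nat_lit 78) (nat_lit 0) (nat_lit 0) (XT.lf (nat_lit 76) (nat_lit 1030795482) (nat_lit 0) (nat_lit 513707786) (nat_lit 456) (nat_lit 4950244641) (nat_lit 587) (nat_lit 5) (nat_lit 586) (nat_lit 5) (nat_lit 592) (nat_lit 5) (nat_lit 387) (nat_lit 383) (nat_lit 370)) (XT.lf (nat_lit 76) (nat_lit 4118620120) (nat_lit 0) (nat_lit 2044570) (nat_lit 456) (nat_lit 2386004660) (nat_lit 587) (nat_lit 5) (nat_lit 586) (nat_lit 5) (nat_lit 592) (nat_lit 5) (nat_lit 388) (nat_lit 383) (nat_lit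 369)))) (XT.nd (nat_lit 156) (nat_lit 532) (nat_lit 0) (XT.nd (nat_lit 78) (nat_lit 0) (nat_lit 0) (XT.lf (nat_lit 0) (nat_lit 168571598) (nat_lit 456) (nat_lit 5802339019) (nat_lit 532) (nat_lit 549159092) (nat_lit 581) (nat_lit 5) (nat_lit 587) (nat_lit 5) (nat_lit 588) (nat_lit 5) (nat_lit 389) (nat_lit 383) (nat_lit 368)) (XT.lf (nat_lit 0) (nat_lit 2693488636) (nat_lit 456) (nat_lit 2668636966) (nat_lit 532) (nat_lit 1172382426) (nat_lit 581) (nat_lit 5) (nat_lit 587) (nat_lit 5) (nat_lit 588) (nat_lit 5) (nat_lit 390) (nat_lit 383) (nat_lit 367))) (XT.nd (nat_lit 78) (nat_lit 532) (nat_lit 0) (XT.lf (nat_lit 76) (nat_lit 497702649) (nat_lit 0) (nat_lit 4710730094) (nat_lit 532) (nat_lit 1342118994) (nat_lit 582) (nat_lit 5) (nat_lit 581) (nat_lit 5) (nat_lit 588) (nat_lit 5) (nat_lit 391) (nat_lit 383) (nat_lit 366)) (XT.lf (nat_lit 0) (nat_lit 1145750771) (nat_lit 532) (nat_lit 2848235130) (nat_lit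 608) (nat_lit 2573780386) (nat_lit 574) (nat_lit 5) (nat_lit 581) (nat_lit 5) (nat_lit 582) (nat_lit 5) (nat_lit 392) (nat_lit 383) (nat_lit 365))))))) (XT.nd (nat_lit 1092) (nat_lit 10336) (nat_lit 0) (XT.nd (nat_lit 546) (nat_lit 2736) (nat_lit 0) (XT.nd (nat_lit 234) (nat_lit 1292) (nat_lit 0) (XT.nd (nat_lit 78) (nat_lit 608) (nat_lit 0) (XT.lf (nat_lit 76) (nat_lit 380031371) (nat_lit 0) (nat_lit 3225890851) (nat_lit 608) (nat_lit 2980516186) (nat_lit 575) (nat_lit 5) (nat_lit 574) (nat_lit 5) (nat_lit 582) (nat_lit 5) (nat_lit 393) (nat_lit 383) (nat_lit 364)) (XT.nd (nat_lit 78) (nat_lit 608) (nat_lit 0) (XT.lf (nat_lit 76) (nat_lit 3675176435) (nat_lit 0) (nat_lit 2398244299) (nat_lit 608) (nat_lit 532999798) (nat_lit 575) (nat_lit 5) (nat_lit 574) (nat_lit 5) (nat_lit 582) (nat_lit 5) (nat_lit 394) (nat_lit 383) (nat_lit 363)) (XT.lf (nat_lit 76) (nat_lit 364980740) (nat_lit 0) (nat_lit 1514819196)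 (nat_lit 684) (nat_lit 4748000903) (nat_lit 567) (nat_lit 5) (nat_lit 566) (nat_lit 5) (nat_lit 575) (nat_lit 5) (nat_lit 395) (nat_lit 383) (nat_lit 362)))) (XT.nd (nat_lit 156) (nat_lit 684) (nat_lit 0) (XT.nd (nat_lit 78) (nat_lit 608) (nat_lit 0) (XT.lf (nat_lit 76) (nat_lit 3727047131) (nat_lit 0) (nat_lit 566986626) (nat_lit 684) (nat_lit 2356391554) (nat_lit 567) (nat_lit 5) (nat_lit 566) (nat_lit 5) (nat_lit 575) (nat_lit 5) (nat_lit 396) (nat_lit 383) (nat_lit 361)) (XT.lf (nat_lit 0) (nat_lit 29006938) (nat_lit 684) (nat_lit 6225618018) (nat_lit 76) (nat_lit 420015305) (nat_lit 558) (nat_lit 5) (nat_lit 567) (nat_lit 5) (nat_lit 559) (nat_lit 5) (nat_lit 397) (nat_lit 383) (nat_lit 360))) (XT.nd (nat_lit 78) (nat_lit 684) (nat_lit 0) (XT.lf (nat_lit 0) (nat_lit 2396497612) (nat_lit 684) (nat_lit 2827481201) (nat_lit 76) (nat_lit 1475818396) (nat_lit 558) (nat_lit 5) (nat_lit 567) (nat_lit 5)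 (nat_lit 559) (nat_lit 5) (nat_lit 398) (nat_lit 383) (nat_lit 359)) (XT.lf (nat_lit 0) (nat_lit 609810402) (nat_lit 684) (nat_lit 4149020910) (nat_lit 760) (nat_lit 1967762333) (nat_lit 549) (nat_lit 5) (nat_lit 558) (nat_lit 5) (nat_lit 559) (nat_lit 5) (nat_lit 399) (nat_lit 383) (nat_lit 358))))) (XT.nd (nat_lit 234) (nat_lit 1900) (nat_lit 0) (XT.nd (nat_lit 78) (nat_lit 760) (nat_lit 0) (XT.lf (nat_lit 0) (nat_lit 372101264) (nat_lit 760) (nat_lit 2639579508) (nat_lit 76) (nat_lit 3743013249) (nat_lit 548) (nat_lit 5) (nat_lit 558) (nat_lit 5) (nat_lit 549) (nat_lit 5) (nat_lit 400) (nat_lit 383) (nat_lit 357)) (XT.nd (nat_lit 78) (nat_lit 0) (nat_lit 0) (XT.lf (nat_lit 0) (nat_lit 868874071) (nat_lit 760) (nat_lit 1814256740) (nat_lit 836) (nat_lit 4101032357) (nat_lit 538) (nat_lit 5) (nat_lit 548) (nat_lit 5) (nat_lit 549) (nat_lit 5) (nat_lit 401) (nat_lit 383) (nat_lit 356)) (XT.lf (nat_lit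 0) (nat_lit 4446859958) (nat_lit 760) (nat_lit 557126025) (nat_lit 836) (nat_lit 1811043263) (nat_lit 538) (nat_lit 5) (nat_lit 548) (nat_lit 5) (nat_lit 549) (nat_lit 5) (nat_lit 402) (nat_lit 383) (nat_lit 355)))) (XT.nd (nat_lit 156) (nat_lit 988) (nat_lit 0) (XT.nd (nat_lit 78) (nat_lit 0) (nat_lit 0) (XT.lf (nat_lit 0) (nat_lit 477242315) (nat_lit 912) (nat_lit 5626249045) (nat_lit 76) (nat_lit 743842124) (nat_lit 526) (nat_lit 5) (nat_lit 538) (nat_lit 5) (nat_lit 527) (nat_lit 5) (nat_lit 403) (nat_lit 383) (nat_lit 354)) (XT.lf (nat_lit 0) (nat_lit 2754197258) (nat_lit 912) (nat_lit 2019014965) (nat_lit 76) (nat_lit 2107564148) (nat_lit 526) (nat_lit 5) (nat_lit 538) (nat_lit 5) (nat_lit 527) (nat_lit 5) (nat_lit 404) (nat_lit 383) (nat_lit 353))) (XT.nd (nat_lit 78) (nat_lit 76) (nat_lit 0) (XT.lf (nat_lit 0) (nat_lit 1645190862) (nat_lit 912) (nat_lit 3390656985) (nat_lit 988) (nat_lit 1879930721)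 (nat_lit 514) (nat_lit 5) (nat_lit 526) (nat_lit 5) (nat_lit 527) (nat_lit 5) (nat_lit 405) (nat_lit 383) (nat_lit 352)) (XT.lf (nat_lit 0) (nat_lit 368730984) (nat_lit 988) (nat_lit 1581181922) (nat_lit 76) (nat_lit 5002335589) (nat_lit 513) (nat_lit 5) (nat_lit 526) (nat_lit 5) (nat_lit 514) (nat_lit 5) (nat_lit 406) (nat_lit 383) (nat_lit 351)))))) (XT.nd (nat_lit 546) (nat_lit 5776) (nat_lit 0) (XT.nd (nat_lit 234) (nat_lit 2432) (nat_lit 0) (XT.nd (nat_lit 78) (nat_lit 1140) (nat_lit 0) (XT.lf (nat_lit 0) (nat_lit 2161380828) (nat_lit 988) (nat_lit 439713431) (nat_lit 1064) (nat_lit 4388896363) (nat_lit 500) (nat_lit 5) (nat_lit 513) (nat_lit 5) (nat_lit 514) (nat_lit 5) (nat_lit 407) (nat_lit 383) (nat_lit 350)) (XT.nd (nat_lit 78) (nat_lit 1140) (nat_lit 0) (XT.lf (nat_lit 0) (nat_lit 4846609034) (nat_lit 1064) (nat_lit 1072693071) (nat_lit 76) (nat_lit 1109883380) (nat_lit 500) (nat_lit 5) (nat_lit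 514) (nat_lit 5) (nat_lit 501) (nat_lit 5) (nat_lit 408) (nat_lit 383) (nat_lit 349)) (XT.lf (nat_lit 0) (nat_lit 39173991) (nat_lit 1140) (nat_lit 4315174518) (nat_lit 76) (nat_lit 2715428378) (nat_lit 485) (nat_lit 5) (nat_lit 500) (nat_lit 5) (nat_lit 486) (nat_lit 5) (nat_lit 409) (nat_lit 383) (nat_lit 348)))) (XT.nd (nat_lit 156) (nat_lit 1292) (nat_lit 0) (XT.nd (nat_lit 78) (nat_lit 1140) (nat_lit 0) (XT.lf (nat_lit 0) (nat_lit 2235383644) (nat_lit 1140) (nat_lit 489709754) (nat_lit 76) (nat_lit 4386677264) (nat_lit 485) (nat_lit 5) (nat_lit 500) (nat_lit 5) (nat_lit 486) (nat_lit 5) (nat_lit 410) (nat_lit 383) (nat_lit 347)) (XT.lf (nat_lit 0) (nat_lit 3420699808) (nat_lit 1140) (nat_lit 1029944362) (nat_lit 1216) (nat_lit 2704520409) (nat_lit 470) (nat_lit 5) (nat_lit 485) (nat_lit 5) (nat_lit 486) (nat_lit 5) (nat_lit 411) (nat_lit 383) (nat_lit 346))) (XT.nd (nat_lit 78) (nat_lit 76) (nat_lit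 0) (XT.lf (nat_lit 0) (nat_lit 177113431) (nat_lit 1216) (nat_lit 6495765191) (nat_lit 1292) (nat_lit 527355951) (nat_lit 454) (nat_lit 5) (nat_lit 470) (nat_lit 5) (nat_lit 471) (nat_lit 5) (nat_lit 412) (nat_lit 383) (nat_lit 345)) (XT.lf (nat_lit 0) (nat_lit 1657168146) (nat_lit 1292) (nat_lit 3083810487) (nat_lit 76) (nat_lit 2505346126) (nat_lit 453) (nat_lit 5) (nat_lit 470) (nat_lit 5) (nat_lit 454) (nat_lit 5) (nat_lit 413) (nat_lit 383) (nat_lit 344))))) (XT.nd (nat_lit 234) (nat_lit 3040) (nat_lit 0) (XT.nd (nat_lit 78) (nat_lit 1444) (nat_lit 0) (XT.lf (nat_lit 0) (nat_lit 905742114) (nat_lit 1292) (nat_lit 2933346940) (nat_lit 1368) (nat_lit 3455020645) (nat_lit 436) (nat_lit 5) (nat_lit 453) (nat_lit 5) (nat_lit 454) (nat_lit 5) (nat_lit 414) (nat_lit 383) (nat_lit 343)) (XT.nd (nat_lit 78) (nat_lit 1444) (nat_lit 0) (XT.lf (nat_lit 0) (nat_lit 4980199785) (nat_lit 1292) (nat_lit 1060669432)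 (nat_lit 1368) (nat_lit 1302513587) (nat_lit 436) (nat_lit 5) (nat_lit 453) (nat_lit 5) (nat_lit 454) (nat_lit 5) (nat_lit 415) (nat_lit 383) (nat_lit 342)) (XT.lf (nat_lit 0) (nat_lit 854246513) (nat_lit 1444) (nat_lit 5677217380) (nat_lit 76) (nat_lit 862657879) (nat_lit 417) (nat_lit 5) (nat_lit 436) (nat_lit 5) (nat_lit 418) (nat_lit 5) (nat_lit 416) (nat_lit 383) (nat_lit 341)))) (XT.nd (nat_lit 156) (nat_lit 1596) (nat_lit 0) (XT.nd (nat_lit 78) (nat_lit 1444) (nat_lit 0) (XT.lf (nat_lit 0) (nat_lit 3016430764) (nat_lit 1444) (nat_lit 1588017925) (nat_lit 76) (nat_lit 2841713649) (nat_lit 417) (nat_lit 5) (nat_lit 436) (nat_lit 5) (nat_lit 418) (nat_lit 5) (nat_lit 417) (nat_lit 383) (nat_lit 340)) (XT.lf (nat_lit 0) (nat_lit 2580205921) (nat_lit 1444) (nat_lit 2615979477) (nat_lit 1520) (nat_lit 2303624333) (nat_lit 398) (nat_lit 5) (nat_lit 417) (nat_lit 5) (nat_lit 418) (nat_lit 5) (nat_lit 418)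 (nat_lit 383) (nat_lit 339))) (XT.nd (nat_lit 78) (nat_lit 1596) (nat_lit 0) (XT.lf (nat_lit 0) (nat_lit 6816961570) (nat_lit 1444) (nat_lit 571400094) (nat_lit 1520) (nat_lit 166843397) (nat_lit 398) (nat_lit 5) (nat_lit 417) (nat_lit 5) (nat_lit 418) (nat_lit 5) (nat_lit 419) (nat_lit 383) (nat_lit 338)) (XT.lf (nat_lit 0) (nat_lit 1977924718) (nat_lit 1596) (nat_lit 4098321843) (nat_lit 76) (nat_lit 1535416941) (nat_lit 377) (nat_lit 5) (nat_lit 398) (nat_lit 5) (nat_lit 378) (nat_lit 5) (nat_lit 420) (nat_lit 383) (nat_lit 337))))))))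
noncomputable def xc111 : XT := (XT.nd (nat_lit 2106) (nat_lit 7296) (nat_lit 0) (XT.nd (nat_lit 1014) (nat_lit 5624) (nat_lit 0) (XT.nd (nat_lit 468) (nat_lit 3344) (nat_lit 0) (XT.nd (nat_lit 234) (nat_lit 988) (nat_lit 0) (XT.nd (nat_lit 78) (nat_lit 1748) (nat_lit 0) (XT.lf (nat_lit 0) (nat_lit 150971177) (nat_lit 1596) (nat_lit 3981412527) (nat_lit 1672) (nat_lit 3537513308) (nat_lit 356) (nat_lit 5) (nat_lit 377) (nat_lit 5) (nat_lit 378) (nat_lit 5) (nat_lit 421) (nat_lit 383) (nat_lit 336)) (XT.nd (nat_lit 78) (nat_lit 1748) (nat_lit 0) (XT.lf (nat_lit 0) (nat_lit 4504146090) (nat_lit 1596) (nat_lit 1813124504) (nat_lit 1672) (nat_lit 1412325420) (nat_lit 356) (nat_lit 5) (nat_lit 377) (nat_lit 5) (nat_lit 378) (nat_lit 5) (nat_lit 422) (nat_lit 383) (nat_lit 335)) (XT.lf (nat_lit 0) (nat_lit 715784976) (nat_lit 1748) (nat_lit 6666509677) (nat_lit 76) (nat_lit 408735494) (nat_lit 333) (nat_lit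 5) (nat_lit 356) (nat_lit 5) (nat_lit 334) (nat_lit 5) (nat_lit 423) (nat_lit 383) (nat_lit 334)))) (XT.nd (nat_lit 78) (nat_lit 988) (nat_lit 0) (XT.lf (nat_lit 0) (nat_lit 2862238206) (nat_lit 1748) (nat_lit 2306670098) (nat_lit 76) (nat_lit 2684748968) (nat_lit 333) (nat_lit 5) (nat_lit 356) (nat_lit 5) (nat_lit 334) (nat_lit 5) (nat_lit 424) (nat_lit 383) (nat_lit 333)) (XT.nd (nat_lit 78) (nat_lit 0) (nat_lit 0) (XT.lf (nat_lit 0) (nat_lit 2131936627) (nat_lit 988) (nat_lit 2895171634) (nat_lit 1064) (nat_lit 2890962894) (nat_lit 320) (nat_lit 5) (nat_lit 333) (nat_lit 5) (nat_lit 334) (nat_lit 5) (nat_lit 425) (nat_lit 383) (nat_lit 332)) (XT.lf (nat_lit 0) (nat_lit 6654432041) (nat_lit 988) (nat_lit 558485789) (nat_lit 1064) (nat_lit 771345753) (nat_lit 320) (nat_lit 5) (nat_lit 333) (nat_lit 5) (nat_lit 334) (nat_lit 5) (nat_lit 426) (nat_lit 383) (nat_lit 331))))) (XT.nd (nat_lit 234) (nat_lit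 1596) (nat_lit 0) (XT.nd (nat_lit 78) (nat_lit 836) (nat_lit 0) (XT.lf (nat_lit 0) (nat_lit 1367957444) (nat_lit 912) (nat_lit 4851303409) (nat_lit 76) (nat_lit 1832469209) (nat_lit 308) (nat_lit 5) (nat_lit 320) (nat_lit 5) (nat_lit 309) (nat_lit 5) (nat_lit 427) (nat_lit 383) (nat_lit 330)) (XT.nd (nat_lit 78) (nat_lit 836) (nat_lit 0) (XT.lf (nat_lit 0) (nat_lit 3515535562) (nat_lit 912) (nat_lit 326446369) (nat_lit 76) (nat_lit 4278986247) (nat_lit 308) (nat_lit 5) (nat_lit 320) (nat_lit 5) (nat_lit 309) (nat_lit 5) (nat_lit 428) (nat_lit 383) (nat_lit 329)) (XT.lf (nat_lit 0) (nat_lit 4309616185) (nat_lit 836) (nat_lit 1388278935) (nat_lit 912) (nat_lit 2493899166) (nat_lit 297) (nat_lit 5) (nat_lit 308) (nat_lit 5) (nat_lit 309) (nat_lit 5) (nat_lit 429) (nat_lit 383) (nat_lit 328)))) (XT.nd (nat_lit 156) (nat_lit 760) (nat_lit 0) (XT.nd (nat_lit 78) (nat_lit 76) (nat_lit 0) (XT.lf (nat_lit 0) (nat_lit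 745021946) (nat_lit 760) (nat_lit 7157485761) (nat_lit 836) (nat_lit 361996139) (nat_lit 287) (nat_lit 5) (nat_lit 297) (nat_lit 5) (nat_lit 298) (nat_lit 5) (nat_lit 430) (nat_lit 383) (nat_lit 327)) (XT.lf (nat_lit 0) (nat_lit 1788712637) (nat_lit 836) (nat_lit 2878491832) (nat_lit 76) (nat_lit 3671266500) (nat_lit 286) (nat_lit 5) (nat_lit 297) (nat_lit 5) (nat_lit 287) (nat_lit 5) (nat_lit 431) (nat_lit 383) (nat_lit 326))) (XT.nd (nat_lit 78) (nat_lit 0) (nat_lit 0) (XT.lf (nat_lit 0) (nat_lit 1841185309) (nat_lit 760) (nat_lit 2113579188) (nat_lit 836) (nat_lit 4459598355) (nat_lit 276) (nat_lit 5) (nat_lit 286) (nat_lit 5) (nat_lit 287) (nat_lit 5) (nat_lit 432) (nat_lit 383) (nat_lit 325)) (XT.lf (nat_lit 0) (nat_lit 6152429527) (nat_lit 836) (nat_lit 1836789116) (nat_lit 76) (nat_lit 502824160) (nat_lit 276) (nat_lit 5) (nat_lit 287) (nat_lit 5) (nat_lit 277) (nat_lit 5) (nat_lit 433) (nat_lit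 383) (nat_lit 324)))))) (XT.nd (nat_lit 546) (nat_lit 2660) (nat_lit 0) (XT.nd (nat_lit 234) (nat_lit 1444) (nat_lit 0) (XT.nd (nat_lit 78) (nat_lit 836) (nat_lit 0) (XT.lf (nat_lit 0) (nat_lit 2983815114) (nat_lit 684) (nat_lit 5409935554) (nat_lit 760) (nat_lit 177566994) (nat_lit 267) (nat_lit 5) (nat_lit 276) (nat_lit 5) (nat_lit 277) (nat_lit 5) (nat_lit 434) (nat_lit 383) (nat_lit 323)) (XT.nd (nat_lit 78) (nat_lit 760) (nat_lit 0) (XT.lf (nat_lit 0) (nat_lit 1980042325) (nat_lit 760) (nat_lit 775341417) (nat_lit 76) (nat_lit 5896986638) (nat_lit 266) (nat_lit 5) (nat_lit 276) (nat_lit 5) (nat_lit 267) (nat_lit 5) (nat_lit 435) (nat_lit 383) (nat_lit 322)) (XT.lf (nat_lit 0) (nat_lit 4151141160) (nat_lit 760) (nat_lit 21404505) (nat_lit 836) (nat_lit 4562625952) (nat_lit 256) (nat_lit 5) (nat_lit 266) (nat_lit 5) (nat_lit 267) (nat_lit 5) (nat_lit 436) (nat_lit 383) (nat_lit 321)))) (XT.nd (nat_lit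 156) (nat_lit 760) (nat_lit 0) (XT.nd (nat_lit 78) (nat_lit 0) (nat_lit 0) (XT.lf (nat_lit 0) (nat_lit 317681841) (nat_lit 684) (nat_lit 6084049724) (nat_lit 760) (nat_lit 2418073333) (nat_lit 247) (nat_lit 5) (nat_lit 256) (nat_lit 5) (nat_lit 257) (nat_lit 5) (nat_lit 437) (nat_lit 383) (nat_lit 320)) (XT.lf (nat_lit 0) (nat_lit 5344035011) (nat_lit 684) (nat_lit 3330340095) (nat_lit 760) (nat_lit 231810293) (nat_lit 247) (nat_lit 5) (nat_lit 256) (nat_lit 5) (nat_lit 257) (nat_lit 5) (nat_lit 438) (nat_lit 383) (nat_lit 319))) (XT.nd (nat_lit 78) (nat_lit 0) (nat_lit 0) (XT.lf (nat_lit 0) (nat_lit 1447487432) (nat_lit 684) (nat_lit 502243067) (nat_lit 760) (nat_lit 7044779148) (nat_lit 237) (nat_lit 5) (nat_lit 246) (nat_lit 5) (nat_lit 247) (nat_lit 5) (nat_lit 439) (nat_lit 383) (nat_lit 318)) (XT.lf (nat_lit 0) (nat_lit 4180062288) (nat_lit 760) (nat_lit 2531225023) (nat_lit 76) (nat_lit 2373147326)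 (nat_lit 237) (nat_lit 5) (nat_lit 247) (nat_lit 5) (nat_lit 238) (nat_lit 5) (nat_lit 440) (nat_lit 383) (nat_lit 317))))) (XT.nd (nat_lit 234) (nat_lit 1292) (nat_lit 0) (XT.nd (nat_lit 78) (nat_lit 760) (nat_lit 0) (XT.lf (nat_lit 0) (nat_lit 2580558529) (nat_lit 608) (nat_lit 3863866900) (nat_lit 684) (nat_lit 2731973795) (nat_lit 229) (nat_lit 5) (nat_lit 237) (nat_lit 5) (nat_lit 238) (nat_lit 5) (nat_lit 441) (nat_lit 383) (nat_lit 316)) (XT.nd (nat_lit 78) (nat_lit 760) (nat_lit 0) (XT.lf (nat_lit 0) (nat_lit 7794270476) (nat_lit 608) (nat_lit 946511447) (nat_lit 684) (nat_lit 529716069) (nat_lit 229) (nat_lit 5) (nat_lit 237) (nat_lit 5) (nat_lit 238) (nat_lit 5) (nat_lit 442) (nat_lit 383) (nat_lit 315)) (XT.lf (nat_lit 0) (nat_lit 1701887584) (nat_lit 760) (nat_lit 5630333981) (nat_lit 76) (nat_lit 2033905867) (nat_lit 219) (nat_lit 5) (nat_lit 229) (nat_lit 5) (nat_lit 220) (nat_lit 5) (nat_lit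 443) (nat_lit 383) (nat_lit 314)))) (XT.nd (nat_lit 156) (nat_lit 684) (nat_lit 0) (XT.nd (nat_lit 78) (nat_lit 608) (nat_lit 0) (XT.lf (nat_lit 0) (nat_lit 3957701500) (nat_lit 760) (nat_lit 435975419) (nat_lit 76) (nat_lit 5070216431) (nat_lit 219) (nat_lit 5) (nat_lit 229) (nat_lit 5) (nat_lit 220) (nat_lit 5) (nat_lit 444) (nat_lit 383) (nat_lit 313)) (XT.lf (nat_lit 0) (nat_lit 4892388171) (nat_lit 608) (nat_lit 1369012368) (nat_lit 684) (nat_lit 3302185473) (nat_lit 211) (nat_lit 5) (nat_lit 219) (nat_lit 5) (nat_lit 220) (nat_lit 5) (nat_lit 445) (nat_lit 383) (nat_lit 312))) (XT.nd (nat_lit 78) (nat_lit 76) (nat_lit 0) (XT.lf (nat_lit 0) (nat_lit 630736968) (nat_lit 608) (nat_lit 7969938665) (nat_lit 684) (nat_lit 1064833129) (nat_lit 203) (nat_lit 5) (nat_lit 211) (nat_lit 5) (nat_lit 212) (nat_lit 5) (nat_lit 446) (nat_lit 383) (nat_lit 311)) (XT.lf (nat_lit 0) (nat_lit 1213368700) (nat_lit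 684) (nat_lit 3718557232) (nat_lit 76) (nat_lit 4837169883) (nat_lit 202) (nat_lit 5) (nat_lit 211) (nat_lit 5) (nat_lit 203) (nat_lit 5) (nat_lit 447) (nat_lit 383) (nat_lit 310))))))) (XT.nd (nat_lit 1092) (nat_lit 2964) (nat_lit 0) (XT.nd (nat_lit 546) (nat_lit 2052) (nat_lit 0) (XT.nd (nat_lit 234) (nat_lit 1140) (nat_lit 0) (XT.nd (nat_lit 78) (nat_lit 608) (nat_lit 0) (XT.lf (nat_lit 0) (nat_lit 1685141679) (nat_lit 532) (nat_lit 1820696029) (nat_lit 608) (nat_lit 6369141665) (nat_lit 195) (nat_lit 5) (nat_lit 202) (nat_lit 5) (nat_lit 203) (nat_lit 5) (nat_lit 448) (nat_lit 383) (nat_lit 309)) (XT.nd (nat_lit 78) (nat_lit 608) (nat_lit 0) (XT.lf (nat_lit 0) (nat_lit 5850356033) (nat_lit 608) (nat_lit 2778313805) (nat_lit 76) (nat_lit 1354211041) (nat_lit 195) (nat_lit 5) (nat_lit 203) (nat_lit 5) (nat_lit 196) (nat_lit 5) (nat_lit 449) (nat_lit 383) (nat_lit 308)) (XT.lf (nat_lit 0) (nat_lit 2731675461)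 (nat_lit 608) (nat_lit 5512724073) (nat_lit 684) (nat_lit 1848511986) (nat_lit 187) (nat_lit 5) (nat_lit 195) (nat_lit 5) (nat_lit 196) (nat_lit 5) (nat_lit 450) (nat_lit 383) (nat_lit 307)))) (XT.nd (nat_lit 156) (nat_lit 532) (nat_lit 0) (XT.nd (nat_lit 78) (nat_lit 532) (nat_lit 0) (XT.lf (nat_lit 0) (nat_lit 466594582) (nat_lit 684) (nat_lit 1852187794) (nat_lit 76) (nat_lit 7886486305) (nat_lit 186) (nat_lit 5) (nat_lit 195) (nat_lit 5) (nat_lit 187) (nat_lit 5) (nat_lit 451) (nat_lit 383) (nat_lit 306)) (XT.lf (nat_lit 0) (nat_lit 2807544946) (nat_lit 608) (nat_lit 6554763814) (nat_lit 76) (nat_lit 957256413) (nat_lit 179) (nat_lit 5) (nat_lit 187) (nat_lit 5) (nat_lit 180) (nat_lit 5) (nat_lit 452) (nat_lit 383) (nat_lit 305))) (XT.nd (nat_lit 78) (nat_lit 532) (nat_lit 0) (XT.lf (nat_lit 0) (nat_lit 5196932892) (nat_lit 608) (nat_lit 965421033) (nat_lit 76) (nat_lit 4273783287) (nat_lit 179) (nat_lit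 5) (nat_lit 187) (nat_lit 5) (nat_lit 180) (nat_lit 5) (nat_lit 453) (nat_lit 383) (nat_lit 304)) (XT.lf (nat_lit 0) (nat_lit 4765542169) (nat_lit 532) (nat_lit 2873773107) (nat_lit 608) (nat_lit 2915642837) (nat_lit 172) (nat_lit 5) (nat_lit 179) (nat_lit 5) (nat_lit 180) (nat_lit 5) (nat_lit 454) (nat_lit 383) (nat_lit 303))))) (XT.nd (nat_lit 234) (nat_lit 988) (nat_lit 0) (XT.nd (nat_lit 78) (nat_lit 1064) (nat_lit 0) (XT.lf (nat_lit 0) (nat_lit 10114700921) (nat_lit 608) (nat_lit 87914710) (nat_lit 76) (nat_lit 473877822) (nat_lit 172) (nat_lit 5) (nat_lit 180) (nat_lit 5) (nat_lit 173) (nat_lit 5) (nat_lit 455) (nat_lit 383) (nat_lit 302)) (XT.nd (nat_lit 78) (nat_lit 532) (nat_lit 0) (XT.lf (nat_lit 0) (nat_lit 1846590983) (nat_lit 532) (nat_lit 5060272216) (nat_lit 76) (nat_lit 3892746260) (nat_lit 165) (nat_lit 5) (nat_lit 172) (nat_lit 5) (nat_lit 166) (nat_lit 5) (nat_lit 456) (nat_lit 383)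 (nat_lit 301)) (XT.lf (nat_lit 0) (nat_lit 732604529) (nat_lit 532) (nat_lit 3543484396) (nat_lit 608) (nat_lit 6649435123) (nat_lit 158) (nat_lit 5) (nat_lit 165) (nat_lit 5) (nat_lit 166) (nat_lit 5) (nat_lit 457) (nat_lit 383) (nat_lit 300)))) (XT.nd (nat_lit 156) (nat_lit 532) (nat_lit 0) (XT.nd (nat_lit 78) (nat_lit 456) (nat_lit 0) (XT.lf (nat_lit 0) (nat_lit 6677716201) (nat_lit 532) (nat_lit 85808262) (nat_lit 608) (nat_lit 4290265036) (nat_lit 158) (nat_lit 5) (nat_lit 165) (nat_lit 5) (nat_lit 166) (nat_lit 5) (nat_lit 458) (nat_lit 383) (nat_lit 299)) (XT.lf (nat_lit 0) (nat_lit 1522701450) (nat_lit 456) (nat_lit 7786059713) (nat_lit 532) (nat_lit 1875717188) (nat_lit 152) (nat_lit 5) (nat_lit 158) (nat_lit 5) (nat_lit 159) (nat_lit 5) (nat_lit 459) (nat_lit 383) (nat_lit 298))) (XT.nd (nat_lit 78) (nat_lit 456) (nat_lit 0) (XT.lf (nat_lit 0) (nat_lit 585465110) (nat_lit 532) (nat_lit 3755163077)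 (nat_lit 76) (nat_lit 6976974078) (nat_lit 151) (nat_lit 5) (nat_lit 158) (nat_lit 5) (nat_lit 152) (nat_lit 5) (nat_lit 460) (nat_lit 383) (nat_lit 297)) (XT.lf (nat_lit 0) (nat_lit 2255203946) (nat_lit 456) (nat_lit 806604469) (nat_lit 532) (nat_lit 8391529245) (nat_lit 145) (nat_lit 5) (nat_lit 151) (nat_lit 5) (nat_lit 152) (nat_lit 5) (nat_lit 461) (nat_lit 383) (nat_lit 296)))))) (XT.nd (nat_lit 546) (nat_lit 1596) (nat_lit 0) (XT.nd (nat_lit 234) (nat_lit 912) (nat_lit 0) (XT.nd (nat_lit 78) (nat_lit 456) (nat_lit 0) (XT.lf (nat_lit 0) (nat_lit 5607806985) (nat_lit 532) (nat_lit 3204697268) (nat_lit 76) (nat_lit 2778898625) (nat_lit 145) (nat_lit 5) (nat_lit 152) (nat_lit 5) (nat_lit 146) (nat_lit 5) (nat_lit 462) (nat_lit 383) (nat_lit 295)) (XT.nd (nat_lit 78) (nat_lit 0) (nat_lit 0) (XT.lf (nat_lit 0) (nat_lit 2910297961) (nat_lit 456) (nat_lit 5295719094) (nat_lit 532) (nat_lit 3526203852)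 (nat_lit 139) (nat_lit 5) (nat_lit 145) (nat_lit 5) (nat_lit 146) (nat_lit 5) (nat_lit 463) (nat_lit 383) (nat_lit 294)) (XT.lf (nat_lit 0) (nat_lit 9160101186) (nat_lit 456) (nat_lit 1694898623) (nat_lit 532) (nat_lit 1020896314) (nat_lit 139) (nat_lit 5) (nat_lit 145) (nat_lit 5) (nat_lit 146) (nat_lit 5) (nat_lit 464) (nat_lit 383) (nat_lit 293)))) (XT.nd (nat_lit 156) (nat_lit 380) (nat_lit 0) (XT.nd (nat_lit 78) (nat_lit 0) (nat_lit 0) (XT.lf (nat_lit 0) (nat_lit 1527823475) (nat_lit 532) (nat_lit 8517267855) (nat_lit 76) (nat_lit 1976901957) (nat_lit 132) (nat_lit 5) (nat_lit 139) (nat_lit 5) (nat_lit 133) (nat_lit 5) (nat_lit 465) (nat_lit 383) (nat_lit 292)) (XT.lf (nat_lit 0) (nat_lit 4121202970) (nat_lit 532) (nat_lit 2333128849) (nat_lit 76) (nat_lit 5716414526) (nat_lit 132) (nat_lit 5) (nat_lit 139) (nat_lit 5) (nat_lit 133) (nat_lit 5) (nat_lit 466) (nat_lit 383) (nat_lit 291))) (XT.nd (nat_lit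 78) (nat_lit 0) (nat_lit 0) (XT.lf (nat_lit 0) (nat_lit 3996873056) (nat_lit 380) (nat_lit 2773735913) (nat_lit 456) (nat_lit 5551798020) (nat_lit 127) (nat_lit 5) (nat_lit 132) (nat_lit 5) (nat_lit 133) (nat_lit 5) (nat_lit 467) (nat_lit 383) (nat_lit 290)) (XT.lf (nat_lit 0) (nat_lit 9473514906) (nat_lit 456) (nat_lit 2028588254) (nat_lit 76) (nat_lit 975002843) (nat_lit 127) (nat_lit 5) (nat_lit 133) (nat_lit 5) (nat_lit 128) (nat_lit 5) (nat_lit 468) (nat_lit 383) (nat_lit 289))))) (XT.nd (nat_lit 234) (nat_lit 760) (nat_lit 0) (XT.nd (nat_lit 78) (nat_lit 456) (nat_lit 0) (XT.lf (nat_lit 0) (nat_lit 4403849052) (nat_lit 380) (nat_lit 7852401275) (nat_lit 456) (nat_lit 378148336) (nat_lit 122) (nat_lit 5) (nat_lit 127) (nat_lit 5) (nat_lit 128) (nat_lit 5) (nat_lit 469) (nat_lit 383) (nat_lit 288)) (XT.nd (nat_lit 78) (nat_lit 380) (nat_lit 0) (XT.lf (nat_lit 0) (nat_lit 2262223139) (nat_lit 456)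 (nat_lit 1847088118) (nat_lit 76) (nat_lit 8685390146) (nat_lit 121) (nat_lit 5) (nat_lit 127) (nat_lit 5) (nat_lit 122) (nat_lit 5) (nat_lit 470) (nat_lit 383) (nat_lit 287)) (XT.lf (nat_lit 0) (nat_lit 4693750287) (nat_lit 380) (nat_lit 266361306) (nat_lit 456) (nat_lit 7997867376) (nat_lit 116) (nat_lit 5) (nat_lit 121) (nat_lit 5) (nat_lit 122) (nat_lit 5) (nat_lit 471) (nat_lit 383) (nat_lit 286)))) (XT.nd (nat_lit 156) (nat_lit 380) (nat_lit 0) (XT.nd (nat_lit 78) (nat_lit 380) (nat_lit 0) (XT.lf (nat_lit 0) (nat_lit 7727609193) (nat_lit 456) (nat_lit 1787155470) (nat_lit 76) (nat_lit 3609458339) (nat_lit 116) (nat_lit 5) (nat_lit 122) (nat_lit 5) (nat_lit 117) (nat_lit 5) (nat_lit 472) (nat_lit 383) (nat_lit 285)) (XT.lf (nat_lit 0) (nat_lit 4852392264) (nat_lit 380) (nat_lit 5711190031) (nat_lit 456) (nat_lit 2729960779) (nat_lit 111) (nat_lit 5) (nat_lit 116) (nat_lit 5) (nat_lit 117) (nat_lit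 5) (nat_lit 473) (nat_lit 383) (nat_lit 284))) (XT.nd (nat_lit 78) (nat_lit 380) (nat_lit 0) (XT.lf (nat_lit 0) (nat_lit 11620203771) (nat_lit 380) (nat_lit 1828128748) (nat_lit 456) (nat_lit 18089277) (nat_lit 111) (nat_lit 5) (nat_lit 116) (nat_lit 5) (nat_lit 117) (nat_lit 5) (nat_lit 474) (nat_lit 383) (nat_lit 283)) (XT.lf (nat_lit 0) (nat_lit 2738214950) (nat_lit 380) (nat_lit 8757736202) (nat_lit 76) (nat_lit 2145938261) (nat_lit 106) (nat_lit 5) (nat_lit 111) (nat_lit 5) (nat_lit 107) (nat_lit 5) (nat_lit 475) (nat_lit 383) (nat_lit 282))))))))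
noncomputable def xc112 : XT := (XT.nd (nat_lit 2106) (nat_lit 2052) (nat_lit 0) (XT.nd (nat_lit 1014) (nat_lit 1748) (nat_lit 0) (XT.nd (nat_lit 468) (nat_lit 912) (nat_lit 0) (XT.nd (nat_lit 234) (nat_lit 684) (nat_lit 0) (XT.nd (nat_lit 78) (nat_lit 380) (nat_lit 0) (XT.lf (nat_lit 0) (nat_lit 5554439962) (nat_lit 380) (nat_lit 2087390660) (nat_lit 76) (nat_lit 6178945260) (nat_lit 106) (nat_lit 5) (nat_lit 111) (nat_lit 5) (nat_lit 107) (nat_lit 5) (nat_lit 476) (nat_lit 383) (nat_lit 281)) (XT.nd (nat_lit 78) (nat_lit 0) (nat_lit 0) (XT.lf (nat_lit 0) (nat_lit 4750606810) (nat_lit 380) (nat_lit 3688068652) (nat_lit 456) (nat_lit 5564343278) (nat_lit 101) (nat_lit 5) (nat_lit 106) (nat_lit 5) (nat_lit 107) (nat_lit 5) (nat_lit 477) (nat_lit 383) (nat_lit 280)) (XT.lf (nat_lit 0) (nat_lit 11377913093) (nat_lit 456) (nat_lit 2465507163) (nat_lit 76) (nat_lit 345551992) (nat_lit 101) (nat_lit 5) (nat_lit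 107) (nat_lit 5) (nat_lit 102) (nat_lit 5) (nat_lit 478) (nat_lit 383) (nat_lit 279)))) (XT.nd (nat_lit 78) (nat_lit 304) (nat_lit 0) (XT.lf (nat_lit 0) (nat_lit 32301204) (nat_lit 380) (nat_lit 9914577695) (nat_lit 76) (nat_lit 4431078444) (nat_lit 96) (nat_lit 5) (nat_lit 101) (nat_lit 5) (nat_lit 97) (nat_lit 5) (nat_lit 479) (nat_lit 383) (nat_lit 278)) (XT.nd (nat_lit 78) (nat_lit 304) (nat_lit 0) (XT.lf (nat_lit 0) (nat_lit 2892983460) (nat_lit 380) (nat_lit 3052584776) (nat_lit 76) (nat_lit 8624831825) (nat_lit 96) (nat_lit 5) (nat_lit 101) (nat_lit 5) (nat_lit 97) (nat_lit 5) (nat_lit 480) (nat_lit 383) (nat_lit 277)) (XT.lf (nat_lit 0) (nat_lit 3971546851) (nat_lit 304) (nat_lit 1846888198) (nat_lit 380) (nat_lit 8948116685) (nat_lit 92) (nat_lit 5) (nat_lit 96) (nat_lit 5) (nat_lit 97) (nat_lit 5) (nat_lit 481) (nat_lit 383) (nat_lit 276))))) (XT.nd (nat_lit 234) (nat_lit 608) (nat_lit 0) (XT.nd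 (nat_lit 78) (nat_lit 304) (nat_lit 0) (XT.lf (nat_lit 0) (nat_lit 8820061808) (nat_lit 380) (nat_lit 3831288661) (nat_lit 76) (nat_lit 2314933642) (nat_lit 92) (nat_lit 5) (nat_lit 97) (nat_lit 5) (nat_lit 93) (nat_lit 5) (nat_lit 482) (nat_lit 383) (nat_lit 275)) (XT.nd (nat_lit 78) (nat_lit 0) (nat_lit 0) (XT.lf (nat_lit 0) (nat_lit 3275643652) (nat_lit 304) (nat_lit 8621824852) (nat_lit 380) (nat_lit 3272238464) (nat_lit 88) (nat_lit 5) (nat_lit 92) (nat_lit 5) (nat_lit 93) (nat_lit 5) (nat_lit 483) (nat_lit 383) (nat_lit 274)) (XT.lf (nat_lit 0) (nat_lit 10550037131) (nat_lit 304) (nat_lit 4494520151) (nat_lit 380) (nat_lit 332488886) (nat_lit 88) (nat_lit 5) (nat_lit 92) (nat_lit 5) (nat_lit 93) (nat_lit 5) (nat_lit 484) (nat_lit 383) (nat_lit 273)))) (XT.nd (nat_lit 156) (nat_lit 228) (nat_lit 0) (XT.nd (nat_lit 78) (nat_lit 0) (nat_lit 0) (XT.lf (nat_lit 0) (nat_lit 2368813321) (nat_lit 304) (nat_lit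 260300742) (nat_lit 380) (nat_lit 12959121567) (nat_lit 83) (nat_lit 5) (nat_lit 87) (nat_lit 5) (nat_lit 88) (nat_lit 5) (nat_lit 485) (nat_lit 383) (nat_lit 272)) (XT.lf (nat_lit 0) (nat_lit 5687215139) (nat_lit 380) (nat_lit 6084237909) (nat_lit 76) (nat_lit 4031327475) (nat_lit 83) (nat_lit 5) (nat_lit 88) (nat_lit 5) (nat_lit 84) (nat_lit 5) (nat_lit 486) (nat_lit 383) (nat_lit 271))) (XT.nd (nat_lit 78) (nat_lit 0) (nat_lit 0) (XT.lf (nat_lit 0) (nat_lit 1181487641) (nat_lit 228) (nat_lit 7617480047) (nat_lit 304) (nat_lit 7222808598) (nat_lit 80) (nat_lit 5) (nat_lit 83) (nat_lit 5) (nat_lit 84) (nat_lit 5) (nat_lit 487) (nat_lit 383) (nat_lit 270)) (XT.lf (nat_lit 0) (nat_lit 8649237653) (nat_lit 228) (nat_lit 3347804886) (nat_lit 304) (nat_lit 4247637252) (nat_lit 80) (nat_lit 5) (nat_lit 83) (nat_lit 5) (nat_lit 84) (nat_lit 5) (nat_lit 488) (nat_lit 383) (nat_lit 269)))))) (XT.nd (nat_lit 546)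 (nat_lit 760) (nat_lit 0) (XT.nd (nat_lit 234) (nat_lit 608) (nat_lit 0) (XT.nd (nat_lit 78) (nat_lit 380) (nat_lit 0) (XT.lf (nat_lit 0) (nat_lit 15249148352) (nat_lit 304) (nat_lit 237777067) (nat_lit 76) (nat_lit 985323941) (nat_lit 80) (nat_lit 5) (nat_lit 84) (nat_lit 5) (nat_lit 81) (nat_lit 5) (nat_lit 489) (nat_lit 383) (nat_lit 268)) (XT.nd (nat_lit 78) (nat_lit 0) (nat_lit 0) (XT.lf (nat_lit 0) (nat_lit 1891374219) (nat_lit 380) (nat_lit 9399971921) (nat_lit 76) (nat_lit 5411714067) (nat_lit 75) (nat_lit 5) (nat_lit 80) (nat_lit 5) (nat_lit 76) (nat_lit 5) (nat_lit 490) (nat_lit 383) (nat_lit 267)) (XT.lf (nat_lit 0) (nat_lit 5037276017) (nat_lit 380) (nat_lit 1973667815) (nat_lit 76) (nat_lit 9927680300) (nat_lit 75) (nat_lit 5) (nat_lit 80) (nat_lit 5) (nat_lit 76) (nat_lit 5) (nat_lit 491) (nat_lit 383) (nat_lit 266)))) (XT.nd (nat_lit 156) (nat_lit 380) (nat_lit 0) (XT.nd (nat_lit 78) (nat_lit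 0) (nat_lit 0) (XT.lf (nat_lit 0) (nat_lit 5650668018) (nat_lit 228) (nat_lit 2616324444) (nat_lit 304) (nat_lit 8911497610) (nat_lit 72) (nat_lit 5) (nat_lit 75) (nat_lit 5) (nat_lit 76) (nat_lit 5) (nat_lit 492) (nat_lit 383) (nat_lit 265)) (XT.lf (nat_lit 0) (nat_lit 11571054343) (nat_lit 304) (nat_lit 4005554699) (nat_lit 76) (nat_lit 1846357765) (nat_lit 72) (nat_lit 5) (nat_lit 76) (nat_lit 5) (nat_lit 73) (nat_lit 5) (nat_lit 493) (nat_lit 383) (nat_lit 264))) (XT.nd (nat_lit 78) (nat_lit 76) (nat_lit 0) (XT.lf (nat_lit 0) (nat_lit 3673792055) (nat_lit 304) (nat_lit 11293195067) (nat_lit 380) (nat_lit 2704838494) (nat_lit 68) (nat_lit 5) (nat_lit 72) (nat_lit 5) (nat_lit 73) (nat_lit 5) (nat_lit 494) (nat_lit 383) (nat_lit 263)) (XT.lf (nat_lit 0) (nat_lit 510255684) (nat_lit 380) (nat_lit 6391834304) (nat_lit 76) (nat_lit 11023279939) (nat_lit 67) (nat_lit 5) (nat_lit 72) (nat_lit 5) (nat_lit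 68) (nat_lit 5) (nat_lit 495) (nat_lit 383) (nat_lit 262))))) (XT.nd (nat_lit 234) (nat_lit 532) (nat_lit 0) (XT.nd (nat_lit 78) (nat_lit 0) (nat_lit 0) (XT.lf (nat_lit 0) (nat_lit 1342383238) (nat_lit 228) (nat_lit 2404748087) (nat_lit 304) (nat_lit 14436630122) (nat_lit 64) (nat_lit 5) (nat_lit 67) (nat_lit 5) (nat_lit 68) (nat_lit 5) (nat_lit 496) (nat_lit 383) (nat_lit 261)) (XT.nd (nat_lit 78) (nat_lit 0) (nat_lit 0) (XT.lf (nat_lit 0) (nat_lit 7091124431) (nat_lit 304) (nat_lit 9166880488) (nat_lit 76) (nat_lit 2188475978) (nat_lit 64) (nat_lit 5) (nat_lit 68) (nat_lit 5) (nat_lit 65) (nat_lit 5) (nat_lit 497) (nat_lit 383) (nat_lit 260)) (XT.lf (nat_lit 0) (nat_lit 10503249177) (nat_lit 304) (nat_lit 1378240952) (nat_lit 76) (nat_lit 6832947119) (nat_lit 64) (nat_lit 5) (nat_lit 68) (nat_lit 5) (nat_lit 65) (nat_lit 5) (nat_lit 498) (nat_lit 383) (nat_lit 259)))) (XT.nd (nat_lit 156) (nat_lit 304)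 (nat_lit 0) (XT.nd (nat_lit 78) (nat_lit 0) (nat_lit 0) (XT.lf (nat_lit 0) (nat_lit 6630163777) (nat_lit 228) (nat_lit 7382114076) (nat_lit 304) (nat_lit 4974909042) (nat_lit 61) (nat_lit 5) (nat_lit 64) (nat_lit 5) (nat_lit 65) (nat_lit 5) (nat_lit 499) (nat_lit 383) (nat_lit 258)) (XT.lf (nat_lit 0) (nat_lit 14794606706) (nat_lit 228) (nat_lit 2791877098) (nat_lit 304) (nat_lit 1679015051) (nat_lit 61) (nat_lit 5) (nat_lit 64) (nat_lit 5) (nat_lit 65) (nat_lit 5) (nat_lit 500) (nat_lit 383) (nat_lit 257))) (XT.nd (nat_lit 78) (nat_lit 0) (nat_lit 0) (XT.lf (nat_lit 0) (nat_lit 1682384214) (nat_lit 304) (nat_lit 15974910510) (nat_lit 76) (nat_lit 1891437634) (nat_lit 57) (nat_lit 5) (nat_lit 61) (nat_lit 5) (nat_lit 58) (nat_lit 5) (nat_lit 501) (nat_lit 383) (nat_lit 256)) (XT.lf (nat_lit 0) (nat_lit 5123243764) (nat_lit 304) (nat_lit 8049444755) (nat_lit 76) (nat_lit 6664032595) (nat_lit 57) (nat_lit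 5) (nat_lit 61) (nat_lit 5) (nat_lit 58) (nat_lit 5) (nat_lit 502) (nat_lit 383) (nat_lit 255))))))) (XT.nd (nat_lit 1014) (nat_lit 836) (nat_lit 0) (XT.nd (nat_lit 468) (nat_lit 684) (nat_lit 0) (XT.nd (nat_lit 234) (nat_lit 304) (nat_lit 0) (XT.nd (nat_lit 78) (nat_lit 0) (nat_lit 0) (XT.lf (nat_lit 0) (nat_lit 12496894) (nat_lit 228) (nat_lit 8606782507) (nat_lit 304) (nat_lit 11511469769) (nat_lit 54) (nat_lit 5) (nat_lit 57) (nat_lit 5) (nat_lit 58) (nat_lit 5) (nat_lit 503) (nat_lit 383) (nat_lit 254)) (XT.nd (nat_lit 78) (nat_lit 0) (nat_lit 0) (XT.lf (nat_lit 0) (nat_lit 8322738435) (nat_lit 228) (nat_lit 3902916976) (nat_lit 304) (nat_lit 8204200551) (nat_lit 54) (nat_lit 5) (nat_lit 57) (nat_lit 5) (nat_lit 58) (nat_lit 5) (nat_lit 504) (nat_lit 383) (nat_lit 253)) (XT.lf (nat_lit 0) (nat_lit 15896586470) (nat_lit 304) (nat_lit 3963409309) (nat_lit 76) (nat_lit 875107001) (nat_lit 54) (nat_lit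 5) (nat_lit 58) (nat_lit 5) (nat_lit 55) (nat_lit 5) (nat_lit 505) (nat_lit 383) (nat_lit 252)))) (XT.nd (nat_lit 78) (nat_lit 76) (nat_lit 0) (XT.lf (nat_lit 0) (nat_lit 4353006479) (nat_lit 228) (nat_lit 15328918258) (nat_lit 304) (nat_lit 1363716342) (nat_lit 51) (nat_lit 5) (nat_lit 54) (nat_lit 5) (nat_lit 55) (nat_lit 5) (nat_lit 506) (nat_lit 383) (nat_lit 251)) (XT.nd (nat_lit 78) (nat_lit 0) (nat_lit 0) (XT.lf (nat_lit 0) (nat_lit 2165659449) (nat_lit 304) (nat_lit 8508165633) (nat_lit 76) (nat_lit 10688014406) (nat_lit 50) (nat_lit 5) (nat_lit 54) (nat_lit 5) (nat_lit 51) (nat_lit 5) (nat_lit 507) (nat_lit 383) (nat_lit 250)) (XT.lf (nat_lit 0) (nat_lit 5734542230) (nat_lit 304) (nat_lit 190067102) (nat_lit 76) (nat_lit 15759834605) (nat_lit 50) (nat_lit 5) (nat_lit 54) (nat_lit 5) (nat_lit 51) (nat_lit 5) (nat_lit 508) (nat_lit 383) (nat_lit 249))))) (XT.nd (nat_lit 234) (nat_lit 304) (nat_lit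 0) (XT.nd (nat_lit 78) (nat_lit 152) (nat_lit 0) (XT.lf (nat_lit 0) (nat_lit 8383731284) (nat_lit 228) (nat_lit 1032918409) (nat_lit 304) (nat_lit 12596019677) (nat_lit 47) (nat_lit 5) (nat_lit 50) (nat_lit 5) (nat_lit 51) (nat_lit 5) (nat_lit 509) (nat_lit 383) (nat_lit 248)) (XT.nd (nat_lit 78) (nat_lit 152) (nat_lit 0) (XT.lf (nat_lit 0) (nat_lit 13186848205) (nat_lit 304) (nat_lit 5262232899) (nat_lit 76) (nat_lit 3898094950) (nat_lit 47) (nat_lit 5) (nat_lit 51) (nat_lit 5) (nat_lit 48) (nat_lit 5) (nat_lit 510) (nat_lit 383) (nat_lit 247)) (XT.lf (nat_lit 0) (nat_lit 3287807845) (nat_lit 152) (nat_lit 13760551645) (nat_lit 228) (nat_lit 5639700812) (nat_lit 45) (nat_lit 5) (nat_lit 47) (nat_lit 5) (nat_lit 48) (nat_lit 5) (nat_lit 511) (nat_lit 383) (nat_lit 246)))) (XT.nd (nat_lit 156) (nat_lit 228) (nat_lit 0) (XT.nd (nat_lit 78) (nat_lit 76) (nat_lit 0) (XT.lf (nat_lit 0) (nat_lit 12060035546)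 (nat_lit 152) (nat_lit 8950209422) (nat_lit 228) (nat_lit 2025059885) (nat_lit 45) (nat_lit 5) (nat_lit 47) (nat_lit 5) (nat_lit 48) (nat_lit 5) (nat_lit 512) (nat_lit 383) (nat_lit 245)) (XT.lf (nat_lit 0) (nat_lit 1628063970) (nat_lit 228) (nat_lit 2412491242) (nat_lit 76) (nat_lit 19348968850) (nat_lit 44) (nat_lit 5) (nat_lit 47) (nat_lit 5) (nat_lit 45) (nat_lit 5) (nat_lit 513) (nat_lit 383) (nat_lit 244))) (XT.nd (nat_lit 78) (nat_lit 0) (nat_lit 0) (XT.lf (nat_lit 0) (nat_lit 5363346785) (nat_lit 304) (nat_lit 17384386157) (nat_lit 76) (nat_lit 1002107939) (nat_lit 41) (nat_lit 5) (nat_lit 45) (nat_lit 5) (nat_lit 42) (nat_lit 5) (nat_lit 514) (nat_lit 383) (nat_lit 243)) (XT.lf (nat_lit 0) (nat_lit 9204666539) (nat_lit 304) (nat_lit 8811828781) (nat_lit 76) (nat_lit 6100247170) (nat_lit 41) (nat_lit 5) (nat_lit 45) (nat_lit 5) (nat_lit 42) (nat_lit 5) (nat_lit 515) (nat_lit 383) (nat_lit 242))))))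 (XT.nd (nat_lit 546) (nat_lit 228) (nat_lit 0) (XT.nd (nat_lit 234) (nat_lit 456) (nat_lit 0) (XT.nd (nat_lit 78) (nat_lit 152) (nat_lit 0) (XT.lf (nat_lit 0) (nat_lit 13111318903) (nat_lit 304) (nat_lit 87020489) (nat_lit 76) (nat_lit 11292877594) (nat_lit 41) (nat_lit 5) (nat_lit 45) (nat_lit 5) (nat_lit 42) (nat_lit 5) (nat_lit 516) (nat_lit 383) (nat_lit 241)) (XT.nd (nat_lit 78) (nat_lit 0) (nat_lit 0) (XT.lf (nat_lit 0) (nat_lit 8910320670) (nat_lit 152) (nat_lit 8232366939) (nat_lit 228) (nat_lit 7729566579) (nat_lit 39) (nat_lit 5) (nat_lit 41) (nat_lit 5) (nat_lit 42) (nat_lit 5) (nat_lit 517) (nat_lit 383) (nat_lit 240)) (XT.lf (nat_lit 0) (nat_lit 18070088324) (nat_lit 152) (nat_lit 3174010439) (nat_lit 228) (nat_lit 4017029854) (nat_lit 39) (nat_lit 5) (nat_lit 41) (nat_lit 5) (nat_lit 42) (nat_lit 5) (nat_lit 518) (nat_lit 383) (nat_lit 239)))) (XT.nd (nat_lit 156) (nat_lit 152) (nat_lit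 0) (XT.nd (nat_lit 78) (nat_lit 76) (nat_lit 0) (XT.lf (nat_lit 0) (nat_lit 1746779855) (nat_lit 228) (nat_lit 23693992988) (nat_lit 304) (nat_lit 216747690) (nat_lit 36) (nat_lit 5) (nat_lit 39) (nat_lit 5) (nat_lit 40) (nat_lit 5) (nat_lit 519) (nat_lit 383) (nat_lit 238)) (XT.lf (nat_lit 0) (nat_lit 3670161472) (nat_lit 304) (nat_lit 15163679634) (nat_lit 76) (nat_lit 7226356151) (nat_lit 35) (nat_lit 5) (nat_lit 39) (nat_lit 5) (nat_lit 36) (nat_lit 5) (nat_lit 520) (nat_lit 383) (nat_lit 237))) (XT.nd (nat_lit 78) (nat_lit 152) (nat_lit 0) (XT.lf (nat_lit 0) (nat_lit 7621146247) (nat_lit 304) (nat_lit 6261286938) (nat_lit 76) (nat_lit 12588685304) (nat_lit 35) (nat_lit 5) (nat_lit 39) (nat_lit 5) (nat_lit 36) (nat_lit 5) (nat_lit 521) (nat_lit 383) (nat_lit 236)) (XT.lf (nat_lit 0) (nat_lit 2838564091) (nat_lit 152) (nat_lit 8820464474) (nat_lit 228) (nat_lit 15231076357) (nat_lit 33) (nat_lit 5)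 (nat_lit 35) (nat_lit 5) (nat_lit 36) (nat_lit 5) (nat_lit 522) (nat_lit 383) (nat_lit 235))))) (XT.nd (nat_lit 234) (nat_lit 76) (nat_lit 0) (XT.nd (nat_lit 78) (nat_lit 152) (nat_lit 0) (XT.lf (nat_lit 0) (nat_lit 12187584957) (nat_lit 152) (nat_lit 3621640088) (nat_lit 228) (nat_lit 11507619159) (nat_lit 33) (nat_lit 5) (nat_lit 35) (nat_lit 5) (nat_lit 36) (nat_lit 5) (nat_lit 523) (nat_lit 383) (nat_lit 234)) (XT.nd (nat_lit 78) (nat_lit 152) (nat_lit 0) (XT.lf (nat_lit 0) (nat_lit 20043039661) (nat_lit 228) (nat_lit 6056963924) (nat_lit 76) (nat_lit 1652106568) (nat_lit 33) (nat_lit 5) (nat_lit 36) (nat_lit 5) (nat_lit 34) (nat_lit 5) (nat_lit 524) (nat_lit 383) (nat_lit 233)) (XT.lf (nat_lit 0) (nat_lit 3197556240) (nat_lit 152) (nat_lit 21198620332) (nat_lit 228) (nat_lit 3799216016) (nat_lit 31) (nat_lit 5) (nat_lit 33) (nat_lit 5) (nat_lit 34) (nat_lit 5) (nat_lit 525) (nat_lit 383) (nat_lit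 232)))) (XT.nd (nat_lit 48360) (nat_lit 0) (nat_lit 42256) (XT.nd (nat_lit 48282) (nat_lit 0) (nat_lit 42636) (XT.lf (nat_lit 0) (nat_lit 217191502) (nat_lit 228) (nat_lit 15946150581) (nat_lit 76) (nat_lit 12483561340) (nat_lit 30) (nat_lit 5) (nat_lit 33) (nat_lit 5) (nat_lit 31) (nat_lit 5) (nat_lit 526) (nat_lit 383) (nat_lit 231)) (XT.lf (nat_lit 0) (nat_lit 1389116558) (nat_lit 380) (nat_lit 923951485) (nat_lit 380) (nat_lit 923951485) (nat_lit 591) (nat_lit 3) (nat_lit 596) (nat_lit 3) (nat_lit 596) (nat_lit 5) (nat_lit 384) (nat_lit 384) (nat_lit 372))) (XT.nd (nat_lit 78) (nat_lit 380) (nat_lit 0) (XT.lf (nat_lit 76) (nat_lit 1109817197) (nat_lit 0) (nat_lit 4269627616) (nat_lit 380) (nat_lit 1103263721) (nat_lit 592) (nat_lit 5) (nat_lit 591) (nat_lit 3) (nat_lit 596) (nat_lit 5) (nat_lit 385) (nat_lit 384) (nat_lit 371)) (XT.lf (nat_lit 0) (nat_lit 1465294039) (nat_lit 380) (nat_lit 2385521413)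 (nat_lit 456) (nat_lit 2641766645) (nat_lit 586) (nat_lit 5) (nat_lit 591) (nat_lit 3) (nat_lit 592) (nat_lit 5) (nat_lit 386) (nat_lit 384) (nat_lit 370))))))))
noncomputable def xc113 : XT := (XT.nd (nat_lit 2106) (nat_lit 17024) (nat_lit 0) (XT.nd (nat_lit 1014) (nat_lit 7904) (nat_lit 0) (XT.nd (nat_lit 468) (nat_lit 1216) (nat_lit 0) (XT.nd (nat_lit 234) (nat_lit 532) (nat_lit 0) (XT.nd (nat_lit 78) (nat_lit 456) (nat_lit 0) (XT.lf (nat_lit 76) (nat_lit 627350238) (nat_lit 0) (nat_lit 3380416766) (nat_lit 456) (nat_lit 2496109975) (nat_lit 587) (nat_lit 5) (nat_lit 586) (nat_lit 5) (nat_lit 592) (nat_lit 5) (nat_lit 387) (nat_lit 384) (nat_lit 369)) (XT.nd (nat_lit 78) (nat_lit 0) (nat_lit 0) (XT.lf (nat_lit 0) (nat_lit 34446803) (nat_lit 456) (nat_lit 2818851777) (nat_lit 532) (nat_lit 3663201996) (nat_lit 580) (nat_lit 5) (nat_lit 586) (nat_lit 5) (nat_lit 587) (nat_lit 5) (nat_lit 388) (nat_lit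 384) (nat_lit 368)) (XT.lf (nat_lit 76) (nat_lit 251521876) (nat_lit 0) (nat_lit 2267397823) (nat_lit 532) (nat_lit 4011501745) (nat_lit 581) (nat_lit 5) (nat_lit 580) (nat_lit 5) (nat_lit 587) (nat_lit 5) (nat_lit 389) (nat_lit 384) (nat_lit 367)))) (XT.nd (nat_lit 78) (nat_lit 532) (nat_lit 0) (XT.lf (nat_lit 76) (nat_lit 3386521978) (nat_lit 0) (nat_lit 1621585735) (nat_lit 532) (nat_lit 1537519699) (nat_lit 581) (nat_lit 5) (nat_lit 580) (nat_lit 5) (nat_lit 587) (nat_lit 5) (nat_lit 390) (nat_lit 384) (nat_lit 366)) (XT.nd (nat_lit 78) (nat_lit 0) (nat_lit 0) (XT.lf (nat_lit 0) (nat_lit 909855078) (nat_lit 532) (nat_lit 18564352) (nat_lit 608) (nat_lit 5633956197) (nat_lit 573) (nat_lit 5) (nat_lit 580) (nat_lit 5) (nat_lit 581) (nat_lit 5) (nat_lit 391) (nat_lit 384) (nat_lit 365)) (XT.lf (nat_lit 76) (nat_lit 3181778483) (nat_lit 0) (nat_lit 162571193) (nat_lit 608) (nat_lit 3235831690) (nat_lit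 574) (nat_lit 5) (nat_lit 573) (nat_lit 5) (nat_lit 581) (nat_lit 5) (nat_lit 392) (nat_lit 384) (nat_lit 364))))) (XT.nd (nat_lit 234) (nat_lit 684) (nat_lit 0) (XT.nd (nat_lit 78) (nat_lit 608) (nat_lit 0) (XT.lf (nat_lit 0) (nat_lit 5770922018) (nat_lit 532) (nat_lit 191797380) (nat_lit 608) (nat_lit 636855098) (nat_lit 574) (nat_lit 5) (nat_lit 581) (nat_lit 5) (nat_lit 582) (nat_lit 5) (nat_lit 393) (nat_lit 384) (nat_lit 363)) (XT.nd (nat_lit 78) (nat_lit 0) (nat_lit 0) (XT.lf (nat_lit 0) (nat_lit 1566517751) (nat_lit 608) (nat_lit 3547344857) (nat_lit 684) (nat_lit 1506153209) (nat_lit 566) (nat_lit 5) (nat_lit 574) (nat_lit 5) (nat_lit 575) (nat_lit 5) (nat_lit 394) (nat_lit 384) (nat_lit 362)) (XT.lf (nat_lit 0) (nat_lit 3940698299) (nat_lit 608) (nat_lit 277072705) (nat_lit 684) (nat_lit 2424234683) (nat_lit 566) (nat_lit 5) (nat_lit 574) (nat_lit 5) (nat_lit 575) (nat_lit 5) (nat_lit 395) (nat_lit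 384) (nat_lit 361)))) (XT.nd (nat_lit 156) (nat_lit 0) (nat_lit 0) (XT.nd (nat_lit 78) (nat_lit 684) (nat_lit 0) (XT.lf (nat_lit 76) (nat_lit 3063722707) (nat_lit 0) (nat_lit 3260586972) (nat_lit 684) (nat_lit 340978221) (nat_lit 567) (nat_lit 5) (nat_lit 566) (nat_lit 5) (nat_lit 575) (nat_lit 5) (nat_lit 396) (nat_lit 384) (nat_lit 360)) (XT.lf (nat_lit 0) (nat_lit 1983825152) (nat_lit 684) (nat_lit 263023393) (nat_lit 760) (nat_lit 4443119384) (nat_lit 557) (nat_lit 5) (nat_lit 566) (nat_lit 5) (nat_lit 567) (nat_lit 5) (nat_lit 397) (nat_lit 384) (nat_lit 359))) (XT.nd (nat_lit 78) (nat_lit 0) (nat_lit 0) (XT.lf (nat_lit 76) (nat_lit 3146310369) (nat_lit 0) (nat_lit 1168307470) (nat_lit 760) (nat_lit 2401283677) (nat_lit 558) (nat_lit 5) (nat_lit 557) (nat_lit 5) (nat_lit 567) (nat_lit 5) (nat_lit 398) (nat_lit 384) (nat_lit 358)) (XT.lf (nat_lit 76) (nat_lit 6592641159) (nat_lit 0) (nat_lit 45656697)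 (nat_lit 760) (nat_lit 105215013) (nat_lit 558) (nat_lit 5) (nat_lit 557) (nat_lit 5) (nat_lit 567) (nat_lit 5) (nat_lit 399) (nat_lit 384) (nat_lit 357)))))) (XT.nd (nat_lit 546) (nat_lit 4560) (nat_lit 0) (XT.nd (nat_lit 234) (nat_lit 1900) (nat_lit 0) (XT.nd (nat_lit 78) (nat_lit 760) (nat_lit 0) (XT.lf (nat_lit 0) (nat_lit 2181722920) (nat_lit 760) (nat_lit 3449143179) (nat_lit 76) (nat_lit 1141115467) (nat_lit 548) (nat_lit 5) (nat_lit 558) (nat_lit 5) (nat_lit 549) (nat_lit 5) (nat_lit 400) (nat_lit 384) (nat_lit 356)) (XT.nd (nat_lit 78) (nat_lit 0) (nat_lit 0) (XT.lf (nat_lit 0) (nat_lit 30523528) (nat_lit 760) (nat_lit 4430116757) (nat_lit 836) (nat_lit 2341492102) (nat_lit 538) (nat_lit 5) (nat_lit 548) (nat_lit 5) (nat_lit 549) (nat_lit 5) (nat_lit 401) (nat_lit 384) (nat_lit 355)) (XT.lf (nat_lit 0) (nat_lit 3590834711) (nat_lit 760) (nat_lit 3164399857) (nat_lit 836) (nat_lit 78327771) (nat_lit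 538) (nat_lit 5) (nat_lit 548) (nat_lit 5) (nat_lit 549) (nat_lit 5) (nat_lit 402) (nat_lit 384) (nat_lit 354)))) (XT.nd (nat_lit 156) (nat_lit 988) (nat_lit 0) (XT.nd (nat_lit 78) (nat_lit 0) (nat_lit 0) (XT.lf (nat_lit 0) (nat_lit 310550237) (nat_lit 836) (nat_lit 1839890921) (nat_lit 912) (nat_lit 4715973412) (nat_lit 526) (nat_lit 5) (nat_lit 537) (nat_lit 5) (nat_lit 538) (nat_lit 5) (nat_lit 403) (nat_lit 384) (nat_lit 353)) (XT.lf (nat_lit 0) (nat_lit 3942784802) (nat_lit 836) (nat_lit 450080240) (nat_lit 912) (nat_lit 2507719463) (nat_lit 526) (nat_lit 5) (nat_lit 537) (nat_lit 5) (nat_lit 538) (nat_lit 5) (nat_lit 404) (nat_lit 384) (nat_lit 352))) (XT.nd (nat_lit 78) (nat_lit 76) (nat_lit 0) (XT.lf (nat_lit 0) (nat_lit 678817889) (nat_lit 912) (nat_lit 5961493847) (nat_lit 988) (nat_lit 295994756) (nat_lit 514) (nat_lit 5) (nat_lit 526) (nat_lit 5) (nat_lit 527) (nat_lit 5) (nat_lit 405) (nat_lit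 384) (nat_lit 351)) (XT.lf (nat_lit 0) (nat_lit 1907063621) (nat_lit 988) (nat_lit 2596450037) (nat_lit 76) (nat_lit 2469588004) (nat_lit 513) (nat_lit 5) (nat_lit 526) (nat_lit 5) (nat_lit 514) (nat_lit 5) (nat_lit 406) (nat_lit 384) (nat_lit 350))))) (XT.nd (nat_lit 234) (nat_lit 2432) (nat_lit 0) (XT.nd (nat_lit 78) (nat_lit 1140) (nat_lit 0) (XT.lf (nat_lit 0) (nat_lit 1114656049) (nat_lit 988) (nat_lit 2993631949) (nat_lit 1064) (nat_lit 2903212221) (nat_lit 500) (nat_lit 5) (nat_lit 513) (nat_lit 5) (nat_lit 514) (nat_lit 5) (nat_lit 407) (nat_lit 384) (nat_lit 349)) (XT.nd (nat_lit 78) (nat_lit 1140) (nat_lit 0) (XT.lf (nat_lit 0) (nat_lit 4899603492) (nat_lit 988) (nat_lit 1422917513) (nat_lit 1064) (nat_lit 728832706) (nat_lit 500) (nat_lit 5) (nat_lit 513) (nat_lit 5) (nat_lit 514) (nat_lit 5) (nat_lit 408) (nat_lit 384) (nat_lit 348)) (XT.lf (nat_lit 0) (nat_lit 1433692560) (nat_lit 1140) (nat_lit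 5449429234) (nat_lit 76) (nat_lit 209469439) (nat_lit 485) (nat_lit 5) (nat_lit 500) (nat_lit 5) (nat_lit 486) (nat_lit 5) (nat_lit 409) (nat_lit 384) (nat_lit 347)))) (XT.nd (nat_lit 156) (nat_lit 1292) (nat_lit 0) (XT.nd (nat_lit 78) (nat_lit 1140) (nat_lit 0) (XT.lf (nat_lit 0) (nat_lit 3606593909) (nat_lit 1140) (nat_lit 1641997931) (nat_lit 76) (nat_lit 1886490423) (nat_lit 485) (nat_lit 5) (nat_lit 500) (nat_lit 5) (nat_lit 486) (nat_lit 5) (nat_lit 410) (nat_lit 384) (nat_lit 346)) (XT.lf (nat_lit 0) (nat_lit 2235183509) (nat_lit 1140) (nat_lit 3556122492) (nat_lit 1216) (nat_lit 1387811630) (nat_lit 470) (nat_lit 5) (nat_lit 485) (nat_lit 5) (nat_lit 486) (nat_lit 5) (nat_lit 411) (nat_lit 384) (nat_lit 345))) (XT.nd (nat_lit 78) (nat_lit 1216) (nat_lit 0) (XT.lf (nat_lit 0) (nat_lit 750489166) (nat_lit 1216) (nat_lit 1053032897) (nat_lit 76) (nat_lit 5421162581) (nat_lit 469) (nat_lit 5) (nat_lit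 485) (nat_lit 5) (nat_lit 470) (nat_lit 5) (nat_lit 412) (nat_lit 384) (nat_lit 344)) (XT.lf (nat_lit 0) (nat_lit 2887077044) (nat_lit 1292) (nat_lit 4362490682) (nat_lit 76) (nat_lit 21987746) (nat_lit 453) (nat_lit 5) (nat_lit 470) (nat_lit 5) (nat_lit 454) (nat_lit 5) (nat_lit 413) (nat_lit 384) (nat_lit 343))))))) (XT.nd (nat_lit 1092) (nat_lit 6004) (nat_lit 0) (XT.nd (nat_lit 546) (nat_lit 5244) (nat_lit 0) (XT.nd (nat_lit 234) (nat_lit 3040) (nat_lit 0) (XT.nd (nat_lit 78) (nat_lit 2736) (nat_lit 0) (XT.lf (nat_lit 0) (nat_lit 5041218782) (nat_lit 1292) (nat_lit 402741148) (nat_lit 76) (nat_lit 1875964224) (nat_lit 453) (nat_lit 5) (nat_lit 470) (nat_lit 5) (nat_lit 454) (nat_lit 5) (nat_lit 414) (nat_lit 384) (nat_lit 342)) (XT.nd (nat_lit 78) (nat_lit 1444) (nat_lit 0) (XT.lf (nat_lit 0) (nat_lit 3648558127) (nat_lit 1292) (nat_lit 3570206486) (nat_lit 1368) (nat_lit 150944941) (nat_lit 436)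 (nat_lit 5) (nat_lit 453) (nat_lit 5) (nat_lit 454) (nat_lit 5) (nat_lit 415) (nat_lit 384) (nat_lit 341)) (XT.lf (nat_lit 0) (nat_lit 321098951) (nat_lit 1368) (nat_lit 1633509374) (nat_lit 1444) (nat_lit 5466439274) (nat_lit 417) (nat_lit 5) (nat_lit 435) (nat_lit 5) (nat_lit 436) (nat_lit 5) (nat_lit 416) (nat_lit 384) (nat_lit 340)))) (XT.nd (nat_lit 156) (nat_lit 1596) (nat_lit 0) (XT.nd (nat_lit 78) (nat_lit 1444) (nat_lit 0) (XT.lf (nat_lit 0) (nat_lit 4085183923) (nat_lit 1444) (nat_lit 3018261912) (nat_lit 76) (nat_lit 370300517) (nat_lit 417) (nat_lit 5) (nat_lit 436) (nat_lit 5) (nat_lit 418) (nat_lit 5) (nat_lit 417) (nat_lit 384) (nat_lit 339)) (XT.lf (nat_lit 0) (nat_lit 1112955399) (nat_lit 1444) (nat_lit 5121865788) (nat_lit 1520) (nat_lit 1293200410) (nat_lit 398) (nat_lit 5) (nat_lit 417) (nat_lit 5) (nat_lit 418) (nat_lit 5) (nat_lit 418) (nat_lit 384) (nat_lit 338))) (XT.nd (nat_lit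 78) (nat_lit 1520) (nat_lit 0) (XT.lf (nat_lit 0) (nat_lit 812055856) (nat_lit 1520) (nat_lit 2257125809) (nat_lit 76) (nat_lit 4514559453) (nat_lit 397) (nat_lit 5) (nat_lit 417) (nat_lit 5) (nat_lit 398) (nat_lit 5) (nat_lit 419) (nat_lit 384) (nat_lit 337)) (XT.lf (nat_lit 0) (nat_lit 1965655196) (nat_lit 1520) (nat_lit 948703899) (nat_lit 1596) (nat_lit 4726648367) (nat_lit 377) (nat_lit 5) (nat_lit 397) (nat_lit 5) (nat_lit 398) (nat_lit 5) (nat_lit 420) (nat_lit 384) (nat_lit 336))))) (XT.nd (nat_lit 234) (nat_lit 3572) (nat_lit 0) (XT.nd (nat_lit 78) (nat_lit 1672) (nat_lit 0) (XT.lf (nat_lit 0) (nat_lit 5041913329) (nat_lit 1596) (nat_lit 1439789063) (nat_lit 76) (nat_lit 1218100238) (nat_lit 377) (nat_lit 5) (nat_lit 398) (nat_lit 5) (nat_lit 378) (nat_lit 5) (nat_lit 421) (nat_lit 384) (nat_lit 335)) (XT.nd (nat_lit 78) (nat_lit 76) (nat_lit 0) (XT.lf (nat_lit 0) (nat_lit 2876460217) (nat_lit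 1596) (nat_lit 4321374805) (nat_lit 1672) (nat_lit 562269015) (nat_lit 356) (nat_lit 5) (nat_lit 377) (nat_lit 5) (nat_lit 378) (nat_lit 5) (nat_lit 422) (nat_lit 384) (nat_lit 334)) (XT.lf (nat_lit 0) (nat_lit 1525425149) (nat_lit 1672) (nat_lit 568954877) (nat_lit 76) (nat_lit 5727655316) (nat_lit 355) (nat_lit 5) (nat_lit 377) (nat_lit 5) (nat_lit 356) (nat_lit 5) (nat_lit 423) (nat_lit 384) (nat_lit 333)))) (XT.nd (nat_lit 156) (nat_lit 912) (nat_lit 0) (XT.nd (nat_lit 78) (nat_lit 988) (nat_lit 0) (XT.lf (nat_lit 0) (nat_lit 3635525141) (nat_lit 1748) (nat_lit 4043178760) (nat_lit 76) (nat_lit 206707398) (nat_lit 333) (nat_lit 5) (nat_lit 356) (nat_lit 5) (nat_lit 334) (nat_lit 5) (nat_lit 424) (nat_lit 384) (nat_lit 332)) (XT.lf (nat_lit 0) (nat_lit 354454160) (nat_lit 988) (nat_lit 5415785519) (nat_lit 1064) (nat_lit 2180209955) (nat_lit 320) (nat_lit 5) (nat_lit 333) (nat_lit 5) (nat_lit 334)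 (nat_lit 5) (nat_lit 425) (nat_lit 384) (nat_lit 331))) (XT.nd (nat_lit 78) (nat_lit 912) (nat_lit 0) (XT.lf (nat_lit 0) (nat_lit 4859403969) (nat_lit 988) (nat_lit 3078281439) (nat_lit 1064) (nat_lit 79344855) (nat_lit 320) (nat_lit 5) (nat_lit 333) (nat_lit 5) (nat_lit 334) (nat_lit 5) (nat_lit 426) (nat_lit 384) (nat_lit 330)) (XT.lf (nat_lit 0) (nat_lit 1338390797) (nat_lit 836) (nat_lit 670123459) (nat_lit 912) (nat_lit 6076760105) (nat_lit 308) (nat_lit 5) (nat_lit 319) (nat_lit 5) (nat_lit 320) (nat_lit 5) (nat_lit 427) (nat_lit 384) (nat_lit 329)))))) (XT.nd (nat_lit 546) (nat_lit 2812) (nat_lit 0) (XT.nd (nat_lit 234) (nat_lit 2280) (nat_lit 0) (XT.nd (nat_lit 78) (nat_lit 912) (nat_lit 0) (XT.lf (nat_lit 0) (nat_lit 4133844950) (nat_lit 912) (nat_lit 2235404855) (nat_lit 76) (nat_lit 1785727337) (nat_lit 308) (nat_lit 5) (nat_lit 320) (nat_lit 5) (nat_lit 309) (nat_lit 5) (nat_lit 428) (nat_lit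 384) (nat_lit 328)) (XT.nd (nat_lit 78) (nat_lit 76) (nat_lit 0) (XT.lf (nat_lit 0) (nat_lit 2357676070) (nat_lit 836) (nat_lit 3928309522) (nat_lit 912) (nat_lit 1940441366) (nat_lit 297) (nat_lit 5) (nat_lit 308) (nat_lit 5) (nat_lit 309) (nat_lit 5) (nat_lit 429) (nat_lit 384) (nat_lit 327)) (XT.lf (nat_lit 0) (nat_lit 159335118) (nat_lit 912) (nat_lit 1262751460) (nat_lit 76) (nat_lit 6877635966) (nat_lit 296) (nat_lit 5) (nat_lit 308) (nat_lit 5) (nat_lit 297) (nat_lit 5) (nat_lit 430) (nat_lit 384) (nat_lit 326)))) (XT.nd (nat_lit 156) (nat_lit 1520) (nat_lit 0) (XT.nd (nat_lit 78) (nat_lit 0) (nat_lit 0) (XT.lf (nat_lit 0) (nat_lit 2270481375) (nat_lit 836) (nat_lit 4949257364) (nat_lit 76) (nat_lit 1154618434) (nat_lit 286) (nat_lit 5) (nat_lit 297) (nat_lit 5) (nat_lit 287) (nat_lit 5) (nat_lit 431) (nat_lit 384) (nat_lit 325)) (XT.lf (nat_lit 0) (nat_lit 4407697517) (nat_lit 836) (nat_lit 271143189)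 (nat_lit 76) (nat_lit 3772002922) (nat_lit 286) (nat_lit 5) (nat_lit 297) (nat_lit 5) (nat_lit 287) (nat_lit 5) (nat_lit 432) (nat_lit 384) (nat_lit 324))) (XT.nd (nat_lit 78) (nat_lit 760) (nat_lit 0) (XT.lf (nat_lit 0) (nat_lit 4525395137) (nat_lit 760) (nat_lit 2058212676) (nat_lit 836) (nat_lit 1945368367) (nat_lit 276) (nat_lit 5) (nat_lit 286) (nat_lit 5) (nat_lit 287) (nat_lit 5) (nat_lit 433) (nat_lit 384) (nat_lit 323)) (XT.lf (nat_lit 0) (nat_lit 169543335) (nat_lit 760) (nat_lit 7826026212) (nat_lit 76) (nat_lit 613556038) (nat_lit 266) (nat_lit 5) (nat_lit 276) (nat_lit 5) (nat_lit 267) (nat_lit 5) (nat_lit 434) (nat_lit 384) (nat_lit 322))))) (XT.nd (nat_lit 234) (nat_lit 2052) (nat_lit 0) (XT.nd (nat_lit 78) (nat_lit 760) (nat_lit 0) (XT.lf (nat_lit 0) (nat_lit 2308569016) (nat_lit 760) (nat_lit 3032438161) (nat_lit 76) (nat_lit 3349489665) (nat_lit 266) (nat_lit 5) (nat_lit 276) (nat_lit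 5) (nat_lit 267) (nat_lit 5) (nat_lit 435) (nat_lit 384) (nat_lit 321)) (XT.nd (nat_lit 78) (nat_lit 0) (nat_lit 0) (XT.lf (nat_lit 0) (nat_lit 1846743199) (nat_lit 760) (nat_lit 2623431383) (nat_lit 836) (nat_lit 4303757626) (nat_lit 256) (nat_lit 5) (nat_lit 266) (nat_lit 5) (nat_lit 267) (nat_lit 5) (nat_lit 436) (nat_lit 384) (nat_lit 320)) (XT.lf (nat_lit 0) (nat_lit 6664662017) (nat_lit 836) (nat_lit 2030037875) (nat_lit 76) (nat_lit 164575423) (nat_lit 256) (nat_lit 5) (nat_lit 267) (nat_lit 5) (nat_lit 257) (nat_lit 5) (nat_lit 437) (nat_lit 384) (nat_lit 319)))) (XT.nd (nat_lit 156) (nat_lit 1292) (nat_lit 0) (XT.nd (nat_lit 78) (nat_lit 76) (nat_lit 0) (XT.lf (nat_lit 0) (nat_lit 2952162105) (nat_lit 684) (nat_lit 5956243309) (nat_lit 760) (nat_lit 37843950) (nat_lit 247) (nat_lit 5) (nat_lit 256) (nat_lit 5) (nat_lit 257) (nat_lit 5) (nat_lit 438) (nat_lit 384) (nat_lit 318)) (XT.lf (nat_lit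 0) (nat_lit 2116399091) (nat_lit 760) (nat_lit 1021750154) (nat_lit 76) (nat_lit 5896909200) (nat_lit 246) (nat_lit 5) (nat_lit 256) (nat_lit 5) (nat_lit 247) (nat_lit 5) (nat_lit 439) (nat_lit 384) (nat_lit 317))) (XT.nd (nat_lit 78) (nat_lit 608) (nat_lit 0) (XT.lf (nat_lit 0) (nat_lit 4069373492) (nat_lit 684) (nat_lit 239857810) (nat_lit 760) (nat_lit 4816516774) (nat_lit 237) (nat_lit 5) (nat_lit 246) (nat_lit 5) (nat_lit 247) (nat_lit 5) (nat_lit 440) (nat_lit 384) (nat_lit 316)) (XT.lf (nat_lit 0) (nat_lit 6291102) (nat_lit 608) (nat_lit 6534153463) (nat_lit 684) (nat_lit 2677945456) (nat_lit 229) (nat_lit 5) (nat_lit 237) (nat_lit 5) (nat_lit 238) (nat_lit 5) (nat_lit 441) (nat_lit 384) (nat_lit 315))))))))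
noncomputable def xc114 : XT := (XT.nd (nat_lit 2106) (nat_lit 4484) (nat_lit 0) (XT.nd (nat_lit 1014) (nat_lit 3420) (nat_lit 0) (XT.nd (nat_lit 468) (nat_lit 2280) (nat_lit 0) (XT.nd (nat_lit 234) (nat_lit 1292) (nat_lit 0) (XT.nd (nat_lit 78) (nat_lit 760) (nat_lit 0) (XT.lf (nat_lit 0) (nat_lit 5203201118) (nat_lit 608) (nat_lit 3618903881) (nat_lit 684) (nat_lit 490691791) (nat_lit 229) (nat_lit 5) (nat_lit 237) (nat_lit 5) (nat_lit 238) (nat_lit 5) (nat_lit 442) (nat_lit 384) (nat_lit 314)) (XT.nd (nat_lit 78) (nat_lit 0) (nat_lit 0) (XT.lf (nat_lit 0) (nat_lit 1063920466) (nat_lit 684) (nat_lit 631145496) (nat_lit 760) (nat_lit 7714275418) (nat_lit 219) (nat_lit 5) (nat_lit 228) (nat_lit 5) (nat_lit 229) (nat_lit 5) (nat_lit 443) (nat_lit 384) (nat_lit 313)) (XT.lf (nat_lit 0) (nat_lit 3932427715) (nat_lit 760) (nat_lit 3163819336) (nat_lit 76) (nat_lit 2411242559) (nat_lit 219) (nat_lit 5) (nat_lit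 229) (nat_lit 5) (nat_lit 220) (nat_lit 5) (nat_lit 444) (nat_lit 384) (nat_lit 312)))) (XT.nd (nat_lit 78) (nat_lit 684) (nat_lit 0) (XT.lf (nat_lit 0) (nat_lit 2111548732) (nat_lit 608) (nat_lit 4092450077) (nat_lit 684) (nat_lit 3403839029) (nat_lit 211) (nat_lit 5) (nat_lit 219) (nat_lit 5) (nat_lit 220) (nat_lit 5) (nat_lit 445) (nat_lit 384) (nat_lit 311)) (XT.nd (nat_lit 78) (nat_lit 684) (nat_lit 0) (XT.lf (nat_lit 0) (nat_lit 7502151053) (nat_lit 608) (nat_lit 1011996030) (nat_lit 684) (nat_lit 1196208794) (nat_lit 211) (nat_lit 5) (nat_lit 219) (nat_lit 5) (nat_lit 220) (nat_lit 5) (nat_lit 446) (nat_lit 384) (nat_lit 310)) (XT.lf (nat_lit 0) (nat_lit 1048663644) (nat_lit 684) (nat_lit 6641239571) (nat_lit 76) (nat_lit 2124770081) (nat_lit 202) (nat_lit 5) (nat_lit 211) (nat_lit 5) (nat_lit 203) (nat_lit 5) (nat_lit 447) (nat_lit 384) (nat_lit 309))))) (XT.nd (nat_lit 234) (nat_lit 1748) (nat_lit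 0) (XT.nd (nat_lit 78) (nat_lit 532) (nat_lit 0) (XT.lf (nat_lit 0) (nat_lit 3316605337) (nat_lit 684) (nat_lit 1276089373) (nat_lit 76) (nat_lit 5328364708) (nat_lit 202) (nat_lit 5) (nat_lit 211) (nat_lit 5) (nat_lit 203) (nat_lit 5) (nat_lit 448) (nat_lit 384) (nat_lit 308)) (XT.nd (nat_lit 78) (nat_lit 0) (nat_lit 0) (XT.lf (nat_lit 0) (nat_lit 4219125365) (nat_lit 532) (nat_lit 1411267739) (nat_lit 608) (nat_lit 4399194214) (nat_lit 195) (nat_lit 5) (nat_lit 202) (nat_lit 5) (nat_lit 203) (nat_lit 5) (nat_lit 449) (nat_lit 384) (nat_lit 307)) (XT.lf (nat_lit 0) (nat_lit 7984356629) (nat_lit 608) (nat_lit 343411659) (nat_lit 76) (nat_lit 1812662820) (nat_lit 195) (nat_lit 5) (nat_lit 203) (nat_lit 5) (nat_lit 196) (nat_lit 5) (nat_lit 450) (nat_lit 384) (nat_lit 306)))) (XT.nd (nat_lit 156) (nat_lit 532) (nat_lit 0) (XT.nd (nat_lit 78) (nat_lit 532) (nat_lit 0) (XT.lf (nat_lit 0) (nat_lit 147666362)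 (nat_lit 684) (nat_lit 4993745487) (nat_lit 76) (nat_lit 5111735450) (nat_lit 186) (nat_lit 5) (nat_lit 195) (nat_lit 5) (nat_lit 187) (nat_lit 5) (nat_lit 451) (nat_lit 384) (nat_lit 305)) (XT.lf (nat_lit 0) (nat_lit 571671407) (nat_lit 532) (nat_lit 1877006100) (nat_lit 608) (nat_lit 7919575955) (nat_lit 179) (nat_lit 5) (nat_lit 186) (nat_lit 5) (nat_lit 187) (nat_lit 5) (nat_lit 452) (nat_lit 384) (nat_lit 304))) (XT.nd (nat_lit 78) (nat_lit 532) (nat_lit 0) (XT.lf (nat_lit 0) (nat_lit 4813138891) (nat_lit 608) (nat_lit 4211224474) (nat_lit 76) (nat_lit 1460971337) (nat_lit 179) (nat_lit 5) (nat_lit 187) (nat_lit 5) (nat_lit 180) (nat_lit 5) (nat_lit 453) (nat_lit 384) (nat_lit 303)) (XT.lf (nat_lit 0) (nat_lit 1460538135) (nat_lit 532) (nat_lit 5761034869) (nat_lit 608) (nat_lit 3383272026) (nat_lit 172) (nat_lit 5) (nat_lit 179) (nat_lit 5) (nat_lit 180) (nat_lit 5) (nat_lit 454) (nat_lit 384) (nat_lit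 302)))))) (XT.nd (nat_lit 546) (nat_lit 1824) (nat_lit 0) (XT.nd (nat_lit 234) (nat_lit 1064) (nat_lit 0) (XT.nd (nat_lit 78) (nat_lit 532) (nat_lit 0) (XT.lf (nat_lit 0) (nat_lit 7271004116) (nat_lit 532) (nat_lit 2410489562) (nat_lit 608) (nat_lit 1045206249) (nat_lit 172) (nat_lit 5) (nat_lit 179) (nat_lit 5) (nat_lit 180) (nat_lit 5) (nat_lit 455) (nat_lit 384) (nat_lit 301)) (XT.nd (nat_lit 78) (nat_lit 0) (nat_lit 0) (XT.lf (nat_lit 0) (nat_lit 1319242705) (nat_lit 532) (nat_lit 8520577187) (nat_lit 76) (nat_lit 1011074165) (nat_lit 165) (nat_lit 5) (nat_lit 172) (nat_lit 5) (nat_lit 166) (nat_lit 5) (nat_lit 456) (nat_lit 384) (nat_lit 300)) (XT.lf (nat_lit 0) (nat_lit 3731904744) (nat_lit 532) (nat_lit 2753047994) (nat_lit 76) (nat_lit 4492202291) (nat_lit 165) (nat_lit 5) (nat_lit 172) (nat_lit 5) (nat_lit 166) (nat_lit 5) (nat_lit 457) (nat_lit 384) (nat_lit 299)))) (XT.nd (nat_lit 156) (nat_lit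 532) (nat_lit 0) (XT.nd (nat_lit 78) (nat_lit 0) (nat_lit 0) (XT.lf (nat_lit 0) (nat_lit 3139841354) (nat_lit 532) (nat_lit 3049442754) (nat_lit 608) (nat_lit 4916746971) (nat_lit 158) (nat_lit 5) (nat_lit 165) (nat_lit 5) (nat_lit 166) (nat_lit 5) (nat_lit 458) (nat_lit 384) (nat_lit 298)) (XT.lf (nat_lit 0) (nat_lit 8693659220) (nat_lit 608) (nat_lit 2083692767) (nat_lit 76) (nat_lit 460194466) (nat_lit 158) (nat_lit 5) (nat_lit 166) (nat_lit 5) (nat_lit 159) (nat_lit 5) (nat_lit 459) (nat_lit 384) (nat_lit 297))) (XT.nd (nat_lit 78) (nat_lit 76) (nat_lit 0) (XT.lf (nat_lit 0) (nat_lit 3916835698) (nat_lit 456) (nat_lit 7353675242) (nat_lit 532) (nat_lit 100751811) (nat_lit 152) (nat_lit 5) (nat_lit 158) (nat_lit 5) (nat_lit 159) (nat_lit 5) (nat_lit 460) (nat_lit 384) (nat_lit 296)) (XT.lf (nat_lit 0) (nat_lit 2350810416) (nat_lit 532) (nat_lit 1488288333) (nat_lit 76) (nat_lit 7668443283) (nat_lit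 151) (nat_lit 5) (nat_lit 158) (nat_lit 5) (nat_lit 152) (nat_lit 5) (nat_lit 461) (nat_lit 384) (nat_lit 295))))) (XT.nd (nat_lit 234) (nat_lit 912) (nat_lit 0) (XT.nd (nat_lit 78) (nat_lit 456) (nat_lit 0) (XT.lf (nat_lit 0) (nat_lit 4626878281) (nat_lit 456) (nat_lit 230522924) (nat_lit 532) (nat_lit 6789002783) (nat_lit 145) (nat_lit 5) (nat_lit 151) (nat_lit 5) (nat_lit 152) (nat_lit 5) (nat_lit 462) (nat_lit 384) (nat_lit 294)) (XT.nd (nat_lit 78) (nat_lit 456) (nat_lit 0) (XT.lf (nat_lit 0) (nat_lit 7424082404) (nat_lit 532) (nat_lit 956315099) (nat_lit 76) (nat_lit 3407463505) (nat_lit 145) (nat_lit 5) (nat_lit 152) (nat_lit 5) (nat_lit 146) (nat_lit 5) (nat_lit 463) (nat_lit 384) (nat_lit 293)) (XT.lf (nat_lit 0) (nat_lit 5265766376) (nat_lit 456) (nat_lit 4789991547) (nat_lit 532) (nat_lit 1876132695) (nat_lit 139) (nat_lit 5) (nat_lit 145) (nat_lit 5) (nat_lit 146) (nat_lit 5) (nat_lit 464)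 (nat_lit 384) (nat_lit 292)))) (XT.nd (nat_lit 156) (nat_lit 380) (nat_lit 0) (XT.nd (nat_lit 78) (nat_lit 456) (nat_lit 0) (XT.lf (nat_lit 0) (nat_lit 637077408) (nat_lit 532) (nat_lit 487795112) (nat_lit 76) (nat_lit 10954168771) (nat_lit 138) (nat_lit 5) (nat_lit 145) (nat_lit 5) (nat_lit 139) (nat_lit 5) (nat_lit 465) (nat_lit 384) (nat_lit 291)) (XT.lf (nat_lit 0) (nat_lit 3209135214) (nat_lit 532) (nat_lit 6396889545) (nat_lit 76) (nat_lit 2622203798) (nat_lit 132) (nat_lit 5) (nat_lit 139) (nat_lit 5) (nat_lit 133) (nat_lit 5) (nat_lit 466) (nat_lit 384) (nat_lit 290))) (XT.nd (nat_lit 78) (nat_lit 380) (nat_lit 0) (XT.lf (nat_lit 0) (nat_lit 5822014549) (nat_lit 532) (nat_lit 133983910) (nat_lit 76) (nat_lit 6424628896) (nat_lit 132) (nat_lit 5) (nat_lit 139) (nat_lit 5) (nat_lit 133) (nat_lit 5) (nat_lit 467) (nat_lit 384) (nat_lit 289)) (XT.lf (nat_lit 0) (nat_lit 6307842984) (nat_lit 380) (nat_lit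 2199317938) (nat_lit 456) (nat_lit 4028528111) (nat_lit 127) (nat_lit 5) (nat_lit 132) (nat_lit 5) (nat_lit 133) (nat_lit 5) (nat_lit 468) (nat_lit 384) (nat_lit 288))))))) (XT.nd (nat_lit 1014) (nat_lit 2128) (nat_lit 0) (XT.nd (nat_lit 468) (nat_lit 1140) (nat_lit 0) (XT.nd (nat_lit 234) (nat_lit 380) (nat_lit 0) (XT.nd (nat_lit 78) (nat_lit 456) (nat_lit 0) (XT.lf (nat_lit 0) (nat_lit 148581676) (nat_lit 380) (nat_lit 11089122586) (nat_lit 456) (nat_lit 1456328598) (nat_lit 122) (nat_lit 5) (nat_lit 127) (nat_lit 5) (nat_lit 128) (nat_lit 5) (nat_lit 469) (nat_lit 384) (nat_lit 287)) (XT.nd (nat_lit 78) (nat_lit 380) (nat_lit 0) (XT.lf (nat_lit 0) (nat_lit 1187932555) (nat_lit 456) (nat_lit 6169517847) (nat_lit 76) (nat_lit 5497237260) (nat_lit 121) (nat_lit 5) (nat_lit 127) (nat_lit 5) (nat_lit 122) (nat_lit 5) (nat_lit 470) (nat_lit 384) (nat_lit 286)) (XT.lf (nat_lit 0) (nat_lit 299444906) (nat_lit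 380) (nat_lit 3547795504) (nat_lit 456) (nat_lit 9171503332) (nat_lit 116) (nat_lit 5) (nat_lit 121) (nat_lit 5) (nat_lit 122) (nat_lit 5) (nat_lit 471) (nat_lit 384) (nat_lit 285)))) (XT.nd (nat_lit 78) (nat_lit 380) (nat_lit 0) (XT.lf (nat_lit 0) (nat_lit 6583460792) (nat_lit 456) (nat_lit 6235248573) (nat_lit 76) (nat_lit 366910721) (nat_lit 116) (nat_lit 5) (nat_lit 122) (nat_lit 5) (nat_lit 117) (nat_lit 5) (nat_lit 472) (nat_lit 384) (nat_lit 284)) (XT.nd (nat_lit 78) (nat_lit 0) (nat_lit 0) (XT.lf (nat_lit 0) (nat_lit 330952411) (nat_lit 380) (nat_lit 9049348854) (nat_lit 456) (nat_lit 3975428181) (nat_lit 111) (nat_lit 5) (nat_lit 116) (nat_lit 5) (nat_lit 117) (nat_lit 5) (nat_lit 473) (nat_lit 384) (nat_lit 283)) (XT.lf (nat_lit 0) (nat_lit 7084809083) (nat_lit 380) (nat_lit 5170567056) (nat_lit 456) (nat_lit 1273432041) (nat_lit 111) (nat_lit 5) (nat_lit 116) (nat_lit 5) (nat_lit 117) (nat_lit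 5) (nat_lit 474) (nat_lit 384) (nat_lit 282))))) (XT.nd (nat_lit 234) (nat_lit 760) (nat_lit 0) (XT.nd (nat_lit 78) (nat_lit 0) (nat_lit 0) (XT.lf (nat_lit 0) (nat_lit 233931230) (nat_lit 304) (nat_lit 1211446414) (nat_lit 380) (nat_lit 12260146587) (nat_lit 106) (nat_lit 5) (nat_lit 110) (nat_lit 5) (nat_lit 111) (nat_lit 5) (nat_lit 475) (nat_lit 384) (nat_lit 281)) (XT.nd (nat_lit 78) (nat_lit 0) (nat_lit 0) (XT.lf (nat_lit 0) (nat_lit 4244252934) (nat_lit 380) (nat_lit 6807273056) (nat_lit 76) (nat_lit 2833237833) (nat_lit 106) (nat_lit 5) (nat_lit 111) (nat_lit 5) (nat_lit 107) (nat_lit 5) (nat_lit 476) (nat_lit 384) (nat_lit 280)) (XT.lf (nat_lit 0) (nat_lit 7088346101) (nat_lit 380) (nat_lit 45199384) (nat_lit 76) (nat_lit 6934270053) (nat_lit 106) (nat_lit 5) (nat_lit 111) (nat_lit 5) (nat_lit 107) (nat_lit 5) (nat_lit 477) (nat_lit 384) (nat_lit 279)))) (XT.nd (nat_lit 156) (nat_lit 380) (nat_lit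 0) (XT.nd (nat_lit 78) (nat_lit 0) (nat_lit 0) (XT.lf (nat_lit 0) (nat_lit 6915847910) (nat_lit 380) (nat_lit 3099961322) (nat_lit 456) (nat_lit 4238201195) (nat_lit 101) (nat_lit 5) (nat_lit 106) (nat_lit 5) (nat_lit 107) (nat_lit 5) (nat_lit 478) (nat_lit 384) (nat_lit 278)) (XT.lf (nat_lit 0) (nat_lit 12990429738) (nat_lit 456) (nat_lit 460895383) (nat_lit 76) (nat_lit 992843597) (nat_lit 101) (nat_lit 5) (nat_lit 107) (nat_lit 5) (nat_lit 102) (nat_lit 5) (nat_lit 479) (nat_lit 384) (nat_lit 277))) (XT.nd (nat_lit 78) (nat_lit 0) (nat_lit 0) (XT.lf (nat_lit 0) (nat_lit 1413932170) (nat_lit 380) (nat_lit 8053257918) (nat_lit 76) (nat_lit 5169857214) (nat_lit 96) (nat_lit 5) (nat_lit 101) (nat_lit 5) (nat_lit 97) (nat_lit 5) (nat_lit 480) (nat_lit 384) (nat_lit 276)) (XT.lf (nat_lit 0) (nat_lit 4304749936) (nat_lit 380) (nat_lit 1094409677) (nat_lit 76) (nat_lit 9434737482) (nat_lit 96) (nat_lit 5)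 (nat_lit 101) (nat_lit 5) (nat_lit 97) (nat_lit 5) (nat_lit 481) (nat_lit 384) (nat_lit 275)))))) (XT.nd (nat_lit 546) (nat_lit 912) (nat_lit 0) (XT.nd (nat_lit 234) (nat_lit 608) (nat_lit 0) (XT.nd (nat_lit 78) (nat_lit 304) (nat_lit 0) (XT.lf (nat_lit 0) (nat_lit 6056920196) (nat_lit 304) (nat_lit 1218267076) (nat_lit 380) (nat_lit 7759071324) (nat_lit 92) (nat_lit 5) (nat_lit 96) (nat_lit 5) (nat_lit 97) (nat_lit 5) (nat_lit 482) (nat_lit 384) (nat_lit 274)) (XT.nd (nat_lit 78) (nat_lit 304) (nat_lit 0) (XT.lf (nat_lit 0) (nat_lit 10314801057) (nat_lit 380) (nat_lit 1918458227) (nat_lit 76) (nat_lit 3005183258) (nat_lit 92) (nat_lit 5) (nat_lit 97) (nat_lit 5) (nat_lit 93) (nat_lit 5) (nat_lit 483) (nat_lit 384) (nat_lit 273)) (XT.lf (nat_lit 0) (nat_lit 5317524204) (nat_lit 304) (nat_lit 8123213806) (nat_lit 380) (nat_lit 2005471897) (nat_lit 88) (nat_lit 5) (nat_lit 92) (nat_lit 5) (nat_lit 93) (nat_lit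 5) (nat_lit 484) (nat_lit 384) (nat_lit 272)))) (XT.nd (nat_lit 156) (nat_lit 228) (nat_lit 0) (XT.nd (nat_lit 78) (nat_lit 304) (nat_lit 0) (XT.lf (nat_lit 0) (nat_lit 954269145) (nat_lit 380) (nat_lit 2965848012) (nat_lit 76) (nat_lit 11737980452) (nat_lit 87) (nat_lit 5) (nat_lit 92) (nat_lit 5) (nat_lit 88) (nat_lit 5) (nat_lit 485) (nat_lit 384) (nat_lit 271)) (XT.lf (nat_lit 0) (nat_lit 3960597880) (nat_lit 380) (nat_lit 11517513520) (nat_lit 76) (nat_lit 395571382) (nat_lit 83) (nat_lit 5) (nat_lit 88) (nat_lit 5) (nat_lit 84) (nat_lit 5) (nat_lit 486) (nat_lit 384) (nat_lit 270))) (XT.nd (nat_lit 78) (nat_lit 228) (nat_lit 0) (XT.lf (nat_lit 0) (nat_lit 7056474520) (nat_lit 380) (nat_lit 4279870324) (nat_lit 76) (nat_lit 4756655957) (nat_lit 83) (nat_lit 5) (nat_lit 88) (nat_lit 5) (nat_lit 84) (nat_lit 5) (nat_lit 487) (nat_lit 384) (nat_lit 269)) (XT.lf (nat_lit 0) (nat_lit 3118498340) (nat_lit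 228) (nat_lit 7099768776) (nat_lit 304) (nat_lit 6098367480) (nat_lit 80) (nat_lit 5) (nat_lit 83) (nat_lit 5) (nat_lit 84) (nat_lit 5) (nat_lit 488) (nat_lit 384) (nat_lit 268))))) (XT.nd (nat_lit 234) (nat_lit 532) (nat_lit 0) (XT.nd (nat_lit 78) (nat_lit 380) (nat_lit 0) (XT.lf (nat_lit 0) (nat_lit 10698086079) (nat_lit 228) (nat_lit 2757838561) (nat_lit 304) (nat_lit 3088573046) (nat_lit 80) (nat_lit 5) (nat_lit 83) (nat_lit 5) (nat_lit 84) (nat_lit 5) (nat_lit 489) (nat_lit 384) (nat_lit 267)) (XT.nd (nat_lit 78) (nat_lit 76) (nat_lit 0) (XT.lf (nat_lit 0) (nat_lit 1638440339) (nat_lit 304) (nat_lit 15125550807) (nat_lit 380) (nat_lit 12822793) (nat_lit 76) (nat_lit 5) (nat_lit 80) (nat_lit 5) (nat_lit 81) (nat_lit 5) (nat_lit 490) (nat_lit 384) (nat_lit 266)) (XT.lf (nat_lit 0) (nat_lit 3125429715) (nat_lit 380) (nat_lit 7724166379) (nat_lit 76) (nat_lit 6162944074) (nat_lit 75) (nat_lit 5) (nat_lit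 80) (nat_lit 5) (nat_lit 76) (nat_lit 5) (nat_lit 491) (nat_lit 384) (nat_lit 265)))) (XT.nd (nat_lit 156) (nat_lit 304) (nat_lit 0) (XT.nd (nat_lit 78) (nat_lit 228) (nat_lit 0) (XT.lf (nat_lit 0) (nat_lit 6310794098) (nat_lit 380) (nat_lit 185881386) (nat_lit 76) (nat_lit 10756621873) (nat_lit 75) (nat_lit 5) (nat_lit 80) (nat_lit 5) (nat_lit 76) (nat_lit 5) (nat_lit 492) (nat_lit 384) (nat_lit 264)) (XT.lf (nat_lit 0) (nat_lit 7578919717) (nat_lit 228) (nat_lit 2014975345) (nat_lit 304) (nat_lit 7904302373) (nat_lit 72) (nat_lit 5) (nat_lit 75) (nat_lit 5) (nat_lit 76) (nat_lit 5) (nat_lit 493) (nat_lit 384) (nat_lit 263))) (XT.nd (nat_lit 78) (nat_lit 304) (nat_lit 0) (XT.lf (nat_lit 0) (nat_lit 12945423319) (nat_lit 304) (nat_lit 2286786694) (nat_lit 76) (nat_lit 2515738366) (nat_lit 72) (nat_lit 5) (nat_lit 76) (nat_lit 5) (nat_lit 73) (nat_lit 5) (nat_lit 494) (nat_lit 384) (nat_lit 262)) (XT.lf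 (nat_lit 0) (nat_lit 5534312264) (nat_lit 304) (nat_lit 10864154423) (nat_lit 380) (nat_lit 1603545971) (nat_lit 68) (nat_lit 5) (nat_lit 72) (nat_lit 5) (nat_lit 73) (nat_lit 5) (nat_lit 495) (nat_lit 384) (nat_lit 261))))))))
noncomputable def xc115 : XT := (XT.nd (nat_lit 2106) (nat_lit 152) (nat_lit 0) (XT.nd (nat_lit 1014) (nat_lit 1140) (nat_lit 0) (XT.nd (nat_lit 468) (nat_lit 836) (nat_lit 0) (XT.nd (nat_lit 234) (nat_lit 228) (nat_lit 0) (XT.nd (nat_lit 78) (nat_lit 228) (nat_lit 0) (XT.lf (nat_lit 0) (nat_lit 1638339380) (nat_lit 380) (nat_lit 4752227573) (nat_lit 76) (nat_lit 11870369683) (nat_lit 67) (nat_lit 5) (nat_lit 72) (nat_lit 5) (nat_lit 68) (nat_lit 5) (nat_lit 496) (nat_lit 384) (nat_lit 260)) (XT.nd (nat_lit 78) (nat_lit 0) (nat_lit 0) (XT.lf (nat_lit 0) (nat_lit 3125046402) (nat_lit 228) (nat_lit 1804386864) (nat_lit 304) (nat_lit 13595284542) (nat_lit 64) (nat_lit 5) (nat_lit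 67) (nat_lit 5) (nat_lit 68) (nat_lit 5) (nat_lit 497) (nat_lit 384) (nat_lit 259)) (XT.lf (nat_lit 0) (nat_lit 8322720961) (nat_lit 304) (nat_lit 7610684608) (nat_lit 76) (nat_lit 2859648993) (nat_lit 64) (nat_lit 5) (nat_lit 68) (nat_lit 5) (nat_lit 65) (nat_lit 5) (nat_lit 498) (nat_lit 384) (nat_lit 258)))) (XT.nd (nat_lit 78) (nat_lit 0) (nat_lit 0) (XT.lf (nat_lit 0) (nat_lit 303601000) (nat_lit 228) (nat_lit 11480090262) (nat_lit 304) (nat_lit 7283077706) (nat_lit 61) (nat_lit 5) (nat_lit 64) (nat_lit 5) (nat_lit 65) (nat_lit 5) (nat_lit 499) (nat_lit 384) (nat_lit 257)) (XT.nd (nat_lit 78) (nat_lit 0) (nat_lit 0) (XT.lf (nat_lit 0) (nat_lit 8456972141) (nat_lit 228) (nat_lit 6894007959) (nat_lit 304) (nat_lit 3994242691) (nat_lit 61) (nat_lit 5) (nat_lit 64) (nat_lit 5) (nat_lit 65) (nat_lit 5) (nat_lit 500) (nat_lit 384) (nat_lit 256)) (XT.lf (nat_lit 0) (nat_lit 16751484221) (nat_lit 228) (nat_lit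 2224431896) (nat_lit 304) (nat_lit 653610517) (nat_lit 61) (nat_lit 5) (nat_lit 64) (nat_lit 5) (nat_lit 65) (nat_lit 5) (nat_lit 501) (nat_lit 384) (nat_lit 255))))) (XT.nd (nat_lit 234) (nat_lit 304) (nat_lit 0) (XT.nd (nat_lit 78) (nat_lit 228) (nat_lit 0) (XT.lf (nat_lit 0) (nat_lit 2755525692) (nat_lit 304) (nat_lit 14612906870) (nat_lit 76) (nat_lit 2549976930) (nat_lit 57) (nat_lit 5) (nat_lit 61) (nat_lit 5) (nat_lit 58) (nat_lit 5) (nat_lit 502) (nat_lit 384) (nat_lit 254)) (XT.nd (nat_lit 78) (nat_lit 228) (nat_lit 0) (XT.lf (nat_lit 0) (nat_lit 6244820201) (nat_lit 304) (nat_lit 6561902425) (nat_lit 76) (nat_lit 7405852996) (nat_lit 57) (nat_lit 5) (nat_lit 61) (nat_lit 5) (nat_lit 58) (nat_lit 5) (nat_lit 503) (nat_lit 384) (nat_lit 253)) (XT.lf (nat_lit 0) (nat_lit 1650432457) (nat_lit 228) (nat_lit 8150994455) (nat_lit 304) (nat_lit 10711254077) (nat_lit 54) (nat_lit 5) (nat_lit 57) (nat_lit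 5) (nat_lit 58) (nat_lit 5) (nat_lit 504) (nat_lit 384) (nat_lit 252)))) (XT.nd (nat_lit 156) (nat_lit 304) (nat_lit 0) (XT.nd (nat_lit 78) (nat_lit 0) (nat_lit 0) (XT.lf (nat_lit 0) (nat_lit 10094767346) (nat_lit 228) (nat_lit 3365363844) (nat_lit 304) (nat_lit 7358044281) (nat_lit 54) (nat_lit 5) (nat_lit 57) (nat_lit 5) (nat_lit 58) (nat_lit 5) (nat_lit 505) (nat_lit 384) (nat_lit 251)) (XT.lf (nat_lit 0) (nat_lit 17188988423) (nat_lit 304) (nat_lit 2452623774) (nat_lit 76) (nat_lit 1488234256) (nat_lit 54) (nat_lit 5) (nat_lit 58) (nat_lit 5) (nat_lit 55) (nat_lit 5) (nat_lit 506) (nat_lit 384) (nat_lit 250))) (XT.nd (nat_lit 78) (nat_lit 76) (nat_lit 0) (XT.lf (nat_lit 0) (nat_lit 6019659450) (nat_lit 228) (nat_lit 15021522511) (nat_lit 304) (nat_lit 405599783) (nat_lit 51) (nat_lit 5) (nat_lit 54) (nat_lit 5) (nat_lit 55) (nat_lit 5) (nat_lit 507) (nat_lit 384) (nat_lit 249)) (XT.lf (nat_lit 0)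 (nat_lit 3162371958) (nat_lit 304) (nat_lit 7116596409) (nat_lit 76) (nat_lit 11490597995) (nat_lit 50) (nat_lit 5) (nat_lit 54) (nat_lit 5) (nat_lit 51) (nat_lit 5) (nat_lit 508) (nat_lit 384) (nat_lit 248)))))) (XT.nd (nat_lit 546) (nat_lit 456) (nat_lit 0) (XT.nd (nat_lit 234) (nat_lit 456) (nat_lit 0) (XT.nd (nat_lit 78) (nat_lit 0) (nat_lit 0) (XT.lf (nat_lit 0) (nat_lit 1355013125) (nat_lit 228) (nat_lit 5437722809) (nat_lit 304) (nat_lit 15306093561) (nat_lit 47) (nat_lit 5) (nat_lit 50) (nat_lit 5) (nat_lit 51) (nat_lit 5) (nat_lit 509) (nat_lit 384) (nat_lit 247)) (XT.nd (nat_lit 78) (nat_lit 0) (nat_lit 0) (XT.lf (nat_lit 0) (nat_lit 10072443145) (nat_lit 228) (nat_lit 458792788) (nat_lit 304) (nat_lit 11902736992) (nat_lit 47) (nat_lit 5) (nat_lit 50) (nat_lit 5) (nat_lit 51) (nat_lit 5) (nat_lit 510) (nat_lit 384) (nat_lit 246)) (XT.lf (nat_lit 0) (nat_lit 14362462598) (nat_lit 304) (nat_lit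 3861472325) (nat_lit 76) (nat_lit 4551530664) (nat_lit 47) (nat_lit 5) (nat_lit 51) (nat_lit 5) (nat_lit 48) (nat_lit 5) (nat_lit 511) (nat_lit 384) (nat_lit 245)))) (XT.nd (nat_lit 156) (nat_lit 304) (nat_lit 0) (XT.nd (nat_lit 78) (nat_lit 0) (nat_lit 0) (XT.lf (nat_lit 0) (nat_lit 4849661304) (nat_lit 152) (nat_lit 13443376511) (nat_lit 228) (nat_lit 4830301196) (nat_lit 45) (nat_lit 5) (nat_lit 47) (nat_lit 5) (nat_lit 48) (nat_lit 5) (nat_lit 512) (nat_lit 384) (nat_lit 244)) (XT.lf (nat_lit 0) (nat_lit 13767998318) (nat_lit 152) (nat_lit 8548442859) (nat_lit 228) (nat_lit 1161449679) (nat_lit 45) (nat_lit 5) (nat_lit 47) (nat_lit 5) (nat_lit 48) (nat_lit 5) (nat_lit 513) (nat_lit 384) (nat_lit 243))) (XT.nd (nat_lit 78) (nat_lit 228) (nat_lit 0) (XT.lf (nat_lit 0) (nat_lit 2535383897) (nat_lit 228) (nat_lit 1010729239) (nat_lit 76) (nat_lit 20293321509) (nat_lit 44) (nat_lit 5) (nat_lit 47) (nat_lit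 5) (nat_lit 45) (nat_lit 5) (nat_lit 514) (nat_lit 384) (nat_lit 242)) (XT.lf (nat_lit 0) (nat_lit 6341296368) (nat_lit 304) (nat_lit 16277608869) (nat_lit 76) (nat_lit 1588141627) (nat_lit 41) (nat_lit 5) (nat_lit 45) (nat_lit 5) (nat_lit 42) (nat_lit 5) (nat_lit 515) (nat_lit 384) (nat_lit 241))))) (XT.nd (nat_lit 234) (nat_lit 304) (nat_lit 0) (XT.nd (nat_lit 78) (nat_lit 152) (nat_lit 0) (XT.lf (nat_lit 0) (nat_lit 10242370308) (nat_lit 304) (nat_lit 7562119268) (nat_lit 76) (nat_lit 6777145769) (nat_lit 41) (nat_lit 5) (nat_lit 45) (nat_lit 5) (nat_lit 42) (nat_lit 5) (nat_lit 516) (nat_lit 384) (nat_lit 240)) (XT.nd (nat_lit 78) (nat_lit 0) (nat_lit 0) (XT.lf (nat_lit 0) (nat_lit 1326624379) (nat_lit 152) (nat_lit 12892407206) (nat_lit 228) (nat_lit 10744737480) (nat_lit 39) (nat_lit 5) (nat_lit 41) (nat_lit 5) (nat_lit 42) (nat_lit 5) (nat_lit 517) (nat_lit 384) (nat_lit 239)) (XT.lf (nat_lit 0)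 (nat_lit 10477316166) (nat_lit 152) (nat_lit 7837705839) (nat_lit 228) (nat_lit 7037732226) (nat_lit 39) (nat_lit 5) (nat_lit 41) (nat_lit 5) (nat_lit 42) (nat_lit 5) (nat_lit 518) (nat_lit 384) (nat_lit 238)))) (XT.nd (nat_lit 156) (nat_lit 0) (nat_lit 0) (XT.nd (nat_lit 78) (nat_lit 304) (nat_lit 0) (XT.lf (nat_lit 0) (nat_lit 19793048015) (nat_lit 152) (nat_lit 2689149042) (nat_lit 228) (nat_lit 3267541349) (nat_lit 39) (nat_lit 5) (nat_lit 41) (nat_lit 5) (nat_lit 42) (nat_lit 5) (nat_lit 519) (nat_lit 384) (nat_lit 237)) (XT.lf (nat_lit 0) (nat_lit 597143267) (nat_lit 304) (nat_lit 23010782871) (nat_lit 76) (nat_lit 2546132060) (nat_lit 35) (nat_lit 5) (nat_lit 39) (nat_lit 5) (nat_lit 36) (nat_lit 5) (nat_lit 520) (nat_lit 384) (nat_lit 236))) (XT.nd (nat_lit 78) (nat_lit 0) (nat_lit 0) (XT.lf (nat_lit 0) (nat_lit 4542904283) (nat_lit 304) (nat_lit 14117210868) (nat_lit 76) (nat_lit 7904970900)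 (nat_lit 35) (nat_lit 5) (nat_lit 39) (nat_lit 5) (nat_lit 36) (nat_lit 5) (nat_lit 521) (nat_lit 384) (nat_lit 235)) (XT.lf (nat_lit 0) (nat_lit 8557235428) (nat_lit 304) (nat_lit 5063235854) (nat_lit 76) (nat_lit 13364074330) (nat_lit 35) (nat_lit 5) (nat_lit 39) (nat_lit 5) (nat_lit 36) (nat_lit 5) (nat_lit 522) (nat_lit 384) (nat_lit 234))))))) (XT.nd (nat_lit 49452) (nat_lit 0) (nat_lit 34352) (XT.nd (nat_lit 48906) (nat_lit 0) (nat_lit 40432) (XT.nd (nat_lit 48594) (nat_lit 0) (nat_lit 41572) (XT.nd (nat_lit 78) (nat_lit 0) (nat_lit 0) (XT.lf (nat_lit 0) (nat_lit 4209906426) (nat_lit 152) (nat_lit 8459138028) (nat_lit 228) (nat_lit 14743010251) (nat_lit 33) (nat_lit 5) (nat_lit 35) (nat_lit 5) (nat_lit 36) (nat_lit 5) (nat_lit 523) (nat_lit 384) (nat_lit 233)) (XT.nd (nat_lit 78) (nat_lit 0) (nat_lit 0) (XT.lf (nat_lit 0) (nat_lit 13720131807) (nat_lit 152) (nat_lit 3166880992) (nat_lit 228) (nat_lit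 10960626803) (nat_lit 33) (nat_lit 5) (nat_lit 35) (nat_lit 5) (nat_lit 36) (nat_lit 5) (nat_lit 524) (nat_lit 384) (nat_lit 232)) (XT.lf (nat_lit 0) (nat_lit 21193926075) (nat_lit 228) (nat_lit 4902697559) (nat_lit 76) (nat_lit 2195224857) (nat_lit 33) (nat_lit 5) (nat_lit 36) (nat_lit 5) (nat_lit 34) (nat_lit 5) (nat_lit 525) (nat_lit 384) (nat_lit 231)))) (XT.nd (nat_lit 156) (nat_lit 456) (nat_lit 0) (XT.nd (nat_lit 78) (nat_lit 0) (nat_lit 0) (XT.lf (nat_lit 0) (nat_lit 357763071) (nat_lit 0) (nat_lit 357763071) (nat_lit 380) (nat_lit 2530482407) (nat_lit 586) (nat_lit 5) (nat_lit 586) (nat_lit 3) (nat_lit 591) (nat_lit 3) (nat_lit 385) (nat_lit 385) (nat_lit 370)) (XT.lf (nat_lit 0) (nat_lit 3691806909) (nat_lit 0) (nat_lit 257303980) (nat_lit 380) (nat_lit 2553414544) (nat_lit 586) (nat_lit 5) (nat_lit 586) (nat_lit 3) (nat_lit 591) (nat_lit 3) (nat_lit 386) (nat_lit 385) (nat_lit 369))) (XT.nd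 (nat_lit 78) (nat_lit 456) (nat_lit 0) (XT.lf (nat_lit 76) (nat_lit 180900351) (nat_lit 0) (nat_lit 6273707824) (nat_lit 456) (nat_lit 60007968) (nat_lit 587) (nat_lit 5) (nat_lit 586) (nat_lit 5) (nat_lit 592) (nat_lit 5) (nat_lit 387) (nat_lit 385) (nat_lit 368)) (XT.lf (nat_lit 0) (nat_lit 2406452164) (nat_lit 456) (nat_lit 3309294765) (nat_lit 532) (nat_lit 811873541) (nat_lit 580) (nat_lit 5) (nat_lit 586) (nat_lit 5) (nat_lit 587) (nat_lit 5) (nat_lit 388) (nat_lit 385) (nat_lit 367))))) (XT.nd (nat_lit 234) (nat_lit 608) (nat_lit 0) (XT.nd (nat_lit 78) (nat_lit 532) (nat_lit 0) (XT.lf (nat_lit 0) (nat_lit 4857775611) (nat_lit 456) (nat_lit 259315105) (nat_lit 532) (nat_lit 1425166677) (nat_lit 580) (nat_lit 5) (nat_lit 586) (nat_lit 5) (nat_lit 587) (nat_lit 5) (nat_lit 389) (nat_lit 385) (nat_lit 366)) (XT.nd (nat_lit 78) (nat_lit 0) (nat_lit 0) (XT.lf (nat_lit 0) (nat_lit 746163109) (nat_lit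 532) (nat_lit 3707822588) (nat_lit 608) (nat_lit 2104085806) (nat_lit 573) (nat_lit 5) (nat_lit 580) (nat_lit 5) (nat_lit 581) (nat_lit 5) (nat_lit 390) (nat_lit 385) (nat_lit 365)) (XT.lf (nat_lit 0) (nat_lit 3142720689) (nat_lit 532) (nat_lit 594371240) (nat_lit 608) (nat_lit 2838191191) (nat_lit 573) (nat_lit 5) (nat_lit 580) (nat_lit 5) (nat_lit 581) (nat_lit 5) (nat_lit 391) (nat_lit 385) (nat_lit 364)))) (XT.nd (nat_lit 156) (nat_lit 0) (nat_lit 0) (XT.nd (nat_lit 78) (nat_lit 608) (nat_lit 0) (XT.lf (nat_lit 76) (nat_lit 2581324835) (nat_lit 0) (nat_lit 2961940585) (nat_lit 608) (nat_lit 1050551463) (nat_lit 574) (nat_lit 5) (nat_lit 573) (nat_lit 5) (nat_lit 581) (nat_lit 5) (nat_lit 392) (nat_lit 385) (nat_lit 363)) (XT.lf (nat_lit 0) (nat_lit 1304804225) (nat_lit 608) (nat_lit 827581779) (nat_lit 684) (nat_lit 4481375590) (nat_lit 565) (nat_lit 5) (nat_lit 573) (nat_lit 5) (nat_lit 574) (nat_lit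 5) (nat_lit 393) (nat_lit 385) (nat_lit 362))) (XT.nd (nat_lit 78) (nat_lit 0) (nat_lit 0) (XT.lf (nat_lit 76) (nat_lit 2411826948) (nat_lit 0) (nat_lit 1238003058) (nat_lit 684) (nat_lit 2985097036) (nat_lit 566) (nat_lit 5) (nat_lit 565) (nat_lit 5) (nat_lit 574) (nat_lit 5) (nat_lit 394) (nat_lit 385) (nat_lit 361)) (XT.lf (nat_lit 76) (nat_lit 5693590798) (nat_lit 0) (nat_lit 295615756) (nat_lit 684) (nat_lit 668451728) (nat_lit 566) (nat_lit 5) (nat_lit 565) (nat_lit 5) (nat_lit 574) (nat_lit 5) (nat_lit 395) (nat_lit 385) (nat_lit 360)))))) (XT.nd (nat_lit 546) (nat_lit 3952) (nat_lit 0) (XT.nd (nat_lit 234) (nat_lit 1520) (nat_lit 0) (XT.nd (nat_lit 78) (nat_lit 0) (nat_lit 0) (XT.lf (nat_lit 0) (nat_lit 1634753490) (nat_lit 684) (nat_lit 4340134065) (nat_lit 760) (nat_lit 706575473) (nat_lit 557) (nat_lit 5) (nat_lit 566) (nat_lit 5) (nat_lit 567) (nat_lit 5) (nat_lit 396) (nat_lit 385) (nat_lit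 359)) (XT.nd (nat_lit 78) (nat_lit 0) (nat_lit 0) (XT.lf (nat_lit 0) (nat_lit 3927177320) (nat_lit 684) (nat_lit 1021125511) (nat_lit 760) (nat_lit 1758396781) (nat_lit 557) (nat_lit 5) (nat_lit 566) (nat_lit 5) (nat_lit 567) (nat_lit 5) (nat_lit 397) (nat_lit 385) (nat_lit 358)) (XT.lf (nat_lit 76) (nat_lit 2360928028) (nat_lit 0) (nat_lit 3864582411) (nat_lit 760) (nat_lit 507813794) (nat_lit 558) (nat_lit 5) (nat_lit 557) (nat_lit 5) (nat_lit 567) (nat_lit 5) (nat_lit 398) (nat_lit 385) (nat_lit 357)))) (XT.nd (nat_lit 156) (nat_lit 760) (nat_lit 0) (XT.nd (nat_lit 78) (nat_lit 0) (nat_lit 0) (XT.lf (nat_lit 0) (nat_lit 1737649345) (nat_lit 760) (nat_lit 982556447) (nat_lit 836) (nat_lit 4041080847) (nat_lit 547) (nat_lit 5) (nat_lit 557) (nat_lit 5) (nat_lit 558) (nat_lit 5) (nat_lit 399) (nat_lit 385) (nat_lit 356)) (XT.lf (nat_lit 76) (nat_lit 2469910753) (nat_lit 0) (nat_lit 1513581943) (nat_lit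 836) (nat_lit 2807082702) (nat_lit 548) (nat_lit 5) (nat_lit 547) (nat_lit 5) (nat_lit 558) (nat_lit 5) (nat_lit 400) (nat_lit 385) (nat_lit 355))) (XT.nd (nat_lit 78) (nat_lit 760) (nat_lit 0) (XT.lf (nat_lit 76) (nat_lit 5970771435) (nat_lit 0) (nat_lit 257136638) (nat_lit 836) (nat_lit 593546842) (nat_lit 548) (nat_lit 5) (nat_lit 547) (nat_lit 5) (nat_lit 558) (nat_lit 5) (nat_lit 401) (nat_lit 385) (nat_lit 354)) (XT.lf (nat_lit 0) (nat_lit 1614463114) (nat_lit 836) (nat_lit 4181518141) (nat_lit 76) (nat_lit 1057389102) (nat_lit 537) (nat_lit 5) (nat_lit 548) (nat_lit 5) (nat_lit 538) (nat_lit 5) (nat_lit 402) (nat_lit 385) (nat_lit 353))))) (XT.nd (nat_lit 234) (nat_lit 3040) (nat_lit 0) (XT.nd (nat_lit 78) (nat_lit 912) (nat_lit 0) (XT.lf (nat_lit 0) (nat_lit 3814743489) (nat_lit 836) (nat_lit 650184704) (nat_lit 76) (nat_lit 2421869877) (nat_lit 537) (nat_lit 5) (nat_lit 548) (nat_lit 5) (nat_lit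 538) (nat_lit 5) (nat_lit 403) (nat_lit 385) (nat_lit 352)) (XT.nd (nat_lit 78) (nat_lit 76) (nat_lit 0) (XT.lf (nat_lit 0) (nat_lit 2956160527) (nat_lit 836) (nat_lit 3071671271) (nat_lit 912) (nat_lit 893758632) (nat_lit 526) (nat_lit 5) (nat_lit 537) (nat_lit 5) (nat_lit 538) (nat_lit 5) (nat_lit 404) (nat_lit 385) (nat_lit 351)) (XT.lf (nat_lit 0) (nat_lit 1265053707) (nat_lit 912) (nat_lit 357090462) (nat_lit 76) (nat_lit 5335743972) (nat_lit 525) (nat_lit 5) (nat_lit 537) (nat_lit 5) (nat_lit 526) (nat_lit 5) (nat_lit 405) (nat_lit 385) (nat_lit 350)))) (XT.nd (nat_lit 156) (nat_lit 1140) (nat_lit 0) (XT.nd (nat_lit 78) (nat_lit 988) (nat_lit 0) (XT.lf (nat_lit 0) (nat_lit 3326920831) (nat_lit 912) (nat_lit 100723453) (nat_lit 988) (nat_lit 3567765959) (nat_lit 513) (nat_lit 5) (nat_lit 525) (nat_lit 5) (nat_lit 526) (nat_lit 5) (nat_lit 406) (nat_lit 385) (nat_lit 349)) (XT.lf (nat_lit 0) (nat_lit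 11420445) (nat_lit 988) (nat_lit 5585765762) (nat_lit 1064) (nat_lit 1437289236) (nat_lit 500) (nat_lit 5) (nat_lit 513) (nat_lit 5) (nat_lit 514) (nat_lit 5) (nat_lit 407) (nat_lit 385) (nat_lit 348))) (XT.nd (nat_lit 78) (nat_lit 1064) (nat_lit 0) (XT.lf (nat_lit 0) (nat_lit 703725881) (nat_lit 1064) (nat_lit 3300360074) (nat_lit 76) (nat_lit 3070652925) (nat_lit 499) (nat_lit 5) (nat_lit 513) (nat_lit 5) (nat_lit 500) (nat_lit 5) (nat_lit 408) (nat_lit 385) (nat_lit 347)) (XT.lf (nat_lit 0) (nat_lit 458400952) (nat_lit 1064) (nat_lit 2365979282) (nat_lit 1140) (nat_lit 4292178860) (nat_lit 485) (nat_lit 5) (nat_lit 499) (nat_lit 5) (nat_lit 500) (nat_lit 5) (nat_lit 409) (nat_lit 385) (nat_lit 346))))))))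
noncomputable def xc116 : XT := (XT.nd (nat_lit 2106) (nat_lit 9196) (nat_lit 0) (XT.nd (nat_lit 1014) (nat_lit 6764) (nat_lit 0) (XT.nd (nat_lit 468) (nat_lit 6080) (nat_lit 0) (XT.nd (nat_lit 234) (nat_lit 2584) (nat_lit 0) (XT.nd (nat_lit 78) (nat_lit 1216) (nat_lit 0) (XT.lf (nat_lit 0) (nat_lit 4302422597) (nat_lit 1064) (nat_lit 660937448) (nat_lit 1140) (nat_lit 2196398991) (nat_lit 485) (nat_lit 5) (nat_lit 499) (nat_lit 5) (nat_lit 500) (nat_lit 5) (nat_lit 410) (nat_lit 385) (nat_lit 345)) (XT.nd (nat_lit 78) (nat_lit 76) (nat_lit 0) (XT.lf (nat_lit 0) (nat_lit 990478516) (nat_lit 1140) (nat_lit 6122817713) (nat_lit 1216) (nat_lit 91223575) (nat_lit 470) (nat_lit 5) (nat_lit 485) (nat_lit 5) (nat_lit 486) (nat_lit 5) (nat_lit 411) (nat_lit 385) (nat_lit 344)) (XT.lf (nat_lit 0) (nat_lit 2007821394) (nat_lit 1216) (nat_lit 2349101962) (nat_lit 76) (nat_lit 2893468835) (nat_lit 469) (nat_lit 5)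 (nat_lit 485) (nat_lit 5) (nat_lit 470) (nat_lit 5) (nat_lit 412) (nat_lit 385) (nat_lit 343)))) (XT.nd (nat_lit 78) (nat_lit 1368) (nat_lit 0) (XT.lf (nat_lit 0) (nat_lit 1578491028) (nat_lit 1216) (nat_lit 2535319111) (nat_lit 1292) (nat_lit 3184093021) (nat_lit 453) (nat_lit 5) (nat_lit 469) (nat_lit 5) (nat_lit 470) (nat_lit 5) (nat_lit 413) (nat_lit 385) (nat_lit 342)) (XT.nd (nat_lit 78) (nat_lit 1368) (nat_lit 0) (XT.lf (nat_lit 0) (nat_lit 5581963961) (nat_lit 1216) (nat_lit 652292952) (nat_lit 1292) (nat_lit 1112716437) (nat_lit 453) (nat_lit 5) (nat_lit 469) (nat_lit 5) (nat_lit 470) (nat_lit 5) (nat_lit 414) (nat_lit 385) (nat_lit 341)) (XT.lf (nat_lit 0) (nat_lit 967146403) (nat_lit 1368) (nat_lit 5148814819) (nat_lit 76) (nat_lit 1281383957) (nat_lit 435) (nat_lit 5) (nat_lit 453) (nat_lit 5) (nat_lit 436) (nat_lit 5) (nat_lit 415) (nat_lit 385) (nat_lit 340))))) (XT.nd (nat_lit 234) (nat_lit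 4712) (nat_lit 0) (XT.nd (nat_lit 78) (nat_lit 1368) (nat_lit 0) (XT.lf (nat_lit 0) (nat_lit 3047725073) (nat_lit 1368) (nat_lit 1129174385) (nat_lit 76) (nat_lit 3272250079) (nat_lit 435) (nat_lit 5) (nat_lit 453) (nat_lit 5) (nat_lit 436) (nat_lit 5) (nat_lit 416) (nat_lit 385) (nat_lit 339)) (XT.nd (nat_lit 78) (nat_lit 0) (nat_lit 0) (XT.lf (nat_lit 0) (nat_lit 2975385836) (nat_lit 1368) (nat_lit 2172437381) (nat_lit 1444) (nat_lit 2354660127) (nat_lit 417) (nat_lit 5) (nat_lit 435) (nat_lit 5) (nat_lit 436) (nat_lit 5) (nat_lit 417) (nat_lit 385) (nat_lit 338)) (XT.lf (nat_lit 0) (nat_lit 7143074725) (nat_lit 1368) (nat_lit 113605147) (nat_lit 1444) (nat_lit 300919334) (nat_lit 417) (nat_lit 5) (nat_lit 435) (nat_lit 5) (nat_lit 436) (nat_lit 5) (nat_lit 418) (nat_lit 385) (nat_lit 337)))) (XT.nd (nat_lit 156) (nat_lit 1672) (nat_lit 0) (XT.nd (nat_lit 78) (nat_lit 1520) (nat_lit 0) (XT.lf (nat_lit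 0) (nat_lit 1767780428) (nat_lit 1520) (nat_lit 3843024567) (nat_lit 76) (nat_lit 2002879767) (nat_lit 397) (nat_lit 5) (nat_lit 417) (nat_lit 5) (nat_lit 398) (nat_lit 5) (nat_lit 419) (nat_lit 385) (nat_lit 336)) (XT.lf (nat_lit 0) (nat_lit 341205383) (nat_lit 1520) (nat_lit 3498664843) (nat_lit 1596) (nat_lit 3831708711) (nat_lit 377) (nat_lit 5) (nat_lit 397) (nat_lit 5) (nat_lit 398) (nat_lit 5) (nat_lit 420) (nat_lit 385) (nat_lit 335))) (XT.nd (nat_lit 78) (nat_lit 1672) (nat_lit 0) (XT.lf (nat_lit 0) (nat_lit 4626605205) (nat_lit 1520) (nat_lit 1313413381) (nat_lit 1596) (nat_lit 1790926736) (nat_lit 377) (nat_lit 5) (nat_lit 397) (nat_lit 5) (nat_lit 398) (nat_lit 5) (nat_lit 421) (nat_lit 385) (nat_lit 334)) (XT.lf (nat_lit 0) (nat_lit 261886773) (nat_lit 1672) (nat_lit 6612776685) (nat_lit 76) (nat_lit 917342123) (nat_lit 355) (nat_lit 5) (nat_lit 377) (nat_lit 5) (nat_lit 356) (nat_lit 5)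 (nat_lit 422) (nat_lit 385) (nat_lit 333)))))) (XT.nd (nat_lit 546) (nat_lit 2356) (nat_lit 0) (XT.nd (nat_lit 234) (nat_lit 2736) (nat_lit 0) (XT.nd (nat_lit 78) (nat_lit 1672) (nat_lit 0) (XT.lf (nat_lit 0) (nat_lit 2323324719) (nat_lit 1672) (nat_lit 2319111789) (nat_lit 76) (nat_lit 3211826772) (nat_lit 355) (nat_lit 5) (nat_lit 377) (nat_lit 5) (nat_lit 356) (nat_lit 5) (nat_lit 423) (nat_lit 385) (nat_lit 332)) (XT.nd (nat_lit 78) (nat_lit 0) (nat_lit 0) (XT.lf (nat_lit 0) (nat_lit 2052944954) (nat_lit 1672) (nat_lit 2348981867) (nat_lit 1748) (nat_lit 3516363716) (nat_lit 333) (nat_lit 5) (nat_lit 355) (nat_lit 5) (nat_lit 356) (nat_lit 5) (nat_lit 424) (nat_lit 385) (nat_lit 331)) (XT.lf (nat_lit 0) (nat_lit 6500838937) (nat_lit 1748) (nat_lit 1474425736) (nat_lit 76) (nat_lit 8801170) (nat_lit 333) (nat_lit 5) (nat_lit 356) (nat_lit 5) (nat_lit 334) (nat_lit 5) (nat_lit 425) (nat_lit 385) (nat_lit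 330)))) (XT.nd (nat_lit 156) (nat_lit 1672) (nat_lit 0) (XT.nd (nat_lit 78) (nat_lit 0) (nat_lit 0) (XT.lf (nat_lit 0) (nat_lit 581630108) (nat_lit 1064) (nat_lit 5061319422) (nat_lit 76) (nat_lit 2408195003) (nat_lit 319) (nat_lit 5) (nat_lit 333) (nat_lit 5) (nat_lit 320) (nat_lit 5) (nat_lit 426) (nat_lit 385) (nat_lit 329)) (XT.lf (nat_lit 0) (nat_lit 2641971387) (nat_lit 1064) (nat_lit 600491117) (nat_lit 76) (nat_lit 4877465084) (nat_lit 319) (nat_lit 5) (nat_lit 333) (nat_lit 5) (nat_lit 320) (nat_lit 5) (nat_lit 427) (nat_lit 385) (nat_lit 328))) (XT.nd (nat_lit 78) (nat_lit 836) (nat_lit 0) (XT.lf (nat_lit 0) (nat_lit 3967685576) (nat_lit 836) (nat_lit 766368558) (nat_lit 912) (nat_lit 3456260525) (nat_lit 308) (nat_lit 5) (nat_lit 319) (nat_lit 5) (nat_lit 320) (nat_lit 5) (nat_lit 428) (nat_lit 385) (nat_lit 327)) (XT.lf (nat_lit 0) (nat_lit 331817344) (nat_lit 836) (nat_lit 6519046846) (nat_lit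 912) (nat_lit 1411625846) (nat_lit 297) (nat_lit 5) (nat_lit 308) (nat_lit 5) (nat_lit 309) (nat_lit 5) (nat_lit 429) (nat_lit 385) (nat_lit 326))))) (XT.nd (nat_lit 234) (nat_lit 1520) (nat_lit 0) (XT.nd (nat_lit 78) (nat_lit 760) (nat_lit 0) (XT.lf (nat_lit 0) (nat_lit 664110159) (nat_lit 912) (nat_lit 3345280874) (nat_lit 76) (nat_lit 4326686234) (nat_lit 296) (nat_lit 5) (nat_lit 308) (nat_lit 5) (nat_lit 297) (nat_lit 5) (nat_lit 430) (nat_lit 385) (nat_lit 325)) (XT.nd (nat_lit 78) (nat_lit 0) (nat_lit 0) (XT.lf (nat_lit 0) (nat_lit 1305581572) (nat_lit 760) (nat_lit 1431497470) (nat_lit 836) (nat_lit 5674414260) (nat_lit 286) (nat_lit 5) (nat_lit 296) (nat_lit 5) (nat_lit 297) (nat_lit 5) (nat_lit 431) (nat_lit 385) (nat_lit 324)) (XT.lf (nat_lit 0) (nat_lit 4848450441) (nat_lit 836) (nat_lit 2435577336) (nat_lit 76) (nat_lit 1204486382) (nat_lit 286) (nat_lit 5) (nat_lit 297) (nat_lit 5) (nat_lit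 287) (nat_lit 5) (nat_lit 432) (nat_lit 385) (nat_lit 323)))) (XT.nd (nat_lit 156) (nat_lit 684) (nat_lit 0) (XT.nd (nat_lit 78) (nat_lit 76) (nat_lit 0) (XT.lf (nat_lit 0) (nat_lit 2315235118) (nat_lit 760) (nat_lit 4678549802) (nat_lit 836) (nat_lit 1573490472) (nat_lit 276) (nat_lit 5) (nat_lit 286) (nat_lit 5) (nat_lit 287) (nat_lit 5) (nat_lit 433) (nat_lit 385) (nat_lit 322)) (XT.lf (nat_lit 0) (nat_lit 511257824) (nat_lit 836) (nat_lit 1490841607) (nat_lit 76) (nat_lit 6645799297) (nat_lit 275) (nat_lit 5) (nat_lit 286) (nat_lit 5) (nat_lit 276) (nat_lit 5) (nat_lit 434) (nat_lit 385) (nat_lit 321))) (XT.nd (nat_lit 78) (nat_lit 0) (nat_lit 0) (XT.lf (nat_lit 0) (nat_lit 2611475330) (nat_lit 760) (nat_lit 5369175660) (nat_lit 76) (nat_lit 749411331) (nat_lit 266) (nat_lit 5) (nat_lit 276) (nat_lit 5) (nat_lit 267) (nat_lit 5) (nat_lit 435) (nat_lit 385) (nat_lit 320)) (XT.lf (nat_lit 0) (nat_lit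 4745466993) (nat_lit 760) (nat_lit 530958418) (nat_lit 76) (nat_lit 3537640411) (nat_lit 266) (nat_lit 5) (nat_lit 276) (nat_lit 5) (nat_lit 267) (nat_lit 5) (nat_lit 436) (nat_lit 385) (nat_lit 319))))))) (XT.nd (nat_lit 1014) (nat_lit 3800) (nat_lit 0) (XT.nd (nat_lit 468) (nat_lit 2584) (nat_lit 0) (XT.nd (nat_lit 234) (nat_lit 1292) (nat_lit 0) (XT.nd (nat_lit 78) (nat_lit 760) (nat_lit 0) (XT.lf (nat_lit 0) (nat_lit 4428950460) (nat_lit 760) (nat_lit 2491002814) (nat_lit 836) (nat_lit 1979871225) (nat_lit 256) (nat_lit 5) (nat_lit 266) (nat_lit 5) (nat_lit 267) (nat_lit 5) (nat_lit 437) (nat_lit 385) (nat_lit 318)) (XT.nd (nat_lit 78) (nat_lit 0) (nat_lit 0) (XT.lf (nat_lit 0) (nat_lit 126884551) (nat_lit 760) (nat_lit 8510157452) (nat_lit 76) (nat_lit 350702387) (nat_lit 246) (nat_lit 5) (nat_lit 256) (nat_lit 5) (nat_lit 247) (nat_lit 5) (nat_lit 438) (nat_lit 385) (nat_lit 317)) (XT.lf (nat_lit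 0) (nat_lit 2265576557) (nat_lit 760) (nat_lit 3554788898) (nat_lit 76) (nat_lit 3256498846) (nat_lit 246) (nat_lit 5) (nat_lit 256) (nat_lit 5) (nat_lit 247) (nat_lit 5) (nat_lit 439) (nat_lit 385) (nat_lit 316)))) (XT.nd (nat_lit 78) (nat_lit 608) (nat_lit 0) (XT.lf (nat_lit 0) (nat_lit 1486059172) (nat_lit 684) (nat_lit 2940817490) (nat_lit 760) (nat_lit 4741322273) (nat_lit 237) (nat_lit 5) (nat_lit 246) (nat_lit 5) (nat_lit 247) (nat_lit 5) (nat_lit 440) (nat_lit 385) (nat_lit 315)) (XT.nd (nat_lit 78) (nat_lit 608) (nat_lit 0) (XT.lf (nat_lit 0) (nat_lit 6625925688) (nat_lit 760) (nat_lit 2618601734) (nat_lit 76) (nat_lit 16970825) (nat_lit 237) (nat_lit 5) (nat_lit 247) (nat_lit 5) (nat_lit 238) (nat_lit 5) (nat_lit 441) (nat_lit 385) (nat_lit 314)) (XT.lf (nat_lit 0) (nat_lit 2527035962) (nat_lit 608) (nat_lit 6348914615) (nat_lit 684) (nat_lit 480600954) (nat_lit 229) (nat_lit 5) (nat_lit 237)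 (nat_lit 5) (nat_lit 238) (nat_lit 5) (nat_lit 442) (nat_lit 385) (nat_lit 313))))) (XT.nd (nat_lit 234) (nat_lit 1824) (nat_lit 0) (XT.nd (nat_lit 78) (nat_lit 684) (nat_lit 0) (XT.lf (nat_lit 0) (nat_lit 1683884484) (nat_lit 684) (nat_lit 1686370353) (nat_lit 76) (nat_lit 6083276041) (nat_lit 228) (nat_lit 5) (nat_lit 237) (nat_lit 5) (nat_lit 229) (nat_lit 5) (nat_lit 443) (nat_lit 385) (nat_lit 312)) (XT.nd (nat_lit 78) (nat_lit 0) (nat_lit 0) (XT.lf (nat_lit 0) (nat_lit 3570904866) (nat_lit 684) (nat_lit 309324690) (nat_lit 760) (nat_lit 5672282893) (nat_lit 219) (nat_lit 5) (nat_lit 228) (nat_lit 5) (nat_lit 229) (nat_lit 5) (nat_lit 444) (nat_lit 385) (nat_lit 311)) (XT.lf (nat_lit 0) (nat_lit 6122285784) (nat_lit 760) (nat_lit 748124822) (nat_lit 76) (nat_lit 2783053122) (nat_lit 219) (nat_lit 5) (nat_lit 229) (nat_lit 5) (nat_lit 220) (nat_lit 5) (nat_lit 445) (nat_lit 385) (nat_lit 310)))) (XT.nd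 (nat_lit 156) (nat_lit 532) (nat_lit 0) (XT.nd (nat_lit 78) (nat_lit 684) (nat_lit 0) (XT.lf (nat_lit 0) (nat_lit 4616441588) (nat_lit 608) (nat_lit 3797439681) (nat_lit 684) (nat_lit 1342484057) (nat_lit 211) (nat_lit 5) (nat_lit 219) (nat_lit 5) (nat_lit 220) (nat_lit 5) (nat_lit 446) (nat_lit 385) (nat_lit 309)) (XT.lf (nat_lit 0) (nat_lit 201793139) (nat_lit 608) (nat_lit 655684242) (nat_lit 684) (nat_lit 9004172964) (nat_lit 202) (nat_lit 5) (nat_lit 210) (nat_lit 5) (nat_lit 211) (nat_lit 5) (nat_lit 447) (nat_lit 385) (nat_lit 308))) (XT.nd (nat_lit 78) (nat_lit 532) (nat_lit 0) (XT.lf (nat_lit 0) (nat_lit 3107842076) (nat_lit 684) (nat_lit 4306575144) (nat_lit 76) (nat_lit 2553982569) (nat_lit 202) (nat_lit 5) (nat_lit 211) (nat_lit 5) (nat_lit 203) (nat_lit 5) (nat_lit 448) (nat_lit 385) (nat_lit 307)) (XT.lf (nat_lit 0) (nat_lit 1132346848) (nat_lit 532) (nat_lit 4256182895) (nat_lit 608) (nat_lit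 4689071499) (nat_lit 195) (nat_lit 5) (nat_lit 202) (nat_lit 5) (nat_lit 203) (nat_lit 5) (nat_lit 449) (nat_lit 385) (nat_lit 306)))))) (XT.nd (nat_lit 546) (nat_lit 1976) (nat_lit 0) (XT.nd (nat_lit 234) (nat_lit 1140) (nat_lit 0) (XT.nd (nat_lit 78) (nat_lit 684) (nat_lit 0) (XT.lf (nat_lit 0) (nat_lit 6706699771) (nat_lit 532) (nat_lit 1010963480) (nat_lit 608) (nat_lit 2471289706) (nat_lit 195) (nat_lit 5) (nat_lit 202) (nat_lit 5) (nat_lit 203) (nat_lit 5) (nat_lit 450) (nat_lit 385) (nat_lit 305)) (XT.nd (nat_lit 78) (nat_lit 76) (nat_lit 0) (XT.lf (nat_lit 0) (nat_lit 2070637386) (nat_lit 608) (nat_lit 8025521487) (nat_lit 684) (nat_lit 206339672) (nat_lit 187) (nat_lit 5) (nat_lit 195) (nat_lit 5) (nat_lit 196) (nat_lit 5) (nat_lit 451) (nat_lit 385) (nat_lit 304)) (XT.lf (nat_lit 0) (nat_lit 2081050438) (nat_lit 684) (nat_lit 2688321000) (nat_lit 76) (nat_lit 5648597278) (nat_lit 186) (nat_lit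 5) (nat_lit 195) (nat_lit 5) (nat_lit 187) (nat_lit 5) (nat_lit 452) (nat_lit 385) (nat_lit 303)))) (XT.nd (nat_lit 156) (nat_lit 608) (nat_lit 0) (XT.nd (nat_lit 78) (nat_lit 0) (nat_lit 0) (XT.lf (nat_lit 0) (nat_lit 2972579893) (nat_lit 532) (nat_lit 1433164386) (nat_lit 608) (nat_lit 6130111491) (nat_lit 179) (nat_lit 5) (nat_lit 186) (nat_lit 5) (nat_lit 187) (nat_lit 5) (nat_lit 453) (nat_lit 385) (nat_lit 302)) (XT.lf (nat_lit 0) (nat_lit 6783145466) (nat_lit 608) (nat_lit 1916907425) (nat_lit 76) (nat_lit 1955944123) (nat_lit 179) (nat_lit 5) (nat_lit 187) (nat_lit 5) (nat_lit 180) (nat_lit 5) (nat_lit 454) (nat_lit 385) (nat_lit 301))) (XT.nd (nat_lit 78) (nat_lit 76) (nat_lit 0) (XT.lf (nat_lit 0) (nat_lit 3852642136) (nat_lit 532) (nat_lit 5365707520) (nat_lit 608) (nat_lit 1560006639) (nat_lit 172) (nat_lit 5) (nat_lit 179) (nat_lit 5) (nat_lit 180) (nat_lit 5) (nat_lit 455) (nat_lit 385)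 (nat_lit 300)) (XT.lf (nat_lit 0) (nat_lit 777411981) (nat_lit 608) (nat_lit 1175533227) (nat_lit 76) (nat_lit 8950357372) (nat_lit 171) (nat_lit 5) (nat_lit 179) (nat_lit 5) (nat_lit 172) (nat_lit 5) (nat_lit 456) (nat_lit 385) (nat_lit 299))))) (XT.nd (nat_lit 234) (nat_lit 988) (nat_lit 0) (XT.nd (nat_lit 78) (nat_lit 532) (nat_lit 0) (XT.lf (nat_lit 0) (nat_lit 3157766717) (nat_lit 532) (nat_lit 6329783175) (nat_lit 76) (nat_lit 1542669281) (nat_lit 165) (nat_lit 5) (nat_lit 172) (nat_lit 5) (nat_lit 166) (nat_lit 5) (nat_lit 457) (nat_lit 385) (nat_lit 298)) (XT.nd (nat_lit 78) (nat_lit 532) (nat_lit 0) (XT.lf (nat_lit 0) (nat_lit 5583149857) (nat_lit 532) (nat_lit 493201547) (nat_lit 76) (nat_lit 5083393036) (nat_lit 165) (nat_lit 5) (nat_lit 172) (nat_lit 5) (nat_lit 166) (nat_lit 5) (nat_lit 458) (nat_lit 385) (nat_lit 297)) (XT.lf (nat_lit 0) (nat_lit 5502315934) (nat_lit 532) (nat_lit 2567456475)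 (nat_lit 608) (nat_lit 3221851562) (nat_lit 158) (nat_lit 5) (nat_lit 165) (nat_lit 5) (nat_lit 166) (nat_lit 5) (nat_lit 459) (nat_lit 385) (nat_lit 296)))) (XT.nd (nat_lit 156) (nat_lit 456) (nat_lit 0) (XT.nd (nat_lit 78) (nat_lit 76) (nat_lit 0) (XT.lf (nat_lit 0) (nat_lit 163721920) (nat_lit 456) (nat_lit 10430587175) (nat_lit 532) (nat_lit 832086404) (nat_lit 152) (nat_lit 5) (nat_lit 158) (nat_lit 5) (nat_lit 159) (nat_lit 5) (nat_lit 460) (nat_lit 385) (nat_lit 295)) (XT.lf (nat_lit 0) (nat_lit 1617831942) (nat_lit 532) (nat_lit 5306791495) (nat_lit 76) (nat_lit 4638379600) (nat_lit 151) (nat_lit 5) (nat_lit 158) (nat_lit 5) (nat_lit 152) (nat_lit 5) (nat_lit 461) (nat_lit 385) (nat_lit 294))) (XT.nd (nat_lit 78) (nat_lit 0) (nat_lit 0) (XT.lf (nat_lit 0) (nat_lit 742722991) (nat_lit 456) (nat_lit 3345466064) (nat_lit 532) (nat_lit 7614409027) (nat_lit 145) (nat_lit 5) (nat_lit 151) (nat_lit 5)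 (nat_lit 152) (nat_lit 5) (nat_lit 462) (nat_lit 385) (nat_lit 293)) (XT.lf (nat_lit 0) (nat_lit 6623727764) (nat_lit 532) (nat_lit 4891256134) (nat_lit 76) (nat_lit 329702303) (nat_lit 145) (nat_lit 5) (nat_lit 152) (nat_lit 5) (nat_lit 146) (nat_lit 5) (nat_lit 463) (nat_lit 385) (nat_lit 292))))))))
noncomputable def xc117 : XT := (XT.nd (nat_lit 2106) (nat_lit 3116) (nat_lit 0) (XT.nd (nat_lit 1014) (nat_lit 1976) (nat_lit 0) (XT.nd (nat_lit 468) (nat_lit 1596) (nat_lit 0) (XT.nd (nat_lit 234) (nat_lit 380) (nat_lit 0) (XT.nd (nat_lit 78) (nat_lit 532) (nat_lit 0) (XT.lf (nat_lit 0) (nat_lit 1263813590) (nat_lit 456) (nat_lit 7954902229) (nat_lit 532) (nat_lit 2770741829) (nat_lit 139) (nat_lit 5) (nat_lit 145) (nat_lit 5) (nat_lit 146) (nat_lit 5) (nat_lit 464) (nat_lit 385) (nat_lit 291)) (XT.nd (nat_lit 78) (nat_lit 532) (nat_lit 0) (XT.lf (nat_lit 0) (nat_lit 7579138659) (nat_lit 456) (nat_lit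 4297900251) (nat_lit 532) (nat_lit 259872924) (nat_lit 139) (nat_lit 5) (nat_lit 145) (nat_lit 5) (nat_lit 146) (nat_lit 5) (nat_lit 465) (nat_lit 385) (nat_lit 290)) (XT.lf (nat_lit 0) (nat_lit 1712095681) (nat_lit 456) (nat_lit 548930287) (nat_lit 532) (nat_lit 10026205843) (nat_lit 132) (nat_lit 5) (nat_lit 138) (nat_lit 5) (nat_lit 139) (nat_lit 5) (nat_lit 466) (nat_lit 385) (nat_lit 289)))) (XT.nd (nat_lit 78) (nat_lit 380) (nat_lit 0) (XT.lf (nat_lit 0) (nat_lit 4859972349) (nat_lit 532) (nat_lit 4323055262) (nat_lit 76) (nat_lit 3256889129) (nat_lit 132) (nat_lit 5) (nat_lit 139) (nat_lit 5) (nat_lit 133) (nat_lit 5) (nat_lit 467) (nat_lit 385) (nat_lit 288)) (XT.nd (nat_lit 78) (nat_lit 0) (nat_lit 0) (XT.lf (nat_lit 0) (nat_lit 2048806955) (nat_lit 380) (nat_lit 5458493657) (nat_lit 456) (nat_lit 5088441492) (nat_lit 127) (nat_lit 5) (nat_lit 132) (nat_lit 5) (nat_lit 133) (nat_lit 5) (nat_lit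 468) (nat_lit 385) (nat_lit 287)) (XT.lf (nat_lit 0) (nat_lit 8578398600) (nat_lit 380) (nat_lit 1637871105) (nat_lit 456) (nat_lit 2538254893) (nat_lit 127) (nat_lit 5) (nat_lit 132) (nat_lit 5) (nat_lit 133) (nat_lit 5) (nat_lit 469) (nat_lit 385) (nat_lit 286))))) (XT.nd (nat_lit 234) (nat_lit 760) (nat_lit 0) (XT.nd (nat_lit 78) (nat_lit 380) (nat_lit 0) (XT.lf (nat_lit 0) (nat_lit 71855455) (nat_lit 456) (nat_lit 10607168134) (nat_lit 76) (nat_lit 2237270015) (nat_lit 121) (nat_lit 5) (nat_lit 127) (nat_lit 5) (nat_lit 122) (nat_lit 5) (nat_lit 470) (nat_lit 385) (nat_lit 285)) (XT.nd (nat_lit 78) (nat_lit 380) (nat_lit 0) (XT.lf (nat_lit 0) (nat_lit 2719366317) (nat_lit 456) (nat_lit 4156096916) (nat_lit 76) (nat_lit 6205129158) (nat_lit 121) (nat_lit 5) (nat_lit 127) (nat_lit 5) (nat_lit 122) (nat_lit 5) (nat_lit 471) (nat_lit 385) (nat_lit 284)) (XT.lf (nat_lit 0) (nat_lit 2428187123) (nat_lit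 380) (nat_lit 2987893272) (nat_lit 456) (nat_lit 7832185101) (nat_lit 116) (nat_lit 5) (nat_lit 121) (nat_lit 5) (nat_lit 122) (nat_lit 5) (nat_lit 472) (nat_lit 385) (nat_lit 283)))) (XT.nd (nat_lit 156) (nat_lit 380) (nat_lit 0) (XT.nd (nat_lit 78) (nat_lit 380) (nat_lit 0) (XT.lf (nat_lit 0) (nat_lit 8181787974) (nat_lit 456) (nat_lit 4252590319) (nat_lit 76) (nat_lit 984625724) (nat_lit 116) (nat_lit 5) (nat_lit 122) (nat_lit 5) (nat_lit 117) (nat_lit 5) (nat_lit 473) (nat_lit 385) (nat_lit 282)) (XT.lf (nat_lit 0) (nat_lit 2431070454) (nat_lit 380) (nat_lit 8588329188) (nat_lit 456) (nat_lit 2573438750) (nat_lit 111) (nat_lit 5) (nat_lit 116) (nat_lit 5) (nat_lit 117) (nat_lit 5) (nat_lit 474) (nat_lit 385) (nat_lit 281))) (XT.nd (nat_lit 78) (nat_lit 304) (nat_lit 0) (XT.lf (nat_lit 0) (nat_lit 151534518) (nat_lit 456) (nat_lit 4492008725) (nat_lit 76) (nat_lit 9126403865) (nat_lit 110) (nat_lit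 5) (nat_lit 116) (nat_lit 5) (nat_lit 111) (nat_lit 5) (nat_lit 475) (nat_lit 385) (nat_lit 280)) (XT.lf (nat_lit 0) (nat_lit 2297412430) (nat_lit 304) (nat_lit 595533883) (nat_lit 380) (nat_lit 11057395666) (nat_lit 106) (nat_lit 5) (nat_lit 110) (nat_lit 5) (nat_lit 111) (nat_lit 5) (nat_lit 476) (nat_lit 385) (nat_lit 279)))))) (XT.nd (nat_lit 546) (nat_lit 912) (nat_lit 0) (XT.nd (nat_lit 234) (nat_lit 684) (nat_lit 0) (XT.nd (nat_lit 78) (nat_lit 380) (nat_lit 0) (XT.lf (nat_lit 0) (nat_lit 5724056953) (nat_lit 380) (nat_lit 4900340980) (nat_lit 76) (nat_lit 3509261304) (nat_lit 106) (nat_lit 5) (nat_lit 111) (nat_lit 5) (nat_lit 107) (nat_lit 5) (nat_lit 477) (nat_lit 385) (nat_lit 278)) (XT.nd (nat_lit 78) (nat_lit 0) (nat_lit 0) (XT.lf (nat_lit 0) (nat_lit 1982920175) (nat_lit 380) (nat_lit 6627634887) (nat_lit 456) (nat_lit 5710124138) (nat_lit 101) (nat_lit 5) (nat_lit 106) (nat_lit 5) (nat_lit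 107) (nat_lit 5) (nat_lit 478) (nat_lit 385) (nat_lit 277)) (XT.lf (nat_lit 0) (nat_lit 9044004317) (nat_lit 380) (nat_lit 2525793013) (nat_lit 456) (nat_lit 2941353388) (nat_lit 101) (nat_lit 5) (nat_lit 106) (nat_lit 5) (nat_lit 107) (nat_lit 5) (nat_lit 479) (nat_lit 385) (nat_lit 276)))) (XT.nd (nat_lit 156) (nat_lit 304) (nat_lit 0) (XT.nd (nat_lit 78) (nat_lit 76) (nat_lit 0) (XT.lf (nat_lit 0) (nat_lit 1524040404) (nat_lit 304) (nat_lit 13067271769) (nat_lit 380) (nat_lit 114068952) (nat_lit 97) (nat_lit 5) (nat_lit 101) (nat_lit 5) (nat_lit 102) (nat_lit 5) (nat_lit 480) (nat_lit 385) (nat_lit 275)) (XT.lf (nat_lit 0) (nat_lit 2769570427) (nat_lit 380) (nat_lit 6234688963) (nat_lit 76) (nat_lit 5898165163) (nat_lit 96) (nat_lit 5) (nat_lit 101) (nat_lit 5) (nat_lit 97) (nat_lit 5) (nat_lit 481) (nat_lit 385) (nat_lit 274))) (XT.nd (nat_lit 78) (nat_lit 0) (nat_lit 0) (XT.lf (nat_lit 0) (nat_lit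 835477322) (nat_lit 304) (nat_lit 4862125040) (nat_lit 380) (nat_lit 9406037034) (nat_lit 92) (nat_lit 5) (nat_lit 96) (nat_lit 5) (nat_lit 97) (nat_lit 5) (nat_lit 482) (nat_lit 385) (nat_lit 273)) (XT.lf (nat_lit 0) (nat_lit 8106107820) (nat_lit 304) (nat_lit 602917994) (nat_lit 380) (nat_lit 6599366461) (nat_lit 92) (nat_lit 5) (nat_lit 96) (nat_lit 5) (nat_lit 97) (nat_lit 5) (nat_lit 483) (nat_lit 385) (nat_lit 272))))) (XT.nd (nat_lit 234) (nat_lit 532) (nat_lit 0) (XT.nd (nat_lit 78) (nat_lit 380) (nat_lit 0) (XT.lf (nat_lit 0) (nat_lit 11788242418) (nat_lit 380) (nat_lit 44624194) (nat_lit 76) (nat_lit 3684232466) (nat_lit 92) (nat_lit 5) (nat_lit 97) (nat_lit 5) (nat_lit 93) (nat_lit 5) (nat_lit 484) (nat_lit 385) (nat_lit 271)) (XT.nd (nat_lit 78) (nat_lit 76) (nat_lit 0) (XT.lf (nat_lit 0) (nat_lit 7323497602) (nat_lit 304) (nat_lit 7640688133) (nat_lit 380) (nat_lit 765101389) (nat_lit 88)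 (nat_lit 5) (nat_lit 92) (nat_lit 5) (nat_lit 93) (nat_lit 5) (nat_lit 485) (nat_lit 385) (nat_lit 270)) (XT.lf (nat_lit 0) (nat_lit 2212262588) (nat_lit 380) (nat_lit 1145600100) (nat_lit 76) (nat_lit 12587893681) (nat_lit 87) (nat_lit 5) (nat_lit 92) (nat_lit 5) (nat_lit 88) (nat_lit 5) (nat_lit 486) (nat_lit 385) (nat_lit 269)))) (XT.nd (nat_lit 156) (nat_lit 228) (nat_lit 0) (XT.nd (nat_lit 78) (nat_lit 0) (nat_lit 0) (XT.lf (nat_lit 0) (nat_lit 5270706973) (nat_lit 380) (nat_lit 9859577179) (nat_lit 76) (nat_lit 1035543527) (nat_lit 83) (nat_lit 5) (nat_lit 88) (nat_lit 5) (nat_lit 84) (nat_lit 5) (nat_lit 487) (nat_lit 385) (nat_lit 268)) (XT.lf (nat_lit 0) (nat_lit 8404365908) (nat_lit 380) (nat_lit 2514206347) (nat_lit 76) (nat_lit 5471456447) (nat_lit 83) (nat_lit 5) (nat_lit 88) (nat_lit 5) (nat_lit 84) (nat_lit 5) (nat_lit 488) (nat_lit 385) (nat_lit 267))) (XT.nd (nat_lit 78) (nat_lit 0) (nat_lit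 0) (XT.lf (nat_lit 0) (nat_lit 5019950339) (nat_lit 228) (nat_lit 6597722560) (nat_lit 304) (nat_lit 5000710368) (nat_lit 80) (nat_lit 5) (nat_lit 83) (nat_lit 5) (nat_lit 84) (nat_lit 5) (nat_lit 489) (nat_lit 385) (nat_lit 266)) (XT.lf (nat_lit 0) (nat_lit 12715069400) (nat_lit 228) (nat_lit 2181582007) (nat_lit 304) (nat_lit 1954634250) (nat_lit 80) (nat_lit 5) (nat_lit 83) (nat_lit 5) (nat_lit 84) (nat_lit 5) (nat_lit 490) (nat_lit 385) (nat_lit 265))))))) (XT.nd (nat_lit 1092) (nat_lit 1368) (nat_lit 0) (XT.nd (nat_lit 546) (nat_lit 760) (nat_lit 0) (XT.nd (nat_lit 234) (nat_lit 380) (nat_lit 0) (XT.nd (nat_lit 78) (nat_lit 228) (nat_lit 0) (XT.lf (nat_lit 0) (nat_lit 1159864848) (nat_lit 380) (nat_lit 13613796368) (nat_lit 76) (nat_lit 2314591442) (nat_lit 75) (nat_lit 5) (nat_lit 80) (nat_lit 5) (nat_lit 76) (nat_lit 5) (nat_lit 491) (nat_lit 385) (nat_lit 264)) (XT.nd (nat_lit 78) (nat_lit 228)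 (nat_lit 0) (XT.lf (nat_lit 0) (nat_lit 4337715330) (nat_lit 380) (nat_lit 6087218545) (nat_lit 76) (nat_lit 6904230374) (nat_lit 75) (nat_lit 5) (nat_lit 80) (nat_lit 5) (nat_lit 76) (nat_lit 5) (nat_lit 492) (nat_lit 385) (nat_lit 263)) (XT.lf (nat_lit 0) (nat_lit 1587526745) (nat_lit 228) (nat_lit 5987022884) (nat_lit 304) (nat_lit 10000444076) (nat_lit 72) (nat_lit 5) (nat_lit 75) (nat_lit 5) (nat_lit 76) (nat_lit 5) (nat_lit 493) (nat_lit 385) (nat_lit 262)))) (XT.nd (nat_lit 156) (nat_lit 380) (nat_lit 0) (XT.nd (nat_lit 78) (nat_lit 0) (nat_lit 0) (XT.lf (nat_lit 0) (nat_lit 9475248534) (nat_lit 228) (nat_lit 1426982284) (nat_lit 304) (nat_lit 6922994736) (nat_lit 72) (nat_lit 5) (nat_lit 75) (nat_lit 5) (nat_lit 76) (nat_lit 5) (nat_lit 494) (nat_lit 385) (nat_lit 261)) (XT.lf (nat_lit 0) (nat_lit 14302897615) (nat_lit 304) (nat_lit 603495996) (nat_lit 76) (nat_lit 3173947641) (nat_lit 72) (nat_lit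 5) (nat_lit 76) (nat_lit 5) (nat_lit 73) (nat_lit 5) (nat_lit 495) (nat_lit 385) (nat_lit 260))) (XT.nd (nat_lit 78) (nat_lit 76) (nat_lit 0) (XT.lf (nat_lit 0) (nat_lit 7362649767) (nat_lit 304) (nat_lit 10451963708) (nat_lit 380) (nat_lit 525092771) (nat_lit 68) (nat_lit 5) (nat_lit 72) (nat_lit 5) (nat_lit 73) (nat_lit 5) (nat_lit 496) (nat_lit 385) (nat_lit 259)) (XT.lf (nat_lit 0) (nat_lit 2745576164) (nat_lit 380) (nat_lit 3148460691) (nat_lit 76) (nat_lit 12710068644) (nat_lit 67) (nat_lit 5) (nat_lit 72) (nat_lit 5) (nat_lit 68) (nat_lit 5) (nat_lit 497) (nat_lit 385) (nat_lit 258))))) (XT.nd (nat_lit 234) (nat_lit 304) (nat_lit 0) (XT.nd (nat_lit 78) (nat_lit 228) (nat_lit 0) (XT.lf (nat_lit 0) (nat_lit 4875182373) (nat_lit 228) (nat_lit 1217198761) (nat_lit 304) (nat_lit 12780994364) (nat_lit 64) (nat_lit 5) (nat_lit 67) (nat_lit 5) (nat_lit 68) (nat_lit 5) (nat_lit 498) (nat_lit 385) (nat_lit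 257)) (XT.nd (nat_lit 78) (nat_lit 228) (nat_lit 0) (XT.lf (nat_lit 0) (nat_lit 9536632167) (nat_lit 304) (nat_lit 6090913016) (nat_lit 76) (nat_lit 3519882626) (nat_lit 64) (nat_lit 5) (nat_lit 68) (nat_lit 5) (nat_lit 65) (nat_lit 5) (nat_lit 499) (nat_lit 385) (nat_lit 256)) (XT.lf (nat_lit 0) (nat_lit 1970658401) (nat_lit 228) (nat_lit 11086409324) (nat_lit 304) (nat_lit 6369754425) (nat_lit 61) (nat_lit 5) (nat_lit 64) (nat_lit 5) (nat_lit 65) (nat_lit 5) (nat_lit 500) (nat_lit 385) (nat_lit 255)))) (XT.nd (nat_lit 156) (nat_lit 228) (nat_lit 0) (XT.nd (nat_lit 78) (nat_lit 76) (nat_lit 0) (XT.lf (nat_lit 0) (nat_lit 10254528623) (nat_lit 228) (nat_lit 6420826605) (nat_lit 304) (nat_lit 3035907118) (nat_lit 61) (nat_lit 5) (nat_lit 64) (nat_lit 5) (nat_lit 65) (nat_lit 5) (nat_lit 501) (nat_lit 385) (nat_lit 254)) (XT.lf (nat_lit 0) (nat_lit 346574641) (nat_lit 304) (nat_lit 1320940279) (nat_lit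 76) (nat_lit 18334100860) (nat_lit 60) (nat_lit 5) (nat_lit 64) (nat_lit 5) (nat_lit 61) (nat_lit 5) (nat_lit 502) (nat_lit 385) (nat_lit 253))) (XT.nd (nat_lit 78) (nat_lit 0) (nat_lit 0) (XT.lf (nat_lit 0) (nat_lit 3809765188) (nat_lit 304) (nat_lit 13288957924) (nat_lit 76) (nat_lit 3197584066) (nat_lit 57) (nat_lit 5) (nat_lit 61) (nat_lit 5) (nat_lit 58) (nat_lit 5) (nat_lit 503) (nat_lit 385) (nat_lit 252)) (XT.lf (nat_lit 0) (nat_lit 7349254823) (nat_lit 304) (nat_lit 5108623725) (nat_lit 76) (nat_lit 8138879465) (nat_lit 57) (nat_lit 5) (nat_lit 61) (nat_lit 5) (nat_lit 58) (nat_lit 5) (nat_lit 504) (nat_lit 385) (nat_lit 251)))))) (XT.nd (nat_lit 546) (nat_lit 608) (nat_lit 0) (XT.nd (nat_lit 234) (nat_lit 532) (nat_lit 0) (XT.nd (nat_lit 78) (nat_lit 0) (nat_lit 0) (XT.lf (nat_lit 0) (nat_lit 3257533403) (nat_lit 228) (nat_lit 7710473685) (nat_lit 304) (nat_lit 9935047511) (nat_lit 54) (nat_lit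 5) (nat_lit 57) (nat_lit 5) (nat_lit 58) (nat_lit 5) (nat_lit 505) (nat_lit 385) (nat_lit 250)) (XT.nd (nat_lit 78) (nat_lit 0) (nat_lit 0) (XT.lf (nat_lit 0) (nat_lit 11839890435) (nat_lit 228) (nat_lit 2840964592) (nat_lit 304) (nat_lit 6534193747) (nat_lit 54) (nat_lit 5) (nat_lit 57) (nat_lit 5) (nat_lit 58) (nat_lit 5) (nat_lit 506) (nat_lit 385) (nat_lit 249)) (XT.lf (nat_lit 0) (nat_lit 18469398549) (nat_lit 304) (nat_lit 973366252) (nat_lit 76) (nat_lit 2090495207) (nat_lit 54) (nat_lit 5) (nat_lit 58) (nat_lit 5) (nat_lit 55) (nat_lit 5) (nat_lit 507) (nat_lit 385) (nat_lit 248)))) (XT.nd (nat_lit 156) (nat_lit 228) (nat_lit 0) (XT.nd (nat_lit 78) (nat_lit 0) (nat_lit 0) (XT.lf (nat_lit 0) (nat_lit 526419341) (nat_lit 304) (nat_lit 14201868319) (nat_lit 76) (nat_lit 7128356072) (nat_lit 50) (nat_lit 5) (nat_lit 54) (nat_lit 5) (nat_lit 51) (nat_lit 5) (nat_lit 508) (nat_lit 385) (nat_lit 247))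 (XT.lf (nat_lit 0) (nat_lit 4141997061) (nat_lit 304) (nat_lit 5757839779) (nat_lit 76) (nat_lit 12286368529) (nat_lit 50) (nat_lit 5) (nat_lit 54) (nat_lit 5) (nat_lit 51) (nat_lit 5) (nat_lit 509) (nat_lit 385) (nat_lit 246))) (XT.nd (nat_lit 78) (nat_lit 0) (nat_lit 0) (XT.lf (nat_lit 0) (nat_lit 2873326364) (nat_lit 228) (nat_lit 4963355707) (nat_lit 304) (nat_lit 14685545748) (nat_lit 47) (nat_lit 5) (nat_lit 50) (nat_lit 5) (nat_lit 51) (nat_lit 5) (nat_lit 510) (nat_lit 385) (nat_lit 245)) (XT.lf (nat_lit 0) (nat_lit 11632819769) (nat_lit 304) (nat_lit 11129246296) (nat_lit 76) (nat_lit 102358863) (nat_lit 47) (nat_lit 5) (nat_lit 51) (nat_lit 5) (nat_lit 48) (nat_lit 5) (nat_lit 511) (nat_lit 385) (nat_lit 244))))) (XT.nd (nat_lit 234) (nat_lit 456) (nat_lit 0) (XT.nd (nat_lit 78) (nat_lit 152) (nat_lit 0) (XT.lf (nat_lit 0) (nat_lit 15526179968) (nat_lit 304) (nat_lit 2491176558) (nat_lit 76)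 (nat_lit 5195688742) (nat_lit 47) (nat_lit 5) (nat_lit 51) (nat_lit 5) (nat_lit 48) (nat_lit 5) (nat_lit 512) (nat_lit 385) (nat_lit 243)) (XT.nd (nat_lit 78) (nat_lit 0) (nat_lit 0) (XT.lf (nat_lit 0) (nat_lit 6384656551) (nat_lit 152) (nat_lit 13142860952) (nat_lit 228) (nat_lit 4040523491) (nat_lit 45) (nat_lit 5) (nat_lit 47) (nat_lit 5) (nat_lit 48) (nat_lit 5) (nat_lit 513) (nat_lit 385) (nat_lit 242)) (XT.lf (nat_lit 0) (nat_lit 15453164187) (nat_lit 152) (nat_lit 8161193000) (nat_lit 228) (nat_lit 315675016) (nat_lit 45) (nat_lit 5) (nat_lit 47) (nat_lit 5) (nat_lit 48) (nat_lit 5) (nat_lit 514) (nat_lit 385) (nat_lit 241)))) (XT.nd (nat_lit 156) (nat_lit 152) (nat_lit 0) (XT.nd (nat_lit 78) (nat_lit 0) (nat_lit 0) (XT.lf (nat_lit 0) (nat_lit 367583197) (nat_lit 228) (nat_lit 3061685674) (nat_lit 304) (nat_lit 20869721135) (nat_lit 41) (nat_lit 5) (nat_lit 44) (nat_lit 5) (nat_lit 45) (nat_lit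 5) (nat_lit 515) (nat_lit 385) (nat_lit 240)) (XT.lf (nat_lit 0) (nat_lit 7304995274) (nat_lit 304) (nat_lit 15205174685) (nat_lit 76) (nat_lit 2163917847) (nat_lit 41) (nat_lit 5) (nat_lit 45) (nat_lit 5) (nat_lit 42) (nat_lit 5) (nat_lit 516) (nat_lit 385) (nat_lit 239))) (XT.nd (nat_lit 78) (nat_lit 152) (nat_lit 0) (XT.lf (nat_lit 0) (nat_lit 11267681419) (nat_lit 304) (nat_lit 6342786789) (nat_lit 76) (nat_lit 7446035143) (nat_lit 41) (nat_lit 5) (nat_lit 45) (nat_lit 5) (nat_lit 42) (nat_lit 5) (nat_lit 517) (nat_lit 385) (nat_lit 238)) (XT.lf (nat_lit 0) (nat_lit 2714714791) (nat_lit 152) (nat_lit 12601913744) (nat_lit 228) (nat_lit 10129803127) (nat_lit 39) (nat_lit 5) (nat_lit 41) (nat_lit 5) (nat_lit 42) (nat_lit 5) (nat_lit 518) (nat_lit 385) (nat_lit 237))))))))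
noncomputable def xc118 : XT := (XT.nd (nat_lit 50544) (nat_lit 0) (nat_lit 18468) (XT.nd (nat_lit 49452) (nat_lit 0) (nat_lit 37392) (XT.nd (nat_lit 468) (nat_lit 0) (nat_lit 0) (XT.nd (nat_lit 234) (nat_lit 152) (nat_lit 0) (XT.nd (nat_lit 78) (nat_lit 304) (nat_lit 0) (XT.lf (nat_lit 0) (nat_lit 12021723200) (nat_lit 152) (nat_lit 7456870146) (nat_lit 228) (nat_lit 6364928927) (nat_lit 39) (nat_lit 5) (nat_lit 41) (nat_lit 5) (nat_lit 42) (nat_lit 5) (nat_lit 519) (nat_lit 385) (nat_lit 236)) (XT.nd (nat_lit 78) (nat_lit 304) (nat_lit 0) (XT.lf (nat_lit 0) (nat_lit 21497595945) (nat_lit 152) (nat_lit 2215883190) (nat_lit 228) (nat_lit 2535286349) (nat_lit 39) (nat_lit 5) (nat_lit 41) (nat_lit 5) (nat_lit 42) (nat_lit 5) (nat_lit 520) (nat_lit 385) (nat_lit 235)) (XT.lf (nat_lit 0) (nat_lit 1392752388) (nat_lit 304) (nat_lit 22147721707) (nat_lit 76) (nat_lit 3120670021) (nat_lit 35) (nat_lit 5) (nat_lit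 39) (nat_lit 5) (nat_lit 36) (nat_lit 5) (nat_lit 521) (nat_lit 385) (nat_lit 234)))) (XT.nd (nat_lit 78) (nat_lit 152) (nat_lit 0) (XT.lf (nat_lit 0) (nat_lit 5402062619) (nat_lit 304) (nat_lit 13102224868) (nat_lit 76) (nat_lit 8576418671) (nat_lit 35) (nat_lit 5) (nat_lit 39) (nat_lit 5) (nat_lit 36) (nat_lit 5) (nat_lit 522) (nat_lit 385) (nat_lit 233)) (XT.nd (nat_lit 78) (nat_lit 152) (nat_lit 0) (XT.lf (nat_lit 0) (nat_lit 9481615676) (nat_lit 304) (nat_lit 3892608201) (nat_lit 76) (nat_lit 14134638515) (nat_lit 35) (nat_lit 5) (nat_lit 39) (nat_lit 5) (nat_lit 36) (nat_lit 5) (nat_lit 523) (nat_lit 385) (nat_lit 232)) (XT.lf (nat_lit 0) (nat_lit 5557629212) (nat_lit 152) (nat_lit 8111465987) (nat_lit 228) (nat_lit 14275963850) (nat_lit 33) (nat_lit 5) (nat_lit 35) (nat_lit 5) (nat_lit 36) (nat_lit 5) (nat_lit 524) (nat_lit 385) (nat_lit 231))))) (XT.nd (nat_lit 48672) (nat_lit 0) (nat_lit 40964)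 (XT.nd (nat_lit 48516) (nat_lit 0) (nat_lit 41496) (XT.lf (nat_lit 0) (nat_lit 15233284107) (nat_lit 152) (nat_lit 2723498219) (nat_lit 228) (nat_lit 10432872078) (nat_lit 33) (nat_lit 5) (nat_lit 35) (nat_lit 5) (nat_lit 36) (nat_lit 5) (nat_lit 525) (nat_lit 385) (nat_lit 230)) (XT.nd (nat_lit 78) (nat_lit 532) (nat_lit 0) (XT.lf (nat_lit 0) (nat_lit 1608664377) (nat_lit 0) (nat_lit 1608664377) (nat_lit 380) (nat_lit 39541408) (nat_lit 586) (nat_lit 5) (nat_lit 586) (nat_lit 3) (nat_lit 591) (nat_lit 3) (nat_lit 386) (nat_lit 386) (nat_lit 368)) (XT.lf (nat_lit 0) (nat_lit 2347749451) (nat_lit 532) (nat_lit 337663709) (nat_lit 532) (nat_lit 3840856696) (nat_lit 579) (nat_lit 3) (nat_lit 586) (nat_lit 3) (nat_lit 586) (nat_lit 5) (nat_lit 387) (nat_lit 386) (nat_lit 367)))) (XT.nd (nat_lit 156) (nat_lit 0) (nat_lit 0) (XT.nd (nat_lit 78) (nat_lit 532) (nat_lit 0) (XT.lf (nat_lit 76) (nat_lit 2682400474)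 (nat_lit 0) (nat_lit 2093425934) (nat_lit 532) (nat_lit 1764244972) (nat_lit 580) (nat_lit 5) (nat_lit 579) (nat_lit 3) (nat_lit 586) (nat_lit 5) (nat_lit 388) (nat_lit 386) (nat_lit 366)) (XT.lf (nat_lit 0) (nat_lit 628308342) (nat_lit 532) (nat_lit 824452648) (nat_lit 608) (nat_lit 5102617283) (nat_lit 572) (nat_lit 5) (nat_lit 579) (nat_lit 3) (nat_lit 580) (nat_lit 5) (nat_lit 389) (nat_lit 386) (nat_lit 365))) (XT.nd (nat_lit 78) (nat_lit 0) (nat_lit 76) (XT.lf (nat_lit 76) (nat_lit 2254726042) (nat_lit 0) (nat_lit 743132549) (nat_lit 608) (nat_lit 3573945111) (nat_lit 573) (nat_lit 5) (nat_lit 572) (nat_lit 5) (nat_lit 580) (nat_lit 5) (nat_lit 390) (nat_lit 386) (nat_lit 364)) (XT.lf (nat_lit 0) (nat_lit 5359539938) (nat_lit 532) (nat_lit 1215573105) (nat_lit 608) (nat_lit 14648826) (nat_lit 573) (nat_lit 5) (nat_lit 580) (nat_lit 5) (nat_lit 581) (nat_lit 5) (nat_lit 391) (nat_lit 386) (nat_lit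 363)))))) (XT.nd (nat_lit 546) (nat_lit 1672) (nat_lit 0) (XT.nd (nat_lit 234) (nat_lit 1368) (nat_lit 0) (XT.nd (nat_lit 78) (nat_lit 0) (nat_lit 0) (XT.lf (nat_lit 0) (nat_lit 1102755673) (nat_lit 608) (nat_lit 4681065650) (nat_lit 684) (nat_lit 825050417) (nat_lit 565) (nat_lit 5) (nat_lit 573) (nat_lit 5) (nat_lit 574) (nat_lit 5) (nat_lit 392) (nat_lit 386) (nat_lit 362)) (XT.nd (nat_lit 78) (nat_lit 0) (nat_lit 0) (XT.lf (nat_lit 0) (nat_lit 3415104246) (nat_lit 608) (nat_lit 1519745563) (nat_lit 684) (nat_lit 1694461002) (nat_lit 565) (nat_lit 5) (nat_lit 573) (nat_lit 5) (nat_lit 574) (nat_lit 5) (nat_lit 393) (nat_lit 386) (nat_lit 361)) (XT.lf (nat_lit 76) (nat_lit 1693805691) (nat_lit 0) (nat_lit 4033006638) (nat_lit 684) (nat_lit 924375575) (nat_lit 566) (nat_lit 5) (nat_lit 565) (nat_lit 5) (nat_lit 574) (nat_lit 5) (nat_lit 394) (nat_lit 386) (nat_lit 360)))) (XT.nd (nat_lit 156) (nat_lit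 684) (nat_lit 0) (XT.nd (nat_lit 78) (nat_lit 0) (nat_lit 0) (XT.lf (nat_lit 0) (nat_lit 1345579297) (nat_lit 684) (nat_lit 1724142838) (nat_lit 760) (nat_lit 3604628365) (nat_lit 556) (nat_lit 5) (nat_lit 565) (nat_lit 5) (nat_lit 566) (nat_lit 5) (nat_lit 395) (nat_lit 386) (nat_lit 359)) (XT.lf (nat_lit 76) (nat_lit 1554852921) (nat_lit 0) (nat_lit 2047505995) (nat_lit 760) (nat_lit 3096505384) (nat_lit 557) (nat_lit 5) (nat_lit 556) (nat_lit 5) (nat_lit 566) (nat_lit 5) (nat_lit 396) (nat_lit 386) (nat_lit 358))) (XT.nd (nat_lit 78) (nat_lit 684) (nat_lit 0) (XT.lf (nat_lit 76) (nat_lit 4889839202) (nat_lit 0) (nat_lit 970591153) (nat_lit 760) (nat_lit 864399420) (nat_lit 557) (nat_lit 5) (nat_lit 556) (nat_lit 5) (nat_lit 566) (nat_lit 5) (nat_lit 397) (nat_lit 386) (nat_lit 357)) (XT.lf (nat_lit 0) (nat_lit 1350008170) (nat_lit 760) (nat_lit 5235383502) (nat_lit 836) (nat_lit 166697076) (nat_lit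 547) (nat_lit 5) (nat_lit 557) (nat_lit 5) (nat_lit 558) (nat_lit 5) (nat_lit 398) (nat_lit 386) (nat_lit 356))))) (XT.nd (nat_lit 234) (nat_lit 836) (nat_lit 0) (XT.nd (nat_lit 78) (nat_lit 836) (nat_lit 0) (XT.lf (nat_lit 0) (nat_lit 3562191399) (nat_lit 760) (nat_lit 1865771338) (nat_lit 836) (nat_lit 1352594302) (nat_lit 547) (nat_lit 5) (nat_lit 557) (nat_lit 5) (nat_lit 558) (nat_lit 5) (nat_lit 399) (nat_lit 386) (nat_lit 355)) (XT.nd (nat_lit 78) (nat_lit 836) (nat_lit 0) (XT.lf (nat_lit 76) (nat_lit 1558139255) (nat_lit 0) (nat_lit 4217877785) (nat_lit 836) (nat_lit 1034507768) (nat_lit 548) (nat_lit 5) (nat_lit 547) (nat_lit 5) (nat_lit 558) (nat_lit 5) (nat_lit 400) (nat_lit 386) (nat_lit 354)) (XT.lf (nat_lit 0) (nat_lit 1137664149) (nat_lit 836) (nat_lit 1806930142) (nat_lit 912) (nat_lit 3897212104) (nat_lit 536) (nat_lit 5) (nat_lit 547) (nat_lit 5) (nat_lit 548) (nat_lit 5) (nat_lit 401)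 (nat_lit 386) (nat_lit 353)))) (XT.nd (nat_lit 156) (nat_lit 836) (nat_lit 0) (XT.nd (nat_lit 78) (nat_lit 0) (nat_lit 0) (XT.lf (nat_lit 76) (nat_lit 1689328534) (nat_lit 0) (nat_lit 1609786408) (nat_lit 912) (nat_lit 3575341744) (nat_lit 537) (nat_lit 5) (nat_lit 536) (nat_lit 5) (nat_lit 548) (nat_lit 5) (nat_lit 402) (nat_lit 386) (nat_lit 352)) (XT.lf (nat_lit 76) (nat_lit 5246814959) (nat_lit 0) (nat_lit 218601811) (nat_lit 912) (nat_lit 1443182912) (nat_lit 537) (nat_lit 5) (nat_lit 536) (nat_lit 5) (nat_lit 548) (nat_lit 5) (nat_lit 403) (nat_lit 386) (nat_lit 351))) (XT.nd (nat_lit 78) (nat_lit 0) (nat_lit 0) (XT.lf (nat_lit 0) (nat_lit 692589295) (nat_lit 912) (nat_lit 5032991668) (nat_lit 76) (nat_lit 1218407601) (nat_lit 525) (nat_lit 5) (nat_lit 537) (nat_lit 5) (nat_lit 526) (nat_lit 5) (nat_lit 404) (nat_lit 386) (nat_lit 350)) (XT.lf (nat_lit 0) (nat_lit 2815401441) (nat_lit 912) (nat_lit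 1447390333) (nat_lit 76) (nat_lit 2717897664) (nat_lit 525) (nat_lit 5) (nat_lit 537) (nat_lit 5) (nat_lit 526) (nat_lit 5) (nat_lit 405) (nat_lit 386) (nat_lit 349))))))) (XT.nd (nat_lit 1092) (nat_lit 9196) (nat_lit 0) (XT.nd (nat_lit 546) (nat_lit 5472) (nat_lit 0) (XT.nd (nat_lit 234) (nat_lit 2280) (nat_lit 0) (XT.nd (nat_lit 78) (nat_lit 1064) (nat_lit 0) (XT.lf (nat_lit 0) (nat_lit 2205307633) (nat_lit 912) (nat_lit 2741599787) (nat_lit 988) (nat_lit 2071958806) (nat_lit 513) (nat_lit 5) (nat_lit 525) (nat_lit 5) (nat_lit 526) (nat_lit 5) (nat_lit 406) (nat_lit 386) (nat_lit 348)) (XT.nd (nat_lit 78) (nat_lit 988) (nat_lit 0) (XT.lf (nat_lit 0) (nat_lit 24452300) (nat_lit 988) (nat_lit 1141424028) (nat_lit 76) (nat_lit 5892745174) (nat_lit 512) (nat_lit 5) (nat_lit 525) (nat_lit 5) (nat_lit 513) (nat_lit 5) (nat_lit 407) (nat_lit 386) (nat_lit 347)) (XT.lf (nat_lit 0) (nat_lit 2108255697) (nat_lit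 1064) (nat_lit 4511650168) (nat_lit 76) (nat_lit 479590756) (nat_lit 499) (nat_lit 5) (nat_lit 513) (nat_lit 5) (nat_lit 500) (nat_lit 5) (nat_lit 408) (nat_lit 386) (nat_lit 346)))) (XT.nd (nat_lit 156) (nat_lit 1216) (nat_lit 0) (XT.nd (nat_lit 78) (nat_lit 1064) (nat_lit 0) (XT.lf (nat_lit 0) (nat_lit 4203156679) (nat_lit 1064) (nat_lit 775830551) (nat_lit 76) (nat_lit 2162875153) (nat_lit 499) (nat_lit 5) (nat_lit 513) (nat_lit 5) (nat_lit 500) (nat_lit 5) (nat_lit 409) (nat_lit 386) (nat_lit 345)) (XT.lf (nat_lit 0) (nat_lit 3041062692) (nat_lit 1064) (nat_lit 3273529937) (nat_lit 1140) (nat_lit 871050456) (nat_lit 485) (nat_lit 5) (nat_lit 499) (nat_lit 5) (nat_lit 500) (nat_lit 5) (nat_lit 410) (nat_lit 386) (nat_lit 344))) (XT.nd (nat_lit 78) (nat_lit 1140) (nat_lit 0) (XT.lf (nat_lit 0) (nat_lit 1182170430) (nat_lit 1140) (nat_lit 327416573) (nat_lit 76) (nat_lit 5721400692) (nat_lit 484) (nat_lit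 5) (nat_lit 499) (nat_lit 5) (nat_lit 485) (nat_lit 5) (nat_lit 411) (nat_lit 386) (nat_lit 343)) (XT.lf (nat_lit 0) (nat_lit 3246234874) (nat_lit 1216) (nat_lit 3705835594) (nat_lit 76) (nat_lit 325481609) (nat_lit 469) (nat_lit 5) (nat_lit 485) (nat_lit 5) (nat_lit 470) (nat_lit 5) (nat_lit 412) (nat_lit 386) (nat_lit 342))))) (XT.nd (nat_lit 234) (nat_lit 2888) (nat_lit 0) (XT.nd (nat_lit 78) (nat_lit 1368) (nat_lit 0) (XT.lf (nat_lit 0) (nat_lit 186640677) (nat_lit 1216) (nat_lit 5135159311) (nat_lit 1292) (nat_lit 2003899138) (nat_lit 453) (nat_lit 5) (nat_lit 469) (nat_lit 5) (nat_lit 470) (nat_lit 5) (nat_lit 413) (nat_lit 386) (nat_lit 341)) (XT.nd (nat_lit 78) (nat_lit 1292) (nat_lit 0) (XT.lf (nat_lit 0) (nat_lit 45349950) (nat_lit 1292) (nat_lit 3202154067) (nat_lit 76) (nat_lit 4127707924) (nat_lit 452) (nat_lit 5) (nat_lit 469) (nat_lit 5) (nat_lit 453) (nat_lit 5) (nat_lit 414) (nat_lit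 386) (nat_lit 340)) (XT.lf (nat_lit 0) (nat_lit 776617033) (nat_lit 1292) (nat_lit 1295133662) (nat_lit 1368) (nat_lit 5354491972) (nat_lit 435) (nat_lit 5) (nat_lit 452) (nat_lit 5) (nat_lit 453) (nat_lit 5) (nat_lit 415) (nat_lit 386) (nat_lit 339)))) (XT.nd (nat_lit 156) (nat_lit 1520) (nat_lit 0) (XT.nd (nat_lit 78) (nat_lit 1368) (nat_lit 0) (XT.lf (nat_lit 0) (nat_lit 4123420362) (nat_lit 1368) (nat_lit 2638653434) (nat_lit 76) (nat_lit 716576915) (nat_lit 435) (nat_lit 5) (nat_lit 453) (nat_lit 5) (nat_lit 436) (nat_lit 5) (nat_lit 416) (nat_lit 386) (nat_lit 338)) (XT.lf (nat_lit 0) (nat_lit 1428881856) (nat_lit 1368) (nat_lit 4764497546) (nat_lit 1444) (nat_lit 1339232902) (nat_lit 417) (nat_lit 5) (nat_lit 435) (nat_lit 5) (nat_lit 436) (nat_lit 5) (nat_lit 417) (nat_lit 386) (nat_lit 337))) (XT.nd (nat_lit 78) (nat_lit 1444) (nat_lit 0) (XT.lf (nat_lit 0) (nat_lit 685169513) (nat_lit 1444)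 (nat_lit 2012717979) (nat_lit 76) (nat_lit 4890171276) (nat_lit 416) (nat_lit 5) (nat_lit 435) (nat_lit 5) (nat_lit 417) (nat_lit 5) (nat_lit 418) (nat_lit 386) (nat_lit 336)) (XT.lf (nat_lit 0) (nat_lit 2145878019) (nat_lit 1444) (nat_lit 560655418) (nat_lit 1520) (nat_lit 4938463158) (nat_lit 397) (nat_lit 5) (nat_lit 416) (nat_lit 5) (nat_lit 417) (nat_lit 5) (nat_lit 419) (nat_lit 386) (nat_lit 335)))))) (XT.nd (nat_lit 546) (nat_lit 3268) (nat_lit 0) (XT.nd (nat_lit 234) (nat_lit 4332) (nat_lit 0) (XT.nd (nat_lit 78) (nat_lit 1596) (nat_lit 0) (XT.lf (nat_lit 0) (nat_lit 4753486939) (nat_lit 1520) (nat_lit 1332631393) (nat_lit 76) (nat_lit 1617298264) (nat_lit 397) (nat_lit 5) (nat_lit 417) (nat_lit 5) (nat_lit 398) (nat_lit 5) (nat_lit 420) (nat_lit 386) (nat_lit 334)) (XT.nd (nat_lit 78) (nat_lit 76) (nat_lit 0) (XT.lf (nat_lit 0) (nat_lit 2918261750) (nat_lit 1520) (nat_lit 3907594418) (nat_lit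 1596) (nat_lit 937505044) (nat_lit 377) (nat_lit 5) (nat_lit 397) (nat_lit 5) (nat_lit 398) (nat_lit 5) (nat_lit 421) (nat_lit 386) (nat_lit 333)) (XT.lf (nat_lit 0) (nat_lit 1071599848) (nat_lit 1596) (nat_lit 593200877) (nat_lit 76) (nat_lit 6160182010) (nat_lit 376) (nat_lit 5) (nat_lit 397) (nat_lit 5) (nat_lit 377) (nat_lit 5) (nat_lit 422) (nat_lit 386) (nat_lit 332)))) (XT.nd (nat_lit 156) (nat_lit 1064) (nat_lit 0) (XT.nd (nat_lit 78) (nat_lit 1672) (nat_lit 0) (XT.lf (nat_lit 0) (nat_lit 3099788597) (nat_lit 1672) (nat_lit 4138678031) (nat_lit 76) (nat_lit 649460133) (nat_lit 355) (nat_lit 5) (nat_lit 377) (nat_lit 5) (nat_lit 356) (nat_lit 5) (nat_lit 423) (nat_lit 386) (nat_lit 331)) (XT.lf (nat_lit 0) (nat_lit 192276924) (nat_lit 1672) (nat_lit 4955884335) (nat_lit 1748) (nat_lit 2804418271) (nat_lit 333) (nat_lit 5) (nat_lit 355) (nat_lit 5) (nat_lit 356) (nat_lit 5) (nat_lit 424) (nat_lit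 386) (nat_lit 330))) (XT.nd (nat_lit 78) (nat_lit 1064) (nat_lit 0) (XT.lf (nat_lit 0) (nat_lit 4632442207) (nat_lit 1672) (nat_lit 2596672667) (nat_lit 1748) (nat_lit 789619645) (nat_lit 333) (nat_lit 5) (nat_lit 355) (nat_lit 5) (nat_lit 356) (nat_lit 5) (nat_lit 425) (nat_lit 386) (nat_lit 329)) (XT.lf (nat_lit 0) (nat_lit 1047350894) (nat_lit 988) (nat_lit 172602159) (nat_lit 1064) (nat_lit 6866713554) (nat_lit 319) (nat_lit 5) (nat_lit 332) (nat_lit 5) (nat_lit 333) (nat_lit 5) (nat_lit 426) (nat_lit 386) (nat_lit 328))))) (XT.nd (nat_lit 234) (nat_lit 2432) (nat_lit 0) (XT.nd (nat_lit 78) (nat_lit 836) (nat_lit 0) (XT.lf (nat_lit 0) (nat_lit 3261734970) (nat_lit 1064) (nat_lit 2594151457) (nat_lit 76) (nat_lit 2299953752) (nat_lit 319) (nat_lit 5) (nat_lit 333) (nat_lit 5) (nat_lit 320) (nat_lit 5) (nat_lit 427) (nat_lit 386) (nat_lit 327)) (XT.nd (nat_lit 78) (nat_lit 0) (nat_lit 0) (XT.lf (nat_lit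 0) (nat_lit 1930856267) (nat_lit 836) (nat_lit 3392640222) (nat_lit 912) (nat_lit 2903356135) (nat_lit 308) (nat_lit 5) (nat_lit 319) (nat_lit 5) (nat_lit 320) (nat_lit 5) (nat_lit 428) (nat_lit 386) (nat_lit 326)) (XT.lf (nat_lit 0) (nat_lit 6548506956) (nat_lit 836) (nat_lit 861321678) (nat_lit 912) (nat_lit 889827506) (nat_lit 308) (nat_lit 5) (nat_lit 319) (nat_lit 5) (nat_lit 320) (nat_lit 5) (nat_lit 429) (nat_lit 386) (nat_lit 325)))) (XT.nd (nat_lit 156) (nat_lit 1520) (nat_lit 0) (XT.nd (nat_lit 78) (nat_lit 0) (nat_lit 0) (XT.lf (nat_lit 0) (nat_lit 1145106158) (nat_lit 912) (nat_lit 5503472506) (nat_lit 76) (nat_lit 1725293984) (nat_lit 296) (nat_lit 5) (nat_lit 308) (nat_lit 5) (nat_lit 297) (nat_lit 5) (nat_lit 430) (nat_lit 386) (nat_lit 324)) (XT.lf (nat_lit 0) (nat_lit 3193157579) (nat_lit 912) (nat_lit 886240291) (nat_lit 76) (nat_lit 4370406670) (nat_lit 296) (nat_lit 5) (nat_lit 308)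 (nat_lit 5) (nat_lit 297) (nat_lit 5) (nat_lit 431) (nat_lit 386) (nat_lit 323))) (XT.nd (nat_lit 78) (nat_lit 760) (nat_lit 0) (XT.lf (nat_lit 0) (nat_lit 3841021337) (nat_lit 760) (nat_lit 1433527995) (nat_lit 836) (nat_lit 3252892822) (nat_lit 286) (nat_lit 5) (nat_lit 296) (nat_lit 5) (nat_lit 297) (nat_lit 5) (nat_lit 432) (nat_lit 386) (nat_lit 322)) (XT.lf (nat_lit 0) (nat_lit 27281116) (nat_lit 760) (nat_lit 7352532529) (nat_lit 836) (nat_lit 1227207972) (nat_lit 276) (nat_lit 5) (nat_lit 286) (nat_lit 5) (nat_lit 287) (nat_lit 5) (nat_lit 433) (nat_lit 386) (nat_lit 321))))))))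
noncomputable def xc119 : XT := (XT.nd (nat_lit 2106) (nat_lit 5700) (nat_lit 0) (XT.nd (nat_lit 1014) (nat_lit 4028) (nat_lit 0) (XT.nd (nat_lit 468) (nat_lit 2660) (nat_lit 0) (XT.nd (nat_lit 234) (nat_lit 1520) (nat_lit 0) (XT.nd (nat_lit 78) (nat_lit 684) (nat_lit 0) (XT.lf (nat_lit 0) (nat_lit 837176733) (nat_lit 836) (nat_lit 3837319609) (nat_lit 76) (nat_lit 4013436260) (nat_lit 275) (nat_lit 5) (nat_lit 286) (nat_lit 5) (nat_lit 276) (nat_lit 5) (nat_lit 434) (nat_lit 386) (nat_lit 320)) (XT.nd (nat_lit 78) (nat_lit 0) (nat_lit 0) (XT.lf (nat_lit 0) (nat_lit 971833413) (nat_lit 684) (nat_lit 1929574720) (nat_lit 760) (nat_lit 5869423641) (nat_lit 266) (nat_lit 5) (nat_lit 275) (nat_lit 5) (nat_lit 276) (nat_lit 5) (nat_lit 435) (nat_lit 386) (nat_lit 319)) (XT.lf (nat_lit 0) (nat_lit 5007554441) (nat_lit 760) (nat_lit 2964668482) (nat_lit 76) (nat_lit 883184805) (nat_lit 266) (nat_lit 5) (nat_lit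 276) (nat_lit 5) (nat_lit 267) (nat_lit 5) (nat_lit 436) (nat_lit 386) (nat_lit 318)))) (XT.nd (nat_lit 78) (nat_lit 760) (nat_lit 0) (XT.lf (nat_lit 0) (nat_lit 1946590226) (nat_lit 760) (nat_lit 5204316430) (nat_lit 836) (nat_lit 1790897672) (nat_lit 256) (nat_lit 5) (nat_lit 266) (nat_lit 5) (nat_lit 267) (nat_lit 5) (nat_lit 437) (nat_lit 386) (nat_lit 317)) (XT.nd (nat_lit 78) (nat_lit 684) (nat_lit 0) (XT.lf (nat_lit 0) (nat_lit 293017115) (nat_lit 836) (nat_lit 2068122044) (nat_lit 76) (nat_lit 6668982423) (nat_lit 255) (nat_lit 5) (nat_lit 266) (nat_lit 5) (nat_lit 256) (nat_lit 5) (nat_lit 438) (nat_lit 386) (nat_lit 316)) (XT.lf (nat_lit 0) (nat_lit 2387923350) (nat_lit 760) (nat_lit 6171606204) (nat_lit 76) (nat_lit 560602015) (nat_lit 246) (nat_lit 5) (nat_lit 256) (nat_lit 5) (nat_lit 247) (nat_lit 5) (nat_lit 439) (nat_lit 386) (nat_lit 315))))) (XT.nd (nat_lit 234) (nat_lit 1976) (nat_lit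 0) (XT.nd (nat_lit 78) (nat_lit 684) (nat_lit 0) (XT.lf (nat_lit 0) (nat_lit 4525104861) (nat_lit 760) (nat_lit 1166321541) (nat_lit 76) (nat_lit 3520536254) (nat_lit 246) (nat_lit 5) (nat_lit 256) (nat_lit 5) (nat_lit 247) (nat_lit 5) (nat_lit 440) (nat_lit 386) (nat_lit 314)) (XT.nd (nat_lit 78) (nat_lit 0) (nat_lit 0) (XT.lf (nat_lit 0) (nat_lit 3959162154) (nat_lit 684) (nat_lit 2742916854) (nat_lit 760) (nat_lit 2603638260) (nat_lit 237) (nat_lit 5) (nat_lit 246) (nat_lit 5) (nat_lit 247) (nat_lit 5) (nat_lit 441) (nat_lit 386) (nat_lit 313)) (XT.lf (nat_lit 0) (nat_lit 8903867328) (nat_lit 760) (nat_lit 232188802) (nat_lit 76) (nat_lit 265692688) (nat_lit 237) (nat_lit 5) (nat_lit 247) (nat_lit 5) (nat_lit 238) (nat_lit 5) (nat_lit 442) (nat_lit 386) (nat_lit 312)))) (XT.nd (nat_lit 156) (nat_lit 608) (nat_lit 0) (XT.nd (nat_lit 78) (nat_lit 684) (nat_lit 0) (XT.lf (nat_lit 0) (nat_lit 1651339680)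 (nat_lit 684) (nat_lit 4509817584) (nat_lit 76) (nat_lit 3337895972) (nat_lit 228) (nat_lit 5) (nat_lit 237) (nat_lit 5) (nat_lit 229) (nat_lit 5) (nat_lit 443) (nat_lit 386) (nat_lit 311)) (XT.lf (nat_lit 0) (nat_lit 694009702) (nat_lit 684) (nat_lit 3121316699) (nat_lit 760) (nat_lit 5783368325) (nat_lit 219) (nat_lit 5) (nat_lit 228) (nat_lit 5) (nat_lit 229) (nat_lit 5) (nat_lit 444) (nat_lit 386) (nat_lit 310))) (XT.nd (nat_lit 78) (nat_lit 608) (nat_lit 0) (XT.lf (nat_lit 0) (nat_lit 6025598889) (nat_lit 760) (nat_lit 3668827600) (nat_lit 76) (nat_lit 5867695) (nat_lit 219) (nat_lit 5) (nat_lit 229) (nat_lit 5) (nat_lit 220) (nat_lit 5) (nat_lit 445) (nat_lit 386) (nat_lit 309)) (XT.lf (nat_lit 0) (nat_lit 1641146045) (nat_lit 608) (nat_lit 6643469538) (nat_lit 684) (nat_lit 1519244032) (nat_lit 211) (nat_lit 5) (nat_lit 219) (nat_lit 5) (nat_lit 220) (nat_lit 5) (nat_lit 446) (nat_lit 386) (nat_lit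 308)))))) (XT.nd (nat_lit 546) (nat_lit 2128) (nat_lit 0) (XT.nd (nat_lit 234) (nat_lit 1216) (nat_lit 0) (XT.nd (nat_lit 78) (nat_lit 608) (nat_lit 0) (XT.lf (nat_lit 0) (nat_lit 668525235) (nat_lit 684) (nat_lit 2838151595) (nat_lit 76) (nat_lit 6402792747) (nat_lit 210) (nat_lit 5) (nat_lit 219) (nat_lit 5) (nat_lit 211) (nat_lit 5) (nat_lit 447) (nat_lit 386) (nat_lit 307)) (XT.nd (nat_lit 78) (nat_lit 0) (nat_lit 0) (XT.lf (nat_lit 0) (nat_lit 2585747944) (nat_lit 608) (nat_lit 284625031) (nat_lit 684) (nat_lit 7146827936) (nat_lit 202) (nat_lit 5) (nat_lit 210) (nat_lit 5) (nat_lit 211) (nat_lit 5) (nat_lit 448) (nat_lit 386) (nat_lit 306)) (XT.lf (nat_lit 0) (nat_lit 5129058087) (nat_lit 684) (nat_lit 2021033042) (nat_lit 76) (nat_lit 2976762611) (nat_lit 202) (nat_lit 5) (nat_lit 211) (nat_lit 5) (nat_lit 203) (nat_lit 5) (nat_lit 449) (nat_lit 386) (nat_lit 305)))) (XT.nd (nat_lit 156) (nat_lit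 684) (nat_lit 0) (XT.nd (nat_lit 78) (nat_lit 0) (nat_lit 0) (XT.lf (nat_lit 0) (nat_lit 3511064274) (nat_lit 532) (nat_lit 3921179480) (nat_lit 608) (nat_lit 2806491760) (nat_lit 195) (nat_lit 5) (nat_lit 202) (nat_lit 5) (nat_lit 203) (nat_lit 5) (nat_lit 450) (nat_lit 386) (nat_lit 304)) (XT.lf (nat_lit 0) (nat_lit 9150706796) (nat_lit 532) (nat_lit 619293463) (nat_lit 608) (nat_lit 583106511) (nat_lit 195) (nat_lit 5) (nat_lit 202) (nat_lit 5) (nat_lit 203) (nat_lit 5) (nat_lit 451) (nat_lit 386) (nat_lit 303))) (XT.nd (nat_lit 78) (nat_lit 0) (nat_lit 0) (XT.lf (nat_lit 0) (nat_lit 1684873005) (nat_lit 684) (nat_lit 6036995231) (nat_lit 76) (nat_lit 2747255130) (nat_lit 186) (nat_lit 5) (nat_lit 195) (nat_lit 5) (nat_lit 187) (nat_lit 5) (nat_lit 452) (nat_lit 386) (nat_lit 302)) (XT.lf (nat_lit 0) (nat_lit 3978141217) (nat_lit 684) (nat_lit 430188730) (nat_lit 76) (nat_lit 6179319241) (nat_lit 186)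 (nat_lit 5) (nat_lit 195) (nat_lit 5) (nat_lit 187) (nat_lit 5) (nat_lit 453) (nat_lit 386) (nat_lit 301))))) (XT.nd (nat_lit 234) (nat_lit 988) (nat_lit 0) (XT.nd (nat_lit 78) (nat_lit 608) (nat_lit 0) (XT.lf (nat_lit 0) (nat_lit 5328720321) (nat_lit 532) (nat_lit 999138481) (nat_lit 608) (nat_lit 4380495359) (nat_lit 179) (nat_lit 5) (nat_lit 186) (nat_lit 5) (nat_lit 187) (nat_lit 5) (nat_lit 454) (nat_lit 386) (nat_lit 300)) (XT.nd (nat_lit 78) (nat_lit 76) (nat_lit 0) (XT.lf (nat_lit 0) (nat_lit 335332240) (nat_lit 532) (nat_lit 8386637376) (nat_lit 608) (nat_lit 2109575553) (nat_lit 172) (nat_lit 5) (nat_lit 179) (nat_lit 5) (nat_lit 180) (nat_lit 5) (nat_lit 455) (nat_lit 386) (nat_lit 299)) (XT.lf (nat_lit 0) (nat_lit 223328982) (nat_lit 608) (nat_lit 4757471190) (nat_lit 76) (nat_lit 5976006556) (nat_lit 171) (nat_lit 5) (nat_lit 179) (nat_lit 5) (nat_lit 172) (nat_lit 5) (nat_lit 456) (nat_lit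 386) (nat_lit 298)))) (XT.nd (nat_lit 156) (nat_lit 532) (nat_lit 0) (XT.nd (nat_lit 78) (nat_lit 0) (nat_lit 0) (XT.lf (nat_lit 0) (nat_lit 1066339462) (nat_lit 456) (nat_lit 1492040996) (nat_lit 532) (nat_lit 8526258218) (nat_lit 165) (nat_lit 5) (nat_lit 171) (nat_lit 5) (nat_lit 172) (nat_lit 5) (nat_lit 457) (nat_lit 386) (nat_lit 297)) (XT.lf (nat_lit 0) (nat_lit 4962693638) (nat_lit 532) (nat_lit 4186861773) (nat_lit 76) (nat_lit 2065039038) (nat_lit 165) (nat_lit 5) (nat_lit 172) (nat_lit 5) (nat_lit 166) (nat_lit 5) (nat_lit 458) (nat_lit 386) (nat_lit 296))) (XT.nd (nat_lit 78) (nat_lit 0) (nat_lit 0) (XT.lf (nat_lit 0) (nat_lit 1744834977) (nat_lit 532) (nat_lit 5668925704) (nat_lit 608) (nat_lit 3933433340) (nat_lit 158) (nat_lit 5) (nat_lit 165) (nat_lit 5) (nat_lit 166) (nat_lit 5) (nat_lit 459) (nat_lit 386) (nat_lit 295)) (XT.lf (nat_lit 0) (nat_lit 7822740716) (nat_lit 532) (nat_lit 2096914857)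 (nat_lit 608) (nat_lit 1562691565) (nat_lit 158) (nat_lit 5) (nat_lit 165) (nat_lit 5) (nat_lit 166) (nat_lit 5) (nat_lit 460) (nat_lit 386) (nat_lit 294))))))) (XT.nd (nat_lit 1092) (nat_lit 2508) (nat_lit 0) (XT.nd (nat_lit 546) (nat_lit 1216) (nat_lit 0) (XT.nd (nat_lit 234) (nat_lit 988) (nat_lit 0) (XT.nd (nat_lit 78) (nat_lit 456) (nat_lit 0) (XT.lf (nat_lit 0) (nat_lit 847943270) (nat_lit 532) (nat_lit 9231380399) (nat_lit 76) (nat_lit 1540711604) (nat_lit 151) (nat_lit 5) (nat_lit 158) (nat_lit 5) (nat_lit 152) (nat_lit 5) (nat_lit 461) (nat_lit 386) (nat_lit 293)) (XT.nd (nat_lit 78) (nat_lit 456) (nat_lit 0) (XT.lf (nat_lit 0) (nat_lit 3302678954) (nat_lit 532) (nat_lit 3206029144) (nat_lit 76) (nat_lit 5251242898) (nat_lit 151) (nat_lit 5) (nat_lit 158) (nat_lit 5) (nat_lit 152) (nat_lit 5) (nat_lit 462) (nat_lit 386) (nat_lit 292)) (XT.lf (nat_lit 0) (nat_lit 2949956566) (nat_lit 456) (nat_lit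 2854319251) (nat_lit 532) (nat_lit 6098450222) (nat_lit 145) (nat_lit 5) (nat_lit 151) (nat_lit 5) (nat_lit 152) (nat_lit 5) (nat_lit 463) (nat_lit 386) (nat_lit 291)))) (XT.nd (nat_lit 156) (nat_lit 532) (nat_lit 0) (XT.nd (nat_lit 78) (nat_lit 456) (nat_lit 0) (XT.lf (nat_lit 0) (nat_lit 8362031977) (nat_lit 532) (nat_lit 2809983366) (nat_lit 76) (nat_lit 876234710) (nat_lit 145) (nat_lit 5) (nat_lit 152) (nat_lit 5) (nat_lit 146) (nat_lit 5) (nat_lit 464) (nat_lit 386) (nat_lit 290)) (XT.lf (nat_lit 0) (nat_lit 3453851582) (nat_lit 456) (nat_lit 7537636424) (nat_lit 532) (nat_lit 1204801348) (nat_lit 139) (nat_lit 5) (nat_lit 145) (nat_lit 5) (nat_lit 146) (nat_lit 5) (nat_lit 465) (nat_lit 386) (nat_lit 289))) (XT.nd (nat_lit 78) (nat_lit 456) (nat_lit 0) (XT.lf (nat_lit 0) (nat_lit 1307122681) (nat_lit 532) (nat_lit 2502901496) (nat_lit 76) (nat_lit 8537142682) (nat_lit 138) (nat_lit 5) (nat_lit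 145) (nat_lit 5) (nat_lit 139) (nat_lit 5) (nat_lit 466) (nat_lit 386) (nat_lit 288)) (XT.lf (nat_lit 0) (nat_lit 3858154748) (nat_lit 532) (nat_lit 8624403480) (nat_lit 76) (nat_lit 18259172) (nat_lit 132) (nat_lit 5) (nat_lit 139) (nat_lit 5) (nat_lit 133) (nat_lit 5) (nat_lit 467) (nat_lit 386) (nat_lit 287))))) (XT.nd (nat_lit 234) (nat_lit 836) (nat_lit 0) (XT.nd (nat_lit 78) (nat_lit 380) (nat_lit 0) (XT.lf (nat_lit 0) (nat_lit 6482214501) (nat_lit 532) (nat_lit 2293241786) (nat_lit 76) (nat_lit 3881659029) (nat_lit 132) (nat_lit 5) (nat_lit 139) (nat_lit 5) (nat_lit 133) (nat_lit 5) (nat_lit 468) (nat_lit 386) (nat_lit 286)) (XT.nd (nat_lit 78) (nat_lit 0) (nat_lit 0) (XT.lf (nat_lit 0) (nat_lit 4192134817) (nat_lit 380) (nat_lit 4974101577) (nat_lit 456) (nat_lit 3650167400) (nat_lit 127) (nat_lit 5) (nat_lit 132) (nat_lit 5) (nat_lit 133) (nat_lit 5) (nat_lit 469) (nat_lit 386) (nat_lit 285))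 (XT.lf (nat_lit 0) (nat_lit 10811095711) (nat_lit 380) (nat_lit 1088705043) (nat_lit 456) (nat_lit 1079173989) (nat_lit 127) (nat_lit 5) (nat_lit 132) (nat_lit 5) (nat_lit 133) (nat_lit 5) (nat_lit 470) (nat_lit 386) (nat_lit 284)))) (XT.nd (nat_lit 156) (nat_lit 380) (nat_lit 0) (XT.nd (nat_lit 78) (nat_lit 0) (nat_lit 0) (XT.lf (nat_lit 0) (nat_lit 1551405418) (nat_lit 456) (nat_lit 8724398470) (nat_lit 76) (nat_lit 2868238113) (nat_lit 121) (nat_lit 5) (nat_lit 127) (nat_lit 5) (nat_lit 122) (nat_lit 5) (nat_lit 471) (nat_lit 386) (nat_lit 283)) (XT.lf (nat_lit 0) (nat_lit 4222883893) (nat_lit 456) (nat_lit 2185382553) (nat_lit 76) (nat_lit 6903959876) (nat_lit 121) (nat_lit 5) (nat_lit 127) (nat_lit 5) (nat_lit 122) (nat_lit 5) (nat_lit 472) (nat_lit 386) (nat_lit 282))) (XT.nd (nat_lit 78) (nat_lit 0) (nat_lit 0) (XT.lf (nat_lit 0) (nat_lit 4517075086) (nat_lit 380) (nat_lit 2441289986) (nat_lit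 456) (nat_lit 6525210677) (nat_lit 116) (nat_lit 5) (nat_lit 121) (nat_lit 5) (nat_lit 122) (nat_lit 5) (nat_lit 473) (nat_lit 386) (nat_lit 281)) (XT.lf (nat_lit 0) (nat_lit 9755129584) (nat_lit 456) (nat_lit 2312110381) (nat_lit 76) (nat_lit 1590993352) (nat_lit 116) (nat_lit 5) (nat_lit 122) (nat_lit 5) (nat_lit 117) (nat_lit 5) (nat_lit 474) (nat_lit 386) (nat_lit 280)))))) (XT.nd (nat_lit 546) (nat_lit 988) (nat_lit 0) (XT.nd (nat_lit 234) (nat_lit 760) (nat_lit 0) (XT.nd (nat_lit 78) (nat_lit 380) (nat_lit 0) (XT.lf (nat_lit 0) (nat_lit 4491897740) (nat_lit 380) (nat_lit 8143019029) (nat_lit 456) (nat_lit 1200937903) (nat_lit 111) (nat_lit 5) (nat_lit 116) (nat_lit 5) (nat_lit 117) (nat_lit 5) (nat_lit 475) (nat_lit 386) (nat_lit 279)) (XT.nd (nat_lit 78) (nat_lit 304) (nat_lit 0) (XT.lf (nat_lit 0) (nat_lit 1532304428) (nat_lit 456) (nat_lit 2589887126) (nat_lit 76) (nat_lit 9894698227) (nat_lit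 110) (nat_lit 5) (nat_lit 116) (nat_lit 5) (nat_lit 111) (nat_lit 5) (nat_lit 476) (nat_lit 386) (nat_lit 278)) (XT.lf (nat_lit 0) (nat_lit 4314428914) (nat_lit 380) (nat_lit 9879027014) (nat_lit 76) (nat_lit 7736609) (nat_lit 106) (nat_lit 5) (nat_lit 111) (nat_lit 5) (nat_lit 107) (nat_lit 5) (nat_lit 477) (nat_lit 386) (nat_lit 277)))) (XT.nd (nat_lit 156) (nat_lit 380) (nat_lit 0) (XT.nd (nat_lit 78) (nat_lit 380) (nat_lit 0) (XT.lf (nat_lit 0) (nat_lit 7179290648) (nat_lit 380) (nat_lit 3034605452) (nat_lit 76) (nat_lit 4174754790) (nat_lit 106) (nat_lit 5) (nat_lit 111) (nat_lit 5) (nat_lit 107) (nat_lit 5) (nat_lit 478) (nat_lit 386) (nat_lit 276)) (XT.lf (nat_lit 0) (nat_lit 3973401568) (nat_lit 380) (nat_lit 6136493923) (nat_lit 456) (nat_lit 4469805218) (nat_lit 101) (nat_lit 5) (nat_lit 106) (nat_lit 5) (nat_lit 107) (nat_lit 5) (nat_lit 479) (nat_lit 386) (nat_lit 275))) (XT.nd (nat_lit 78)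 (nat_lit 380) (nat_lit 0) (XT.lf (nat_lit 0) (nat_lit 11137455961) (nat_lit 380) (nat_lit 1964844499) (nat_lit 456) (nat_lit 1672218296) (nat_lit 101) (nat_lit 5) (nat_lit 106) (nat_lit 5) (nat_lit 107) (nat_lit 5) (nat_lit 480) (nat_lit 386) (nat_lit 274)) (XT.lf (nat_lit 0) (nat_lit 1186508578) (nat_lit 380) (nat_lit 11503394355) (nat_lit 76) (nat_lit 2282773772) (nat_lit 96) (nat_lit 5) (nat_lit 101) (nat_lit 5) (nat_lit 97) (nat_lit 5) (nat_lit 481) (nat_lit 386) (nat_lit 273))))) (XT.nd (nat_lit 234) (nat_lit 684) (nat_lit 0) (XT.nd (nat_lit 78) (nat_lit 304) (nat_lit 0) (XT.lf (nat_lit 0) (nat_lit 4100778458) (nat_lit 380) (nat_lit 4456620235) (nat_lit 76) (nat_lit 6616773223) (nat_lit 96) (nat_lit 5) (nat_lit 101) (nat_lit 5) (nat_lit 97) (nat_lit 5) (nat_lit 482) (nat_lit 386) (nat_lit 272)) (XT.nd (nat_lit 78) (nat_lit 0) (nat_lit 0) (XT.lf (nat_lit 0) (nat_lit 2742431201) (nat_lit 304) (nat_lit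 4332196537) (nat_lit 380) (nat_lit 8305053570) (nat_lit 92) (nat_lit 5) (nat_lit 96) (nat_lit 5) (nat_lit 97) (nat_lit 5) (nat_lit 483) (nat_lit 386) (nat_lit 271)) (XT.lf (nat_lit 0) (nat_lit 10121410695) (nat_lit 304) (nat_lit 102822) (nat_lit 380) (nat_lit 5467526139) (nat_lit 92) (nat_lit 5) (nat_lit 96) (nat_lit 5) (nat_lit 97) (nat_lit 5) (nat_lit 484) (nat_lit 386) (nat_lit 270)))) (XT.nd (nat_lit 156) (nat_lit 304) (nat_lit 0) (XT.nd (nat_lit 78) (nat_lit 76) (nat_lit 0) (XT.lf (nat_lit 0) (nat_lit 1816253834) (nat_lit 304) (nat_lit 11437486298) (nat_lit 380) (nat_lit 2548366738) (nat_lit 88) (nat_lit 5) (nat_lit 92) (nat_lit 5) (nat_lit 93) (nat_lit 5) (nat_lit 485) (nat_lit 386) (nat_lit 269)) (XT.lf (nat_lit 0) (nat_lit 444447458) (nat_lit 380) (nat_lit 6726127758) (nat_lit 76) (nat_lit 8848395859) (nat_lit 87) (nat_lit 5) (nat_lit 92) (nat_lit 5) (nat_lit 88) (nat_lit 5) (nat_lit 486) (nat_lit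 386) (nat_lit 268))) (XT.nd (nat_lit 78) (nat_lit 0) (nat_lit 0) (XT.lf (nat_lit 0) (nat_lit 646546549) (nat_lit 304) (nat_lit 2804958850) (nat_lit 380) (nat_lit 12788569270) (nat_lit 83) (nat_lit 5) (nat_lit 87) (nat_lit 5) (nat_lit 88) (nat_lit 5) (nat_lit 487) (nat_lit 386) (nat_lit 267)) (XT.lf (nat_lit 0) (nat_lit 6559221013) (nat_lit 380) (nat_lit 8241806582) (nat_lit 76) (nat_lit 1663771428) (nat_lit 83) (nat_lit 5) (nat_lit 88) (nat_lit 5) (nat_lit 84) (nat_lit 5) (nat_lit 488) (nat_lit 386) (nat_lit 266))))))))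
noncomputable def xc120 : XT := (XT.nd (nat_lit 2106) (nat_lit 836) (nat_lit 0) (XT.nd (nat_lit 1014) (nat_lit 1292) (nat_lit 0) (XT.nd (nat_lit 468) (nat_lit 836) (nat_lit 0) (XT.nd (nat_lit 234) (nat_lit 608) (nat_lit 0) (XT.nd (nat_lit 78) (nat_lit 228) (nat_lit 0) (XT.lf (nat_lit 0) (nat_lit 9732355089) (nat_lit 380) (nat_lit 785115827) (nat_lit 76) (nat_lit 6176490507) (nat_lit 83) (nat_lit 5) (nat_lit 88) (nat_lit 5) (nat_lit 84) (nat_lit 5) (nat_lit 489) (nat_lit 386) (nat_lit 265)) (XT.nd (nat_lit 78) (nat_lit 0) (nat_lit 0) (XT.lf (nat_lit 0) (nat_lit 6888017581) (nat_lit 228) (nat_lit 6110644340) (nat_lit 304) (nat_lit 3928459618) (nat_lit 80) (nat_lit 5) (nat_lit 83) (nat_lit 5) (nat_lit 84) (nat_lit 5) (nat_lit 490) (nat_lit 386) (nat_lit 264)) (XT.lf (nat_lit 0) (nat_lit 14702378862) (nat_lit 228) (nat_lit 1618318871) (nat_lit 304) (nat_lit 844447565) (nat_lit 80) (nat_lit 5) (nat_lit 83)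 (nat_lit 5) (nat_lit 84) (nat_lit 5) (nat_lit 491) (nat_lit 386) (nat_lit 263)))) (XT.nd (nat_lit 78) (nat_lit 228) (nat_lit 0) (XT.lf (nat_lit 0) (nat_lit 2310294517) (nat_lit 380) (nat_lit 12129767235) (nat_lit 76) (nat_lit 2966792505) (nat_lit 75) (nat_lit 5) (nat_lit 80) (nat_lit 5) (nat_lit 76) (nat_lit 5) (nat_lit 492) (nat_lit 386) (nat_lit 262)) (XT.nd (nat_lit 78) (nat_lit 228) (nat_lit 0) (XT.lf (nat_lit 0) (nat_lit 5529599414) (nat_lit 380) (nat_lit 4487095209) (nat_lit 76) (nat_lit 7636343642) (nat_lit 75) (nat_lit 5) (nat_lit 80) (nat_lit 5) (nat_lit 76) (nat_lit 5) (nat_lit 493) (nat_lit 386) (nat_lit 261)) (XT.lf (nat_lit 0) (nat_lit 3329816909) (nat_lit 228) (nat_lit 5490790236) (nat_lit 304) (nat_lit 9083400326) (nat_lit 72) (nat_lit 5) (nat_lit 75) (nat_lit 5) (nat_lit 76) (nat_lit 5) (nat_lit 494) (nat_lit 386) (nat_lit 260))))) (XT.nd (nat_lit 234) (nat_lit 456) (nat_lit 0) (XT.nd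 (nat_lit 78) (nat_lit 380) (nat_lit 0) (XT.lf (nat_lit 0) (nat_lit 11341753141) (nat_lit 228) (nat_lit 851626728) (nat_lit 304) (nat_lit 5966304991) (nat_lit 72) (nat_lit 5) (nat_lit 75) (nat_lit 5) (nat_lit 76) (nat_lit 5) (nat_lit 495) (nat_lit 386) (nat_lit 259)) (XT.nd (nat_lit 78) (nat_lit 76) (nat_lit 0) (XT.lf (nat_lit 0) (nat_lit 1060225357) (nat_lit 304) (nat_lit 14591521076) (nat_lit 380) (nat_lit 2768374145) (nat_lit 68) (nat_lit 5) (nat_lit 72) (nat_lit 5) (nat_lit 73) (nat_lit 5) (nat_lit 496) (nat_lit 386) (nat_lit 258)) (XT.lf (nat_lit 0) (nat_lit 524831748) (nat_lit 380) (nat_lit 9527618768) (nat_lit 76) (nat_lit 8632501882) (nat_lit 67) (nat_lit 5) (nat_lit 72) (nat_lit 5) (nat_lit 68) (nat_lit 5) (nat_lit 497) (nat_lit 386) (nat_lit 257)))) (XT.nd (nat_lit 156) (nat_lit 228) (nat_lit 0) (XT.nd (nat_lit 78) (nat_lit 228) (nat_lit 0) (XT.lf (nat_lit 0) (nat_lit 3833234703) (nat_lit 380)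 (nat_lit 1578585389) (nat_lit 76) (nat_lit 13543173868) (nat_lit 67) (nat_lit 5) (nat_lit 72) (nat_lit 5) (nat_lit 68) (nat_lit 5) (nat_lit 498) (nat_lit 386) (nat_lit 256)) (XT.lf (nat_lit 0) (nat_lit 6594788138) (nat_lit 228) (nat_lit 642469456) (nat_lit 304) (nat_lit 11992596692) (nat_lit 64) (nat_lit 5) (nat_lit 67) (nat_lit 5) (nat_lit 68) (nat_lit 5) (nat_lit 499) (nat_lit 386) (nat_lit 255))) (XT.nd (nat_lit 78) (nat_lit 228) (nat_lit 0) (XT.lf (nat_lit 0) (nat_lit 10734147573) (nat_lit 304) (nat_lit 4605671219) (nat_lit 76) (nat_lit 4169904128) (nat_lit 64) (nat_lit 5) (nat_lit 68) (nat_lit 5) (nat_lit 65) (nat_lit 5) (nat_lit 500) (nat_lit 386) (nat_lit 254)) (XT.lf (nat_lit 0) (nat_lit 3606558863) (nat_lit 228) (nat_lit 10709057595) (nat_lit 304) (nat_lit 5479286350) (nat_lit 61) (nat_lit 5) (nat_lit 64) (nat_lit 5) (nat_lit 65) (nat_lit 5) (nat_lit 501) (nat_lit 386) (nat_lit 253)))))) (XT.nd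 (nat_lit 546) (nat_lit 532) (nat_lit 0) (XT.nd (nat_lit 234) (nat_lit 456) (nat_lit 0) (XT.nd (nat_lit 78) (nat_lit 304) (nat_lit 0) (XT.lf (nat_lit 0) (nat_lit 12024802818) (nat_lit 228) (nat_lit 5961909887) (nat_lit 304) (nat_lit 2098720198) (nat_lit 61) (nat_lit 5) (nat_lit 64) (nat_lit 5) (nat_lit 65) (nat_lit 5) (nat_lit 502) (nat_lit 386) (nat_lit 252)) (XT.nd (nat_lit 78) (nat_lit 0) (nat_lit 0) (XT.lf (nat_lit 0) (nat_lit 203107898) (nat_lit 228) (nat_lit 1117224161) (nat_lit 304) (nat_lit 19061501161) (nat_lit 57) (nat_lit 5) (nat_lit 60) (nat_lit 5) (nat_lit 61) (nat_lit 5) (nat_lit 503) (nat_lit 386) (nat_lit 251)) (XT.lf (nat_lit 0) (nat_lit 4846292077) (nat_lit 304) (nat_lit 12001289289) (nat_lit 76) (nat_lit 3834976345) (nat_lit 57) (nat_lit 5) (nat_lit 61) (nat_lit 5) (nat_lit 58) (nat_lit 5) (nat_lit 504) (nat_lit 386) (nat_lit 250)))) (XT.nd (nat_lit 156) (nat_lit 228) (nat_lit 0) (XT.nd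 (nat_lit 78) (nat_lit 228) (nat_lit 0) (XT.lf (nat_lit 0) (nat_lit 8437741474) (nat_lit 304) (nat_lit 3687808167) (nat_lit 76) (nat_lit 8863853718) (nat_lit 57) (nat_lit 5) (nat_lit 61) (nat_lit 5) (nat_lit 58) (nat_lit 5) (nat_lit 505) (nat_lit 386) (nat_lit 249)) (XT.lf (nat_lit 0) (nat_lit 4835652445) (nat_lit 228) (nat_lit 7284578719) (nat_lit 304) (nat_lit 9181776481) (nat_lit 54) (nat_lit 5) (nat_lit 57) (nat_lit 5) (nat_lit 58) (nat_lit 5) (nat_lit 506) (nat_lit 386) (nat_lit 248))) (XT.nd (nat_lit 78) (nat_lit 228) (nat_lit 0) (XT.lf (nat_lit 0) (nat_lit 13559990571) (nat_lit 228) (nat_lit 2329054040) (nat_lit 304) (nat_lit 5731571759) (nat_lit 54) (nat_lit 5) (nat_lit 57) (nat_lit 5) (nat_lit 58) (nat_lit 5) (nat_lit 507) (nat_lit 386) (nat_lit 247)) (XT.lf (nat_lit 0) (nat_lit 482457800) (nat_lit 228) (nat_lit 19259721015) (nat_lit 304) (nat_lit 2203245285) (nat_lit 51) (nat_lit 5) (nat_lit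 54) (nat_lit 5) (nat_lit 55) (nat_lit 5) (nat_lit 508) (nat_lit 386) (nat_lit 246))))) (XT.nd (nat_lit 234) (nat_lit 228) (nat_lit 0) (XT.nd (nat_lit 78) (nat_lit 228) (nat_lit 0) (XT.lf (nat_lit 0) (nat_lit 1435357202) (nat_lit 304) (nat_lit 13014250236) (nat_lit 76) (nat_lit 7825784541) (nat_lit 50) (nat_lit 5) (nat_lit 54) (nat_lit 5) (nat_lit 51) (nat_lit 5) (nat_lit 509) (nat_lit 386) (nat_lit 245)) (XT.nd (nat_lit 78) (nat_lit 228) (nat_lit 0) (XT.lf (nat_lit 0) (nat_lit 5105630603) (nat_lit 304) (nat_lit 4430197114) (nat_lit 76) (nat_lit 13076077613) (nat_lit 50) (nat_lit 5) (nat_lit 54) (nat_lit 5) (nat_lit 51) (nat_lit 5) (nat_lit 510) (nat_lit 386) (nat_lit 244)) (XT.lf (nat_lit 0) (nat_lit 4364100250) (nat_lit 228) (nat_lit 4502144583) (nat_lit 304) (nat_lit 14088570691) (nat_lit 47) (nat_lit 5) (nat_lit 50) (nat_lit 5) (nat_lit 51) (nat_lit 5) (nat_lit 511) (nat_lit 386) (nat_lit 243)))) (XT.nd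 (nat_lit 156) (nat_lit 228) (nat_lit 0) (XT.nd (nat_lit 78) (nat_lit 0) (nat_lit 0) (XT.lf (nat_lit 0) (nat_lit 12724758632) (nat_lit 304) (nat_lit 9932688856) (nat_lit 76) (nat_lit 646687869) (nat_lit 47) (nat_lit 5) (nat_lit 51) (nat_lit 5) (nat_lit 48) (nat_lit 5) (nat_lit 512) (nat_lit 386) (nat_lit 242)) (XT.lf (nat_lit 0) (nat_lit 16679137359) (nat_lit 304) (nat_lit 1149684045) (nat_lit 76) (nat_lit 5831251368) (nat_lit 47) (nat_lit 5) (nat_lit 51) (nat_lit 5) (nat_lit 48) (nat_lit 5) (nat_lit 513) (nat_lit 386) (nat_lit 241))) (XT.nd (nat_lit 78) (nat_lit 76) (nat_lit 0) (XT.lf (nat_lit 0) (nat_lit 7894512332) (nat_lit 152) (nat_lit 12858444920) (nat_lit 228) (nat_lit 3269369591) (nat_lit 45) (nat_lit 5) (nat_lit 47) (nat_lit 5) (nat_lit 48) (nat_lit 5) (nat_lit 514) (nat_lit 386) (nat_lit 240)) (XT.lf (nat_lit 0) (nat_lit 506539030) (nat_lit 228) (nat_lit 7277936284) (nat_lit 76) (nat_lit 16607350718)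 (nat_lit 44) (nat_lit 5) (nat_lit 47) (nat_lit 5) (nat_lit 45) (nat_lit 5) (nat_lit 515) (nat_lit 386) (nat_lit 239))))))) (XT.nd (nat_lit 49530) (nat_lit 0) (nat_lit 37316) (XT.nd (nat_lit 468) (nat_lit 456) (nat_lit 0) (XT.nd (nat_lit 234) (nat_lit 152) (nat_lit 0) (XT.nd (nat_lit 78) (nat_lit 0) (nat_lit 0) (XT.lf (nat_lit 0) (nat_lit 1732324060) (nat_lit 228) (nat_lit 2582485035) (nat_lit 304) (nat_lit 20453466187) (nat_lit 41) (nat_lit 5) (nat_lit 44) (nat_lit 5) (nat_lit 45) (nat_lit 5) (nat_lit 516) (nat_lit 386) (nat_lit 238)) (XT.nd (nat_lit 78) (nat_lit 0) (nat_lit 0) (XT.lf (nat_lit 0) (nat_lit 8255471361) (nat_lit 304) (nat_lit 14165577332) (nat_lit 76) (nat_lit 2730084889) (nat_lit 41) (nat_lit 5) (nat_lit 45) (nat_lit 5) (nat_lit 42) (nat_lit 5) (nat_lit 517) (nat_lit 386) (nat_lit 237)) (XT.lf (nat_lit 0) (nat_lit 12281639146) (nat_lit 304) (nat_lit 5152288753) (nat_lit 76) (nat_lit 8107591811)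 (nat_lit 41) (nat_lit 5) (nat_lit 45) (nat_lit 5) (nat_lit 42) (nat_lit 5) (nat_lit 518) (nat_lit 386) (nat_lit 236)))) (XT.nd (nat_lit 78) (nat_lit 0) (nat_lit 0) (XT.lf (nat_lit 0) (nat_lit 4077696057) (nat_lit 152) (nat_lit 12326903185) (nat_lit 228) (nat_lit 9534793363) (nat_lit 39) (nat_lit 5) (nat_lit 41) (nat_lit 5) (nat_lit 42) (nat_lit 5) (nat_lit 519) (nat_lit 386) (nat_lit 235)) (XT.nd (nat_lit 78) (nat_lit 0) (nat_lit 0) (XT.lf (nat_lit 0) (nat_lit 13545184105) (nat_lit 152) (nat_lit 7089293007) (nat_lit 228) (nat_lit 5710261009) (nat_lit 39) (nat_lit 5) (nat_lit 41) (nat_lit 5) (nat_lit 42) (nat_lit 5) (nat_lit 520) (nat_lit 386) (nat_lit 234)) (XT.lf (nat_lit 0) (nat_lit 23185416925) (nat_lit 152) (nat_lit 1753617969) (nat_lit 228) (nat_lit 1819358255) (nat_lit 39) (nat_lit 5) (nat_lit 41) (nat_lit 5) (nat_lit 42) (nat_lit 5) (nat_lit 521) (nat_lit 386) (nat_lit 233))))) (XT.nd (nat_lit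 234) (nat_lit 152) (nat_lit 0) (XT.nd (nat_lit 78) (nat_lit 0) (nat_lit 0) (XT.lf (nat_lit 0) (nat_lit 2173842976) (nat_lit 304) (nat_lit 21318783771) (nat_lit 76) (nat_lit 3686366121) (nat_lit 35) (nat_lit 5) (nat_lit 39) (nat_lit 5) (nat_lit 36) (nat_lit 5) (nat_lit 522) (nat_lit 386) (nat_lit 232)) (XT.nd (nat_lit 78) (nat_lit 0) (nat_lit 0) (XT.lf (nat_lit 0) (nat_lit 6248570087) (nat_lit 304) (nat_lit 12117316061) (nat_lit 76) (nat_lit 9241361456) (nat_lit 35) (nat_lit 5) (nat_lit 39) (nat_lit 5) (nat_lit 36) (nat_lit 5) (nat_lit 523) (nat_lit 386) (nat_lit 231)) (XT.lf (nat_lit 0) (nat_lit 10395234476) (nat_lit 304) (nat_lit 2747957126) (nat_lit 76) (nat_lit 14901070904) (nat_lit 35) (nat_lit 5) (nat_lit 39) (nat_lit 5) (nat_lit 36) (nat_lit 5) (nat_lit 524) (nat_lit 386) (nat_lit 230)))) (XT.nd (nat_lit 48672) (nat_lit 0) (nat_lit 40964) (XT.nd (nat_lit 48594) (nat_lit 0) (nat_lit 41496) (XT.lf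 (nat_lit 0) (nat_lit 6883242251) (nat_lit 152) (nat_lit 7776910607) (nat_lit 228) (nat_lit 13829162283) (nat_lit 33) (nat_lit 5) (nat_lit 35) (nat_lit 5) (nat_lit 36) (nat_lit 5) (nat_lit 525) (nat_lit 386) (nat_lit 229)) (XT.lf (nat_lit 0) (nat_lit 2371017328) (nat_lit 532) (nat_lit 449359431) (nat_lit 532) (nat_lit 449359431) (nat_lit 579) (nat_lit 3) (nat_lit 586) (nat_lit 3) (nat_lit 586) (nat_lit 5) (nat_lit 387) (nat_lit 387) (nat_lit 366))) (XT.nd (nat_lit 78) (nat_lit 0) (nat_lit 0) (XT.lf (nat_lit 0) (nat_lit 573779699) (nat_lit 532) (nat_lit 4459896022) (nat_lit 608) (nat_lit 1520268457) (nat_lit 572) (nat_lit 5) (nat_lit 579) (nat_lit 3) (nat_lit 580) (nat_lit 5) (nat_lit 388) (nat_lit 387) (nat_lit 365)) (XT.lf (nat_lit 0) (nat_lit 2912554945) (nat_lit 532) (nat_lit 1454266733) (nat_lit 608) (nat_lit 2202863100) (nat_lit 572) (nat_lit 5) (nat_lit 579) (nat_lit 3) (nat_lit 580) (nat_lit 5)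 (nat_lit 389) (nat_lit 387) (nat_lit 364)))))) (XT.nd (nat_lit 546) (nat_lit 2356) (nat_lit 0) (XT.nd (nat_lit 234) (nat_lit 684) (nat_lit 0) (XT.nd (nat_lit 78) (nat_lit 608) (nat_lit 0) (XT.lf (nat_lit 76) (nat_lit 1600513884) (nat_lit 0) (nat_lit 3647304829) (nat_lit 608) (nat_lit 1339026248) (nat_lit 573) (nat_lit 5) (nat_lit 572) (nat_lit 5) (nat_lit 580) (nat_lit 5) (nat_lit 390) (nat_lit 387) (nat_lit 363)) (XT.nd (nat_lit 78) (nat_lit 0) (nat_lit 0) (XT.lf (nat_lit 0) (nat_lit 961628066) (nat_lit 608) (nat_lit 1907409649) (nat_lit 684) (nat_lit 3736279916) (nat_lit 564) (nat_lit 5) (nat_lit 572) (nat_lit 5) (nat_lit 573) (nat_lit 5) (nat_lit 391) (nat_lit 387) (nat_lit 362)) (XT.lf (nat_lit 76) (nat_lit 1208069375) (nat_lit 0) (nat_lit 2031150955) (nat_lit 684) (nat_lit 3385878637) (nat_lit 565) (nat_lit 5) (nat_lit 564) (nat_lit 5) (nat_lit 573) (nat_lit 5) (nat_lit 392) (nat_lit 387) (nat_lit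 361)))) (XT.nd (nat_lit 156) (nat_lit 0) (nat_lit 76) (XT.nd (nat_lit 78) (nat_lit 684) (nat_lit 0) (XT.lf (nat_lit 76) (nat_lit 4379926771) (nat_lit 0) (nat_lit 1137182066) (nat_lit 684) (nat_lit 1129163695) (nat_lit 565) (nat_lit 5) (nat_lit 564) (nat_lit 5) (nat_lit 573) (nat_lit 5) (nat_lit 393) (nat_lit 387) (nat_lit 360)) (XT.lf (nat_lit 76) (nat_lit 919787165) (nat_lit 0) (nat_lit 186107825) (nat_lit 760) (nat_lit 5562938452) (nat_lit 556) (nat_lit 5) (nat_lit 555) (nat_lit 5) (nat_lit 565) (nat_lit 5) (nat_lit 394) (nat_lit 387) (nat_lit 359))) (XT.nd (nat_lit 78) (nat_lit 0) (nat_lit 0) (XT.lf (nat_lit 0) (nat_lit 3334645073) (nat_lit 684) (nat_lit 2537025417) (nat_lit 760) (nat_lit 820829824) (nat_lit 556) (nat_lit 5) (nat_lit 565) (nat_lit 5) (nat_lit 566) (nat_lit 5) (nat_lit 395) (nat_lit 387) (nat_lit 358)) (XT.lf (nat_lit 76) (nat_lit 714850429) (nat_lit 0) (nat_lit 4843793836) (nat_lit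 760) (nat_lit 1159067299) (nat_lit 557) (nat_lit 5) (nat_lit 556) (nat_lit 5) (nat_lit 566) (nat_lit 5) (nat_lit 396) (nat_lit 387) (nat_lit 357))))) (XT.nd (nat_lit 234) (nat_lit 1672) (nat_lit 0) (XT.nd (nat_lit 78) (nat_lit 0) (nat_lit 0) (XT.lf (nat_lit 0) (nat_lit 1031852353) (nat_lit 760) (nat_lit 2717204934) (nat_lit 836) (nat_lit 2995062898) (nat_lit 546) (nat_lit 5) (nat_lit 556) (nat_lit 5) (nat_lit 557) (nat_lit 5) (nat_lit 397) (nat_lit 387) (nat_lit 356)) (XT.nd (nat_lit 78) (nat_lit 0) (nat_lit 0) (XT.lf (nat_lit 76) (nat_lit 601908661) (nat_lit 0) (nat_lit 2599389522) (nat_lit 836) (nat_lit 3570680659) (nat_lit 547) (nat_lit 5) (nat_lit 546) (nat_lit 5) (nat_lit 557) (nat_lit 5) (nat_lit 398) (nat_lit 387) (nat_lit 355)) (XT.lf (nat_lit 76) (nat_lit 3991976674) (nat_lit 0) (nat_lit 1387538716) (nat_lit 836) (nat_lit 1421649722) (nat_lit 547) (nat_lit 5) (nat_lit 546) (nat_lit 5) (nat_lit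 557) (nat_lit 5) (nat_lit 399) (nat_lit 387) (nat_lit 354)))) (XT.nd (nat_lit 156) (nat_lit 836) (nat_lit 0) (XT.nd (nat_lit 78) (nat_lit 0) (nat_lit 76) (XT.lf (nat_lit 76) (nat_lit 589240289) (nat_lit 0) (nat_lit 122610035) (nat_lit 912) (nat_lit 6120027964) (nat_lit 536) (nat_lit 5) (nat_lit 535) (nat_lit 5) (nat_lit 547) (nat_lit 5) (nat_lit 400) (nat_lit 387) (nat_lit 353)) (XT.lf (nat_lit 0) (nat_lit 2844265504) (nat_lit 836) (nat_lit 2819643157) (nat_lit 912) (nat_lit 1199677088) (nat_lit 536) (nat_lit 5) (nat_lit 547) (nat_lit 5) (nat_lit 548) (nat_lit 5) (nat_lit 401) (nat_lit 387) (nat_lit 352))) (XT.nd (nat_lit 78) (nat_lit 912) (nat_lit 0) (XT.lf (nat_lit 76) (nat_lit 646725988) (nat_lit 0) (nat_lit 4327326023) (nat_lit 912) (nat_lit 1922853026) (nat_lit 537) (nat_lit 5) (nat_lit 536) (nat_lit 5) (nat_lit 548) (nat_lit 5) (nat_lit 402) (nat_lit 387) (nat_lit 351)) (XT.lf (nat_lit 0) (nat_lit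 181852371) (nat_lit 912) (nat_lit 2744666188) (nat_lit 988) (nat_lit 4005030788) (nat_lit 524) (nat_lit 5) (nat_lit 536) (nat_lit 5) (nat_lit 537) (nat_lit 5) (nat_lit 403) (nat_lit 387) (nat_lit 350))))))))
noncomputable def xc121 : XT := (XT.nd (nat_lit 2106) (nat_lit 9956) (nat_lit 0) (XT.nd (nat_lit 1014) (nat_lit 10564) (nat_lit 0) (XT.nd (nat_lit 468) (nat_lit 4864) (nat_lit 0) (XT.nd (nat_lit 234) (nat_lit 1064) (nat_lit 0) (XT.nd (nat_lit 78) (nat_lit 836) (nat_lit 0) (XT.lf (nat_lit 76) (nat_lit 796042787) (nat_lit 0) (nat_lit 1463122368) (nat_lit 988) (nat_lit 4708409961) (nat_lit 525) (nat_lit 5) (nat_lit 524) (nat_lit 5) (nat_lit 537) (nat_lit 5) (nat_lit 404) (nat_lit 387) (nat_lit 349)) (XT.nd (nat_lit 78) (nat_lit 912) (nat_lit 0) (XT.lf (nat_lit 0) (nat_lit 4348675399) (nat_lit 912) (nat_lit 2593034602) (nat_lit 76) (nat_lit 63265021) (nat_lit 525) (nat_lit 5) (nat_lit 537) (nat_lit 5)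 (nat_lit 526) (nat_lit 5) (nat_lit 405) (nat_lit 387) (nat_lit 348)) (XT.lf (nat_lit 0) (nat_lit 1027944417) (nat_lit 912) (nat_lit 5421257110) (nat_lit 988) (nat_lit 594602227) (nat_lit 513) (nat_lit 5) (nat_lit 525) (nat_lit 5) (nat_lit 526) (nat_lit 5) (nat_lit 406) (nat_lit 387) (nat_lit 347)))) (XT.nd (nat_lit 78) (nat_lit 988) (nat_lit 0) (XT.lf (nat_lit 0) (nat_lit 1459266522) (nat_lit 988) (nat_lit 2369826239) (nat_lit 76) (nat_lit 3254768850) (nat_lit 512) (nat_lit 5) (nat_lit 525) (nat_lit 5) (nat_lit 513) (nat_lit 5) (nat_lit 407) (nat_lit 387) (nat_lit 346)) (XT.nd (nat_lit 78) (nat_lit 0) (nat_lit 0) (XT.lf (nat_lit 0) (nat_lit 1329936856) (nat_lit 988) (nat_lit 2179077468) (nat_lit 1064) (nat_lit 3616433997) (nat_lit 499) (nat_lit 5) (nat_lit 512) (nat_lit 5) (nat_lit 513) (nat_lit 5) (nat_lit 408) (nat_lit 387) (nat_lit 345)) (XT.lf (nat_lit 0) (nat_lit 5103338672) (nat_lit 988) (nat_lit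 467131024) (nat_lit 1064) (nat_lit 1598043183) (nat_lit 499) (nat_lit 5) (nat_lit 512) (nat_lit 5) (nat_lit 513) (nat_lit 5) (nat_lit 409) (nat_lit 387) (nat_lit 344))))) (XT.nd (nat_lit 234) (nat_lit 2584) (nat_lit 0) (XT.nd (nat_lit 78) (nat_lit 1140) (nat_lit 0) (XT.lf (nat_lit 0) (nat_lit 429707069) (nat_lit 1140) (nat_lit 5494650494) (nat_lit 76) (nat_lit 1288578679) (nat_lit 484) (nat_lit 5) (nat_lit 499) (nat_lit 5) (nat_lit 485) (nat_lit 5) (nat_lit 410) (nat_lit 387) (nat_lit 343)) (XT.nd (nat_lit 78) (nat_lit 1140) (nat_lit 0) (XT.lf (nat_lit 0) (nat_lit 2449764439) (nat_lit 1140) (nat_lit 1699624136) (nat_lit 76) (nat_lit 3109242120) (nat_lit 484) (nat_lit 5) (nat_lit 499) (nat_lit 5) (nat_lit 485) (nat_lit 5) (nat_lit 411) (nat_lit 387) (nat_lit 342)) (XT.lf (nat_lit 0) (nat_lit 2167083568) (nat_lit 1140) (nat_lit 2314156729) (nat_lit 1216) (nat_lit 2824634158) (nat_lit 469) (nat_lit 5) (nat_lit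 484) (nat_lit 5) (nat_lit 485) (nat_lit 5) (nat_lit 412) (nat_lit 387) (nat_lit 341)))) (XT.nd (nat_lit 156) (nat_lit 1292) (nat_lit 0) (XT.nd (nat_lit 78) (nat_lit 1292) (nat_lit 0) (XT.lf (nat_lit 0) (nat_lit 6101738151) (nat_lit 1140) (nat_lit 420593734) (nat_lit 1216) (nat_lit 832406156) (nat_lit 469) (nat_lit 5) (nat_lit 484) (nat_lit 5) (nat_lit 485) (nat_lit 5) (nat_lit 413) (nat_lit 387) (nat_lit 340)) (XT.lf (nat_lit 0) (nat_lit 1169623810) (nat_lit 1292) (nat_lit 4709196608) (nat_lit 76) (nat_lit 1525941426) (nat_lit 452) (nat_lit 5) (nat_lit 469) (nat_lit 5) (nat_lit 453) (nat_lit 5) (nat_lit 414) (nat_lit 387) (nat_lit 339))) (XT.nd (nat_lit 78) (nat_lit 1292) (nat_lit 0) (XT.lf (nat_lit 0) (nat_lit 3170564600) (nat_lit 1292) (nat_lit 757008760) (nat_lit 76) (nat_lit 3528753914) (nat_lit 452) (nat_lit 5) (nat_lit 469) (nat_lit 5) (nat_lit 453) (nat_lit 5) (nat_lit 415) (nat_lit 387) (nat_lit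 338)) (XT.lf (nat_lit 0) (nat_lit 3284829943) (nat_lit 1292) (nat_lit 1907586618) (nat_lit 1368) (nat_lit 2316940115) (nat_lit 435) (nat_lit 5) (nat_lit 452) (nat_lit 5) (nat_lit 453) (nat_lit 5) (nat_lit 416) (nat_lit 387) (nat_lit 337)))))) (XT.nd (nat_lit 546) (nat_lit 4484) (nat_lit 0) (XT.nd (nat_lit 234) (nat_lit 3192) (nat_lit 0) (XT.nd (nat_lit 78) (nat_lit 2888) (nat_lit 0) (XT.lf (nat_lit 0) (nat_lit 7221008944) (nat_lit 1368) (nat_lit 179760142) (nat_lit 76) (nat_lit 163401032) (nat_lit 435) (nat_lit 5) (nat_lit 453) (nat_lit 5) (nat_lit 436) (nat_lit 5) (nat_lit 417) (nat_lit 387) (nat_lit 336)) (XT.nd (nat_lit 78) (nat_lit 1444) (nat_lit 0) (XT.lf (nat_lit 0) (nat_lit 1647411158) (nat_lit 1444) (nat_lit 3678379393) (nat_lit 76) (nat_lit 2294135579) (nat_lit 416) (nat_lit 5) (nat_lit 435) (nat_lit 5) (nat_lit 417) (nat_lit 5) (nat_lit 418) (nat_lit 387) (nat_lit 335)) (XT.lf (nat_lit 0) (nat_lit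 441600281) (nat_lit 1444) (nat_lit 3196917385) (nat_lit 1520) (nat_lit 4038974540) (nat_lit 397) (nat_lit 5) (nat_lit 416) (nat_lit 5) (nat_lit 417) (nat_lit 5) (nat_lit 419) (nat_lit 387) (nat_lit 334)))) (XT.nd (nat_lit 156) (nat_lit 1672) (nat_lit 0) (XT.nd (nat_lit 78) (nat_lit 1520) (nat_lit 0) (XT.lf (nat_lit 0) (nat_lit 4661202974) (nat_lit 1444) (nat_lit 994707367) (nat_lit 1520) (nat_lit 2080615729) (nat_lit 397) (nat_lit 5) (nat_lit 416) (nat_lit 5) (nat_lit 417) (nat_lit 5) (nat_lit 420) (nat_lit 387) (nat_lit 333)) (XT.lf (nat_lit 0) (nat_lit 1142487358) (nat_lit 1520) (nat_lit 6549272287) (nat_lit 1596) (nat_lit 105463644) (nat_lit 377) (nat_lit 5) (nat_lit 397) (nat_lit 5) (nat_lit 398) (nat_lit 5) (nat_lit 421) (nat_lit 387) (nat_lit 332))) (XT.nd (nat_lit 78) (nat_lit 1596) (nat_lit 0) (XT.lf (nat_lit 0) (nat_lit 1874312810) (nat_lit 1596) (nat_lit 2424650063) (nat_lit 76) (nat_lit 3560163559)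 (nat_lit 376) (nat_lit 5) (nat_lit 397) (nat_lit 5) (nat_lit 377) (nat_lit 5) (nat_lit 422) (nat_lit 387) (nat_lit 331)) (XT.lf (nat_lit 0) (nat_lit 1881516180) (nat_lit 1596) (nat_lit 1986502792) (nat_lit 1672) (nat_lit 4054762060) (nat_lit 355) (nat_lit 5) (nat_lit 376) (nat_lit 5) (nat_lit 377) (nat_lit 5) (nat_lit 423) (nat_lit 387) (nat_lit 330))))) (XT.nd (nat_lit 234) (nat_lit 2736) (nat_lit 0) (XT.nd (nat_lit 78) (nat_lit 1748) (nat_lit 0) (XT.lf (nat_lit 0) (nat_lit 5884452659) (nat_lit 1672) (nat_lit 1716305314) (nat_lit 76) (nat_lit 387335119) (nat_lit 355) (nat_lit 5) (nat_lit 377) (nat_lit 5) (nat_lit 356) (nat_lit 5) (nat_lit 424) (nat_lit 387) (nat_lit 329)) (XT.nd (nat_lit 78) (nat_lit 76) (nat_lit 0) (XT.lf (nat_lit 0) (nat_lit 2684787515) (nat_lit 1672) (nat_lit 5251777671) (nat_lit 1748) (nat_lit 118279828) (nat_lit 333) (nat_lit 5) (nat_lit 355) (nat_lit 5) (nat_lit 356) (nat_lit 5)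 (nat_lit 425) (nat_lit 387) (nat_lit 328)) (XT.lf (nat_lit 0) (nat_lit 1858349135) (nat_lit 1748) (nat_lit 970703787) (nat_lit 76) (nat_lit 5294139113) (nat_lit 332) (nat_lit 5) (nat_lit 355) (nat_lit 5) (nat_lit 333) (nat_lit 5) (nat_lit 426) (nat_lit 387) (nat_lit 327)))) (XT.nd (nat_lit 156) (nat_lit 1748) (nat_lit 0) (XT.nd (nat_lit 78) (nat_lit 0) (nat_lit 0) (XT.lf (nat_lit 0) (nat_lit 3530079823) (nat_lit 988) (nat_lit 331430371) (nat_lit 1064) (nat_lit 4331646781) (nat_lit 319) (nat_lit 5) (nat_lit 332) (nat_lit 5) (nat_lit 333) (nat_lit 5) (nat_lit 427) (nat_lit 387) (nat_lit 326)) (XT.lf (nat_lit 0) (nat_lit 5891821900) (nat_lit 1064) (nat_lit 177374016) (nat_lit 76) (nat_lit 2195621080) (nat_lit 319) (nat_lit 5) (nat_lit 333) (nat_lit 5) (nat_lit 320) (nat_lit 5) (nat_lit 428) (nat_lit 387) (nat_lit 325))) (XT.nd (nat_lit 78) (nat_lit 912) (nat_lit 0) (XT.lf (nat_lit 0) (nat_lit 4421892675)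 (nat_lit 836) (nat_lit 3538557486) (nat_lit 912) (nat_lit 377542641) (nat_lit 308) (nat_lit 5) (nat_lit 319) (nat_lit 5) (nat_lit 320) (nat_lit 5) (nat_lit 429) (nat_lit 387) (nat_lit 324)) (XT.lf (nat_lit 0) (nat_lit 668726382) (nat_lit 836) (nat_lit 939887732) (nat_lit 912) (nat_lit 6804387347) (nat_lit 296) (nat_lit 5) (nat_lit 307) (nat_lit 5) (nat_lit 308) (nat_lit 5) (nat_lit 430) (nat_lit 387) (nat_lit 323))))))) (XT.nd (nat_lit 1092) (nat_lit 4788) (nat_lit 0) (XT.nd (nat_lit 546) (nat_lit 2888) (nat_lit 0) (XT.nd (nat_lit 234) (nat_lit 1520) (nat_lit 0) (XT.nd (nat_lit 78) (nat_lit 760) (nat_lit 0) (XT.lf (nat_lit 0) (nat_lit 3634444768) (nat_lit 912) (nat_lit 3137124112) (nat_lit 76) (nat_lit 1717826052) (nat_lit 296) (nat_lit 5) (nat_lit 308) (nat_lit 5) (nat_lit 297) (nat_lit 5) (nat_lit 431) (nat_lit 387) (nat_lit 322)) (XT.nd (nat_lit 78) (nat_lit 0) (nat_lit 0) (XT.lf (nat_lit 0) (nat_lit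 1544147304) (nat_lit 760) (nat_lit 4140974042) (nat_lit 836) (nat_lit 2882542331) (nat_lit 286) (nat_lit 5) (nat_lit 296) (nat_lit 5) (nat_lit 297) (nat_lit 5) (nat_lit 432) (nat_lit 387) (nat_lit 321)) (XT.lf (nat_lit 0) (nat_lit 6329729628) (nat_lit 760) (nat_lit 1436632018) (nat_lit 836) (nat_lit 881378472) (nat_lit 286) (nat_lit 5) (nat_lit 296) (nat_lit 5) (nat_lit 297) (nat_lit 5) (nat_lit 433) (nat_lit 387) (nat_lit 320)))) (XT.nd (nat_lit 156) (nat_lit 684) (nat_lit 0) (XT.nd (nat_lit 78) (nat_lit 0) (nat_lit 0) (XT.lf (nat_lit 0) (nat_lit 1138280188) (nat_lit 836) (nat_lit 6263462023) (nat_lit 76) (nat_lit 1327683650) (nat_lit 275) (nat_lit 5) (nat_lit 286) (nat_lit 5) (nat_lit 276) (nat_lit 5) (nat_lit 434) (nat_lit 387) (nat_lit 319)) (XT.lf (nat_lit 0) (nat_lit 3180994156) (nat_lit 836) (nat_lit 1482942391) (nat_lit 76) (nat_lit 4148834382) (nat_lit 275) (nat_lit 5) (nat_lit 286) (nat_lit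 5) (nat_lit 276) (nat_lit 5) (nat_lit 435) (nat_lit 387) (nat_lit 318))) (XT.nd (nat_lit 78) (nat_lit 0) (nat_lit 0) (XT.lf (nat_lit 0) (nat_lit 3406399457) (nat_lit 684) (nat_lit 1850162449) (nat_lit 760) (nat_lit 3641411788) (nat_lit 266) (nat_lit 5) (nat_lit 275) (nat_lit 5) (nat_lit 276) (nat_lit 5) (nat_lit 436) (nat_lit 387) (nat_lit 317)) (XT.lf (nat_lit 0) (nat_lit 7360540598) (nat_lit 760) (nat_lit 609610936) (nat_lit 76) (nat_lit 1015021173) (nat_lit 266) (nat_lit 5) (nat_lit 276) (nat_lit 5) (nat_lit 267) (nat_lit 5) (nat_lit 437) (nat_lit 387) (nat_lit 316))))) (XT.nd (nat_lit 234) (nat_lit 1368) (nat_lit 0) (XT.nd (nat_lit 78) (nat_lit 684) (nat_lit 0) (XT.lf (nat_lit 0) (nat_lit 438418617) (nat_lit 836) (nat_lit 4692809363) (nat_lit 76) (nat_lit 3942628421) (nat_lit 255) (nat_lit 5) (nat_lit 266) (nat_lit 5) (nat_lit 256) (nat_lit 5) (nat_lit 438) (nat_lit 387) (nat_lit 315)) (XT.nd (nat_lit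 78) (nat_lit 0) (nat_lit 0) (XT.lf (nat_lit 0) (nat_lit 276940553) (nat_lit 684) (nat_lit 2220966887) (nat_lit 760) (nat_lit 6666681377) (nat_lit 246) (nat_lit 5) (nat_lit 255) (nat_lit 5) (nat_lit 256) (nat_lit 5) (nat_lit 439) (nat_lit 387) (nat_lit 314)) (XT.lf (nat_lit 0) (nat_lit 4606482575) (nat_lit 760) (nat_lit 3883701921) (nat_lit 76) (nat_lit 766821340) (nat_lit 246) (nat_lit 5) (nat_lit 256) (nat_lit 5) (nat_lit 247) (nat_lit 5) (nat_lit 440) (nat_lit 387) (nat_lit 313)))) (XT.nd (nat_lit 156) (nat_lit 684) (nat_lit 0) (XT.nd (nat_lit 78) (nat_lit 0) (nat_lit 0) (XT.lf (nat_lit 0) (nat_lit 1190014583) (nat_lit 684) (nat_lit 5561554775) (nat_lit 760) (nat_lit 2599842372) (nat_lit 237) (nat_lit 5) (nat_lit 246) (nat_lit 5) (nat_lit 247) (nat_lit 5) (nat_lit 441) (nat_lit 387) (nat_lit 312)) (XT.lf (nat_lit 0) (nat_lit 6386847702) (nat_lit 684) (nat_lit 2551026839) (nat_lit 760) (nat_lit 509891670)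 (nat_lit 237) (nat_lit 5) (nat_lit 246) (nat_lit 5) (nat_lit 247) (nat_lit 5) (nat_lit 442) (nat_lit 387) (nat_lit 311))) (XT.nd (nat_lit 78) (nat_lit 0) (nat_lit 0) (XT.lf (nat_lit 0) (nat_lit 1590511110) (nat_lit 684) (nat_lit 7421481968) (nat_lit 76) (nat_lit 534071381) (nat_lit 228) (nat_lit 5) (nat_lit 237) (nat_lit 5) (nat_lit 229) (nat_lit 5) (nat_lit 443) (nat_lit 387) (nat_lit 310)) (XT.lf (nat_lit 0) (nat_lit 3736580451) (nat_lit 684) (nat_lit 2242165503) (nat_lit 76) (nat_lit 3667330847) (nat_lit 228) (nat_lit 5) (nat_lit 237) (nat_lit 5) (nat_lit 229) (nat_lit 5) (nat_lit 444) (nat_lit 387) (nat_lit 309)))))) (XT.nd (nat_lit 546) (nat_lit 2280) (nat_lit 0) (XT.nd (nat_lit 234) (nat_lit 1140) (nat_lit 0) (XT.nd (nat_lit 78) (nat_lit 684) (nat_lit 0) (XT.lf (nat_lit 0) (nat_lit 3050226168) (nat_lit 684) (nat_lit 2868589250) (nat_lit 760) (nat_lit 3829433848) (nat_lit 219) (nat_lit 5) (nat_lit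 228) (nat_lit 5) (nat_lit 229) (nat_lit 5) (nat_lit 445) (nat_lit 387) (nat_lit 308)) (XT.nd (nat_lit 78) (nat_lit 684) (nat_lit 0) (XT.lf (nat_lit 0) (nat_lit 8135550745) (nat_lit 760) (nat_lit 1406214505) (nat_lit 76) (nat_lit 310907093) (nat_lit 219) (nat_lit 5) (nat_lit 229) (nat_lit 5) (nat_lit 220) (nat_lit 5) (nat_lit 446) (nat_lit 387) (nat_lit 307)) (XT.lf (nat_lit 0) (nat_lit 450988783) (nat_lit 684) (nat_lit 5967200746) (nat_lit 76) (nat_lit 3540575104) (nat_lit 210) (nat_lit 5) (nat_lit 219) (nat_lit 5) (nat_lit 211) (nat_lit 5) (nat_lit 447) (nat_lit 387) (nat_lit 306)))) (XT.nd (nat_lit 156) (nat_lit 532) (nat_lit 0) (XT.nd (nat_lit 78) (nat_lit 608) (nat_lit 0) (XT.lf (nat_lit 0) (nat_lit 2623360480) (nat_lit 684) (nat_lit 592261806) (nat_lit 76) (nat_lit 6851474526) (nat_lit 210) (nat_lit 5) (nat_lit 219) (nat_lit 5) (nat_lit 211) (nat_lit 5) (nat_lit 448) (nat_lit 387) (nat_lit 305))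 (XT.lf (nat_lit 0) (nat_lit 4846541746) (nat_lit 684) (nat_lit 5253026892) (nat_lit 76) (nat_lit 77902181) (nat_lit 202) (nat_lit 5) (nat_lit 211) (nat_lit 5) (nat_lit 203) (nat_lit 5) (nat_lit 449) (nat_lit 387) (nat_lit 304))) (XT.nd (nat_lit 78) (nat_lit 0) (nat_lit 0) (XT.lf (nat_lit 0) (nat_lit 221023691) (nat_lit 532) (nat_lit 6895037104) (nat_lit 608) (nat_lit 3173976016) (nat_lit 195) (nat_lit 5) (nat_lit 202) (nat_lit 5) (nat_lit 203) (nat_lit 5) (nat_lit 450) (nat_lit 387) (nat_lit 303)) (XT.lf (nat_lit 0) (nat_lit 5845866961) (nat_lit 532) (nat_lit 3595790043) (nat_lit 608) (nat_lit 963004939) (nat_lit 195) (nat_lit 5) (nat_lit 202) (nat_lit 5) (nat_lit 203) (nat_lit 5) (nat_lit 451) (nat_lit 387) (nat_lit 302))))) (XT.nd (nat_lit 234) (nat_lit 1064) (nat_lit 0) (XT.nd (nat_lit 78) (nat_lit 532) (nat_lit 0) (XT.lf (nat_lit 0) (nat_lit 1037189239) (nat_lit 608) (nat_lit 220520699) (nat_lit 684)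 (nat_lit 9264073131) (nat_lit 186) (nat_lit 5) (nat_lit 194) (nat_lit 5) (nat_lit 195) (nat_lit 5) (nat_lit 452) (nat_lit 387) (nat_lit 301)) (XT.nd (nat_lit 78) (nat_lit 532) (nat_lit 0) (XT.lf (nat_lit 0) (nat_lit 3537658475) (nat_lit 684) (nat_lit 3891167793) (nat_lit 76) (nat_lit 3211759074) (nat_lit 186) (nat_lit 5) (nat_lit 195) (nat_lit 5) (nat_lit 187) (nat_lit 5) (nat_lit 453) (nat_lit 387) (nat_lit 300)) (XT.lf (nat_lit 0) (nat_lit 1807031888) (nat_lit 532) (nat_lit 4045824220) (nat_lit 608) (nat_lit 4909134463) (nat_lit 179) (nat_lit 5) (nat_lit 186) (nat_lit 5) (nat_lit 187) (nat_lit 5) (nat_lit 454) (nat_lit 387) (nat_lit 299)))) (XT.nd (nat_lit 156) (nat_lit 532) (nat_lit 0) (XT.nd (nat_lit 78) (nat_lit 532) (nat_lit 0) (XT.lf (nat_lit 0) (nat_lit 7642800331) (nat_lit 532) (nat_lit 574398843) (nat_lit 608) (nat_lit 2668587426) (nat_lit 179) (nat_lit 5) (nat_lit 186) (nat_lit 5) (nat_lit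 187) (nat_lit 5) (nat_lit 455) (nat_lit 387) (nat_lit 298)) (XT.lf (nat_lit 0) (nat_lit 2568645958) (nat_lit 532) (nat_lit 8073269296) (nat_lit 608) (nat_lit 369900712) (nat_lit 172) (nat_lit 5) (nat_lit 179) (nat_lit 5) (nat_lit 180) (nat_lit 5) (nat_lit 456) (nat_lit 387) (nat_lit 297))) (XT.nd (nat_lit 78) (nat_lit 456) (nat_lit 0) (XT.lf (nat_lit 0) (nat_lit 1951812086) (nat_lit 608) (nat_lit 2645367554) (nat_lit 76) (nat_lit 6542889216) (nat_lit 171) (nat_lit 5) (nat_lit 179) (nat_lit 5) (nat_lit 172) (nat_lit 5) (nat_lit 457) (nat_lit 387) (nat_lit 296)) (XT.lf (nat_lit 0) (nat_lit 3280397910) (nat_lit 456) (nat_lit 1033599105) (nat_lit 532) (nat_lit 6956879107) (nat_lit 165) (nat_lit 5) (nat_lit 171) (nat_lit 5) (nat_lit 172) (nat_lit 5) (nat_lit 458) (nat_lit 387) (nat_lit 295))))))))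
noncomputable def xc122 : XT := (XT.nd (nat_lit 2106) (nat_lit 3420) (nat_lit 0) (XT.nd (nat_lit 1014) (nat_lit 2584) (nat_lit 0) (XT.nd (nat_lit 468) (nat_lit 1444) (nat_lit 0) (XT.nd (nat_lit 234) (nat_lit 912) (nat_lit 0) (XT.nd (nat_lit 78) (nat_lit 608) (nat_lit 0) (XT.lf (nat_lit 0) (nat_lit 6736083983) (nat_lit 532) (nat_lit 2089210056) (nat_lit 76) (nat_lit 2578770011) (nat_lit 165) (nat_lit 5) (nat_lit 172) (nat_lit 5) (nat_lit 166) (nat_lit 5) (nat_lit 459) (nat_lit 387) (nat_lit 294)) (XT.nd (nat_lit 78) (nat_lit 76) (nat_lit 0) (XT.lf (nat_lit 0) (nat_lit 3946769386) (nat_lit 532) (nat_lit 5270646622) (nat_lit 608) (nat_lit 2322300999) (nat_lit 158) (nat_lit 5) (nat_lit 165) (nat_lit 5) (nat_lit 166) (nat_lit 5) (nat_lit 460) (nat_lit 387) (nat_lit 293)) (XT.lf (nat_lit 0) (nat_lit 61899644) (nat_lit 608) (nat_lit 1574913037) (nat_lit 76) (nat_lit 10041427281) (nat_lit 157) (nat_lit 5) (nat_lit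 165) (nat_lit 5) (nat_lit 158) (nat_lit 5) (nat_lit 461) (nat_lit 387) (nat_lit 292)))) (XT.nd (nat_lit 78) (nat_lit 456) (nat_lit 0) (XT.lf (nat_lit 0) (nat_lit 2484990737) (nat_lit 532) (nat_lit 7252382339) (nat_lit 76) (nat_lit 2081423587) (nat_lit 151) (nat_lit 5) (nat_lit 158) (nat_lit 5) (nat_lit 152) (nat_lit 5) (nat_lit 462) (nat_lit 387) (nat_lit 291)) (XT.nd (nat_lit 78) (nat_lit 456) (nat_lit 0) (XT.lf (nat_lit 0) (nat_lit 4957054691) (nat_lit 532) (nat_lit 1148948091) (nat_lit 76) (nat_lit 5856167511) (nat_lit 151) (nat_lit 5) (nat_lit 158) (nat_lit 5) (nat_lit 152) (nat_lit 5) (nat_lit 463) (nat_lit 387) (nat_lit 290)) (XT.lf (nat_lit 0) (nat_lit 5116202059) (nat_lit 456) (nat_lit 2375019502) (nat_lit 532) (nat_lit 4616952305) (nat_lit 145) (nat_lit 5) (nat_lit 151) (nat_lit 5) (nat_lit 152) (nat_lit 5) (nat_lit 464) (nat_lit 387) (nat_lit 289))))) (XT.nd (nat_lit 234) (nat_lit 912) (nat_lit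 0) (XT.nd (nat_lit 78) (nat_lit 532) (nat_lit 0) (XT.lf (nat_lit 0) (nat_lit 10072745952) (nat_lit 532) (nat_lit 771702169) (nat_lit 76) (nat_lit 1412731300) (nat_lit 145) (nat_lit 5) (nat_lit 152) (nat_lit 5) (nat_lit 146) (nat_lit 5) (nat_lit 465) (nat_lit 387) (nat_lit 288)) (XT.nd (nat_lit 78) (nat_lit 0) (nat_lit 0) (XT.lf (nat_lit 0) (nat_lit 325177304) (nat_lit 532) (nat_lit 6807046798) (nat_lit 76) (nat_lit 5276270583) (nat_lit 138) (nat_lit 5) (nat_lit 145) (nat_lit 5) (nat_lit 139) (nat_lit 5) (nat_lit 466) (nat_lit 387) (nat_lit 287)) (XT.lf (nat_lit 0) (nat_lit 2841066575) (nat_lit 532) (nat_lit 491919416) (nat_lit 76) (nat_lit 9229869272) (nat_lit 138) (nat_lit 5) (nat_lit 145) (nat_lit 5) (nat_lit 139) (nat_lit 5) (nat_lit 467) (nat_lit 387) (nat_lit 286)))) (XT.nd (nat_lit 156) (nat_lit 456) (nat_lit 0) (XT.nd (nat_lit 78) (nat_lit 0) (nat_lit 0) (XT.lf (nat_lit 0) (nat_lit 5430457750)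 (nat_lit 532) (nat_lit 6722112548) (nat_lit 76) (nat_lit 567283293) (nat_lit 132) (nat_lit 5) (nat_lit 139) (nat_lit 5) (nat_lit 133) (nat_lit 5) (nat_lit 468) (nat_lit 387) (nat_lit 285)) (XT.lf (nat_lit 0) (nat_lit 8077682230) (nat_lit 532) (nat_lit 305009561) (nat_lit 76) (nat_lit 4497193129) (nat_lit 132) (nat_lit 5) (nat_lit 139) (nat_lit 5) (nat_lit 133) (nat_lit 5) (nat_lit 469) (nat_lit 387) (nat_lit 284))) (XT.nd (nat_lit 78) (nat_lit 76) (nat_lit 0) (XT.lf (nat_lit 0) (nat_lit 6296692356) (nat_lit 380) (nat_lit 4503070390) (nat_lit 456) (nat_lit 2242929570) (nat_lit 127) (nat_lit 5) (nat_lit 132) (nat_lit 5) (nat_lit 133) (nat_lit 5) (nat_lit 470) (nat_lit 387) (nat_lit 283)) (XT.lf (nat_lit 0) (nat_lit 345863034) (nat_lit 456) (nat_lit 202968501) (nat_lit 76) (nat_lit 12660226651) (nat_lit 126) (nat_lit 5) (nat_lit 132) (nat_lit 5) (nat_lit 127) (nat_lit 5) (nat_lit 471) (nat_lit 387) (nat_lit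 282)))))) (XT.nd (nat_lit 546) (nat_lit 1064) (nat_lit 0) (XT.nd (nat_lit 234) (nat_lit 760) (nat_lit 0) (XT.nd (nat_lit 78) (nat_lit 380) (nat_lit 0) (XT.lf (nat_lit 0) (nat_lit 3003149457) (nat_lit 456) (nat_lit 6885321438) (nat_lit 76) (nat_lit 3489061832) (nat_lit 121) (nat_lit 5) (nat_lit 127) (nat_lit 5) (nat_lit 122) (nat_lit 5) (nat_lit 472) (nat_lit 387) (nat_lit 281)) (XT.nd (nat_lit 78) (nat_lit 380) (nat_lit 0) (XT.lf (nat_lit 0) (nat_lit 5700200326) (nat_lit 456) (nat_lit 255006869) (nat_lit 76) (nat_lit 7594449815) (nat_lit 121) (nat_lit 5) (nat_lit 127) (nat_lit 5) (nat_lit 122) (nat_lit 5) (nat_lit 473) (nat_lit 387) (nat_lit 280)) (XT.lf (nat_lit 0) (nat_lit 6568512531) (nat_lit 380) (nat_lit 1907300376) (nat_lit 456) (nat_lit 5248930840) (nat_lit 116) (nat_lit 5) (nat_lit 121) (nat_lit 5) (nat_lit 122) (nat_lit 5) (nat_lit 474) (nat_lit 387) (nat_lit 279)))) (XT.nd (nat_lit 156) (nat_lit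 304) (nat_lit 0) (XT.nd (nat_lit 78) (nat_lit 456) (nat_lit 0) (XT.lf (nat_lit 0) (nat_lit 11305197430) (nat_lit 456) (nat_lit 411474711) (nat_lit 76) (nat_lit 2186707023) (nat_lit 116) (nat_lit 5) (nat_lit 122) (nat_lit 5) (nat_lit 117) (nat_lit 5) (nat_lit 475) (nat_lit 387) (nat_lit 278)) (XT.lf (nat_lit 0) (nat_lit 141833589) (nat_lit 456) (nat_lit 7569979141) (nat_lit 76) (nat_lit 6373019797) (nat_lit 110) (nat_lit 5) (nat_lit 116) (nat_lit 5) (nat_lit 111) (nat_lit 5) (nat_lit 476) (nat_lit 387) (nat_lit 277))) (XT.nd (nat_lit 78) (nat_lit 304) (nat_lit 0) (XT.lf (nat_lit 0) (nat_lit 2887190443) (nat_lit 456) (nat_lit 727073398) (nat_lit 76) (nat_lit 10655612458) (nat_lit 110) (nat_lit 5) (nat_lit 116) (nat_lit 5) (nat_lit 111) (nat_lit 5) (nat_lit 477) (nat_lit 387) (nat_lit 276)) (XT.lf (nat_lit 0) (nat_lit 5715180783) (nat_lit 380) (nat_lit 8151369959) (nat_lit 76) (nat_lit 591526891) (nat_lit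 106) (nat_lit 5) (nat_lit 111) (nat_lit 5) (nat_lit 107) (nat_lit 5) (nat_lit 478) (nat_lit 387) (nat_lit 275))))) (XT.nd (nat_lit 234) (nat_lit 684) (nat_lit 0) (XT.nd (nat_lit 78) (nat_lit 380) (nat_lit 0) (XT.lf (nat_lit 0) (nat_lit 8611565962) (nat_lit 380) (nat_lit 1207809723) (nat_lit 76) (nat_lit 4830441602) (nat_lit 106) (nat_lit 5) (nat_lit 111) (nat_lit 5) (nat_lit 107) (nat_lit 5) (nat_lit 479) (nat_lit 387) (nat_lit 274)) (XT.nd (nat_lit 78) (nat_lit 0) (nat_lit 0) (XT.lf (nat_lit 0) (nat_lit 5927939754) (nat_lit 380) (nat_lit 5659748925) (nat_lit 456) (nat_lit 3257277636) (nat_lit 101) (nat_lit 5) (nat_lit 106) (nat_lit 5) (nat_lit 107) (nat_lit 5) (nat_lit 480) (nat_lit 387) (nat_lit 273)) (XT.lf (nat_lit 0) (nat_lit 13198509154) (nat_lit 380) (nat_lit 1416420922) (nat_lit 456) (nat_lit 429266892) (nat_lit 101) (nat_lit 5) (nat_lit 106) (nat_lit 5) (nat_lit 107) (nat_lit 5) (nat_lit 481)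 (nat_lit 387) (nat_lit 272)))) (XT.nd (nat_lit 156) (nat_lit 304) (nat_lit 0) (XT.nd (nat_lit 78) (nat_lit 0) (nat_lit 0) (XT.lf (nat_lit 0) (nat_lit 2461039359) (nat_lit 380) (nat_lit 9868008804) (nat_lit 76) (nat_lit 2917296656) (nat_lit 96) (nat_lit 5) (nat_lit 101) (nat_lit 5) (nat_lit 97) (nat_lit 5) (nat_lit 482) (nat_lit 387) (nat_lit 271)) (XT.lf (nat_lit 0) (nat_lit 5409069135) (nat_lit 380) (nat_lit 2716876720) (nat_lit 76) (nat_lit 7326429676) (nat_lit 96) (nat_lit 5) (nat_lit 101) (nat_lit 5) (nat_lit 97) (nat_lit 5) (nat_lit 483) (nat_lit 387) (nat_lit 270))) (XT.nd (nat_lit 78) (nat_lit 0) (nat_lit 0) (XT.lf (nat_lit 0) (nat_lit 4614123667) (nat_lit 304) (nat_lit 3816023279) (nat_lit 380) (nat_lit 7232107924) (nat_lit 92) (nat_lit 5) (nat_lit 96) (nat_lit 5) (nat_lit 97) (nat_lit 5) (nat_lit 484) (nat_lit 387) (nat_lit 269)) (XT.lf (nat_lit 0) (nat_lit 11518002462) (nat_lit 380) (nat_lit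 3775069078) (nat_lit 76) (nat_lit 583142705) (nat_lit 92) (nat_lit 5) (nat_lit 97) (nat_lit 5) (nat_lit 93) (nat_lit 5) (nat_lit 485) (nat_lit 387) (nat_lit 268))))))) (XT.nd (nat_lit 1092) (nat_lit 1520) (nat_lit 0) (XT.nd (nat_lit 546) (nat_lit 912) (nat_lit 0) (XT.nd (nat_lit 234) (nat_lit 304) (nat_lit 0) (XT.nd (nat_lit 78) (nat_lit 380) (nat_lit 0) (XT.lf (nat_lit 0) (nat_lit 3642636010) (nat_lit 304) (nat_lit 11058447590) (nat_lit 380) (nat_lit 1392709220) (nat_lit 88) (nat_lit 5) (nat_lit 92) (nat_lit 5) (nat_lit 93) (nat_lit 5) (nat_lit 486) (nat_lit 387) (nat_lit 267)) (XT.nd (nat_lit 78) (nat_lit 304) (nat_lit 0) (XT.lf (nat_lit 0) (nat_lit 1620787143) (nat_lit 380) (nat_lit 5089494355) (nat_lit 76) (nat_lit 9605036772) (nat_lit 87) (nat_lit 5) (nat_lit 92) (nat_lit 5) (nat_lit 88) (nat_lit 5) (nat_lit 487) (nat_lit 387) (nat_lit 266)) (XT.lf (nat_lit 0) (nat_lit 2418981096) (nat_lit 304) (nat_lit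 2257537820) (nat_lit 380) (nat_lit 11864567762) (nat_lit 83) (nat_lit 5) (nat_lit 87) (nat_lit 5) (nat_lit 88) (nat_lit 5) (nat_lit 488) (nat_lit 387) (nat_lit 265)))) (XT.nd (nat_lit 156) (nat_lit 76) (nat_lit 0) (XT.nd (nat_lit 78) (nat_lit 228) (nat_lit 0) (XT.lf (nat_lit 0) (nat_lit 7827564122) (nat_lit 380) (nat_lit 6662157766) (nat_lit 76) (nat_lit 2280973259) (nat_lit 83) (nat_lit 5) (nat_lit 88) (nat_lit 5) (nat_lit 84) (nat_lit 5) (nat_lit 489) (nat_lit 387) (nat_lit 264)) (XT.lf (nat_lit 0) (nat_lit 921547478) (nat_lit 228) (nat_lit 10126299470) (nat_lit 304) (nat_lit 5956933002) (nat_lit 80) (nat_lit 5) (nat_lit 83) (nat_lit 5) (nat_lit 84) (nat_lit 5) (nat_lit 490) (nat_lit 387) (nat_lit 263))) (XT.nd (nat_lit 78) (nat_lit 76) (nat_lit 0) (XT.lf (nat_lit 0) (nat_lit 8724805456) (nat_lit 228) (nat_lit 5637862348) (nat_lit 304) (nat_lit 2880284330) (nat_lit 80) (nat_lit 5) (nat_lit 83) (nat_lit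 5) (nat_lit 84) (nat_lit 5) (nat_lit 491) (nat_lit 387) (nat_lit 262)) (XT.lf (nat_lit 0) (nat_lit 240123815) (nat_lit 304) (nat_lit 825621763) (nat_lit 76) (nat_lit 16420404525) (nat_lit 79) (nat_lit 5) (nat_lit 83) (nat_lit 5) (nat_lit 80) (nat_lit 5) (nat_lit 492) (nat_lit 387) (nat_lit 261))))) (XT.nd (nat_lit 234) (nat_lit 380) (nat_lit 0) (XT.nd (nat_lit 78) (nat_lit 228) (nat_lit 0) (XT.lf (nat_lit 0) (nat_lit 3439960974) (nat_lit 380) (nat_lit 10684256985) (nat_lit 76) (nat_lit 3608509395) (nat_lit 75) (nat_lit 5) (nat_lit 80) (nat_lit 5) (nat_lit 76) (nat_lit 5) (nat_lit 493) (nat_lit 387) (nat_lit 260)) (XT.nd (nat_lit 78) (nat_lit 228) (nat_lit 0) (XT.lf (nat_lit 0) (nat_lit 6702407643) (nat_lit 380) (nat_lit 2921831629) (nat_lit 76) (nat_lit 8360032319) (nat_lit 75) (nat_lit 5) (nat_lit 80) (nat_lit 5) (nat_lit 76) (nat_lit 5) (nat_lit 494) (nat_lit 387) (nat_lit 259)) (XT.lf (nat_lit 0) (nat_lit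 5040530538) (nat_lit 228) (nat_lit 5008551921) (nat_lit 304) (nat_lit 8191392215) (nat_lit 72) (nat_lit 5) (nat_lit 75) (nat_lit 5) (nat_lit 76) (nat_lit 5) (nat_lit 495) (nat_lit 387) (nat_lit 258)))) (XT.nd (nat_lit 156) (nat_lit 76) (nat_lit 0) (XT.nd (nat_lit 78) (nat_lit 304) (nat_lit 0) (XT.lf (nat_lit 0) (nat_lit 13180467901) (nat_lit 228) (nat_lit 288214048) (nat_lit 304) (nat_lit 5033007447) (nat_lit 72) (nat_lit 5) (nat_lit 75) (nat_lit 5) (nat_lit 76) (nat_lit 5) (nat_lit 496) (nat_lit 387) (nat_lit 257)) (XT.lf (nat_lit 0) (nat_lit 2700011007) (nat_lit 304) (nat_lit 14290184273) (nat_lit 380) (nat_lit 1777269947) (nat_lit 68) (nat_lit 5) (nat_lit 72) (nat_lit 5) (nat_lit 73) (nat_lit 5) (nat_lit 497) (nat_lit 387) (nat_lit 256))) (XT.nd (nat_lit 78) (nat_lit 0) (nat_lit 0) (XT.lf (nat_lit 0) (nat_lit 1547825458) (nat_lit 380) (nat_lit 8117343187) (nat_lit 76) (nat_lit 9372704715) (nat_lit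 67) (nat_lit 5) (nat_lit 72) (nat_lit 5) (nat_lit 68) (nat_lit 5) (nat_lit 498) (nat_lit 387) (nat_lit 255)) (XT.lf (nat_lit 0) (nat_lit 4902543588) (nat_lit 380) (nat_lit 40717923) (nat_lit 76) (nat_lit 14370461654) (nat_lit 67) (nat_lit 5) (nat_lit 72) (nat_lit 5) (nat_lit 68) (nat_lit 5) (nat_lit 499) (nat_lit 387) (nat_lit 254)))))) (XT.nd (nat_lit 546) (nat_lit 760) (nat_lit 0) (XT.nd (nat_lit 234) (nat_lit 304) (nat_lit 0) (XT.nd (nat_lit 78) (nat_lit 228) (nat_lit 0) (XT.lf (nat_lit 0) (nat_lit 8285797816) (nat_lit 228) (nat_lit 79508310) (nat_lit 304) (nat_lit 11228971540) (nat_lit 64) (nat_lit 5) (nat_lit 67) (nat_lit 5) (nat_lit 68) (nat_lit 5) (nat_lit 500) (nat_lit 387) (nat_lit 253)) (XT.nd (nat_lit 78) (nat_lit 228) (nat_lit 0) (XT.lf (nat_lit 0) (nat_lit 11916518686) (nat_lit 304) (nat_lit 3153128686) (nat_lit 76) (nat_lit 4810418560) (nat_lit 64) (nat_lit 5) (nat_lit 68) (nat_lit 5) (nat_lit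 65) (nat_lit 5) (nat_lit 501) (nat_lit 387) (nat_lit 252)) (XT.lf (nat_lit 0) (nat_lit 5213183787) (nat_lit 228) (nat_lit 10347421836) (nat_lit 304) (nat_lit 4610533780) (nat_lit 61) (nat_lit 5) (nat_lit 64) (nat_lit 5) (nat_lit 65) (nat_lit 5) (nat_lit 502) (nat_lit 387) (nat_lit 251)))) (XT.nd (nat_lit 156) (nat_lit 0) (nat_lit 0) (XT.nd (nat_lit 78) (nat_lit 304) (nat_lit 0) (XT.lf (nat_lit 0) (nat_lit 13769704508) (nat_lit 228) (nat_lit 5516621701) (nat_lit 304) (nat_lit 1181539409) (nat_lit 61) (nat_lit 5) (nat_lit 64) (nat_lit 5) (nat_lit 65) (nat_lit 5) (nat_lit 503) (nat_lit 387) (nat_lit 250)) (XT.lf (nat_lit 0) (nat_lit 1714640910) (nat_lit 228) (nat_lit 569900682) (nat_lit 304) (nat_lit 18485712451) (nat_lit 57) (nat_lit 5) (nat_lit 60) (nat_lit 5) (nat_lit 61) (nat_lit 5) (nat_lit 504) (nat_lit 387) (nat_lit 249))) (XT.nd (nat_lit 78) (nat_lit 0) (nat_lit 0) (XT.lf (nat_lit 0) (nat_lit 5866258659)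 (nat_lit 304) (nat_lit 10748189553) (nat_lit 76) (nat_lit 4462849072) (nat_lit 57) (nat_lit 5) (nat_lit 61) (nat_lit 5) (nat_lit 58) (nat_lit 5) (nat_lit 505) (nat_lit 387) (nat_lit 248)) (XT.lf (nat_lit 0) (nat_lit 9511438206) (nat_lit 304) (nat_lit 2297715779) (nat_lit 76) (nat_lit 9581496675) (nat_lit 57) (nat_lit 5) (nat_lit 61) (nat_lit 5) (nat_lit 58) (nat_lit 5) (nat_lit 506) (nat_lit 387) (nat_lit 247))))) (XT.nd (nat_lit 234) (nat_lit 304) (nat_lit 0) (XT.nd (nat_lit 78) (nat_lit 228) (nat_lit 0) (XT.lf (nat_lit 0) (nat_lit 6386583462) (nat_lit 228) (nat_lit 6872692016) (nat_lit 304) (nat_lit 8450406263) (nat_lit 54) (nat_lit 5) (nat_lit 57) (nat_lit 5) (nat_lit 58) (nat_lit 5) (nat_lit 507) (nat_lit 387) (nat_lit 246)) (XT.nd (nat_lit 78) (nat_lit 228) (nat_lit 0) (XT.lf (nat_lit 0) (nat_lit 15256894273) (nat_lit 228) (nat_lit 1828989751) (nat_lit 304) (nat_lit 4949138735) (nat_lit 54) (nat_lit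 5) (nat_lit 57) (nat_lit 5) (nat_lit 58) (nat_lit 5) (nat_lit 508) (nat_lit 387) (nat_lit 245)) (XT.lf (nat_lit 0) (nat_lit 1922792859) (nat_lit 228) (nat_lit 19088820165) (nat_lit 304) (nat_lit 1354811306) (nat_lit 51) (nat_lit 5) (nat_lit 54) (nat_lit 5) (nat_lit 55) (nat_lit 5) (nat_lit 509) (nat_lit 387) (nat_lit 244)))) (XT.nd (nat_lit 156) (nat_lit 228) (nat_lit 0) (XT.nd (nat_lit 78) (nat_lit 0) (nat_lit 0) (XT.lf (nat_lit 0) (nat_lit 2327587484) (nat_lit 304) (nat_lit 11860025966) (nat_lit 76) (nat_lit 8515615637) (nat_lit 50) (nat_lit 5) (nat_lit 54) (nat_lit 5) (nat_lit 51) (nat_lit 5) (nat_lit 510) (nat_lit 387) (nat_lit 243)) (XT.lf (nat_lit 0) (nat_lit 6054334528) (nat_lit 304) (nat_lit 3132027257) (nat_lit 76) (nat_lit 13860457405) (nat_lit 50) (nat_lit 5) (nat_lit 54) (nat_lit 5) (nat_lit 51) (nat_lit 5) (nat_lit 511) (nat_lit 387) (nat_lit 242))) (XT.nd (nat_lit 78) (nat_lit 0) (nat_lit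 0) (XT.lf (nat_lit 0) (nat_lit 5829032542) (nat_lit 228) (nat_lit 4053473290) (nat_lit 304) (nat_lit 13514242555) (nat_lit 47) (nat_lit 5) (nat_lit 50) (nat_lit 5) (nat_lit 51) (nat_lit 5) (nat_lit 512) (nat_lit 387) (nat_lit 241)) (XT.lf (nat_lit 0) (nat_lit 13805169288) (nat_lit 304) (nat_lit 8767307295) (nat_lit 76) (nat_lit 1180845990) (nat_lit 47) (nat_lit 5) (nat_lit 51) (nat_lit 5) (nat_lit 48) (nat_lit 5) (nat_lit 513) (nat_lit 387) (nat_lit 240))))))))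
noncomputable def xc123 : XT := (XT.nd (nat_lit 50700) (nat_lit 0) (nat_lit 20672) (XT.nd (nat_lit 49608) (nat_lit 0) (nat_lit 38000) (XT.nd (nat_lit 468) (nat_lit 456) (nat_lit 0) (XT.nd (nat_lit 234) (nat_lit 228) (nat_lit 0) (XT.nd (nat_lit 78) (nat_lit 76) (nat_lit 0) (XT.lf (nat_lit 0) (nat_lit 166799425) (nat_lit 152) (nat_lit 17656724715) (nat_lit 228) (nat_lit 6293164222) (nat_lit 45) (nat_lit 5) (nat_lit 47) (nat_lit 5) (nat_lit 48) (nat_lit 5) (nat_lit 514) (nat_lit 387) (nat_lit 239)) (XT.nd (nat_lit 78) (nat_lit 76) (nat_lit 0) (XT.lf (nat_lit 0) (nat_lit 9380894168) (nat_lit 152) (nat_lit 12589591855) (nat_lit 228) (nat_lit 2515875429) (nat_lit 45) (nat_lit 5) (nat_lit 47) (nat_lit 5) (nat_lit 48) (nat_lit 5) (nat_lit 515) (nat_lit 387) (nat_lit 238)) (XT.lf (nat_lit 0) (nat_lit 1308965669) (nat_lit 228) (nat_lit 6110174622) (nat_lit 76) (nat_lit 17444327887) (nat_lit 44) (nat_lit 5) (nat_lit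 47) (nat_lit 5) (nat_lit 45) (nat_lit 5) (nat_lit 516) (nat_lit 387) (nat_lit 237)))) (XT.nd (nat_lit 78) (nat_lit 0) (nat_lit 0) (XT.lf (nat_lit 0) (nat_lit 3071650663) (nat_lit 228) (nat_lit 2114686108) (nat_lit 304) (nat_lit 20061257762) (nat_lit 41) (nat_lit 5) (nat_lit 44) (nat_lit 5) (nat_lit 45) (nat_lit 5) (nat_lit 517) (nat_lit 387) (nat_lit 236)) (XT.nd (nat_lit 78) (nat_lit 0) (nat_lit 0) (XT.lf (nat_lit 0) (nat_lit 9193722061) (nat_lit 304) (nat_lit 13157365573) (nat_lit 76) (nat_lit 3287270867) (nat_lit 41) (nat_lit 5) (nat_lit 45) (nat_lit 5) (nat_lit 42) (nat_lit 5) (nat_lit 518) (nat_lit 387) (nat_lit 235)) (XT.lf (nat_lit 0) (nat_lit 13285253570) (nat_lit 304) (nat_lit 3989135209) (nat_lit 76) (nat_lit 8762473334) (nat_lit 41) (nat_lit 5) (nat_lit 45) (nat_lit 5) (nat_lit 42) (nat_lit 5) (nat_lit 519) (nat_lit 387) (nat_lit 234))))) (XT.nd (nat_lit 234) (nat_lit 304) (nat_lit 0) (XT.nd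 (nat_lit 78) (nat_lit 0) (nat_lit 0) (XT.lf (nat_lit 0) (nat_lit 5417119039) (nat_lit 152) (nat_lit 12066858364) (nat_lit 228) (nat_lit 8958855410) (nat_lit 39) (nat_lit 5) (nat_lit 41) (nat_lit 5) (nat_lit 42) (nat_lit 5) (nat_lit 520) (nat_lit 387) (nat_lit 233)) (XT.nd (nat_lit 78) (nat_lit 0) (nat_lit 0) (XT.lf (nat_lit 0) (nat_lit 15049292749) (nat_lit 152) (nat_lit 6734428980) (nat_lit 228) (nat_lit 5072864444) (nat_lit 39) (nat_lit 5) (nat_lit 41) (nat_lit 5) (nat_lit 42) (nat_lit 5) (nat_lit 521) (nat_lit 387) (nat_lit 232)) (XT.lf (nat_lit 0) (nat_lit 24858149735) (nat_lit 152) (nat_lit 1301778674) (nat_lit 228) (nat_lit 1118880926) (nat_lit 39) (nat_lit 5) (nat_lit 41) (nat_lit 5) (nat_lit 42) (nat_lit 5) (nat_lit 522) (nat_lit 387) (nat_lit 231)))) (XT.nd (nat_lit 156) (nat_lit 0) (nat_lit 0) (XT.nd (nat_lit 78) (nat_lit 0) (nat_lit 0) (XT.lf (nat_lit 0) (nat_lit 2941306321) (nat_lit 304) (nat_lit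 20522656207) (nat_lit 76) (nat_lit 4243833062) (nat_lit 35) (nat_lit 5) (nat_lit 39) (nat_lit 5) (nat_lit 36) (nat_lit 5) (nat_lit 523) (nat_lit 387) (nat_lit 230)) (XT.lf (nat_lit 0) (nat_lit 7083332161) (nat_lit 304) (nat_lit 11161129794) (nat_lit 76) (nat_lit 9900443213) (nat_lit 35) (nat_lit 5) (nat_lit 39) (nat_lit 5) (nat_lit 36) (nat_lit 5) (nat_lit 524) (nat_lit 387) (nat_lit 229))) (XT.nd (nat_lit 48672) (nat_lit 0) (nat_lit 40812) (XT.lf (nat_lit 0) (nat_lit 11299012374) (nat_lit 304) (nat_lit 1627884320) (nat_lit 76) (nat_lit 15664047742) (nat_lit 35) (nat_lit 5) (nat_lit 39) (nat_lit 5) (nat_lit 36) (nat_lit 5) (nat_lit 525) (nat_lit 387) (nat_lit 228)) (XT.lf (nat_lit 0) (nat_lit 720607218) (nat_lit 0) (nat_lit 720607218) (nat_lit 532) (nat_lit 1843291796) (nat_lit 572) (nat_lit 5) (nat_lit 572) (nat_lit 3) (nat_lit 579) (nat_lit 3) (nat_lit 388) (nat_lit 388) (nat_lit 364)))))) (XT.nd (nat_lit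 546) (nat_lit 1520) (nat_lit 0) (XT.nd (nat_lit 234) (nat_lit 684) (nat_lit 0) (XT.nd (nat_lit 78) (nat_lit 608) (nat_lit 0) (XT.lf (nat_lit 0) (nat_lit 4452096528) (nat_lit 0) (nat_lit 734480104) (nat_lit 532) (nat_lit 1398918011) (nat_lit 572) (nat_lit 5) (nat_lit 572) (nat_lit 3) (nat_lit 579) (nat_lit 3) (nat_lit 389) (nat_lit 388) (nat_lit 363)) (XT.nd (nat_lit 78) (nat_lit 0) (nat_lit 0) (XT.lf (nat_lit 0) (nat_lit 868068928) (nat_lit 608) (nat_lit 5707713604) (nat_lit 684) (nat_lit 27581286) (nat_lit 564) (nat_lit 5) (nat_lit 572) (nat_lit 5) (nat_lit 573) (nat_lit 5) (nat_lit 390) (nat_lit 388) (nat_lit 362)) (XT.lf (nat_lit 0) (nat_lit 3121950820) (nat_lit 608) (nat_lit 2653326198) (nat_lit 684) (nat_lit 847016007) (nat_lit 564) (nat_lit 5) (nat_lit 572) (nat_lit 5) (nat_lit 573) (nat_lit 5) (nat_lit 391) (nat_lit 388) (nat_lit 361)))) (XT.nd (nat_lit 156) (nat_lit 0) (nat_lit 0) (XT.nd (nat_lit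 78) (nat_lit 684) (nat_lit 0) (XT.lf (nat_lit 76) (nat_lit 436504023) (nat_lit 0) (nat_lit 4929391455) (nat_lit 684) (nat_lit 1276897128) (nat_lit 565) (nat_lit 5) (nat_lit 564) (nat_lit 5) (nat_lit 573) (nat_lit 5) (nat_lit 392) (nat_lit 388) (nat_lit 360)) (XT.lf (nat_lit 0) (nat_lit 938560178) (nat_lit 684) (nat_lit 3077814846) (nat_lit 760) (nat_lit 2648075592) (nat_lit 555) (nat_lit 5) (nat_lit 564) (nat_lit 5) (nat_lit 565) (nat_lit 5) (nat_lit 393) (nat_lit 388) (nat_lit 359))) (XT.nd (nat_lit 78) (nat_lit 0) (nat_lit 0) (XT.lf (nat_lit 76) (nat_lit 74361175) (nat_lit 0) (nat_lit 3051109292) (nat_lit 760) (nat_lit 3562103897) (nat_lit 556) (nat_lit 5) (nat_lit 555) (nat_lit 5) (nat_lit 565) (nat_lit 5) (nat_lit 394) (nat_lit 388) (nat_lit 358)) (XT.lf (nat_lit 76) (nat_lit 3300121618) (nat_lit 0) (nat_lit 2021294454) (nat_lit 760) (nat_lit 1390523097) (nat_lit 556) (nat_lit 5) (nat_lit 555) (nat_lit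 5) (nat_lit 565) (nat_lit 5) (nat_lit 395) (nat_lit 388) (nat_lit 357))))) (XT.nd (nat_lit 234) (nat_lit 760) (nat_lit 0) (XT.nd (nat_lit 78) (nat_lit 0) (nat_lit 76) (XT.lf (nat_lit 0) (nat_lit 758963575) (nat_lit 760) (nat_lit 183123798) (nat_lit 836) (nat_lit 5795772324) (nat_lit 545) (nat_lit 5) (nat_lit 555) (nat_lit 5) (nat_lit 556) (nat_lit 5) (nat_lit 396) (nat_lit 388) (nat_lit 356)) (XT.nd (nat_lit 78) (nat_lit 0) (nat_lit 0) (XT.lf (nat_lit 0) (nat_lit 2900770871) (nat_lit 760) (nat_lit 3655262010) (nat_lit 836) (nat_lit 208802577) (nat_lit 546) (nat_lit 5) (nat_lit 556) (nat_lit 5) (nat_lit 557) (nat_lit 5) (nat_lit 397) (nat_lit 388) (nat_lit 355)) (XT.lf (nat_lit 0) (nat_lit 5040248335) (nat_lit 760) (nat_lit 359803536) (nat_lit 836) (nat_lit 1393280269) (nat_lit 546) (nat_lit 5) (nat_lit 556) (nat_lit 5) (nat_lit 557) (nat_lit 5) (nat_lit 398) (nat_lit 388) (nat_lit 354)))) (XT.nd (nat_lit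 156) (nat_lit 0) (nat_lit 0) (XT.nd (nat_lit 78) (nat_lit 0) (nat_lit 0) (XT.lf (nat_lit 0) (nat_lit 362513085) (nat_lit 836) (nat_lit 3815676041) (nat_lit 912) (nat_lit 2644879846) (nat_lit 535) (nat_lit 5) (nat_lit 546) (nat_lit 5) (nat_lit 547) (nat_lit 5) (nat_lit 399) (nat_lit 388) (nat_lit 353)) (XT.lf (nat_lit 0) (nat_lit 2448190904) (nat_lit 836) (nat_lit 449929217) (nat_lit 912) (nat_lit 3956097389) (nat_lit 535) (nat_lit 5) (nat_lit 546) (nat_lit 5) (nat_lit 547) (nat_lit 5) (nat_lit 400) (nat_lit 388) (nat_lit 352))) (XT.nd (nat_lit 78) (nat_lit 0) (nat_lit 0) (XT.lf (nat_lit 76) (nat_lit 2991224053) (nat_lit 0) (nat_lit 1553573726) (nat_lit 912) (nat_lit 2341879070) (nat_lit 536) (nat_lit 5) (nat_lit 535) (nat_lit 5) (nat_lit 547) (nat_lit 5) (nat_lit 401) (nat_lit 388) (nat_lit 351)) (XT.lf (nat_lit 76) (nat_lit 6476365230) (nat_lit 0) (nat_lit 160568892) (nat_lit 912) (nat_lit 283850033)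 (nat_lit 536) (nat_lit 5) (nat_lit 535) (nat_lit 5) (nat_lit 547) (nat_lit 5) (nat_lit 402) (nat_lit 388) (nat_lit 350))))))) (XT.nd (nat_lit 1092) (nat_lit 9728) (nat_lit 0) (XT.nd (nat_lit 546) (nat_lit 4864) (nat_lit 0) (XT.nd (nat_lit 234) (nat_lit 1900) (nat_lit 0) (XT.nd (nat_lit 78) (nat_lit 0) (nat_lit 0) (XT.lf (nat_lit 0) (nat_lit 1771149980) (nat_lit 912) (nat_lit 3891383046) (nat_lit 988) (nat_lit 1293280453) (nat_lit 524) (nat_lit 5) (nat_lit 536) (nat_lit 5) (nat_lit 537) (nat_lit 5) (nat_lit 403) (nat_lit 388) (nat_lit 349)) (XT.nd (nat_lit 78) (nat_lit 0) (nat_lit 0) (XT.lf (nat_lit 0) (nat_lit 3819545431) (nat_lit 912) (nat_lit 376946317) (nat_lit 988) (nat_lit 2795958839) (nat_lit 524) (nat_lit 5) (nat_lit 536) (nat_lit 5) (nat_lit 537) (nat_lit 5) (nat_lit 404) (nat_lit 388) (nat_lit 348)) (XT.lf (nat_lit 76) (nat_lit 3218638593) (nat_lit 0) (nat_lit 2664135608) (nat_lit 988) (nat_lit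 1147634269) (nat_lit 525) (nat_lit 5) (nat_lit 524) (nat_lit 5) (nat_lit 537) (nat_lit 5) (nat_lit 405) (nat_lit 388) (nat_lit 347)))) (XT.nd (nat_lit 156) (nat_lit 912) (nat_lit 0) (XT.nd (nat_lit 78) (nat_lit 0) (nat_lit 76) (XT.lf (nat_lit 0) (nat_lit 861964619) (nat_lit 988) (nat_lit 215638535) (nat_lit 1064) (nat_lit 5992348651) (nat_lit 511) (nat_lit 5) (nat_lit 524) (nat_lit 5) (nat_lit 525) (nat_lit 5) (nat_lit 406) (nat_lit 388) (nat_lit 346)) (XT.lf (nat_lit 0) (nat_lit 2876898156) (nat_lit 988) (nat_lit 3655491756) (nat_lit 76) (nat_lit 578195758) (nat_lit 512) (nat_lit 5) (nat_lit 525) (nat_lit 5) (nat_lit 513) (nat_lit 5) (nat_lit 407) (nat_lit 388) (nat_lit 345))) (XT.nd (nat_lit 78) (nat_lit 0) (nat_lit 0) (XT.lf (nat_lit 0) (nat_lit 11106234) (nat_lit 988) (nat_lit 4884710029) (nat_lit 1064) (nat_lit 2257002597) (nat_lit 499) (nat_lit 5) (nat_lit 512) (nat_lit 5) (nat_lit 513) (nat_lit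 5) (nat_lit 408) (nat_lit 388) (nat_lit 344)) (XT.lf (nat_lit 0) (nat_lit 3768744041) (nat_lit 988) (nat_lit 3166594876) (nat_lit 1064) (nat_lit 261012450) (nat_lit 499) (nat_lit 5) (nat_lit 512) (nat_lit 5) (nat_lit 513) (nat_lit 5) (nat_lit 409) (nat_lit 388) (nat_lit 343))))) (XT.nd (nat_lit 234) (nat_lit 2584) (nat_lit 0) (XT.nd (nat_lit 78) (nat_lit 1140) (nat_lit 0) (XT.lf (nat_lit 0) (nat_lit 321616711) (nat_lit 1064) (nat_lit 1388310545) (nat_lit 1140) (nat_lit 5531487519) (nat_lit 484) (nat_lit 5) (nat_lit 498) (nat_lit 5) (nat_lit 499) (nat_lit 5) (nat_lit 410) (nat_lit 388) (nat_lit 342)) (XT.nd (nat_lit 78) (nat_lit 1140) (nat_lit 0) (XT.lf (nat_lit 0) (nat_lit 3699657525) (nat_lit 1140) (nat_lit 3131916720) (nat_lit 76) (nat_lit 456169131) (nat_lit 484) (nat_lit 5) (nat_lit 499) (nat_lit 5) (nat_lit 485) (nat_lit 5) (nat_lit 411) (nat_lit 388) (nat_lit 341)) (XT.lf (nat_lit 0) (nat_lit 699704030)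 (nat_lit 1140) (nat_lit 5001006792) (nat_lit 1216) (nat_lit 1634911833) (nat_lit 469) (nat_lit 5) (nat_lit 484) (nat_lit 5) (nat_lit 485) (nat_lit 5) (nat_lit 412) (nat_lit 388) (nat_lit 340)))) (XT.nd (nat_lit 156) (nat_lit 1292) (nat_lit 0) (XT.nd (nat_lit 78) (nat_lit 1216) (nat_lit 0) (XT.lf (nat_lit 0) (nat_lit 331879543) (nat_lit 1216) (nat_lit 2768487121) (nat_lit 76) (nat_lit 4284514200) (nat_lit 468) (nat_lit 5) (nat_lit 484) (nat_lit 5) (nat_lit 469) (nat_lit 5) (nat_lit 413) (nat_lit 388) (nat_lit 339)) (XT.lf (nat_lit 0) (nat_lit 1148767456) (nat_lit 1216) (nat_lit 1133732999) (nat_lit 1292) (nat_lit 5153131463) (nat_lit 452) (nat_lit 5) (nat_lit 468) (nat_lit 5) (nat_lit 469) (nat_lit 5) (nat_lit 414) (nat_lit 388) (nat_lit 338))) (XT.nd (nat_lit 78) (nat_lit 1292) (nat_lit 0) (XT.lf (nat_lit 0) (nat_lit 4256063003) (nat_lit 1292) (nat_lit 2343391924) (nat_lit 76) (nat_lit 888314992) (nat_lit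 452) (nat_lit 5) (nat_lit 469) (nat_lit 5) (nat_lit 453) (nat_lit 5) (nat_lit 415) (nat_lit 388) (nat_lit 337)) (XT.lf (nat_lit 0) (nat_lit 1661394091) (nat_lit 1292) (nat_lit 4586355650) (nat_lit 1368) (nat_lit 1293677398) (nat_lit 435) (nat_lit 5) (nat_lit 452) (nat_lit 5) (nat_lit 453) (nat_lit 5) (nat_lit 416) (nat_lit 388) (nat_lit 336)))))) (XT.nd (nat_lit 546) (nat_lit 5244) (nat_lit 0) (XT.nd (nat_lit 234) (nat_lit 3040) (nat_lit 0) (XT.nd (nat_lit 78) (nat_lit 1368) (nat_lit 0) (XT.lf (nat_lit 0) (nat_lit 650606294) (nat_lit 1368) (nat_lit 1854539965) (nat_lit 76) (nat_lit 5091441082) (nat_lit 434) (nat_lit 5) (nat_lit 452) (nat_lit 5) (nat_lit 435) (nat_lit 5) (nat_lit 417) (nat_lit 388) (nat_lit 335)) (XT.nd (nat_lit 78) (nat_lit 0) (nat_lit 0) (XT.lf (nat_lit 0) (nat_lit 2240715586) (nat_lit 1368) (nat_lit 351697429) (nat_lit 1444) (nat_lit 5060794179) (nat_lit 416) (nat_lit 5) (nat_lit 434)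 (nat_lit 5) (nat_lit 435) (nat_lit 5) (nat_lit 418) (nat_lit 388) (nat_lit 334)) (XT.lf (nat_lit 0) (nat_lit 4559553108) (nat_lit 1444) (nat_lit 1311965654) (nat_lit 76) (nat_lit 1839756484) (nat_lit 416) (nat_lit 5) (nat_lit 435) (nat_lit 5) (nat_lit 417) (nat_lit 5) (nat_lit 419) (nat_lit 388) (nat_lit 333)))) (XT.nd (nat_lit 156) (nat_lit 1520) (nat_lit 0) (XT.nd (nat_lit 78) (nat_lit 76) (nat_lit 0) (XT.lf (nat_lit 0) (nat_lit 2874361105) (nat_lit 1444) (nat_lit 3675403616) (nat_lit 1520) (nat_lit 1221110215) (nat_lit 397) (nat_lit 5) (nat_lit 416) (nat_lit 5) (nat_lit 417) (nat_lit 5) (nat_lit 420) (nat_lit 388) (nat_lit 332)) (XT.lf (nat_lit 0) (nat_lit 710142202) (nat_lit 1520) (nat_lit 706113378) (nat_lit 76) (nat_lit 6415920206) (nat_lit 396) (nat_lit 5) (nat_lit 416) (nat_lit 5) (nat_lit 397) (nat_lit 5) (nat_lit 421) (nat_lit 388) (nat_lit 331))) (XT.nd (nat_lit 78) (nat_lit 0) (nat_lit 0)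 (XT.lf (nat_lit 0) (nat_lit 2656608996) (nat_lit 1596) (nat_lit 4325227563) (nat_lit 76) (nat_lit 912888127) (nat_lit 376) (nat_lit 5) (nat_lit 397) (nat_lit 5) (nat_lit 377) (nat_lit 5) (nat_lit 422) (nat_lit 388) (nat_lit 330)) (XT.lf (nat_lit 0) (nat_lit 4620398160) (nat_lit 1596) (nat_lit 59511052) (nat_lit 76) (nat_lit 3279088927) (nat_lit 376) (nat_lit 5) (nat_lit 397) (nat_lit 5) (nat_lit 377) (nat_lit 5) (nat_lit 423) (nat_lit 388) (nat_lit 329))))) (XT.nd (nat_lit 234) (nat_lit 1900) (nat_lit 0) (XT.nd (nat_lit 78) (nat_lit 1748) (nat_lit 0) (XT.lf (nat_lit 0) (nat_lit 4316899359) (nat_lit 1596) (nat_lit 2299537103) (nat_lit 1672) (nat_lit 1408301756) (nat_lit 355) (nat_lit 5) (nat_lit 376) (nat_lit 5) (nat_lit 377) (nat_lit 5) (nat_lit 424) (nat_lit 388) (nat_lit 328)) (XT.nd (nat_lit 78) (nat_lit 0) (nat_lit 0) (XT.lf (nat_lit 0) (nat_lit 524032637) (nat_lit 1748) (nat_lit 7429888923) (nat_lit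 76) (nat_lit 138422135) (nat_lit 332) (nat_lit 5) (nat_lit 355) (nat_lit 5) (nat_lit 333) (nat_lit 5) (nat_lit 425) (nat_lit 388) (nat_lit 327)) (XT.lf (nat_lit 0) (nat_lit 2482111420) (nat_lit 1748) (nat_lit 3047180141) (nat_lit 76) (nat_lit 2631742726) (nat_lit 332) (nat_lit 5) (nat_lit 355) (nat_lit 5) (nat_lit 333) (nat_lit 5) (nat_lit 426) (nat_lit 388) (nat_lit 326)))) (XT.nd (nat_lit 156) (nat_lit 912) (nat_lit 0) (XT.nd (nat_lit 78) (nat_lit 0) (nat_lit 0) (XT.lf (nat_lit 0) (nat_lit 1410235668) (nat_lit 988) (nat_lit 3044607771) (nat_lit 1064) (nat_lit 3776782948) (nat_lit 319) (nat_lit 5) (nat_lit 332) (nat_lit 5) (nat_lit 333) (nat_lit 5) (nat_lit 427) (nat_lit 388) (nat_lit 325)) (XT.lf (nat_lit 0) (nat_lit 5966869338) (nat_lit 988) (nat_lit 487401702) (nat_lit 1064) (nat_lit 1849651263) (nat_lit 319) (nat_lit 5) (nat_lit 332) (nat_lit 5) (nat_lit 333) (nat_lit 5) (nat_lit 428) (nat_lit 388)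 (nat_lit 324))) (XT.nd (nat_lit 78) (nat_lit 0) (nat_lit 0) (XT.lf (nat_lit 0) (nat_lit 110084252) (nat_lit 912) (nat_lit 6157504722) (nat_lit 76) (nat_lit 2110183806) (nat_lit 307) (nat_lit 5) (nat_lit 319) (nat_lit 5) (nat_lit 308) (nat_lit 5) (nat_lit 429) (nat_lit 388) (nat_lit 323)) (XT.lf (nat_lit 0) (nat_lit 2070930314) (nat_lit 912) (nat_lit 1599534410) (nat_lit 76) (nat_lit 4782692035) (nat_lit 307) (nat_lit 5) (nat_lit 319) (nat_lit 5) (nat_lit 308) (nat_lit 5) (nat_lit 430) (nat_lit 388) (nat_lit 322))))))))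
noncomputable def xc124 : XT := (XT.nd (nat_lit 2106) (nat_lit 5700) (nat_lit 0) (XT.nd (nat_lit 1014) (nat_lit 4940) (nat_lit 0) (XT.nd (nat_lit 468) (nat_lit 2280) (nat_lit 0) (XT.nd (nat_lit 234) (nat_lit 1520) (nat_lit 0) (XT.nd (nat_lit 78) (nat_lit 760) (nat_lit 0) (XT.lf (nat_lit 0) (nat_lit 3058748956) (nat_lit 836) (nat_lit 1000383156) (nat_lit 912) (nat_lit 4471187523) (nat_lit 296) (nat_lit 5) (nat_lit 307) (nat_lit 5) (nat_lit 308) (nat_lit 5) (nat_lit 431) (nat_lit 388) (nat_lit 321)) (XT.nd (nat_lit 78) (nat_lit 760) (nat_lit 0) (XT.lf (nat_lit 0) (nat_lit 6077795415) (nat_lit 912) (nat_lit 819611073) (nat_lit 76) (nat_lit 1711838655) (nat_lit 296) (nat_lit 5) (nat_lit 308) (nat_lit 5) (nat_lit 297) (nat_lit 5) (nat_lit 432) (nat_lit 388) (nat_lit 320)) (XT.lf (nat_lit 0) (nat_lit 3939626195) (nat_lit 760) (nat_lit 4198728291) (nat_lit 836) (nat_lit 551396897) (nat_lit 286) (nat_lit 5) (nat_lit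 296) (nat_lit 5) (nat_lit 297) (nat_lit 5) (nat_lit 433) (nat_lit 388) (nat_lit 319)))) (XT.nd (nat_lit 78) (nat_lit 1444) (nat_lit 0) (XT.lf (nat_lit 0) (nat_lit 1424026533) (nat_lit 836) (nat_lit 7208401) (nat_lit 76) (nat_lit 7340973038) (nat_lit 285) (nat_lit 5) (nat_lit 296) (nat_lit 5) (nat_lit 286) (nat_lit 5) (nat_lit 434) (nat_lit 388) (nat_lit 318)) (XT.nd (nat_lit 78) (nat_lit 684) (nat_lit 0) (XT.lf (nat_lit 0) (nat_lit 3442490780) (nat_lit 836) (nat_lit 4005276744) (nat_lit 76) (nat_lit 1408285751) (nat_lit 275) (nat_lit 5) (nat_lit 286) (nat_lit 5) (nat_lit 276) (nat_lit 5) (nat_lit 435) (nat_lit 388) (nat_lit 317)) (XT.lf (nat_lit 0) (nat_lit 835070984) (nat_lit 684) (nat_lit 4651675662) (nat_lit 760) (nat_lit 3455150574) (nat_lit 266) (nat_lit 5) (nat_lit 275) (nat_lit 5) (nat_lit 276) (nat_lit 5) (nat_lit 436) (nat_lit 388) (nat_lit 316))))) (XT.nd (nat_lit 234) (nat_lit 1444) (nat_lit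 0) (XT.nd (nat_lit 78) (nat_lit 836) (nat_lit 0) (XT.lf (nat_lit 0) (nat_lit 5795874405) (nat_lit 684) (nat_lit 1773744162) (nat_lit 760) (nat_lit 1459914451) (nat_lit 266) (nat_lit 5) (nat_lit 275) (nat_lit 5) (nat_lit 276) (nat_lit 5) (nat_lit 437) (nat_lit 388) (nat_lit 315)) (XT.nd (nat_lit 78) (nat_lit 0) (nat_lit 0) (XT.lf (nat_lit 0) (nat_lit 557722736) (nat_lit 836) (nat_lit 7401445413) (nat_lit 76) (nat_lit 1159906319) (nat_lit 255) (nat_lit 5) (nat_lit 266) (nat_lit 5) (nat_lit 256) (nat_lit 5) (nat_lit 438) (nat_lit 388) (nat_lit 314)) (XT.lf (nat_lit 0) (nat_lit 2601335913) (nat_lit 836) (nat_lit 2450594067) (nat_lit 76) (nat_lit 4158208222) (nat_lit 255) (nat_lit 5) (nat_lit 266) (nat_lit 5) (nat_lit 256) (nat_lit 5) (nat_lit 439) (nat_lit 388) (nat_lit 313)))) (XT.nd (nat_lit 156) (nat_lit 760) (nat_lit 0) (XT.nd (nat_lit 78) (nat_lit 0) (nat_lit 0) (XT.lf (nat_lit 0) (nat_lit 2603181956)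 (nat_lit 684) (nat_lit 2071661883) (nat_lit 760) (nat_lit 4628426260) (nat_lit 246) (nat_lit 5) (nat_lit 255) (nat_lit 5) (nat_lit 256) (nat_lit 5) (nat_lit 440) (nat_lit 388) (nat_lit 312)) (XT.lf (nat_lit 0) (nat_lit 6785118145) (nat_lit 760) (nat_lit 1643674685) (nat_lit 76) (nat_lit 969592681) (nat_lit 246) (nat_lit 5) (nat_lit 256) (nat_lit 5) (nat_lit 247) (nat_lit 5) (nat_lit 441) (nat_lit 388) (nat_lit 311))) (XT.nd (nat_lit 78) (nat_lit 76) (nat_lit 0) (XT.lf (nat_lit 0) (nat_lit 3516268115) (nat_lit 684) (nat_lit 5430875722) (nat_lit 760) (nat_lit 548094753) (nat_lit 237) (nat_lit 5) (nat_lit 246) (nat_lit 5) (nat_lit 247) (nat_lit 5) (nat_lit 442) (nat_lit 388) (nat_lit 310)) (XT.lf (nat_lit 0) (nat_lit 1522176151) (nat_lit 760) (nat_lit 832489809) (nat_lit 76) (nat_lit 7239501000) (nat_lit 236) (nat_lit 5) (nat_lit 246) (nat_lit 5) (nat_lit 237) (nat_lit 5) (nat_lit 443) (nat_lit 388) (nat_lit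 309)))))) (XT.nd (nat_lit 546) (nat_lit 2356) (nat_lit 0) (XT.nd (nat_lit 234) (nat_lit 1292) (nat_lit 0) (XT.nd (nat_lit 78) (nat_lit 684) (nat_lit 0) (XT.lf (nat_lit 0) (nat_lit 3634295820) (nat_lit 684) (nat_lit 5258295498) (nat_lit 76) (nat_lit 802279236) (nat_lit 228) (nat_lit 5) (nat_lit 237) (nat_lit 5) (nat_lit 229) (nat_lit 5) (nat_lit 444) (nat_lit 388) (nat_lit 308)) (XT.nd (nat_lit 78) (nat_lit 684) (nat_lit 0) (XT.lf (nat_lit 0) (nat_lit 5783836067) (nat_lit 684) (nat_lit 20718509) (nat_lit 76) (nat_lit 3993154354) (nat_lit 228) (nat_lit 5) (nat_lit 237) (nat_lit 5) (nat_lit 229) (nat_lit 5) (nat_lit 445) (nat_lit 388) (nat_lit 307)) (XT.lf (nat_lit 0) (nat_lit 5362611190) (nat_lit 684) (nat_lit 2623045058) (nat_lit 760) (nat_lit 1916785844) (nat_lit 219) (nat_lit 5) (nat_lit 228) (nat_lit 5) (nat_lit 229) (nat_lit 5) (nat_lit 446) (nat_lit 388) (nat_lit 306)))) (XT.nd (nat_lit 156) (nat_lit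 608) (nat_lit 0) (XT.nd (nat_lit 78) (nat_lit 0) (nat_lit 0) (XT.lf (nat_lit 0) (nat_lit 203472542) (nat_lit 684) (nat_lit 9189227943) (nat_lit 76) (nat_lit 616880560) (nat_lit 210) (nat_lit 5) (nat_lit 219) (nat_lit 5) (nat_lit 211) (nat_lit 5) (nat_lit 447) (nat_lit 388) (nat_lit 305)) (XT.lf (nat_lit 0) (nat_lit 2363405363) (nat_lit 684) (nat_lit 3829041995) (nat_lit 76) (nat_lit 3925725747) (nat_lit 210) (nat_lit 5) (nat_lit 219) (nat_lit 5) (nat_lit 211) (nat_lit 5) (nat_lit 448) (nat_lit 388) (nat_lit 304))) (XT.nd (nat_lit 78) (nat_lit 0) (nat_lit 0) (XT.lf (nat_lit 0) (nat_lit 1630515467) (nat_lit 608) (nat_lit 2921973909) (nat_lit 684) (nat_lit 5676750567) (nat_lit 202) (nat_lit 5) (nat_lit 210) (nat_lit 5) (nat_lit 211) (nat_lit 5) (nat_lit 449) (nat_lit 388) (nat_lit 303)) (XT.lf (nat_lit 0) (nat_lit 6789537791) (nat_lit 684) (nat_lit 3123206422) (nat_lit 76) (nat_lit 429721805) (nat_lit 202)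 (nat_lit 5) (nat_lit 211) (nat_lit 5) (nat_lit 203) (nat_lit 5) (nat_lit 450) (nat_lit 388) (nat_lit 302))))) (XT.nd (nat_lit 234) (nat_lit 1140) (nat_lit 0) (XT.nd (nat_lit 78) (nat_lit 684) (nat_lit 0) (XT.lf (nat_lit 0) (nat_lit 2445622008) (nat_lit 532) (nat_lit 6637042723) (nat_lit 608) (nat_lit 1375086266) (nat_lit 195) (nat_lit 5) (nat_lit 202) (nat_lit 5) (nat_lit 203) (nat_lit 5) (nat_lit 451) (nat_lit 388) (nat_lit 301)) (XT.nd (nat_lit 78) (nat_lit 608) (nat_lit 0) (XT.lf (nat_lit 0) (nat_lit 832523390) (nat_lit 608) (nat_lit 2441463310) (nat_lit 76) (nat_lit 7301319185) (nat_lit 194) (nat_lit 5) (nat_lit 202) (nat_lit 5) (nat_lit 195) (nat_lit 5) (nat_lit 452) (nat_lit 388) (nat_lit 300)) (XT.lf (nat_lit 0) (nat_lit 3064823353) (nat_lit 684) (nat_lit 7450700459) (nat_lit 76) (nat_lit 179547173) (nat_lit 186) (nat_lit 5) (nat_lit 195) (nat_lit 5) (nat_lit 187) (nat_lit 5) (nat_lit 453) (nat_lit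 388) (nat_lit 299)))) (XT.nd (nat_lit 156) (nat_lit 608) (nat_lit 0) (XT.nd (nat_lit 78) (nat_lit 532) (nat_lit 0) (XT.lf (nat_lit 0) (nat_lit 5356862250) (nat_lit 684) (nat_lit 1790437378) (nat_lit 76) (nat_lit 3669649428) (nat_lit 186) (nat_lit 5) (nat_lit 195) (nat_lit 5) (nat_lit 187) (nat_lit 5) (nat_lit 454) (nat_lit 388) (nat_lit 298)) (XT.lf (nat_lit 0) (nat_lit 4007393706) (nat_lit 532) (nat_lit 3690738344) (nat_lit 608) (nat_lit 3243083975) (nat_lit 179) (nat_lit 5) (nat_lit 186) (nat_lit 5) (nat_lit 187) (nat_lit 5) (nat_lit 455) (nat_lit 388) (nat_lit 297))) (XT.nd (nat_lit 78) (nat_lit 608) (nat_lit 0) (XT.lf (nat_lit 0) (nat_lit 9917441808) (nat_lit 532) (nat_lit 158433525) (nat_lit 608) (nat_lit 992318804) (nat_lit 179) (nat_lit 5) (nat_lit 186) (nat_lit 5) (nat_lit 187) (nat_lit 5) (nat_lit 456) (nat_lit 388) (nat_lit 296)) (XT.lf (nat_lit 0) (nat_lit 1317861892) (nat_lit 608) (nat_lit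 6445610147) (nat_lit 76) (nat_lit 3433458645) (nat_lit 171) (nat_lit 5) (nat_lit 179) (nat_lit 5) (nat_lit 172) (nat_lit 5) (nat_lit 457) (nat_lit 388) (nat_lit 295))))))) (XT.nd (nat_lit 1014) (nat_lit 2356) (nat_lit 0) (XT.nd (nat_lit 468) (nat_lit 1824) (nat_lit 0) (XT.nd (nat_lit 234) (nat_lit 1064) (nat_lit 0) (XT.nd (nat_lit 78) (nat_lit 456) (nat_lit 0) (XT.lf (nat_lit 0) (nat_lit 3647919189) (nat_lit 608) (nat_lit 576732172) (nat_lit 76) (nat_lit 7103737897) (nat_lit 171) (nat_lit 5) (nat_lit 179) (nat_lit 5) (nat_lit 172) (nat_lit 5) (nat_lit 458) (nat_lit 388) (nat_lit 294)) (XT.nd (nat_lit 78) (nat_lit 0) (nat_lit 0) (XT.lf (nat_lit 0) (nat_lit 5453591083) (nat_lit 456) (nat_lit 584948988) (nat_lit 532) (nat_lit 5423675018) (nat_lit 165) (nat_lit 5) (nat_lit 171) (nat_lit 5) (nat_lit 172) (nat_lit 5) (nat_lit 459) (nat_lit 388) (nat_lit 293)) (XT.lf (nat_lit 0) (nat_lit 8479933376) (nat_lit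 532) (nat_lit 34311296) (nat_lit 76) (nat_lit 3084430563) (nat_lit 165) (nat_lit 5) (nat_lit 172) (nat_lit 5) (nat_lit 166) (nat_lit 5) (nat_lit 460) (nat_lit 388) (nat_lit 292)))) (XT.nd (nat_lit 78) (nat_lit 532) (nat_lit 0) (XT.lf (nat_lit 0) (nat_lit 6108593768) (nat_lit 532) (nat_lit 4884270247) (nat_lit 608) (nat_lit 744563043) (nat_lit 158) (nat_lit 5) (nat_lit 165) (nat_lit 5) (nat_lit 166) (nat_lit 5) (nat_lit 461) (nat_lit 388) (nat_lit 291)) (XT.nd (nat_lit 78) (nat_lit 0) (nat_lit 0) (XT.lf (nat_lit 0) (nat_lit 463816845) (nat_lit 456) (nat_lit 1173785640) (nat_lit 532) (nat_lit 10241499699) (nat_lit 151) (nat_lit 5) (nat_lit 157) (nat_lit 5) (nat_lit 158) (nat_lit 5) (nat_lit 462) (nat_lit 388) (nat_lit 290)) (XT.lf (nat_lit 0) (nat_lit 4091869138) (nat_lit 532) (nat_lit 5317820539) (nat_lit 76) (nat_lit 2613149858) (nat_lit 151) (nat_lit 5) (nat_lit 158) (nat_lit 5) (nat_lit 152) (nat_lit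 5) (nat_lit 463) (nat_lit 388) (nat_lit 289))))) (XT.nd (nat_lit 234) (nat_lit 912) (nat_lit 0) (XT.nd (nat_lit 78) (nat_lit 456) (nat_lit 0) (XT.lf (nat_lit 0) (nat_lit 878426459) (nat_lit 456) (nat_lit 5710118326) (nat_lit 532) (nat_lit 5581055768) (nat_lit 145) (nat_lit 5) (nat_lit 151) (nat_lit 5) (nat_lit 152) (nat_lit 5) (nat_lit 464) (nat_lit 388) (nat_lit 288)) (XT.nd (nat_lit 78) (nat_lit 456) (nat_lit 0) (XT.lf (nat_lit 0) (nat_lit 7243945517) (nat_lit 456) (nat_lit 1906962285) (nat_lit 532) (nat_lit 3168089004) (nat_lit 145) (nat_lit 5) (nat_lit 151) (nat_lit 5) (nat_lit 152) (nat_lit 5) (nat_lit 465) (nat_lit 388) (nat_lit 287)) (XT.lf (nat_lit 0) (nat_lit 1242306479) (nat_lit 456) (nat_lit 10523498654) (nat_lit 532) (nat_lit 705564909) (nat_lit 139) (nat_lit 5) (nat_lit 145) (nat_lit 5) (nat_lit 146) (nat_lit 5) (nat_lit 466) (nat_lit 388) (nat_lit 286)))) (XT.nd (nat_lit 156) (nat_lit 380)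 (nat_lit 0) (XT.nd (nat_lit 78) (nat_lit 456) (nat_lit 0) (XT.lf (nat_lit 0) (nat_lit 1809917557) (nat_lit 532) (nat_lit 4922560175) (nat_lit 76) (nat_lit 5893544756) (nat_lit 138) (nat_lit 5) (nat_lit 145) (nat_lit 5) (nat_lit 139) (nat_lit 5) (nat_lit 467) (nat_lit 388) (nat_lit 285)) (XT.lf (nat_lit 0) (nat_lit 1498908055) (nat_lit 456) (nat_lit 2857963430) (nat_lit 532) (nat_lit 8427004979) (nat_lit 132) (nat_lit 5) (nat_lit 138) (nat_lit 5) (nat_lit 139) (nat_lit 5) (nat_lit 468) (nat_lit 388) (nat_lit 284))) (XT.nd (nat_lit 78) (nat_lit 380) (nat_lit 0) (XT.lf (nat_lit 0) (nat_lit 6976148707) (nat_lit 532) (nat_lit 4862341995) (nat_lit 76) (nat_lit 1105982803) (nat_lit 132) (nat_lit 5) (nat_lit 139) (nat_lit 5) (nat_lit 133) (nat_lit 5) (nat_lit 469) (nat_lit 388) (nat_lit 283)) (XT.lf (nat_lit 0) (nat_lit 1665848744) (nat_lit 380) (nat_lit 7993106652) (nat_lit 456) (nat_lit 3449117614) (nat_lit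 127) (nat_lit 5) (nat_lit 132) (nat_lit 5) (nat_lit 133) (nat_lit 5) (nat_lit 470) (nat_lit 388) (nat_lit 282)))))) (XT.nd (nat_lit 546) (nat_lit 1064) (nat_lit 0) (XT.nd (nat_lit 234) (nat_lit 836) (nat_lit 0) (XT.nd (nat_lit 78) (nat_lit 456) (nat_lit 0) (XT.lf (nat_lit 0) (nat_lit 8364874225) (nat_lit 380) (nat_lit 4044772302) (nat_lit 456) (nat_lit 865026552) (nat_lit 127) (nat_lit 5) (nat_lit 132) (nat_lit 5) (nat_lit 133) (nat_lit 5) (nat_lit 471) (nat_lit 388) (nat_lit 281)) (XT.nd (nat_lit 78) (nat_lit 0) (nat_lit 0) (XT.lf (nat_lit 0) (nat_lit 1739197300) (nat_lit 380) (nat_lit 1445443) (nat_lit 456) (nat_lit 11703882696) (nat_lit 121) (nat_lit 5) (nat_lit 126) (nat_lit 5) (nat_lit 127) (nat_lit 5) (nat_lit 472) (nat_lit 388) (nat_lit 280)) (XT.lf (nat_lit 0) (nat_lit 4428760245) (nat_lit 456) (nat_lit 5087652048) (nat_lit 76) (nat_lit 4100422226) (nat_lit 121) (nat_lit 5) (nat_lit 127) (nat_lit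 5) (nat_lit 122) (nat_lit 5) (nat_lit 473) (nat_lit 388) (nat_lit 279)))) (XT.nd (nat_lit 156) (nat_lit 456) (nat_lit 0) (XT.nd (nat_lit 78) (nat_lit 0) (nat_lit 0) (XT.lf (nat_lit 0) (nat_lit 1659079389) (nat_lit 380) (nat_lit 5504669139) (nat_lit 456) (nat_lit 6628991224) (nat_lit 116) (nat_lit 5) (nat_lit 121) (nat_lit 5) (nat_lit 122) (nat_lit 5) (nat_lit 474) (nat_lit 388) (nat_lit 278)) (XT.lf (nat_lit 0) (nat_lit 8584826981) (nat_lit 380) (nat_lit 1385262407) (nat_lit 456) (nat_lit 4001752546) (nat_lit 116) (nat_lit 5) (nat_lit 121) (nat_lit 5) (nat_lit 122) (nat_lit 5) (nat_lit 475) (nat_lit 388) (nat_lit 277))) (XT.nd (nat_lit 78) (nat_lit 76) (nat_lit 0) (XT.lf (nat_lit 0) (nat_lit 1470864685) (nat_lit 380) (nat_lit 11372336825) (nat_lit 456) (nat_lit 1311123428) (nat_lit 111) (nat_lit 5) (nat_lit 116) (nat_lit 5) (nat_lit 117) (nat_lit 5) (nat_lit 476) (nat_lit 388) (nat_lit 276)) (XT.lf (nat_lit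 0) (nat_lit 1442944699) (nat_lit 456) (nat_lit 5844308656) (nat_lit 76) (nat_lit 7052460846) (nat_lit 110) (nat_lit 5) (nat_lit 116) (nat_lit 5) (nat_lit 111) (nat_lit 5) (nat_lit 477) (nat_lit 388) (nat_lit 275))))) (XT.nd (nat_lit 234) (nat_lit 380) (nat_lit 0) (XT.nd (nat_lit 78) (nat_lit 380) (nat_lit 0) (XT.lf (nat_lit 0) (nat_lit 1113250385) (nat_lit 304) (nat_lit 3111729903) (nat_lit 380) (nat_lit 10303859785) (nat_lit 106) (nat_lit 5) (nat_lit 110) (nat_lit 5) (nat_lit 111) (nat_lit 5) (nat_lit 478) (nat_lit 388) (nat_lit 274)) (XT.nd (nat_lit 78) (nat_lit 380) (nat_lit 0) (XT.lf (nat_lit 0) (nat_lit 7092905477) (nat_lit 380) (nat_lit 6463919086) (nat_lit 76) (nat_lit 1164329698) (nat_lit 106) (nat_lit 5) (nat_lit 111) (nat_lit 5) (nat_lit 107) (nat_lit 5) (nat_lit 479) (nat_lit 388) (nat_lit 273)) (XT.lf (nat_lit 0) (nat_lit 589965976) (nat_lit 380) (nat_lit 9436309871) (nat_lit 456) (nat_lit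 4890887721) (nat_lit 101) (nat_lit 5) (nat_lit 106) (nat_lit 5) (nat_lit 107) (nat_lit 5) (nat_lit 480) (nat_lit 388) (nat_lit 272)))) (XT.nd (nat_lit 156) (nat_lit 304) (nat_lit 0) (XT.nd (nat_lit 78) (nat_lit 76) (nat_lit 0) (XT.lf (nat_lit 0) (nat_lit 7848757445) (nat_lit 380) (nat_lit 5196747366) (nat_lit 456) (nat_lit 2071054786) (nat_lit 101) (nat_lit 5) (nat_lit 106) (nat_lit 5) (nat_lit 107) (nat_lit 5) (nat_lit 481) (nat_lit 388) (nat_lit 271)) (XT.lf (nat_lit 0) (nat_lit 778631928) (nat_lit 456) (nat_lit 95993816) (nat_lit 76) (nat_lit 14445542864) (nat_lit 100) (nat_lit 5) (nat_lit 106) (nat_lit 5) (nat_lit 101) (nat_lit 5) (nat_lit 482) (nat_lit 388) (nat_lit 270))) (XT.nd (nat_lit 78) (nat_lit 0) (nat_lit 0) (XT.lf (nat_lit 0) (nat_lit 3712490644) (nat_lit 380) (nat_lit 8272353371) (nat_lit 76) (nat_lit 3541643558) (nat_lit 96) (nat_lit 5) (nat_lit 101) (nat_lit 5) (nat_lit 97) (nat_lit 5)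 (nat_lit 483) (nat_lit 388) (nat_lit 269)) (XT.lf (nat_lit 0) (nat_lit 6695907869) (nat_lit 380) (nat_lit 1013355814) (nat_lit 76) (nat_lit 8027861180) (nat_lit 96) (nat_lit 5) (nat_lit 101) (nat_lit 5) (nat_lit 97) (nat_lit 5) (nat_lit 484) (nat_lit 388) (nat_lit 268))))))))
noncomputable def xc125 : XT := (XT.nd (nat_lit 2106) (nat_lit 1140) (nat_lit 0) (XT.nd (nat_lit 1014) (nat_lit 1672) (nat_lit 0) (XT.nd (nat_lit 468) (nat_lit 836) (nat_lit 0) (XT.nd (nat_lit 234) (nat_lit 380) (nat_lit 0) (XT.nd (nat_lit 78) (nat_lit 304) (nat_lit 0) (XT.lf (nat_lit 0) (nat_lit 6452699722) (nat_lit 304) (nat_lit 3312934682) (nat_lit 380) (nat_lit 6185817059) (nat_lit 92) (nat_lit 5) (nat_lit 96) (nat_lit 5) (nat_lit 97) (nat_lit 5) (nat_lit 485) (nat_lit 388) (nat_lit 267)) (XT.nd (nat_lit 78) (nat_lit 304) (nat_lit 0) (XT.lf (nat_lit 0) (nat_lit 12896055086) (nat_lit 380) (nat_lit 2118629108) (nat_lit 76) (nat_lit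 1155403607) (nat_lit 92) (nat_lit 5) (nat_lit 97) (nat_lit 5) (nat_lit 93) (nat_lit 5) (nat_lit 486) (nat_lit 388) (nat_lit 266)) (XT.lf (nat_lit 0) (nat_lit 5436035730) (nat_lit 304) (nat_lit 10695429273) (nat_lit 380) (nat_lit 260793266) (nat_lit 88) (nat_lit 5) (nat_lit 92) (nat_lit 5) (nat_lit 93) (nat_lit 5) (nat_lit 487) (nat_lit 388) (nat_lit 265)))) (XT.nd (nat_lit 78) (nat_lit 304) (nat_lit 0) (XT.lf (nat_lit 0) (nat_lit 2775320087) (nat_lit 380) (nat_lit 3488904428) (nat_lit 76) (nat_lit 10354301094) (nat_lit 87) (nat_lit 5) (nat_lit 92) (nat_lit 5) (nat_lit 88) (nat_lit 5) (nat_lit 488) (nat_lit 388) (nat_lit 264)) (XT.nd (nat_lit 78) (nat_lit 0) (nat_lit 0) (XT.lf (nat_lit 0) (nat_lit 4158540665) (nat_lit 304) (nat_lit 1722603794) (nat_lit 380) (nat_lit 10967898243) (nat_lit 83) (nat_lit 5) (nat_lit 87) (nat_lit 5) (nat_lit 88) (nat_lit 5) (nat_lit 489) (nat_lit 388) (nat_lit 263)) (XT.lf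 (nat_lit 0) (nat_lit 9077116835) (nat_lit 380) (nat_lit 5118656449) (nat_lit 76) (nat_lit 2887844554) (nat_lit 83) (nat_lit 5) (nat_lit 88) (nat_lit 5) (nat_lit 84) (nat_lit 5) (nat_lit 490) (nat_lit 388) (nat_lit 262))))) (XT.nd (nat_lit 234) (nat_lit 228) (nat_lit 0) (XT.nd (nat_lit 78) (nat_lit 380) (nat_lit 0) (XT.lf (nat_lit 0) (nat_lit 2605691686) (nat_lit 228) (nat_lit 9745497147) (nat_lit 304) (nat_lit 4971420211) (nat_lit 80) (nat_lit 5) (nat_lit 83) (nat_lit 5) (nat_lit 84) (nat_lit 5) (nat_lit 491) (nat_lit 388) (nat_lit 261)) (XT.nd (nat_lit 78) (nat_lit 380) (nat_lit 0) (XT.lf (nat_lit 0) (nat_lit 10532353779) (nat_lit 228) (nat_lit 5178729093) (nat_lit 304) (nat_lit 1854898398) (nat_lit 80) (nat_lit 5) (nat_lit 83) (nat_lit 5) (nat_lit 84) (nat_lit 5) (nat_lit 492) (nat_lit 388) (nat_lit 260)) (XT.lf (nat_lit 0) (nat_lit 783683779) (nat_lit 304) (nat_lit 514162068) (nat_lit 380) (nat_lit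 16516385752) (nat_lit 75) (nat_lit 5) (nat_lit 79) (nat_lit 5) (nat_lit 80) (nat_lit 5) (nat_lit 493) (nat_lit 388) (nat_lit 259)))) (XT.nd (nat_lit 156) (nat_lit 228) (nat_lit 0) (XT.nd (nat_lit 78) (nat_lit 0) (nat_lit 0) (XT.lf (nat_lit 0) (nat_lit 4550148665) (nat_lit 380) (nat_lit 9275387728) (nat_lit 76) (nat_lit 4240446057) (nat_lit 75) (nat_lit 5) (nat_lit 80) (nat_lit 5) (nat_lit 76) (nat_lit 5) (nat_lit 494) (nat_lit 388) (nat_lit 258)) (XT.lf (nat_lit 0) (nat_lit 7857424886) (nat_lit 380) (nat_lit 1389528657) (nat_lit 76) (nat_lit 9076023626) (nat_lit 75) (nat_lit 5) (nat_lit 80) (nat_lit 5) (nat_lit 76) (nat_lit 5) (nat_lit 495) (nat_lit 388) (nat_lit 257))) (XT.nd (nat_lit 78) (nat_lit 0) (nat_lit 0) (XT.lf (nat_lit 0) (nat_lit 6721615361) (nat_lit 228) (nat_lit 4539659024) (nat_lit 304) (nat_lit 7323236095) (nat_lit 72) (nat_lit 5) (nat_lit 75) (nat_lit 5) (nat_lit 76) (nat_lit 5) (nat_lit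 496) (nat_lit 388) (nat_lit 256)) (XT.lf (nat_lit 0) (nat_lit 14731151804) (nat_lit 304) (nat_lit 3859704713) (nat_lit 76) (nat_lit 260466034) (nat_lit 72) (nat_lit 5) (nat_lit 76) (nat_lit 5) (nat_lit 73) (nat_lit 5) (nat_lit 497) (nat_lit 388) (nat_lit 255)))))) (XT.nd (nat_lit 546) (nat_lit 836) (nat_lit 0) (XT.nd (nat_lit 234) (nat_lit 228) (nat_lit 0) (XT.nd (nat_lit 78) (nat_lit 304) (nat_lit 0) (XT.lf (nat_lit 0) (nat_lit 4309740892) (nat_lit 304) (nat_lit 14005854141) (nat_lit 380) (nat_lit 806979437) (nat_lit 68) (nat_lit 5) (nat_lit 72) (nat_lit 5) (nat_lit 73) (nat_lit 5) (nat_lit 498) (nat_lit 388) (nat_lit 254)) (XT.nd (nat_lit 78) (nat_lit 228) (nat_lit 0) (XT.lf (nat_lit 0) (nat_lit 2551962546) (nat_lit 380) (nat_lit 6741024195) (nat_lit 76) (nat_lit 10105672838) (nat_lit 67) (nat_lit 5) (nat_lit 72) (nat_lit 5) (nat_lit 68) (nat_lit 5) (nat_lit 499) (nat_lit 388) (nat_lit 253)) (XT.lf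 (nat_lit 0) (nat_lit 1486458829) (nat_lit 228) (nat_lit 4477885313) (nat_lit 304) (nat_lit 13715880809) (nat_lit 64) (nat_lit 5) (nat_lit 67) (nat_lit 5) (nat_lit 68) (nat_lit 5) (nat_lit 500) (nat_lit 388) (nat_lit 252)))) (XT.nd (nat_lit 156) (nat_lit 228) (nat_lit 0) (XT.nd (nat_lit 78) (nat_lit 0) (nat_lit 0) (XT.lf (nat_lit 0) (nat_lit 9480799588) (nat_lit 304) (nat_lit 10019754317) (nat_lit 76) (nat_lit 466157643) (nat_lit 64) (nat_lit 5) (nat_lit 68) (nat_lit 5) (nat_lit 65) (nat_lit 5) (nat_lit 501) (nat_lit 388) (nat_lit 251)) (XT.lf (nat_lit 0) (nat_lit 13084960711) (nat_lit 304) (nat_lit 1731516177) (nat_lit 76) (nat_lit 5442109773) (nat_lit 64) (nat_lit 5) (nat_lit 68) (nat_lit 5) (nat_lit 65) (nat_lit 5) (nat_lit 502) (nat_lit 388) (nat_lit 250))) (XT.nd (nat_lit 78) (nat_lit 0) (nat_lit 0) (XT.lf (nat_lit 0) (nat_lit 6792354947) (nat_lit 228) (nat_lit 10000913033) (nat_lit 304) (nat_lit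 3762396228) (nat_lit 61) (nat_lit 5) (nat_lit 64) (nat_lit 5) (nat_lit 65) (nat_lit 5) (nat_lit 503) (nat_lit 388) (nat_lit 249)) (XT.lf (nat_lit 0) (nat_lit 15491086328) (nat_lit 228) (nat_lit 5084348999) (nat_lit 304) (nat_lit 283260170) (nat_lit 61) (nat_lit 5) (nat_lit 64) (nat_lit 5) (nat_lit 65) (nat_lit 5) (nat_lit 504) (nat_lit 388) (nat_lit 248))))) (XT.nd (nat_lit 234) (nat_lit 532) (nat_lit 0) (XT.nd (nat_lit 78) (nat_lit 0) (nat_lit 0) (XT.lf (nat_lit 0) (nat_lit 3197867652) (nat_lit 228) (nat_lit 33751636) (nat_lit 304) (nat_lit 17935570171) (nat_lit 57) (nat_lit 5) (nat_lit 60) (nat_lit 5) (nat_lit 61) (nat_lit 5) (nat_lit 505) (nat_lit 388) (nat_lit 247)) (XT.nd (nat_lit 78) (nat_lit 0) (nat_lit 0) (XT.lf (nat_lit 0) (nat_lit 6870781776) (nat_lit 304) (nat_lit 9528007706) (nat_lit 76) (nat_lit 5081876526) (nat_lit 57) (nat_lit 5) (nat_lit 61) (nat_lit 5) (nat_lit 58) (nat_lit 5) (nat_lit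 506) (nat_lit 388) (nat_lit 246)) (XT.lf (nat_lit 0) (nat_lit 10571468875) (nat_lit 304) (nat_lit 936664567) (nat_lit 76) (nat_lit 10292509425) (nat_lit 57) (nat_lit 5) (nat_lit 61) (nat_lit 5) (nat_lit 58) (nat_lit 5) (nat_lit 507) (nat_lit 388) (nat_lit 245)))) (XT.nd (nat_lit 156) (nat_lit 304) (nat_lit 0) (XT.nd (nat_lit 78) (nat_lit 0) (nat_lit 0) (XT.lf (nat_lit 0) (nat_lit 7912064044) (nat_lit 228) (nat_lit 6474219023) (nat_lit 304) (nat_lit 7739939428) (nat_lit 54) (nat_lit 5) (nat_lit 57) (nat_lit 5) (nat_lit 58) (nat_lit 5) (nat_lit 508) (nat_lit 388) (nat_lit 244)) (XT.lf (nat_lit 0) (nat_lit 16932374229) (nat_lit 228) (nat_lit 1340151082) (nat_lit 304) (nat_lit 4185891157) (nat_lit 54) (nat_lit 5) (nat_lit 57) (nat_lit 5) (nat_lit 58) (nat_lit 5) (nat_lit 509) (nat_lit 388) (nat_lit 243))) (XT.nd (nat_lit 78) (nat_lit 76) (nat_lit 0) (XT.lf (nat_lit 0) (nat_lit 3336379343) (nat_lit 228) (nat_lit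 18936095155) (nat_lit 304) (nat_lit 524065467) (nat_lit 51) (nat_lit 5) (nat_lit 54) (nat_lit 5) (nat_lit 55) (nat_lit 5) (nat_lit 510) (nat_lit 388) (nat_lit 242)) (XT.lf (nat_lit 0) (nat_lit 3204130717) (nat_lit 304) (nat_lit 10737644329) (nat_lit 76) (nat_lit 9198534068) (nat_lit 50) (nat_lit 5) (nat_lit 54) (nat_lit 5) (nat_lit 51) (nat_lit 5) (nat_lit 511) (nat_lit 388) (nat_lit 241))))))) (XT.nd (nat_lit 49764) (nat_lit 0) (nat_lit 37088) (XT.nd (nat_lit 546) (nat_lit 456) (nat_lit 0) (XT.nd (nat_lit 234) (nat_lit 456) (nat_lit 0) (XT.nd (nat_lit 78) (nat_lit 228) (nat_lit 0) (XT.lf (nat_lit 0) (nat_lit 6989138359) (nat_lit 304) (nat_lit 1861744120) (nat_lit 76) (nat_lit 14640221571) (nat_lit 50) (nat_lit 5) (nat_lit 54) (nat_lit 5) (nat_lit 51) (nat_lit 5) (nat_lit 512) (nat_lit 388) (nat_lit 240)) (XT.nd (nat_lit 78) (nat_lit 0) (nat_lit 0) (XT.lf (nat_lit 0) (nat_lit 7269767641) (nat_lit 228)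 (nat_lit 3616747499) (nat_lit 304) (nat_lit 12961671245) (nat_lit 47) (nat_lit 5) (nat_lit 50) (nat_lit 5) (nat_lit 51) (nat_lit 5) (nat_lit 513) (nat_lit 388) (nat_lit 239)) (XT.lf (nat_lit 0) (nat_lit 14875116851) (nat_lit 304) (nat_lit 7631585258) (nat_lit 76) (nat_lit 1705447497) (nat_lit 47) (nat_lit 5) (nat_lit 51) (nat_lit 5) (nat_lit 48) (nat_lit 5) (nat_lit 514) (nat_lit 388) (nat_lit 238)))) (XT.nd (nat_lit 156) (nat_lit 304) (nat_lit 0) (XT.nd (nat_lit 78) (nat_lit 0) (nat_lit 0) (XT.lf (nat_lit 0) (nat_lit 1472578148) (nat_lit 152) (nat_lit 17494151402) (nat_lit 228) (nat_lit 5616202453) (nat_lit 45) (nat_lit 5) (nat_lit 47) (nat_lit 5) (nat_lit 48) (nat_lit 5) (nat_lit 515) (nat_lit 388) (nat_lit 237)) (XT.lf (nat_lit 0) (nat_lit 10845416694) (nat_lit 152) (nat_lit 12335787803) (nat_lit 228) (nat_lit 1779109552) (nat_lit 45) (nat_lit 5) (nat_lit 47) (nat_lit 5) (nat_lit 48) (nat_lit 5) (nat_lit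 516) (nat_lit 388) (nat_lit 236))) (XT.nd (nat_lit 78) (nat_lit 228) (nat_lit 0) (XT.lf (nat_lit 0) (nat_lit 2096675027) (nat_lit 228) (nat_lit 4970055558) (nat_lit 76) (nat_lit 18278441429) (nat_lit 44) (nat_lit 5) (nat_lit 47) (nat_lit 5) (nat_lit 45) (nat_lit 5) (nat_lit 517) (nat_lit 388) (nat_lit 235)) (XT.lf (nat_lit 0) (nat_lit 4387101479) (nat_lit 228) (nat_lit 1657702026) (nat_lit 304) (nat_lit 19692319760) (nat_lit 41) (nat_lit 5) (nat_lit 44) (nat_lit 5) (nat_lit 45) (nat_lit 5) (nat_lit 518) (nat_lit 388) (nat_lit 234))))) (XT.nd (nat_lit 234) (nat_lit 304) (nat_lit 0) (XT.nd (nat_lit 78) (nat_lit 152) (nat_lit 0) (XT.lf (nat_lit 0) (nat_lit 10120715758) (nat_lit 304) (nat_lit 12179141003) (nat_lit 76) (nat_lit 3836084604) (nat_lit 41) (nat_lit 5) (nat_lit 45) (nat_lit 5) (nat_lit 42) (nat_lit 5) (nat_lit 519) (nat_lit 388) (nat_lit 233)) (XT.nd (nat_lit 78) (nat_lit 152) (nat_lit 0) (XT.lf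 (nat_lit 0) (nat_lit 14279506931) (nat_lit 304) (nat_lit 2851886657) (nat_lit 76) (nat_lit 9411319193) (nat_lit 41) (nat_lit 5) (nat_lit 45) (nat_lit 5) (nat_lit 42) (nat_lit 5) (nat_lit 520) (nat_lit 388) (nat_lit 232)) (XT.lf (nat_lit 0) (nat_lit 6734485891) (nat_lit 152) (nat_lit 11821283878) (nat_lit 228) (nat_lit 8401168023) (nat_lit 39) (nat_lit 5) (nat_lit 41) (nat_lit 5) (nat_lit 42) (nat_lit 5) (nat_lit 521) (nat_lit 388) (nat_lit 231)))) (XT.nd (nat_lit 156) (nat_lit 304) (nat_lit 0) (XT.nd (nat_lit 78) (nat_lit 0) (nat_lit 0) (XT.lf (nat_lit 0) (nat_lit 16535596713) (nat_lit 152) (nat_lit 6391753193) (nat_lit 228) (nat_lit 4451905562) (nat_lit 39) (nat_lit 5) (nat_lit 41) (nat_lit 5) (nat_lit 42) (nat_lit 5) (nat_lit 522) (nat_lit 388) (nat_lit 230)) (XT.lf (nat_lit 0) (nat_lit 26517389308) (nat_lit 152) (nat_lit 859809967) (nat_lit 228) (nat_lit 433007396) (nat_lit 39) (nat_lit 5) (nat_lit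 41) (nat_lit 5) (nat_lit 42) (nat_lit 5) (nat_lit 523) (nat_lit 388) (nat_lit 229))) (XT.nd (nat_lit 78) (nat_lit 0) (nat_lit 0) (XT.lf (nat_lit 0) (nat_lit 3696005656) (nat_lit 304) (nat_lit 19758077382) (nat_lit 76) (nat_lit 4793665142) (nat_lit 35) (nat_lit 5) (nat_lit 39) (nat_lit 5) (nat_lit 36) (nat_lit 5) (nat_lit 524) (nat_lit 388) (nat_lit 228)) (XT.lf (nat_lit 0) (nat_lit 7907227440) (nat_lit 304) (nat_lit 10232360284) (nat_lit 76) (nat_lit 10554290723) (nat_lit 35) (nat_lit 5) (nat_lit 39) (nat_lit 5) (nat_lit 36) (nat_lit 5) (nat_lit 525) (nat_lit 388) (nat_lit 227)))))) (XT.nd (nat_lit 546) (nat_lit 1672) (nat_lit 0) (XT.nd (nat_lit 234) (nat_lit 1368) (nat_lit 0) (XT.nd (nat_lit 78) (nat_lit 0) (nat_lit 0) (XT.lf (nat_lit 0) (nat_lit 423651282) (nat_lit 684) (nat_lit 1438800437) (nat_lit 684) (nat_lit 1438800437) (nat_lit 563) (nat_lit 3) (nat_lit 572) (nat_lit 3) (nat_lit 572) (nat_lit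 5) (nat_lit 389) (nat_lit 389) (nat_lit 362)) (XT.nd (nat_lit 78) (nat_lit 0) (nat_lit 0) (XT.lf (nat_lit 76) (nat_lit 117423263) (nat_lit 0) (nat_lit 2944078932) (nat_lit 684) (nat_lit 3559424641) (nat_lit 564) (nat_lit 5) (nat_lit 563) (nat_lit 3) (nat_lit 572) (nat_lit 5) (nat_lit 390) (nat_lit 389) (nat_lit 361)) (XT.lf (nat_lit 76) (nat_lit 3181419298) (nat_lit 0) (nat_lit 2099845374) (nat_lit 684) (nat_lit 1359319053) (nat_lit 564) (nat_lit 5) (nat_lit 563) (nat_lit 3) (nat_lit 572) (nat_lit 5) (nat_lit 391) (nat_lit 389) (nat_lit 360)))) (XT.nd (nat_lit 156) (nat_lit 684) (nat_lit 0) (XT.nd (nat_lit 78) (nat_lit 0) (nat_lit 0) (XT.lf (nat_lit 0) (nat_lit 815825690) (nat_lit 684) (nat_lit 389881599) (nat_lit 760) (nat_lit 5456046684) (nat_lit 554) (nat_lit 5) (nat_lit 563) (nat_lit 3) (nat_lit 564) (nat_lit 5) (nat_lit 392) (nat_lit 389) (nat_lit 359)) (XT.lf (nat_lit 76) (nat_lit 2738088962) (nat_lit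 0) (nat_lit 239743477) (nat_lit 760) (nat_lit 3706190491) (nat_lit 555) (nat_lit 5) (nat_lit 554) (nat_lit 5) (nat_lit 564) (nat_lit 5) (nat_lit 393) (nat_lit 389) (nat_lit 358))) (XT.nd (nat_lit 78) (nat_lit 760) (nat_lit 0) (XT.lf (nat_lit 0) (nat_lit 5135399290) (nat_lit 684) (nat_lit 808409684) (nat_lit 760) (nat_lit 763966417) (nat_lit 555) (nat_lit 5) (nat_lit 564) (nat_lit 5) (nat_lit 565) (nat_lit 5) (nat_lit 394) (nat_lit 389) (nat_lit 357)) (XT.lf (nat_lit 0) (nat_lit 558906959) (nat_lit 760) (nat_lit 4345027363) (nat_lit 836) (nat_lit 1828817066) (nat_lit 545) (nat_lit 5) (nat_lit 555) (nat_lit 5) (nat_lit 556) (nat_lit 5) (nat_lit 395) (nat_lit 389) (nat_lit 356))))) (XT.nd (nat_lit 234) (nat_lit 836) (nat_lit 0) (XT.nd (nat_lit 78) (nat_lit 836) (nat_lit 0) (XT.lf (nat_lit 0) (nat_lit 2663602403) (nat_lit 760) (nat_lit 1140590241) (nat_lit 836) (nat_lit 2954869224) (nat_lit 545) (nat_lit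 5) (nat_lit 555) (nat_lit 5) (nat_lit 556) (nat_lit 5) (nat_lit 396) (nat_lit 389) (nat_lit 355)) (XT.nd (nat_lit 78) (nat_lit 836) (nat_lit 0) (XT.lf (nat_lit 76) (nat_lit 2125655709) (nat_lit 0) (nat_lit 2645949346) (nat_lit 836) (nat_lit 2015147322) (nat_lit 546) (nat_lit 5) (nat_lit 545) (nat_lit 5) (nat_lit 556) (nat_lit 5) (nat_lit 397) (nat_lit 389) (nat_lit 354)) (XT.lf (nat_lit 0) (nat_lit 60905864) (nat_lit 836) (nat_lit 1373628176) (nat_lit 912) (nat_lit 5381413145) (nat_lit 534) (nat_lit 5) (nat_lit 545) (nat_lit 5) (nat_lit 546) (nat_lit 5) (nat_lit 398) (nat_lit 389) (nat_lit 353)))) (XT.nd (nat_lit 156) (nat_lit 836) (nat_lit 0) (XT.nd (nat_lit 78) (nat_lit 0) (nat_lit 76) (XT.lf (nat_lit 76) (nat_lit 1961848629) (nat_lit 0) (nat_lit 151264915) (nat_lit 912) (nat_lit 4733187202) (nat_lit 535) (nat_lit 5) (nat_lit 534) (nat_lit 5) (nat_lit 546) (nat_lit 5) (nat_lit 399) (nat_lit 389) (nat_lit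 352)) (XT.lf (nat_lit 0) (nat_lit 4172955038) (nat_lit 836) (nat_lit 1533138493) (nat_lit 912) (nat_lit 1171908192) (nat_lit 535) (nat_lit 5) (nat_lit 546) (nat_lit 5) (nat_lit 547) (nat_lit 5) (nat_lit 400) (nat_lit 389) (nat_lit 351))) (XT.nd (nat_lit 78) (nat_lit 912) (nat_lit 0) (XT.lf (nat_lit 76) (nat_lit 1878305601) (nat_lit 0) (nat_lit 4359663633) (nat_lit 912) (nat_lit 673158695) (nat_lit 536) (nat_lit 5) (nat_lit 535) (nat_lit 5) (nat_lit 547) (nat_lit 5) (nat_lit 401) (nat_lit 389) (nat_lit 350)) (XT.lf (nat_lit 0) (nat_lit 1342528218) (nat_lit 912) (nat_lit 1606148560) (nat_lit 988) (nat_lit 3996895865) (nat_lit 523) (nat_lit 5) (nat_lit 535) (nat_lit 5) (nat_lit 536) (nat_lit 5) (nat_lit 402) (nat_lit 389) (nat_lit 349))))))))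
noncomputable def xc126 : XT := (XT.nd (nat_lit 2106) (nat_lit 11172) (nat_lit 0) (XT.nd (nat_lit 1014) (nat_lit 10184) (nat_lit 0) (XT.nd (nat_lit 468) (nat_lit 4484) (nat_lit 0) (XT.nd (nat_lit 234) (nat_lit 0) (nat_lit 0) (XT.nd (nat_lit 78) (nat_lit 912) (nat_lit 0) (XT.lf (nat_lit 76) (nat_lit 1878805685) (nat_lit 0) (nat_lit 1475031973) (nat_lit 988) (nat_lit 3627559800) (nat_lit 524) (nat_lit 5) (nat_lit 523) (nat_lit 5) (nat_lit 536) (nat_lit 5) (nat_lit 403) (nat_lit 389) (nat_lit 348)) (XT.nd (nat_lit 78) (nat_lit 988) (nat_lit 0) (XT.lf (nat_lit 0) (nat_lit 5369372993) (nat_lit 912) (nat_lit 1594099731) (nat_lit 988) (nat_lit 55251391) (nat_lit 524) (nat_lit 5) (nat_lit 536) (nat_lit 5) (nat_lit 537) (nat_lit 5) (nat_lit 404) (nat_lit 389) (nat_lit 347)) (XT.lf (nat_lit 0) (nat_lit 339818950) (nat_lit 988) (nat_lit 5089677655) (nat_lit 1064) (nat_lit 1627791080) (nat_lit 511) (nat_lit 5) (nat_lit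 524) (nat_lit 5) (nat_lit 525) (nat_lit 5) (nat_lit 405) (nat_lit 389) (nat_lit 346)))) (XT.nd (nat_lit 78) (nat_lit 0) (nat_lit 0) (XT.lf (nat_lit 0) (nat_lit 2311709606) (nat_lit 988) (nat_lit 1516446208) (nat_lit 1064) (nat_lit 3269009799) (nat_lit 511) (nat_lit 5) (nat_lit 524) (nat_lit 5) (nat_lit 525) (nat_lit 5) (nat_lit 406) (nat_lit 389) (nat_lit 345)) (XT.nd (nat_lit 78) (nat_lit 0) (nat_lit 0) (XT.lf (nat_lit 76) (nat_lit 2125532136) (nat_lit 0) (nat_lit 2166436946) (nat_lit 1064) (nat_lit 2846553760) (nat_lit 512) (nat_lit 5) (nat_lit 511) (nat_lit 5) (nat_lit 525) (nat_lit 5) (nat_lit 407) (nat_lit 389) (nat_lit 344)) (XT.lf (nat_lit 76) (nat_lit 5830512686) (nat_lit 0) (nat_lit 447310317) (nat_lit 1064) (nat_lit 903623608) (nat_lit 512) (nat_lit 5) (nat_lit 511) (nat_lit 5) (nat_lit 525) (nat_lit 5) (nat_lit 408) (nat_lit 389) (nat_lit 343))))) (XT.nd (nat_lit 234) (nat_lit 2432) (nat_lit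 0) (XT.nd (nat_lit 78) (nat_lit 1064) (nat_lit 0) (XT.lf (nat_lit 0) (nat_lit 1044515724) (nat_lit 1064) (nat_lit 4856306566) (nat_lit 76) (nat_lit 1324713626) (nat_lit 498) (nat_lit 5) (nat_lit 512) (nat_lit 5) (nat_lit 499) (nat_lit 5) (nat_lit 409) (nat_lit 389) (nat_lit 342)) (XT.nd (nat_lit 78) (nat_lit 1064) (nat_lit 0) (XT.lf (nat_lit 0) (nat_lit 2988695616) (nat_lit 1064) (nat_lit 1128457114) (nat_lit 76) (nat_lit 3153907039) (nat_lit 498) (nat_lit 5) (nat_lit 512) (nat_lit 5) (nat_lit 499) (nat_lit 5) (nat_lit 410) (nat_lit 389) (nat_lit 341)) (XT.lf (nat_lit 0) (nat_lit 2678457227) (nat_lit 1064) (nat_lit 2268611950) (nat_lit 1140) (nat_lit 2370973394) (nat_lit 484) (nat_lit 5) (nat_lit 498) (nat_lit 5) (nat_lit 499) (nat_lit 5) (nat_lit 411) (nat_lit 389) (nat_lit 340)))) (XT.nd (nat_lit 156) (nat_lit 1216) (nat_lit 0) (XT.nd (nat_lit 78) (nat_lit 1216) (nat_lit 0) (XT.lf (nat_lit 0) (nat_lit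 6546387295) (nat_lit 1064) (nat_lit 364342810) (nat_lit 1140) (nat_lit 455966127) (nat_lit 484) (nat_lit 5) (nat_lit 498) (nat_lit 5) (nat_lit 499) (nat_lit 5) (nat_lit 412) (nat_lit 389) (nat_lit 339)) (XT.lf (nat_lit 0) (nat_lit 1467221611) (nat_lit 1216) (nat_lit 4351561337) (nat_lit 76) (nat_lit 1597606739) (nat_lit 468) (nat_lit 5) (nat_lit 484) (nat_lit 5) (nat_lit 469) (nat_lit 5) (nat_lit 413) (nat_lit 389) (nat_lit 338))) (XT.nd (nat_lit 78) (nat_lit 1216) (nat_lit 0) (XT.lf (nat_lit 0) (nat_lit 3390439365) (nat_lit 1216) (nat_lit 464789775) (nat_lit 76) (nat_lit 3612484668) (nat_lit 468) (nat_lit 5) (nat_lit 484) (nat_lit 5) (nat_lit 469) (nat_lit 5) (nat_lit 414) (nat_lit 389) (nat_lit 337)) (XT.lf (nat_lit 0) (nat_lit 3515289715) (nat_lit 1216) (nat_lit 1820157229) (nat_lit 1292) (nat_lit 2185000480) (nat_lit 452) (nat_lit 5) (nat_lit 468) (nat_lit 5) (nat_lit 469) (nat_lit 5) (nat_lit 415)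 (nat_lit 389) (nat_lit 336)))))) (XT.nd (nat_lit 546) (nat_lit 4408) (nat_lit 0) (XT.nd (nat_lit 234) (nat_lit 3040) (nat_lit 0) (XT.nd (nat_lit 78) (nat_lit 2736) (nat_lit 0) (XT.lf (nat_lit 0) (nat_lit 7285289142) (nat_lit 1292) (nat_lit 25795502) (nat_lit 76) (nat_lit 263880924) (nat_lit 452) (nat_lit 5) (nat_lit 469) (nat_lit 5) (nat_lit 453) (nat_lit 5) (nat_lit 416) (nat_lit 389) (nat_lit 335)) (XT.nd (nat_lit 78) (nat_lit 1368) (nat_lit 0) (XT.lf (nat_lit 0) (nat_lit 1622157538) (nat_lit 1368) (nat_lit 3597759125) (nat_lit 76) (nat_lit 2410487478) (nat_lit 434) (nat_lit 5) (nat_lit 452) (nat_lit 5) (nat_lit 435) (nat_lit 5) (nat_lit 417) (nat_lit 389) (nat_lit 334)) (XT.lf (nat_lit 0) (nat_lit 458805357) (nat_lit 1368) (nat_lit 3074853046) (nat_lit 1444) (nat_lit 4153994354) (nat_lit 416) (nat_lit 5) (nat_lit 434) (nat_lit 5) (nat_lit 435) (nat_lit 5) (nat_lit 418) (nat_lit 389) (nat_lit 333))))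 (XT.nd (nat_lit 156) (nat_lit 1596) (nat_lit 0) (XT.nd (nat_lit 78) (nat_lit 1444) (nat_lit 0) (XT.lf (nat_lit 0) (nat_lit 4614524898) (nat_lit 1368) (nat_lit 855701987) (nat_lit 1444) (nat_lit 2276127559) (nat_lit 416) (nat_lit 5) (nat_lit 434) (nat_lit 5) (nat_lit 435) (nat_lit 5) (nat_lit 419) (nat_lit 389) (nat_lit 332)) (XT.lf (nat_lit 0) (nat_lit 1020411795) (nat_lit 1444) (nat_lit 6404348690) (nat_lit 1520) (nat_lit 381928978) (nat_lit 397) (nat_lit 5) (nat_lit 416) (nat_lit 5) (nat_lit 417) (nat_lit 5) (nat_lit 420) (nat_lit 389) (nat_lit 331))) (XT.nd (nat_lit 78) (nat_lit 1520) (nat_lit 0) (XT.lf (nat_lit 0) (nat_lit 1520348887) (nat_lit 1520) (nat_lit 2616810943) (nat_lit 76) (nat_lit 3731101806) (nat_lit 396) (nat_lit 5) (nat_lit 416) (nat_lit 5) (nat_lit 397) (nat_lit 5) (nat_lit 421) (nat_lit 389) (nat_lit 330)) (XT.lf (nat_lit 0) (nat_lit 1624150023) (nat_lit 1520) (nat_lit 1806373342)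 (nat_lit 1596) (nat_lit 4501033531) (nat_lit 376) (nat_lit 5) (nat_lit 396) (nat_lit 5) (nat_lit 397) (nat_lit 5) (nat_lit 422) (nat_lit 389) (nat_lit 329))))) (XT.nd (nat_lit 234) (nat_lit 2736) (nat_lit 0) (XT.nd (nat_lit 78) (nat_lit 1672) (nat_lit 0) (XT.lf (nat_lit 0) (nat_lit 5365230484) (nat_lit 1596) (nat_lit 2045426219) (nat_lit 76) (nat_lit 585775397) (nat_lit 376) (nat_lit 5) (nat_lit 397) (nat_lit 5) (nat_lit 377) (nat_lit 5) (nat_lit 423) (nat_lit 389) (nat_lit 328)) (XT.nd (nat_lit 78) (nat_lit 76) (nat_lit 0) (XT.lf (nat_lit 0) (nat_lit 2289230131) (nat_lit 1596) (nat_lit 5041860083) (nat_lit 1672) (nat_lit 731705253) (nat_lit 355) (nat_lit 5) (nat_lit 376) (nat_lit 5) (nat_lit 377) (nat_lit 5) (nat_lit 424) (nat_lit 389) (nat_lit 327)) (XT.lf (nat_lit 0) (nat_lit 1169629684) (nat_lit 1672) (nat_lit 1430740847) (nat_lit 76) (nat_lit 5530404019) (nat_lit 354) (nat_lit 5) (nat_lit 376) (nat_lit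 5) (nat_lit 355) (nat_lit 5) (nat_lit 425) (nat_lit 389) (nat_lit 326)))) (XT.nd (nat_lit 156) (nat_lit 1064) (nat_lit 0) (XT.nd (nat_lit 78) (nat_lit 0) (nat_lit 0) (XT.lf (nat_lit 0) (nat_lit 3003172195) (nat_lit 1672) (nat_lit 82044920) (nat_lit 1748) (nat_lit 5115116433) (nat_lit 332) (nat_lit 5) (nat_lit 354) (nat_lit 5) (nat_lit 355) (nat_lit 5) (nat_lit 426) (nat_lit 389) (nat_lit 325)) (XT.lf (nat_lit 0) (nat_lit 5031921429) (nat_lit 1748) (nat_lit 772968805) (nat_lit 76) (nat_lit 2466574183) (nat_lit 332) (nat_lit 5) (nat_lit 355) (nat_lit 5) (nat_lit 333) (nat_lit 5) (nat_lit 427) (nat_lit 389) (nat_lit 324))) (XT.nd (nat_lit 78) (nat_lit 76) (nat_lit 0) (XT.lf (nat_lit 0) (nat_lit 3758232458) (nat_lit 988) (nat_lit 3251914361) (nat_lit 1064) (nat_lit 1334055416) (nat_lit 319) (nat_lit 5) (nat_lit 332) (nat_lit 5) (nat_lit 333) (nat_lit 5) (nat_lit 428) (nat_lit 389) (nat_lit 323)) (XT.lf (nat_lit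 0) (nat_lit 574604994) (nat_lit 1064) (nat_lit 62232403) (nat_lit 76) (nat_lit 7782051787) (nat_lit 318) (nat_lit 5) (nat_lit 332) (nat_lit 5) (nat_lit 319) (nat_lit 5) (nat_lit 429) (nat_lit 389) (nat_lit 322))))))) (XT.nd (nat_lit 1092) (nat_lit 4940) (nat_lit 0) (XT.nd (nat_lit 546) (nat_lit 2964) (nat_lit 0) (XT.nd (nat_lit 234) (nat_lit 1596) (nat_lit 0) (XT.nd (nat_lit 78) (nat_lit 836) (nat_lit 0) (XT.lf (nat_lit 0) (nat_lit 2515200877) (nat_lit 912) (nat_lit 3935176936) (nat_lit 76) (nat_lit 2044317182) (nat_lit 307) (nat_lit 5) (nat_lit 319) (nat_lit 5) (nat_lit 308) (nat_lit 5) (nat_lit 430) (nat_lit 389) (nat_lit 321)) (XT.nd (nat_lit 78) (nat_lit 0) (nat_lit 0) (XT.lf (nat_lit 0) (nat_lit 676839895) (nat_lit 836) (nat_lit 3795702480) (nat_lit 912) (nat_lit 4099949199) (nat_lit 296) (nat_lit 5) (nat_lit 307) (nat_lit 5) (nat_lit 308) (nat_lit 5) (nat_lit 431) (nat_lit 389) (nat_lit 320)) (XT.lf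 (nat_lit 0) (nat_lit 5404283842) (nat_lit 836) (nat_lit 1060469317) (nat_lit 912) (nat_lit 2187209147) (nat_lit 296) (nat_lit 5) (nat_lit 307) (nat_lit 5) (nat_lit 308) (nat_lit 5) (nat_lit 432) (nat_lit 389) (nat_lit 319)))) (XT.nd (nat_lit 156) (nat_lit 760) (nat_lit 0) (XT.nd (nat_lit 78) (nat_lit 76) (nat_lit 0) (XT.lf (nat_lit 0) (nat_lit 1471117979) (nat_lit 760) (nat_lit 7016390884) (nat_lit 836) (nat_lit 245731607) (nat_lit 286) (nat_lit 5) (nat_lit 296) (nat_lit 5) (nat_lit 297) (nat_lit 5) (nat_lit 433) (nat_lit 389) (nat_lit 318)) (XT.lf (nat_lit 0) (nat_lit 1710874946) (nat_lit 836) (nat_lit 2536255120) (nat_lit 76) (nat_lit 4568838703) (nat_lit 285) (nat_lit 5) (nat_lit 296) (nat_lit 5) (nat_lit 286) (nat_lit 5) (nat_lit 434) (nat_lit 389) (nat_lit 317))) (XT.nd (nat_lit 78) (nat_lit 0) (nat_lit 0) (XT.lf (nat_lit 0) (nat_lit 2282604728) (nat_lit 760) (nat_lit 1406216127) (nat_lit 836) (nat_lit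 5211818527) (nat_lit 275) (nat_lit 5) (nat_lit 285) (nat_lit 5) (nat_lit 286) (nat_lit 5) (nat_lit 435) (nat_lit 389) (nat_lit 316)) (XT.lf (nat_lit 0) (nat_lit 5704194295) (nat_lit 836) (nat_lit 1794480203) (nat_lit 76) (nat_lit 1488401127) (nat_lit 275) (nat_lit 5) (nat_lit 286) (nat_lit 5) (nat_lit 276) (nat_lit 5) (nat_lit 436) (nat_lit 389) (nat_lit 315))))) (XT.nd (nat_lit 234) (nat_lit 1444) (nat_lit 0) (XT.nd (nat_lit 78) (nat_lit 836) (nat_lit 0) (XT.lf (nat_lit 0) (nat_lit 3127602756) (nat_lit 684) (nat_lit 4633511592) (nat_lit 760) (nat_lit 1314130475) (nat_lit 266) (nat_lit 5) (nat_lit 275) (nat_lit 5) (nat_lit 276) (nat_lit 5) (nat_lit 437) (nat_lit 389) (nat_lit 314)) (XT.nd (nat_lit 78) (nat_lit 760) (nat_lit 0) (XT.lf (nat_lit 0) (nat_lit 668786798) (nat_lit 760) (nat_lit 1026927096) (nat_lit 76) (nat_lit 7469723411) (nat_lit 265) (nat_lit 5) (nat_lit 275) (nat_lit 5) (nat_lit 266) (nat_lit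 5) (nat_lit 438) (nat_lit 389) (nat_lit 313)) (XT.lf (nat_lit 0) (nat_lit 2680787900) (nat_lit 836) (nat_lit 5259208161) (nat_lit 76) (nat_lit 1317150753) (nat_lit 255) (nat_lit 5) (nat_lit 266) (nat_lit 5) (nat_lit 256) (nat_lit 5) (nat_lit 439) (nat_lit 389) (nat_lit 312)))) (XT.nd (nat_lit 156) (nat_lit 760) (nat_lit 0) (XT.nd (nat_lit 78) (nat_lit 684) (nat_lit 0) (XT.lf (nat_lit 0) (nat_lit 4723863327) (nat_lit 836) (nat_lit 254246967) (nat_lit 76) (nat_lit 4372790335) (nat_lit 255) (nat_lit 5) (nat_lit 266) (nat_lit 5) (nat_lit 256) (nat_lit 5) (nat_lit 440) (nat_lit 389) (nat_lit 311)) (XT.lf (nat_lit 0) (nat_lit 4885832477) (nat_lit 684) (nat_lit 1926893330) (nat_lit 760) (nat_lit 2633731478) (nat_lit 246) (nat_lit 5) (nat_lit 255) (nat_lit 5) (nat_lit 256) (nat_lit 5) (nat_lit 441) (nat_lit 389) (nat_lit 310))) (XT.nd (nat_lit 78) (nat_lit 76) (nat_lit 0) (XT.lf (nat_lit 0) (nat_lit 558478476)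 (nat_lit 684) (nat_lit 8371452394) (nat_lit 760) (nat_lit 614288660) (nat_lit 237) (nat_lit 5) (nat_lit 246) (nat_lit 5) (nat_lit 247) (nat_lit 5) (nat_lit 442) (nat_lit 389) (nat_lit 309)) (XT.lf (nat_lit 0) (nat_lit 1443809389) (nat_lit 760) (nat_lit 3853478643) (nat_lit 76) (nat_lit 4346141542) (nat_lit 236) (nat_lit 5) (nat_lit 246) (nat_lit 5) (nat_lit 237) (nat_lit 5) (nat_lit 443) (nat_lit 389) (nat_lit 308)))))) (XT.nd (nat_lit 546) (nat_lit 2356) (nat_lit 0) (XT.nd (nat_lit 234) (nat_lit 1292) (nat_lit 0) (XT.nd (nat_lit 78) (nat_lit 684) (nat_lit 0) (XT.lf (nat_lit 0) (nat_lit 1366270926) (nat_lit 608) (nat_lit 2151625278) (nat_lit 684) (nat_lit 6227009638) (nat_lit 228) (nat_lit 5) (nat_lit 236) (nat_lit 5) (nat_lit 237) (nat_lit 5) (nat_lit 444) (nat_lit 389) (nat_lit 307)) (XT.nd (nat_lit 78) (nat_lit 684) (nat_lit 0) (XT.lf (nat_lit 0) (nat_lit 5640828802) (nat_lit 684) (nat_lit 3141608168)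 (nat_lit 76) (nat_lit 1065851183) (nat_lit 228) (nat_lit 5) (nat_lit 237) (nat_lit 5) (nat_lit 229) (nat_lit 5) (nat_lit 445) (nat_lit 389) (nat_lit 306)) (XT.lf (nat_lit 0) (nat_lit 2185822058) (nat_lit 684) (nat_lit 5623811033) (nat_lit 760) (nat_lit 2144060093) (nat_lit 219) (nat_lit 5) (nat_lit 228) (nat_lit 5) (nat_lit 229) (nat_lit 5) (nat_lit 446) (nat_lit 389) (nat_lit 305)))) (XT.nd (nat_lit 156) (nat_lit 608) (nat_lit 0) (XT.nd (nat_lit 78) (nat_lit 684) (nat_lit 0) (XT.lf (nat_lit 0) (nat_lit 7633820065) (nat_lit 684) (nat_lit 2384352578) (nat_lit 760) (nat_lit 43129364) (nat_lit 219) (nat_lit 5) (nat_lit 228) (nat_lit 5) (nat_lit 229) (nat_lit 5) (nat_lit 447) (nat_lit 389) (nat_lit 304)) (XT.lf (nat_lit 0) (nat_lit 2073617291) (nat_lit 684) (nat_lit 7159774496) (nat_lit 76) (nat_lit 937393801) (nat_lit 210) (nat_lit 5) (nat_lit 219) (nat_lit 5) (nat_lit 211) (nat_lit 5) (nat_lit 448) (nat_lit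 389) (nat_lit 303))) (XT.nd (nat_lit 78) (nat_lit 608) (nat_lit 0) (XT.lf (nat_lit 0) (nat_lit 4240159057) (nat_lit 684) (nat_lit 1735781652) (nat_lit 76) (nat_lit 4306373232) (nat_lit 210) (nat_lit 5) (nat_lit 219) (nat_lit 5) (nat_lit 211) (nat_lit 5) (nat_lit 449) (nat_lit 389) (nat_lit 302)) (XT.lf (nat_lit 0) (nat_lit 3818691687) (nat_lit 608) (nat_lit 2632456160) (nat_lit 684) (nat_lit 3944923824) (nat_lit 202) (nat_lit 5) (nat_lit 210) (nat_lit 5) (nat_lit 211) (nat_lit 5) (nat_lit 450) (nat_lit 389) (nat_lit 301))))) (XT.nd (nat_lit 234) (nat_lit 1748) (nat_lit 0) (XT.nd (nat_lit 78) (nat_lit 608) (nat_lit 0) (XT.lf (nat_lit 0) (nat_lit 8699708795) (nat_lit 684) (nat_lit 1037572695) (nat_lit 76) (nat_lit 774976737) (nat_lit 202) (nat_lit 5) (nat_lit 211) (nat_lit 5) (nat_lit 203) (nat_lit 5) (nat_lit 451) (nat_lit 389) (nat_lit 300)) (XT.nd (nat_lit 78) (nat_lit 0) (nat_lit 0) (XT.lf (nat_lit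 0) (nat_lit 382381560) (nat_lit 608) (nat_lit 6004314001) (nat_lit 76) (nat_lit 4243552538) (nat_lit 194) (nat_lit 5) (nat_lit 202) (nat_lit 5) (nat_lit 195) (nat_lit 5) (nat_lit 452) (nat_lit 389) (nat_lit 299)) (XT.lf (nat_lit 0) (nat_lit 2581109503) (nat_lit 608) (nat_lit 373673913) (nat_lit 76) (nat_lit 7795910892) (nat_lit 194) (nat_lit 5) (nat_lit 202) (nat_lit 5) (nat_lit 195) (nat_lit 5) (nat_lit 453) (nat_lit 389) (nat_lit 298)))) (XT.nd (nat_lit 156) (nat_lit 608) (nat_lit 0) (XT.nd (nat_lit 78) (nat_lit 532) (nat_lit 0) (XT.lf (nat_lit 0) (nat_lit 4840287081) (nat_lit 684) (nat_lit 5463877439) (nat_lit 76) (nat_lit 569074560) (nat_lit 186) (nat_lit 5) (nat_lit 195) (nat_lit 5) (nat_lit 187) (nat_lit 5) (nat_lit 454) (nat_lit 389) (nat_lit 297)) (XT.lf (nat_lit 0) (nat_lit 271269494) (nat_lit 532) (nat_lit 6875047399) (nat_lit 608) (nat_lit 3851903245) (nat_lit 179) (nat_lit 5) (nat_lit 186)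 (nat_lit 5) (nat_lit 187) (nat_lit 5) (nat_lit 455) (nat_lit 389) (nat_lit 296))) (XT.nd (nat_lit 78) (nat_lit 608) (nat_lit 0) (XT.lf (nat_lit 0) (nat_lit 6167723414) (nat_lit 532) (nat_lit 3345481254) (nat_lit 608) (nat_lit 1612219802) (nat_lit 179) (nat_lit 5) (nat_lit 186) (nat_lit 5) (nat_lit 187) (nat_lit 5) (nat_lit 456) (nat_lit 389) (nat_lit 295)) (XT.lf (nat_lit 0) (nat_lit 649357886) (nat_lit 608) (nat_lit 10349863842) (nat_lit 76) (nat_lit 256163200) (nat_lit 171) (nat_lit 5) (nat_lit 179) (nat_lit 5) (nat_lit 172) (nat_lit 5) (nat_lit 457) (nat_lit 389) (nat_lit 294))))))))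
noncomputable def xc127 : XT := (XT.nd (nat_lit 2106) (nat_lit 3496) (nat_lit 0) (XT.nd (nat_lit 1014) (nat_lit 2736) (nat_lit 0) (XT.nd (nat_lit 468) (nat_lit 1444) (nat_lit 0) (XT.nd (nat_lit 234) (nat_lit 1064) (nat_lit 0) (XT.nd (nat_lit 78) (nat_lit 456) (nat_lit 0) (XT.lf (nat_lit 0) (nat_lit 2968798405) (nat_lit 608) (nat_lit 4494578494) (nat_lit 76) (nat_lit 3923687520) (nat_lit 171) (nat_lit 5) (nat_lit 179) (nat_lit 5) (nat_lit 172) (nat_lit 5) (nat_lit 458) (nat_lit 389) (nat_lit 293)) (XT.nd (nat_lit 78) (nat_lit 0) (nat_lit 0) (XT.lf (nat_lit 0) (nat_lit 1470175443) (nat_lit 456) (nat_lit 3852972264) (nat_lit 532) (nat_lit 6198476391) (nat_lit 165) (nat_lit 5) (nat_lit 171) (nat_lit 5) (nat_lit 172) (nat_lit 5) (nat_lit 459) (nat_lit 389) (nat_lit 292)) (XT.lf (nat_lit 0) (nat_lit 7588408017) (nat_lit 456) (nat_lit 145550219) (nat_lit 532) (nat_lit 3924745912) (nat_lit 165) (nat_lit 5) (nat_lit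 171) (nat_lit 5) (nat_lit 172) (nat_lit 5) (nat_lit 460) (nat_lit 389) (nat_lit 291)))) (XT.nd (nat_lit 78) (nat_lit 532) (nat_lit 0) (XT.lf (nat_lit 0) (nat_lit 2006585411) (nat_lit 532) (nat_lit 8202618038) (nat_lit 608) (nat_lit 1589014317) (nat_lit 158) (nat_lit 5) (nat_lit 165) (nat_lit 5) (nat_lit 166) (nat_lit 5) (nat_lit 461) (nat_lit 389) (nat_lit 290)) (XT.nd (nat_lit 78) (nat_lit 456) (nat_lit 0) (XT.lf (nat_lit 0) (nat_lit 791146704) (nat_lit 608) (nat_lit 3712807407) (nat_lit 76) (nat_lit 7436317803) (nat_lit 157) (nat_lit 5) (nat_lit 165) (nat_lit 5) (nat_lit 158) (nat_lit 5) (nat_lit 462) (nat_lit 389) (nat_lit 289)) (XT.lf (nat_lit 0) (nat_lit 2483451220) (nat_lit 456) (nat_lit 710387882) (nat_lit 532) (nat_lit 8891209268) (nat_lit 151) (nat_lit 5) (nat_lit 157) (nat_lit 5) (nat_lit 158) (nat_lit 5) (nat_lit 463) (nat_lit 389) (nat_lit 288))))) (XT.nd (nat_lit 234) (nat_lit 988) (nat_lit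 0) (XT.nd (nat_lit 78) (nat_lit 456) (nat_lit 0) (XT.lf (nat_lit 0) (nat_lit 5670417964) (nat_lit 532) (nat_lit 3425321272) (nat_lit 76) (nat_lit 3136479559) (nat_lit 151) (nat_lit 5) (nat_lit 158) (nat_lit 5) (nat_lit 152) (nat_lit 5) (nat_lit 464) (nat_lit 389) (nat_lit 287)) (XT.nd (nat_lit 78) (nat_lit 0) (nat_lit 0) (XT.lf (nat_lit 0) (nat_lit 2881700299) (nat_lit 456) (nat_lit 5318872058) (nat_lit 532) (nat_lit 4181694190) (nat_lit 145) (nat_lit 5) (nat_lit 151) (nat_lit 5) (nat_lit 152) (nat_lit 5) (nat_lit 465) (nat_lit 389) (nat_lit 286)) (XT.lf (nat_lit 0) (nat_lit 9335594341) (nat_lit 456) (nat_lit 1449563654) (nat_lit 532) (nat_lit 1750095203) (nat_lit 145) (nat_lit 5) (nat_lit 151) (nat_lit 5) (nat_lit 152) (nat_lit 5) (nat_lit 466) (nat_lit 389) (nat_lit 285)))) (XT.nd (nat_lit 156) (nat_lit 456) (nat_lit 0) (XT.nd (nat_lit 78) (nat_lit 0) (nat_lit 0) (XT.lf (nat_lit 0) (nat_lit 739014148)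 (nat_lit 532) (nat_lit 9467964808) (nat_lit 76) (nat_lit 2483870673) (nat_lit 138) (nat_lit 5) (nat_lit 145) (nat_lit 5) (nat_lit 139) (nat_lit 5) (nat_lit 467) (nat_lit 389) (nat_lit 284)) (XT.lf (nat_lit 0) (nat_lit 3266950882) (nat_lit 532) (nat_lit 3078847250) (nat_lit 76) (nat_lit 6503292584) (nat_lit 138) (nat_lit 5) (nat_lit 145) (nat_lit 5) (nat_lit 139) (nat_lit 5) (nat_lit 468) (nat_lit 389) (nat_lit 283))) (XT.nd (nat_lit 78) (nat_lit 0) (nat_lit 0) (XT.lf (nat_lit 0) (nat_lit 3458272949) (nat_lit 456) (nat_lit 2391238288) (nat_lit 532) (nat_lit 7160917492) (nat_lit 132) (nat_lit 5) (nat_lit 138) (nat_lit 5) (nat_lit 139) (nat_lit 5) (nat_lit 469) (nat_lit 389) (nat_lit 282)) (XT.lf (nat_lit 0) (nat_lit 8496949846) (nat_lit 532) (nat_lit 3042813745) (nat_lit 76) (nat_lit 1634978510) (nat_lit 132) (nat_lit 5) (nat_lit 139) (nat_lit 5) (nat_lit 133) (nat_lit 5) (nat_lit 470) (nat_lit 389) (nat_lit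 281)))))) (XT.nd (nat_lit 546) (nat_lit 1140) (nat_lit 0) (XT.nd (nat_lit 234) (nat_lit 760) (nat_lit 0) (XT.nd (nat_lit 78) (nat_lit 456) (nat_lit 0) (XT.lf (nat_lit 0) (nat_lit 3603330447) (nat_lit 380) (nat_lit 7615361437) (nat_lit 456) (nat_lit 2123235643) (nat_lit 127) (nat_lit 5) (nat_lit 132) (nat_lit 5) (nat_lit 133) (nat_lit 5) (nat_lit 471) (nat_lit 389) (nat_lit 280)) (XT.nd (nat_lit 78) (nat_lit 380) (nat_lit 0) (XT.lf (nat_lit 0) (nat_lit 478823644) (nat_lit 456) (nat_lit 3116564917) (nat_lit 76) (nat_lit 9916963071) (nat_lit 126) (nat_lit 5) (nat_lit 132) (nat_lit 5) (nat_lit 127) (nat_lit 5) (nat_lit 472) (nat_lit 389) (nat_lit 279)) (XT.lf (nat_lit 0) (nat_lit 3114218378) (nat_lit 456) (nat_lit 10041997857) (nat_lit 76) (nat_lit 529504943) (nat_lit 121) (nat_lit 5) (nat_lit 127) (nat_lit 5) (nat_lit 122) (nat_lit 5) (nat_lit 473) (nat_lit 389) (nat_lit 278)))) (XT.nd (nat_lit 156) (nat_lit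 380) (nat_lit 0) (XT.nd (nat_lit 78) (nat_lit 380) (nat_lit 0) (XT.lf (nat_lit 0) (nat_lit 5829857364) (nat_lit 456) (nat_lit 3329182273) (nat_lit 76) (nat_lit 4702979651) (nat_lit 121) (nat_lit 5) (nat_lit 127) (nat_lit 5) (nat_lit 122) (nat_lit 5) (nat_lit 474) (nat_lit 389) (nat_lit 277)) (XT.lf (nat_lit 0) (nat_lit 3540245486) (nat_lit 380) (nat_lit 5065562545) (nat_lit 456) (nat_lit 5435927019) (nat_lit 116) (nat_lit 5) (nat_lit 121) (nat_lit 5) (nat_lit 122) (nat_lit 5) (nat_lit 475) (nat_lit 389) (nat_lit 276))) (XT.nd (nat_lit 78) (nat_lit 380) (nat_lit 0) (XT.lf (nat_lit 0) (nat_lit 10568273038) (nat_lit 380) (nat_lit 874536306) (nat_lit 456) (nat_lit 2782136587) (nat_lit 116) (nat_lit 5) (nat_lit 121) (nat_lit 5) (nat_lit 122) (nat_lit 5) (nat_lit 476) (nat_lit 389) (nat_lit 275)) (XT.lf (nat_lit 0) (nat_lit 3322798837) (nat_lit 380) (nat_lit 11040878143) (nat_lit 456) (nat_lit 47612738) (nat_lit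 111) (nat_lit 5) (nat_lit 116) (nat_lit 5) (nat_lit 117) (nat_lit 5) (nat_lit 477) (nat_lit 389) (nat_lit 274))))) (XT.nd (nat_lit 234) (nat_lit 760) (nat_lit 0) (XT.nd (nat_lit 78) (nat_lit 304) (nat_lit 0) (XT.lf (nat_lit 0) (nat_lit 2719664452) (nat_lit 456) (nat_lit 4157013679) (nat_lit 76) (nat_lit 7724056635) (nat_lit 110) (nat_lit 5) (nat_lit 116) (nat_lit 5) (nat_lit 111) (nat_lit 5) (nat_lit 478) (nat_lit 389) (nat_lit 273)) (XT.nd (nat_lit 78) (nat_lit 0) (nat_lit 0) (XT.lf (nat_lit 0) (nat_lit 2927826930) (nat_lit 304) (nat_lit 2616682838) (nat_lit 380) (nat_lit 9249406016) (nat_lit 106) (nat_lit 5) (nat_lit 110) (nat_lit 5) (nat_lit 111) (nat_lit 5) (nat_lit 479) (nat_lit 389) (nat_lit 272)) (XT.lf (nat_lit 0) (nat_lit 8449124486) (nat_lit 380) (nat_lit 4814575521) (nat_lit 76) (nat_lit 1726805325) (nat_lit 106) (nat_lit 5) (nat_lit 111) (nat_lit 5) (nat_lit 107) (nat_lit 5) (nat_lit 480)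 (nat_lit 389) (nat_lit 271)))) (XT.nd (nat_lit 156) (nat_lit 380) (nat_lit 0) (XT.nd (nat_lit 78) (nat_lit 0) (nat_lit 0) (XT.lf (nat_lit 0) (nat_lit 2368685781) (nat_lit 380) (nat_lit 9060137503) (nat_lit 456) (nat_lit 3761873708) (nat_lit 101) (nat_lit 5) (nat_lit 106) (nat_lit 5) (nat_lit 107) (nat_lit 5) (nat_lit 481) (nat_lit 389) (nat_lit 270)) (XT.lf (nat_lit 0) (nat_lit 9738007580) (nat_lit 380) (nat_lit 4746860191) (nat_lit 456) (nat_lit 909699640) (nat_lit 101) (nat_lit 5) (nat_lit 106) (nat_lit 5) (nat_lit 107) (nat_lit 5) (nat_lit 482) (nat_lit 389) (nat_lit 269))) (XT.nd (nat_lit 78) (nat_lit 0) (nat_lit 0) (XT.lf (nat_lit 0) (nat_lit 1638069038) (nat_lit 304) (nat_lit 330498033) (nat_lit 380) (nat_lit 13633792629) (nat_lit 96) (nat_lit 5) (nat_lit 100) (nat_lit 5) (nat_lit 101) (nat_lit 5) (nat_lit 483) (nat_lit 389) (nat_lit 268)) (XT.lf (nat_lit 0) (nat_lit 4942286880) (nat_lit 380) (nat_lit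 6714409812) (nat_lit 76) (nat_lit 4156498891) (nat_lit 96) (nat_lit 5) (nat_lit 101) (nat_lit 5) (nat_lit 97) (nat_lit 5) (nat_lit 484) (nat_lit 389) (nat_lit 267))))))) (XT.nd (nat_lit 1092) (nat_lit 1672) (nat_lit 0) (XT.nd (nat_lit 546) (nat_lit 836) (nat_lit 0) (XT.nd (nat_lit 234) (nat_lit 684) (nat_lit 0) (XT.nd (nat_lit 78) (nat_lit 0) (nat_lit 0) (XT.lf (nat_lit 0) (nat_lit 664693294) (nat_lit 304) (nat_lit 7302337011) (nat_lit 380) (nat_lit 8061396094) (nat_lit 92) (nat_lit 5) (nat_lit 96) (nat_lit 5) (nat_lit 97) (nat_lit 5) (nat_lit 485) (nat_lit 389) (nat_lit 266)) (XT.nd (nat_lit 78) (nat_lit 0) (nat_lit 0) (XT.lf (nat_lit 0) (nat_lit 8260236590) (nat_lit 304) (nat_lit 2822283473) (nat_lit 380) (nat_lit 5164845758) (nat_lit 92) (nat_lit 5) (nat_lit 96) (nat_lit 5) (nat_lit 97) (nat_lit 5) (nat_lit 486) (nat_lit 389) (nat_lit 265)) (XT.lf (nat_lit 0) (nat_lit 14257102462) (nat_lit 380) (nat_lit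 496313733) (nat_lit 76) (nat_lit 1717341021) (nat_lit 92) (nat_lit 5) (nat_lit 97) (nat_lit 5) (nat_lit 93) (nat_lit 5) (nat_lit 487) (nat_lit 389) (nat_lit 264)))) (XT.nd (nat_lit 156) (nat_lit 304) (nat_lit 0) (XT.nd (nat_lit 78) (nat_lit 0) (nat_lit 0) (XT.lf (nat_lit 0) (nat_lit 837594528) (nat_lit 380) (nat_lit 9504620065) (nat_lit 76) (nat_lit 6355277279) (nat_lit 87) (nat_lit 5) (nat_lit 92) (nat_lit 5) (nat_lit 88) (nat_lit 5) (nat_lit 488) (nat_lit 389) (nat_lit 263)) (XT.lf (nat_lit 0) (nat_lit 3909370511) (nat_lit 380) (nat_lit 1922408186) (nat_lit 76) (nat_lit 11096915362) (nat_lit 87) (nat_lit 5) (nat_lit 92) (nat_lit 5) (nat_lit 88) (nat_lit 5) (nat_lit 489) (nat_lit 389) (nat_lit 262))) (XT.nd (nat_lit 78) (nat_lit 0) (nat_lit 0) (XT.lf (nat_lit 0) (nat_lit 5867220847) (nat_lit 304) (nat_lit 1199496487) (nat_lit 380) (nat_lit 10097328416) (nat_lit 83) (nat_lit 5) (nat_lit 87) (nat_lit 5)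 (nat_lit 88) (nat_lit 5) (nat_lit 490) (nat_lit 389) (nat_lit 261)) (XT.lf (nat_lit 0) (nat_lit 10309218026) (nat_lit 380) (nat_lit 3609395138) (nat_lit 76) (nat_lit 3485059182) (nat_lit 83) (nat_lit 5) (nat_lit 88) (nat_lit 5) (nat_lit 84) (nat_lit 5) (nat_lit 491) (nat_lit 389) (nat_lit 260))))) (XT.nd (nat_lit 234) (nat_lit 228) (nat_lit 0) (XT.nd (nat_lit 78) (nat_lit 380) (nat_lit 0) (XT.lf (nat_lit 0) (nat_lit 4258837102) (nat_lit 228) (nat_lit 9379730127) (nat_lit 304) (nat_lit 4009092126) (nat_lit 80) (nat_lit 5) (nat_lit 83) (nat_lit 5) (nat_lit 84) (nat_lit 5) (nat_lit 492) (nat_lit 389) (nat_lit 259)) (XT.nd (nat_lit 78) (nat_lit 380) (nat_lit 0) (XT.lf (nat_lit 0) (nat_lit 12312639660) (nat_lit 228) (nat_lit 4732620377) (nat_lit 304) (nat_lit 851058631) (nat_lit 80) (nat_lit 5) (nat_lit 83) (nat_lit 5) (nat_lit 84) (nat_lit 5) (nat_lit 493) (nat_lit 389) (nat_lit 258)) (XT.lf (nat_lit 0) (nat_lit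 2341366808) (nat_lit 380) (nat_lit 15777014125) (nat_lit 76) (nat_lit 31223545) (nat_lit 75) (nat_lit 5) (nat_lit 80) (nat_lit 5) (nat_lit 76) (nat_lit 5) (nat_lit 494) (nat_lit 389) (nat_lit 257)))) (XT.nd (nat_lit 156) (nat_lit 0) (nat_lit 0) (XT.nd (nat_lit 78) (nat_lit 228) (nat_lit 0) (XT.lf (nat_lit 0) (nat_lit 5642101726) (nat_lit 380) (nat_lit 7901346850) (nat_lit 76) (nat_lit 4863285038) (nat_lit 75) (nat_lit 5) (nat_lit 80) (nat_lit 5) (nat_lit 76) (nat_lit 5) (nat_lit 495) (nat_lit 389) (nat_lit 256)) (XT.lf (nat_lit 0) (nat_lit 113133787) (nat_lit 228) (nat_lit 8883497752) (nat_lit 304) (nat_lit 9672625302) (nat_lit 72) (nat_lit 5) (nat_lit 75) (nat_lit 5) (nat_lit 76) (nat_lit 5) (nat_lit 496) (nat_lit 389) (nat_lit 255))) (XT.nd (nat_lit 78) (nat_lit 0) (nat_lit 0) (XT.lf (nat_lit 0) (nat_lit 8374957908) (nat_lit 228) (nat_lit 4083485714) (nat_lit 304) (nat_lit 6477790048) (nat_lit 72) (nat_lit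 5) (nat_lit 75) (nat_lit 5) (nat_lit 76) (nat_lit 5) (nat_lit 497) (nat_lit 389) (nat_lit 254)) (XT.lf (nat_lit 0) (nat_lit 15982142505) (nat_lit 304) (nat_lit 2431677248) (nat_lit 76) (nat_lit 794884105) (nat_lit 72) (nat_lit 5) (nat_lit 76) (nat_lit 5) (nat_lit 73) (nat_lit 5) (nat_lit 498) (nat_lit 389) (nat_lit 253)))))) (XT.nd (nat_lit 546) (nat_lit 760) (nat_lit 0) (XT.nd (nat_lit 234) (nat_lit 304) (nat_lit 0) (XT.nd (nat_lit 78) (nat_lit 228) (nat_lit 0) (XT.lf (nat_lit 0) (nat_lit 141774934) (nat_lit 380) (nat_lit 13595250078) (nat_lit 76) (nat_lit 5748528176) (nat_lit 67) (nat_lit 5) (nat_lit 72) (nat_lit 5) (nat_lit 68) (nat_lit 5) (nat_lit 499) (nat_lit 389) (nat_lit 252)) (XT.nd (nat_lit 78) (nat_lit 228) (nat_lit 0) (XT.lf (nat_lit 0) (nat_lit 3538392588) (nat_lit 380) (nat_lit 5396927093) (nat_lit 76) (nat_lit 10832117348) (nat_lit 67) (nat_lit 5) (nat_lit 72) (nat_lit 5) (nat_lit 68) (nat_lit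 5) (nat_lit 500) (nat_lit 389) (nat_lit 251)) (XT.lf (nat_lit 0) (nat_lit 2985375871) (nat_lit 228) (nat_lit 4024843892) (nat_lit 304) (nat_lit 13044599555) (nat_lit 64) (nat_lit 5) (nat_lit 67) (nat_lit 5) (nat_lit 68) (nat_lit 5) (nat_lit 501) (nat_lit 389) (nat_lit 250)))) (XT.nd (nat_lit 156) (nat_lit 304) (nat_lit 0) (XT.nd (nat_lit 78) (nat_lit 0) (nat_lit 0) (XT.lf (nat_lit 0) (nat_lit 10582289747) (nat_lit 304) (nat_lit 8764585596) (nat_lit 76) (nat_lit 1000463974) (nat_lit 64) (nat_lit 5) (nat_lit 68) (nat_lit 5) (nat_lit 65) (nat_lit 5) (nat_lit 502) (nat_lit 389) (nat_lit 249)) (XT.lf (nat_lit 0) (nat_lit 14240654207) (nat_lit 304) (nat_lit 339123159) (nat_lit 76) (nat_lit 6065641359) (nat_lit 64) (nat_lit 5) (nat_lit 68) (nat_lit 5) (nat_lit 65) (nat_lit 5) (nat_lit 503) (nat_lit 389) (nat_lit 248))) (XT.nd (nat_lit 78) (nat_lit 76) (nat_lit 0) (XT.lf (nat_lit 0) (nat_lit 8345837075) (nat_lit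 228) (nat_lit 9668965474) (nat_lit 304) (nat_lit 2933810792) (nat_lit 61) (nat_lit 5) (nat_lit 64) (nat_lit 5) (nat_lit 65) (nat_lit 5) (nat_lit 504) (nat_lit 389) (nat_lit 247)) (XT.lf (nat_lit 0) (nat_lit 589353565) (nat_lit 304) (nat_lit 4071192423) (nat_lit 76) (nat_lit 16597437880) (nat_lit 60) (nat_lit 5) (nat_lit 64) (nat_lit 5) (nat_lit 61) (nat_lit 5) (nat_lit 505) (nat_lit 389) (nat_lit 246))))) (XT.nd (nat_lit 234) (nat_lit 304) (nat_lit 0) (XT.nd (nat_lit 78) (nat_lit 228) (nat_lit 0) (XT.lf (nat_lit 0) (nat_lit 4165830058) (nat_lit 304) (nat_lit 16921479195) (nat_lit 76) (nat_lit 485407659) (nat_lit 57) (nat_lit 5) (nat_lit 61) (nat_lit 5) (nat_lit 58) (nat_lit 5) (nat_lit 506) (nat_lit 389) (nat_lit 245)) (XT.nd (nat_lit 78) (nat_lit 228) (nat_lit 0) (XT.lf (nat_lit 0) (nat_lit 7860944377) (nat_lit 304) (nat_lit 8339150676) (nat_lit 76) (nat_lit 5692712896) (nat_lit 57) (nat_lit 5) (nat_lit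 61) (nat_lit 5) (nat_lit 58) (nat_lit 5) (nat_lit 507) (nat_lit 389) (nat_lit 244)) (XT.lf (nat_lit 0) (nat_lit 402247477) (nat_lit 228) (nat_lit 11219288870) (nat_lit 304) (nat_lit 10597938342) (nat_lit 54) (nat_lit 5) (nat_lit 57) (nat_lit 5) (nat_lit 58) (nat_lit 5) (nat_lit 508) (nat_lit 389) (nat_lit 243)))) (XT.nd (nat_lit 156) (nat_lit 304) (nat_lit 0) (XT.nd (nat_lit 78) (nat_lit 0) (nat_lit 0) (XT.lf (nat_lit 0) (nat_lit 9413777943) (nat_lit 228) (nat_lit 6088587262) (nat_lit 304) (nat_lit 7049414342) (nat_lit 54) (nat_lit 5) (nat_lit 57) (nat_lit 5) (nat_lit 58) (nat_lit 5) (nat_lit 509) (nat_lit 389) (nat_lit 242)) (XT.lf (nat_lit 0) (nat_lit 18588151732) (nat_lit 228) (nat_lit 861938279) (nat_lit 304) (nat_lit 3440860083) (nat_lit 54) (nat_lit 5) (nat_lit 57) (nat_lit 5) (nat_lit 58) (nat_lit 5) (nat_lit 510) (nat_lit 389) (nat_lit 241))) (XT.nd (nat_lit 78) (nat_lit 0) (nat_lit 0) (XT.lf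 (nat_lit 0) (nat_lit 286181040) (nat_lit 304) (nat_lit 18512969520) (nat_lit 76) (nat_lit 4436738091) (nat_lit 50) (nat_lit 5) (nat_lit 54) (nat_lit 5) (nat_lit 51) (nat_lit 5) (nat_lit 511) (nat_lit 389) (nat_lit 240)) (XT.lf (nat_lit 0) (nat_lit 4065975233) (nat_lit 304) (nat_lit 9645609292) (nat_lit 76) (nat_lit 9875205747) (nat_lit 50) (nat_lit 5) (nat_lit 54) (nat_lit 5) (nat_lit 51) (nat_lit 5) (nat_lit 512) (nat_lit 389) (nat_lit 239))))))))
noncomputable def xc128 : XT := (XT.nd (nat_lit 50856) (nat_lit 0) (nat_lit 20672) (XT.nd (nat_lit 49764) (nat_lit 0) (nat_lit 37012) (XT.nd (nat_lit 468) (nat_lit 684) (nat_lit 0) (XT.nd (nat_lit 234) (nat_lit 228) (nat_lit 0) (XT.nd (nat_lit 78) (nat_lit 228) (nat_lit 0) (XT.lf (nat_lit 0) (nat_lit 7911040638) (nat_lit 304) (nat_lit 617814371) (nat_lit 76) (nat_lit 15416066196) (nat_lit 50) (nat_lit 5) (nat_lit 54) (nat_lit 5) (nat_lit 51) (nat_lit 5) (nat_lit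 513) (nat_lit 389) (nat_lit 238)) (XT.nd (nat_lit 78) (nat_lit 0) (nat_lit 0) (XT.lf (nat_lit 0) (nat_lit 8687898910) (nat_lit 228) (nat_lit 3191393814) (nat_lit 304) (nat_lit 12430001017) (nat_lit 47) (nat_lit 5) (nat_lit 50) (nat_lit 5) (nat_lit 51) (nat_lit 5) (nat_lit 514) (nat_lit 389) (nat_lit 237)) (XT.lf (nat_lit 0) (nat_lit 15935637429) (nat_lit 304) (nat_lit 6524059155) (nat_lit 76) (nat_lit 2221087191) (nat_lit 47) (nat_lit 5) (nat_lit 51) (nat_lit 5) (nat_lit 48) (nat_lit 5) (nat_lit 515) (nat_lit 389) (nat_lit 236)))) (XT.nd (nat_lit 78) (nat_lit 76) (nat_lit 0) (XT.lf (nat_lit 0) (nat_lit 2753897007) (nat_lit 152) (nat_lit 17348352186) (nat_lit 228) (nat_lit 4956876124) (nat_lit 45) (nat_lit 5) (nat_lit 47) (nat_lit 5) (nat_lit 48) (nat_lit 5) (nat_lit 516) (nat_lit 389) (nat_lit 235)) (XT.nd (nat_lit 78) (nat_lit 76) (nat_lit 0) (XT.lf (nat_lit 0) (nat_lit 12289645906) (nat_lit 152) (nat_lit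 12096540575) (nat_lit 228) (nat_lit 1058171765) (nat_lit 45) (nat_lit 5) (nat_lit 47) (nat_lit 5) (nat_lit 48) (nat_lit 5) (nat_lit 517) (nat_lit 389) (nat_lit 234)) (XT.lf (nat_lit 0) (nat_lit 2870567432) (nat_lit 228) (nat_lit 3856151636) (nat_lit 76) (nat_lit 19110395286) (nat_lit 44) (nat_lit 5) (nat_lit 47) (nat_lit 5) (nat_lit 45) (nat_lit 5) (nat_lit 518) (nat_lit 389) (nat_lit 233))))) (XT.nd (nat_lit 234) (nat_lit 456) (nat_lit 0) (XT.nd (nat_lit 78) (nat_lit 0) (nat_lit 0) (XT.lf (nat_lit 0) (nat_lit 5680166271) (nat_lit 228) (nat_lit 1210965827) (nat_lit 304) (nat_lit 19345909372) (nat_lit 41) (nat_lit 5) (nat_lit 44) (nat_lit 5) (nat_lit 45) (nat_lit 5) (nat_lit 519) (nat_lit 389) (nat_lit 232)) (XT.nd (nat_lit 78) (nat_lit 0) (nat_lit 0) (XT.lf (nat_lit 0) (nat_lit 11037393103) (nat_lit 304) (nat_lit 11229555924) (nat_lit 76) (nat_lit 4377116484) (nat_lit 41) (nat_lit 5) (nat_lit 45) (nat_lit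 5) (nat_lit 42) (nat_lit 5) (nat_lit 520) (nat_lit 389) (nat_lit 231)) (XT.lf (nat_lit 0) (nat_lit 15265354941) (nat_lit 304) (nat_lit 1739151941) (nat_lit 76) (nat_lit 10054751644) (nat_lit 41) (nat_lit 5) (nat_lit 45) (nat_lit 5) (nat_lit 42) (nat_lit 5) (nat_lit 521) (nat_lit 389) (nat_lit 230)))) (XT.nd (nat_lit 156) (nat_lit 304) (nat_lit 0) (XT.nd (nat_lit 78) (nat_lit 0) (nat_lit 0) (XT.lf (nat_lit 0) (nat_lit 8031252187) (nat_lit 152) (nat_lit 11589705274) (nat_lit 228) (nat_lit 7860940235) (nat_lit 39) (nat_lit 5) (nat_lit 41) (nat_lit 5) (nat_lit 42) (nat_lit 5) (nat_lit 522) (nat_lit 389) (nat_lit 229)) (XT.lf (nat_lit 0) (nat_lit 18005599411) (nat_lit 152) (nat_lit 6060760531) (nat_lit 228) (nat_lit 3846579802) (nat_lit 39) (nat_lit 5) (nat_lit 41) (nat_lit 5) (nat_lit 42) (nat_lit 5) (nat_lit 523) (nat_lit 389) (nat_lit 228))) (XT.nd (nat_lit 78) (nat_lit 228) (nat_lit 0) (XT.lf (nat_lit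 0) (nat_lit 235945754) (nat_lit 228) (nat_lit 189645988) (nat_lit 76) (nat_lit 27927159749) (nat_lit 38) (nat_lit 5) (nat_lit 41) (nat_lit 5) (nat_lit 39) (nat_lit 5) (nat_lit 524) (nat_lit 389) (nat_lit 227)) (XT.lf (nat_lit 0) (nat_lit 4438777373) (nat_lit 304) (nat_lit 19023834904) (nat_lit 76) (nat_lit 5336439079) (nat_lit 35) (nat_lit 5) (nat_lit 39) (nat_lit 5) (nat_lit 36) (nat_lit 5) (nat_lit 525) (nat_lit 389) (nat_lit 226)))))) (XT.nd (nat_lit 546) (nat_lit 1672) (nat_lit 0) (XT.nd (nat_lit 234) (nat_lit 760) (nat_lit 0) (XT.nd (nat_lit 78) (nat_lit 684) (nat_lit 0) (XT.lf (nat_lit 0) (nat_lit 2622772433) (nat_lit 684) (nat_lit 348613231) (nat_lit 684) (nat_lit 348613231) (nat_lit 563) (nat_lit 3) (nat_lit 572) (nat_lit 3) (nat_lit 572) (nat_lit 5) (nat_lit 390) (nat_lit 390) (nat_lit 360)) (XT.nd (nat_lit 78) (nat_lit 0) (nat_lit 0) (XT.lf (nat_lit 0) (nat_lit 762073546) (nat_lit 684) (nat_lit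 4322392813) (nat_lit 760) (nat_lit 1575787496) (nat_lit 554) (nat_lit 5) (nat_lit 563) (nat_lit 3) (nat_lit 564) (nat_lit 5) (nat_lit 391) (nat_lit 390) (nat_lit 359)) (XT.lf (nat_lit 0) (nat_lit 2891551907) (nat_lit 684) (nat_lit 1276592189) (nat_lit 760) (nat_lit 2513702949) (nat_lit 554) (nat_lit 5) (nat_lit 563) (nat_lit 3) (nat_lit 564) (nat_lit 5) (nat_lit 392) (nat_lit 390) (nat_lit 358)))) (XT.nd (nat_lit 156) (nat_lit 0) (nat_lit 0) (XT.nd (nat_lit 78) (nat_lit 760) (nat_lit 0) (XT.lf (nat_lit 76) (nat_lit 1825034278) (nat_lit 0) (nat_lit 3195303410) (nat_lit 760) (nat_lit 1684484577) (nat_lit 555) (nat_lit 5) (nat_lit 554) (nat_lit 5) (nat_lit 564) (nat_lit 5) (nat_lit 393) (nat_lit 390) (nat_lit 357)) (XT.lf (nat_lit 0) (nat_lit 411308748) (nat_lit 760) (nat_lit 1754796300) (nat_lit 836) (nat_lit 4563094109) (nat_lit 544) (nat_lit 5) (nat_lit 554) (nat_lit 5) (nat_lit 555) (nat_lit 5) (nat_lit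 394) (nat_lit 390) (nat_lit 356))) (XT.nd (nat_lit 78) (nat_lit 0) (nat_lit 76) (XT.lf (nat_lit 76) (nat_lit 1410983470) (nat_lit 0) (nat_lit 1071054821) (nat_lit 836) (nat_lit 4272770745) (nat_lit 545) (nat_lit 5) (nat_lit 544) (nat_lit 5) (nat_lit 555) (nat_lit 5) (nat_lit 395) (nat_lit 390) (nat_lit 355)) (XT.lf (nat_lit 0) (nat_lit 4553746140) (nat_lit 760) (nat_lit 2147364283) (nat_lit 836) (nat_lit 80707501) (nat_lit 545) (nat_lit 5) (nat_lit 555) (nat_lit 5) (nat_lit 556) (nat_lit 5) (nat_lit 396) (nat_lit 390) (nat_lit 354))))) (XT.nd (nat_lit 234) (nat_lit 912) (nat_lit 0) (XT.nd (nat_lit 78) (nat_lit 836) (nat_lit 0) (XT.lf (nat_lit 76) (nat_lit 1090670556) (nat_lit 0) (nat_lit 5538835293) (nat_lit 836) (nat_lit 180685344) (nat_lit 546) (nat_lit 5) (nat_lit 545) (nat_lit 5) (nat_lit 556) (nat_lit 5) (nat_lit 397) (nat_lit 390) (nat_lit 353)) (XT.nd (nat_lit 78) (nat_lit 0) (nat_lit 0) (XT.lf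 (nat_lit 0) (nat_lit 1845988447) (nat_lit 836) (nat_lit 2458876405) (nat_lit 912) (nat_lit 2534825766) (nat_lit 534) (nat_lit 5) (nat_lit 545) (nat_lit 5) (nat_lit 546) (nat_lit 5) (nat_lit 398) (nat_lit 390) (nat_lit 352)) (XT.lf (nat_lit 76) (nat_lit 847362423) (nat_lit 0) (nat_lit 3018774096) (nat_lit 912) (nat_lit 3004584565) (nat_lit 535) (nat_lit 5) (nat_lit 534) (nat_lit 5) (nat_lit 546) (nat_lit 5) (nat_lit 399) (nat_lit 390) (nat_lit 351)))) (XT.nd (nat_lit 156) (nat_lit 0) (nat_lit 76) (XT.nd (nat_lit 78) (nat_lit 912) (nat_lit 0) (XT.lf (nat_lit 76) (nat_lit 4223716048) (nat_lit 0) (nat_lit 1670120851) (nat_lit 912) (nat_lit 1009262998) (nat_lit 535) (nat_lit 5) (nat_lit 534) (nat_lit 5) (nat_lit 546) (nat_lit 5) (nat_lit 400) (nat_lit 390) (nat_lit 350)) (XT.lf (nat_lit 76) (nat_lit 704568226) (nat_lit 0) (nat_lit 263743390) (nat_lit 988) (nat_lit 5968633377) (nat_lit 523) (nat_lit 5) (nat_lit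 522) (nat_lit 5) (nat_lit 535) (nat_lit 5) (nat_lit 401) (nat_lit 390) (nat_lit 349))) (XT.nd (nat_lit 78) (nat_lit 0) (nat_lit 0) (XT.lf (nat_lit 0) (nat_lit 2949752341) (nat_lit 912) (nat_lit 2823428456) (nat_lit 988) (nat_lit 1198662844) (nat_lit 523) (nat_lit 5) (nat_lit 535) (nat_lit 5) (nat_lit 536) (nat_lit 5) (nat_lit 402) (nat_lit 390) (nat_lit 348)) (XT.lf (nat_lit 76) (nat_lit 630380645) (nat_lit 0) (nat_lit 4299335144) (nat_lit 988) (nat_lit 2078611933) (nat_lit 524) (nat_lit 5) (nat_lit 523) (nat_lit 5) (nat_lit 536) (nat_lit 5) (nat_lit 403) (nat_lit 390) (nat_lit 347))))))) (XT.nd (nat_lit 1014) (nat_lit 10944) (nat_lit 0) (XT.nd (nat_lit 468) (nat_lit 3496) (nat_lit 0) (XT.nd (nat_lit 234) (nat_lit 988) (nat_lit 0) (XT.nd (nat_lit 78) (nat_lit 988) (nat_lit 0) (XT.lf (nat_lit 76) (nat_lit 4161895469) (nat_lit 0) (nat_lit 2760112187) (nat_lit 988) (nat_lit 124143305) (nat_lit 524) (nat_lit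 5) (nat_lit 523) (nat_lit 5) (nat_lit 536) (nat_lit 5) (nat_lit 404) (nat_lit 390) (nat_lit 346)) (XT.nd (nat_lit 78) (nat_lit 0) (nat_lit 76) (XT.lf (nat_lit 76) (nat_lit 645913625) (nat_lit 0) (nat_lit 1157503689) (nat_lit 1064) (nat_lit 5281961766) (nat_lit 511) (nat_lit 5) (nat_lit 510) (nat_lit 5) (nat_lit 524) (nat_lit 5) (nat_lit 405) (nat_lit 390) (nat_lit 345)) (XT.lf (nat_lit 0) (nat_lit 3745580136) (nat_lit 988) (nat_lit 2873864502) (nat_lit 1064) (nat_lit 506436809) (nat_lit 511) (nat_lit 5) (nat_lit 524) (nat_lit 5) (nat_lit 525) (nat_lit 5) (nat_lit 406) (nat_lit 390) (nat_lit 344)))) (XT.nd (nat_lit 78) (nat_lit 1064) (nat_lit 0) (XT.lf (nat_lit 76) (nat_lit 735028334) (nat_lit 0) (nat_lit 4960006193) (nat_lit 1064) (nat_lit 1472849548) (nat_lit 512) (nat_lit 5) (nat_lit 511) (nat_lit 5) (nat_lit 525) (nat_lit 5) (nat_lit 407) (nat_lit 390) (nat_lit 343)) (XT.nd (nat_lit 78) (nat_lit 0)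 (nat_lit 0) (XT.lf (nat_lit 0) (nat_lit 442299253) (nat_lit 1064) (nat_lit 2788917574) (nat_lit 1140) (nat_lit 3979990458) (nat_lit 497) (nat_lit 5) (nat_lit 511) (nat_lit 5) (nat_lit 512) (nat_lit 5) (nat_lit 408) (nat_lit 390) (nat_lit 342)) (XT.lf (nat_lit 76) (nat_lit 900112875) (nat_lit 0) (nat_lit 1438970798) (nat_lit 1140) (nat_lit 4916913260) (nat_lit 498) (nat_lit 5) (nat_lit 497) (nat_lit 5) (nat_lit 512) (nat_lit 5) (nat_lit 409) (nat_lit 390) (nat_lit 341))))) (XT.nd (nat_lit 234) (nat_lit 2432) (nat_lit 0) (XT.nd (nat_lit 78) (nat_lit 1140) (nat_lit 0) (XT.lf (nat_lit 0) (nat_lit 4253089006) (nat_lit 1064) (nat_lit 2633850541) (nat_lit 76) (nat_lit 415211797) (nat_lit 498) (nat_lit 5) (nat_lit 512) (nat_lit 5) (nat_lit 499) (nat_lit 5) (nat_lit 410) (nat_lit 390) (nat_lit 340)) (XT.nd (nat_lit 78) (nat_lit 76) (nat_lit 0) (XT.lf (nat_lit 0) (nat_lit 1137998956) (nat_lit 1064) (nat_lit 5043038595)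 (nat_lit 1140) (nat_lit 1168731630) (nat_lit 484) (nat_lit 5) (nat_lit 498) (nat_lit 5) (nat_lit 499) (nat_lit 5) (nat_lit 411) (nat_lit 390) (nat_lit 339)) (XT.lf (nat_lit 0) (nat_lit 716210449) (nat_lit 1140) (nat_lit 2412397804) (nat_lit 76) (nat_lit 4270148741) (nat_lit 483) (nat_lit 5) (nat_lit 498) (nat_lit 5) (nat_lit 484) (nat_lit 5) (nat_lit 412) (nat_lit 390) (nat_lit 338)))) (XT.nd (nat_lit 156) (nat_lit 1292) (nat_lit 0) (XT.nd (nat_lit 78) (nat_lit 0) (nat_lit 0) (XT.lf (nat_lit 0) (nat_lit 1444342868) (nat_lit 1140) (nat_lit 1148093751) (nat_lit 1216) (nat_lit 4856799255) (nat_lit 468) (nat_lit 5) (nat_lit 483) (nat_lit 5) (nat_lit 484) (nat_lit 5) (nat_lit 413) (nat_lit 390) (nat_lit 337)) (XT.lf (nat_lit 0) (nat_lit 4488646662) (nat_lit 1216) (nat_lit 2125781694) (nat_lit 76) (nat_lit 886696310) (nat_lit 468) (nat_lit 5) (nat_lit 484) (nat_lit 5) (nat_lit 469) (nat_lit 5) (nat_lit 414)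 (nat_lit 390) (nat_lit 336))) (XT.nd (nat_lit 78) (nat_lit 76) (nat_lit 0) (XT.lf (nat_lit 0) (nat_lit 1817209090) (nat_lit 1216) (nat_lit 4586249960) (nat_lit 1292) (nat_lit 1151027167) (nat_lit 452) (nat_lit 5) (nat_lit 468) (nat_lit 5) (nat_lit 469) (nat_lit 5) (nat_lit 415) (nat_lit 390) (nat_lit 335)) (XT.lf (nat_lit 0) (nat_lit 713749575) (nat_lit 1292) (nat_lit 1775996528) (nat_lit 76) (nat_lit 5119600425) (nat_lit 451) (nat_lit 5) (nat_lit 468) (nat_lit 5) (nat_lit 452) (nat_lit 5) (nat_lit 416) (nat_lit 390) (nat_lit 334)))))) (XT.nd (nat_lit 546) (nat_lit 5244) (nat_lit 0) (XT.nd (nat_lit 234) (nat_lit 3040) (nat_lit 0) (XT.nd (nat_lit 78) (nat_lit 1368) (nat_lit 0) (XT.lf (nat_lit 0) (nat_lit 2256785802) (nat_lit 1292) (nat_lit 320587717) (nat_lit 1368) (nat_lit 5088284830) (nat_lit 434) (nat_lit 5) (nat_lit 451) (nat_lit 5) (nat_lit 452) (nat_lit 5) (nat_lit 417) (nat_lit 390) (nat_lit 333))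 (XT.nd (nat_lit 78) (nat_lit 1368) (nat_lit 0) (XT.lf (nat_lit 0) (nat_lit 4465444919) (nat_lit 1368) (nat_lit 1371264495) (nat_lit 76) (nat_lit 1886688344) (nat_lit 434) (nat_lit 5) (nat_lit 452) (nat_lit 5) (nat_lit 435) (nat_lit 5) (nat_lit 418) (nat_lit 390) (nat_lit 332)) (XT.lf (nat_lit 0) (nat_lit 2751309896) (nat_lit 1368) (nat_lit 3623576195) (nat_lit 1444) (nat_lit 1407777669) (nat_lit 416) (nat_lit 5) (nat_lit 434) (nat_lit 5) (nat_lit 435) (nat_lit 5) (nat_lit 419) (nat_lit 390) (nat_lit 331)))) (XT.nd (nat_lit 156) (nat_lit 1520) (nat_lit 0) (XT.nd (nat_lit 78) (nat_lit 1444) (nat_lit 0) (XT.lf (nat_lit 0) (nat_lit 446239765) (nat_lit 1444) (nat_lit 901254393) (nat_lit 76) (nat_lit 6496138413) (nat_lit 415) (nat_lit 5) (nat_lit 434) (nat_lit 5) (nat_lit 416) (nat_lit 5) (nat_lit 420) (nat_lit 390) (nat_lit 330)) (XT.lf (nat_lit 0) (nat_lit 2311174950) (nat_lit 1520) (nat_lit 4596389242) (nat_lit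 76) (nat_lit 998258142) (nat_lit 396) (nat_lit 5) (nat_lit 416) (nat_lit 5) (nat_lit 397) (nat_lit 5) (nat_lit 421) (nat_lit 390) (nat_lit 329))) (XT.nd (nat_lit 78) (nat_lit 1520) (nat_lit 0) (XT.lf (nat_lit 0) (nat_lit 4193533571) (nat_lit 1520) (nat_lit 391613192) (nat_lit 76) (nat_lit 3384547259) (nat_lit 396) (nat_lit 5) (nat_lit 416) (nat_lit 5) (nat_lit 397) (nat_lit 5) (nat_lit 422) (nat_lit 390) (nat_lit 328)) (XT.lf (nat_lit 0) (nat_lit 3919183217) (nat_lit 1520) (nat_lit 2185599128) (nat_lit 1596) (nat_lit 1930275765) (nat_lit 376) (nat_lit 5) (nat_lit 396) (nat_lit 5) (nat_lit 397) (nat_lit 5) (nat_lit 423) (nat_lit 390) (nat_lit 327))))) (XT.nd (nat_lit 234) (nat_lit 1900) (nat_lit 0) (XT.nd (nat_lit 78) (nat_lit 1748) (nat_lit 0) (XT.lf (nat_lit 0) (nat_lit 190584154) (nat_lit 1596) (nat_lit 7835561760) (nat_lit 1672) (nat_lit 76184813) (nat_lit 355) (nat_lit 5) (nat_lit 376) (nat_lit 5)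 (nat_lit 377) (nat_lit 5) (nat_lit 424) (nat_lit 390) (nat_lit 326)) (XT.nd (nat_lit 78) (nat_lit 1672) (nat_lit 0) (XT.lf (nat_lit 0) (nat_lit 1799976411) (nat_lit 1672) (nat_lit 3588182787) (nat_lit 76) (nat_lit 2782415600) (nat_lit 354) (nat_lit 5) (nat_lit 376) (nat_lit 5) (nat_lit 355) (nat_lit 5) (nat_lit 425) (nat_lit 390) (nat_lit 325)) (XT.lf (nat_lit 0) (nat_lit 802153074) (nat_lit 1672) (nat_lit 2882868877) (nat_lit 1748) (nat_lit 4555740898) (nat_lit 332) (nat_lit 5) (nat_lit 354) (nat_lit 5) (nat_lit 355) (nat_lit 5) (nat_lit 426) (nat_lit 390) (nat_lit 324)))) (XT.nd (nat_lit 156) (nat_lit 912) (nat_lit 0) (XT.nd (nat_lit 78) (nat_lit 988) (nat_lit 0) (XT.lf (nat_lit 0) (nat_lit 5299414863) (nat_lit 1672) (nat_lit 300056298) (nat_lit 1748) (nat_lit 2713085516) (nat_lit 332) (nat_lit 5) (nat_lit 354) (nat_lit 5) (nat_lit 355) (nat_lit 5) (nat_lit 427) (nat_lit 390) (nat_lit 323)) (XT.lf (nat_lit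 0) (nat_lit 1475399981) (nat_lit 988) (nat_lit 6069822371) (nat_lit 1064) (nat_lit 840739135) (nat_lit 319) (nat_lit 5) (nat_lit 332) (nat_lit 5) (nat_lit 333) (nat_lit 5) (nat_lit 428) (nat_lit 390) (nat_lit 322))) (XT.nd (nat_lit 78) (nat_lit 836) (nat_lit 0) (XT.lf (nat_lit 0) (nat_lit 1045840763) (nat_lit 1064) (nat_lit 2404822727) (nat_lit 76) (nat_lit 5010249926) (nat_lit 318) (nat_lit 5) (nat_lit 332) (nat_lit 5) (nat_lit 319) (nat_lit 5) (nat_lit 429) (nat_lit 390) (nat_lit 321)) (XT.lf (nat_lit 0) (nat_lit 2184816069) (nat_lit 836) (nat_lit 757359421) (nat_lit 912) (nat_lit 5595445457) (nat_lit 307) (nat_lit 5) (nat_lit 318) (nat_lit 5) (nat_lit 319) (nat_lit 5) (nat_lit 430) (nat_lit 390) (nat_lit 320))))))))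
noncomputable def xc129 : XT := (XT.nd (nat_lit 2106) (nat_lit 6308) (nat_lit 0) (XT.nd (nat_lit 1014) (nat_lit 4332) (nat_lit 0) (XT.nd (nat_lit 468) (nat_lit 2964) (nat_lit 0) (XT.nd (nat_lit 234) (nat_lit 1520) (nat_lit 0) (XT.nd (nat_lit 78) (nat_lit 912) (nat_lit 0) (XT.lf (nat_lit 0) (nat_lit 4875111719) (nat_lit 912) (nat_lit 1759480359) (nat_lit 76) (nat_lit 1981329727) (nat_lit 307) (nat_lit 5) (nat_lit 319) (nat_lit 5) (nat_lit 308) (nat_lit 5) (nat_lit 431) (nat_lit 390) (nat_lit 319)) (XT.nd (nat_lit 78) (nat_lit 76) (nat_lit 0) (XT.lf (nat_lit 0) (nat_lit 2929945229) (nat_lit 836) (nat_lit 3910909174) (nat_lit 912) (nat_lit 1855083354) (nat_lit 296) (nat_lit 5) (nat_lit 307) (nat_lit 5) (nat_lit 308) (nat_lit 5) (nat_lit 432) (nat_lit 390) (nat_lit 318)) (XT.lf (nat_lit 0) (nat_lit 49627178) (nat_lit 912) (nat_lit 1070240701) (nat_lit 76) (nat_lit 7658064743) (nat_lit 295) (nat_lit 5) (nat_lit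 307) (nat_lit 5) (nat_lit 296) (nat_lit 5) (nat_lit 433) (nat_lit 390) (nat_lit 317)))) (XT.nd (nat_lit 78) (nat_lit 760) (nat_lit 0) (XT.lf (nat_lit 0) (nat_lit 1974134638) (nat_lit 836) (nat_lit 5145717053) (nat_lit 76) (nat_lit 1741369789) (nat_lit 285) (nat_lit 5) (nat_lit 296) (nat_lit 5) (nat_lit 286) (nat_lit 5) (nat_lit 434) (nat_lit 390) (nat_lit 316)) (XT.nd (nat_lit 78) (nat_lit 760) (nat_lit 0) (XT.lf (nat_lit 0) (nat_lit 3923027354) (nat_lit 836) (nat_lit 371273824) (nat_lit 76) (nat_lit 4652186627) (nat_lit 285) (nat_lit 5) (nat_lit 296) (nat_lit 5) (nat_lit 286) (nat_lit 5) (nat_lit 435) (nat_lit 390) (nat_lit 315)) (XT.lf (nat_lit 0) (nat_lit 4529386205) (nat_lit 760) (nat_lit 1382732561) (nat_lit 836) (nat_lit 3121345285) (nat_lit 275) (nat_lit 5) (nat_lit 285) (nat_lit 5) (nat_lit 286) (nat_lit 5) (nat_lit 436) (nat_lit 390) (nat_lit 314))))) (XT.nd (nat_lit 234) (nat_lit 1444) (nat_lit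 0) (XT.nd (nat_lit 78) (nat_lit 836) (nat_lit 0) (XT.lf (nat_lit 0) (nat_lit 376511768) (nat_lit 684) (nat_lit 7551913494) (nat_lit 760) (nat_lit 1194034339) (nat_lit 266) (nat_lit 5) (nat_lit 275) (nat_lit 5) (nat_lit 276) (nat_lit 5) (nat_lit 437) (nat_lit 390) (nat_lit 313)) (XT.nd (nat_lit 78) (nat_lit 760) (nat_lit 0) (XT.lf (nat_lit 0) (nat_lit 773607416) (nat_lit 760) (nat_lit 3840503448) (nat_lit 76) (nat_lit 4598813167) (nat_lit 265) (nat_lit 5) (nat_lit 275) (nat_lit 5) (nat_lit 266) (nat_lit 5) (nat_lit 438) (nat_lit 390) (nat_lit 312)) (XT.lf (nat_lit 0) (nat_lit 1141414621) (nat_lit 760) (nat_lit 1603492795) (nat_lit 836) (nat_lit 6560553414) (nat_lit 255) (nat_lit 5) (nat_lit 265) (nat_lit 5) (nat_lit 266) (nat_lit 5) (nat_lit 439) (nat_lit 390) (nat_lit 311)))) (XT.nd (nat_lit 156) (nat_lit 760) (nat_lit 0) (XT.nd (nat_lit 78) (nat_lit 684) (nat_lit 0) (XT.lf (nat_lit 0) (nat_lit 4764306301)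 (nat_lit 836) (nat_lit 3163059990) (nat_lit 76) (nat_lit 1472334893) (nat_lit 255) (nat_lit 5) (nat_lit 266) (nat_lit 5) (nat_lit 256) (nat_lit 5) (nat_lit 440) (nat_lit 390) (nat_lit 310)) (XT.lf (nat_lit 0) (nat_lit 1924071592) (nat_lit 684) (nat_lit 4896861979) (nat_lit 760) (nat_lit 2674981726) (nat_lit 246) (nat_lit 5) (nat_lit 255) (nat_lit 5) (nat_lit 256) (nat_lit 5) (nat_lit 441) (nat_lit 390) (nat_lit 309))) (XT.nd (nat_lit 78) (nat_lit 760) (nat_lit 0) (XT.lf (nat_lit 0) (nat_lit 7127519602) (nat_lit 684) (nat_lit 1786459849) (nat_lit 760) (nat_lit 680193778) (nat_lit 246) (nat_lit 5) (nat_lit 255) (nat_lit 5) (nat_lit 256) (nat_lit 5) (nat_lit 442) (nat_lit 390) (nat_lit 308)) (XT.lf (nat_lit 0) (nat_lit 1338048996) (nat_lit 760) (nat_lit 6963896096) (nat_lit 76) (nat_lit 1392273149) (nat_lit 236) (nat_lit 5) (nat_lit 246) (nat_lit 5) (nat_lit 237) (nat_lit 5) (nat_lit 443) (nat_lit 390) (nat_lit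 307)))))) (XT.nd (nat_lit 546) (nat_lit 1748) (nat_lit 0) (XT.nd (nat_lit 234) (nat_lit 1976) (nat_lit 0) (XT.nd (nat_lit 78) (nat_lit 608) (nat_lit 0) (XT.lf (nat_lit 0) (nat_lit 3390730472) (nat_lit 760) (nat_lit 1776144644) (nat_lit 76) (nat_lit 4629259281) (nat_lit 236) (nat_lit 5) (nat_lit 246) (nat_lit 5) (nat_lit 237) (nat_lit 5) (nat_lit 444) (nat_lit 390) (nat_lit 306)) (XT.nd (nat_lit 78) (nat_lit 0) (nat_lit 0) (XT.lf (nat_lit 0) (nat_lit 3533826208) (nat_lit 608) (nat_lit 1948759885) (nat_lit 684) (nat_lit 4417563708) (nat_lit 228) (nat_lit 5) (nat_lit 236) (nat_lit 5) (nat_lit 237) (nat_lit 5) (nat_lit 445) (nat_lit 390) (nat_lit 305)) (XT.lf (nat_lit 0) (nat_lit 7612398806) (nat_lit 684) (nat_lit 1068864362) (nat_lit 76) (nat_lit 1325082819) (nat_lit 228) (nat_lit 5) (nat_lit 237) (nat_lit 5) (nat_lit 229) (nat_lit 5) (nat_lit 446) (nat_lit 390) (nat_lit 304)))) (XT.nd (nat_lit 156) (nat_lit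 1216) (nat_lit 0) (XT.nd (nat_lit 78) (nat_lit 76) (nat_lit 0) (XT.lf (nat_lit 0) (nat_lit 4351064628) (nat_lit 684) (nat_lit 5450842762) (nat_lit 760) (nat_lit 312439141) (nat_lit 219) (nat_lit 5) (nat_lit 228) (nat_lit 5) (nat_lit 229) (nat_lit 5) (nat_lit 447) (nat_lit 390) (nat_lit 303)) (XT.lf (nat_lit 0) (nat_lit 1770229835) (nat_lit 760) (nat_lit 370083080) (nat_lit 76) (nat_lit 8084315034) (nat_lit 218) (nat_lit 5) (nat_lit 228) (nat_lit 5) (nat_lit 219) (nat_lit 5) (nat_lit 448) (nat_lit 390) (nat_lit 302))) (XT.nd (nat_lit 78) (nat_lit 608) (nat_lit 0) (XT.lf (nat_lit 0) (nat_lit 3908702957) (nat_lit 684) (nat_lit 5175674709) (nat_lit 76) (nat_lit 1252350470) (nat_lit 210) (nat_lit 5) (nat_lit 219) (nat_lit 5) (nat_lit 211) (nat_lit 5) (nat_lit 449) (nat_lit 390) (nat_lit 301)) (XT.lf (nat_lit 0) (nat_lit 319273650) (nat_lit 608) (nat_lit 5766205956) (nat_lit 684) (nat_lit 4365700761) (nat_lit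 202) (nat_lit 5) (nat_lit 210) (nat_lit 5) (nat_lit 211) (nat_lit 5) (nat_lit 450) (nat_lit 390) (nat_lit 300))))) (XT.nd (nat_lit 234) (nat_lit 1140) (nat_lit 0) (XT.nd (nat_lit 78) (nat_lit 608) (nat_lit 0) (XT.lf (nat_lit 0) (nat_lit 5966928181) (nat_lit 608) (nat_lit 2350659659) (nat_lit 684) (nat_lit 2250118193) (nat_lit 202) (nat_lit 5) (nat_lit 210) (nat_lit 5) (nat_lit 211) (nat_lit 5) (nat_lit 451) (nat_lit 390) (nat_lit 299)) (XT.nd (nat_lit 78) (nat_lit 76) (nat_lit 0) (XT.lf (nat_lit 0) (nat_lit 1019734448) (nat_lit 532) (nat_lit 9566068215) (nat_lit 608) (nat_lit 100950174) (nat_lit 195) (nat_lit 5) (nat_lit 202) (nat_lit 5) (nat_lit 203) (nat_lit 5) (nat_lit 452) (nat_lit 390) (nat_lit 298)) (XT.lf (nat_lit 0) (nat_lit 2088005315) (nat_lit 608) (nat_lit 4049283945) (nat_lit 76) (nat_lit 4670154298) (nat_lit 194) (nat_lit 5) (nat_lit 202) (nat_lit 5) (nat_lit 195) (nat_lit 5) (nat_lit 453)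 (nat_lit 390) (nat_lit 297)))) (XT.nd (nat_lit 156) (nat_lit 532) (nat_lit 0) (XT.nd (nat_lit 78) (nat_lit 0) (nat_lit 0) (XT.lf (nat_lit 0) (nat_lit 1675251615) (nat_lit 608) (nat_lit 2633039397) (nat_lit 684) (nat_lit 6622484446) (nat_lit 186) (nat_lit 5) (nat_lit 194) (nat_lit 5) (nat_lit 195) (nat_lit 5) (nat_lit 454) (nat_lit 390) (nat_lit 296)) (XT.lf (nat_lit 0) (nat_lit 6584696879) (nat_lit 684) (nat_lit 3520255112) (nat_lit 76) (nat_lit 951406112) (nat_lit 186) (nat_lit 5) (nat_lit 195) (nat_lit 5) (nat_lit 187) (nat_lit 5) (nat_lit 455) (nat_lit 390) (nat_lit 295))) (XT.nd (nat_lit 78) (nat_lit 0) (nat_lit 0) (XT.lf (nat_lit 0) (nat_lit 2316088838) (nat_lit 532) (nat_lit 6601693585) (nat_lit 608) (nat_lit 2266464984) (nat_lit 179) (nat_lit 5) (nat_lit 186) (nat_lit 5) (nat_lit 187) (nat_lit 5) (nat_lit 456) (nat_lit 390) (nat_lit 294)) (XT.lf (nat_lit 0) (nat_lit 8290483720) (nat_lit 532) (nat_lit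 3009592093) (nat_lit 608) (nat_lit 14585447) (nat_lit 179) (nat_lit 5) (nat_lit 186) (nat_lit 5) (nat_lit 187) (nat_lit 5) (nat_lit 457) (nat_lit 390) (nat_lit 293))))))) (XT.nd (nat_lit 1092) (nat_lit 2736) (nat_lit 0) (XT.nd (nat_lit 546) (nat_lit 1444) (nat_lit 0) (XT.nd (nat_lit 234) (nat_lit 1064) (nat_lit 0) (XT.nd (nat_lit 78) (nat_lit 456) (nat_lit 0) (XT.lf (nat_lit 0) (nat_lit 2255069823) (nat_lit 608) (nat_lit 8517700476) (nat_lit 76) (nat_lit 674580290) (nat_lit 171) (nat_lit 5) (nat_lit 179) (nat_lit 5) (nat_lit 172) (nat_lit 5) (nat_lit 458) (nat_lit 390) (nat_lit 292)) (XT.nd (nat_lit 78) (nat_lit 456) (nat_lit 0) (XT.lf (nat_lit 0) (nat_lit 4589669256) (nat_lit 608) (nat_lit 2585292963) (nat_lit 76) (nat_lit 4407351296) (nat_lit 171) (nat_lit 5) (nat_lit 179) (nat_lit 5) (nat_lit 172) (nat_lit 5) (nat_lit 459) (nat_lit 390) (nat_lit 291)) (XT.lf (nat_lit 0) (nat_lit 3485603572) (nat_lit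 456) (nat_lit 3487779013) (nat_lit 532) (nat_lit 4746561011) (nat_lit 165) (nat_lit 5) (nat_lit 171) (nat_lit 5) (nat_lit 172) (nat_lit 5) (nat_lit 460) (nat_lit 390) (nat_lit 290)))) (XT.nd (nat_lit 156) (nat_lit 532) (nat_lit 0) (XT.nd (nat_lit 78) (nat_lit 532) (nat_lit 0) (XT.lf (nat_lit 0) (nat_lit 9403990476) (nat_lit 532) (nat_lit 2174986962) (nat_lit 76) (nat_lit 281380452) (nat_lit 165) (nat_lit 5) (nat_lit 172) (nat_lit 5) (nat_lit 166) (nat_lit 5) (nat_lit 461) (nat_lit 390) (nat_lit 289)) (XT.lf (nat_lit 0) (nat_lit 4009469939) (nat_lit 532) (nat_lit 7903246350) (nat_lit 608) (nat_lit 90289768) (nat_lit 158) (nat_lit 5) (nat_lit 165) (nat_lit 5) (nat_lit 166) (nat_lit 5) (nat_lit 462) (nat_lit 390) (nat_lit 288))) (XT.nd (nat_lit 78) (nat_lit 456) (nat_lit 0) (XT.lf (nat_lit 0) (nat_lit 2287785314) (nat_lit 608) (nat_lit 1841973524) (nat_lit 76) (nat_lit 8018558901) (nat_lit 157) (nat_lit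 5) (nat_lit 165) (nat_lit 5) (nat_lit 158) (nat_lit 5) (nat_lit 463) (nat_lit 390) (nat_lit 287)) (XT.lf (nat_lit 0) (nat_lit 4465413631) (nat_lit 456) (nat_lit 256628058) (nat_lit 532) (nat_lit 7574300250) (nat_lit 151) (nat_lit 5) (nat_lit 157) (nat_lit 5) (nat_lit 158) (nat_lit 5) (nat_lit 464) (nat_lit 390) (nat_lit 286))))) (XT.nd (nat_lit 234) (nat_lit 988) (nat_lit 0) (XT.nd (nat_lit 78) (nat_lit 456) (nat_lit 0) (XT.lf (nat_lit 0) (nat_lit 7222418638) (nat_lit 532) (nat_lit 1572590022) (nat_lit 76) (nat_lit 3651983761) (nat_lit 151) (nat_lit 5) (nat_lit 158) (nat_lit 5) (nat_lit 152) (nat_lit 5) (nat_lit 465) (nat_lit 390) (nat_lit 285)) (XT.nd (nat_lit 78) (nat_lit 0) (nat_lit 0) (XT.lf (nat_lit 0) (nat_lit 4847932259) (nat_lit 456) (nat_lit 4939428052) (nat_lit 532) (nat_lit 2813018681) (nat_lit 145) (nat_lit 5) (nat_lit 151) (nat_lit 5) (nat_lit 152) (nat_lit 5) (nat_lit 466) (nat_lit 390)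 (nat_lit 284)) (XT.lf (nat_lit 0) (nat_lit 11393480692) (nat_lit 456) (nat_lit 1002259390) (nat_lit 532) (nat_lit 361264369) (nat_lit 145) (nat_lit 5) (nat_lit 151) (nat_lit 5) (nat_lit 152) (nat_lit 5) (nat_lit 467) (nat_lit 390) (nat_lit 283)))) (XT.nd (nat_lit 156) (nat_lit 456) (nat_lit 0) (XT.nd (nat_lit 78) (nat_lit 0) (nat_lit 0) (XT.lf (nat_lit 0) (nat_lit 2146769895) (nat_lit 532) (nat_lit 7753241626) (nat_lit 76) (nat_lit 3015780373) (nat_lit 138) (nat_lit 5) (nat_lit 145) (nat_lit 5) (nat_lit 139) (nat_lit 5) (nat_lit 468) (nat_lit 390) (nat_lit 282)) (XT.lf (nat_lit 0) (nat_lit 4697952119) (nat_lit 532) (nat_lit 1273676667) (nat_lit 76) (nat_lit 7106135188) (nat_lit 138) (nat_lit 5) (nat_lit 145) (nat_lit 5) (nat_lit 139) (nat_lit 5) (nat_lit 469) (nat_lit 390) (nat_lit 281))) (XT.nd (nat_lit 78) (nat_lit 0) (nat_lit 0) (XT.lf (nat_lit 0) (nat_lit 5381904702) (nat_lit 456) (nat_lit 1935521714)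 (nat_lit 532) (nat_lit 5925216592) (nat_lit 132) (nat_lit 5) (nat_lit 138) (nat_lit 5) (nat_lit 139) (nat_lit 5) (nat_lit 470) (nat_lit 390) (nat_lit 280)) (XT.lf (nat_lit 0) (nat_lit 9994530293) (nat_lit 532) (nat_lit 1261325642) (nat_lit 76) (nat_lit 2154871516) (nat_lit 132) (nat_lit 5) (nat_lit 139) (nat_lit 5) (nat_lit 133) (nat_lit 5) (nat_lit 471) (nat_lit 390) (nat_lit 279)))))) (XT.nd (nat_lit 546) (nat_lit 1064) (nat_lit 0) (XT.nd (nat_lit 234) (nat_lit 836) (nat_lit 0) (XT.nd (nat_lit 78) (nat_lit 456) (nat_lit 0) (XT.lf (nat_lit 0) (nat_lit 5505620747) (nat_lit 380) (nat_lit 7250937266) (nat_lit 456) (nat_lit 825000315) (nat_lit 127) (nat_lit 5) (nat_lit 132) (nat_lit 5) (nat_lit 133) (nat_lit 5) (nat_lit 472) (nat_lit 390) (nat_lit 278)) (XT.nd (nat_lit 78) (nat_lit 380) (nat_lit 0) (XT.lf (nat_lit 0) (nat_lit 1785573175) (nat_lit 456) (nat_lit 1366419032) (nat_lit 76) (nat_lit 10603761513)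 (nat_lit 126) (nat_lit 5) (nat_lit 132) (nat_lit 5) (nat_lit 127) (nat_lit 5) (nat_lit 473) (nat_lit 390) (nat_lit 277)) (XT.lf (nat_lit 0) (nat_lit 4463288936) (nat_lit 456) (nat_lit 8419089955) (nat_lit 76) (nat_lit 1050437178) (nat_lit 121) (nat_lit 5) (nat_lit 127) (nat_lit 5) (nat_lit 122) (nat_lit 5) (nat_lit 474) (nat_lit 390) (nat_lit 276)))) (XT.nd (nat_lit 156) (nat_lit 456) (nat_lit 0) (XT.nd (nat_lit 78) (nat_lit 380) (nat_lit 0) (XT.lf (nat_lit 0) (nat_lit 7208009600) (nat_lit 456) (nat_lit 1607777821) (nat_lit 76) (nat_lit 5297374672) (nat_lit 121) (nat_lit 5) (nat_lit 127) (nat_lit 5) (nat_lit 122) (nat_lit 5) (nat_lit 475) (nat_lit 390) (nat_lit 275)) (XT.lf (nat_lit 0) (nat_lit 5387275413) (nat_lit 380) (nat_lit 4638999923) (nat_lit 456) (nat_lit 4270477902) (nat_lit 116) (nat_lit 5) (nat_lit 121) (nat_lit 5) (nat_lit 122) (nat_lit 5) (nat_lit 476) (nat_lit 390) (nat_lit 274))) (XT.nd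 (nat_lit 78) (nat_lit 456) (nat_lit 0) (XT.lf (nat_lit 0) (nat_lit 12521035575) (nat_lit 380) (nat_lit 374503627) (nat_lit 456) (nat_lit 1588595341) (nat_lit 116) (nat_lit 5) (nat_lit 121) (nat_lit 5) (nat_lit 122) (nat_lit 5) (nat_lit 477) (nat_lit 390) (nat_lit 273)) (XT.lf (nat_lit 0) (nat_lit 1175464944) (nat_lit 456) (nat_lit 9541140334) (nat_lit 76) (nat_lit 3957648189) (nat_lit 110) (nat_lit 5) (nat_lit 116) (nat_lit 5) (nat_lit 111) (nat_lit 5) (nat_lit 478) (nat_lit 390) (nat_lit 272))))) (XT.nd (nat_lit 234) (nat_lit 760) (nat_lit 0) (XT.nd (nat_lit 78) (nat_lit 304) (nat_lit 0) (XT.lf (nat_lit 0) (nat_lit 3973462642) (nat_lit 456) (nat_lit 2506031355) (nat_lit 76) (nat_lit 8388482569) (nat_lit 110) (nat_lit 5) (nat_lit 116) (nat_lit 5) (nat_lit 111) (nat_lit 5) (nat_lit 479) (nat_lit 390) (nat_lit 271)) (XT.nd (nat_lit 78) (nat_lit 0) (nat_lit 0) (XT.lf (nat_lit 0) (nat_lit 4709097364) (nat_lit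 304) (nat_lit 2133374758) (nat_lit 380) (nat_lit 8222811126) (nat_lit 106) (nat_lit 5) (nat_lit 110) (nat_lit 5) (nat_lit 111) (nat_lit 5) (nat_lit 480) (nat_lit 390) (nat_lit 270)) (XT.lf (nat_lit 0) (nat_lit 9785312760) (nat_lit 380) (nat_lit 3201311144) (nat_lit 76) (nat_lit 2279593098) (nat_lit 106) (nat_lit 5) (nat_lit 111) (nat_lit 5) (nat_lit 107) (nat_lit 5) (nat_lit 481) (nat_lit 390) (nat_lit 269)))) (XT.nd (nat_lit 156) (nat_lit 304) (nat_lit 0) (XT.nd (nat_lit 78) (nat_lit 76) (nat_lit 0) (XT.lf (nat_lit 0) (nat_lit 4114368307) (nat_lit 380) (nat_lit 8698377388) (nat_lit 456) (nat_lit 2657918788) (nat_lit 101) (nat_lit 5) (nat_lit 106) (nat_lit 5) (nat_lit 107) (nat_lit 5) (nat_lit 482) (nat_lit 390) (nat_lit 268)) (XT.lf (nat_lit 0) (nat_lit 225184754) (nat_lit 456) (nat_lit 4082784996) (nat_lit 76) (nat_lit 11371080506) (nat_lit 100) (nat_lit 5) (nat_lit 106) (nat_lit 5) (nat_lit 101) (nat_lit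 5) (nat_lit 483) (nat_lit 390) (nat_lit 267))) (XT.nd (nat_lit 78) (nat_lit 0) (nat_lit 0) (XT.lf (nat_lit 0) (nat_lit 3138638334) (nat_lit 380) (nat_lit 12551789093) (nat_lit 76) (nat_lit 200668592) (nat_lit 96) (nat_lit 5) (nat_lit 101) (nat_lit 5) (nat_lit 97) (nat_lit 5) (nat_lit 484) (nat_lit 390) (nat_lit 266)) (XT.lf (nat_lit 0) (nat_lit 6151807764) (nat_lit 380) (nat_lit 5192228740) (nat_lit 76) (nat_lit 4762526276) (nat_lit 96) (nat_lit 5) (nat_lit 101) (nat_lit 5) (nat_lit 97) (nat_lit 5) (nat_lit 485) (nat_lit 390) (nat_lit 265))))))))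
noncomputable def xc130 : XT := (XT.nd (nat_lit 2106) (nat_lit 836) (nat_lit 0) (XT.nd (nat_lit 1014) (nat_lit 1672) (nat_lit 0) (XT.nd (nat_lit 468) (nat_lit 836) (nat_lit 0) (XT.nd (nat_lit 234) (nat_lit 380) (nat_lit 0) (XT.nd (nat_lit 78) (nat_lit 304) (nat_lit 0) (XT.lf (nat_lit 0) (nat_lit 2323558604) (nat_lit 304) (nat_lit 6902393650) (nat_lit 380) (nat_lit 7100381229) (nat_lit 92) (nat_lit 5) (nat_lit 96) (nat_lit 5) (nat_lit 97) (nat_lit 5) (nat_lit 486) (nat_lit 390) (nat_lit 264)) (XT.nd (nat_lit 78) (nat_lit 304) (nat_lit 0) (XT.lf (nat_lit 0) (nat_lit 10038746659) (nat_lit 304) (nat_lit 2343444730) (nat_lit 380) (nat_lit 4167904646) (nat_lit 92) (nat_lit 5) (nat_lit 96) (nat_lit 5) (nat_lit 97) (nat_lit 5) (nat_lit 487) (nat_lit 390) (nat_lit 263)) (XT.lf (nat_lit 0) (nat_lit 1108342194) (nat_lit 304) (nat_lit 14501388945) (nat_lit 380) (nat_lit 1168447682) (nat_lit 88) (nat_lit 5) (nat_lit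 92) (nat_lit 5) (nat_lit 93) (nat_lit 5) (nat_lit 488) (nat_lit 390) (nat_lit 262)))) (XT.nd (nat_lit 78) (nat_lit 304) (nat_lit 0) (XT.lf (nat_lit 0) (nat_lit 1911742519) (nat_lit 380) (nat_lit 8090521946) (nat_lit 76) (nat_lit 7007410517) (nat_lit 87) (nat_lit 5) (nat_lit 92) (nat_lit 5) (nat_lit 88) (nat_lit 5) (nat_lit 489) (nat_lit 390) (nat_lit 261)) (XT.nd (nat_lit 78) (nat_lit 304) (nat_lit 0) (XT.lf (nat_lit 0) (nat_lit 5024220764) (nat_lit 380) (nat_lit 388120545) (nat_lit 76) (nat_lit 11833586700) (nat_lit 87) (nat_lit 5) (nat_lit 92) (nat_lit 5) (nat_lit 88) (nat_lit 5) (nat_lit 490) (nat_lit 390) (nat_lit 260)) (XT.lf (nat_lit 0) (nat_lit 7546954122) (nat_lit 304) (nat_lit 687577744) (nat_lit 380) (nat_lit 9251670417) (nat_lit 83) (nat_lit 5) (nat_lit 87) (nat_lit 5) (nat_lit 88) (nat_lit 5) (nat_lit 491) (nat_lit 390) (nat_lit 259))))) (XT.nd (nat_lit 234) (nat_lit 532) (nat_lit 0) (XT.nd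 (nat_lit 78) (nat_lit 304) (nat_lit 0) (XT.lf (nat_lit 0) (nat_lit 11525166759) (nat_lit 380) (nat_lit 2132530329) (nat_lit 76) (nat_lit 4073270301) (nat_lit 83) (nat_lit 5) (nat_lit 88) (nat_lit 5) (nat_lit 84) (nat_lit 5) (nat_lit 492) (nat_lit 390) (nat_lit 258)) (XT.nd (nat_lit 78) (nat_lit 76) (nat_lit 0) (XT.lf (nat_lit 0) (nat_lit 5882875418) (nat_lit 228) (nat_lit 9028419536) (nat_lit 304) (nat_lit 3068746778) (nat_lit 80) (nat_lit 5) (nat_lit 83) (nat_lit 5) (nat_lit 84) (nat_lit 5) (nat_lit 493) (nat_lit 390) (nat_lit 257)) (XT.lf (nat_lit 0) (nat_lit 130700113) (nat_lit 304) (nat_lit 4167357180) (nat_lit 76) (nat_lit 13936003092) (nat_lit 79) (nat_lit 5) (nat_lit 83) (nat_lit 5) (nat_lit 80) (nat_lit 5) (nat_lit 494) (nat_lit 390) (nat_lit 256)))) (XT.nd (nat_lit 156) (nat_lit 228) (nat_lit 0) (XT.nd (nat_lit 78) (nat_lit 0) (nat_lit 0) (XT.lf (nat_lit 0) (nat_lit 3369517760) (nat_lit 380)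 (nat_lit 14563585160) (nat_lit 76) (nat_lit 559328467) (nat_lit 75) (nat_lit 5) (nat_lit 80) (nat_lit 5) (nat_lit 76) (nat_lit 5) (nat_lit 495) (nat_lit 390) (nat_lit 255)) (XT.lf (nat_lit 0) (nat_lit 6717025737) (nat_lit 380) (nat_lit 6560384329) (nat_lit 76) (nat_lit 5477688435) (nat_lit 75) (nat_lit 5) (nat_lit 80) (nat_lit 5) (nat_lit 76) (nat_lit 5) (nat_lit 496) (nat_lit 390) (nat_lit 254))) (XT.nd (nat_lit 78) (nat_lit 0) (nat_lit 0) (XT.lf (nat_lit 0) (nat_lit 1604524148) (nat_lit 228) (nat_lit 8524926050) (nat_lit 304) (nat_lit 8893616269) (nat_lit 72) (nat_lit 5) (nat_lit 75) (nat_lit 5) (nat_lit 76) (nat_lit 5) (nat_lit 497) (nat_lit 390) (nat_lit 253)) (XT.lf (nat_lit 0) (nat_lit 10002386169) (nat_lit 228) (nat_lit 3639428314) (nat_lit 304) (nat_lit 5653952183) (nat_lit 72) (nat_lit 5) (nat_lit 75) (nat_lit 5) (nat_lit 76) (nat_lit 5) (nat_lit 498) (nat_lit 390) (nat_lit 252)))))) (XT.nd (nat_lit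 546) (nat_lit 836) (nat_lit 0) (XT.nd (nat_lit 234) (nat_lit 456) (nat_lit 0) (XT.nd (nat_lit 78) (nat_lit 380) (nat_lit 0) (XT.lf (nat_lit 0) (nat_lit 17221016099) (nat_lit 304) (nat_lit 1033538822) (nat_lit 76) (nat_lit 1319440718) (nat_lit 72) (nat_lit 5) (nat_lit 76) (nat_lit 5) (nat_lit 73) (nat_lit 5) (nat_lit 499) (nat_lit 390) (nat_lit 251)) (XT.nd (nat_lit 78) (nat_lit 0) (nat_lit 0) (XT.lf (nat_lit 0) (nat_lit 1061660228) (nat_lit 380) (nat_lit 12417235878) (nat_lit 76) (nat_lit 6377548793) (nat_lit 67) (nat_lit 5) (nat_lit 72) (nat_lit 5) (nat_lit 68) (nat_lit 5) (nat_lit 500) (nat_lit 390) (nat_lit 250)) (XT.lf (nat_lit 0) (nat_lit 4508228867) (nat_lit 380) (nat_lit 4083376222) (nat_lit 76) (nat_lit 11552730335) (nat_lit 67) (nat_lit 5) (nat_lit 72) (nat_lit 5) (nat_lit 68) (nat_lit 5) (nat_lit 501) (nat_lit 390) (nat_lit 249)))) (XT.nd (nat_lit 156) (nat_lit 228) (nat_lit 0) (XT.nd (nat_lit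 78) (nat_lit 0) (nat_lit 0) (XT.lf (nat_lit 0) (nat_lit 4457220897) (nat_lit 228) (nat_lit 3583811428) (nat_lit 304) (nat_lit 12396611433) (nat_lit 64) (nat_lit 5) (nat_lit 67) (nat_lit 5) (nat_lit 68) (nat_lit 5) (nat_lit 502) (nat_lit 390) (nat_lit 248)) (XT.lf (nat_lit 0) (nat_lit 11670400524) (nat_lit 304) (nat_lit 7540834817) (nat_lit 76) (nat_lit 1525070696) (nat_lit 64) (nat_lit 5) (nat_lit 68) (nat_lit 5) (nat_lit 65) (nat_lit 5) (nat_lit 503) (nat_lit 390) (nat_lit 247))) (XT.nd (nat_lit 78) (nat_lit 0) (nat_lit 0) (XT.lf (nat_lit 0) (nat_lit 1039335737) (nat_lit 228) (nat_lit 14352159005) (nat_lit 304) (nat_lit 5649069881) (nat_lit 61) (nat_lit 5) (nat_lit 64) (nat_lit 5) (nat_lit 65) (nat_lit 5) (nat_lit 504) (nat_lit 390) (nat_lit 246)) (XT.lf (nat_lit 0) (nat_lit 9875340350) (nat_lit 228) (nat_lit 9351035844) (nat_lit 304) (nat_lit 2123750598) (nat_lit 61) (nat_lit 5) (nat_lit 64) (nat_lit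 5) (nat_lit 65) (nat_lit 5) (nat_lit 505) (nat_lit 390) (nat_lit 245))))) (XT.nd (nat_lit 234) (nat_lit 532) (nat_lit 0) (XT.nd (nat_lit 78) (nat_lit 228) (nat_lit 0) (XT.lf (nat_lit 0) (nat_lit 1441672769) (nat_lit 304) (nat_lit 2805160452) (nat_lit 76) (nat_lit 17419083243) (nat_lit 60) (nat_lit 5) (nat_lit 64) (nat_lit 5) (nat_lit 61) (nat_lit 5) (nat_lit 506) (nat_lit 390) (nat_lit 244)) (XT.nd (nat_lit 78) (nat_lit 0) (nat_lit 0) (XT.lf (nat_lit 0) (nat_lit 5085173097) (nat_lit 304) (nat_lit 15907538991) (nat_lit 76) (nat_lit 994330361) (nat_lit 57) (nat_lit 5) (nat_lit 61) (nat_lit 5) (nat_lit 58) (nat_lit 5) (nat_lit 507) (nat_lit 390) (nat_lit 243)) (XT.lf (nat_lit 0) (nat_lit 8837797026) (nat_lit 304) (nat_lit 7180080956) (nat_lit 76) (nat_lit 6295993182) (nat_lit 57) (nat_lit 5) (nat_lit 61) (nat_lit 5) (nat_lit 58) (nat_lit 5) (nat_lit 508) (nat_lit 390) (nat_lit 242)))) (XT.nd (nat_lit 156)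 (nat_lit 304) (nat_lit 0) (XT.nd (nat_lit 78) (nat_lit 0) (nat_lit 0) (XT.lf (nat_lit 0) (nat_lit 1727422444) (nat_lit 228) (nat_lit 10938658823) (nat_lit 304) (nat_lit 9981148212) (nat_lit 54) (nat_lit 5) (nat_lit 57) (nat_lit 5) (nat_lit 58) (nat_lit 5) (nat_lit 509) (nat_lit 390) (nat_lit 241)) (XT.lf (nat_lit 0) (nat_lit 10893357441) (nat_lit 228) (nat_lit 5715245453) (nat_lit 304) (nat_lit 6377903710) (nat_lit 54) (nat_lit 5) (nat_lit 57) (nat_lit 5) (nat_lit 58) (nat_lit 5) (nat_lit 510) (nat_lit 390) (nat_lit 240))) (XT.nd (nat_lit 78) (nat_lit 304) (nat_lit 0) (XT.lf (nat_lit 0) (nat_lit 20225899021) (nat_lit 228) (nat_lit 393771600) (nat_lit 304) (nat_lit 2713109718) (nat_lit 54) (nat_lit 5) (nat_lit 57) (nat_lit 5) (nat_lit 58) (nat_lit 5) (nat_lit 511) (nat_lit 390) (nat_lit 239)) (XT.lf (nat_lit 0) (nat_lit 1074024173) (nat_lit 304) (nat_lit 17602064279) (nat_lit 76) (nat_lit 5008513047) (nat_lit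 50) (nat_lit 5) (nat_lit 54) (nat_lit 5) (nat_lit 51) (nat_lit 5) (nat_lit 512) (nat_lit 390) (nat_lit 238))))))) (XT.nd (nat_lit 49920) (nat_lit 0) (nat_lit 35796) (XT.nd (nat_lit 468) (nat_lit 456) (nat_lit 0) (XT.nd (nat_lit 234) (nat_lit 152) (nat_lit 0) (XT.nd (nat_lit 78) (nat_lit 228) (nat_lit 0) (XT.lf (nat_lit 0) (nat_lit 4914078573) (nat_lit 304) (nat_lit 8582477722) (nat_lit 76) (nat_lit 10546278679) (nat_lit 50) (nat_lit 5) (nat_lit 54) (nat_lit 5) (nat_lit 51) (nat_lit 5) (nat_lit 513) (nat_lit 390) (nat_lit 237)) (XT.nd (nat_lit 78) (nat_lit 0) (nat_lit 0) (XT.lf (nat_lit 0) (nat_lit 609235014) (nat_lit 228) (nat_lit 8215730851) (nat_lit 304) (nat_lit 15583391217) (nat_lit 47) (nat_lit 5) (nat_lit 50) (nat_lit 5) (nat_lit 51) (nat_lit 5) (nat_lit 514) (nat_lit 390) (nat_lit 236)) (XT.lf (nat_lit 0) (nat_lit 10084970918) (nat_lit 228) (nat_lit 2776858911) (nat_lit 304) (nat_lit 11918409137)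 (nat_lit 47) (nat_lit 5) (nat_lit 50) (nat_lit 5) (nat_lit 51) (nat_lit 5) (nat_lit 515) (nat_lit 390) (nat_lit 235)))) (XT.nd (nat_lit 78) (nat_lit 152) (nat_lit 0) (XT.lf (nat_lit 0) (nat_lit 16987739490) (nat_lit 304) (nat_lit 5443315993) (nat_lit 76) (nat_lit 2728341254) (nat_lit 47) (nat_lit 5) (nat_lit 51) (nat_lit 5) (nat_lit 48) (nat_lit 5) (nat_lit 516) (nat_lit 390) (nat_lit 234)) (XT.nd (nat_lit 78) (nat_lit 0) (nat_lit 0) (XT.lf (nat_lit 0) (nat_lit 4012230711) (nat_lit 152) (nat_lit 17218884931) (nat_lit 228) (nat_lit 4314327393) (nat_lit 45) (nat_lit 5) (nat_lit 47) (nat_lit 5) (nat_lit 48) (nat_lit 5) (nat_lit 517) (nat_lit 390) (nat_lit 233)) (XT.lf (nat_lit 0) (nat_lit 13715101337) (nat_lit 152) (nat_lit 11871378936) (nat_lit 228) (nat_lit 352191815) (nat_lit 45) (nat_lit 5) (nat_lit 47) (nat_lit 5) (nat_lit 48) (nat_lit 5) (nat_lit 518) (nat_lit 390) (nat_lit 232))))) (XT.nd (nat_lit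 234) (nat_lit 152) (nat_lit 0) (XT.nd (nat_lit 78) (nat_lit 228) (nat_lit 0) (XT.lf (nat_lit 0) (nat_lit 3631514829) (nat_lit 228) (nat_lit 2767083749) (nat_lit 76) (nat_lit 19940877922) (nat_lit 44) (nat_lit 5) (nat_lit 47) (nat_lit 5) (nat_lit 45) (nat_lit 5) (nat_lit 519) (nat_lit 390) (nat_lit 231)) (XT.nd (nat_lit 78) (nat_lit 0) (nat_lit 0) (XT.lf (nat_lit 0) (nat_lit 6952288208) (nat_lit 228) (nat_lit 773929628) (nat_lit 304) (nat_lit 19021315849) (nat_lit 41) (nat_lit 5) (nat_lit 44) (nat_lit 5) (nat_lit 45) (nat_lit 5) (nat_lit 520) (nat_lit 390) (nat_lit 230)) (XT.lf (nat_lit 0) (nat_lit 11944668290) (nat_lit 304) (nat_lit 10307311308) (nat_lit 76) (nat_lit 4910939272) (nat_lit 41) (nat_lit 5) (nat_lit 45) (nat_lit 5) (nat_lit 42) (nat_lit 5) (nat_lit 521) (nat_lit 390) (nat_lit 229)))) (XT.nd (nat_lit 156) (nat_lit 0) (nat_lit 0) (XT.nd (nat_lit 78) (nat_lit 152) (nat_lit 0) (XT.lf (nat_lit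 0) (nat_lit 16243728045) (nat_lit 304) (nat_lit 649586220) (nat_lit 76) (nat_lit 10693376537) (nat_lit 41) (nat_lit 5) (nat_lit 45) (nat_lit 5) (nat_lit 42) (nat_lit 5) (nat_lit 522) (nat_lit 390) (nat_lit 228)) (XT.lf (nat_lit 0) (nat_lit 9308828959) (nat_lit 152) (nat_lit 11371668276) (nat_lit 228) (nat_lit 7337410147) (nat_lit 39) (nat_lit 5) (nat_lit 41) (nat_lit 5) (nat_lit 42) (nat_lit 5) (nat_lit 523) (nat_lit 390) (nat_lit 227))) (XT.nd (nat_lit 48984) (nat_lit 0) (nat_lit 39140) (XT.lf (nat_lit 0) (nat_lit 19460762113) (nat_lit 152) (nat_lit 5740964855) (nat_lit 228) (nat_lit 3256110523) (nat_lit 39) (nat_lit 5) (nat_lit 41) (nat_lit 5) (nat_lit 42) (nat_lit 5) (nat_lit 524) (nat_lit 390) (nat_lit 226)) (XT.lf (nat_lit 0) (nat_lit 715190650) (nat_lit 0) (nat_lit 715190650) (nat_lit 684) (nat_lit 1910199949) (nat_lit 554) (nat_lit 5) (nat_lit 554) (nat_lit 3) (nat_lit 563) (nat_lit 3) (nat_lit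 391) (nat_lit 391) (nat_lit 358)))))) (XT.nd (nat_lit 546) (nat_lit 1748) (nat_lit 0) (XT.nd (nat_lit 234) (nat_lit 836) (nat_lit 0) (XT.nd (nat_lit 78) (nat_lit 760) (nat_lit 0) (XT.lf (nat_lit 0) (nat_lit 4490378170) (nat_lit 0) (nat_lit 466310595) (nat_lit 684) (nat_lit 1746779814) (nat_lit 554) (nat_lit 5) (nat_lit 554) (nat_lit 3) (nat_lit 563) (nat_lit 3) (nat_lit 392) (nat_lit 391) (nat_lit 357)) (XT.nd (nat_lit 78) (nat_lit 0) (nat_lit 0) (XT.lf (nat_lit 0) (nat_lit 318023779) (nat_lit 760) (nat_lit 5864413830) (nat_lit 836) (nat_lit 544725751) (nat_lit 544) (nat_lit 5) (nat_lit 554) (nat_lit 5) (nat_lit 555) (nat_lit 5) (nat_lit 393) (nat_lit 391) (nat_lit 356)) (XT.lf (nat_lit 0) (nat_lit 2365186903) (nat_lit 760) (nat_lit 2764745828) (nat_lit 836) (nat_lit 1621958974) (nat_lit 544) (nat_lit 5) (nat_lit 554) (nat_lit 5) (nat_lit 555) (nat_lit 5) (nat_lit 394) (nat_lit 391) (nat_lit 355)))) (XT.nd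 (nat_lit 156) (nat_lit 836) (nat_lit 0) (XT.nd (nat_lit 78) (nat_lit 0) (nat_lit 0) (XT.lf (nat_lit 76) (nat_lit 373320002) (nat_lit 0) (nat_lit 4029841711) (nat_lit 836) (nat_lit 2375033622) (nat_lit 545) (nat_lit 5) (nat_lit 544) (nat_lit 5) (nat_lit 555) (nat_lit 5) (nat_lit 395) (nat_lit 391) (nat_lit 354)) (XT.lf (nat_lit 76) (nat_lit 3583319761) (nat_lit 0) (nat_lit 2865420469) (nat_lit 836) (nat_lit 357024479) (nat_lit 545) (nat_lit 5) (nat_lit 544) (nat_lit 5) (nat_lit 555) (nat_lit 5) (nat_lit 396) (nat_lit 391) (nat_lit 353))) (XT.nd (nat_lit 78) (nat_lit 0) (nat_lit 0) (XT.lf (nat_lit 0) (nat_lit 1627926812) (nat_lit 836) (nat_lit 15914210) (nat_lit 912) (nat_lit 5190919198) (nat_lit 533) (nat_lit 5) (nat_lit 544) (nat_lit 5) (nat_lit 545) (nat_lit 5) (nat_lit 397) (nat_lit 391) (nat_lit 352)) (XT.lf (nat_lit 76) (nat_lit 3267290713) (nat_lit 0) (nat_lit 351621206) (nat_lit 912) (nat_lit 3246026357)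 (nat_lit 534) (nat_lit 5) (nat_lit 533) (nat_lit 5) (nat_lit 545) (nat_lit 5) (nat_lit 398) (nat_lit 391) (nat_lit 351))))) (XT.nd (nat_lit 234) (nat_lit 912) (nat_lit 0) (XT.nd (nat_lit 78) (nat_lit 912) (nat_lit 0) (XT.lf (nat_lit 0) (nat_lit 5606938509) (nat_lit 836) (nat_lit 314573686) (nat_lit 912) (nat_lit 975133989) (nat_lit 534) (nat_lit 5) (nat_lit 545) (nat_lit 5) (nat_lit 546) (nat_lit 5) (nat_lit 399) (nat_lit 391) (nat_lit 350)) (XT.nd (nat_lit 78) (nat_lit 0) (nat_lit 0) (XT.lf (nat_lit 0) (nat_lit 670131719) (nat_lit 912) (nat_lit 3890629391) (nat_lit 988) (nat_lit 2368730472) (nat_lit 522) (nat_lit 5) (nat_lit 534) (nat_lit 5) (nat_lit 535) (nat_lit 5) (nat_lit 400) (nat_lit 391) (nat_lit 349)) (XT.lf (nat_lit 0) (nat_lit 2606223920) (nat_lit 912) (nat_lit 536779299) (nat_lit 988) (nat_lit 3820800310) (nat_lit 522) (nat_lit 5) (nat_lit 534) (nat_lit 5) (nat_lit 535) (nat_lit 5) (nat_lit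 401) (nat_lit 391) (nat_lit 348)))) (XT.nd (nat_lit 156) (nat_lit 912) (nat_lit 0) (XT.nd (nat_lit 78) (nat_lit 0) (nat_lit 0) (XT.lf (nat_lit 76) (nat_lit 2893763297) (nat_lit 0) (nat_lit 1659184592) (nat_lit 988) (nat_lit 2446480971) (nat_lit 523) (nat_lit 5) (nat_lit 522) (nat_lit 5) (nat_lit 535) (nat_lit 5) (nat_lit 402) (nat_lit 391) (nat_lit 347)) (XT.lf (nat_lit 76) (nat_lit 6372042634) (nat_lit 0) (nat_lit 124023879) (nat_lit 988) (nat_lit 540615037) (nat_lit 523) (nat_lit 5) (nat_lit 522) (nat_lit 5) (nat_lit 535) (nat_lit 5) (nat_lit 403) (nat_lit 391) (nat_lit 346))) (XT.nd (nat_lit 78) (nat_lit 0) (nat_lit 0) (XT.lf (nat_lit 0) (nat_lit 1367493239) (nat_lit 988) (nat_lit 4239612375) (nat_lit 1064) (nat_lit 1467802409) (nat_lit 510) (nat_lit 5) (nat_lit 523) (nat_lit 5) (nat_lit 524) (nat_lit 5) (nat_lit 404) (nat_lit 391) (nat_lit 345)) (XT.lf (nat_lit 0) (nat_lit 3267064764) (nat_lit 988)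 (nat_lit 733149832) (nat_lit 1064) (nat_lit 3114462528) (nat_lit 510) (nat_lit 5) (nat_lit 523) (nat_lit 5) (nat_lit 524) (nat_lit 5) (nat_lit 405) (nat_lit 391) (nat_lit 344))))))))
noncomputable def xc131 : XT := (XT.nd (nat_lit 2106) (nat_lit 9500) (nat_lit 0) (XT.nd (nat_lit 1014) (nat_lit 10488) (nat_lit 0) (XT.nd (nat_lit 468) (nat_lit 3648) (nat_lit 0) (XT.nd (nat_lit 234) (nat_lit 1140) (nat_lit 0) (XT.nd (nat_lit 78) (nat_lit 988) (nat_lit 0) (XT.lf (nat_lit 76) (nat_lit 2852274418) (nat_lit 0) (nat_lit 2326972341) (nat_lit 1064) (nat_lit 1976561645) (nat_lit 511) (nat_lit 5) (nat_lit 510) (nat_lit 5) (nat_lit 524) (nat_lit 5) (nat_lit 406) (nat_lit 391) (nat_lit 343)) (XT.nd (nat_lit 78) (nat_lit 988) (nat_lit 0) (XT.lf (nat_lit 76) (nat_lit 6490957554) (nat_lit 0) (nat_lit 600411313) (nat_lit 1064) (nat_lit 107217534) (nat_lit 511) (nat_lit 5) (nat_lit 510) (nat_lit 5) (nat_lit 524) (nat_lit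 5) (nat_lit 407) (nat_lit 391) (nat_lit 342)) (XT.lf (nat_lit 0) (nat_lit 1760243896) (nat_lit 1064) (nat_lit 4291482810) (nat_lit 1140) (nat_lit 1190628718) (nat_lit 497) (nat_lit 5) (nat_lit 511) (nat_lit 5) (nat_lit 512) (nat_lit 5) (nat_lit 408) (nat_lit 391) (nat_lit 341)))) (XT.nd (nat_lit 78) (nat_lit 1140) (nat_lit 0) (XT.lf (nat_lit 0) (nat_lit 3630407411) (nat_lit 1064) (nat_lit 628738988) (nat_lit 1140) (nat_lit 3028558157) (nat_lit 497) (nat_lit 5) (nat_lit 511) (nat_lit 5) (nat_lit 512) (nat_lit 5) (nat_lit 409) (nat_lit 391) (nat_lit 340)) (XT.nd (nat_lit 78) (nat_lit 1140) (nat_lit 0) (XT.lf (nat_lit 76) (nat_lit 3119493406) (nat_lit 0) (nat_lit 2397588447) (nat_lit 1140) (nat_lit 1817350266) (nat_lit 498) (nat_lit 5) (nat_lit 497) (nat_lit 5) (nat_lit 512) (nat_lit 5) (nat_lit 410) (nat_lit 391) (nat_lit 339)) (XT.lf (nat_lit 0) (nat_lit 22019090) (nat_lit 1140) (nat_lit 460294922) (nat_lit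 1216) (nat_lit 6900555979) (nat_lit 482) (nat_lit 5) (nat_lit 497) (nat_lit 5) (nat_lit 498) (nat_lit 5) (nat_lit 411) (nat_lit 391) (nat_lit 338))))) (XT.nd (nat_lit 234) (nat_lit 2584) (nat_lit 0) (XT.nd (nat_lit 78) (nat_lit 1140) (nat_lit 0) (XT.lf (nat_lit 0) (nat_lit 1865573184) (nat_lit 1140) (nat_lit 4069170158) (nat_lit 76) (nat_lit 1497508899) (nat_lit 483) (nat_lit 5) (nat_lit 498) (nat_lit 5) (nat_lit 484) (nat_lit 5) (nat_lit 412) (nat_lit 391) (nat_lit 337)) (XT.nd (nat_lit 78) (nat_lit 1140) (nat_lit 0) (XT.lf (nat_lit 0) (nat_lit 3712931481) (nat_lit 1140) (nat_lit 245846224) (nat_lit 76) (nat_lit 3524555289) (nat_lit 483) (nat_lit 5) (nat_lit 498) (nat_lit 5) (nat_lit 484) (nat_lit 5) (nat_lit 413) (nat_lit 391) (nat_lit 336)) (XT.lf (nat_lit 0) (nat_lit 3673458212) (nat_lit 1140) (nat_lit 1909030936) (nat_lit 1216) (nat_lit 1953289718) (nat_lit 468) (nat_lit 5) (nat_lit 483) (nat_lit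 5) (nat_lit 484) (nat_lit 5) (nat_lit 414) (nat_lit 391) (nat_lit 335)))) (XT.nd (nat_lit 156) (nat_lit 1292) (nat_lit 0) (XT.nd (nat_lit 78) (nat_lit 76) (nat_lit 0) (XT.lf (nat_lit 0) (nat_lit 55431268) (nat_lit 1216) (nat_lit 7399242705) (nat_lit 1292) (nat_lit 135342559) (nat_lit 452) (nat_lit 5) (nat_lit 468) (nat_lit 5) (nat_lit 469) (nat_lit 5) (nat_lit 415) (nat_lit 391) (nat_lit 334)) (XT.lf (nat_lit 0) (nat_lit 1697448427) (nat_lit 1292) (nat_lit 3594601804) (nat_lit 76) (nat_lit 2353090667) (nat_lit 451) (nat_lit 5) (nat_lit 468) (nat_lit 5) (nat_lit 452) (nat_lit 5) (nat_lit 416) (nat_lit 391) (nat_lit 333))) (XT.nd (nat_lit 78) (nat_lit 0) (nat_lit 0) (XT.lf (nat_lit 0) (nat_lit 399406306) (nat_lit 1292) (nat_lit 3131307835) (nat_lit 1368) (nat_lit 4171367946) (nat_lit 434) (nat_lit 5) (nat_lit 451) (nat_lit 5) (nat_lit 452) (nat_lit 5) (nat_lit 417) (nat_lit 391) (nat_lit 332)) (XT.lf (nat_lit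 0) (nat_lit 4493094917) (nat_lit 1292) (nat_lit 895245139) (nat_lit 1368) (nat_lit 2372112119) (nat_lit 434) (nat_lit 5) (nat_lit 451) (nat_lit 5) (nat_lit 452) (nat_lit 5) (nat_lit 418) (nat_lit 391) (nat_lit 331)))))) (XT.nd (nat_lit 546) (nat_lit 4408) (nat_lit 0) (XT.nd (nat_lit 234) (nat_lit 3192) (nat_lit 0) (XT.nd (nat_lit 78) (nat_lit 1520) (nat_lit 0) (XT.lf (nat_lit 0) (nat_lit 821279649) (nat_lit 1368) (nat_lit 6440502184) (nat_lit 1444) (nat_lit 558677673) (nat_lit 416) (nat_lit 5) (nat_lit 434) (nat_lit 5) (nat_lit 435) (nat_lit 5) (nat_lit 419) (nat_lit 391) (nat_lit 330)) (XT.nd (nat_lit 78) (nat_lit 1444) (nat_lit 0) (XT.lf (nat_lit 0) (nat_lit 1266665003) (nat_lit 1444) (nat_lit 2889189233) (nat_lit 76) (nat_lit 3725835108) (nat_lit 415) (nat_lit 5) (nat_lit 434) (nat_lit 5) (nat_lit 416) (nat_lit 5) (nat_lit 420) (nat_lit 391) (nat_lit 329)) (XT.lf (nat_lit 0) (nat_lit 1287278583) (nat_lit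 1444) (nat_lit 1807386690) (nat_lit 1520) (nat_lit 4849972642) (nat_lit 396) (nat_lit 5) (nat_lit 415) (nat_lit 5) (nat_lit 416) (nat_lit 5) (nat_lit 421) (nat_lit 391) (nat_lit 328)))) (XT.nd (nat_lit 156) (nat_lit 1672) (nat_lit 0) (XT.nd (nat_lit 78) (nat_lit 1520) (nat_lit 0) (XT.lf (nat_lit 0) (nat_lit 4948356985) (nat_lit 1520) (nat_lit 2455440586) (nat_lit 76) (nat_lit 605305086) (nat_lit 396) (nat_lit 5) (nat_lit 416) (nat_lit 5) (nat_lit 397) (nat_lit 5) (nat_lit 422) (nat_lit 391) (nat_lit 327)) (XT.lf (nat_lit 0) (nat_lit 1813432587) (nat_lit 1520) (nat_lit 5015901088) (nat_lit 1596) (nat_lit 1245757839) (nat_lit 376) (nat_lit 5) (nat_lit 396) (nat_lit 5) (nat_lit 397) (nat_lit 5) (nat_lit 423) (nat_lit 391) (nat_lit 326))) (XT.nd (nat_lit 78) (nat_lit 1596) (nat_lit 0) (XT.lf (nat_lit 0) (nat_lit 580856607) (nat_lit 1596) (nat_lit 1974332041) (nat_lit 76) (nat_lit 5587505032) (nat_lit 375)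 (nat_lit 5) (nat_lit 396) (nat_lit 5) (nat_lit 376) (nat_lit 5) (nat_lit 424) (nat_lit 391) (nat_lit 325)) (XT.lf (nat_lit 0) (nat_lit 2393263547) (nat_lit 1596) (nat_lit 16948709) (nat_lit 1672) (nat_lit 5801649946) (nat_lit 354) (nat_lit 5) (nat_lit 375) (nat_lit 5) (nat_lit 376) (nat_lit 5) (nat_lit 425) (nat_lit 391) (nat_lit 324))))) (XT.nd (nat_lit 234) (nat_lit 2736) (nat_lit 0) (XT.nd (nat_lit 78) (nat_lit 1672) (nat_lit 0) (XT.lf (nat_lit 0) (nat_lit 4274006885) (nat_lit 1672) (nat_lit 1453095112) (nat_lit 76) (nat_lit 2555391131) (nat_lit 354) (nat_lit 5) (nat_lit 376) (nat_lit 5) (nat_lit 355) (nat_lit 5) (nat_lit 426) (nat_lit 391) (nat_lit 323)) (XT.nd (nat_lit 78) (nat_lit 0) (nat_lit 0) (XT.lf (nat_lit 0) (nat_lit 3010528708) (nat_lit 1672) (nat_lit 3152654176) (nat_lit 1748) (nat_lit 2191627043) (nat_lit 332) (nat_lit 5) (nat_lit 354) (nat_lit 5) (nat_lit 355) (nat_lit 5) (nat_lit 427)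 (nat_lit 391) (nat_lit 322)) (XT.lf (nat_lit 0) (nat_lit 7554748820) (nat_lit 1672) (nat_lit 514025975) (nat_lit 1748) (nat_lit 360260292) (nat_lit 332) (nat_lit 5) (nat_lit 354) (nat_lit 5) (nat_lit 355) (nat_lit 5) (nat_lit 428) (nat_lit 391) (nat_lit 321)))) (XT.nd (nat_lit 156) (nat_lit 1672) (nat_lit 0) (XT.nd (nat_lit 78) (nat_lit 0) (nat_lit 0) (XT.lf (nat_lit 0) (nat_lit 1495586176) (nat_lit 1064) (nat_lit 4823566062) (nat_lit 76) (nat_lit 2185277519) (nat_lit 318) (nat_lit 5) (nat_lit 332) (nat_lit 5) (nat_lit 319) (nat_lit 5) (nat_lit 429) (nat_lit 391) (nat_lit 320)) (XT.lf (nat_lit 0) (nat_lit 3362731227) (nat_lit 1064) (nat_lit 276802647) (nat_lit 76) (nat_lit 4942203384) (nat_lit 318) (nat_lit 5) (nat_lit 332) (nat_lit 5) (nat_lit 319) (nat_lit 5) (nat_lit 430) (nat_lit 391) (nat_lit 319))) (XT.nd (nat_lit 78) (nat_lit 836) (nat_lit 0) (XT.lf (nat_lit 0) (nat_lit 4390312369) (nat_lit 836)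 (nat_lit 875697028) (nat_lit 912) (nat_lit 3394637737) (nat_lit 307) (nat_lit 5) (nat_lit 318) (nat_lit 5) (nat_lit 319) (nat_lit 5) (nat_lit 431) (nat_lit 391) (nat_lit 318)) (XT.lf (nat_lit 0) (nat_lit 377135241) (nat_lit 836) (nat_lit 6817849301) (nat_lit 912) (nat_lit 1546429440) (nat_lit 296) (nat_lit 5) (nat_lit 307) (nat_lit 5) (nat_lit 308) (nat_lit 5) (nat_lit 432) (nat_lit 391) (nat_lit 317))))))) (XT.nd (nat_lit 1092) (nat_lit 4332) (nat_lit 0) (XT.nd (nat_lit 546) (nat_lit 2812) (nat_lit 0) (XT.nd (nat_lit 234) (nat_lit 1520) (nat_lit 0) (XT.nd (nat_lit 78) (nat_lit 760) (nat_lit 0) (XT.lf (nat_lit 0) (nat_lit 339808928) (nat_lit 912) (nat_lit 3684804996) (nat_lit 76) (nat_lit 4799058268) (nat_lit 295) (nat_lit 5) (nat_lit 307) (nat_lit 5) (nat_lit 296) (nat_lit 5) (nat_lit 433) (nat_lit 391) (nat_lit 316)) (XT.nd (nat_lit 78) (nat_lit 0) (nat_lit 0) (XT.lf (nat_lit 0) (nat_lit 1063699271)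 (nat_lit 760) (nat_lit 1157726302) (nat_lit 836) (nat_lit 6686407943) (nat_lit 285) (nat_lit 5) (nat_lit 295) (nat_lit 5) (nat_lit 296) (nat_lit 5) (nat_lit 434) (nat_lit 391) (nat_lit 315)) (XT.lf (nat_lit 0) (nat_lit 4148847633) (nat_lit 836) (nat_lit 3076370219) (nat_lit 76) (nat_lit 1768325763) (nat_lit 285) (nat_lit 5) (nat_lit 296) (nat_lit 5) (nat_lit 286) (nat_lit 5) (nat_lit 435) (nat_lit 391) (nat_lit 314)))) (XT.nd (nat_lit 156) (nat_lit 760) (nat_lit 0) (XT.nd (nat_lit 78) (nat_lit 0) (nat_lit 0) (XT.lf (nat_lit 0) (nat_lit 1774237967) (nat_lit 760) (nat_lit 4332132506) (nat_lit 836) (nat_lit 2974794842) (nat_lit 275) (nat_lit 5) (nat_lit 285) (nat_lit 5) (nat_lit 286) (nat_lit 5) (nat_lit 436) (nat_lit 391) (nat_lit 313)) (XT.lf (nat_lit 0) (nat_lit 6735630775) (nat_lit 760) (nat_lit 1360783322) (nat_lit 836) (nat_lit 1074285828) (nat_lit 275) (nat_lit 5) (nat_lit 285) (nat_lit 5) (nat_lit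 286) (nat_lit 5) (nat_lit 437) (nat_lit 391) (nat_lit 312))) (XT.nd (nat_lit 78) (nat_lit 0) (nat_lit 0) (XT.lf (nat_lit 0) (nat_lit 853392210) (nat_lit 760) (nat_lit 6739048875) (nat_lit 76) (nat_lit 1669488853) (nat_lit 265) (nat_lit 5) (nat_lit 275) (nat_lit 5) (nat_lit 266) (nat_lit 5) (nat_lit 438) (nat_lit 391) (nat_lit 311)) (XT.lf (nat_lit 0) (nat_lit 2804112958) (nat_lit 760) (nat_lit 1786028809) (nat_lit 76) (nat_lit 4764749563) (nat_lit 265) (nat_lit 5) (nat_lit 275) (nat_lit 5) (nat_lit 266) (nat_lit 5) (nat_lit 439) (nat_lit 391) (nat_lit 310))))) (XT.nd (nat_lit 234) (nat_lit 1368) (nat_lit 0) (XT.nd (nat_lit 78) (nat_lit 684) (nat_lit 0) (XT.lf (nat_lit 0) (nat_lit 3281506011) (nat_lit 760) (nat_lit 1507569165) (nat_lit 836) (nat_lit 4660757995) (nat_lit 255) (nat_lit 5) (nat_lit 265) (nat_lit 5) (nat_lit 266) (nat_lit 5) (nat_lit 440) (nat_lit 391) (nat_lit 309)) (XT.nd (nat_lit 78) (nat_lit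 684) (nat_lit 0) (XT.lf (nat_lit 0) (nat_lit 6810671476) (nat_lit 836) (nat_lit 1110469273) (nat_lit 76) (nat_lit 1625619658) (nat_lit 255) (nat_lit 5) (nat_lit 266) (nat_lit 5) (nat_lit 256) (nat_lit 5) (nat_lit 441) (nat_lit 391) (nat_lit 308)) (XT.lf (nat_lit 0) (nat_lit 4064484863) (nat_lit 684) (nat_lit 4819337113) (nat_lit 760) (nat_lit 761606528) (nat_lit 246) (nat_lit 5) (nat_lit 255) (nat_lit 5) (nat_lit 256) (nat_lit 5) (nat_lit 442) (nat_lit 391) (nat_lit 307)))) (XT.nd (nat_lit 156) (nat_lit 608) (nat_lit 0) (XT.nd (nat_lit 78) (nat_lit 684) (nat_lit 0) (XT.lf (nat_lit 0) (nat_lit 1218320171) (nat_lit 760) (nat_lit 423671633) (nat_lit 76) (nat_lit 8104291742) (nat_lit 245) (nat_lit 5) (nat_lit 255) (nat_lit 5) (nat_lit 246) (nat_lit 5) (nat_lit 443) (nat_lit 391) (nat_lit 306)) (XT.lf (nat_lit 0) (nat_lit 3245246148) (nat_lit 760) (nat_lit 4991013654) (nat_lit 76) (nat_lit 1612466561) (nat_lit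 236) (nat_lit 5) (nat_lit 246) (nat_lit 5) (nat_lit 237) (nat_lit 5) (nat_lit 444) (nat_lit 391) (nat_lit 305))) (XT.nd (nat_lit 78) (nat_lit 0) (nat_lit 0) (XT.lf (nat_lit 0) (nat_lit 262520926) (nat_lit 608) (nat_lit 5041293490) (nat_lit 684) (nat_lit 4649604421) (nat_lit 228) (nat_lit 5) (nat_lit 236) (nat_lit 5) (nat_lit 237) (nat_lit 5) (nat_lit 445) (nat_lit 391) (nat_lit 304)) (XT.lf (nat_lit 0) (nat_lit 5661624861) (nat_lit 608) (nat_lit 1751385698) (nat_lit 684) (nat_lit 2647027898) (nat_lit 228) (nat_lit 5) (nat_lit 236) (nat_lit 5) (nat_lit 237) (nat_lit 5) (nat_lit 446) (nat_lit 391) (nat_lit 303)))))) (XT.nd (nat_lit 546) (nat_lit 1748) (nat_lit 0) (XT.nd (nat_lit 234) (nat_lit 1216) (nat_lit 0) (XT.nd (nat_lit 78) (nat_lit 684) (nat_lit 0) (XT.lf (nat_lit 0) (nat_lit 975197189) (nat_lit 684) (nat_lit 8582356987) (nat_lit 760) (nat_lit 611395010) (nat_lit 219) (nat_lit 5) (nat_lit 228) (nat_lit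 5) (nat_lit 229) (nat_lit 5) (nat_lit 447) (nat_lit 391) (nat_lit 302)) (XT.nd (nat_lit 78) (nat_lit 608) (nat_lit 0) (XT.lf (nat_lit 0) (nat_lit 1463574886) (nat_lit 760) (nat_lit 3812103040) (nat_lit 76) (nat_lit 5003834359) (nat_lit 218) (nat_lit 5) (nat_lit 228) (nat_lit 5) (nat_lit 219) (nat_lit 5) (nat_lit 448) (nat_lit 391) (nat_lit 301)) (XT.lf (nat_lit 0) (nat_lit 1668292636) (nat_lit 608) (nat_lit 1891392243) (nat_lit 684) (nat_lit 6832785114) (nat_lit 210) (nat_lit 5) (nat_lit 218) (nat_lit 5) (nat_lit 219) (nat_lit 5) (nat_lit 449) (nat_lit 391) (nat_lit 300)))) (XT.nd (nat_lit 156) (nat_lit 608) (nat_lit 0) (XT.nd (nat_lit 78) (nat_lit 608) (nat_lit 0) (XT.lf (nat_lit 0) (nat_lit 5710842145) (nat_lit 684) (nat_lit 3234498395) (nat_lit 76) (nat_lit 1562104125) (nat_lit 210) (nat_lit 5) (nat_lit 219) (nat_lit 5) (nat_lit 211) (nat_lit 5) (nat_lit 450) (nat_lit 391) (nat_lit 299)) (XT.lf (nat_lit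 0) (nat_lit 2356897024) (nat_lit 608) (nat_lit 5553642208) (nat_lit 684) (nat_lit 2714089180) (nat_lit 202) (nat_lit 5) (nat_lit 210) (nat_lit 5) (nat_lit 211) (nat_lit 5) (nat_lit 451) (nat_lit 391) (nat_lit 298))) (XT.nd (nat_lit 78) (nat_lit 608) (nat_lit 0) (XT.lf (nat_lit 0) (nat_lit 8077676452) (nat_lit 608) (nat_lit 2076214159) (nat_lit 684) (nat_lit 590291541) (nat_lit 202) (nat_lit 5) (nat_lit 210) (nat_lit 5) (nat_lit 211) (nat_lit 5) (nat_lit 452) (nat_lit 391) (nat_lit 297)) (XT.lf (nat_lit 0) (nat_lit 1563063755) (nat_lit 608) (nat_lit 7825262433) (nat_lit 76) (nat_lit 1477459878) (nat_lit 194) (nat_lit 5) (nat_lit 202) (nat_lit 5) (nat_lit 195) (nat_lit 5) (nat_lit 453) (nat_lit 391) (nat_lit 296))))) (XT.nd (nat_lit 234) (nat_lit 1140) (nat_lit 0) (XT.nd (nat_lit 78) (nat_lit 608) (nat_lit 0) (XT.lf (nat_lit 0) (nat_lit 3761807062) (nat_lit 608) (nat_lit 2135732584) (nat_lit 76) (nat_lit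 5092018274) (nat_lit 194) (nat_lit 5) (nat_lit 202) (nat_lit 5) (nat_lit 195) (nat_lit 5) (nat_lit 454) (nat_lit 391) (nat_lit 295)) (XT.nd (nat_lit 78) (nat_lit 0) (nat_lit 0) (XT.lf (nat_lit 0) (nat_lit 3690171733) (nat_lit 608) (nat_lit 2317190585) (nat_lit 684) (nat_lit 5108404190) (nat_lit 186) (nat_lit 5) (nat_lit 194) (nat_lit 5) (nat_lit 195) (nat_lit 5) (nat_lit 455) (nat_lit 391) (nat_lit 294)) (XT.lf (nat_lit 0) (nat_lit 8300016399) (nat_lit 684) (nat_lit 1617476944) (nat_lit 76) (nat_lit 1326979852) (nat_lit 186) (nat_lit 5) (nat_lit 195) (nat_lit 5) (nat_lit 187) (nat_lit 5) (nat_lit 456) (nat_lit 391) (nat_lit 293)))) (XT.nd (nat_lit 156) (nat_lit 532) (nat_lit 0) (XT.nd (nat_lit 78) (nat_lit 76) (nat_lit 0) (XT.lf (nat_lit 0) (nat_lit 4322612417) (nat_lit 532) (nat_lit 6338826686) (nat_lit 608) (nat_lit 713873940) (nat_lit 179) (nat_lit 5) (nat_lit 186) (nat_lit 5) (nat_lit 187) (nat_lit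 5) (nat_lit 457) (nat_lit 391) (nat_lit 292)) (XT.lf (nat_lit 0) (nat_lit 1531360442) (nat_lit 608) (nat_lit 1140989639) (nat_lit 76) (nat_lit 8836423190) (nat_lit 178) (nat_lit 5) (nat_lit 186) (nat_lit 5) (nat_lit 179) (nat_lit 5) (nat_lit 458) (nat_lit 391) (nat_lit 291))) (XT.nd (nat_lit 78) (nat_lit 0) (nat_lit 0) (XT.lf (nat_lit 0) (nat_lit 3831048556) (nat_lit 608) (nat_lit 6728076935) (nat_lit 76) (nat_lit 1085317018) (nat_lit 171) (nat_lit 5) (nat_lit 179) (nat_lit 5) (nat_lit 172) (nat_lit 5) (nat_lit 459) (nat_lit 391) (nat_lit 290)) (XT.lf (nat_lit 0) (nat_lit 6182322774) (nat_lit 608) (nat_lit 715452204) (nat_lit 76) (nat_lit 4884954324) (nat_lit 171) (nat_lit 5) (nat_lit 179) (nat_lit 5) (nat_lit 172) (nat_lit 5) (nat_lit 460) (nat_lit 391) (nat_lit 289))))))))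
noncomputable def xc132 : XT := (XT.nd (nat_lit 2106) (nat_lit 3192) (nat_lit 0) (XT.nd (nat_lit 1014) (nat_lit 2584) (nat_lit 0) (XT.nd (nat_lit 468) (nat_lit 1444) (nat_lit 0) (XT.nd (nat_lit 234) (nat_lit 912) (nat_lit 0) (XT.nd (nat_lit 78) (nat_lit 608) (nat_lit 0) (XT.lf (nat_lit 0) (nat_lit 5464220507) (nat_lit 456) (nat_lit 3132455109) (nat_lit 532) (nat_lit 3326800854) (nat_lit 165) (nat_lit 5) (nat_lit 171) (nat_lit 5) (nat_lit 172) (nat_lit 5) (nat_lit 461) (nat_lit 391) (nat_lit 288)) (XT.nd (nat_lit 78) (nat_lit 608) (nat_lit 0) (XT.lf (nat_lit 0) (nat_lit 11049506832) (nat_lit 532) (nat_lit 319456346) (nat_lit 76) (nat_lit 698286973) (nat_lit 165) (nat_lit 5) (nat_lit 172) (nat_lit 5) (nat_lit 166) (nat_lit 5) (nat_lit 462) (nat_lit 391) (nat_lit 287)) (XT.lf (nat_lit 0) (nat_lit 1360892360) (nat_lit 608) (nat_lit 6245857885) (nat_lit 76) (nat_lit 4606171408) (nat_lit 157) (nat_lit 5) (nat_lit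 165) (nat_lit 5) (nat_lit 158) (nat_lit 5) (nat_lit 463) (nat_lit 391) (nat_lit 286)))) (XT.nd (nat_lit 78) (nat_lit 912) (nat_lit 0) (XT.lf (nat_lit 0) (nat_lit 3756854819) (nat_lit 608) (nat_lit 9253180) (nat_lit 76) (nat_lit 8595610914) (nat_lit 157) (nat_lit 5) (nat_lit 165) (nat_lit 5) (nat_lit 158) (nat_lit 5) (nat_lit 464) (nat_lit 391) (nat_lit 285)) (XT.nd (nat_lit 78) (nat_lit 456) (nat_lit 0) (XT.lf (nat_lit 0) (nat_lit 6225167622) (nat_lit 532) (nat_lit 6102281003) (nat_lit 76) (nat_lit 185569094) (nat_lit 151) (nat_lit 5) (nat_lit 158) (nat_lit 5) (nat_lit 152) (nat_lit 5) (nat_lit 465) (nat_lit 391) (nat_lit 284)) (XT.lf (nat_lit 0) (nat_lit 245815769) (nat_lit 456) (nat_lit 8505377262) (nat_lit 532) (nat_lit 3915996485) (nat_lit 145) (nat_lit 5) (nat_lit 151) (nat_lit 5) (nat_lit 152) (nat_lit 5) (nat_lit 466) (nat_lit 391) (nat_lit 283))))) (XT.nd (nat_lit 234) (nat_lit 912) (nat_lit 0)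 (XT.nd (nat_lit 78) (nat_lit 532) (nat_lit 0) (XT.lf (nat_lit 0) (nat_lit 6779375673) (nat_lit 456) (nat_lit 4571260204) (nat_lit 532) (nat_lit 1473364605) (nat_lit 145) (nat_lit 5) (nat_lit 151) (nat_lit 5) (nat_lit 152) (nat_lit 5) (nat_lit 467) (nat_lit 391) (nat_lit 282)) (XT.nd (nat_lit 78) (nat_lit 0) (nat_lit 0) (XT.lf (nat_lit 0) (nat_lit 434758669) (nat_lit 456) (nat_lit 555002106) (nat_lit 532) (nat_lit 11994367950) (nat_lit 138) (nat_lit 5) (nat_lit 144) (nat_lit 5) (nat_lit 145) (nat_lit 5) (nat_lit 468) (nat_lit 391) (nat_lit 281)) (XT.lf (nat_lit 0) (nat_lit 3528589822) (nat_lit 532) (nat_lit 6078161823) (nat_lit 76) (nat_lit 3539602601) (nat_lit 138) (nat_lit 5) (nat_lit 145) (nat_lit 5) (nat_lit 139) (nat_lit 5) (nat_lit 469) (nat_lit 391) (nat_lit 280)))) (XT.nd (nat_lit 156) (nat_lit 456) (nat_lit 0) (XT.nd (nat_lit 78) (nat_lit 0) (nat_lit 0) (XT.lf (nat_lit 0) (nat_lit 501688987) (nat_lit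 456) (nat_lit 5606111364) (nat_lit 532) (nat_lit 7204244457) (nat_lit 132) (nat_lit 5) (nat_lit 138) (nat_lit 5) (nat_lit 139) (nat_lit 5) (nat_lit 470) (nat_lit 391) (nat_lit 279)) (XT.lf (nat_lit 0) (nat_lit 7271997905) (nat_lit 456) (nat_lit 1490243932) (nat_lit 532) (nat_lit 4718346789) (nat_lit 132) (nat_lit 5) (nat_lit 138) (nat_lit 5) (nat_lit 139) (nat_lit 5) (nat_lit 471) (nat_lit 391) (nat_lit 278))) (XT.nd (nat_lit 78) (nat_lit 76) (nat_lit 0) (XT.lf (nat_lit 0) (nat_lit 490687195) (nat_lit 380) (nat_lit 10983007085) (nat_lit 456) (nat_lit 2178742739) (nat_lit 127) (nat_lit 5) (nat_lit 132) (nat_lit 5) (nat_lit 133) (nat_lit 5) (nat_lit 472) (nat_lit 391) (nat_lit 277)) (XT.lf (nat_lit 0) (nat_lit 441274398) (nat_lit 456) (nat_lit 6455054340) (nat_lit 76) (nat_lit 6930651455) (nat_lit 126) (nat_lit 5) (nat_lit 132) (nat_lit 5) (nat_lit 127) (nat_lit 5) (nat_lit 473) (nat_lit 391) (nat_lit 276))))))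 (XT.nd (nat_lit 546) (nat_lit 1368) (nat_lit 0) (XT.nd (nat_lit 234) (nat_lit 456) (nat_lit 0) (XT.nd (nat_lit 78) (nat_lit 380) (nat_lit 0) (XT.lf (nat_lit 0) (nat_lit 352978448) (nat_lit 380) (nat_lit 2717400207) (nat_lit 456) (nat_lit 10934641780) (nat_lit 121) (nat_lit 5) (nat_lit 126) (nat_lit 5) (nat_lit 127) (nat_lit 5) (nat_lit 474) (nat_lit 391) (nat_lit 275)) (XT.nd (nat_lit 78) (nat_lit 380) (nat_lit 0) (XT.lf (nat_lit 0) (nat_lit 5789373429) (nat_lit 456) (nat_lit 6834542247) (nat_lit 76) (nat_lit 1561970851) (nat_lit 121) (nat_lit 5) (nat_lit 127) (nat_lit 5) (nat_lit 122) (nat_lit 5) (nat_lit 475) (nat_lit 391) (nat_lit 274)) (XT.lf (nat_lit 0) (nat_lit 79669846) (nat_lit 380) (nat_lit 8485584582) (nat_lit 456) (nat_lit 5805076382) (nat_lit 116) (nat_lit 5) (nat_lit 121) (nat_lit 5) (nat_lit 122) (nat_lit 5) (nat_lit 476) (nat_lit 391) (nat_lit 273)))) (XT.nd (nat_lit 156) (nat_lit 456)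 (nat_lit 0) (XT.nd (nat_lit 78) (nat_lit 0) (nat_lit 0) (XT.lf (nat_lit 0) (nat_lit 7202272957) (nat_lit 380) (nat_lit 4224404035) (nat_lit 456) (nat_lit 3131197286) (nat_lit 116) (nat_lit 5) (nat_lit 121) (nat_lit 5) (nat_lit 122) (nat_lit 5) (nat_lit 477) (nat_lit 391) (nat_lit 272)) (XT.lf (nat_lit 0) (nat_lit 14330548625) (nat_lit 456) (nat_lit 305006439) (nat_lit 76) (nat_lit 113919706) (nat_lit 116) (nat_lit 5) (nat_lit 122) (nat_lit 5) (nat_lit 117) (nat_lit 5) (nat_lit 478) (nat_lit 391) (nat_lit 271))) (XT.nd (nat_lit 78) (nat_lit 0) (nat_lit 0) (XT.lf (nat_lit 0) (nat_lit 2374861401) (nat_lit 456) (nat_lit 8031842948) (nat_lit 76) (nat_lit 4536747036) (nat_lit 110) (nat_lit 5) (nat_lit 116) (nat_lit 5) (nat_lit 111) (nat_lit 5) (nat_lit 479) (nat_lit 391) (nat_lit 270)) (XT.lf (nat_lit 0) (nat_lit 5205762442) (nat_lit 456) (nat_lit 889367479) (nat_lit 76) (nat_lit 9046395244) (nat_lit 110) (nat_lit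 5) (nat_lit 116) (nat_lit 5) (nat_lit 111) (nat_lit 5) (nat_lit 480) (nat_lit 391) (nat_lit 269))))) (XT.nd (nat_lit 234) (nat_lit 684) (nat_lit 0) (XT.nd (nat_lit 78) (nat_lit 380) (nat_lit 0) (XT.lf (nat_lit 0) (nat_lit 6459098127) (nat_lit 304) (nat_lit 1661200138) (nat_lit 380) (nat_lit 7222731583) (nat_lit 106) (nat_lit 5) (nat_lit 110) (nat_lit 5) (nat_lit 111) (nat_lit 5) (nat_lit 481) (nat_lit 391) (nat_lit 268)) (XT.nd (nat_lit 78) (nat_lit 380) (nat_lit 0) (XT.lf (nat_lit 0) (nat_lit 11102900777) (nat_lit 380) (nat_lit 1622165617) (nat_lit 76) (nat_lit 2823312281) (nat_lit 106) (nat_lit 5) (nat_lit 111) (nat_lit 5) (nat_lit 107) (nat_lit 5) (nat_lit 482) (nat_lit 391) (nat_lit 267)) (XT.lf (nat_lit 0) (nat_lit 5829017082) (nat_lit 380) (nat_lit 8350465979) (nat_lit 456) (nat_lit 1577674247) (nat_lit 101) (nat_lit 5) (nat_lit 106) (nat_lit 5) (nat_lit 107) (nat_lit 5) (nat_lit 483) (nat_lit 391)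 (nat_lit 266)))) (XT.nd (nat_lit 156) (nat_lit 304) (nat_lit 0) (XT.nd (nat_lit 78) (nat_lit 304) (nat_lit 0) (XT.lf (nat_lit 0) (nat_lit 1326294463) (nat_lit 456) (nat_lit 2548829844) (nat_lit 76) (nat_lit 12094891622) (nat_lit 100) (nat_lit 5) (nat_lit 106) (nat_lit 5) (nat_lit 101) (nat_lit 5) (nat_lit 484) (nat_lit 391) (nat_lit 265)) (XT.lf (nat_lit 0) (nat_lit 4290308303) (nat_lit 380) (nat_lit 11178835396) (nat_lit 76) (nat_lit 717326480) (nat_lit 96) (nat_lit 5) (nat_lit 101) (nat_lit 5) (nat_lit 97) (nat_lit 5) (nat_lit 485) (nat_lit 391) (nat_lit 264))) (XT.nd (nat_lit 78) (nat_lit 304) (nat_lit 0) (XT.lf (nat_lit 0) (nat_lit 7342390196) (nat_lit 380) (nat_lit 3703926767) (nat_lit 76) (nat_lit 5360369464) (nat_lit 96) (nat_lit 5) (nat_lit 101) (nat_lit 5) (nat_lit 97) (nat_lit 5) (nat_lit 486) (nat_lit 391) (nat_lit 263)) (XT.lf (nat_lit 0) (nat_lit 3951701676) (nat_lit 304) (nat_lit 6515652884)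 (nat_lit 380) (nat_lit 6163724122) (nat_lit 92) (nat_lit 5) (nat_lit 96) (nat_lit 5) (nat_lit 97) (nat_lit 5) (nat_lit 487) (nat_lit 391) (nat_lit 262))))))) (XT.nd (nat_lit 1014) (nat_lit 1368) (nat_lit 0) (XT.nd (nat_lit 468) (nat_lit 1140) (nat_lit 0) (XT.nd (nat_lit 234) (nat_lit 304) (nat_lit 0) (XT.nd (nat_lit 78) (nat_lit 380) (nat_lit 0) (XT.lf (nat_lit 0) (nat_lit 11790180317) (nat_lit 304) (nat_lit 1875814959) (nat_lit 380) (nat_lit 3193748297) (nat_lit 92) (nat_lit 5) (nat_lit 96) (nat_lit 5) (nat_lit 97) (nat_lit 5) (nat_lit 488) (nat_lit 391) (nat_lit 261)) (XT.nd (nat_lit 78) (nat_lit 76) (nat_lit 0) (XT.lf (nat_lit 0) (nat_lit 2688861465) (nat_lit 304) (nat_lit 14262300316) (nat_lit 380) (nat_lit 141377089) (nat_lit 88) (nat_lit 5) (nat_lit 92) (nat_lit 5) (nat_lit 93) (nat_lit 5) (nat_lit 489) (nat_lit 391) (nat_lit 260)) (XT.lf (nat_lit 0) (nat_lit 2966313490) (nat_lit 380) (nat_lit 6710434537)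 (nat_lit 76) (nat_lit 7652198954) (nat_lit 87) (nat_lit 5) (nat_lit 92) (nat_lit 5) (nat_lit 88) (nat_lit 5) (nat_lit 490) (nat_lit 391) (nat_lit 259)))) (XT.nd (nat_lit 78) (nat_lit 0) (nat_lit 0) (XT.lf (nat_lit 0) (nat_lit 1130609750) (nat_lit 304) (nat_lit 4997844059) (nat_lit 380) (nat_lit 11441734672) (nat_lit 83) (nat_lit 5) (nat_lit 87) (nat_lit 5) (nat_lit 88) (nat_lit 5) (nat_lit 491) (nat_lit 391) (nat_lit 258)) (XT.nd (nat_lit 78) (nat_lit 0) (nat_lit 0) (XT.lf (nat_lit 0) (nat_lit 9199612599) (nat_lit 304) (nat_lit 186230613) (nat_lit 380) (nat_lit 8429779021) (nat_lit 83) (nat_lit 5) (nat_lit 87) (nat_lit 5) (nat_lit 88) (nat_lit 5) (nat_lit 492) (nat_lit 391) (nat_lit 257)) (XT.lf (nat_lit 0) (nat_lit 12726224086) (nat_lit 380) (nat_lit 686279830) (nat_lit 76) (nat_lit 4653111269) (nat_lit 83) (nat_lit 5) (nat_lit 88) (nat_lit 5) (nat_lit 84) (nat_lit 5) (nat_lit 493) (nat_lit 391) (nat_lit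 256))))) (XT.nd (nat_lit 234) (nat_lit 532) (nat_lit 0) (XT.nd (nat_lit 78) (nat_lit 380) (nat_lit 0) (XT.lf (nat_lit 0) (nat_lit 7479638631) (nat_lit 228) (nat_lit 8691009079) (nat_lit 304) (nat_lit 2149222837) (nat_lit 80) (nat_lit 5) (nat_lit 83) (nat_lit 5) (nat_lit 84) (nat_lit 5) (nat_lit 494) (nat_lit 391) (nat_lit 255)) (XT.nd (nat_lit 78) (nat_lit 304) (nat_lit 0) (XT.lf (nat_lit 0) (nat_lit 1082367264) (nat_lit 304) (nat_lit 2787460129) (nat_lit 76) (nat_lit 14709404991) (nat_lit 79) (nat_lit 5) (nat_lit 83) (nat_lit 5) (nat_lit 80) (nat_lit 5) (nat_lit 495) (nat_lit 391) (nat_lit 254)) (XT.lf (nat_lit 0) (nat_lit 4380125738) (nat_lit 380) (nat_lit 13385259356) (nat_lit 76) (nat_lit 1077512778) (nat_lit 75) (nat_lit 5) (nat_lit 80) (nat_lit 5) (nat_lit 76) (nat_lit 5) (nat_lit 496) (nat_lit 391) (nat_lit 253)))) (XT.nd (nat_lit 156) (nat_lit 304) (nat_lit 0) (XT.nd (nat_lit 78) (nat_lit 228)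 (nat_lit 0) (XT.lf (nat_lit 0) (nat_lit 7776089412) (nat_lit 380) (nat_lit 5250810145) (nat_lit 76) (nat_lit 6084298814) (nat_lit 75) (nat_lit 5) (nat_lit 80) (nat_lit 5) (nat_lit 76) (nat_lit 5) (nat_lit 497) (nat_lit 391) (nat_lit 252)) (XT.lf (nat_lit 0) (nat_lit 3067917673) (nat_lit 228) (nat_lit 8180005831) (nat_lit 304) (nat_lit 8136788923) (nat_lit 72) (nat_lit 5) (nat_lit 75) (nat_lit 5) (nat_lit 76) (nat_lit 5) (nat_lit 498) (nat_lit 391) (nat_lit 251))) (XT.nd (nat_lit 78) (nat_lit 304) (nat_lit 0) (XT.lf (nat_lit 0) (nat_lit 11605672169) (nat_lit 228) (nat_lit 3206904390) (nat_lit 304) (nat_lit 4850659000) (nat_lit 72) (nat_lit 5) (nat_lit 75) (nat_lit 5) (nat_lit 76) (nat_lit 5) (nat_lit 499) (nat_lit 391) (nat_lit 250)) (XT.lf (nat_lit 0) (nat_lit 340852799) (nat_lit 304) (nat_lit 18110332556) (nat_lit 380) (nat_lit 1496096859) (nat_lit 68) (nat_lit 5) (nat_lit 72) (nat_lit 5) (nat_lit 73)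 (nat_lit 5) (nat_lit 500) (nat_lit 391) (nat_lit 249)))))) (XT.nd (nat_lit 546) (nat_lit 760) (nat_lit 0) (XT.nd (nat_lit 234) (nat_lit 304) (nat_lit 0) (XT.nd (nat_lit 78) (nat_lit 228) (nat_lit 0) (XT.lf (nat_lit 0) (nat_lit 1964333067) (nat_lit 380) (nat_lit 11271963524) (nat_lit 76) (nat_lit 6999188631) (nat_lit 67) (nat_lit 5) (nat_lit 72) (nat_lit 5) (nat_lit 68) (nat_lit 5) (nat_lit 501) (nat_lit 391) (nat_lit 248)) (XT.nd (nat_lit 78) (nat_lit 228) (nat_lit 0) (XT.lf (nat_lit 0) (nat_lit 5462549948) (nat_lit 380) (nat_lit 2798752499) (nat_lit 76) (nat_lit 12268185788) (nat_lit 67) (nat_lit 5) (nat_lit 72) (nat_lit 5) (nat_lit 68) (nat_lit 5) (nat_lit 502) (nat_lit 391) (nat_lit 247)) (XT.lf (nat_lit 0) (nat_lit 5903667804) (nat_lit 228) (nat_lit 3154209935) (nat_lit 304) (nat_lit 11770956471) (nat_lit 64) (nat_lit 5) (nat_lit 67) (nat_lit 5) (nat_lit 68) (nat_lit 5) (nat_lit 503) (nat_lit 391)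 (nat_lit 246)))) (XT.nd (nat_lit 156) (nat_lit 76) (nat_lit 0) (XT.nd (nat_lit 78) (nat_lit 228) (nat_lit 0) (XT.lf (nat_lit 0) (nat_lit 12746239313) (nat_lit 304) (nat_lit 6346935548) (nat_lit 76) (nat_lit 2040575418) (nat_lit 64) (nat_lit 5) (nat_lit 68) (nat_lit 5) (nat_lit 65) (nat_lit 5) (nat_lit 504) (nat_lit 391) (nat_lit 245)) (XT.lf (nat_lit 0) (nat_lit 2395991602) (nat_lit 228) (nat_lit 14137918912) (nat_lit 304) (nat_lit 4910348916) (nat_lit 61) (nat_lit 5) (nat_lit 64) (nat_lit 5) (nat_lit 65) (nat_lit 5) (nat_lit 505) (nat_lit 391) (nat_lit 244))) (XT.nd (nat_lit 78) (nat_lit 76) (nat_lit 0) (XT.lf (nat_lit 0) (nat_lit 11382522794) (nat_lit 228) (nat_lit 9046602371) (nat_lit 304) (nat_lit 1331223294) (nat_lit 61) (nat_lit 5) (nat_lit 64) (nat_lit 5) (nat_lit 65) (nat_lit 5) (nat_lit 506) (nat_lit 391) (nat_lit 243)) (XT.lf (nat_lit 0) (nat_lit 2278399470) (nat_lit 304) (nat_lit 1566131194)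 (nat_lit 76) (nat_lit 18238145996) (nat_lit 60) (nat_lit 5) (nat_lit 64) (nat_lit 5) (nat_lit 61) (nat_lit 5) (nat_lit 507) (nat_lit 391) (nat_lit 242))))) (XT.nd (nat_lit 234) (nat_lit 304) (nat_lit 0) (XT.nd (nat_lit 78) (nat_lit 228) (nat_lit 0) (XT.lf (nat_lit 0) (nat_lit 5990439070) (nat_lit 304) (nat_lit 14925834150) (nat_lit 76) (nat_lit 1494046407) (nat_lit 57) (nat_lit 5) (nat_lit 61) (nat_lit 5) (nat_lit 58) (nat_lit 5) (nat_lit 508) (nat_lit 391) (nat_lit 241)) (XT.nd (nat_lit 78) (nat_lit 228) (nat_lit 0) (XT.lf (nat_lit 0) (nat_lit 9802359351) (nat_lit 304) (nat_lit 6049314320) (nat_lit 76) (nat_lit 6892334065) (nat_lit 57) (nat_lit 5) (nat_lit 61) (nat_lit 5) (nat_lit 58) (nat_lit 5) (nat_lit 509) (nat_lit 391) (nat_lit 240)) (XT.lf (nat_lit 0) (nat_lit 3027955148) (nat_lit 228) (nat_lit 10672026554) (nat_lit 304) (nat_lit 9384203609) (nat_lit 54) (nat_lit 5) (nat_lit 57) (nat_lit 5) (nat_lit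 58) (nat_lit 5) (nat_lit 510) (nat_lit 391) (nat_lit 239)))) (XT.nd (nat_lit 156) (nat_lit 304) (nat_lit 0) (XT.nd (nat_lit 78) (nat_lit 0) (nat_lit 0) (XT.lf (nat_lit 0) (nat_lit 12352385624) (nat_lit 228) (nat_lit 5353662671) (nat_lit 304) (nat_lit 5724513189) (nat_lit 54) (nat_lit 5) (nat_lit 57) (nat_lit 5) (nat_lit 58) (nat_lit 5) (nat_lit 511) (nat_lit 391) (nat_lit 238)) (XT.lf (nat_lit 0) (nat_lit 21782753452) (nat_lit 304) (nat_lit 1937247942) (nat_lit 76) (nat_lit 64058227) (nat_lit 54) (nat_lit 5) (nat_lit 58) (nat_lit 5) (nat_lit 55) (nat_lit 5) (nat_lit 512) (nat_lit 391) (nat_lit 237))) (XT.nd (nat_lit 78) (nat_lit 0) (nat_lit 0) (XT.lf (nat_lit 0) (nat_lit 1847253514) (nat_lit 304) (nat_lit 16722690118) (nat_lit 76) (nat_lit 5572966462) (nat_lit 50) (nat_lit 5) (nat_lit 54) (nat_lit 5) (nat_lit 51) (nat_lit 5) (nat_lit 513) (nat_lit 391) (nat_lit 236)) (XT.lf (nat_lit 0) (nat_lit 5749368829)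 (nat_lit 304) (nat_lit 7546857230) (nat_lit 76) (nat_lit 11212383816) (nat_lit 50) (nat_lit 5) (nat_lit 54) (nat_lit 5) (nat_lit 51) (nat_lit 5) (nat_lit 514) (nat_lit 391) (nat_lit 235))))))))
noncomputable def xc133 : XT := (XT.nd (nat_lit 51090) (nat_lit 0) (nat_lit 18696) (XT.nd (nat_lit 49998) (nat_lit 0) (nat_lit 34732) (XT.nd (nat_lit 468) (nat_lit 380) (nat_lit 0) (XT.nd (nat_lit 234) (nat_lit 228) (nat_lit 0) (XT.nd (nat_lit 78) (nat_lit 0) (nat_lit 0) (XT.lf (nat_lit 0) (nat_lit 1820747195) (nat_lit 228) (nat_lit 7911062351) (nat_lit 304) (nat_lit 15149772865) (nat_lit 47) (nat_lit 5) (nat_lit 50) (nat_lit 5) (nat_lit 51) (nat_lit 5) (nat_lit 515) (nat_lit 391) (nat_lit 234)) (XT.nd (nat_lit 78) (nat_lit 0) (nat_lit 0) (XT.lf (nat_lit 0) (nat_lit 11462481591) (nat_lit 228) (nat_lit 2372608719) (nat_lit 304) (nat_lit 11426104597) (nat_lit 47) (nat_lit 5) (nat_lit 50) (nat_lit 5) (nat_lit 51)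 (nat_lit 5) (nat_lit 516) (nat_lit 391) (nat_lit 233)) (XT.lf (nat_lit 0) (nat_lit 18032405192) (nat_lit 304) (nat_lit 4387991286) (nat_lit 76) (nat_lit 3227768055) (nat_lit 47) (nat_lit 5) (nat_lit 51) (nat_lit 5) (nat_lit 48) (nat_lit 5) (nat_lit 517) (nat_lit 391) (nat_lit 232)))) (XT.nd (nat_lit 78) (nat_lit 76) (nat_lit 0) (XT.lf (nat_lit 0) (nat_lit 5249007200) (nat_lit 152) (nat_lit 17105328855) (nat_lit 228) (nat_lit 3687728269) (nat_lit 45) (nat_lit 5) (nat_lit 47) (nat_lit 5) (nat_lit 48) (nat_lit 5) (nat_lit 518) (nat_lit 391) (nat_lit 231)) (XT.nd (nat_lit 78) (nat_lit 0) (nat_lit 0) (XT.lf (nat_lit 0) (nat_lit 335217012) (nat_lit 228) (nat_lit 11322385339) (nat_lit 76) (nat_lit 14785791649) (nat_lit 44) (nat_lit 5) (nat_lit 47) (nat_lit 5) (nat_lit 45) (nat_lit 5) (nat_lit 519) (nat_lit 391) (nat_lit 230)) (XT.lf (nat_lit 0) (nat_lit 4380362012) (nat_lit 228) (nat_lit 1701519119) (nat_lit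 76) (nat_lit 20770563157) (nat_lit 44) (nat_lit 5) (nat_lit 47) (nat_lit 5) (nat_lit 45) (nat_lit 5) (nat_lit 520) (nat_lit 391) (nat_lit 229))))) (XT.nd (nat_lit 234) (nat_lit 0) (nat_lit 0) (XT.nd (nat_lit 78) (nat_lit 152) (nat_lit 0) (XT.lf (nat_lit 0) (nat_lit 8204865893) (nat_lit 228) (nat_lit 346063818) (nat_lit 304) (nat_lit 18717859322) (nat_lit 41) (nat_lit 5) (nat_lit 44) (nat_lit 5) (nat_lit 45) (nat_lit 5) (nat_lit 521) (nat_lit 391) (nat_lit 228)) (XT.nd (nat_lit 78) (nat_lit 152) (nat_lit 0) (XT.lf (nat_lit 0) (nat_lit 12843430288) (nat_lit 304) (nat_lit 9411154828) (nat_lit 76) (nat_lit 5438108901) (nat_lit 41) (nat_lit 5) (nat_lit 45) (nat_lit 5) (nat_lit 42) (nat_lit 5) (nat_lit 522) (nat_lit 391) (nat_lit 227)) (XT.lf (nat_lit 0) (nat_lit 423667457) (nat_lit 152) (nat_lit 16794615911) (nat_lit 228) (nat_lit 10906867384) (nat_lit 39) (nat_lit 5) (nat_lit 41) (nat_lit 5) (nat_lit 42)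 (nat_lit 5) (nat_lit 523) (nat_lit 391) (nat_lit 226)))) (XT.nd (nat_lit 49140) (nat_lit 0) (nat_lit 38304) (XT.nd (nat_lit 49062) (nat_lit 0) (nat_lit 38304) (XT.lf (nat_lit 0) (nat_lit 10568584670) (nat_lit 152) (nat_lit 11166738027) (nat_lit 228) (nat_lit 6829843766) (nat_lit 39) (nat_lit 5) (nat_lit 41) (nat_lit 5) (nat_lit 42) (nat_lit 5) (nat_lit 524) (nat_lit 391) (nat_lit 225)) (XT.lf (nat_lit 0) (nat_lit 147745315) (nat_lit 836) (nat_lit 1607705766) (nat_lit 836) (nat_lit 1607705766) (nat_lit 543) (nat_lit 3) (nat_lit 554) (nat_lit 3) (nat_lit 554) (nat_lit 5) (nat_lit 392) (nat_lit 392) (nat_lit 356))) (XT.nd (nat_lit 78) (nat_lit 0) (nat_lit 0) (XT.lf (nat_lit 0) (nat_lit 2301643473) (nat_lit 836) (nat_lit 172171755) (nat_lit 836) (nat_lit 4276720682) (nat_lit 543) (nat_lit 3) (nat_lit 554) (nat_lit 3) (nat_lit 554) (nat_lit 5) (nat_lit 393) (nat_lit 392) (nat_lit 355)) (XT.lf (nat_lit 76)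 (nat_lit 2943703223) (nat_lit 0) (nat_lit 1370784019) (nat_lit 836) (nat_lit 2461502056) (nat_lit 544) (nat_lit 5) (nat_lit 543) (nat_lit 3) (nat_lit 554) (nat_lit 5) (nat_lit 394) (nat_lit 392) (nat_lit 354)))))) (XT.nd (nat_lit 546) (nat_lit 1900) (nat_lit 0) (XT.nd (nat_lit 234) (nat_lit 912) (nat_lit 0) (XT.nd (nat_lit 78) (nat_lit 760) (nat_lit 0) (XT.lf (nat_lit 76) (nat_lit 6097569302) (nat_lit 0) (nat_lit 219486537) (nat_lit 836) (nat_lit 485983112) (nat_lit 544) (nat_lit 5) (nat_lit 543) (nat_lit 3) (nat_lit 554) (nat_lit 5) (nat_lit 395) (nat_lit 392) (nat_lit 353)) (XT.nd (nat_lit 78) (nat_lit 0) (nat_lit 0) (XT.lf (nat_lit 0) (nat_lit 1480536894) (nat_lit 836) (nat_lit 4358147401) (nat_lit 912) (nat_lit 992389445) (nat_lit 533) (nat_lit 5) (nat_lit 544) (nat_lit 5) (nat_lit 545) (nat_lit 5) (nat_lit 396) (nat_lit 392) (nat_lit 352)) (XT.lf (nat_lit 0) (nat_lit 3436002509) (nat_lit 836) (nat_lit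 1167767937) (nat_lit 912) (nat_lit 2256784223) (nat_lit 533) (nat_lit 5) (nat_lit 544) (nat_lit 5) (nat_lit 545) (nat_lit 5) (nat_lit 397) (nat_lit 392) (nat_lit 351)))) (XT.nd (nat_lit 156) (nat_lit 0) (nat_lit 0) (XT.nd (nat_lit 78) (nat_lit 912) (nat_lit 0) (XT.lf (nat_lit 76) (nat_lit 2086387230) (nat_lit 0) (nat_lit 3308616277) (nat_lit 912) (nat_lit 1496403912) (nat_lit 534) (nat_lit 5) (nat_lit 533) (nat_lit 5) (nat_lit 545) (nat_lit 5) (nat_lit 398) (nat_lit 392) (nat_lit 350)) (XT.lf (nat_lit 0) (nat_lit 423305155) (nat_lit 912) (nat_lit 1532301507) (nat_lit 988) (nat_lit 4968094151) (nat_lit 521) (nat_lit 5) (nat_lit 533) (nat_lit 5) (nat_lit 534) (nat_lit 5) (nat_lit 399) (nat_lit 392) (nat_lit 349))) (XT.nd (nat_lit 78) (nat_lit 0) (nat_lit 76) (XT.lf (nat_lit 76) (nat_lit 1792082257) (nat_lit 0) (nat_lit 533176537) (nat_lit 988) (nat_lit 4631972358) (nat_lit 522) (nat_lit 5) (nat_lit 521)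 (nat_lit 5) (nat_lit 534) (nat_lit 5) (nat_lit 400) (nat_lit 392) (nat_lit 348)) (XT.lf (nat_lit 0) (nat_lit 4234682177) (nat_lit 912) (nat_lit 1821865149) (nat_lit 988) (nat_lit 935561497) (nat_lit 522) (nat_lit 5) (nat_lit 534) (nat_lit 5) (nat_lit 535) (nat_lit 5) (nat_lit 401) (nat_lit 392) (nat_lit 347))))) (XT.nd (nat_lit 234) (nat_lit 988) (nat_lit 0) (XT.nd (nat_lit 78) (nat_lit 988) (nat_lit 0) (XT.lf (nat_lit 76) (nat_lit 1577663542) (nat_lit 0) (nat_lit 4572445569) (nat_lit 988) (nat_lit 878282694) (nat_lit 523) (nat_lit 5) (nat_lit 522) (nat_lit 5) (nat_lit 535) (nat_lit 5) (nat_lit 402) (nat_lit 392) (nat_lit 346)) (XT.nd (nat_lit 78) (nat_lit 0) (nat_lit 0) (XT.lf (nat_lit 0) (nat_lit 991532679) (nat_lit 988) (nat_lit 2030366380) (nat_lit 1064) (nat_lit 4044093955) (nat_lit 509) (nat_lit 5) (nat_lit 522) (nat_lit 5) (nat_lit 523) (nat_lit 5) (nat_lit 403) (nat_lit 392) (nat_lit 345)) (XT.lf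 (nat_lit 76) (nat_lit 1443810483) (nat_lit 0) (nat_lit 1407854218) (nat_lit 1064) (nat_lit 4253332190) (nat_lit 510) (nat_lit 5) (nat_lit 509) (nat_lit 5) (nat_lit 523) (nat_lit 5) (nat_lit 404) (nat_lit 392) (nat_lit 344)))) (XT.nd (nat_lit 156) (nat_lit 1064) (nat_lit 0) (XT.nd (nat_lit 78) (nat_lit 0) (nat_lit 0) (XT.lf (nat_lit 0) (nat_lit 4720362919) (nat_lit 988) (nat_lit 2159729495) (nat_lit 1064) (nat_lit 265320338) (nat_lit 510) (nat_lit 5) (nat_lit 523) (nat_lit 5) (nat_lit 524) (nat_lit 5) (nat_lit 405) (nat_lit 392) (nat_lit 343)) (XT.lf (nat_lit 76) (nat_lit 1392682975) (nat_lit 0) (nat_lit 5209078849) (nat_lit 1064) (nat_lit 585426594) (nat_lit 511) (nat_lit 5) (nat_lit 510) (nat_lit 5) (nat_lit 524) (nat_lit 5) (nat_lit 406) (nat_lit 392) (nat_lit 342))) (XT.nd (nat_lit 78) (nat_lit 0) (nat_lit 0) (XT.lf (nat_lit 0) (nat_lit 1245933856) (nat_lit 1064) (nat_lit 2221022690) (nat_lit 1140)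 (nat_lit 3763293652) (nat_lit 496) (nat_lit 5) (nat_lit 510) (nat_lit 5) (nat_lit 511) (nat_lit 5) (nat_lit 407) (nat_lit 392) (nat_lit 341)) (XT.lf (nat_lit 76) (nat_lit 1410657261) (nat_lit 0) (nat_lit 1662716542) (nat_lit 1140) (nat_lit 4201430868) (nat_lit 497) (nat_lit 5) (nat_lit 496) (nat_lit 5) (nat_lit 511) (nat_lit 5) (nat_lit 408) (nat_lit 392) (nat_lit 340))))))) (XT.nd (nat_lit 1092) (nat_lit 8436) (nat_lit 0) (XT.nd (nat_lit 546) (nat_lit 5396) (nat_lit 0) (XT.nd (nat_lit 234) (nat_lit 1140) (nat_lit 0) (XT.nd (nat_lit 78) (nat_lit 1140) (nat_lit 0) (XT.lf (nat_lit 0) (nat_lit 4912372472) (nat_lit 1064) (nat_lit 2204805664) (nat_lit 1140) (nat_lit 203625498) (nat_lit 497) (nat_lit 5) (nat_lit 511) (nat_lit 5) (nat_lit 512) (nat_lit 5) (nat_lit 409) (nat_lit 392) (nat_lit 339)) (XT.nd (nat_lit 78) (nat_lit 1140) (nat_lit 0) (XT.lf (nat_lit 76) (nat_lit 1508377503) (nat_lit 0) (nat_lit 5260238990)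 (nat_lit 1140) (nat_lit 599549328) (nat_lit 498) (nat_lit 5) (nat_lit 497) (nat_lit 5) (nat_lit 512) (nat_lit 5) (nat_lit 410) (nat_lit 392) (nat_lit 338)) (XT.lf (nat_lit 0) (nat_lit 1204024729) (nat_lit 1140) (nat_lit 2127167328) (nat_lit 1216) (nat_lit 4085674978) (nat_lit 482) (nat_lit 5) (nat_lit 497) (nat_lit 5) (nat_lit 498) (nat_lit 5) (nat_lit 411) (nat_lit 392) (nat_lit 337)))) (XT.nd (nat_lit 156) (nat_lit 1140) (nat_lit 0) (XT.nd (nat_lit 78) (nat_lit 0) (nat_lit 76) (XT.lf (nat_lit 76) (nat_lit 1670083733) (nat_lit 0) (nat_lit 1337150822) (nat_lit 1216) (nat_lit 4459846131) (nat_lit 483) (nat_lit 5) (nat_lit 482) (nat_lit 5) (nat_lit 498) (nat_lit 5) (nat_lit 412) (nat_lit 392) (nat_lit 336)) (XT.lf (nat_lit 0) (nat_lit 4826803101) (nat_lit 1140) (nat_lit 1979181468) (nat_lit 76) (nat_lit 712756698) (nat_lit 483) (nat_lit 5) (nat_lit 498) (nat_lit 5) (nat_lit 484) (nat_lit 5) (nat_lit 413)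 (nat_lit 392) (nat_lit 335))) (XT.nd (nat_lit 78) (nat_lit 76) (nat_lit 0) (XT.lf (nat_lit 0) (nat_lit 1902991092) (nat_lit 1140) (nat_lit 4763141218) (nat_lit 1216) (nat_lit 905682960) (nat_lit 468) (nat_lit 5) (nat_lit 483) (nat_lit 5) (nat_lit 484) (nat_lit 5) (nat_lit 414) (nat_lit 392) (nat_lit 334)) (XT.lf (nat_lit 0) (nat_lit 880075546) (nat_lit 1216) (nat_lit 1770549067) (nat_lit 76) (nat_lit 4975736992) (nat_lit 467) (nat_lit 5) (nat_lit 483) (nat_lit 5) (nat_lit 468) (nat_lit 5) (nat_lit 415) (nat_lit 392) (nat_lit 333))))) (XT.nd (nat_lit 234) (nat_lit 2888) (nat_lit 0) (XT.nd (nat_lit 78) (nat_lit 1292) (nat_lit 0) (XT.lf (nat_lit 0) (nat_lit 2200651464) (nat_lit 1216) (nat_lit 466233126) (nat_lit 1292) (nat_lit 5015490148) (nat_lit 451) (nat_lit 5) (nat_lit 467) (nat_lit 5) (nat_lit 468) (nat_lit 5) (nat_lit 416) (nat_lit 392) (nat_lit 332)) (XT.nd (nat_lit 78) (nat_lit 1292) (nat_lit 0)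 (XT.lf (nat_lit 0) (nat_lit 4476589910) (nat_lit 1292) (nat_lit 1504058075) (nat_lit 76) (nat_lit 1759160919) (nat_lit 451) (nat_lit 5) (nat_lit 468) (nat_lit 5) (nat_lit 452) (nat_lit 5) (nat_lit 417) (nat_lit 392) (nat_lit 331)) (XT.lf (nat_lit 0) (nat_lit 2555603647) (nat_lit 1292) (nat_lit 3751037586) (nat_lit 1368) (nat_lit 1492110591) (nat_lit 434) (nat_lit 5) (nat_lit 451) (nat_lit 5) (nat_lit 452) (nat_lit 5) (nat_lit 418) (nat_lit 392) (nat_lit 330)))) (XT.nd (nat_lit 156) (nat_lit 1444) (nat_lit 0) (XT.nd (nat_lit 78) (nat_lit 1368) (nat_lit 0) (XT.lf (nat_lit 0) (nat_lit 285170300) (nat_lit 1368) (nat_lit 1172246093) (nat_lit 76) (nat_lit 6401960337) (nat_lit 433) (nat_lit 5) (nat_lit 451) (nat_lit 5) (nat_lit 434) (nat_lit 5) (nat_lit 419) (nat_lit 392) (nat_lit 329)) (XT.lf (nat_lit 0) (nat_lit 2068765321) (nat_lit 1444) (nat_lit 4945788427) (nat_lit 76) (nat_lit 906688795) (nat_lit 415)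 (nat_lit 5) (nat_lit 434) (nat_lit 5) (nat_lit 416) (nat_lit 5) (nat_lit 420) (nat_lit 392) (nat_lit 328))) (XT.nd (nat_lit 78) (nat_lit 1444) (nat_lit 0) (XT.lf (nat_lit 0) (nat_lit 3871550114) (nat_lit 1444) (nat_lit 800232649) (nat_lit 76) (nat_lit 3312932377) (nat_lit 415) (nat_lit 5) (nat_lit 434) (nat_lit 5) (nat_lit 416) (nat_lit 5) (nat_lit 421) (nat_lit 392) (nat_lit 327)) (XT.lf (nat_lit 0) (nat_lit 3445641231) (nat_lit 1444) (nat_lit 2253736076) (nat_lit 1520) (nat_lit 2350339194) (nat_lit 396) (nat_lit 5) (nat_lit 415) (nat_lit 5) (nat_lit 416) (nat_lit 5) (nat_lit 422) (nat_lit 392) (nat_lit 326)))))) (XT.nd (nat_lit 546) (nat_lit 2508) (nat_lit 0) (XT.nd (nat_lit 234) (nat_lit 2736) (nat_lit 0) (XT.nd (nat_lit 78) (nat_lit 3192) (nat_lit 0) (XT.lf (nat_lit 0) (nat_lit 7537672583) (nat_lit 1520) (nat_lit 358378270) (nat_lit 76) (nat_lit 220527086) (nat_lit 396) (nat_lit 5) (nat_lit 416) (nat_lit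 5) (nat_lit 397) (nat_lit 5) (nat_lit 423) (nat_lit 392) (nat_lit 325)) (XT.nd (nat_lit 78) (nat_lit 1596) (nat_lit 0) (XT.lf (nat_lit 0) (nat_lit 1220419222) (nat_lit 1596) (nat_lit 4210919441) (nat_lit 76) (nat_lit 2753143942) (nat_lit 375) (nat_lit 5) (nat_lit 396) (nat_lit 5) (nat_lit 376) (nat_lit 5) (nat_lit 424) (nat_lit 392) (nat_lit 324)) (XT.lf (nat_lit 0) (nat_lit 112880007) (nat_lit 1596) (nat_lit 2906235559) (nat_lit 1672) (nat_lit 5235166603) (nat_lit 354) (nat_lit 5) (nat_lit 375) (nat_lit 5) (nat_lit 376) (nat_lit 5) (nat_lit 425) (nat_lit 392) (nat_lit 323)))) (XT.nd (nat_lit 156) (nat_lit 1064) (nat_lit 0) (XT.nd (nat_lit 78) (nat_lit 1672) (nat_lit 0) (XT.lf (nat_lit 0) (nat_lit 4552365368) (nat_lit 1596) (nat_lit 298100775) (nat_lit 1672) (nat_lit 3475113341) (nat_lit 354) (nat_lit 5) (nat_lit 375) (nat_lit 5) (nat_lit 376) (nat_lit 5) (nat_lit 426) (nat_lit 392) (nat_lit 322)) (XT.lf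 (nat_lit 0) (nat_lit 647491558) (nat_lit 1672) (nat_lit 6059558641) (nat_lit 1748) (nat_lit 1691515088) (nat_lit 332) (nat_lit 5) (nat_lit 354) (nat_lit 5) (nat_lit 355) (nat_lit 5) (nat_lit 427) (nat_lit 392) (nat_lit 321))) (XT.nd (nat_lit 78) (nat_lit 988) (nat_lit 0) (XT.lf (nat_lit 0) (nat_lit 122797650) (nat_lit 1748) (nat_lit 3295976308) (nat_lit 76) (nat_lit 5054319222) (nat_lit 331) (nat_lit 5) (nat_lit 354) (nat_lit 5) (nat_lit 332) (nat_lit 5) (nat_lit 428) (nat_lit 392) (nat_lit 320)) (XT.lf (nat_lit 0) (nat_lit 1225387414) (nat_lit 988) (nat_lit 703195804) (nat_lit 1064) (nat_lit 6620780746) (nat_lit 318) (nat_lit 5) (nat_lit 331) (nat_lit 5) (nat_lit 332) (nat_lit 5) (nat_lit 429) (nat_lit 392) (nat_lit 319))))) (XT.nd (nat_lit 234) (nat_lit 1672) (nat_lit 0) (XT.nd (nat_lit 78) (nat_lit 836) (nat_lit 0) (XT.lf (nat_lit 0) (nat_lit 3776452457) (nat_lit 1064) (nat_lit 2786589801) (nat_lit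 76) (nat_lit 2064030579) (nat_lit 318) (nat_lit 5) (nat_lit 332) (nat_lit 5) (nat_lit 319) (nat_lit 5) (nat_lit 430) (nat_lit 392) (nat_lit 318)) (XT.nd (nat_lit 78) (nat_lit 0) (nat_lit 0) (XT.lf (nat_lit 0) (nat_lit 1833320910) (nat_lit 836) (nat_lit 3815386269) (nat_lit 912) (nat_lit 3057911549) (nat_lit 307) (nat_lit 5) (nat_lit 318) (nat_lit 5) (nat_lit 319) (nat_lit 5) (nat_lit 431) (nat_lit 392) (nat_lit 317)) (XT.lf (nat_lit 0) (nat_lit 6555973267) (nat_lit 836) (nat_lit 992394377) (nat_lit 912) (nat_lit 1239619467) (nat_lit 307) (nat_lit 5) (nat_lit 318) (nat_lit 5) (nat_lit 319) (nat_lit 5) (nat_lit 432) (nat_lit 392) (nat_lit 316)))) (XT.nd (nat_lit 156) (nat_lit 760) (nat_lit 0) (XT.nd (nat_lit 78) (nat_lit 0) (nat_lit 0) (XT.lf (nat_lit 0) (nat_lit 607228915) (nat_lit 912) (nat_lit 6379928883) (nat_lit 76) (nat_lit 1883769655) (nat_lit 295) (nat_lit 5) (nat_lit 307) (nat_lit 5) (nat_lit 296)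 (nat_lit 5) (nat_lit 433) (nat_lit 392) (nat_lit 315)) (XT.lf (nat_lit 0) (nat_lit 2468075314) (nat_lit 912) (nat_lit 1659095037) (nat_lit 76) (nat_lit 4828348193) (nat_lit 295) (nat_lit 5) (nat_lit 307) (nat_lit 5) (nat_lit 296) (nat_lit 5) (nat_lit 434) (nat_lit 392) (nat_lit 314))) (XT.nd (nat_lit 78) (nat_lit 0) (nat_lit 0) (XT.lf (nat_lit 0) (nat_lit 3170567432) (nat_lit 760) (nat_lit 1188700465) (nat_lit 836) (nat_lit 4682699417) (nat_lit 285) (nat_lit 5) (nat_lit 295) (nat_lit 5) (nat_lit 296) (nat_lit 5) (nat_lit 435) (nat_lit 392) (nat_lit 313)) (XT.lf (nat_lit 0) (nat_lit 6284141294) (nat_lit 836) (nat_lit 1049987998) (nat_lit 76) (nat_lit 1796126514) (nat_lit 285) (nat_lit 5) (nat_lit 296) (nat_lit 5) (nat_lit 286) (nat_lit 5) (nat_lit 436) (nat_lit 392) (nat_lit 312))))))))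
noncomputable def xc134 : XT := (XT.nd (nat_lit 2106) (nat_lit 5320) (nat_lit 0) (XT.nd (nat_lit 1014) (nat_lit 4636) (nat_lit 0) (XT.nd (nat_lit 468) (nat_lit 2128) (nat_lit 0) (XT.nd (nat_lit 234) (nat_lit 1444) (nat_lit 0) (XT.nd (nat_lit 78) (nat_lit 760) (nat_lit 0) (XT.lf (nat_lit 0) (nat_lit 3883896105) (nat_lit 760) (nat_lit 4370143891) (nat_lit 836) (nat_lit 966166853) (nat_lit 275) (nat_lit 5) (nat_lit 285) (nat_lit 5) (nat_lit 286) (nat_lit 5) (nat_lit 437) (nat_lit 392) (nat_lit 311)) (XT.nd (nat_lit 78) (nat_lit 684) (nat_lit 0) (XT.lf (nat_lit 0) (nat_lit 919580156) (nat_lit 836) (nat_lit 414570255) (nat_lit 76) (nat_lit 7978095680) (nat_lit 274) (nat_lit 5) (nat_lit 285) (nat_lit 5) (nat_lit 275) (nat_lit 5) (nat_lit 438) (nat_lit 392) (nat_lit 310)) (XT.lf (nat_lit 0) (nat_lit 2845982989) (nat_lit 760) (nat_lit 4784335042) (nat_lit 76) (nat_lit 1775388564) (nat_lit 265) (nat_lit 5) (nat_lit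 275) (nat_lit 5) (nat_lit 266) (nat_lit 5) (nat_lit 439) (nat_lit 392) (nat_lit 309)))) (XT.nd (nat_lit 78) (nat_lit 684) (nat_lit 0) (XT.lf (nat_lit 0) (nat_lit 229788658) (nat_lit 760) (nat_lit 4568685690) (nat_lit 836) (nat_lit 4702836007) (nat_lit 255) (nat_lit 5) (nat_lit 265) (nat_lit 5) (nat_lit 266) (nat_lit 5) (nat_lit 440) (nat_lit 392) (nat_lit 308)) (XT.nd (nat_lit 78) (nat_lit 684) (nat_lit 0) (XT.lf (nat_lit 0) (nat_lit 5382183322) (nat_lit 760) (nat_lit 1414697205) (nat_lit 836) (nat_lit 2801833125) (nat_lit 255) (nat_lit 5) (nat_lit 265) (nat_lit 5) (nat_lit 266) (nat_lit 5) (nat_lit 441) (nat_lit 392) (nat_lit 307)) (XT.lf (nat_lit 0) (nat_lit 912986126) (nat_lit 684) (nat_lit 7915142762) (nat_lit 760) (nat_lit 870102921) (nat_lit 246) (nat_lit 5) (nat_lit 255) (nat_lit 5) (nat_lit 256) (nat_lit 5) (nat_lit 442) (nat_lit 392) (nat_lit 306))))) (XT.nd (nat_lit 234) (nat_lit 1368) (nat_lit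 0) (XT.nd (nat_lit 78) (nat_lit 684) (nat_lit 0) (XT.lf (nat_lit 0) (nat_lit 1099054174) (nat_lit 760) (nat_lit 3640645750) (nat_lit 76) (nat_lit 5059656416) (nat_lit 245) (nat_lit 5) (nat_lit 255) (nat_lit 5) (nat_lit 246) (nat_lit 5) (nat_lit 443) (nat_lit 392) (nat_lit 305)) (XT.nd (nat_lit 78) (nat_lit 0) (nat_lit 0) (XT.lf (nat_lit 0) (nat_lit 1595518696) (nat_lit 684) (nat_lit 1486649059) (nat_lit 760) (nat_lit 6820518977) (nat_lit 236) (nat_lit 5) (nat_lit 245) (nat_lit 5) (nat_lit 246) (nat_lit 5) (nat_lit 444) (nat_lit 392) (nat_lit 304)) (XT.lf (nat_lit 0) (nat_lit 5117567615) (nat_lit 760) (nat_lit 3060691324) (nat_lit 76) (nat_lit 1829594736) (nat_lit 236) (nat_lit 5) (nat_lit 246) (nat_lit 5) (nat_lit 237) (nat_lit 5) (nat_lit 445) (nat_lit 392) (nat_lit 303)))) (XT.nd (nat_lit 156) (nat_lit 760) (nat_lit 0) (XT.nd (nat_lit 78) (nat_lit 0) (nat_lit 0) (XT.lf (nat_lit 0) (nat_lit 2284557746)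 (nat_lit 608) (nat_lit 4910404277) (nat_lit 684) (nat_lit 2920158192) (nat_lit 228) (nat_lit 5) (nat_lit 236) (nat_lit 5) (nat_lit 237) (nat_lit 5) (nat_lit 446) (nat_lit 392) (nat_lit 302)) (XT.lf (nat_lit 0) (nat_lit 7752098929) (nat_lit 608) (nat_lit 1559241762) (nat_lit 684) (nat_lit 913264223) (nat_lit 228) (nat_lit 5) (nat_lit 236) (nat_lit 5) (nat_lit 237) (nat_lit 5) (nat_lit 447) (nat_lit 392) (nat_lit 301))) (XT.nd (nat_lit 78) (nat_lit 0) (nat_lit 0) (XT.lf (nat_lit 0) (nat_lit 1127774801) (nat_lit 760) (nat_lit 7349680643) (nat_lit 76) (nat_lit 1858519823) (nat_lit 218) (nat_lit 5) (nat_lit 228) (nat_lit 5) (nat_lit 219) (nat_lit 5) (nat_lit 448) (nat_lit 392) (nat_lit 300)) (XT.lf (nat_lit 0) (nat_lit 3201884409) (nat_lit 760) (nat_lit 1904131943) (nat_lit 76) (nat_lit 5343366686) (nat_lit 218) (nat_lit 5) (nat_lit 228) (nat_lit 5) (nat_lit 219) (nat_lit 5) (nat_lit 449) (nat_lit 392) (nat_lit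 299)))))) (XT.nd (nat_lit 546) (nat_lit 2204) (nat_lit 0) (XT.nd (nat_lit 234) (nat_lit 1216) (nat_lit 0) (XT.nd (nat_lit 78) (nat_lit 608) (nat_lit 0) (XT.lf (nat_lit 0) (nat_lit 3672817611) (nat_lit 608) (nat_lit 1646386513) (nat_lit 684) (nat_lit 5245840197) (nat_lit 210) (nat_lit 5) (nat_lit 218) (nat_lit 5) (nat_lit 219) (nat_lit 5) (nat_lit 450) (nat_lit 392) (nat_lit 298)) (XT.nd (nat_lit 78) (nat_lit 608) (nat_lit 0) (XT.lf (nat_lit 0) (nat_lit 7482080450) (nat_lit 684) (nat_lit 1333896352) (nat_lit 76) (nat_lit 1866997347) (nat_lit 210) (nat_lit 5) (nat_lit 219) (nat_lit 5) (nat_lit 211) (nat_lit 5) (nat_lit 451) (nat_lit 392) (nat_lit 297)) (XT.lf (nat_lit 0) (nat_lit 4356397423) (nat_lit 608) (nat_lit 5349559471) (nat_lit 684) (nat_lit 1096969968) (nat_lit 202) (nat_lit 5) (nat_lit 210) (nat_lit 5) (nat_lit 211) (nat_lit 5) (nat_lit 452) (nat_lit 392) (nat_lit 296)))) (XT.nd (nat_lit 156) (nat_lit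 608) (nat_lit 0) (XT.nd (nat_lit 78) (nat_lit 532) (nat_lit 0) (XT.lf (nat_lit 0) (nat_lit 1022936763) (nat_lit 684) (nat_lit 778961174) (nat_lit 76) (nat_lit 9123509615) (nat_lit 201) (nat_lit 5) (nat_lit 210) (nat_lit 5) (nat_lit 202) (nat_lit 5) (nat_lit 453) (nat_lit 392) (nat_lit 295)) (XT.lf (nat_lit 0) (nat_lit 3194365854) (nat_lit 608) (nat_lit 6026339211) (nat_lit 76) (nat_lit 1829029555) (nat_lit 194) (nat_lit 5) (nat_lit 202) (nat_lit 5) (nat_lit 195) (nat_lit 5) (nat_lit 454) (nat_lit 392) (nat_lit 294))) (XT.nd (nat_lit 78) (nat_lit 608) (nat_lit 0) (XT.lf (nat_lit 0) (nat_lit 5405710679) (nat_lit 608) (nat_lit 261360500) (nat_lit 76) (nat_lit 5509564992) (nat_lit 194) (nat_lit 5) (nat_lit 202) (nat_lit 5) (nat_lit 195) (nat_lit 5) (nat_lit 455) (nat_lit 392) (nat_lit 293)) (XT.lf (nat_lit 0) (nat_lit 5668449490) (nat_lit 608) (nat_lit 2009334474) (nat_lit 684) (nat_lit 3627979093) (nat_lit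 186) (nat_lit 5) (nat_lit 194) (nat_lit 5) (nat_lit 195) (nat_lit 5) (nat_lit 456) (nat_lit 392) (nat_lit 292))))) (XT.nd (nat_lit 234) (nat_lit 1064) (nat_lit 0) (XT.nd (nat_lit 78) (nat_lit 608) (nat_lit 0) (XT.lf (nat_lit 0) (nat_lit 250014663) (nat_lit 532) (nat_lit 9739756796) (nat_lit 608) (nat_lit 1447828564) (nat_lit 179) (nat_lit 5) (nat_lit 186) (nat_lit 5) (nat_lit 187) (nat_lit 5) (nat_lit 457) (nat_lit 392) (nat_lit 291)) (XT.nd (nat_lit 78) (nat_lit 532) (nat_lit 0) (XT.lf (nat_lit 0) (nat_lit 797126341) (nat_lit 608) (nat_lit 5283561449) (nat_lit 76) (nat_lit 5490673964) (nat_lit 178) (nat_lit 5) (nat_lit 186) (nat_lit 5) (nat_lit 179) (nat_lit 5) (nat_lit 458) (nat_lit 392) (nat_lit 290)) (XT.lf (nat_lit 0) (nat_lit 713653743) (nat_lit 532) (nat_lit 2338975189) (nat_lit 608) (nat_lit 8655293699) (nat_lit 171) (nat_lit 5) (nat_lit 178) (nat_lit 5) (nat_lit 179) (nat_lit 5) (nat_lit 459)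 (nat_lit 392) (nat_lit 289)))) (XT.nd (nat_lit 156) (nat_lit 608) (nat_lit 0) (XT.nd (nat_lit 78) (nat_lit 456) (nat_lit 0) (XT.lf (nat_lit 0) (nat_lit 5379101030) (nat_lit 608) (nat_lit 4978769241) (nat_lit 76) (nat_lit 1488842969) (nat_lit 171) (nat_lit 5) (nat_lit 179) (nat_lit 5) (nat_lit 172) (nat_lit 5) (nat_lit 460) (nat_lit 392) (nat_lit 288)) (XT.lf (nat_lit 0) (nat_lit 1132015965) (nat_lit 456) (nat_lit 6623882968) (nat_lit 532) (nat_lit 4232320196) (nat_lit 165) (nat_lit 5) (nat_lit 171) (nat_lit 5) (nat_lit 172) (nat_lit 5) (nat_lit 461) (nat_lit 392) (nat_lit 287))) (XT.nd (nat_lit 78) (nat_lit 608) (nat_lit 0) (XT.lf (nat_lit 0) (nat_lit 7408284679) (nat_lit 456) (nat_lit 2786531082) (nat_lit 532) (nat_lit 1937462807) (nat_lit 165) (nat_lit 5) (nat_lit 171) (nat_lit 5) (nat_lit 172) (nat_lit 5) (nat_lit 462) (nat_lit 392) (nat_lit 286)) (XT.lf (nat_lit 0) (nat_lit 396672539) (nat_lit 608)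 (nat_lit 10762499784) (nat_lit 76) (nat_lit 1120035609) (nat_lit 157) (nat_lit 5) (nat_lit 165) (nat_lit 5) (nat_lit 158) (nat_lit 5) (nat_lit 463) (nat_lit 392) (nat_lit 285))))))) (XT.nd (nat_lit 1092) (nat_lit 2204) (nat_lit 0) (XT.nd (nat_lit 546) (nat_lit 1672) (nat_lit 0) (XT.nd (nat_lit 234) (nat_lit 988) (nat_lit 0) (XT.nd (nat_lit 78) (nat_lit 456) (nat_lit 0) (XT.lf (nat_lit 0) (nat_lit 2783515892) (nat_lit 608) (nat_lit 4537873263) (nat_lit 76) (nat_lit 5106805460) (nat_lit 157) (nat_lit 5) (nat_lit 165) (nat_lit 5) (nat_lit 158) (nat_lit 5) (nat_lit 464) (nat_lit 392) (nat_lit 284)) (XT.nd (nat_lit 78) (nat_lit 0) (nat_lit 0) (XT.lf (nat_lit 0) (nat_lit 1811279541) (nat_lit 456) (nat_lit 3400517191) (nat_lit 532) (nat_lit 7368504230) (nat_lit 151) (nat_lit 5) (nat_lit 157) (nat_lit 5) (nat_lit 158) (nat_lit 5) (nat_lit 465) (nat_lit 392) (nat_lit 283)) (XT.lf (nat_lit 0) (nat_lit 7705288642)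 (nat_lit 532) (nat_lit 4413901451) (nat_lit 76) (nat_lit 615940104) (nat_lit 151) (nat_lit 5) (nat_lit 158) (nat_lit 5) (nat_lit 152) (nat_lit 5) (nat_lit 466) (nat_lit 392) (nat_lit 282)))) (XT.nd (nat_lit 156) (nat_lit 532) (nat_lit 0) (XT.nd (nat_lit 78) (nat_lit 0) (nat_lit 0) (XT.lf (nat_lit 0) (nat_lit 2049246564) (nat_lit 456) (nat_lit 8217684406) (nat_lit 532) (nat_lit 2625772837) (nat_lit 145) (nat_lit 5) (nat_lit 151) (nat_lit 5) (nat_lit 152) (nat_lit 5) (nat_lit 467) (nat_lit 392) (nat_lit 281)) (XT.lf (nat_lit 0) (nat_lit 8678212676) (nat_lit 456) (nat_lit 4213861485) (nat_lit 532) (nat_lit 161122507) (nat_lit 145) (nat_lit 5) (nat_lit 151) (nat_lit 5) (nat_lit 152) (nat_lit 5) (nat_lit 468) (nat_lit 392) (nat_lit 280))) (XT.nd (nat_lit 78) (nat_lit 0) (nat_lit 0) (XT.lf (nat_lit 0) (nat_lit 2213553374) (nat_lit 456) (nat_lit 105644914) (nat_lit 532) (nat_lit 10897463503) (nat_lit 138) (nat_lit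 5) (nat_lit 144) (nat_lit 5) (nat_lit 145) (nat_lit 5) (nat_lit 469) (nat_lit 392) (nat_lit 279)) (XT.lf (nat_lit 0) (nat_lit 4886055630) (nat_lit 532) (nat_lit 4440647170) (nat_lit 76) (nat_lit 4055902746) (nat_lit 138) (nat_lit 5) (nat_lit 145) (nat_lit 5) (nat_lit 139) (nat_lit 5) (nat_lit 470) (nat_lit 392) (nat_lit 278))))) (XT.nd (nat_lit 234) (nat_lit 836) (nat_lit 0) (XT.nd (nat_lit 78) (nat_lit 380) (nat_lit 0) (XT.lf (nat_lit 0) (nat_lit 2259227775) (nat_lit 456) (nat_lit 5243735340) (nat_lit 532) (nat_lit 6048942940) (nat_lit 132) (nat_lit 5) (nat_lit 138) (nat_lit 5) (nat_lit 139) (nat_lit 5) (nat_lit 471) (nat_lit 392) (nat_lit 277)) (XT.nd (nat_lit 78) (nat_lit 380) (nat_lit 0) (XT.lf (nat_lit 0) (nat_lit 9130678067) (nat_lit 456) (nat_lit 1054854447) (nat_lit 532) (nat_lit 3538805484) (nat_lit 132) (nat_lit 5) (nat_lit 138) (nat_lit 5) (nat_lit 139) (nat_lit 5) (nat_lit 472) (nat_lit 392)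 (nat_lit 276)) (XT.lf (nat_lit 0) (nat_lit 2225161599) (nat_lit 380) (nat_lit 10715739687) (nat_lit 456) (nat_lit 958946001) (nat_lit 127) (nat_lit 5) (nat_lit 132) (nat_lit 5) (nat_lit 133) (nat_lit 5) (nat_lit 473) (nat_lit 392) (nat_lit 275)))) (XT.nd (nat_lit 156) (nat_lit 380) (nat_lit 0) (XT.nd (nat_lit 78) (nat_lit 380) (nat_lit 0) (XT.lf (nat_lit 0) (nat_lit 1672455030) (nat_lit 456) (nat_lit 4876217696) (nat_lit 76) (nat_lit 7529550479) (nat_lit 126) (nat_lit 5) (nat_lit 132) (nat_lit 5) (nat_lit 127) (nat_lit 5) (nat_lit 474) (nat_lit 392) (nat_lit 274)) (XT.lf (nat_lit 0) (nat_lit 2056739315) (nat_lit 380) (nat_lit 2284450419) (nat_lit 456) (nat_lit 9918910207) (nat_lit 121) (nat_lit 5) (nat_lit 126) (nat_lit 5) (nat_lit 127) (nat_lit 5) (nat_lit 475) (nat_lit 392) (nat_lit 273))) (XT.nd (nat_lit 78) (nat_lit 380) (nat_lit 0) (XT.lf (nat_lit 0) (nat_lit 7093952434) (nat_lit 456) (nat_lit 5286371974)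 (nat_lit 76) (nat_lit 2064687517) (nat_lit 121) (nat_lit 5) (nat_lit 127) (nat_lit 5) (nat_lit 122) (nat_lit 5) (nat_lit 476) (nat_lit 392) (nat_lit 272)) (XT.lf (nat_lit 0) (nat_lit 1755039748) (nat_lit 380) (nat_lit 8157868934) (nat_lit 456) (nat_lit 4720501268) (nat_lit 116) (nat_lit 5) (nat_lit 121) (nat_lit 5) (nat_lit 122) (nat_lit 5) (nat_lit 477) (nat_lit 392) (nat_lit 271)))))) (XT.nd (nat_lit 546) (nat_lit 1064) (nat_lit 0) (XT.nd (nat_lit 234) (nat_lit 684) (nat_lit 0) (XT.nd (nat_lit 78) (nat_lit 456) (nat_lit 0) (XT.lf (nat_lit 0) (nat_lit 8987275774) (nat_lit 380) (nat_lit 3821218253) (nat_lit 456) (nat_lit 2016687270) (nat_lit 116) (nat_lit 5) (nat_lit 121) (nat_lit 5) (nat_lit 122) (nat_lit 5) (nat_lit 478) (nat_lit 392) (nat_lit 270)) (XT.nd (nat_lit 78) (nat_lit 0) (nat_lit 0) (XT.lf (nat_lit 0) (nat_lit 729069747) (nat_lit 456) (nat_lit 13690173809) (nat_lit 76) (nat_lit 601506470)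 (nat_lit 110) (nat_lit 5) (nat_lit 116) (nat_lit 5) (nat_lit 111) (nat_lit 5) (nat_lit 479) (nat_lit 392) (nat_lit 269)) (XT.lf (nat_lit 0) (nat_lit 3552584655) (nat_lit 456) (nat_lit 6558377352) (nat_lit 76) (nat_lit 5108014353) (nat_lit 110) (nat_lit 5) (nat_lit 116) (nat_lit 5) (nat_lit 111) (nat_lit 5) (nat_lit 480) (nat_lit 392) (nat_lit 268)))) (XT.nd (nat_lit 156) (nat_lit 380) (nat_lit 0) (XT.nd (nat_lit 78) (nat_lit 0) (nat_lit 0) (XT.lf (nat_lit 0) (nat_lit 704141341) (nat_lit 304) (nat_lit 5718372834) (nat_lit 380) (nat_lit 8998863733) (nat_lit 106) (nat_lit 5) (nat_lit 110) (nat_lit 5) (nat_lit 111) (nat_lit 5) (nat_lit 481) (nat_lit 392) (nat_lit 267)) (XT.lf (nat_lit 0) (nat_lit 8179801443) (nat_lit 304) (nat_lit 1199573972) (nat_lit 380) (nat_lit 6247870792) (nat_lit 106) (nat_lit 5) (nat_lit 110) (nat_lit 5) (nat_lit 111) (nat_lit 5) (nat_lit 482) (nat_lit 392) (nat_lit 266))) (XT.nd (nat_lit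 78) (nat_lit 380) (nat_lit 0) (XT.lf (nat_lit 0) (nat_lit 12403276518) (nat_lit 380) (nat_lit 75243542) (nat_lit 76) (nat_lit 3358562958) (nat_lit 106) (nat_lit 5) (nat_lit 111) (nat_lit 5) (nat_lit 107) (nat_lit 5) (nat_lit 483) (nat_lit 392) (nat_lit 265)) (XT.lf (nat_lit 0) (nat_lit 7514572250) (nat_lit 380) (nat_lit 8015861539) (nat_lit 456) (nat_lit 519836232) (nat_lit 101) (nat_lit 5) (nat_lit 106) (nat_lit 5) (nat_lit 107) (nat_lit 5) (nat_lit 484) (nat_lit 392) (nat_lit 264))))) (XT.nd (nat_lit 234) (nat_lit 684) (nat_lit 0) (XT.nd (nat_lit 78) (nat_lit 304) (nat_lit 0) (XT.lf (nat_lit 0) (nat_lit 2406843817) (nat_lit 456) (nat_lit 1046931728) (nat_lit 76) (nat_lit 12813903551) (nat_lit 100) (nat_lit 5) (nat_lit 106) (nat_lit 5) (nat_lit 101) (nat_lit 5) (nat_lit 485) (nat_lit 392) (nat_lit 263)) (XT.nd (nat_lit 78) (nat_lit 0) (nat_lit 0) (XT.lf (nat_lit 0) (nat_lit 5422728466) (nat_lit 380)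 (nat_lit 9841484116) (nat_lit 76) (nat_lit 1224410914) (nat_lit 96) (nat_lit 5) (nat_lit 101) (nat_lit 5) (nat_lit 97) (nat_lit 5) (nat_lit 486) (nat_lit 392) (nat_lit 262)) (XT.lf (nat_lit 0) (nat_lit 8515330154) (nat_lit 380) (nat_lit 2247683745) (nat_lit 76) (nat_lit 5950653231) (nat_lit 96) (nat_lit 5) (nat_lit 101) (nat_lit 5) (nat_lit 97) (nat_lit 5) (nat_lit 487) (nat_lit 392) (nat_lit 261)))) (XT.nd (nat_lit 156) (nat_lit 380) (nat_lit 0) (XT.nd (nat_lit 78) (nat_lit 0) (nat_lit 0) (XT.lf (nat_lit 0) (nat_lit 5550989362) (nat_lit 304) (nat_lit 6141555484) (nat_lit 380) (nat_lit 5250219739) (nat_lit 92) (nat_lit 5) (nat_lit 96) (nat_lit 5) (nat_lit 97) (nat_lit 5) (nat_lit 488) (nat_lit 392) (nat_lit 260)) (XT.lf (nat_lit 0) (nat_lit 13516428681) (nat_lit 304) (nat_lit 1418811202) (nat_lit 380) (nat_lit 2241173394) (nat_lit 92) (nat_lit 5) (nat_lit 96) (nat_lit 5) (nat_lit 97) (nat_lit 5) (nat_lit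 489) (nat_lit 392) (nat_lit 259))) (XT.nd (nat_lit 78) (nat_lit 0) (nat_lit 0) (XT.lf (nat_lit 0) (nat_lit 854094600) (nat_lit 380) (nat_lit 13179150125) (nat_lit 76) (nat_lit 3380652374) (nat_lit 87) (nat_lit 5) (nat_lit 92) (nat_lit 5) (nat_lit 88) (nat_lit 5) (nat_lit 490) (nat_lit 392) (nat_lit 258)) (XT.lf (nat_lit 0) (nat_lit 4002510310) (nat_lit 380) (nat_lit 5362619153) (nat_lit 76) (nat_lit 8290287364) (nat_lit 87) (nat_lit 5) (nat_lit 92) (nat_lit 5) (nat_lit 88) (nat_lit 5) (nat_lit 491) (nat_lit 392) (nat_lit 257))))))))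
noncomputable def xc135 : XT := (XT.nd (nat_lit 2106) (nat_lit 608) (nat_lit 0) (XT.nd (nat_lit 1014) (nat_lit 1292) (nat_lit 0) (XT.nd (nat_lit 468) (nat_lit 836) (nat_lit 0) (XT.nd (nat_lit 234) (nat_lit 380) (nat_lit 0) (XT.nd (nat_lit 78) (nat_lit 228) (nat_lit 0) (XT.lf (nat_lit 0) (nat_lit 2625495861) (nat_lit 304) (nat_lit 4592802229) (nat_lit 380) (nat_lit 10683388185) (nat_lit 83) (nat_lit 5) (nat_lit 87) (nat_lit 5) (nat_lit 88) (nat_lit 5) (nat_lit 492) (nat_lit 392) (nat_lit 256)) (XT.nd (nat_lit 78) (nat_lit 228) (nat_lit 0) (XT.lf (nat_lit 0) (nat_lit 10523850283) (nat_lit 380) (nat_lit 7327389545) (nat_lit 76) (nat_lit 301139564) (nat_lit 83) (nat_lit 5) (nat_lit 88) (nat_lit 5) (nat_lit 84) (nat_lit 5) (nat_lit 493) (nat_lit 392) (nat_lit 255)) (XT.lf (nat_lit 0) (nat_lit 740795500) (nat_lit 228) (nat_lit 13177628999) (nat_lit 304) (nat_lit 4489210762) (nat_lit 80) (nat_lit 5) (nat_lit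 83) (nat_lit 5) (nat_lit 84) (nat_lit 5) (nat_lit 494) (nat_lit 392) (nat_lit 254)))) (XT.nd (nat_lit 78) (nat_lit 380) (nat_lit 0) (XT.lf (nat_lit 0) (nat_lit 9050901631) (nat_lit 228) (nat_lit 8366964163) (nat_lit 304) (nat_lit 1249397916) (nat_lit 80) (nat_lit 5) (nat_lit 83) (nat_lit 5) (nat_lit 84) (nat_lit 5) (nat_lit 495) (nat_lit 392) (nat_lit 253)) (XT.nd (nat_lit 78) (nat_lit 304) (nat_lit 0) (XT.lf (nat_lit 0) (nat_lit 2016214866) (nat_lit 304) (nat_lit 1436784693) (nat_lit 76) (nat_lit 15479065829) (nat_lit 79) (nat_lit 5) (nat_lit 83) (nat_lit 5) (nat_lit 80) (nat_lit 5) (nat_lit 496) (nat_lit 392) (nat_lit 252)) (XT.lf (nat_lit 0) (nat_lit 5374319587) (nat_lit 380) (nat_lit 12240433297) (nat_lit 76) (nat_lit 1586373435) (nat_lit 75) (nat_lit 5) (nat_lit 80) (nat_lit 5) (nat_lit 76) (nat_lit 5) (nat_lit 497) (nat_lit 392) (nat_lit 251))))) (XT.nd (nat_lit 234) (nat_lit 608) (nat_lit 0) (XT.nd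 (nat_lit 78) (nat_lit 228) (nat_lit 0) (XT.lf (nat_lit 0) (nat_lit 8820426234) (nat_lit 380) (nat_lit 3970991793) (nat_lit 76) (nat_lit 6683740086) (nat_lit 75) (nat_lit 5) (nat_lit 80) (nat_lit 5) (nat_lit 76) (nat_lit 5) (nat_lit 498) (nat_lit 392) (nat_lit 250)) (XT.nd (nat_lit 78) (nat_lit 0) (nat_lit 0) (XT.lf (nat_lit 0) (nat_lit 4504999827) (nat_lit 228) (nat_lit 7848201546) (nat_lit 304) (nat_lit 7401120557) (nat_lit 72) (nat_lit 5) (nat_lit 75) (nat_lit 5) (nat_lit 76) (nat_lit 5) (nat_lit 499) (nat_lit 392) (nat_lit 249)) (XT.lf (nat_lit 0) (nat_lit 13186534437) (nat_lit 228) (nat_lit 2785351888) (nat_lit 304) (nat_lit 4066883803) (nat_lit 72) (nat_lit 5) (nat_lit 75) (nat_lit 5) (nat_lit 76) (nat_lit 5) (nat_lit 500) (nat_lit 392) (nat_lit 248)))) (XT.nd (nat_lit 156) (nat_lit 228) (nat_lit 0) (XT.nd (nat_lit 78) (nat_lit 76) (nat_lit 0) (XT.lf (nat_lit 0) (nat_lit 1702026150) (nat_lit 304)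 (nat_lit 17976203410) (nat_lit 380) (nat_lit 650378108) (nat_lit 68) (nat_lit 5) (nat_lit 72) (nat_lit 5) (nat_lit 73) (nat_lit 5) (nat_lit 501) (nat_lit 392) (nat_lit 247)) (XT.lf (nat_lit 0) (nat_lit 2850831987) (nat_lit 380) (nat_lit 10157901572) (nat_lit 76) (nat_lit 7614075194) (nat_lit 67) (nat_lit 5) (nat_lit 72) (nat_lit 5) (nat_lit 68) (nat_lit 5) (nat_lit 502) (nat_lit 392) (nat_lit 246))) (XT.nd (nat_lit 78) (nat_lit 228) (nat_lit 0) (XT.lf (nat_lit 0) (nat_lit 6402401201) (nat_lit 380) (nat_lit 1541491056) (nat_lit 76) (nat_lit 12979140474) (nat_lit 67) (nat_lit 5) (nat_lit 72) (nat_lit 5) (nat_lit 68) (nat_lit 5) (nat_lit 503) (nat_lit 392) (nat_lit 245)) (XT.lf (nat_lit 0) (nat_lit 7326337939) (nat_lit 228) (nat_lit 2735481637) (nat_lit 304) (nat_lit 11166710865) (nat_lit 64) (nat_lit 5) (nat_lit 67) (nat_lit 5) (nat_lit 68) (nat_lit 5) (nat_lit 504) (nat_lit 392) (nat_lit 244)))))) (XT.nd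 (nat_lit 546) (nat_lit 532) (nat_lit 0) (XT.nd (nat_lit 234) (nat_lit 532) (nat_lit 0) (XT.nd (nat_lit 78) (nat_lit 228) (nat_lit 0) (XT.lf (nat_lit 0) (nat_lit 13810882265) (nat_lit 304) (nat_lit 5181375253) (nat_lit 76) (nat_lit 2547556965) (nat_lit 64) (nat_lit 5) (nat_lit 68) (nat_lit 5) (nat_lit 65) (nat_lit 5) (nat_lit 505) (nat_lit 392) (nat_lit 243)) (XT.nd (nat_lit 78) (nat_lit 0) (nat_lit 0) (XT.lf (nat_lit 0) (nat_lit 3727907157) (nat_lit 228) (nat_lit 13938859457) (nat_lit 304) (nat_lit 4189926173) (nat_lit 61) (nat_lit 5) (nat_lit 64) (nat_lit 5) (nat_lit 65) (nat_lit 5) (nat_lit 506) (nat_lit 392) (nat_lit 242)) (XT.lf (nat_lit 0) (nat_lit 12868992587) (nat_lit 228) (nat_lit 8755163994) (nat_lit 304) (nat_lit 555269602) (nat_lit 61) (nat_lit 5) (nat_lit 64) (nat_lit 5) (nat_lit 65) (nat_lit 5) (nat_lit 507) (nat_lit 392) (nat_lit 241)))) (XT.nd (nat_lit 156) (nat_lit 228) (nat_lit 0) (XT.nd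 (nat_lit 78) (nat_lit 228) (nat_lit 0) (XT.lf (nat_lit 0) (nat_lit 3100489225) (nat_lit 304) (nat_lit 352612922) (nat_lit 76) (nat_lit 19055312885) (nat_lit 60) (nat_lit 5) (nat_lit 64) (nat_lit 5) (nat_lit 61) (nat_lit 5) (nat_lit 508) (nat_lit 392) (nat_lit 240)) (XT.lf (nat_lit 0) (nat_lit 6882607052) (nat_lit 304) (nat_lit 13974970190) (nat_lit 76) (nat_lit 1985124413) (nat_lit 57) (nat_lit 5) (nat_lit 61) (nat_lit 5) (nat_lit 58) (nat_lit 5) (nat_lit 509) (nat_lit 392) (nat_lit 239))) (XT.nd (nat_lit 78) (nat_lit 228) (nat_lit 0) (XT.lf (nat_lit 0) (nat_lit 10755621440) (nat_lit 304) (nat_lit 4945417623) (nat_lit 76) (nat_lit 7482334743) (nat_lit 57) (nat_lit 5) (nat_lit 61) (nat_lit 5) (nat_lit 58) (nat_lit 5) (nat_lit 510) (nat_lit 392) (nat_lit 238)) (XT.lf (nat_lit 0) (nat_lit 4305338793) (nat_lit 228) (nat_lit 10418910526) (nat_lit 304) (nat_lit 8806251803) (nat_lit 54) (nat_lit 5) (nat_lit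 57) (nat_lit 5) (nat_lit 58) (nat_lit 5) (nat_lit 511) (nat_lit 392) (nat_lit 237))))) (XT.nd (nat_lit 234) (nat_lit 228) (nat_lit 0) (XT.nd (nat_lit 78) (nat_lit 304) (nat_lit 0) (XT.lf (nat_lit 0) (nat_lit 13792398574) (nat_lit 228) (nat_lit 5003327533) (nat_lit 304) (nat_lit 5088380043) (nat_lit 54) (nat_lit 5) (nat_lit 57) (nat_lit 5) (nat_lit 58) (nat_lit 5) (nat_lit 512) (nat_lit 392) (nat_lit 236)) (XT.nd (nat_lit 78) (nat_lit 304) (nat_lit 0) (XT.lf (nat_lit 0) (nat_lit 22942454251) (nat_lit 304) (nat_lit 794559565) (nat_lit 76) (nat_lit 507897626) (nat_lit 54) (nat_lit 5) (nat_lit 58) (nat_lit 5) (nat_lit 55) (nat_lit 5) (nat_lit 513) (nat_lit 392) (nat_lit 235)) (XT.lf (nat_lit 0) (nat_lit 2606756118) (nat_lit 304) (nat_lit 15873545835) (nat_lit 76) (nat_lit 6130680265) (nat_lit 50) (nat_lit 5) (nat_lit 54) (nat_lit 5) (nat_lit 51) (nat_lit 5) (nat_lit 514) (nat_lit 392) (nat_lit 234)))) (XT.nd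 (nat_lit 156) (nat_lit 0) (nat_lit 0) (XT.nd (nat_lit 78) (nat_lit 228) (nat_lit 0) (XT.lf (nat_lit 0) (nat_lit 6572745944) (nat_lit 304) (nat_lit 6537404096) (nat_lit 76) (nat_lit 11874135878) (nat_lit 50) (nat_lit 5) (nat_lit 54) (nat_lit 5) (nat_lit 51) (nat_lit 5) (nat_lit 515) (nat_lit 392) (nat_lit 233)) (XT.lf (nat_lit 0) (nat_lit 3009918271) (nat_lit 228) (nat_lit 7618511667) (nat_lit 304) (nat_lit 14736422515) (nat_lit 47) (nat_lit 5) (nat_lit 50) (nat_lit 5) (nat_lit 51) (nat_lit 5) (nat_lit 516) (nat_lit 392) (nat_lit 232))) (XT.nd (nat_lit 78) (nat_lit 0) (nat_lit 0) (XT.lf (nat_lit 0) (nat_lit 12821884294) (nat_lit 228) (nat_lit 1978127628) (nat_lit 304) (nat_lit 10952326878) (nat_lit 47) (nat_lit 5) (nat_lit 50) (nat_lit 5) (nat_lit 51) (nat_lit 5) (nat_lit 517) (nat_lit 392) (nat_lit 231)) (XT.lf (nat_lit 0) (nat_lit 19070591658) (nat_lit 304) (nat_lit 3356767042) (nat_lit 76) (nat_lit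 3719908937) (nat_lit 47) (nat_lit 5) (nat_lit 51) (nat_lit 5) (nat_lit 48) (nat_lit 5) (nat_lit 518) (nat_lit 392) (nat_lit 230))))))) (XT.nd (nat_lit 50154) (nat_lit 0) (nat_lit 32452) (XT.nd (nat_lit 49608) (nat_lit 0) (nat_lit 36632) (XT.nd (nat_lit 234) (nat_lit 380) (nat_lit 0) (XT.nd (nat_lit 78) (nat_lit 76) (nat_lit 0) (XT.lf (nat_lit 0) (nat_lit 6465609678) (nat_lit 152) (nat_lit 17007283785) (nat_lit 228) (nat_lit 3076279382) (nat_lit 45) (nat_lit 5) (nat_lit 47) (nat_lit 5) (nat_lit 48) (nat_lit 5) (nat_lit 519) (nat_lit 392) (nat_lit 229)) (XT.nd (nat_lit 78) (nat_lit 0) (nat_lit 0) (XT.lf (nat_lit 0) (nat_lit 1004879084) (nat_lit 228) (nat_lit 10449905296) (nat_lit 76) (nat_lit 15503926772) (nat_lit 44) (nat_lit 5) (nat_lit 47) (nat_lit 5) (nat_lit 45) (nat_lit 5) (nat_lit 520) (nat_lit 392) (nat_lit 228)) (XT.lf (nat_lit 0) (nat_lit 5117927812) (nat_lit 228) (nat_lit 658169355) (nat_lit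 76) (nat_lit 21600110979) (nat_lit 44) (nat_lit 5) (nat_lit 47) (nat_lit 5) (nat_lit 45) (nat_lit 5) (nat_lit 521) (nat_lit 392) (nat_lit 227)))) (XT.nd (nat_lit 156) (nat_lit 152) (nat_lit 0) (XT.nd (nat_lit 78) (nat_lit 0) (nat_lit 0) (XT.lf (nat_lit 0) (nat_lit 9366586525) (nat_lit 304) (nat_lit 18362220864) (nat_lit 76) (nat_lit 72184410) (nat_lit 41) (nat_lit 5) (nat_lit 45) (nat_lit 5) (nat_lit 42) (nat_lit 5) (nat_lit 522) (nat_lit 392) (nat_lit 226)) (XT.lf (nat_lit 0) (nat_lit 13734544023) (nat_lit 304) (nat_lit 8539878977) (nat_lit 76) (nat_lit 5959165239) (nat_lit 41) (nat_lit 5) (nat_lit 45) (nat_lit 5) (nat_lit 42) (nat_lit 5) (nat_lit 523) (nat_lit 392) (nat_lit 225))) (XT.nd (nat_lit 49140) (nat_lit 0) (nat_lit 38304) (XT.lf (nat_lit 0) (nat_lit 1484669366) (nat_lit 152) (nat_lit 16706622333) (nat_lit 228) (nat_lit 10483519845) (nat_lit 39) (nat_lit 5) (nat_lit 41) (nat_lit 5) (nat_lit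 42) (nat_lit 5) (nat_lit 524) (nat_lit 392) (nat_lit 224)) (XT.lf (nat_lit 0) (nat_lit 2140892067) (nat_lit 836) (nat_lit 623383222) (nat_lit 836) (nat_lit 623383222) (nat_lit 543) (nat_lit 3) (nat_lit 554) (nat_lit 3) (nat_lit 554) (nat_lit 5) (nat_lit 393) (nat_lit 393) (nat_lit 354))))) (XT.nd (nat_lit 234) (nat_lit 836) (nat_lit 0) (XT.nd (nat_lit 78) (nat_lit 836) (nat_lit 0) (XT.lf (nat_lit 76) (nat_lit 1841629600) (nat_lit 0) (nat_lit 4420340775) (nat_lit 836) (nat_lit 539491088) (nat_lit 544) (nat_lit 5) (nat_lit 543) (nat_lit 3) (nat_lit 554) (nat_lit 5) (nat_lit 394) (nat_lit 393) (nat_lit 353)) (XT.nd (nat_lit 78) (nat_lit 0) (nat_lit 0) (XT.lf (nat_lit 0) (nat_lit 1391905184) (nat_lit 836) (nat_lit 1855650934) (nat_lit 912) (nat_lit 3581310731) (nat_lit 532) (nat_lit 5) (nat_lit 543) (nat_lit 3) (nat_lit 544) (nat_lit 5) (nat_lit 395) (nat_lit 393) (nat_lit 352)) (XT.lf (nat_lit 76) (nat_lit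 1297697676) (nat_lit 0) (nat_lit 2015358233) (nat_lit 912) (nat_lit 3544598246) (nat_lit 533) (nat_lit 5) (nat_lit 532) (nat_lit 5) (nat_lit 544) (nat_lit 5) (nat_lit 396) (nat_lit 393) (nat_lit 351)))) (XT.nd (nat_lit 156) (nat_lit 0) (nat_lit 0) (XT.nd (nat_lit 78) (nat_lit 836) (nat_lit 0) (XT.lf (nat_lit 76) (nat_lit 4513077849) (nat_lit 0) (nat_lit 722734203) (nat_lit 912) (nat_lit 1652012234) (nat_lit 533) (nat_lit 5) (nat_lit 532) (nat_lit 5) (nat_lit 544) (nat_lit 5) (nat_lit 397) (nat_lit 393) (nat_lit 350)) (XT.lf (nat_lit 0) (nat_lit 235708827) (nat_lit 912) (nat_lit 6066341994) (nat_lit 988) (nat_lit 617360123) (nat_lit 521) (nat_lit 5) (nat_lit 533) (nat_lit 5) (nat_lit 534) (nat_lit 5) (nat_lit 398) (nat_lit 393) (nat_lit 349))) (XT.nd (nat_lit 78) (nat_lit 0) (nat_lit 0) (XT.lf (nat_lit 0) (nat_lit 2112145320) (nat_lit 912) (nat_lit 2816894806) (nat_lit 988) (nat_lit 2022975832) (nat_lit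 521) (nat_lit 5) (nat_lit 533) (nat_lit 5) (nat_lit 534) (nat_lit 5) (nat_lit 399) (nat_lit 393) (nat_lit 348)) (XT.lf (nat_lit 76) (nat_lit 476950725) (nat_lit 0) (nat_lit 3505426226) (nat_lit 988) (nat_lit 3003836133) (nat_lit 522) (nat_lit 5) (nat_lit 521) (nat_lit 5) (nat_lit 534) (nat_lit 5) (nat_lit 400) (nat_lit 393) (nat_lit 347)))))) (XT.nd (nat_lit 546) (nat_lit 2204) (nat_lit 0) (XT.nd (nat_lit 234) (nat_lit 988) (nat_lit 0) (XT.nd (nat_lit 78) (nat_lit 988) (nat_lit 0) (XT.lf (nat_lit 76) (nat_lit 3848187640) (nat_lit 0) (nat_lit 2014643234) (nat_lit 988) (nat_lit 1158870981) (nat_lit 522) (nat_lit 5) (nat_lit 521) (nat_lit 5) (nat_lit 534) (nat_lit 5) (nat_lit 401) (nat_lit 393) (nat_lit 346)) (XT.nd (nat_lit 78) (nat_lit 0) (nat_lit 76) (XT.lf (nat_lit 76) (nat_lit 200065471) (nat_lit 0) (nat_lit 469202020) (nat_lit 1064) (nat_lit 6389485476) (nat_lit 509) (nat_lit 5) (nat_lit 508) (nat_lit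 5) (nat_lit 522) (nat_lit 5) (nat_lit 402) (nat_lit 393) (nat_lit 345)) (XT.lf (nat_lit 0) (nat_lit 2502386658) (nat_lit 988) (nat_lit 3454700275) (nat_lit 1064) (nat_lit 1139686625) (nat_lit 509) (nat_lit 5) (nat_lit 522) (nat_lit 5) (nat_lit 523) (nat_lit 5) (nat_lit 403) (nat_lit 393) (nat_lit 344)))) (XT.nd (nat_lit 156) (nat_lit 1064) (nat_lit 0) (XT.nd (nat_lit 78) (nat_lit 0) (nat_lit 0) (XT.lf (nat_lit 0) (nat_lit 4331447445) (nat_lit 988) (nat_lit 12908892) (nat_lit 1064) (nat_lit 2792071819) (nat_lit 509) (nat_lit 5) (nat_lit 522) (nat_lit 5) (nat_lit 523) (nat_lit 5) (nat_lit 404) (nat_lit 393) (nat_lit 343)) (XT.lf (nat_lit 76) (nat_lit 3517211607) (nat_lit 0) (nat_lit 2659745223) (nat_lit 1064) (nat_lit 1000379688) (nat_lit 510) (nat_lit 5) (nat_lit 509) (nat_lit 5) (nat_lit 523) (nat_lit 5) (nat_lit 405) (nat_lit 393) (nat_lit 342))) (XT.nd (nat_lit 78) (nat_lit 0) (nat_lit 76) (XT.lf (nat_lit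 0) (nat_lit 786745477) (nat_lit 1064) (nat_lit 133490952) (nat_lit 1140) (nat_lit 6299624209) (nat_lit 495) (nat_lit 5) (nat_lit 509) (nat_lit 5) (nat_lit 510) (nat_lit 5) (nat_lit 406) (nat_lit 393) (nat_lit 341)) (XT.lf (nat_lit 0) (nat_lit 2582838873) (nat_lit 1064) (nat_lit 3793290943) (nat_lit 1140) (nat_lit 887295429) (nat_lit 496) (nat_lit 5) (nat_lit 510) (nat_lit 5) (nat_lit 511) (nat_lit 5) (nat_lit 407) (nat_lit 393) (nat_lit 340))))) (XT.nd (nat_lit 234) (nat_lit 1140) (nat_lit 0) (XT.nd (nat_lit 78) (nat_lit 1140) (nat_lit 0) (XT.lf (nat_lit 0) (nat_lit 4380796126) (nat_lit 1064) (nat_lit 193651368) (nat_lit 1140) (nat_lit 2734148413) (nat_lit 496) (nat_lit 5) (nat_lit 510) (nat_lit 5) (nat_lit 511) (nat_lit 5) (nat_lit 408) (nat_lit 393) (nat_lit 339)) (XT.nd (nat_lit 78) (nat_lit 1140) (nat_lit 0) (XT.lf (nat_lit 76) (nat_lit 3497031973) (nat_lit 0) (nat_lit 2700136563) (nat_lit 1140) (nat_lit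 1157904876) (nat_lit 497) (nat_lit 5) (nat_lit 496) (nat_lit 5) (nat_lit 511) (nat_lit 5) (nat_lit 409) (nat_lit 393) (nat_lit 338)) (XT.lf (nat_lit 0) (nat_lit 600259328) (nat_lit 1140) (nat_lit 169730576) (nat_lit 1216) (nat_lit 6633229767) (nat_lit 481) (nat_lit 5) (nat_lit 496) (nat_lit 5) (nat_lit 497) (nat_lit 5) (nat_lit 410) (nat_lit 393) (nat_lit 337)))) (XT.nd (nat_lit 156) (nat_lit 1216) (nat_lit 0) (XT.nd (nat_lit 78) (nat_lit 0) (nat_lit 0) (XT.lf (nat_lit 0) (nat_lit 2370411937) (nat_lit 1140) (nat_lit 3855332455) (nat_lit 1216) (nat_lit 1226634317) (nat_lit 482) (nat_lit 5) (nat_lit 497) (nat_lit 5) (nat_lit 498) (nat_lit 5) (nat_lit 411) (nat_lit 393) (nat_lit 336)) (XT.lf (nat_lit 0) (nat_lit 4143724627) (nat_lit 1140) (nat_lit 93552728) (nat_lit 1216) (nat_lit 3265936981) (nat_lit 482) (nat_lit 5) (nat_lit 497) (nat_lit 5) (nat_lit 498) (nat_lit 5) (nat_lit 412) (nat_lit 393) (nat_lit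 335))) (XT.nd (nat_lit 78) (nat_lit 1216) (nat_lit 0) (XT.lf (nat_lit 76) (nat_lit 3765984420) (nat_lit 0) (nat_lit 2173236333) (nat_lit 1216) (nat_lit 1616159176) (nat_lit 483) (nat_lit 5) (nat_lit 482) (nat_lit 5) (nat_lit 498) (nat_lit 5) (nat_lit 413) (nat_lit 393) (nat_lit 334)) (XT.lf (nat_lit 76) (nat_lit 68003296) (nat_lit 0) (nat_lit 55523279) (nat_lit 1292) (nat_lit 7485814690) (nat_lit 467) (nat_lit 5) (nat_lit 466) (nat_lit 5) (nat_lit 483) (nat_lit 5) (nat_lit 414) (nat_lit 393) (nat_lit 333))))))))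
noncomputable def xc136 : XT := (XT.nd (nat_lit 2106) (nat_lit 8360) (nat_lit 0) (XT.nd (nat_lit 1014) (nat_lit 7524) (nat_lit 0) (XT.nd (nat_lit 468) (nat_lit 4636) (nat_lit 0) (XT.nd (nat_lit 234) (nat_lit 2736) (nat_lit 0) (XT.nd (nat_lit 78) (nat_lit 1216) (nat_lit 0) (XT.lf (nat_lit 0) (nat_lit 1878810274) (nat_lit 1216) (nat_lit 3662396579) (nat_lit 76) (nat_lit 2122957277) (nat_lit 467) (nat_lit 5) (nat_lit 483) (nat_lit 5) (nat_lit 468) (nat_lit 5) (nat_lit 415) (nat_lit 393) (nat_lit 332)) (XT.nd (nat_lit 78) (nat_lit 0) (nat_lit 0) (XT.lf (nat_lit 0) (nat_lit 269939255) (nat_lit 1216) (nat_lit 3365266050) (nat_lit 1292) (nat_lit 4085602007) (nat_lit 451) (nat_lit 5) (nat_lit 467) (nat_lit 5) (nat_lit 468) (nat_lit 5) (nat_lit 416) (nat_lit 393) (nat_lit 331)) (XT.lf (nat_lit 0) (nat_lit 4303389555) (nat_lit 1216) (nat_lit 1112332299) (nat_lit 1292) (nat_lit 2363124739) (nat_lit 451) (nat_lit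 5) (nat_lit 467) (nat_lit 5) (nat_lit 468) (nat_lit 5) (nat_lit 417) (nat_lit 393) (nat_lit 330)))) (XT.nd (nat_lit 78) (nat_lit 1444) (nat_lit 0) (XT.lf (nat_lit 0) (nat_lit 551560325) (nat_lit 1292) (nat_lit 6656735822) (nat_lit 1368) (nat_lit 630263831) (nat_lit 434) (nat_lit 5) (nat_lit 451) (nat_lit 5) (nat_lit 452) (nat_lit 5) (nat_lit 418) (nat_lit 393) (nat_lit 329)) (XT.nd (nat_lit 78) (nat_lit 1368) (nat_lit 0) (XT.lf (nat_lit 0) (nat_lit 1118588048) (nat_lit 1368) (nat_lit 3235434558) (nat_lit 76) (nat_lit 3545412988) (nat_lit 433) (nat_lit 5) (nat_lit 451) (nat_lit 5) (nat_lit 434) (nat_lit 5) (nat_lit 419) (nat_lit 393) (nat_lit 328)) (XT.lf (nat_lit 0) (nat_lit 877280416) (nat_lit 1368) (nat_lit 1988485419) (nat_lit 1444) (nat_lit 5096283633) (nat_lit 415) (nat_lit 5) (nat_lit 433) (nat_lit 5) (nat_lit 434) (nat_lit 5) (nat_lit 420) (nat_lit 393) (nat_lit 327))))) (XT.nd (nat_lit 234) (nat_lit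 3116) (nat_lit 0) (XT.nd (nat_lit 78) (nat_lit 1520) (nat_lit 0) (XT.lf (nat_lit 0) (nat_lit 4639112991) (nat_lit 1444) (nat_lit 2940056776) (nat_lit 76) (nat_lit 446960381) (nat_lit 415) (nat_lit 5) (nat_lit 434) (nat_lit 5) (nat_lit 416) (nat_lit 5) (nat_lit 421) (nat_lit 393) (nat_lit 326)) (XT.nd (nat_lit 78) (nat_lit 76) (nat_lit 0) (XT.lf (nat_lit 0) (nat_lit 1263716387) (nat_lit 1444) (nat_lit 5172854283) (nat_lit 1520) (nat_lit 1655187179) (nat_lit 396) (nat_lit 5) (nat_lit 415) (nat_lit 5) (nat_lit 416) (nat_lit 5) (nat_lit 422) (nat_lit 393) (nat_lit 325)) (XT.lf (nat_lit 0) (nat_lit 97165227) (nat_lit 1520) (nat_lit 2595266562) (nat_lit 76) (nat_lit 5466541753) (nat_lit 395) (nat_lit 5) (nat_lit 415) (nat_lit 5) (nat_lit 396) (nat_lit 5) (nat_lit 423) (nat_lit 393) (nat_lit 324)))) (XT.nd (nat_lit 156) (nat_lit 1596) (nat_lit 0) (XT.nd (nat_lit 78) (nat_lit 0) (nat_lit 0) (XT.lf (nat_lit 0)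 (nat_lit 1706596271) (nat_lit 1520) (nat_lit 135029363) (nat_lit 1596) (nat_lit 6386140695) (nat_lit 375) (nat_lit 5) (nat_lit 395) (nat_lit 5) (nat_lit 396) (nat_lit 5) (nat_lit 424) (nat_lit 393) (nat_lit 323)) (XT.lf (nat_lit 0) (nat_lit 3623169699) (nat_lit 1596) (nat_lit 2211590527) (nat_lit 76) (nat_lit 2463166220) (nat_lit 375) (nat_lit 5) (nat_lit 396) (nat_lit 5) (nat_lit 376) (nat_lit 5) (nat_lit 425) (nat_lit 393) (nat_lit 322))) (XT.nd (nat_lit 78) (nat_lit 0) (nat_lit 0) (XT.lf (nat_lit 0) (nat_lit 2184977362) (nat_lit 1596) (nat_lit 3239667223) (nat_lit 1672) (nat_lit 2945193854) (nat_lit 354) (nat_lit 5) (nat_lit 375) (nat_lit 5) (nat_lit 376) (nat_lit 5) (nat_lit 426) (nat_lit 393) (nat_lit 321)) (XT.lf (nat_lit 0) (nat_lit 6672667337) (nat_lit 1596) (nat_lit 573971567) (nat_lit 1672) (nat_lit 1196893959) (nat_lit 354) (nat_lit 5) (nat_lit 375) (nat_lit 5) (nat_lit 376) (nat_lit 5) (nat_lit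 427) (nat_lit 393) (nat_lit 320)))))) (XT.nd (nat_lit 546) (nat_lit 3040) (nat_lit 0) (XT.nd (nat_lit 234) (nat_lit 1748) (nat_lit 0) (XT.nd (nat_lit 78) (nat_lit 988) (nat_lit 0) (XT.lf (nat_lit 0) (nat_lit 580556138) (nat_lit 1748) (nat_lit 5796190715) (nat_lit 76) (nat_lit 2141873361) (nat_lit 331) (nat_lit 5) (nat_lit 354) (nat_lit 5) (nat_lit 332) (nat_lit 5) (nat_lit 428) (nat_lit 393) (nat_lit 319)) (XT.nd (nat_lit 78) (nat_lit 988) (nat_lit 0) (XT.lf (nat_lit 0) (nat_lit 2363756852) (nat_lit 1748) (nat_lit 1304344460) (nat_lit 76) (nat_lit 4927257242) (nat_lit 331) (nat_lit 5) (nat_lit 354) (nat_lit 5) (nat_lit 332) (nat_lit 5) (nat_lit 429) (nat_lit 393) (nat_lit 318)) (XT.lf (nat_lit 0) (nat_lit 3293910014) (nat_lit 988) (nat_lit 881126997) (nat_lit 1064) (nat_lit 4498777742) (nat_lit 318) (nat_lit 5) (nat_lit 331) (nat_lit 5) (nat_lit 332) (nat_lit 5) (nat_lit 430) (nat_lit 393) (nat_lit 317))))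 (XT.nd (nat_lit 156) (nat_lit 912) (nat_lit 0) (XT.nd (nat_lit 78) (nat_lit 836) (nat_lit 0) (XT.lf (nat_lit 0) (nat_lit 6015528755) (nat_lit 1064) (nat_lit 791718384) (nat_lit 76) (nat_lit 1946764006) (nat_lit 318) (nat_lit 5) (nat_lit 332) (nat_lit 5) (nat_lit 319) (nat_lit 5) (nat_lit 431) (nat_lit 393) (nat_lit 316)) (XT.lf (nat_lit 0) (nat_lit 3907099731) (nat_lit 836) (nat_lit 3988932631) (nat_lit 912) (nat_lit 939745246) (nat_lit 307) (nat_lit 5) (nat_lit 318) (nat_lit 5) (nat_lit 319) (nat_lit 5) (nat_lit 432) (nat_lit 393) (nat_lit 315))) (XT.nd (nat_lit 78) (nat_lit 836) (nat_lit 0) (XT.lf (nat_lit 0) (nat_lit 860742014) (nat_lit 912) (nat_lit 241056215) (nat_lit 76) (nat_lit 7817743708) (nat_lit 306) (nat_lit 5) (nat_lit 318) (nat_lit 5) (nat_lit 307) (nat_lit 5) (nat_lit 433) (nat_lit 393) (nat_lit 314)) (XT.lf (nat_lit 0) (nat_lit 2699246245) (nat_lit 912) (nat_lit 4449286227) (nat_lit 76)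 (nat_lit 1856061479) (nat_lit 295) (nat_lit 5) (nat_lit 307) (nat_lit 5) (nat_lit 296) (nat_lit 5) (nat_lit 434) (nat_lit 393) (nat_lit 313))))) (XT.nd (nat_lit 234) (nat_lit 1520) (nat_lit 0) (XT.nd (nat_lit 78) (nat_lit 760) (nat_lit 0) (XT.lf (nat_lit 0) (nat_lit 329933764) (nat_lit 760) (nat_lit 4228736137) (nat_lit 836) (nat_lit 4533022003) (nat_lit 285) (nat_lit 5) (nat_lit 295) (nat_lit 5) (nat_lit 296) (nat_lit 5) (nat_lit 435) (nat_lit 393) (nat_lit 312)) (XT.nd (nat_lit 78) (nat_lit 760) (nat_lit 0) (XT.lf (nat_lit 0) (nat_lit 5238586794) (nat_lit 760) (nat_lit 1219990464) (nat_lit 836) (nat_lit 2721915993) (nat_lit 285) (nat_lit 5) (nat_lit 295) (nat_lit 5) (nat_lit 296) (nat_lit 5) (nat_lit 436) (nat_lit 393) (nat_lit 311)) (XT.lf (nat_lit 0) (nat_lit 948282690) (nat_lit 760) (nat_lit 7440321059) (nat_lit 836) (nat_lit 882651257) (nat_lit 275) (nat_lit 5) (nat_lit 285) (nat_lit 5) (nat_lit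 286) (nat_lit 5) (nat_lit 437) (nat_lit 393) (nat_lit 310)))) (XT.nd (nat_lit 156) (nat_lit 760) (nat_lit 0) (XT.nd (nat_lit 78) (nat_lit 684) (nat_lit 0) (XT.lf (nat_lit 0) (nat_lit 989180239) (nat_lit 836) (nat_lit 3414985755) (nat_lit 76) (nat_lit 4959386566) (nat_lit 274) (nat_lit 5) (nat_lit 285) (nat_lit 5) (nat_lit 275) (nat_lit 5) (nat_lit 438) (nat_lit 393) (nat_lit 309)) (XT.lf (nat_lit 0) (nat_lit 1579871131) (nat_lit 684) (nat_lit 1291638148) (nat_lit 760) (nat_lit 6586397763) (nat_lit 265) (nat_lit 5) (nat_lit 274) (nat_lit 5) (nat_lit 275) (nat_lit 5) (nat_lit 439) (nat_lit 393) (nat_lit 308))) (XT.nd (nat_lit 78) (nat_lit 760) (nat_lit 0) (XT.lf (nat_lit 0) (nat_lit 4801713620) (nat_lit 760) (nat_lit 2871664561) (nat_lit 76) (nat_lit 1880590620) (nat_lit 265) (nat_lit 5) (nat_lit 275) (nat_lit 5) (nat_lit 266) (nat_lit 5) (nat_lit 440) (nat_lit 393) (nat_lit 307)) (XT.lf (nat_lit 0) (nat_lit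 2229528737) (nat_lit 760) (nat_lit 4539448283) (nat_lit 836) (nat_lit 2883029952) (nat_lit 255) (nat_lit 5) (nat_lit 265) (nat_lit 5) (nat_lit 266) (nat_lit 5) (nat_lit 441) (nat_lit 393) (nat_lit 306))))))) (XT.nd (nat_lit 1014) (nat_lit 3724) (nat_lit 0) (XT.nd (nat_lit 468) (nat_lit 2584) (nat_lit 0) (XT.nd (nat_lit 234) (nat_lit 1292) (nat_lit 0) (XT.nd (nat_lit 78) (nat_lit 760) (nat_lit 0) (XT.lf (nat_lit 0) (nat_lit 7445850817) (nat_lit 760) (nat_lit 1324744952) (nat_lit 836) (nat_lit 981533734) (nat_lit 255) (nat_lit 5) (nat_lit 265) (nat_lit 5) (nat_lit 266) (nat_lit 5) (nat_lit 442) (nat_lit 393) (nat_lit 305)) (XT.nd (nat_lit 78) (nat_lit 0) (nat_lit 0) (XT.lf (nat_lit 0) (nat_lit 953256822) (nat_lit 760) (nat_lit 6948450079) (nat_lit 76) (nat_lit 1952289488) (nat_lit 245) (nat_lit 5) (nat_lit 255) (nat_lit 5) (nat_lit 246) (nat_lit 5) (nat_lit 443) (nat_lit 393) (nat_lit 304)) (XT.lf (nat_lit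 0) (nat_lit 2914292135) (nat_lit 760) (nat_lit 1746068227) (nat_lit 76) (nat_lit 5297419084) (nat_lit 245) (nat_lit 5) (nat_lit 255) (nat_lit 5) (nat_lit 246) (nat_lit 5) (nat_lit 444) (nat_lit 393) (nat_lit 303)))) (XT.nd (nat_lit 78) (nat_lit 608) (nat_lit 0) (XT.lf (nat_lit 0) (nat_lit 3581876150) (nat_lit 684) (nat_lit 1332719504) (nat_lit 760) (nat_lit 5149063548) (nat_lit 236) (nat_lit 5) (nat_lit 245) (nat_lit 5) (nat_lit 246) (nat_lit 5) (nat_lit 445) (nat_lit 393) (nat_lit 302)) (XT.nd (nat_lit 78) (nat_lit 608) (nat_lit 0) (XT.lf (nat_lit 0) (nat_lit 6957151324) (nat_lit 760) (nat_lit 1170595460) (nat_lit 76) (nat_lit 2043886404) (nat_lit 236) (nat_lit 5) (nat_lit 246) (nat_lit 5) (nat_lit 237) (nat_lit 5) (nat_lit 446) (nat_lit 393) (nat_lit 301)) (XT.lf (nat_lit 0) (nat_lit 4268721028) (nat_lit 608) (nat_lit 4785895059) (nat_lit 684) (nat_lit 1226890539) (nat_lit 228) (nat_lit 5) (nat_lit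 236) (nat_lit 5) (nat_lit 237) (nat_lit 5) (nat_lit 447) (nat_lit 393) (nat_lit 300))))) (XT.nd (nat_lit 234) (nat_lit 1824) (nat_lit 0) (XT.nd (nat_lit 78) (nat_lit 684) (nat_lit 0) (XT.lf (nat_lit 0) (nat_lit 775488981) (nat_lit 684) (nat_lit 591383379) (nat_lit 76) (nat_lit 9026910856) (nat_lit 227) (nat_lit 5) (nat_lit 236) (nat_lit 5) (nat_lit 228) (nat_lit 5) (nat_lit 448) (nat_lit 393) (nat_lit 299)) (XT.nd (nat_lit 78) (nat_lit 0) (nat_lit 0) (XT.lf (nat_lit 0) (nat_lit 2825857772) (nat_lit 760) (nat_lit 5551367239) (nat_lit 76) (nat_lit 2130450651) (nat_lit 218) (nat_lit 5) (nat_lit 228) (nat_lit 5) (nat_lit 219) (nat_lit 5) (nat_lit 449) (nat_lit 393) (nat_lit 298)) (XT.lf (nat_lit 0) (nat_lit 4908596092) (nat_lit 760) (nat_lit 35050840) (nat_lit 76) (nat_lit 5680391306) (nat_lit 218) (nat_lit 5) (nat_lit 228) (nat_lit 5) (nat_lit 219) (nat_lit 5) (nat_lit 450) (nat_lit 393) (nat_lit 297))))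 (XT.nd (nat_lit 156) (nat_lit 608) (nat_lit 0) (XT.nd (nat_lit 78) (nat_lit 608) (nat_lit 0) (XT.lf (nat_lit 0) (nat_lit 5640890576) (nat_lit 608) (nat_lit 1407463440) (nat_lit 684) (nat_lit 3694085894) (nat_lit 210) (nat_lit 5) (nat_lit 218) (nat_lit 5) (nat_lit 219) (nat_lit 5) (nat_lit 451) (nat_lit 393) (nat_lit 296)) (XT.lf (nat_lit 0) (nat_lit 535425246) (nat_lit 608) (nat_lit 8692450448) (nat_lit 684) (nat_lit 1635413315) (nat_lit 202) (nat_lit 5) (nat_lit 210) (nat_lit 5) (nat_lit 211) (nat_lit 5) (nat_lit 452) (nat_lit 393) (nat_lit 295))) (XT.nd (nat_lit 78) (nat_lit 532) (nat_lit 0) (XT.lf (nat_lit 0) (nat_lit 481194271) (nat_lit 684) (nat_lit 4669209616) (nat_lit 76) (nat_lit 5835651878) (nat_lit 201) (nat_lit 5) (nat_lit 210) (nat_lit 5) (nat_lit 202) (nat_lit 5) (nat_lit 453) (nat_lit 393) (nat_lit 294)) (XT.lf (nat_lit 0) (nat_lit 1081392961) (nat_lit 532) (nat_lit 1523365757) (nat_lit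 608) (nat_lit 8506590163) (nat_lit 194) (nat_lit 5) (nat_lit 201) (nat_lit 5) (nat_lit 202) (nat_lit 5) (nat_lit 454) (nat_lit 393) (nat_lit 293)))))) (XT.nd (nat_lit 546) (nat_lit 1976) (nat_lit 0) (XT.nd (nat_lit 234) (nat_lit 1140) (nat_lit 0) (XT.nd (nat_lit 78) (nat_lit 608) (nat_lit 0) (XT.lf (nat_lit 0) (nat_lit 4796162461) (nat_lit 608) (nat_lit 4267369196) (nat_lit 76) (nat_lit 2175126178) (nat_lit 194) (nat_lit 5) (nat_lit 202) (nat_lit 5) (nat_lit 195) (nat_lit 5) (nat_lit 455) (nat_lit 393) (nat_lit 292)) (XT.nd (nat_lit 78) (nat_lit 0) (nat_lit 0) (XT.lf (nat_lit 0) (nat_lit 1597001168) (nat_lit 608) (nat_lit 5434946720) (nat_lit 684) (nat_lit 4336571004) (nat_lit 186) (nat_lit 5) (nat_lit 194) (nat_lit 5) (nat_lit 195) (nat_lit 5) (nat_lit 456) (nat_lit 393) (nat_lit 291)) (XT.lf (nat_lit 0) (nat_lit 7612339744) (nat_lit 608) (nat_lit 1709075255) (nat_lit 684) (nat_lit 2179399517) (nat_lit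 186) (nat_lit 5) (nat_lit 194) (nat_lit 5) (nat_lit 195) (nat_lit 5) (nat_lit 457) (nat_lit 393) (nat_lit 290)))) (XT.nd (nat_lit 156) (nat_lit 532) (nat_lit 0) (XT.nd (nat_lit 78) (nat_lit 0) (nat_lit 0) (XT.lf (nat_lit 0) (nat_lit 28590934) (nat_lit 608) (nat_lit 9533645320) (nat_lit 76) (nat_lit 2073374099) (nat_lit 178) (nat_lit 5) (nat_lit 186) (nat_lit 5) (nat_lit 179) (nat_lit 5) (nat_lit 458) (nat_lit 393) (nat_lit 289)) (XT.lf (nat_lit 0) (nat_lit 2269939228) (nat_lit 608) (nat_lit 3557758679) (nat_lit 76) (nat_lit 5944764184) (nat_lit 178) (nat_lit 5) (nat_lit 186) (nat_lit 5) (nat_lit 179) (nat_lit 5) (nat_lit 459) (nat_lit 393) (nat_lit 288))) (XT.nd (nat_lit 78) (nat_lit 0) (nat_lit 0) (XT.lf (nat_lit 0) (nat_lit 2547351645) (nat_lit 532) (nat_lit 2006447053) (nat_lit 608) (nat_lit 7358313875) (nat_lit 171) (nat_lit 5) (nat_lit 178) (nat_lit 5) (nat_lit 179) (nat_lit 5) (nat_lit 460) (nat_lit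 393) (nat_lit 287)) (XT.lf (nat_lit 0) (nat_lit 6900977075) (nat_lit 608) (nat_lit 3267628331) (nat_lit 76) (nat_lit 1885612919) (nat_lit 171) (nat_lit 5) (nat_lit 179) (nat_lit 5) (nat_lit 172) (nat_lit 5) (nat_lit 461) (nat_lit 393) (nat_lit 286))))) (XT.nd (nat_lit 234) (nat_lit 912) (nat_lit 0) (XT.nd (nat_lit 78) (nat_lit 608) (nat_lit 0) (XT.lf (nat_lit 0) (nat_lit 2953459972) (nat_lit 456) (nat_lit 6355798735) (nat_lit 532) (nat_lit 2889639085) (nat_lit 165) (nat_lit 5) (nat_lit 171) (nat_lit 5) (nat_lit 172) (nat_lit 5) (nat_lit 462) (nat_lit 393) (nat_lit 285)) (XT.nd (nat_lit 78) (nat_lit 608) (nat_lit 0) (XT.lf (nat_lit 0) (nat_lit 9319983400) (nat_lit 456) (nat_lit 2449553966) (nat_lit 532) (nat_lit 576871363) (nat_lit 165) (nat_lit 5) (nat_lit 171) (nat_lit 5) (nat_lit 172) (nat_lit 5) (nat_lit 463) (nat_lit 393) (nat_lit 284)) (XT.lf (nat_lit 0) (nat_lit 1772650779) (nat_lit 608) (nat_lit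 9180787251) (nat_lit 76) (nat_lit 1542936932) (nat_lit 157) (nat_lit 5) (nat_lit 165) (nat_lit 5) (nat_lit 158) (nat_lit 5) (nat_lit 464) (nat_lit 393) (nat_lit 283)))) (XT.nd (nat_lit 156) (nat_lit 456) (nat_lit 0) (XT.nd (nat_lit 78) (nat_lit 456) (nat_lit 0) (XT.lf (nat_lit 0) (nat_lit 4180406591) (nat_lit 608) (nat_lit 2866902760) (nat_lit 76) (nat_lit 5601589227) (nat_lit 157) (nat_lit 5) (nat_lit 165) (nat_lit 5) (nat_lit 158) (nat_lit 5) (nat_lit 465) (nat_lit 393) (nat_lit 282)) (XT.lf (nat_lit 0) (nat_lit 3597642785) (nat_lit 456) (nat_lit 3044674879) (nat_lit 532) (nat_lit 6162048400) (nat_lit 151) (nat_lit 5) (nat_lit 157) (nat_lit 5) (nat_lit 158) (nat_lit 5) (nat_lit 466) (nat_lit 393) (nat_lit 281))) (XT.nd (nat_lit 78) (nat_lit 456) (nat_lit 0) (XT.lf (nat_lit 0) (nat_lit 9162371797) (nat_lit 532) (nat_lit 2762055325) (nat_lit 76) (nat_lit 1038350820) (nat_lit 151) (nat_lit 5) (nat_lit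 158) (nat_lit 5) (nat_lit 152) (nat_lit 5) (nat_lit 467) (nat_lit 393) (nat_lit 280)) (XT.lf (nat_lit 0) (nat_lit 3818907466) (nat_lit 456) (nat_lit 7942014641) (nat_lit 532) (nat_lit 1362886931) (nat_lit 145) (nat_lit 5) (nat_lit 151) (nat_lit 5) (nat_lit 152) (nat_lit 5) (nat_lit 468) (nat_lit 393) (nat_lit 279))))))))
noncomputable def xc137 : XT := (XT.nd (nat_lit 2106) (nat_lit 2964) (nat_lit 0) (XT.nd (nat_lit 1014) (nat_lit 2280) (nat_lit 0) (XT.nd (nat_lit 468) (nat_lit 1216) (nat_lit 0) (XT.nd (nat_lit 234) (nat_lit 912) (nat_lit 0) (XT.nd (nat_lit 78) (nat_lit 456) (nat_lit 0) (XT.lf (nat_lit 0) (nat_lit 1110506179) (nat_lit 532) (nat_lit 2748784912) (nat_lit 76) (nat_lit 9428599032) (nat_lit 144) (nat_lit 5) (nat_lit 151) (nat_lit 5) (nat_lit 145) (nat_lit 5) (nat_lit 469) (nat_lit 393) (nat_lit 278)) (XT.nd (nat_lit 78) (nat_lit 0) (nat_lit 0) (XT.lf (nat_lit 0) (nat_lit 3626543415) (nat_lit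 532) (nat_lit 9497884785) (nat_lit 76) (nat_lit 330428090) (nat_lit 138) (nat_lit 5) (nat_lit 145) (nat_lit 5) (nat_lit 139) (nat_lit 5) (nat_lit 470) (nat_lit 393) (nat_lit 277)) (XT.lf (nat_lit 0) (nat_lit 6220699091) (nat_lit 532) (nat_lit 2838689363) (nat_lit 76) (nat_lit 4565229271) (nat_lit 138) (nat_lit 5) (nat_lit 145) (nat_lit 5) (nat_lit 139) (nat_lit 5) (nat_lit 471) (nat_lit 393) (nat_lit 276)))) (XT.nd (nat_lit 78) (nat_lit 456) (nat_lit 0) (XT.lf (nat_lit 0) (nat_lit 3984059589) (nat_lit 456) (nat_lit 4892537141) (nat_lit 532) (nat_lit 4920992150) (nat_lit 132) (nat_lit 5) (nat_lit 138) (nat_lit 5) (nat_lit 139) (nat_lit 5) (nat_lit 472) (nat_lit 393) (nat_lit 275)) (XT.nd (nat_lit 78) (nat_lit 456) (nat_lit 0) (XT.lf (nat_lit 0) (nat_lit 10960004627) (nat_lit 456) (nat_lit 628821237) (nat_lit 532) (nat_lit 2385140762) (nat_lit 132) (nat_lit 5) (nat_lit 138) (nat_lit 5) (nat_lit 139) (nat_lit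 5) (nat_lit 473) (nat_lit 393) (nat_lit 274)) (XT.lf (nat_lit 0) (nat_lit 233090758) (nat_lit 456) (nat_lit 10227380011) (nat_lit 76) (nat_lit 3692699897) (nat_lit 126) (nat_lit 5) (nat_lit 132) (nat_lit 5) (nat_lit 127) (nat_lit 5) (nat_lit 474) (nat_lit 393) (nat_lit 273))))) (XT.nd (nat_lit 234) (nat_lit 836) (nat_lit 0) (XT.nd (nat_lit 78) (nat_lit 380) (nat_lit 0) (XT.lf (nat_lit 0) (nat_lit 2880793734) (nat_lit 456) (nat_lit 3332125622) (nat_lit 76) (nat_lit 8122554017) (nat_lit 126) (nat_lit 5) (nat_lit 132) (nat_lit 5) (nat_lit 127) (nat_lit 5) (nat_lit 475) (nat_lit 393) (nat_lit 272)) (XT.nd (nat_lit 78) (nat_lit 0) (nat_lit 0) (XT.lf (nat_lit 0) (nat_lit 3728690420) (nat_lit 380) (nat_lit 1861764003) (nat_lit 456) (nat_lit 8930798206) (nat_lit 121) (nat_lit 5) (nat_lit 126) (nat_lit 5) (nat_lit 127) (nat_lit 5) (nat_lit 476) (nat_lit 393) (nat_lit 271)) (XT.lf (nat_lit 0) (nat_lit 8378460795)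 (nat_lit 456) (nat_lit 3772663506) (nat_lit 76) (nat_lit 2559150480) (nat_lit 121) (nat_lit 5) (nat_lit 127) (nat_lit 5) (nat_lit 122) (nat_lit 5) (nat_lit 477) (nat_lit 393) (nat_lit 270)))) (XT.nd (nat_lit 156) (nat_lit 456) (nat_lit 0) (XT.nd (nat_lit 78) (nat_lit 0) (nat_lit 0) (XT.lf (nat_lit 0) (nat_lit 3398922267) (nat_lit 380) (nat_lit 7842914683) (nat_lit 456) (nat_lit 3660858390) (nat_lit 116) (nat_lit 5) (nat_lit 121) (nat_lit 5) (nat_lit 122) (nat_lit 5) (nat_lit 478) (nat_lit 393) (nat_lit 269)) (XT.lf (nat_lit 0) (nat_lit 10744258273) (nat_lit 380) (nat_lit 3428905726) (nat_lit 456) (nat_lit 925596599) (nat_lit 116) (nat_lit 5) (nat_lit 121) (nat_lit 5) (nat_lit 122) (nat_lit 5) (nat_lit 479) (nat_lit 393) (nat_lit 268))) (XT.nd (nat_lit 78) (nat_lit 0) (nat_lit 0) (XT.lf (nat_lit 0) (nat_lit 1851715873) (nat_lit 456) (nat_lit 12361916056) (nat_lit 76) (nat_lit 1084646772) (nat_lit 110)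 (nat_lit 5) (nat_lit 116) (nat_lit 5) (nat_lit 111) (nat_lit 5) (nat_lit 480) (nat_lit 393) (nat_lit 267)) (XT.lf (nat_lit 0) (nat_lit 4709974321) (nat_lit 456) (nat_lit 5118896635) (nat_lit 76) (nat_lit 5672047358) (nat_lit 110) (nat_lit 5) (nat_lit 116) (nat_lit 5) (nat_lit 111) (nat_lit 5) (nat_lit 481) (nat_lit 393) (nat_lit 266)))))) (XT.nd (nat_lit 546) (nat_lit 1216) (nat_lit 0) (XT.nd (nat_lit 234) (nat_lit 380) (nat_lit 0) (XT.nd (nat_lit 78) (nat_lit 380) (nat_lit 0) (XT.lf (nat_lit 0) (nat_lit 2278539219) (nat_lit 304) (nat_lit 5347593067) (nat_lit 380) (nat_lit 8081472946) (nat_lit 106) (nat_lit 5) (nat_lit 110) (nat_lit 5) (nat_lit 111) (nat_lit 5) (nat_lit 482) (nat_lit 393) (nat_lit 265)) (XT.nd (nat_lit 78) (nat_lit 380) (nat_lit 0) (XT.lf (nat_lit 0) (nat_lit 9873118111) (nat_lit 304) (nat_lit 747930918) (nat_lit 380) (nat_lit 5296977167) (nat_lit 106) (nat_lit 5) (nat_lit 110) (nat_lit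 5) (nat_lit 111) (nat_lit 5) (nat_lit 483) (nat_lit 393) (nat_lit 264)) (XT.lf (nat_lit 0) (nat_lit 1460442254) (nat_lit 380) (nat_lit 12236827288) (nat_lit 456) (nat_lit 2434966770) (nat_lit 101) (nat_lit 5) (nat_lit 106) (nat_lit 5) (nat_lit 107) (nat_lit 5) (nat_lit 484) (nat_lit 393) (nat_lit 263)))) (XT.nd (nat_lit 156) (nat_lit 0) (nat_lit 0) (XT.nd (nat_lit 78) (nat_lit 304) (nat_lit 0) (XT.lf (nat_lit 0) (nat_lit 510077481) (nat_lit 456) (nat_lit 7180542914) (nat_lit 76) (nat_lit 8659412947) (nat_lit 100) (nat_lit 5) (nat_lit 106) (nat_lit 5) (nat_lit 101) (nat_lit 5) (nat_lit 485) (nat_lit 393) (nat_lit 262)) (XT.lf (nat_lit 0) (nat_lit 430348429) (nat_lit 304) (nat_lit 3040520821) (nat_lit 380) (nat_lit 13101214474) (nat_lit 96) (nat_lit 5) (nat_lit 100) (nat_lit 5) (nat_lit 101) (nat_lit 5) (nat_lit 486) (nat_lit 393) (nat_lit 261))) (XT.nd (nat_lit 78) (nat_lit 0) (nat_lit 0) (XT.lf (nat_lit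 0) (nat_lit 6537155735) (nat_lit 380) (nat_lit 8537998546) (nat_lit 76) (nat_lit 1722503424) (nat_lit 96) (nat_lit 5) (nat_lit 101) (nat_lit 5) (nat_lit 97) (nat_lit 5) (nat_lit 487) (nat_lit 393) (nat_lit 260)) (XT.lf (nat_lit 0) (nat_lit 9671884502) (nat_lit 380) (nat_lit 821740114) (nat_lit 76) (nat_lit 6533984228) (nat_lit 96) (nat_lit 5) (nat_lit 101) (nat_lit 5) (nat_lit 97) (nat_lit 5) (nat_lit 488) (nat_lit 393) (nat_lit 259))))) (XT.nd (nat_lit 234) (nat_lit 532) (nat_lit 0) (XT.nd (nat_lit 78) (nat_lit 380) (nat_lit 0) (XT.lf (nat_lit 0) (nat_lit 7123229499) (nat_lit 304) (nat_lit 5779563010) (nat_lit 380) (nat_lit 4358704655) (nat_lit 92) (nat_lit 5) (nat_lit 96) (nat_lit 5) (nat_lit 97) (nat_lit 5) (nat_lit 489) (nat_lit 393) (nat_lit 258)) (XT.nd (nat_lit 78) (nat_lit 380) (nat_lit 0) (XT.lf (nat_lit 0) (nat_lit 15219326225) (nat_lit 304) (nat_lit 971870186) (nat_lit 380) (nat_lit 1309016981)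 (nat_lit 92) (nat_lit 5) (nat_lit 96) (nat_lit 5) (nat_lit 97) (nat_lit 5) (nat_lit 490) (nat_lit 393) (nat_lit 257)) (XT.lf (nat_lit 0) (nat_lit 1828892718) (nat_lit 380) (nat_lit 11989768348) (nat_lit 76) (nat_lit 3923799178) (nat_lit 87) (nat_lit 5) (nat_lit 92) (nat_lit 5) (nat_lit 88) (nat_lit 5) (nat_lit 491) (nat_lit 393) (nat_lit 256)))) (XT.nd (nat_lit 156) (nat_lit 228) (nat_lit 0) (XT.nd (nat_lit 78) (nat_lit 304) (nat_lit 0) (XT.lf (nat_lit 0) (nat_lit 5021497993) (nat_lit 380) (nat_lit 4045396262) (nat_lit 76) (nat_lit 8922302677) (nat_lit 87) (nat_lit 5) (nat_lit 92) (nat_lit 5) (nat_lit 88) (nat_lit 5) (nat_lit 492) (nat_lit 393) (nat_lit 255)) (XT.lf (nat_lit 0) (nat_lit 4093109505) (nat_lit 304) (nat_lit 4199269277) (nat_lit 380) (nat_lit 9948208215) (nat_lit 83) (nat_lit 5) (nat_lit 87) (nat_lit 5) (nat_lit 88) (nat_lit 5) (nat_lit 493) (nat_lit 393) (nat_lit 254))) (XT.nd (nat_lit 78)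 (nat_lit 228) (nat_lit 0) (XT.lf (nat_lit 0) (nat_lit 11648901991) (nat_lit 380) (nat_lit 6070912569) (nat_lit 76) (nat_lit 776792779) (nat_lit 83) (nat_lit 5) (nat_lit 88) (nat_lit 5) (nat_lit 84) (nat_lit 5) (nat_lit 494) (nat_lit 393) (nat_lit 253)) (XT.lf (nat_lit 0) (nat_lit 2149405751) (nat_lit 228) (nat_lit 12953078542) (nat_lit 304) (nat_lit 3654672058) (nat_lit 80) (nat_lit 5) (nat_lit 83) (nat_lit 5) (nat_lit 84) (nat_lit 5) (nat_lit 495) (nat_lit 393) (nat_lit 252))))))) (XT.nd (nat_lit 1092) (nat_lit 1216) (nat_lit 0) (XT.nd (nat_lit 546) (nat_lit 760) (nat_lit 0) (XT.nd (nat_lit 234) (nat_lit 608) (nat_lit 0) (XT.nd (nat_lit 78) (nat_lit 380) (nat_lit 0) (XT.lf (nat_lit 0) (nat_lit 10598384703) (nat_lit 228) (nat_lit 8055771057) (nat_lit 304) (nat_lit 368186935) (nat_lit 80) (nat_lit 5) (nat_lit 83) (nat_lit 5) (nat_lit 84) (nat_lit 5) (nat_lit 496) (nat_lit 393) (nat_lit 251)) (XT.nd (nat_lit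 78) (nat_lit 304) (nat_lit 0) (XT.lf (nat_lit 0) (nat_lit 2933317574) (nat_lit 304) (nat_lit 113708932) (nat_lit 76) (nat_lit 16245656699) (nat_lit 79) (nat_lit 5) (nat_lit 83) (nat_lit 5) (nat_lit 80) (nat_lit 5) (nat_lit 497) (nat_lit 393) (nat_lit 250)) (XT.lf (nat_lit 0) (nat_lit 6353193266) (nat_lit 380) (nat_lit 11127561027) (nat_lit 76) (nat_lit 2086488449) (nat_lit 75) (nat_lit 5) (nat_lit 80) (nat_lit 5) (nat_lit 76) (nat_lit 5) (nat_lit 498) (nat_lit 393) (nat_lit 249)))) (XT.nd (nat_lit 156) (nat_lit 380) (nat_lit 0) (XT.nd (nat_lit 78) (nat_lit 228) (nat_lit 0) (XT.lf (nat_lit 0) (nat_lit 9851136020) (nat_lit 380) (nat_lit 2719351888) (nat_lit 76) (nat_lit 7276618363) (nat_lit 75) (nat_lit 5) (nat_lit 80) (nat_lit 5) (nat_lit 76) (nat_lit 5) (nat_lit 499) (nat_lit 393) (nat_lit 248)) (XT.lf (nat_lit 0) (nat_lit 5917402593) (nat_lit 228) (nat_lit 7528998331) (nat_lit 304) (nat_lit 6685624951)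 (nat_lit 72) (nat_lit 5) (nat_lit 75) (nat_lit 5) (nat_lit 76) (nat_lit 5) (nat_lit 500) (nat_lit 393) (nat_lit 247))) (XT.nd (nat_lit 78) (nat_lit 380) (nat_lit 0) (XT.lf (nat_lit 0) (nat_lit 14746640389) (nat_lit 228) (nat_lit 2374228293) (nat_lit 304) (nat_lit 3301635188) (nat_lit 72) (nat_lit 5) (nat_lit 75) (nat_lit 5) (nat_lit 76) (nat_lit 5) (nat_lit 501) (nat_lit 393) (nat_lit 246)) (XT.lf (nat_lit 0) (nat_lit 175915005) (nat_lit 380) (nat_lit 17681569516) (nat_lit 76) (nat_lit 2860736174) (nat_lit 67) (nat_lit 5) (nat_lit 72) (nat_lit 5) (nat_lit 68) (nat_lit 5) (nat_lit 502) (nat_lit 393) (nat_lit 245))))) (XT.nd (nat_lit 234) (nat_lit 532) (nat_lit 0) (XT.nd (nat_lit 78) (nat_lit 228) (nat_lit 0) (XT.lf (nat_lit 0) (nat_lit 3722162601) (nat_lit 380) (nat_lit 9073572846) (nat_lit 76) (nat_lit 8222818434) (nat_lit 67) (nat_lit 5) (nat_lit 72) (nat_lit 5) (nat_lit 68) (nat_lit 5) (nat_lit 503)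 (nat_lit 393) (nat_lit 244)) (XT.nd (nat_lit 78) (nat_lit 228) (nat_lit 0) (XT.lf (nat_lit 0) (nat_lit 7328796258) (nat_lit 380) (nat_lit 310078958) (nat_lit 76) (nat_lit 13686234789) (nat_lit 67) (nat_lit 5) (nat_lit 72) (nat_lit 5) (nat_lit 68) (nat_lit 5) (nat_lit 504) (nat_lit 393) (nat_lit 243)) (XT.lf (nat_lit 0) (nat_lit 8726802394) (nat_lit 228) (nat_lit 2327088139) (nat_lit 304) (nat_lit 10582985552) (nat_lit 64) (nat_lit 5) (nat_lit 67) (nat_lit 5) (nat_lit 68) (nat_lit 5) (nat_lit 505) (nat_lit 393) (nat_lit 242)))) (XT.nd (nat_lit 156) (nat_lit 304) (nat_lit 0) (XT.nd (nat_lit 78) (nat_lit 228) (nat_lit 0) (XT.lf (nat_lit 0) (nat_lit 14865375732) (nat_lit 304) (nat_lit 4042693064) (nat_lit 76) (nat_lit 3046576192) (nat_lit 64) (nat_lit 5) (nat_lit 68) (nat_lit 5) (nat_lit 65) (nat_lit 5) (nat_lit 506) (nat_lit 393) (nat_lit 241)) (XT.lf (nat_lit 0) (nat_lit 5036601904) (nat_lit 228) (nat_lit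 13754528387) (nat_lit 304) (nat_lit 3486883365) (nat_lit 61) (nat_lit 5) (nat_lit 64) (nat_lit 5) (nat_lit 65) (nat_lit 5) (nat_lit 507) (nat_lit 393) (nat_lit 240))) (XT.nd (nat_lit 78) (nat_lit 228) (nat_lit 0) (XT.lf (nat_lit 0) (nat_lit 202348964) (nat_lit 304) (nat_lit 8272532736) (nat_lit 76) (nat_lit 14132603453) (nat_lit 60) (nat_lit 5) (nat_lit 64) (nat_lit 5) (nat_lit 61) (nat_lit 5) (nat_lit 508) (nat_lit 393) (nat_lit 239)) (XT.lf (nat_lit 0) (nat_lit 847958148) (nat_lit 228) (nat_lit 3066414848) (nat_lit 304) (nat_lit 19028803072) (nat_lit 57) (nat_lit 5) (nat_lit 60) (nat_lit 5) (nat_lit 61) (nat_lit 5) (nat_lit 509) (nat_lit 393) (nat_lit 238)))))) (XT.nd (nat_lit 546) (nat_lit 684) (nat_lit 0) (XT.nd (nat_lit 234) (nat_lit 304) (nat_lit 0) (XT.nd (nat_lit 78) (nat_lit 228) (nat_lit 0) (XT.lf (nat_lit 0) (nat_lit 7762626744) (nat_lit 304) (nat_lit 13053603923) (nat_lit 76) (nat_lit 2468115134)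 (nat_lit 57) (nat_lit 5) (nat_lit 61) (nat_lit 5) (nat_lit 58) (nat_lit 5) (nat_lit 510) (nat_lit 393) (nat_lit 237)) (XT.nd (nat_lit 78) (nat_lit 228) (nat_lit 0) (XT.lf (nat_lit 0) (nat_lit 11698545193) (nat_lit 304) (nat_lit 3867006691) (nat_lit 76) (nat_lit 8066577745) (nat_lit 57) (nat_lit 5) (nat_lit 61) (nat_lit 5) (nat_lit 58) (nat_lit 5) (nat_lit 511) (nat_lit 393) (nat_lit 236)) (XT.lf (nat_lit 0) (nat_lit 5561019332) (nat_lit 228) (nat_lit 10178849136) (nat_lit 304) (nat_lit 8246471536) (nat_lit 54) (nat_lit 5) (nat_lit 57) (nat_lit 5) (nat_lit 58) (nat_lit 5) (nat_lit 512) (nat_lit 393) (nat_lit 235)))) (XT.nd (nat_lit 156) (nat_lit 76) (nat_lit 0) (XT.nd (nat_lit 78) (nat_lit 228) (nat_lit 0) (XT.lf (nat_lit 0) (nat_lit 15214887490) (nat_lit 228) (nat_lit 4663747417) (nat_lit 304) (nat_lit 4468671856) (nat_lit 54) (nat_lit 5) (nat_lit 57) (nat_lit 5) (nat_lit 58) (nat_lit 5) (nat_lit 513)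 (nat_lit 393) (nat_lit 234)) (XT.lf (nat_lit 0) (nat_lit 329426572) (nat_lit 228) (nat_lit 23769945772) (nat_lit 304) (nat_lit 616141020) (nat_lit 51) (nat_lit 5) (nat_lit 54) (nat_lit 5) (nat_lit 55) (nat_lit 5) (nat_lit 514) (nat_lit 393) (nat_lit 233))) (XT.nd (nat_lit 78) (nat_lit 0) (nat_lit 0) (XT.lf (nat_lit 0) (nat_lit 3353390985) (nat_lit 304) (nat_lit 15053379224) (nat_lit 76) (nat_lit 6682219739) (nat_lit 50) (nat_lit 5) (nat_lit 54) (nat_lit 5) (nat_lit 51) (nat_lit 5) (nat_lit 515) (nat_lit 393) (nat_lit 232)) (XT.lf (nat_lit 0) (nat_lit 7385082965) (nat_lit 304) (nat_lit 5552821267) (nat_lit 76) (nat_lit 12532134153) (nat_lit 50) (nat_lit 5) (nat_lit 54) (nat_lit 5) (nat_lit 51) (nat_lit 5) (nat_lit 516) (nat_lit 393) (nat_lit 231))))) (XT.nd (nat_lit 234) (nat_lit 456) (nat_lit 0) (XT.nd (nat_lit 78) (nat_lit 0) (nat_lit 0) (XT.lf (nat_lit 0) (nat_lit 4178109843) (nat_lit 228) (nat_lit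 7337613993) (nat_lit 304) (nat_lit 14342621740) (nat_lit 47) (nat_lit 5) (nat_lit 50) (nat_lit 5) (nat_lit 51) (nat_lit 5) (nat_lit 517) (nat_lit 393) (nat_lit 230)) (XT.nd (nat_lit 78) (nat_lit 0) (nat_lit 0) (XT.lf (nat_lit 0) (nat_lit 14164589830) (nat_lit 228) (nat_lit 1592917722) (nat_lit 304) (nat_lit 10496344763) (nat_lit 47) (nat_lit 5) (nat_lit 50) (nat_lit 5) (nat_lit 51) (nat_lit 5) (nat_lit 518) (nat_lit 393) (nat_lit 229)) (XT.lf (nat_lit 0) (nat_lit 20103232212) (nat_lit 304) (nat_lit 2348369827) (nat_lit 76) (nat_lit 4205288970) (nat_lit 47) (nat_lit 5) (nat_lit 51) (nat_lit 5) (nat_lit 48) (nat_lit 5) (nat_lit 519) (nat_lit 393) (nat_lit 228)))) (XT.nd (nat_lit 156) (nat_lit 228) (nat_lit 0) (XT.nd (nat_lit 78) (nat_lit 76) (nat_lit 0) (XT.lf (nat_lit 0) (nat_lit 7663378555) (nat_lit 152) (nat_lit 16924369437) (nat_lit 228) (nat_lit 2479208802) (nat_lit 45) (nat_lit 5) (nat_lit 47) (nat_lit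 5) (nat_lit 48) (nat_lit 5) (nat_lit 520) (nat_lit 393) (nat_lit 227)) (XT.lf (nat_lit 0) (nat_lit 1662190940) (nat_lit 228) (nat_lit 9602648356) (nat_lit 76) (nat_lit 16220021542) (nat_lit 44) (nat_lit 5) (nat_lit 47) (nat_lit 5) (nat_lit 45) (nat_lit 5) (nat_lit 521) (nat_lit 393) (nat_lit 226))) (XT.nd (nat_lit 78) (nat_lit 0) (nat_lit 0) (XT.lf (nat_lit 0) (nat_lit 369051598) (nat_lit 228) (nat_lit 5478350775) (nat_lit 304) (nat_lit 22063512859) (nat_lit 41) (nat_lit 5) (nat_lit 44) (nat_lit 5) (nat_lit 45) (nat_lit 5) (nat_lit 522) (nat_lit 393) (nat_lit 225)) (XT.lf (nat_lit 0) (nat_lit 10175727206) (nat_lit 304) (nat_lit 17690740822) (nat_lit 76) (nat_lit 477838059) (nat_lit 41) (nat_lit 5) (nat_lit 45) (nat_lit 5) (nat_lit 42) (nat_lit 5) (nat_lit 523) (nat_lit 393) (nat_lit 224))))))))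
noncomputable def xc138 : XT := (XT.nd (nat_lit 51246) (nat_lit 0) (nat_lit 14820) (XT.nd (nat_lit 50154) (nat_lit 0) (nat_lit 29792) (XT.nd (nat_lit 49608) (nat_lit 0) (nat_lit 34504) (XT.nd (nat_lit 49374) (nat_lit 0) (nat_lit 36404) (XT.nd (nat_lit 49218) (nat_lit 0) (nat_lit 37316) (XT.lf (nat_lit 0) (nat_lit 14618851522) (nat_lit 304) (nat_lit 7692319244) (nat_lit 76) (nat_lit 6474632818) (nat_lit 41) (nat_lit 5) (nat_lit 45) (nat_lit 5) (nat_lit 42) (nat_lit 5) (nat_lit 524) (nat_lit 393) (nat_lit 223)) (XT.nd (nat_lit 78) (nat_lit 0) (nat_lit 0) (XT.lf (nat_lit 0) (nat_lit 338910305) (nat_lit 0) (nat_lit 338910305) (nat_lit 836) (nat_lit 2736312287) (nat_lit 532) (nat_lit 5) (nat_lit 532) (nat_lit 3) (nat_lit 543) (nat_lit 3) (nat_lit 394) (nat_lit 394) (nat_lit 352)) (XT.lf (nat_lit 0) (nat_lit 3250768063) (nat_lit 836) (nat_lit 3058416962) (nat_lit 912) (nat_lit 547035690) (nat_lit 532) (nat_lit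 5) (nat_lit 543) (nat_lit 3) (nat_lit 544) (nat_lit 5) (nat_lit 395) (nat_lit 394) (nat_lit 351)))) (XT.nd (nat_lit 78) (nat_lit 912) (nat_lit 0) (XT.lf (nat_lit 76) (nat_lit 65982547) (nat_lit 0) (nat_lit 5073632222) (nat_lit 912) (nat_lit 1746074346) (nat_lit 533) (nat_lit 5) (nat_lit 532) (nat_lit 5) (nat_lit 544) (nat_lit 5) (nat_lit 396) (nat_lit 394) (nat_lit 350)) (XT.nd (nat_lit 78) (nat_lit 0) (nat_lit 0) (XT.lf (nat_lit 0) (nat_lit 120485071) (nat_lit 912) (nat_lit 3648512532) (nat_lit 988) (nat_lit 3147358371) (nat_lit 520) (nat_lit 5) (nat_lit 532) (nat_lit 5) (nat_lit 533) (nat_lit 5) (nat_lit 397) (nat_lit 394) (nat_lit 349)) (XT.lf (nat_lit 0) (nat_lit 1953280109) (nat_lit 912) (nat_lit 451331362) (nat_lit 988) (nat_lit 4543814828) (nat_lit 520) (nat_lit 5) (nat_lit 532) (nat_lit 5) (nat_lit 533) (nat_lit 5) (nat_lit 398) (nat_lit 394) (nat_lit 348))))) (XT.nd (nat_lit 234) (nat_lit 988)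 (nat_lit 0) (XT.nd (nat_lit 78) (nat_lit 912) (nat_lit 0) (XT.lf (nat_lit 76) (nat_lit 2821430987) (nat_lit 0) (nat_lit 972817203) (nat_lit 988) (nat_lit 3187524836) (nat_lit 521) (nat_lit 5) (nat_lit 520) (nat_lit 5) (nat_lit 533) (nat_lit 5) (nat_lit 399) (nat_lit 394) (nat_lit 347)) (XT.nd (nat_lit 78) (nat_lit 988) (nat_lit 0) (XT.lf (nat_lit 0) (nat_lit 5632338238) (nat_lit 912) (nat_lit 879465086) (nat_lit 988) (nat_lit 504841371) (nat_lit 521) (nat_lit 5) (nat_lit 533) (nat_lit 5) (nat_lit 534) (nat_lit 5) (nat_lit 400) (nat_lit 394) (nat_lit 346)) (XT.lf (nat_lit 0) (nat_lit 426246884) (nat_lit 988) (nat_lit 4588391413) (nat_lit 1064) (nat_lit 2038033238) (nat_lit 508) (nat_lit 5) (nat_lit 521) (nat_lit 5) (nat_lit 522) (nat_lit 5) (nat_lit 401) (nat_lit 394) (nat_lit 345)))) (XT.nd (nat_lit 156) (nat_lit 988) (nat_lit 0) (XT.nd (nat_lit 78) (nat_lit 0) (nat_lit 0) (XT.lf (nat_lit 0) (nat_lit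 2215783760) (nat_lit 988) (nat_lit 1237973349) (nat_lit 1064) (nat_lit 3636312993) (nat_lit 508) (nat_lit 5) (nat_lit 521) (nat_lit 5) (nat_lit 522) (nat_lit 5) (nat_lit 402) (nat_lit 394) (nat_lit 344)) (XT.lf (nat_lit 76) (nat_lit 2182302391) (nat_lit 0) (nat_lit 1829203669) (nat_lit 1064) (nat_lit 3117361868) (nat_lit 509) (nat_lit 5) (nat_lit 508) (nat_lit 5) (nat_lit 522) (nat_lit 5) (nat_lit 403) (nat_lit 394) (nat_lit 343))) (XT.nd (nat_lit 78) (nat_lit 988) (nat_lit 0) (XT.lf (nat_lit 76) (nat_lit 5662162281) (nat_lit 0) (nat_lit 146205799) (nat_lit 1064) (nat_lit 1360827143) (nat_lit 509) (nat_lit 5) (nat_lit 508) (nat_lit 5) (nat_lit 522) (nat_lit 5) (nat_lit 404) (nat_lit 394) (nat_lit 342)) (XT.lf (nat_lit 0) (nat_lit 406003531) (nat_lit 1064) (nat_lit 5222342931) (nat_lit 1140) (nat_lit 1582366108) (nat_lit 495) (nat_lit 5) (nat_lit 509) (nat_lit 5) (nat_lit 510) (nat_lit 5) (nat_lit 405)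 (nat_lit 394) (nat_lit 341)))))) (XT.nd (nat_lit 546) (nat_lit 3648) (nat_lit 0) (XT.nd (nat_lit 234) (nat_lit 1064) (nat_lit 0) (XT.nd (nat_lit 78) (nat_lit 0) (nat_lit 0) (XT.lf (nat_lit 0) (nat_lit 2159316333) (nat_lit 1064) (nat_lit 1715348486) (nat_lit 1140) (nat_lit 3378882877) (nat_lit 495) (nat_lit 5) (nat_lit 509) (nat_lit 5) (nat_lit 510) (nat_lit 5) (nat_lit 406) (nat_lit 394) (nat_lit 340)) (XT.nd (nat_lit 78) (nat_lit 0) (nat_lit 0) (XT.lf (nat_lit 76) (nat_lit 1860151024) (nat_lit 0) (nat_lit 2058643022) (nat_lit 1140) (nat_lit 3379077107) (nat_lit 496) (nat_lit 5) (nat_lit 495) (nat_lit 5) (nat_lit 510) (nat_lit 5) (nat_lit 407) (nat_lit 394) (nat_lit 339)) (XT.lf (nat_lit 76) (nat_lit 5504552745) (nat_lit 0) (nat_lit 180076388) (nat_lit 1140) (nat_lit 1659081141) (nat_lit 496) (nat_lit 5) (nat_lit 495) (nat_lit 5) (nat_lit 510) (nat_lit 5) (nat_lit 408) (nat_lit 394) (nat_lit 338)))) (XT.nd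 (nat_lit 156) (nat_lit 0) (nat_lit 0) (XT.nd (nat_lit 78) (nat_lit 0) (nat_lit 0) (XT.lf (nat_lit 0) (nat_lit 77518557) (nat_lit 1140) (nat_lit 5573699355) (nat_lit 1216) (nat_lit 1739617318) (nat_lit 481) (nat_lit 5) (nat_lit 496) (nat_lit 5) (nat_lit 497) (nat_lit 5) (nat_lit 409) (nat_lit 394) (nat_lit 337)) (XT.lf (nat_lit 0) (nat_lit 1801109086) (nat_lit 1140) (nat_lit 1906116530) (nat_lit 1216) (nat_lit 3732017781) (nat_lit 481) (nat_lit 5) (nat_lit 496) (nat_lit 5) (nat_lit 497) (nat_lit 5) (nat_lit 410) (nat_lit 394) (nat_lit 336))) (XT.nd (nat_lit 78) (nat_lit 0) (nat_lit 76) (XT.lf (nat_lit 76) (nat_lit 1832692763) (nat_lit 0) (nat_lit 1699982775) (nat_lit 1216) (nat_lit 3956522655) (nat_lit 482) (nat_lit 5) (nat_lit 481) (nat_lit 5) (nat_lit 497) (nat_lit 5) (nat_lit 411) (nat_lit 394) (nat_lit 335)) (XT.lf (nat_lit 0) (nat_lit 5276270572) (nat_lit 1140) (nat_lit 1896990137) (nat_lit 1216)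 (nat_lit 367391027) (nat_lit 482) (nat_lit 5) (nat_lit 497) (nat_lit 5) (nat_lit 498) (nat_lit 5) (nat_lit 412) (nat_lit 394) (nat_lit 334))))) (XT.nd (nat_lit 234) (nat_lit 2508) (nat_lit 0) (XT.nd (nat_lit 78) (nat_lit 1216) (nat_lit 0) (XT.lf (nat_lit 76) (nat_lit 1925365940) (nat_lit 0) (nat_lit 5116136281) (nat_lit 1216) (nat_lit 551943497) (nat_lit 483) (nat_lit 5) (nat_lit 482) (nat_lit 5) (nat_lit 498) (nat_lit 5) (nat_lit 413) (nat_lit 394) (nat_lit 333)) (XT.nd (nat_lit 78) (nat_lit 0) (nat_lit 0) (XT.lf (nat_lit 0) (nat_lit 1155162559) (nat_lit 1216) (nat_lit 1831701491) (nat_lit 1292) (nat_lit 4660799462) (nat_lit 466) (nat_lit 5) (nat_lit 482) (nat_lit 5) (nat_lit 483) (nat_lit 5) (nat_lit 414) (nat_lit 394) (nat_lit 332)) (XT.lf (nat_lit 76) (nat_lit 2078834494) (nat_lit 0) (nat_lit 787684703) (nat_lit 1292) (nat_lit 4836867490) (nat_lit 467) (nat_lit 5) (nat_lit 466) (nat_lit 5) (nat_lit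 483) (nat_lit 5) (nat_lit 415) (nat_lit 394) (nat_lit 331)))) (XT.nd (nat_lit 156) (nat_lit 1368) (nat_lit 0) (XT.nd (nat_lit 78) (nat_lit 1216) (nat_lit 0) (XT.lf (nat_lit 0) (nat_lit 4598519443) (nat_lit 1216) (nat_lit 1703919999) (nat_lit 76) (nat_lit 1458099664) (nat_lit 467) (nat_lit 5) (nat_lit 483) (nat_lit 5) (nat_lit 468) (nat_lit 5) (nat_lit 416) (nat_lit 394) (nat_lit 330)) (XT.lf (nat_lit 0) (nat_lit 2293695944) (nat_lit 1216) (nat_lit 4056860107) (nat_lit 1292) (nat_lit 1468612859) (nat_lit 451) (nat_lit 5) (nat_lit 467) (nat_lit 5) (nat_lit 468) (nat_lit 5) (nat_lit 417) (nat_lit 394) (nat_lit 329))) (XT.nd (nat_lit 78) (nat_lit 1292) (nat_lit 0) (XT.lf (nat_lit 0) (nat_lit 232310954) (nat_lit 1292) (nat_lit 1512756843) (nat_lit 76) (nat_lit 6134369722) (nat_lit 450) (nat_lit 5) (nat_lit 467) (nat_lit 5) (nat_lit 451) (nat_lit 5) (nat_lit 418) (nat_lit 394) (nat_lit 328)) (XT.lf (nat_lit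 0) (nat_lit 1934758478) (nat_lit 1368) (nat_lit 5367099972) (nat_lit 76) (nat_lit 639155327) (nat_lit 433) (nat_lit 5) (nat_lit 451) (nat_lit 5) (nat_lit 434) (nat_lit 5) (nat_lit 419) (nat_lit 394) (nat_lit 327))))))) (XT.nd (nat_lit 1014) (nat_lit 5396) (nat_lit 0) (XT.nd (nat_lit 468) (nat_lit 5168) (nat_lit 0) (XT.nd (nat_lit 234) (nat_lit 3040) (nat_lit 0) (XT.nd (nat_lit 78) (nat_lit 1368) (nat_lit 0) (XT.lf (nat_lit 0) (nat_lit 3659779656) (nat_lit 1368) (nat_lit 1279098404) (nat_lit 76) (nat_lit 3065212052) (nat_lit 433) (nat_lit 5) (nat_lit 451) (nat_lit 5) (nat_lit 434) (nat_lit 5) (nat_lit 420) (nat_lit 394) (nat_lit 326)) (XT.nd (nat_lit 78) (nat_lit 0) (nat_lit 0) (XT.lf (nat_lit 0) (nat_lit 2902574522) (nat_lit 1368) (nat_lit 2502973486) (nat_lit 1444) (nat_lit 2663193310) (nat_lit 415) (nat_lit 5) (nat_lit 433) (nat_lit 5) (nat_lit 434) (nat_lit 5) (nat_lit 421) (nat_lit 394) (nat_lit 325))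 (XT.lf (nat_lit 0) (nat_lit 7159235046) (nat_lit 1368) (nat_lit 3451901) (nat_lit 1444) (nat_lit 972507027) (nat_lit 415) (nat_lit 5) (nat_lit 433) (nat_lit 5) (nat_lit 434) (nat_lit 5) (nat_lit 422) (nat_lit 394) (nat_lit 324)))) (XT.nd (nat_lit 78) (nat_lit 1520) (nat_lit 0) (XT.lf (nat_lit 0) (nat_lit 748625416) (nat_lit 1520) (nat_lit 4909204460) (nat_lit 76) (nat_lit 2544954330) (nat_lit 395) (nat_lit 5) (nat_lit 415) (nat_lit 5) (nat_lit 396) (nat_lit 5) (nat_lit 423) (nat_lit 394) (nat_lit 323)) (XT.nd (nat_lit 78) (nat_lit 1520) (nat_lit 0) (XT.lf (nat_lit 0) (nat_lit 2466534121) (nat_lit 1520) (nat_lit 642822554) (nat_lit 76) (nat_lit 5162768859) (nat_lit 395) (nat_lit 5) (nat_lit 415) (nat_lit 5) (nat_lit 396) (nat_lit 5) (nat_lit 424) (nat_lit 394) (nat_lit 322)) (XT.lf (nat_lit 0) (nat_lit 3731891028) (nat_lit 1520) (nat_lit 480500548) (nat_lit 1596) (nat_lit 4130624972) (nat_lit 375) (nat_lit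 5) (nat_lit 395) (nat_lit 5) (nat_lit 396) (nat_lit 5) (nat_lit 425) (nat_lit 394) (nat_lit 321))))) (XT.nd (nat_lit 234) (nat_lit 1824) (nat_lit 0) (XT.nd (nat_lit 78) (nat_lit 3344) (nat_lit 0) (XT.lf (nat_lit 0) (nat_lit 5981621265) (nat_lit 1596) (nat_lit 253181716) (nat_lit 76) (nat_lit 2180787290) (nat_lit 375) (nat_lit 5) (nat_lit 396) (nat_lit 5) (nat_lit 376) (nat_lit 5) (nat_lit 426) (nat_lit 394) (nat_lit 320)) (XT.nd (nat_lit 78) (nat_lit 1748) (nat_lit 0) (XT.lf (nat_lit 0) (nat_lit 4218142264) (nat_lit 1596) (nat_lit 3569077015) (nat_lit 1672) (nat_lit 702409840) (nat_lit 354) (nat_lit 5) (nat_lit 375) (nat_lit 5) (nat_lit 376) (nat_lit 5) (nat_lit 427) (nat_lit 394) (nat_lit 319)) (XT.lf (nat_lit 0) (nat_lit 186568290) (nat_lit 1672) (nat_lit 836784232) (nat_lit 1748) (nat_lit 7542219644) (nat_lit 331) (nat_lit 5) (nat_lit 353) (nat_lit 5) (nat_lit 354) (nat_lit 5) (nat_lit 428) (nat_lit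 394) (nat_lit 318)))) (XT.nd (nat_lit 156) (nat_lit 836) (nat_lit 0) (XT.nd (nat_lit 78) (nat_lit 988) (nat_lit 0) (XT.lf (nat_lit 0) (nat_lit 2786778290) (nat_lit 1748) (nat_lit 3894907300) (nat_lit 76) (nat_lit 1961035961) (nat_lit 331) (nat_lit 5) (nat_lit 354) (nat_lit 5) (nat_lit 332) (nat_lit 5) (nat_lit 429) (nat_lit 394) (nat_lit 317)) (XT.lf (nat_lit 0) (nat_lit 655824047) (nat_lit 988) (nat_lit 3911045426) (nat_lit 1064) (nat_lit 4154947298) (nat_lit 318) (nat_lit 5) (nat_lit 331) (nat_lit 5) (nat_lit 332) (nat_lit 5) (nat_lit 430) (nat_lit 394) (nat_lit 316))) (XT.nd (nat_lit 78) (nat_lit 836) (nat_lit 0) (XT.lf (nat_lit 0) (nat_lit 5324431479) (nat_lit 988) (nat_lit 1056253648) (nat_lit 1064) (nat_lit 2421876500) (nat_lit 318) (nat_lit 5) (nat_lit 331) (nat_lit 5) (nat_lit 332) (nat_lit 5) (nat_lit 431) (nat_lit 394) (nat_lit 315)) (XT.lf (nat_lit 0) (nat_lit 1178884319) (nat_lit 836) (nat_lit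 7044143182) (nat_lit 912) (nat_lit 662078463) (nat_lit 307) (nat_lit 5) (nat_lit 318) (nat_lit 5) (nat_lit 319) (nat_lit 5) (nat_lit 432) (nat_lit 394) (nat_lit 314)))))) (XT.nd (nat_lit 546) (nat_lit 2888) (nat_lit 0) (XT.nd (nat_lit 234) (nat_lit 1596) (nat_lit 0) (XT.nd (nat_lit 78) (nat_lit 836) (nat_lit 0) (XT.lf (nat_lit 0) (nat_lit 1121257630) (nat_lit 912) (nat_lit 3033392165) (nat_lit 76) (nat_lit 4814468711) (nat_lit 306) (nat_lit 5) (nat_lit 318) (nat_lit 5) (nat_lit 307) (nat_lit 5) (nat_lit 433) (nat_lit 394) (nat_lit 313)) (XT.nd (nat_lit 78) (nat_lit 0) (nat_lit 0) (XT.lf (nat_lit 0) (nat_lit 1725414320) (nat_lit 836) (nat_lit 1190437574) (nat_lit 912) (nat_lit 6139210632) (nat_lit 295) (nat_lit 5) (nat_lit 306) (nat_lit 5) (nat_lit 307) (nat_lit 5) (nat_lit 434) (nat_lit 394) (nat_lit 312)) (XT.lf (nat_lit 0) (nat_lit 4752339928) (nat_lit 912) (nat_lit 2559954733) (nat_lit 76) (nat_lit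 1830338064) (nat_lit 295) (nat_lit 5) (nat_lit 307) (nat_lit 5) (nat_lit 296) (nat_lit 5) (nat_lit 435) (nat_lit 394) (nat_lit 311)))) (XT.nd (nat_lit 156) (nat_lit 836) (nat_lit 0) (XT.nd (nat_lit 78) (nat_lit 0) (nat_lit 0) (XT.lf (nat_lit 0) (nat_lit 2301834412) (nat_lit 760) (nat_lit 4320679478) (nat_lit 836) (nat_lit 2609528117) (nat_lit 285) (nat_lit 5) (nat_lit 295) (nat_lit 5) (nat_lit 296) (nat_lit 5) (nat_lit 436) (nat_lit 394) (nat_lit 310)) (XT.lf (nat_lit 0) (nat_lit 7270125170) (nat_lit 760) (nat_lit 1251614409) (nat_lit 836) (nat_lit 801693208) (nat_lit 285) (nat_lit 5) (nat_lit 295) (nat_lit 5) (nat_lit 296) (nat_lit 5) (nat_lit 437) (nat_lit 394) (nat_lit 309))) (XT.nd (nat_lit 78) (nat_lit 0) (nat_lit 0) (XT.lf (nat_lit 0) (nat_lit 1034783319) (nat_lit 836) (nat_lit 6501573892) (nat_lit 76) (nat_lit 1880060983) (nat_lit 274) (nat_lit 5) (nat_lit 285) (nat_lit 5) (nat_lit 275) (nat_lit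 5) (nat_lit 438) (nat_lit 394) (nat_lit 308)) (XT.lf (nat_lit 0) (nat_lit 2894532422) (nat_lit 836) (nat_lit 1540135963) (nat_lit 76) (nat_lit 5076568149) (nat_lit 274) (nat_lit 5) (nat_lit 285) (nat_lit 5) (nat_lit 275) (nat_lit 5) (nat_lit 439) (nat_lit 394) (nat_lit 307))))) (XT.nd (nat_lit 234) (nat_lit 1444) (nat_lit 0) (XT.nd (nat_lit 78) (nat_lit 760) (nat_lit 0) (XT.lf (nat_lit 0) (nat_lit 3541834183) (nat_lit 684) (nat_lit 1248235141) (nat_lit 760) (nat_lit 4817934335) (nat_lit 265) (nat_lit 5) (nat_lit 274) (nat_lit 5) (nat_lit 275) (nat_lit 5) (nat_lit 440) (nat_lit 394) (nat_lit 306)) (XT.nd (nat_lit 78) (nat_lit 760) (nat_lit 0) (XT.lf (nat_lit 0) (nat_lit 6722825720) (nat_lit 760) (nat_lit 998727628) (nat_lit 76) (nat_lit 1985190403) (nat_lit 265) (nat_lit 5) (nat_lit 275) (nat_lit 5) (nat_lit 266) (nat_lit 5) (nat_lit 441) (nat_lit 394) (nat_lit 305)) (XT.lf (nat_lit 0) (nat_lit 4191789731)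 (nat_lit 760) (nat_lit 4514309604) (nat_lit 836) (nat_lit 1101145401) (nat_lit 255) (nat_lit 5) (nat_lit 265) (nat_lit 5) (nat_lit 266) (nat_lit 5) (nat_lit 442) (nat_lit 394) (nat_lit 304)))) (XT.nd (nat_lit 156) (nat_lit 684) (nat_lit 0) (XT.nd (nat_lit 78) (nat_lit 684) (nat_lit 0) (XT.lf (nat_lit 0) (nat_lit 791788772) (nat_lit 836) (nat_lit 440483206) (nat_lit 76) (nat_lit 8677734781) (nat_lit 254) (nat_lit 5) (nat_lit 265) (nat_lit 5) (nat_lit 255) (nat_lit 5) (nat_lit 443) (nat_lit 394) (nat_lit 303)) (XT.lf (nat_lit 0) (nat_lit 2730416936) (nat_lit 760) (nat_lit 5158604925) (nat_lit 76) (nat_lit 2125226983) (nat_lit 245) (nat_lit 5) (nat_lit 255) (nat_lit 5) (nat_lit 246) (nat_lit 5) (nat_lit 444) (nat_lit 394) (nat_lit 302))) (XT.nd (nat_lit 78) (nat_lit 0) (nat_lit 0) (XT.lf (nat_lit 0) (nat_lit 111466582) (nat_lit 684) (nat_lit 4585457638) (nat_lit 760) (nat_lit 5423890976) (nat_lit 236) (nat_lit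 5) (nat_lit 245) (nat_lit 5) (nat_lit 246) (nat_lit 5) (nat_lit 445) (nat_lit 394) (nat_lit 301)) (XT.lf (nat_lit 0) (nat_lit 5532067192) (nat_lit 684) (nat_lit 1182843199) (nat_lit 760) (nat_lit 3514380643) (nat_lit 236) (nat_lit 5) (nat_lit 245) (nat_lit 5) (nat_lit 246) (nat_lit 5) (nat_lit 446) (nat_lit 394) (nat_lit 300))))))))
noncomputable def xc139 : XT := (XT.nd (nat_lit 2106) (nat_lit 4560) (nat_lit 0) (XT.nd (nat_lit 1014) (nat_lit 3496) (nat_lit 0) (XT.nd (nat_lit 468) (nat_lit 2432) (nat_lit 0) (XT.nd (nat_lit 234) (nat_lit 608) (nat_lit 0) (XT.nd (nat_lit 78) (nat_lit 760) (nat_lit 0) (XT.lf (nat_lit 0) (nat_lit 690587771) (nat_lit 608) (nat_lit 8079963840) (nat_lit 684) (nat_lit 1569459589) (nat_lit 228) (nat_lit 5) (nat_lit 236) (nat_lit 5) (nat_lit 237) (nat_lit 5) (nat_lit 447) (nat_lit 394) (nat_lit 299)) (XT.nd (nat_lit 78) (nat_lit 684) (nat_lit 0) (XT.lf (nat_lit 0) (nat_lit 426554271)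 (nat_lit 684) (nat_lit 4238127366) (nat_lit 76) (nat_lit 5787877665) (nat_lit 227) (nat_lit 5) (nat_lit 236) (nat_lit 5) (nat_lit 228) (nat_lit 5) (nat_lit 448) (nat_lit 394) (nat_lit 298)) (XT.lf (nat_lit 0) (nat_lit 1263148353) (nat_lit 684) (nat_lit 1165041717) (nat_lit 760) (nat_lit 8139246004) (nat_lit 218) (nat_lit 5) (nat_lit 227) (nat_lit 5) (nat_lit 228) (nat_lit 5) (nat_lit 449) (nat_lit 394) (nat_lit 297)))) (XT.nd (nat_lit 78) (nat_lit 608) (nat_lit 0) (XT.lf (nat_lit 0) (nat_lit 4492839629) (nat_lit 760) (nat_lit 3792626210) (nat_lit 76) (nat_lit 2398704062) (nat_lit 218) (nat_lit 5) (nat_lit 228) (nat_lit 5) (nat_lit 219) (nat_lit 5) (nat_lit 450) (nat_lit 394) (nat_lit 296)) (XT.nd (nat_lit 78) (nat_lit 0) (nat_lit 0) (XT.lf (nat_lit 0) (nat_lit 1821240285) (nat_lit 608) (nat_lit 4776239391) (nat_lit 684) (nat_lit 4205803544) (nat_lit 210) (nat_lit 5) (nat_lit 218) (nat_lit 5) (nat_lit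 219) (nat_lit 5) (nat_lit 451) (nat_lit 394) (nat_lit 295)) (XT.lf (nat_lit 0) (nat_lit 7574754727) (nat_lit 608) (nat_lit 1174318204) (nat_lit 684) (nat_lit 2175627063) (nat_lit 210) (nat_lit 5) (nat_lit 218) (nat_lit 5) (nat_lit 219) (nat_lit 5) (nat_lit 452) (nat_lit 394) (nat_lit 294))))) (XT.nd (nat_lit 234) (nat_lit 1216) (nat_lit 0) (XT.nd (nat_lit 78) (nat_lit 608) (nat_lit 0) (XT.lf (nat_lit 0) (nat_lit 2385888500) (nat_lit 608) (nat_lit 8569321313) (nat_lit 684) (nat_lit 93123093) (nat_lit 202) (nat_lit 5) (nat_lit 210) (nat_lit 5) (nat_lit 211) (nat_lit 5) (nat_lit 453) (nat_lit 394) (nat_lit 293)) (XT.nd (nat_lit 78) (nat_lit 532) (nat_lit 0) (XT.lf (nat_lit 0) (nat_lit 2014682960) (nat_lit 684) (nat_lit 2937348027) (nat_lit 76) (nat_lit 6221955305) (nat_lit 201) (nat_lit 5) (nat_lit 210) (nat_lit 5) (nat_lit 202) (nat_lit 5) (nat_lit 454) (nat_lit 394) (nat_lit 292)) (XT.lf (nat_lit 0) (nat_lit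 2916258405) (nat_lit 532) (nat_lit 1246353330) (nat_lit 608) (nat_lit 7139561424) (nat_lit 194) (nat_lit 5) (nat_lit 201) (nat_lit 5) (nat_lit 202) (nat_lit 5) (nat_lit 455) (nat_lit 394) (nat_lit 291)))) (XT.nd (nat_lit 156) (nat_lit 608) (nat_lit 0) (XT.nd (nat_lit 78) (nat_lit 608) (nat_lit 0) (XT.lf (nat_lit 0) (nat_lit 6370276107) (nat_lit 608) (nat_lit 2546202931) (nat_lit 76) (nat_lit 2516125849) (nat_lit 194) (nat_lit 5) (nat_lit 202) (nat_lit 5) (nat_lit 195) (nat_lit 5) (nat_lit 456) (nat_lit 394) (nat_lit 290)) (XT.lf (nat_lit 0) (nat_lit 3423569881) (nat_lit 608) (nat_lit 5209875156) (nat_lit 684) (nat_lit 2931989524) (nat_lit 186) (nat_lit 5) (nat_lit 194) (nat_lit 5) (nat_lit 195) (nat_lit 5) (nat_lit 457) (nat_lit 394) (nat_lit 289))) (XT.nd (nat_lit 78) (nat_lit 608) (nat_lit 0) (XT.lf (nat_lit 0) (nat_lit 9524026431) (nat_lit 608) (nat_lit 1416030781) (nat_lit 684) (nat_lit 760916036)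 (nat_lit 186) (nat_lit 5) (nat_lit 194) (nat_lit 5) (nat_lit 195) (nat_lit 5) (nat_lit 458) (nat_lit 394) (nat_lit 288)) (XT.lf (nat_lit 0) (nat_lit 1457467028) (nat_lit 608) (nat_lit 7928755483) (nat_lit 76) (nat_lit 2452367798) (nat_lit 178) (nat_lit 5) (nat_lit 186) (nat_lit 5) (nat_lit 179) (nat_lit 5) (nat_lit 459) (nat_lit 394) (nat_lit 287)))))) (XT.nd (nat_lit 546) (nat_lit 1900) (nat_lit 0) (XT.nd (nat_lit 234) (nat_lit 1064) (nat_lit 0) (XT.nd (nat_lit 78) (nat_lit 532) (nat_lit 0) (XT.lf (nat_lit 0) (nat_lit 3715636322) (nat_lit 608) (nat_lit 1868558221) (nat_lit 76) (nat_lit 6394567523) (nat_lit 178) (nat_lit 5) (nat_lit 186) (nat_lit 5) (nat_lit 179) (nat_lit 5) (nat_lit 460) (nat_lit 394) (nat_lit 286)) (XT.nd (nat_lit 78) (nat_lit 0) (nat_lit 0) (XT.lf (nat_lit 0) (nat_lit 4347073022) (nat_lit 532) (nat_lit 1681997333) (nat_lit 608) (nat_lit 6092479674) (nat_lit 171) (nat_lit 5) (nat_lit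 178) (nat_lit 5) (nat_lit 179) (nat_lit 5) (nat_lit 461) (nat_lit 394) (nat_lit 285)) (XT.lf (nat_lit 0) (nat_lit 8398371880) (nat_lit 608) (nat_lit 1592576923) (nat_lit 76) (nat_lit 2276067478) (nat_lit 171) (nat_lit 5) (nat_lit 179) (nat_lit 5) (nat_lit 172) (nat_lit 5) (nat_lit 462) (nat_lit 394) (nat_lit 284)))) (XT.nd (nat_lit 156) (nat_lit 532) (nat_lit 0) (XT.nd (nat_lit 78) (nat_lit 76) (nat_lit 0) (XT.lf (nat_lit 0) (nat_lit 4741483119) (nat_lit 456) (nat_lit 6097907124) (nat_lit 532) (nat_lit 1575529220) (nat_lit 165) (nat_lit 5) (nat_lit 171) (nat_lit 5) (nat_lit 172) (nat_lit 5) (nat_lit 463) (nat_lit 394) (nat_lit 283)) (XT.lf (nat_lit 0) (nat_lit 746670940) (nat_lit 532) (nat_lit 1369405132) (nat_lit 76) (nat_lit 10449754462) (nat_lit 164) (nat_lit 5) (nat_lit 171) (nat_lit 5) (nat_lit 165) (nat_lit 5) (nat_lit 464) (nat_lit 394) (nat_lit 282))) (XT.nd (nat_lit 78) (nat_lit 0) (nat_lit 0)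 (XT.lf (nat_lit 0) (nat_lit 3123025737) (nat_lit 608) (nat_lit 7637218713) (nat_lit 76) (nat_lit 1958744355) (nat_lit 157) (nat_lit 5) (nat_lit 165) (nat_lit 5) (nat_lit 158) (nat_lit 5) (nat_lit 465) (nat_lit 394) (nat_lit 281)) (XT.lf (nat_lit 0) (nat_lit 5553153882) (nat_lit 608) (nat_lit 1230922890) (nat_lit 76) (nat_lit 6091021682) (nat_lit 157) (nat_lit 5) (nat_lit 165) (nat_lit 5) (nat_lit 158) (nat_lit 5) (nat_lit 466) (nat_lit 394) (nat_lit 280))))) (XT.nd (nat_lit 234) (nat_lit 988) (nat_lit 0) (XT.nd (nat_lit 78) (nat_lit 456) (nat_lit 0) (XT.lf (nat_lit 0) (nat_lit 5351773316) (nat_lit 456) (nat_lit 2698174435) (nat_lit 532) (nat_lit 4984034163) (nat_lit 151) (nat_lit 5) (nat_lit 157) (nat_lit 5) (nat_lit 158) (nat_lit 5) (nat_lit 467) (nat_lit 394) (nat_lit 279)) (XT.nd (nat_lit 78) (nat_lit 456) (nat_lit 0) (XT.lf (nat_lit 0) (nat_lit 10598000415) (nat_lit 532) (nat_lit 1144743418) (nat_lit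 76) (nat_lit 1453285382) (nat_lit 151) (nat_lit 5) (nat_lit 158) (nat_lit 5) (nat_lit 152) (nat_lit 5) (nat_lit 468) (nat_lit 394) (nat_lit 278)) (XT.lf (nat_lit 0) (nat_lit 5556834991) (nat_lit 456) (nat_lit 7677918127) (nat_lit 532) (nat_lit 125821944) (nat_lit 145) (nat_lit 5) (nat_lit 151) (nat_lit 5) (nat_lit 152) (nat_lit 5) (nat_lit 469) (nat_lit 394) (nat_lit 277)))) (XT.nd (nat_lit 156) (nat_lit 456) (nat_lit 0) (XT.nd (nat_lit 78) (nat_lit 456) (nat_lit 0) (XT.lf (nat_lit 0) (nat_lit 2355991700) (nat_lit 532) (nat_lit 1157632464) (nat_lit 76) (nat_lit 10014656770) (nat_lit 144) (nat_lit 5) (nat_lit 151) (nat_lit 5) (nat_lit 145) (nat_lit 5) (nat_lit 470) (nat_lit 394) (nat_lit 276)) (XT.lf (nat_lit 0) (nat_lit 4911743252) (nat_lit 532) (nat_lit 8030224098) (nat_lit 76) (nat_lit 756848878) (nat_lit 138) (nat_lit 5) (nat_lit 145) (nat_lit 5) (nat_lit 139) (nat_lit 5) (nat_lit 471) (nat_lit 394)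 (nat_lit 275))) (XT.nd (nat_lit 78) (nat_lit 456) (nat_lit 0) (XT.lf (nat_lit 0) (nat_lit 7534004219) (nat_lit 532) (nat_lit 1270347088) (nat_lit 76) (nat_lit 5068114471) (nat_lit 138) (nat_lit 5) (nat_lit 145) (nat_lit 5) (nat_lit 139) (nat_lit 5) (nat_lit 472) (nat_lit 394) (nat_lit 274)) (XT.lf (nat_lit 0) (nat_lit 5678165289) (nat_lit 456) (nat_lit 4552024845) (nat_lit 532) (nat_lit 3818979805) (nat_lit 132) (nat_lit 5) (nat_lit 138) (nat_lit 5) (nat_lit 139) (nat_lit 5) (nat_lit 473) (nat_lit 394) (nat_lit 273))))))) (XT.nd (nat_lit 1092) (nat_lit 1824) (nat_lit 0) (XT.nd (nat_lit 546) (nat_lit 1444) (nat_lit 0) (XT.nd (nat_lit 234) (nat_lit 836) (nat_lit 0) (XT.nd (nat_lit 78) (nat_lit 456) (nat_lit 0) (XT.lf (nat_lit 0) (nat_lit 12761973846) (nat_lit 456) (nat_lit 211629976) (nat_lit 532) (nat_lit 1255949275) (nat_lit 132) (nat_lit 5) (nat_lit 138) (nat_lit 5) (nat_lit 139) (nat_lit 5) (nat_lit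 474) (nat_lit 394) (nat_lit 272)) (XT.nd (nat_lit 78) (nat_lit 0) (nat_lit 0) (XT.lf (nat_lit 0) (nat_lit 1389605127) (nat_lit 456) (nat_lit 8822499742) (nat_lit 76) (nat_lit 4200291668) (nat_lit 126) (nat_lit 5) (nat_lit 132) (nat_lit 5) (nat_lit 127) (nat_lit 5) (nat_lit 475) (nat_lit 394) (nat_lit 271)) (XT.lf (nat_lit 0) (nat_lit 4067676818) (nat_lit 456) (nat_lit 1820897674) (nat_lit 76) (nat_lit 8710238208) (nat_lit 126) (nat_lit 5) (nat_lit 132) (nat_lit 5) (nat_lit 127) (nat_lit 5) (nat_lit 476) (nat_lit 394) (nat_lit 270)))) (XT.nd (nat_lit 156) (nat_lit 456) (nat_lit 0) (XT.nd (nat_lit 78) (nat_lit 0) (nat_lit 0) (XT.lf (nat_lit 0) (nat_lit 5370753963) (nat_lit 380) (nat_lit 1448811447) (nat_lit 456) (nat_lit 7968996826) (nat_lit 121) (nat_lit 5) (nat_lit 126) (nat_lit 5) (nat_lit 127) (nat_lit 5) (nat_lit 477) (nat_lit 394) (nat_lit 269)) (XT.lf (nat_lit 0) (nat_lit 9644289634) (nat_lit 456)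 (nat_lit 2291565539) (nat_lit 76) (nat_lit 3045905590) (nat_lit 121) (nat_lit 5) (nat_lit 127) (nat_lit 5) (nat_lit 122) (nat_lit 5) (nat_lit 478) (nat_lit 394) (nat_lit 268))) (XT.nd (nat_lit 78) (nat_lit 76) (nat_lit 0) (XT.lf (nat_lit 0) (nat_lit 5013211481) (nat_lit 380) (nat_lit 7540227004) (nat_lit 456) (nat_lit 2624835934) (nat_lit 116) (nat_lit 5) (nat_lit 121) (nat_lit 5) (nat_lit 122) (nat_lit 5) (nat_lit 479) (nat_lit 394) (nat_lit 267)) (XT.lf (nat_lit 0) (nat_lit 141500823) (nat_lit 456) (nat_lit 2904498205) (nat_lit 76) (nat_lit 12332684020) (nat_lit 115) (nat_lit 5) (nat_lit 121) (nat_lit 5) (nat_lit 116) (nat_lit 5) (nat_lit 480) (nat_lit 394) (nat_lit 266))))) (XT.nd (nat_lit 234) (nat_lit 760) (nat_lit 0) (XT.nd (nat_lit 78) (nat_lit 304) (nat_lit 0) (XT.lf (nat_lit 0) (nat_lit 2953787419) (nat_lit 456) (nat_lit 11069303137) (nat_lit 76) (nat_lit 1559156097) (nat_lit 110) (nat_lit 5)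 (nat_lit 116) (nat_lit 5) (nat_lit 111) (nat_lit 5) (nat_lit 481) (nat_lit 394) (nat_lit 265)) (XT.nd (nat_lit 78) (nat_lit 304) (nat_lit 0) (XT.lf (nat_lit 0) (nat_lit 5848327952) (nat_lit 456) (nat_lit 3711616490) (nat_lit 76) (nat_lit 6229425943) (nat_lit 110) (nat_lit 5) (nat_lit 116) (nat_lit 5) (nat_lit 111) (nat_lit 5) (nat_lit 482) (nat_lit 394) (nat_lit 264)) (XT.lf (nat_lit 0) (nat_lit 3823836121) (nat_lit 304) (nat_lit 4988236562) (nat_lit 380) (nat_lit 7188346483) (nat_lit 106) (nat_lit 5) (nat_lit 110) (nat_lit 5) (nat_lit 111) (nat_lit 5) (nat_lit 483) (nat_lit 394) (nat_lit 263)))) (XT.nd (nat_lit 156) (nat_lit 380) (nat_lit 0) (XT.nd (nat_lit 78) (nat_lit 380) (nat_lit 0) (XT.lf (nat_lit 0) (nat_lit 11540900196) (nat_lit 304) (nat_lit 305724472) (nat_lit 380) (nat_lit 4368842277) (nat_lit 106) (nat_lit 5) (nat_lit 110) (nat_lit 5) (nat_lit 111) (nat_lit 5) (nat_lit 484) (nat_lit 394) (nat_lit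 262)) (XT.lf (nat_lit 0) (nat_lit 2968131120) (nat_lit 380) (nat_lit 12008881984) (nat_lit 456) (nat_lit 1457108164) (nat_lit 101) (nat_lit 5) (nat_lit 106) (nat_lit 5) (nat_lit 107) (nat_lit 5) (nat_lit 485) (nat_lit 394) (nat_lit 261))) (XT.nd (nat_lit 78) (nat_lit 304) (nat_lit 0) (XT.lf (nat_lit 0) (nat_lit 1513508883) (nat_lit 456) (nat_lit 5860845247) (nat_lit 76) (nat_lit 9282196475) (nat_lit 100) (nat_lit 5) (nat_lit 106) (nat_lit 5) (nat_lit 101) (nat_lit 5) (nat_lit 486) (nat_lit 394) (nat_lit 260)) (XT.lf (nat_lit 0) (nat_lit 1892636894) (nat_lit 304) (nat_lit 2630842763) (nat_lit 380) (nat_lit 12359775208) (nat_lit 96) (nat_lit 5) (nat_lit 100) (nat_lit 5) (nat_lit 101) (nat_lit 5) (nat_lit 487) (nat_lit 394) (nat_lit 259)))))) (XT.nd (nat_lit 546) (nat_lit 836) (nat_lit 0) (XT.nd (nat_lit 234) (nat_lit 684) (nat_lit 0) (XT.nd (nat_lit 78) (nat_lit 304) (nat_lit 0) (XT.lf (nat_lit 0) (nat_lit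 7634808404) (nat_lit 380) (nat_lit 7266702335) (nat_lit 76) (nat_lit 2212167152) (nat_lit 96) (nat_lit 5) (nat_lit 101) (nat_lit 5) (nat_lit 97) (nat_lit 5) (nat_lit 488) (nat_lit 394) (nat_lit 258)) (XT.nd (nat_lit 78) (nat_lit 0) (nat_lit 0) (XT.lf (nat_lit 0) (nat_lit 583255150) (nat_lit 304) (nat_lit 10233804464) (nat_lit 380) (nat_lit 6531483543) (nat_lit 92) (nat_lit 5) (nat_lit 96) (nat_lit 5) (nat_lit 97) (nat_lit 5) (nat_lit 489) (nat_lit 394) (nat_lit 257)) (XT.lf (nat_lit 0) (nat_lit 8670173472) (nat_lit 304) (nat_lit 5429156976) (nat_lit 380) (nat_lit 3488055335) (nat_lit 92) (nat_lit 5) (nat_lit 96) (nat_lit 5) (nat_lit 97) (nat_lit 5) (nat_lit 490) (nat_lit 394) (nat_lit 256)))) (XT.nd (nat_lit 156) (nat_lit 304) (nat_lit 0) (XT.nd (nat_lit 78) (nat_lit 380) (nat_lit 0) (XT.lf (nat_lit 0) (nat_lit 16900653321) (nat_lit 304) (nat_lit 534447498) (nat_lit 380) (nat_lit 396154759) (nat_lit 92)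 (nat_lit 5) (nat_lit 96) (nat_lit 5) (nat_lit 97) (nat_lit 5) (nat_lit 491) (nat_lit 394) (nat_lit 255)) (XT.lf (nat_lit 0) (nat_lit 2785997510) (nat_lit 380) (nat_lit 10833019329) (nat_lit 76) (nat_lit 4459343363) (nat_lit 87) (nat_lit 5) (nat_lit 92) (nat_lit 5) (nat_lit 88) (nat_lit 5) (nat_lit 492) (nat_lit 394) (nat_lit 254))) (XT.nd (nat_lit 78) (nat_lit 304) (nat_lit 0) (XT.lf (nat_lit 0) (nat_lit 6024405343) (nat_lit 380) (nat_lit 2757143025) (nat_lit 76) (nat_lit 9548854810) (nat_lit 87) (nat_lit 5) (nat_lit 92) (nat_lit 5) (nat_lit 88) (nat_lit 5) (nat_lit 493) (nat_lit 394) (nat_lit 253)) (XT.lf (nat_lit 0) (nat_lit 5535125218) (nat_lit 304) (nat_lit 3816713913) (nat_lit 380) (nat_lit 9235169561) (nat_lit 83) (nat_lit 5) (nat_lit 87) (nat_lit 5) (nat_lit 88) (nat_lit 5) (nat_lit 494) (nat_lit 394) (nat_lit 252))))) (XT.nd (nat_lit 234) (nat_lit 532) (nat_lit 0) (XT.nd (nat_lit 78) (nat_lit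 304) (nat_lit 0) (XT.lf (nat_lit 0) (nat_lit 12760940684) (nat_lit 380) (nat_lit 4843787216) (nat_lit 76) (nat_lit 1243722736) (nat_lit 83) (nat_lit 5) (nat_lit 88) (nat_lit 5) (nat_lit 84) (nat_lit 5) (nat_lit 495) (nat_lit 394) (nat_lit 251)) (XT.nd (nat_lit 78) (nat_lit 76) (nat_lit 0) (XT.lf (nat_lit 0) (nat_lit 3532065473) (nat_lit 228) (nat_lit 12742990712) (nat_lit 304) (nat_lit 2839335166) (nat_lit 80) (nat_lit 5) (nat_lit 83) (nat_lit 5) (nat_lit 84) (nat_lit 5) (nat_lit 496) (nat_lit 394) (nat_lit 250)) (XT.lf (nat_lit 0) (nat_lit 488961417) (nat_lit 304) (nat_lit 7264693479) (nat_lit 76) (nat_lit 11631513328) (nat_lit 79) (nat_lit 5) (nat_lit 83) (nat_lit 5) (nat_lit 80) (nat_lit 5) (nat_lit 497) (nat_lit 394) (nat_lit 249)))) (XT.nd (nat_lit 156) (nat_lit 228) (nat_lit 0) (XT.nd (nat_lit 78) (nat_lit 0) (nat_lit 0) (XT.lf (nat_lit 0) (nat_lit 1199061769) (nat_lit 304) (nat_lit 2643439296)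 (nat_lit 380) (nat_lit 15818556483) (nat_lit 75) (nat_lit 5) (nat_lit 79) (nat_lit 5) (nat_lit 80) (nat_lit 5) (nat_lit 498) (nat_lit 394) (nat_lit 248)) (XT.lf (nat_lit 0) (nat_lit 7317807389) (nat_lit 380) (nat_lit 10045151718) (nat_lit 76) (nat_lit 2578417704) (nat_lit 75) (nat_lit 5) (nat_lit 80) (nat_lit 5) (nat_lit 76) (nat_lit 5) (nat_lit 499) (nat_lit 394) (nat_lit 247))) (XT.nd (nat_lit 78) (nat_lit 228) (nat_lit 0) (XT.lf (nat_lit 0) (nat_lit 10869286444) (nat_lit 380) (nat_lit 1494365857) (nat_lit 76) (nat_lit 7863522775) (nat_lit 75) (nat_lit 5) (nat_lit 80) (nat_lit 5) (nat_lit 76) (nat_lit 5) (nat_lit 500) (nat_lit 394) (nat_lit 246)) (XT.lf (nat_lit 0) (nat_lit 7306706786) (nat_lit 228) (nat_lit 7221901207) (nat_lit 304) (nat_lit 5989350890) (nat_lit 72) (nat_lit 5) (nat_lit 75) (nat_lit 5) (nat_lit 76) (nat_lit 5) (nat_lit 501) (nat_lit 394) (nat_lit 245))))))))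
noncomputable def xc140 : XT := (XT.nd (nat_lit 51324) (nat_lit 0) (nat_lit 25384) (XT.nd (nat_lit 1014) (nat_lit 988) (nat_lit 0) (XT.nd (nat_lit 468) (nat_lit 760) (nat_lit 0) (XT.nd (nat_lit 234) (nat_lit 228) (nat_lit 0) (XT.nd (nat_lit 78) (nat_lit 380) (nat_lit 0) (XT.lf (nat_lit 0) (nat_lit 16287608629) (nat_lit 228) (nat_lit 1973009828) (nat_lit 304) (nat_lit 2553955578) (nat_lit 72) (nat_lit 5) (nat_lit 75) (nat_lit 5) (nat_lit 76) (nat_lit 5) (nat_lit 502) (nat_lit 394) (nat_lit 244)) (XT.nd (nat_lit 78) (nat_lit 0) (nat_lit 0) (XT.lf (nat_lit 0) (nat_lit 977780339) (nat_lit 380) (nat_lit 16772958987) (nat_lit 76) (nat_lit 3365462403) (nat_lit 67) (nat_lit 5) (nat_lit 72) (nat_lit 5) (nat_lit 68) (nat_lit 5) (nat_lit 503) (nat_lit 394) (nat_lit 243)) (XT.lf (nat_lit 0) (nat_lit 4579299023) (nat_lit 380) (nat_lit 8017552226) (nat_lit 76) (nat_lit 8826011573) (nat_lit 67) (nat_lit 5) (nat_lit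 72) (nat_lit 5) (nat_lit 68) (nat_lit 5) (nat_lit 504) (nat_lit 394) (nat_lit 242)))) (XT.nd (nat_lit 78) (nat_lit 0) (nat_lit 0) (XT.lf (nat_lit 0) (nat_lit 908866942) (nat_lit 228) (nat_lit 7339752454) (nat_lit 304) (nat_lit 13487127598) (nat_lit 64) (nat_lit 5) (nat_lit 67) (nat_lit 5) (nat_lit 68) (nat_lit 5) (nat_lit 505) (nat_lit 394) (nat_lit 241)) (XT.nd (nat_lit 78) (nat_lit 0) (nat_lit 0) (XT.lf (nat_lit 0) (nat_lit 10106584208) (nat_lit 228) (nat_lit 1928509630) (nat_lit 304) (nat_lit 10018924838) (nat_lit 64) (nat_lit 5) (nat_lit 67) (nat_lit 5) (nat_lit 68) (nat_lit 5) (nat_lit 506) (nat_lit 394) (nat_lit 240)) (XT.lf (nat_lit 0) (nat_lit 15910737669) (nat_lit 304) (nat_lit 2929477630) (nat_lit 76) (nat_lit 3538176774) (nat_lit 64) (nat_lit 5) (nat_lit 68) (nat_lit 5) (nat_lit 65) (nat_lit 5) (nat_lit 507) (nat_lit 394) (nat_lit 239))))) (XT.nd (nat_lit 234) (nat_lit 228) (nat_lit 0) (XT.nd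 (nat_lit 78) (nat_lit 304) (nat_lit 0) (XT.lf (nat_lit 0) (nat_lit 6323547518) (nat_lit 228) (nat_lit 13584493753) (nat_lit 304) (nat_lit 2800333708) (nat_lit 61) (nat_lit 5) (nat_lit 64) (nat_lit 5) (nat_lit 65) (nat_lit 5) (nat_lit 508) (nat_lit 394) (nat_lit 238)) (XT.nd (nat_lit 78) (nat_lit 228) (nat_lit 0) (XT.lf (nat_lit 0) (nat_lit 938129747) (nat_lit 304) (nat_lit 7264942012) (nat_lit 76) (nat_lit 14841565886) (nat_lit 60) (nat_lit 5) (nat_lit 64) (nat_lit 5) (nat_lit 61) (nat_lit 5) (nat_lit 509) (nat_lit 394) (nat_lit 237)) (XT.lf (nat_lit 0) (nat_lit 2030241312) (nat_lit 228) (nat_lit 2687371282) (nat_lit 304) (nat_lit 18669572526) (nat_lit 57) (nat_lit 5) (nat_lit 60) (nat_lit 5) (nat_lit 61) (nat_lit 5) (nat_lit 510) (nat_lit 394) (nat_lit 236)))) (XT.nd (nat_lit 156) (nat_lit 228) (nat_lit 0) (XT.nd (nat_lit 78) (nat_lit 0) (nat_lit 0) (XT.lf (nat_lit 0) (nat_lit 8631419793) (nat_lit 304)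 (nat_lit 12160441409) (nat_lit 76) (nat_lit 2943552247) (nat_lit 57) (nat_lit 5) (nat_lit 61) (nat_lit 5) (nat_lit 58) (nat_lit 5) (nat_lit 511) (nat_lit 394) (nat_lit 235)) (XT.lf (nat_lit 0) (nat_lit 12632065620) (nat_lit 304) (nat_lit 2812744283) (nat_lit 76) (nat_lit 8645629702) (nat_lit 57) (nat_lit 5) (nat_lit 61) (nat_lit 5) (nat_lit 58) (nat_lit 5) (nat_lit 512) (nat_lit 394) (nat_lit 234))) (XT.nd (nat_lit 78) (nat_lit 0) (nat_lit 0) (XT.lf (nat_lit 0) (nat_lit 6796397507) (nat_lit 228) (nat_lit 9951399975) (nat_lit 304) (nat_lit 7704071763) (nat_lit 54) (nat_lit 5) (nat_lit 57) (nat_lit 5) (nat_lit 58) (nat_lit 5) (nat_lit 513) (nat_lit 394) (nat_lit 233)) (XT.lf (nat_lit 0) (nat_lit 16621300718) (nat_lit 228) (nat_lit 4334447714) (nat_lit 304) (nat_lit 3864585289) (nat_lit 54) (nat_lit 5) (nat_lit 57) (nat_lit 5) (nat_lit 58) (nat_lit 5) (nat_lit 514) (nat_lit 394) (nat_lit 232)))))) (XT.nd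 (nat_lit 546) (nat_lit 304) (nat_lit 0) (XT.nd (nat_lit 234) (nat_lit 380) (nat_lit 0) (XT.nd (nat_lit 78) (nat_lit 0) (nat_lit 0) (XT.lf (nat_lit 0) (nat_lit 60660677) (nat_lit 304) (nat_lit 23754397214) (nat_lit 76) (nat_lit 1380914097) (nat_lit 50) (nat_lit 5) (nat_lit 54) (nat_lit 5) (nat_lit 51) (nat_lit 5) (nat_lit 515) (nat_lit 394) (nat_lit 231)) (XT.nd (nat_lit 78) (nat_lit 0) (nat_lit 0) (XT.lf (nat_lit 0) (nat_lit 4087990277) (nat_lit 304) (nat_lit 14260985132) (nat_lit 76) (nat_lit 7228134288) (nat_lit 50) (nat_lit 5) (nat_lit 54) (nat_lit 5) (nat_lit 51) (nat_lit 5) (nat_lit 516) (nat_lit 394) (nat_lit 230)) (XT.lf (nat_lit 0) (nat_lit 8187227245) (nat_lit 304) (nat_lit 4591856441) (nat_lit 76) (nat_lit 13186963262) (nat_lit 50) (nat_lit 5) (nat_lit 54) (nat_lit 5) (nat_lit 51) (nat_lit 5) (nat_lit 517) (nat_lit 394) (nat_lit 229)))) (XT.nd (nat_lit 156) (nat_lit 152) (nat_lit 0) (XT.nd (nat_lit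 78) (nat_lit 0) (nat_lit 0) (XT.lf (nat_lit 0) (nat_lit 5326640520) (nat_lit 228) (nat_lit 7067922687) (nat_lit 304) (nat_lit 13967681378) (nat_lit 47) (nat_lit 5) (nat_lit 50) (nat_lit 5) (nat_lit 51) (nat_lit 5) (nat_lit 518) (nat_lit 394) (nat_lit 228)) (XT.lf (nat_lit 0) (nat_lit 15491968372) (nat_lit 228) (nat_lit 1216498051) (nat_lit 304) (nat_lit 10057455191) (nat_lit 47) (nat_lit 5) (nat_lit 50) (nat_lit 5) (nat_lit 51) (nat_lit 5) (nat_lit 519) (nat_lit 394) (nat_lit 227))) (XT.nd (nat_lit 78) (nat_lit 152) (nat_lit 0) (XT.lf (nat_lit 0) (nat_lit 21131237573) (nat_lit 304) (nat_lit 1361568908) (nat_lit 76) (nat_lit 4684417678) (nat_lit 47) (nat_lit 5) (nat_lit 51) (nat_lit 5) (nat_lit 48) (nat_lit 5) (nat_lit 520) (nat_lit 394) (nat_lit 226)) (XT.lf (nat_lit 0) (nat_lit 8843613334) (nat_lit 152) (nat_lit 16856224740) (nat_lit 228) (nat_lit 1895770903) (nat_lit 45) (nat_lit 5) (nat_lit 47) (nat_lit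 5) (nat_lit 48) (nat_lit 5) (nat_lit 521) (nat_lit 394) (nat_lit 225))))) (XT.nd (nat_lit 49452) (nat_lit 0) (nat_lit 36328) (XT.nd (nat_lit 78) (nat_lit 228) (nat_lit 0) (XT.lf (nat_lit 0) (nat_lit 2307905227) (nat_lit 228) (nat_lit 8779461948) (nat_lit 76) (nat_lit 16934672102) (nat_lit 44) (nat_lit 5) (nat_lit 47) (nat_lit 5) (nat_lit 45) (nat_lit 5) (nat_lit 522) (nat_lit 394) (nat_lit 224)) (XT.nd (nat_lit 78) (nat_lit 0) (nat_lit 0) (XT.lf (nat_lit 0) (nat_lit 1384992799) (nat_lit 228) (nat_lit 5186367106) (nat_lit 304) (nat_lit 21885369355) (nat_lit 41) (nat_lit 5) (nat_lit 44) (nat_lit 5) (nat_lit 45) (nat_lit 5) (nat_lit 523) (nat_lit 394) (nat_lit 223)) (XT.lf (nat_lit 0) (nat_lit 10976905101) (nat_lit 304) (nat_lit 17046166116) (nat_lit 76) (nat_lit 875908815) (nat_lit 41) (nat_lit 5) (nat_lit 45) (nat_lit 5) (nat_lit 42) (nat_lit 5) (nat_lit 524) (nat_lit 394) (nat_lit 222)))) (XT.nd (nat_lit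 156) (nat_lit 0) (nat_lit 76) (XT.nd (nat_lit 78) (nat_lit 988) (nat_lit 0) (XT.lf (nat_lit 0) (nat_lit 1278577748) (nat_lit 0) (nat_lit 1278577748) (nat_lit 836) (nat_lit 885265667) (nat_lit 532) (nat_lit 5) (nat_lit 532) (nat_lit 3) (nat_lit 543) (nat_lit 3) (nat_lit 395) (nat_lit 395) (nat_lit 350)) (XT.lf (nat_lit 0) (nat_lit 54775580) (nat_lit 988) (nat_lit 1208659813) (nat_lit 988) (nat_lit 5651555574) (nat_lit 519) (nat_lit 3) (nat_lit 532) (nat_lit 3) (nat_lit 532) (nat_lit 5) (nat_lit 396) (nat_lit 395) (nat_lit 349))) (XT.nd (nat_lit 78) (nat_lit 0) (nat_lit 0) (XT.lf (nat_lit 0) (nat_lit 1858595068) (nat_lit 912) (nat_lit 4984567767) (nat_lit 988) (nat_lit 103098047) (nat_lit 520) (nat_lit 5) (nat_lit 532) (nat_lit 5) (nat_lit 533) (nat_lit 5) (nat_lit 397) (nat_lit 395) (nat_lit 348)) (XT.lf (nat_lit 0) (nat_lit 3668221068) (nat_lit 912) (nat_lit 1799944032) (nat_lit 988) (nat_lit 1510661834)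 (nat_lit 520) (nat_lit 5) (nat_lit 532) (nat_lit 5) (nat_lit 533) (nat_lit 5) (nat_lit 398) (nat_lit 395) (nat_lit 347))))))) (XT.nd (nat_lit 1014) (nat_lit 7980) (nat_lit 0) (XT.nd (nat_lit 468) (nat_lit 1064) (nat_lit 0) (XT.nd (nat_lit 234) (nat_lit 988) (nat_lit 0) (XT.nd (nat_lit 78) (nat_lit 988) (nat_lit 0) (XT.lf (nat_lit 76) (nat_lit 1442421143) (nat_lit 0) (nat_lit 4035099816) (nat_lit 988) (nat_lit 1535317779) (nat_lit 521) (nat_lit 5) (nat_lit 520) (nat_lit 5) (nat_lit 533) (nat_lit 5) (nat_lit 399) (nat_lit 395) (nat_lit 346)) (XT.nd (nat_lit 78) (nat_lit 0) (nat_lit 0) (XT.lf (nat_lit 0) (nat_lit 238516263) (nat_lit 988) (nat_lit 2300496784) (nat_lit 1064) (nat_lit 4509210468) (nat_lit 507) (nat_lit 5) (nat_lit 520) (nat_lit 5) (nat_lit 521) (nat_lit 5) (nat_lit 400) (nat_lit 395) (nat_lit 345)) (XT.lf (nat_lit 76) (nat_lit 1013067463) (nat_lit 0) (nat_lit 976185154) (nat_lit 1064) (nat_lit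 5095681095) (nat_lit 508) (nat_lit 5) (nat_lit 507) (nat_lit 5) (nat_lit 521) (nat_lit 5) (nat_lit 401) (nat_lit 395) (nat_lit 344)))) (XT.nd (nat_lit 78) (nat_lit 1064) (nat_lit 0) (XT.lf (nat_lit 0) (nat_lit 3750781022) (nat_lit 988) (nat_lit 2727868547) (nat_lit 1064) (nat_lit 644272177) (nat_lit 508) (nat_lit 5) (nat_lit 521) (nat_lit 5) (nat_lit 522) (nat_lit 5) (nat_lit 402) (nat_lit 395) (nat_lit 343)) (XT.nd (nat_lit 78) (nat_lit 1064) (nat_lit 0) (XT.lf (nat_lit 76) (nat_lit 659932805) (nat_lit 0) (nat_lit 4855440763) (nat_lit 1064) (nat_lit 1646997320) (nat_lit 509) (nat_lit 5) (nat_lit 508) (nat_lit 5) (nat_lit 522) (nat_lit 5) (nat_lit 403) (nat_lit 395) (nat_lit 342)) (XT.lf (nat_lit 0) (nat_lit 87024918) (nat_lit 1064) (nat_lit 3076350320) (nat_lit 1140) (nat_lit 4039757847) (nat_lit 494) (nat_lit 5) (nat_lit 508) (nat_lit 5) (nat_lit 509) (nat_lit 5) (nat_lit 404) (nat_lit 395) (nat_lit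 341))))) (XT.nd (nat_lit 234) (nat_lit 1064) (nat_lit 0) (XT.nd (nat_lit 78) (nat_lit 0) (nat_lit 76) (XT.lf (nat_lit 76) (nat_lit 387212692) (nat_lit 0) (nat_lit 1407257759) (nat_lit 1140) (nat_lit 5450861093) (nat_lit 495) (nat_lit 5) (nat_lit 494) (nat_lit 5) (nat_lit 509) (nat_lit 5) (nat_lit 405) (nat_lit 395) (nat_lit 340)) (XT.nd (nat_lit 78) (nat_lit 0) (nat_lit 0) (XT.lf (nat_lit 0) (nat_lit 3518359929) (nat_lit 1064) (nat_lit 3354874209) (nat_lit 1140) (nat_lit 415547535) (nat_lit 495) (nat_lit 5) (nat_lit 509) (nat_lit 5) (nat_lit 510) (nat_lit 5) (nat_lit 406) (nat_lit 395) (nat_lit 339)) (XT.lf (nat_lit 76) (nat_lit 186034996) (nat_lit 0) (nat_lit 5061044474) (nat_lit 1140) (nat_lit 2086666838) (nat_lit 496) (nat_lit 5) (nat_lit 495) (nat_lit 5) (nat_lit 510) (nat_lit 5) (nat_lit 407) (nat_lit 395) (nat_lit 338)))) (XT.nd (nat_lit 156) (nat_lit 0) (nat_lit 76) (XT.nd (nat_lit 78) (nat_lit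 1140) (nat_lit 0) (XT.lf (nat_lit 76) (nat_lit 3817885861) (nat_lit 0) (nat_lit 3175448480) (nat_lit 1140) (nat_lit 386668195) (nat_lit 496) (nat_lit 5) (nat_lit 495) (nat_lit 5) (nat_lit 510) (nat_lit 5) (nat_lit 408) (nat_lit 395) (nat_lit 337)) (XT.lf (nat_lit 76) (nat_lit 61828452) (nat_lit 0) (nat_lit 1229149768) (nat_lit 1216) (nat_lit 6136853868) (nat_lit 481) (nat_lit 5) (nat_lit 480) (nat_lit 5) (nat_lit 496) (nat_lit 5) (nat_lit 409) (nat_lit 395) (nat_lit 336))) (XT.nd (nat_lit 78) (nat_lit 0) (nat_lit 0) (XT.lf (nat_lit 0) (nat_lit 2987580896) (nat_lit 1140) (nat_lit 3703391486) (nat_lit 1216) (nat_lit 785831664) (nat_lit 481) (nat_lit 5) (nat_lit 496) (nat_lit 5) (nat_lit 497) (nat_lit 5) (nat_lit 410) (nat_lit 395) (nat_lit 335)) (XT.lf (nat_lit 0) (nat_lit 4688613589) (nat_lit 1140) (nat_lit 1315472) (nat_lit 1216) (nat_lit 2837464018) (nat_lit 481) (nat_lit 5) (nat_lit 496) (nat_lit 5)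 (nat_lit 497) (nat_lit 5) (nat_lit 411) (nat_lit 395) (nat_lit 334)))))) (XT.nd (nat_lit 546) (nat_lit 5700) (nat_lit 0) (XT.nd (nat_lit 234) (nat_lit 1140) (nat_lit 0) (XT.nd (nat_lit 78) (nat_lit 1216) (nat_lit 0) (XT.lf (nat_lit 76) (nat_lit 3799487617) (nat_lit 0) (nat_lit 2611944091) (nat_lit 1216) (nat_lit 1167853553) (nat_lit 482) (nat_lit 5) (nat_lit 481) (nat_lit 5) (nat_lit 497) (nat_lit 5) (nat_lit 412) (nat_lit 395) (nat_lit 333)) (XT.nd (nat_lit 78) (nat_lit 0) (nat_lit 76) (XT.lf (nat_lit 76) (nat_lit 15315439) (nat_lit 0) (nat_lit 477619185) (nat_lit 1292) (nat_lit 7139986250) (nat_lit 466) (nat_lit 5) (nat_lit 465) (nat_lit 5) (nat_lit 482) (nat_lit 5) (nat_lit 413) (nat_lit 395) (nat_lit 332)) (XT.lf (nat_lit 0) (nat_lit 2171876518) (nat_lit 1216) (nat_lit 3794669563) (nat_lit 1292) (nat_lit 1720961191) (nat_lit 466) (nat_lit 5) (nat_lit 482) (nat_lit 5) (nat_lit 483) (nat_lit 5) (nat_lit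 414) (nat_lit 395) (nat_lit 331)))) (XT.nd (nat_lit 156) (nat_lit 1216) (nat_lit 0) (XT.nd (nat_lit 78) (nat_lit 0) (nat_lit 0) (XT.lf (nat_lit 76) (nat_lit 76905020) (nat_lit 0) (nat_lit 3775855473) (nat_lit 1292) (nat_lit 3891100748) (nat_lit 467) (nat_lit 5) (nat_lit 466) (nat_lit 5) (nat_lit 483) (nat_lit 5) (nat_lit 415) (nat_lit 395) (nat_lit 330)) (XT.lf (nat_lit 76) (nat_lit 4051852103) (nat_lit 0) (nat_lit 1506101757) (nat_lit 1292) (nat_lit 2243616860) (nat_lit 467) (nat_lit 5) (nat_lit 466) (nat_lit 5) (nat_lit 483) (nat_lit 5) (nat_lit 416) (nat_lit 395) (nat_lit 329))) (XT.nd (nat_lit 78) (nat_lit 76) (nat_lit 0) (XT.lf (nat_lit 0) (nat_lit 217686775) (nat_lit 1216) (nat_lit 7052198896) (nat_lit 1292) (nat_lit 591137462) (nat_lit 451) (nat_lit 5) (nat_lit 467) (nat_lit 5) (nat_lit 468) (nat_lit 5) (nat_lit 417) (nat_lit 395) (nat_lit 328)) (XT.lf (nat_lit 0) (nat_lit 1081548998) (nat_lit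 1292) (nat_lit 3649237391) (nat_lit 76) (nat_lit 3190745708) (nat_lit 450) (nat_lit 5) (nat_lit 467) (nat_lit 5) (nat_lit 451) (nat_lit 5) (nat_lit 418) (nat_lit 395) (nat_lit 327))))) (XT.nd (nat_lit 234) (nat_lit 3040) (nat_lit 0) (XT.nd (nat_lit 78) (nat_lit 1368) (nat_lit 0) (XT.lf (nat_lit 0) (nat_lit 400494619) (nat_lit 1292) (nat_lit 2348756723) (nat_lit 1368) (nat_lit 5234571245) (nat_lit 433) (nat_lit 5) (nat_lit 450) (nat_lit 5) (nat_lit 451) (nat_lit 5) (nat_lit 419) (nat_lit 395) (nat_lit 326)) (XT.nd (nat_lit 78) (nat_lit 1368) (nat_lit 0) (XT.lf (nat_lit 0) (nat_lit 4442884870) (nat_lit 1368) (nat_lit 3493025457) (nat_lit 76) (nat_lit 111635300) (nat_lit 433) (nat_lit 5) (nat_lit 451) (nat_lit 5) (nat_lit 434) (nat_lit 5) (nat_lit 420) (nat_lit 395) (nat_lit 325)) (XT.lf (nat_lit 0) (nat_lit 646361991) (nat_lit 1368) (nat_lit 5511820870) (nat_lit 1444) (nat_lit 1954641958) (nat_lit 415)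 (nat_lit 5) (nat_lit 433) (nat_lit 5) (nat_lit 434) (nat_lit 5) (nat_lit 421) (nat_lit 395) (nat_lit 324)))) (XT.nd (nat_lit 156) (nat_lit 1520) (nat_lit 0) (XT.nd (nat_lit 78) (nat_lit 1520) (nat_lit 0) (XT.lf (nat_lit 0) (nat_lit 4890411188) (nat_lit 1368) (nat_lit 3009317423) (nat_lit 1444) (nat_lit 279878941) (nat_lit 415) (nat_lit 5) (nat_lit 433) (nat_lit 5) (nat_lit 434) (nat_lit 5) (nat_lit 422) (nat_lit 395) (nat_lit 323)) (XT.lf (nat_lit 0) (nat_lit 949368262) (nat_lit 1444) (nat_lit 435320815) (nat_lit 1520) (nat_lit 6863385885) (nat_lit 395) (nat_lit 5) (nat_lit 414) (nat_lit 5) (nat_lit 415) (nat_lit 5) (nat_lit 423) (nat_lit 395) (nat_lit 322))) (XT.nd (nat_lit 78) (nat_lit 1520) (nat_lit 0) (XT.lf (nat_lit 0) (nat_lit 3084603403) (nat_lit 1520) (nat_lit 3042340177) (nat_lit 76) (nat_lit 2190849761) (nat_lit 395) (nat_lit 5) (nat_lit 415) (nat_lit 5) (nat_lit 396) (nat_lit 5) (nat_lit 424)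 (nat_lit 395) (nat_lit 321)) (XT.lf (nat_lit 0) (nat_lit 1287727788) (nat_lit 1520) (nat_lit 3511993365) (nat_lit 1596) (nat_lit 3589594823) (nat_lit 375) (nat_lit 5) (nat_lit 395) (nat_lit 5) (nat_lit 396) (nat_lit 5) (nat_lit 425) (nat_lit 395) (nat_lit 320))))))))
noncomputable def xc141 : XT := (XT.nd (nat_lit 2106) (nat_lit 7144) (nat_lit 0) (XT.nd (nat_lit 1014) (nat_lit 5624) (nat_lit 0) (XT.nd (nat_lit 468) (nat_lit 2584) (nat_lit 0) (XT.nd (nat_lit 234) (nat_lit 2660) (nat_lit 0) (XT.nd (nat_lit 78) (nat_lit 1672) (nat_lit 0) (XT.lf (nat_lit 0) (nat_lit 5720372400) (nat_lit 1520) (nat_lit 819570956) (nat_lit 1596) (nat_lit 1922542990) (nat_lit 375) (nat_lit 5) (nat_lit 395) (nat_lit 5) (nat_lit 396) (nat_lit 5) (nat_lit 426) (nat_lit 395) (nat_lit 319)) (XT.nd (nat_lit 78) (nat_lit 76) (nat_lit 0) (XT.lf (nat_lit 0) (nat_lit 1688778934) (nat_lit 1596) (nat_lit 6620659893) (nat_lit 1672) (nat_lit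 227824593) (nat_lit 354) (nat_lit 5) (nat_lit 375) (nat_lit 5) (nat_lit 376) (nat_lit 5) (nat_lit 427) (nat_lit 395) (nat_lit 318)) (XT.lf (nat_lit 0) (nat_lit 1476234132) (nat_lit 1672) (nat_lit 2408659184) (nat_lit 76) (nat_lit 4728576658) (nat_lit 353) (nat_lit 5) (nat_lit 375) (nat_lit 5) (nat_lit 354) (nat_lit 5) (nat_lit 428) (nat_lit 395) (nat_lit 317)))) (XT.nd (nat_lit 78) (nat_lit 988) (nat_lit 0) (XT.lf (nat_lit 0) (nat_lit 2121118465) (nat_lit 1672) (nat_lit 1075723239) (nat_lit 1748) (nat_lit 5494649260) (nat_lit 331) (nat_lit 5) (nat_lit 353) (nat_lit 5) (nat_lit 354) (nat_lit 5) (nat_lit 429) (nat_lit 395) (nat_lit 316)) (XT.nd (nat_lit 78) (nat_lit 988) (nat_lit 0) (XT.lf (nat_lit 0) (nat_lit 4951905463) (nat_lit 1748) (nat_lit 2033928832) (nat_lit 76) (nat_lit 1785267380) (nat_lit 331) (nat_lit 5) (nat_lit 354) (nat_lit 5) (nat_lit 332) (nat_lit 5) (nat_lit 430) (nat_lit 395) (nat_lit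 315)) (XT.lf (nat_lit 0) (nat_lit 2595061375) (nat_lit 988) (nat_lit 4143682129) (nat_lit 1064) (nat_lit 2113657228) (nat_lit 318) (nat_lit 5) (nat_lit 331) (nat_lit 5) (nat_lit 332) (nat_lit 5) (nat_lit 431) (nat_lit 395) (nat_lit 314))))) (XT.nd (nat_lit 234) (nat_lit 1672) (nat_lit 0) (XT.nd (nat_lit 78) (nat_lit 912) (nat_lit 0) (XT.lf (nat_lit 0) (nat_lit 7319273880) (nat_lit 988) (nat_lit 1228766755) (nat_lit 1064) (nat_lit 387579701) (nat_lit 318) (nat_lit 5) (nat_lit 331) (nat_lit 5) (nat_lit 332) (nat_lit 5) (nat_lit 432) (nat_lit 395) (nat_lit 313)) (XT.nd (nat_lit 78) (nat_lit 0) (nat_lit 0) (XT.lf (nat_lit 0) (nat_lit 1360229416) (nat_lit 912) (nat_lit 5907298913) (nat_lit 76) (nat_lit 1752721248) (nat_lit 306) (nat_lit 5) (nat_lit 318) (nat_lit 5) (nat_lit 307) (nat_lit 5) (nat_lit 433) (nat_lit 395) (nat_lit 312)) (XT.lf (nat_lit 0) (nat_lit 3130636219) (nat_lit 912) (nat_lit 1183606538)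 (nat_lit 76) (nat_lit 4792448121) (nat_lit 306) (nat_lit 5) (nat_lit 318) (nat_lit 5) (nat_lit 307) (nat_lit 5) (nat_lit 434) (nat_lit 395) (nat_lit 311)))) (XT.nd (nat_lit 156) (nat_lit 836) (nat_lit 0) (XT.nd (nat_lit 78) (nat_lit 0) (nat_lit 0) (XT.lf (nat_lit 0) (nat_lit 3657807304) (nat_lit 836) (nat_lit 1276677519) (nat_lit 912) (nat_lit 4260442312) (nat_lit 295) (nat_lit 5) (nat_lit 306) (nat_lit 5) (nat_lit 307) (nat_lit 5) (nat_lit 435) (nat_lit 395) (nat_lit 310)) (XT.lf (nat_lit 0) (nat_lit 6768867655) (nat_lit 912) (nat_lit 709657079) (nat_lit 76) (nat_lit 1806540514) (nat_lit 295) (nat_lit 5) (nat_lit 307) (nat_lit 5) (nat_lit 296) (nat_lit 5) (nat_lit 436) (nat_lit 395) (nat_lit 309))) (XT.nd (nat_lit 78) (nat_lit 76) (nat_lit 0) (XT.lf (nat_lit 0) (nat_lit 4236858003) (nat_lit 760) (nat_lit 4414175553) (nat_lit 836) (nat_lit 725776420) (nat_lit 285) (nat_lit 5) (nat_lit 295) (nat_lit 5)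 (nat_lit 296) (nat_lit 5) (nat_lit 437) (nat_lit 395) (nat_lit 308)) (XT.lf (nat_lit 0) (nat_lit 1066087788) (nat_lit 836) (nat_lit 210348511) (nat_lit 76) (nat_lit 8194233818) (nat_lit 284) (nat_lit 5) (nat_lit 295) (nat_lit 5) (nat_lit 285) (nat_lit 5) (nat_lit 438) (nat_lit 395) (nat_lit 307)))))) (XT.nd (nat_lit 546) (nat_lit 2660) (nat_lit 0) (XT.nd (nat_lit 234) (nat_lit 1520) (nat_lit 0) (XT.nd (nat_lit 78) (nat_lit 684) (nat_lit 0) (XT.lf (nat_lit 0) (nat_lit 2904075631) (nat_lit 836) (nat_lit 4726556833) (nat_lit 76) (nat_lit 1935303235) (nat_lit 274) (nat_lit 5) (nat_lit 285) (nat_lit 5) (nat_lit 275) (nat_lit 5) (nat_lit 439) (nat_lit 395) (nat_lit 306)) (XT.nd (nat_lit 78) (nat_lit 0) (nat_lit 0) (XT.lf (nat_lit 0) (nat_lit 300699692) (nat_lit 684) (nat_lit 4466025373) (nat_lit 760) (nat_lit 4896647292) (nat_lit 265) (nat_lit 5) (nat_lit 274) (nat_lit 5) (nat_lit 275) (nat_lit 5) (nat_lit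 440) (nat_lit 395) (nat_lit 305)) (XT.lf (nat_lit 0) (nat_lit 5468078046) (nat_lit 684) (nat_lit 1206652584) (nat_lit 760) (nat_lit 3087888386) (nat_lit 265) (nat_lit 5) (nat_lit 274) (nat_lit 5) (nat_lit 275) (nat_lit 5) (nat_lit 441) (nat_lit 395) (nat_lit 304)))) (XT.nd (nat_lit 156) (nat_lit 684) (nat_lit 0) (XT.nd (nat_lit 78) (nat_lit 76) (nat_lit 0) (XT.lf (nat_lit 0) (nat_lit 847828842) (nat_lit 760) (nat_lit 7769165891) (nat_lit 836) (nat_lit 1246956783) (nat_lit 255) (nat_lit 5) (nat_lit 265) (nat_lit 5) (nat_lit 266) (nat_lit 5) (nat_lit 442) (nat_lit 395) (nat_lit 303)) (XT.lf (nat_lit 0) (nat_lit 636486490) (nat_lit 836) (nat_lit 3852412114) (nat_lit 76) (nat_lit 5478072817) (nat_lit 254) (nat_lit 5) (nat_lit 265) (nat_lit 5) (nat_lit 255) (nat_lit 5) (nat_lit 443) (nat_lit 395) (nat_lit 302))) (XT.nd (nat_lit 78) (nat_lit 0) (nat_lit 0) (XT.lf (nat_lit 0) (nat_lit 1400506035) (nat_lit 684)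 (nat_lit 1126921571) (nat_lit 760) (nat_lit 7544750313) (nat_lit 245) (nat_lit 5) (nat_lit 254) (nat_lit 5) (nat_lit 255) (nat_lit 5) (nat_lit 444) (nat_lit 395) (nat_lit 301)) (XT.lf (nat_lit 0) (nat_lit 4474851282) (nat_lit 760) (nat_lit 3407861072) (nat_lit 76) (nat_lit 2296424050) (nat_lit 245) (nat_lit 5) (nat_lit 255) (nat_lit 5) (nat_lit 246) (nat_lit 5) (nat_lit 445) (nat_lit 395) (nat_lit 300))))) (XT.nd (nat_lit 234) (nat_lit 1292) (nat_lit 0) (XT.nd (nat_lit 78) (nat_lit 684) (nat_lit 0) (XT.lf (nat_lit 0) (nat_lit 1955415050) (nat_lit 684) (nat_lit 4504097481) (nat_lit 760) (nat_lit 3828776467) (nat_lit 236) (nat_lit 5) (nat_lit 245) (nat_lit 5) (nat_lit 246) (nat_lit 5) (nat_lit 446) (nat_lit 395) (nat_lit 299)) (XT.nd (nat_lit 78) (nat_lit 684) (nat_lit 0) (XT.lf (nat_lit 0) (nat_lit 7448315531) (nat_lit 684) (nat_lit 1036824269) (nat_lit 760) (nat_lit 1914479699) (nat_lit 236) (nat_lit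 5) (nat_lit 245) (nat_lit 5) (nat_lit 246) (nat_lit 5) (nat_lit 447) (nat_lit 395) (nat_lit 298)) (XT.lf (nat_lit 0) (nat_lit 49136750) (nat_lit 684) (nat_lit 7982225144) (nat_lit 76) (nat_lit 2481598623) (nat_lit 227) (nat_lit 5) (nat_lit 236) (nat_lit 5) (nat_lit 228) (nat_lit 5) (nat_lit 448) (nat_lit 395) (nat_lit 297)))) (XT.nd (nat_lit 156) (nat_lit 608) (nat_lit 0) (XT.nd (nat_lit 78) (nat_lit 684) (nat_lit 0) (XT.lf (nat_lit 0) (nat_lit 2032134486) (nat_lit 684) (nat_lit 2509367381) (nat_lit 76) (nat_lit 6086717657) (nat_lit 227) (nat_lit 5) (nat_lit 236) (nat_lit 5) (nat_lit 228) (nat_lit 5) (nat_lit 449) (nat_lit 395) (nat_lit 296)) (XT.lf (nat_lit 0) (nat_lit 3090002783) (nat_lit 684) (nat_lit 964182656) (nat_lit 760) (nat_lit 6691629175) (nat_lit 218) (nat_lit 5) (nat_lit 227) (nat_lit 5) (nat_lit 228) (nat_lit 5) (nat_lit 450) (nat_lit 395) (nat_lit 295))) (XT.nd (nat_lit 78) (nat_lit 608)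 (nat_lit 0) (XT.lf (nat_lit 0) (nat_lit 6130624816) (nat_lit 760) (nat_lit 2071315744) (nat_lit 76) (nat_lit 2663560494) (nat_lit 218) (nat_lit 5) (nat_lit 228) (nat_lit 5) (nat_lit 219) (nat_lit 5) (nat_lit 451) (nat_lit 395) (nat_lit 294)) (XT.lf (nat_lit 0) (nat_lit 3643004640) (nat_lit 608) (nat_lit 4615593095) (nat_lit 684) (nat_lit 2728801430) (nat_lit 210) (nat_lit 5) (nat_lit 218) (nat_lit 5) (nat_lit 219) (nat_lit 5) (nat_lit 452) (nat_lit 395) (nat_lit 293))))))) (XT.nd (nat_lit 1092) (nat_lit 3116) (nat_lit 0) (XT.nd (nat_lit 546) (nat_lit 2128) (nat_lit 0) (XT.nd (nat_lit 234) (nat_lit 1216) (nat_lit 0) (XT.nd (nat_lit 78) (nat_lit 684) (nat_lit 0) (XT.lf (nat_lit 0) (nat_lit 9476582713) (nat_lit 608) (nat_lit 946656448) (nat_lit 684) (nat_lit 688631580) (nat_lit 210) (nat_lit 5) (nat_lit 218) (nat_lit 5) (nat_lit 219) (nat_lit 5) (nat_lit 453) (nat_lit 395) (nat_lit 292)) (XT.nd (nat_lit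 78) (nat_lit 0) (nat_lit 0) (XT.lf (nat_lit 0) (nat_lit 1400245298) (nat_lit 684) (nat_lit 7045619938) (nat_lit 76) (nat_lit 2792279420) (nat_lit 201) (nat_lit 5) (nat_lit 210) (nat_lit 5) (nat_lit 202) (nat_lit 5) (nat_lit 454) (nat_lit 395) (nat_lit 291)) (XT.lf (nat_lit 0) (nat_lit 3519667895) (nat_lit 684) (nat_lit 1241725725) (nat_lit 76) (nat_lit 6605516276) (nat_lit 201) (nat_lit 5) (nat_lit 210) (nat_lit 5) (nat_lit 202) (nat_lit 5) (nat_lit 455) (nat_lit 395) (nat_lit 290)))) (XT.nd (nat_lit 156) (nat_lit 684) (nat_lit 0) (XT.nd (nat_lit 78) (nat_lit 0) (nat_lit 0) (XT.lf (nat_lit 0) (nat_lit 4717410933) (nat_lit 532) (nat_lit 975740467) (nat_lit 608) (nat_lit 5804881929) (nat_lit 194) (nat_lit 5) (nat_lit 201) (nat_lit 5) (nat_lit 202) (nat_lit 5) (nat_lit 456) (nat_lit 395) (nat_lit 289)) (XT.lf (nat_lit 0) (nat_lit 7918472092) (nat_lit 608) (nat_lit 860762468) (nat_lit 76) (nat_lit 2852393336)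 (nat_lit 194) (nat_lit 5) (nat_lit 202) (nat_lit 5) (nat_lit 195) (nat_lit 5) (nat_lit 457) (nat_lit 395) (nat_lit 288))) (XT.nd (nat_lit 78) (nat_lit 76) (nat_lit 0) (XT.lf (nat_lit 0) (nat_lit 5216982350) (nat_lit 608) (nat_lit 4993262876) (nat_lit 684) (nat_lit 1557225911) (nat_lit 186) (nat_lit 5) (nat_lit 194) (nat_lit 5) (nat_lit 195) (nat_lit 5) (nat_lit 458) (nat_lit 395) (nat_lit 287)) (XT.lf (nat_lit 0) (nat_lit 620911509) (nat_lit 684) (nat_lit 504753849) (nat_lit 76) (nat_lit 10780547504) (nat_lit 185) (nat_lit 5) (nat_lit 194) (nat_lit 5) (nat_lit 186) (nat_lit 5) (nat_lit 459) (nat_lit 395) (nat_lit 286))))) (XT.nd (nat_lit 234) (nat_lit 1064) (nat_lit 0) (XT.nd (nat_lit 78) (nat_lit 532) (nat_lit 0) (XT.lf (nat_lit 0) (nat_lit 2859457849) (nat_lit 608) (nat_lit 6361491739) (nat_lit 76) (nat_lit 2825834816) (nat_lit 178) (nat_lit 5) (nat_lit 186) (nat_lit 5) (nat_lit 179) (nat_lit 5) (nat_lit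 460) (nat_lit 395) (nat_lit 285)) (XT.nd (nat_lit 78) (nat_lit 532) (nat_lit 0) (XT.lf (nat_lit 0) (nat_lit 5135872068) (nat_lit 608) (nat_lit 213930509) (nat_lit 76) (nat_lit 6840517366) (nat_lit 178) (nat_lit 5) (nat_lit 186) (nat_lit 5) (nat_lit 179) (nat_lit 5) (nat_lit 461) (nat_lit 395) (nat_lit 284)) (XT.lf (nat_lit 0) (nat_lit 6114881788) (nat_lit 532) (nat_lit 1365215652) (nat_lit 608) (nat_lit 4856197319) (nat_lit 171) (nat_lit 5) (nat_lit 178) (nat_lit 5) (nat_lit 179) (nat_lit 5) (nat_lit 462) (nat_lit 395) (nat_lit 283)))) (XT.nd (nat_lit 156) (nat_lit 608) (nat_lit 0) (XT.nd (nat_lit 78) (nat_lit 0) (nat_lit 0) (XT.lf (nat_lit 0) (nat_lit 49036629) (nat_lit 456) (nat_lit 9824210132) (nat_lit 532) (nat_lit 2611915464) (nat_lit 165) (nat_lit 5) (nat_lit 171) (nat_lit 5) (nat_lit 172) (nat_lit 5) (nat_lit 463) (nat_lit 395) (nat_lit 282)) (XT.lf (nat_lit 0) (nat_lit 6498129341) (nat_lit 456)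 (nat_lit 5849807995) (nat_lit 532) (nat_lit 288409809) (nat_lit 165) (nat_lit 5) (nat_lit 171) (nat_lit 5) (nat_lit 172) (nat_lit 5) (nat_lit 464) (nat_lit 395) (nat_lit 281))) (XT.nd (nat_lit 78) (nat_lit 0) (nat_lit 0) (XT.lf (nat_lit 0) (nat_lit 253716504) (nat_lit 532) (nat_lit 1785354685) (nat_lit 608) (nat_lit 10751531307) (nat_lit 157) (nat_lit 5) (nat_lit 164) (nat_lit 5) (nat_lit 165) (nat_lit 5) (nat_lit 465) (nat_lit 395) (nat_lit 280)) (XT.lf (nat_lit 0) (nat_lit 4449348173) (nat_lit 608) (nat_lit 6129847474) (nat_lit 76) (nat_lit 2367919899) (nat_lit 157) (nat_lit 5) (nat_lit 165) (nat_lit 5) (nat_lit 158) (nat_lit 5) (nat_lit 466) (nat_lit 395) (nat_lit 279)))))) (XT.nd (nat_lit 546) (nat_lit 1216) (nat_lit 0) (XT.nd (nat_lit 234) (nat_lit 988) (nat_lit 0) (XT.nd (nat_lit 78) (nat_lit 456) (nat_lit 0) (XT.lf (nat_lit 0) (nat_lit 376966967) (nat_lit 456) (nat_lit 6528777827) (nat_lit 532)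 (nat_lit 6201068410) (nat_lit 151) (nat_lit 5) (nat_lit 157) (nat_lit 5) (nat_lit 158) (nat_lit 5) (nat_lit 467) (nat_lit 395) (nat_lit 278)) (XT.nd (nat_lit 78) (nat_lit 456) (nat_lit 0) (XT.lf (nat_lit 0) (nat_lit 7075665449) (nat_lit 456) (nat_lit 2360563586) (nat_lit 532) (nat_lit 3832988967) (nat_lit 151) (nat_lit 5) (nat_lit 157) (nat_lit 5) (nat_lit 158) (nat_lit 5) (nat_lit 468) (nat_lit 395) (nat_lit 277)) (XT.lf (nat_lit 0) (nat_lit 445814391) (nat_lit 456) (nat_lit 11570790250) (nat_lit 532) (nat_lit 1418292760) (nat_lit 145) (nat_lit 5) (nat_lit 151) (nat_lit 5) (nat_lit 152) (nat_lit 5) (nat_lit 469) (nat_lit 395) (nat_lit 276)))) (XT.nd (nat_lit 156) (nat_lit 456) (nat_lit 0) (XT.nd (nat_lit 78) (nat_lit 456) (nat_lit 0) (XT.lf (nat_lit 0) (nat_lit 1072634402) (nat_lit 532) (nat_lit 6345130492) (nat_lit 76) (nat_lit 6185168735) (nat_lit 144) (nat_lit 5) (nat_lit 151) (nat_lit 5) (nat_lit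 145) (nat_lit 5) (nat_lit 470) (nat_lit 395) (nat_lit 275)) (XT.lf (nat_lit 0) (nat_lit 406756556) (nat_lit 456) (nat_lit 3174770033) (nat_lit 532) (nat_lit 10192885183) (nat_lit 138) (nat_lit 5) (nat_lit 144) (nat_lit 5) (nat_lit 145) (nat_lit 5) (nat_lit 471) (nat_lit 395) (nat_lit 274))) (XT.nd (nat_lit 78) (nat_lit 456) (nat_lit 0) (XT.lf (nat_lit 0) (nat_lit 6175557672) (nat_lit 532) (nat_lit 6597577539) (nat_lit 76) (nat_lit 1175496261) (nat_lit 138) (nat_lit 5) (nat_lit 145) (nat_lit 5) (nat_lit 139) (nat_lit 5) (nat_lit 472) (nat_lit 395) (nat_lit 273)) (XT.lf (nat_lit 0) (nat_lit 269795206) (nat_lit 456) (nat_lit 8559365841) (nat_lit 532) (nat_lit 5297031680) (nat_lit 132) (nat_lit 5) (nat_lit 138) (nat_lit 5) (nat_lit 139) (nat_lit 5) (nat_lit 473) (nat_lit 395) (nat_lit 272))))) (XT.nd (nat_lit 234) (nat_lit 760) (nat_lit 0) (XT.nd (nat_lit 78) (nat_lit 456) (nat_lit 0) (XT.lf (nat_lit 0) (nat_lit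 7343463033) (nat_lit 456) (nat_lit 4221724474) (nat_lit 532) (nat_lit 2741541458) (nat_lit 132) (nat_lit 5) (nat_lit 138) (nat_lit 5) (nat_lit 139) (nat_lit 5) (nat_lit 474) (nat_lit 395) (nat_lit 271)) (XT.nd (nat_lit 78) (nat_lit 76) (nat_lit 0) (XT.lf (nat_lit 0) (nat_lit 46674185) (nat_lit 380) (nat_lit 14296214205) (nat_lit 456) (nat_lit 148259027) (nat_lit 127) (nat_lit 5) (nat_lit 132) (nat_lit 5) (nat_lit 133) (nat_lit 5) (nat_lit 475) (nat_lit 395) (nat_lit 270)) (XT.lf (nat_lit 0) (nat_lit 2524521944) (nat_lit 456) (nat_lit 7452017913) (nat_lit 76) (nat_lit 4701192708) (nat_lit 126) (nat_lit 5) (nat_lit 132) (nat_lit 5) (nat_lit 127) (nat_lit 5) (nat_lit 476) (nat_lit 395) (nat_lit 269)))) (XT.nd (nat_lit 156) (nat_lit 380) (nat_lit 0) (XT.nd (nat_lit 78) (nat_lit 380) (nat_lit 0) (XT.lf (nat_lit 0) (nat_lit 5234446741) (nat_lit 456) (nat_lit 340715800) (nat_lit 76) (nat_lit 9293163763) (nat_lit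 126) (nat_lit 5) (nat_lit 132) (nat_lit 5) (nat_lit 127) (nat_lit 5) (nat_lit 477) (nat_lit 395) (nat_lit 268)) (XT.lf (nat_lit 0) (nat_lit 6984791239) (nat_lit 380) (nat_lit 1045081182) (nat_lit 456) (nat_lit 7032243214) (nat_lit 121) (nat_lit 5) (nat_lit 126) (nat_lit 5) (nat_lit 127) (nat_lit 5) (nat_lit 478) (nat_lit 395) (nat_lit 267))) (XT.nd (nat_lit 78) (nat_lit 380) (nat_lit 0) (XT.lf (nat_lit 0) (nat_lit 10892788290) (nat_lit 456) (nat_lit 841288394) (nat_lit 76) (nat_lit 3525482006) (nat_lit 121) (nat_lit 5) (nat_lit 127) (nat_lit 5) (nat_lit 122) (nat_lit 5) (nat_lit 479) (nat_lit 395) (nat_lit 266)) (XT.lf (nat_lit 0) (nat_lit 6599741347) (nat_lit 380) (nat_lit 7249330301) (nat_lit 456) (nat_lit 1611166156) (nat_lit 116) (nat_lit 5) (nat_lit 121) (nat_lit 5) (nat_lit 122) (nat_lit 5) (nat_lit 480) (nat_lit 395) (nat_lit 265))))))))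
noncomputable def xc142 : XT := (XT.nd (nat_lit 2106) (nat_lit 1748) (nat_lit 0) (XT.nd (nat_lit 1014) (nat_lit 1748) (nat_lit 0) (XT.nd (nat_lit 468) (nat_lit 1064) (nat_lit 0) (XT.nd (nat_lit 234) (nat_lit 684) (nat_lit 0) (XT.nd (nat_lit 78) (nat_lit 380) (nat_lit 0) (XT.lf (nat_lit 0) (nat_lit 1175883321) (nat_lit 456) (nat_lit 1491072994) (nat_lit 76) (nat_lit 12997986133) (nat_lit 115) (nat_lit 5) (nat_lit 121) (nat_lit 5) (nat_lit 116) (nat_lit 5) (nat_lit 481) (nat_lit 395) (nat_lit 264)) (XT.nd (nat_lit 78) (nat_lit 0) (nat_lit 0) (XT.lf (nat_lit 0) (nat_lit 4036543701) (nat_lit 456) (nat_lit 9810632261) (nat_lit 76) (nat_lit 2025572197) (nat_lit 110) (nat_lit 5) (nat_lit 116) (nat_lit 5) (nat_lit 111) (nat_lit 5) (nat_lit 482) (nat_lit 395) (nat_lit 263)) (XT.lf (nat_lit 0) (nat_lit 6968902878) (nat_lit 456) (nat_lit 2334812605) (nat_lit 76) (nat_lit 6780713460) (nat_lit 110) (nat_lit 5) (nat_lit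 116) (nat_lit 5) (nat_lit 111) (nat_lit 5) (nat_lit 483) (nat_lit 395) (nat_lit 262)))) (XT.nd (nat_lit 78) (nat_lit 380) (nat_lit 0) (XT.lf (nat_lit 0) (nat_lit 5341802767) (nat_lit 304) (nat_lit 4639800250) (nat_lit 380) (nat_lit 6318314948) (nat_lit 106) (nat_lit 5) (nat_lit 110) (nat_lit 5) (nat_lit 111) (nat_lit 5) (nat_lit 484) (nat_lit 395) (nat_lit 261)) (XT.nd (nat_lit 78) (nat_lit 380) (nat_lit 0) (XT.lf (nat_lit 0) (nat_lit 13058198083) (nat_lit 380) (nat_lit 3335553527) (nat_lit 76) (nat_lit 125900672) (nat_lit 106) (nat_lit 5) (nat_lit 111) (nat_lit 5) (nat_lit 107) (nat_lit 5) (nat_lit 485) (nat_lit 395) (nat_lit 260)) (XT.lf (nat_lit 0) (nat_lit 4448562583) (nat_lit 380) (nat_lit 11794732587) (nat_lit 456) (nat_lit 499554882) (nat_lit 101) (nat_lit 5) (nat_lit 106) (nat_lit 5) (nat_lit 107) (nat_lit 5) (nat_lit 486) (nat_lit 395) (nat_lit 259))))) (XT.nd (nat_lit 234) (nat_lit 684) (nat_lit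 0) (XT.nd (nat_lit 78) (nat_lit 304) (nat_lit 0) (XT.lf (nat_lit 0) (nat_lit 2498440587) (nat_lit 456) (nat_lit 4571575680) (nat_lit 76) (nat_lit 9899977341) (nat_lit 100) (nat_lit 5) (nat_lit 106) (nat_lit 5) (nat_lit 101) (nat_lit 5) (nat_lit 487) (nat_lit 395) (nat_lit 258)) (XT.nd (nat_lit 78) (nat_lit 0) (nat_lit 0) (XT.lf (nat_lit 0) (nat_lit 3327722903) (nat_lit 304) (nat_lit 2231240786) (nat_lit 380) (nat_lit 11642472870) (nat_lit 96) (nat_lit 5) (nat_lit 100) (nat_lit 5) (nat_lit 101) (nat_lit 5) (nat_lit 488) (nat_lit 395) (nat_lit 257)) (XT.lf (nat_lit 0) (nat_lit 8716867849) (nat_lit 380) (nat_lit 6025976999) (nat_lit 76) (nat_lit 2693947654) (nat_lit 96) (nat_lit 5) (nat_lit 101) (nat_lit 5) (nat_lit 97) (nat_lit 5) (nat_lit 489) (nat_lit 395) (nat_lit 256)))) (XT.nd (nat_lit 156) (nat_lit 380) (nat_lit 0) (XT.nd (nat_lit 78) (nat_lit 0) (nat_lit 0) (XT.lf (nat_lit 0) (nat_lit 1971860824)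 (nat_lit 304) (nat_lit 9981620461) (nat_lit 380) (nat_lit 5723070653) (nat_lit 92) (nat_lit 5) (nat_lit 96) (nat_lit 5) (nat_lit 97) (nat_lit 5) (nat_lit 490) (nat_lit 395) (nat_lit 255)) (XT.lf (nat_lit 0) (nat_lit 10193518678) (nat_lit 304) (nat_lit 5089838065) (nat_lit 380) (nat_lit 2637186480) (nat_lit 92) (nat_lit 5) (nat_lit 96) (nat_lit 5) (nat_lit 97) (nat_lit 5) (nat_lit 491) (nat_lit 395) (nat_lit 254))) (XT.nd (nat_lit 78) (nat_lit 0) (nat_lit 0) (XT.lf (nat_lit 0) (nat_lit 394420041) (nat_lit 304) (nat_lit 100103409) (nat_lit 380) (nat_lit 17675015530) (nat_lit 87) (nat_lit 5) (nat_lit 91) (nat_lit 5) (nat_lit 92) (nat_lit 5) (nat_lit 492) (nat_lit 395) (nat_lit 253)) (XT.lf (nat_lit 0) (nat_lit 3726499215) (nat_lit 380) (nat_lit 9707364850) (nat_lit 76) (nat_lit 4987849916) (nat_lit 87) (nat_lit 5) (nat_lit 92) (nat_lit 5) (nat_lit 88) (nat_lit 5) (nat_lit 493) (nat_lit 395) (nat_lit 252))))))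 (XT.nd (nat_lit 546) (nat_lit 836) (nat_lit 0) (XT.nd (nat_lit 234) (nat_lit 608) (nat_lit 0) (XT.nd (nat_lit 78) (nat_lit 304) (nat_lit 0) (XT.lf (nat_lit 0) (nat_lit 7012326543) (nat_lit 380) (nat_lit 1496290919) (nat_lit 76) (nat_lit 10170537480) (nat_lit 87) (nat_lit 5) (nat_lit 92) (nat_lit 5) (nat_lit 88) (nat_lit 5) (nat_lit 494) (nat_lit 395) (nat_lit 251)) (XT.nd (nat_lit 78) (nat_lit 0) (nat_lit 0) (XT.lf (nat_lit 0) (nat_lit 6953164827) (nat_lit 304) (nat_lit 3444623787) (nat_lit 380) (nat_lit 8543284314) (nat_lit 83) (nat_lit 5) (nat_lit 87) (nat_lit 5) (nat_lit 88) (nat_lit 5) (nat_lit 495) (nat_lit 395) (nat_lit 250)) (XT.lf (nat_lit 0) (nat_lit 13861085154) (nat_lit 380) (nat_lit 3644484947) (nat_lit 76) (nat_lit 1702463110) (nat_lit 83) (nat_lit 5) (nat_lit 88) (nat_lit 5) (nat_lit 84) (nat_lit 5) (nat_lit 496) (nat_lit 395) (nat_lit 249)))) (XT.nd (nat_lit 156) (nat_lit 304) (nat_lit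 0) (XT.nd (nat_lit 78) (nat_lit 76) (nat_lit 0) (XT.lf (nat_lit 0) (nat_lit 4890357309) (nat_lit 228) (nat_lit 12546918768) (nat_lit 304) (nat_lit 2042190368) (nat_lit 80) (nat_lit 5) (nat_lit 83) (nat_lit 5) (nat_lit 84) (nat_lit 5) (nat_lit 497) (nat_lit 395) (nat_lit 248)) (XT.lf (nat_lit 0) (nat_lit 1324948523) (nat_lit 304) (nat_lit 6136145222) (nat_lit 76) (nat_lit 12294793903) (nat_lit 79) (nat_lit 5) (nat_lit 83) (nat_lit 5) (nat_lit 80) (nat_lit 5) (nat_lit 498) (nat_lit 395) (nat_lit 247))) (XT.nd (nat_lit 78) (nat_lit 0) (nat_lit 0) (XT.lf (nat_lit 0) (nat_lit 2488504591) (nat_lit 304) (nat_lit 2249070434) (nat_lit 380) (nat_lit 15299888427) (nat_lit 75) (nat_lit 5) (nat_lit 79) (nat_lit 5) (nat_lit 80) (nat_lit 5) (nat_lit 499) (nat_lit 395) (nat_lit 246)) (XT.lf (nat_lit 0) (nat_lit 8269190696) (nat_lit 380) (nat_lit 8991767429) (nat_lit 76) (nat_lit 3062703749) (nat_lit 75) (nat_lit 5) (nat_lit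 80) (nat_lit 5) (nat_lit 76) (nat_lit 5) (nat_lit 500) (nat_lit 395) (nat_lit 245))))) (XT.nd (nat_lit 234) (nat_lit 608) (nat_lit 0) (XT.nd (nat_lit 78) (nat_lit 228) (nat_lit 0) (XT.lf (nat_lit 0) (nat_lit 11875914486) (nat_lit 380) (nat_lit 294559721) (nat_lit 76) (nat_lit 8445026261) (nat_lit 75) (nat_lit 5) (nat_lit 80) (nat_lit 5) (nat_lit 76) (nat_lit 5) (nat_lit 501) (nat_lit 395) (nat_lit 244)) (XT.nd (nat_lit 78) (nat_lit 0) (nat_lit 0) (XT.lf (nat_lit 0) (nat_lit 8674444286) (nat_lit 228) (nat_lit 6926434300) (nat_lit 304) (nat_lit 5311380738) (nat_lit 72) (nat_lit 5) (nat_lit 75) (nat_lit 5) (nat_lit 76) (nat_lit 5) (nat_lit 502) (nat_lit 395) (nat_lit 243)) (XT.lf (nat_lit 0) (nat_lit 17811011160) (nat_lit 228) (nat_lit 1581190680) (nat_lit 304) (nat_lit 1822919817) (nat_lit 72) (nat_lit 5) (nat_lit 75) (nat_lit 5) (nat_lit 76) (nat_lit 5) (nat_lit 503) (nat_lit 395) (nat_lit 242)))) (XT.nd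 (nat_lit 156) (nat_lit 228) (nat_lit 0) (XT.nd (nat_lit 78) (nat_lit 0) (nat_lit 0) (XT.lf (nat_lit 0) (nat_lit 1764682191) (nat_lit 380) (nat_lit 15895190640) (nat_lit 76) (nat_lit 3862905739) (nat_lit 67) (nat_lit 5) (nat_lit 72) (nat_lit 5) (nat_lit 68) (nat_lit 5) (nat_lit 504) (nat_lit 395) (nat_lit 241)) (XT.lf (nat_lit 0) (nat_lit 5423185244) (nat_lit 380) (nat_lit 6988464518) (nat_lit 76) (nat_lit 9424231891) (nat_lit 67) (nat_lit 5) (nat_lit 72) (nat_lit 5) (nat_lit 68) (nat_lit 5) (nat_lit 505) (nat_lit 395) (nat_lit 240))) (XT.nd (nat_lit 78) (nat_lit 0) (nat_lit 0) (XT.lf (nat_lit 0) (nat_lit 2108657778) (nat_lit 228) (nat_lit 7050155080) (nat_lit 304) (nat_lit 12996359929) (nat_lit 64) (nat_lit 5) (nat_lit 67) (nat_lit 5) (nat_lit 68) (nat_lit 5) (nat_lit 506) (nat_lit 395) (nat_lit 239)) (XT.lf (nat_lit 0) (nat_lit 11467160498) (nat_lit 228) (nat_lit 1539244114) (nat_lit 304) (nat_lit 9473705079)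 (nat_lit 64) (nat_lit 5) (nat_lit 67) (nat_lit 5) (nat_lit 68) (nat_lit 5) (nat_lit 507) (nat_lit 395) (nat_lit 238))))))) (XT.nd (nat_lit 1092) (nat_lit 456) (nat_lit 0) (XT.nd (nat_lit 546) (nat_lit 532) (nat_lit 0) (XT.nd (nat_lit 234) (nat_lit 456) (nat_lit 0) (XT.nd (nat_lit 78) (nat_lit 304) (nat_lit 0) (XT.lf (nat_lit 0) (nat_lit 16947958981) (nat_lit 304) (nat_lit 1840365054) (nat_lit 76) (nat_lit 4022885963) (nat_lit 64) (nat_lit 5) (nat_lit 68) (nat_lit 5) (nat_lit 65) (nat_lit 5) (nat_lit 508) (nat_lit 395) (nat_lit 237)) (XT.nd (nat_lit 78) (nat_lit 76) (nat_lit 0) (XT.lf (nat_lit 0) (nat_lit 7590169925) (nat_lit 228) (nat_lit 13428343181) (nat_lit 304) (nat_lit 2129420617) (nat_lit 61) (nat_lit 5) (nat_lit 64) (nat_lit 5) (nat_lit 65) (nat_lit 5) (nat_lit 509) (nat_lit 395) (nat_lit 236)) (XT.lf (nat_lit 0) (nat_lit 1660212030) (nat_lit 304) (nat_lit 6282750100) (nat_lit 76) (nat_lit 15548153416)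 (nat_lit 60) (nat_lit 5) (nat_lit 64) (nat_lit 5) (nat_lit 61) (nat_lit 5) (nat_lit 510) (nat_lit 395) (nat_lit 235)))) (XT.nd (nat_lit 156) (nat_lit 228) (nat_lit 0) (XT.nd (nat_lit 78) (nat_lit 0) (nat_lit 0) (XT.lf (nat_lit 0) (nat_lit 3190919188) (nat_lit 228) (nat_lit 2317847021) (nat_lit 304) (nat_lit 18331884961) (nat_lit 57) (nat_lit 5) (nat_lit 60) (nat_lit 5) (nat_lit 61) (nat_lit 5) (nat_lit 511) (nat_lit 395) (nat_lit 234)) (XT.lf (nat_lit 0) (nat_lit 9489881055) (nat_lit 304) (nat_lit 11294235981) (nat_lit 76) (nat_lit 3411953098) (nat_lit 57) (nat_lit 5) (nat_lit 61) (nat_lit 5) (nat_lit 58) (nat_lit 5) (nat_lit 512) (nat_lit 395) (nat_lit 233))) (XT.nd (nat_lit 78) (nat_lit 228) (nat_lit 0) (XT.lf (nat_lit 0) (nat_lit 13557092096) (nat_lit 304) (nat_lit 1781338133) (nat_lit 76) (nat_lit 9220042106) (nat_lit 57) (nat_lit 5) (nat_lit 61) (nat_lit 5) (nat_lit 58) (nat_lit 5) (nat_lit 513)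 (nat_lit 395) (nat_lit 232)) (XT.lf (nat_lit 0) (nat_lit 8012830828) (nat_lit 228) (nat_lit 9736139101) (nat_lit 304) (nat_lit 7178290449) (nat_lit 54) (nat_lit 5) (nat_lit 57) (nat_lit 5) (nat_lit 58) (nat_lit 5) (nat_lit 514) (nat_lit 395) (nat_lit 231))))) (XT.nd (nat_lit 234) (nat_lit 228) (nat_lit 0) (XT.nd (nat_lit 78) (nat_lit 304) (nat_lit 0) (XT.lf (nat_lit 0) (nat_lit 18013045724) (nat_lit 228) (nat_lit 4014971107) (nat_lit 304) (nat_lit 3275344888) (nat_lit 54) (nat_lit 5) (nat_lit 57) (nat_lit 5) (nat_lit 58) (nat_lit 5) (nat_lit 515) (nat_lit 395) (nat_lit 230)) (XT.nd (nat_lit 78) (nat_lit 0) (nat_lit 0) (XT.lf (nat_lit 0) (nat_lit 716316510) (nat_lit 304) (nat_lit 23157463907) (nat_lit 76) (nat_lit 1812718805) (nat_lit 50) (nat_lit 5) (nat_lit 54) (nat_lit 5) (nat_lit 51) (nat_lit 5) (nat_lit 516) (nat_lit 395) (nat_lit 229)) (XT.lf (nat_lit 0) (nat_lit 4811360494) (nat_lit 304) (nat_lit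 13495203607) (nat_lit 76) (nat_lit 7768958175) (nat_lit 50) (nat_lit 5) (nat_lit 54) (nat_lit 5) (nat_lit 51) (nat_lit 5) (nat_lit 517) (nat_lit 395) (nat_lit 228)))) (XT.nd (nat_lit 156) (nat_lit 0) (nat_lit 0) (XT.nd (nat_lit 78) (nat_lit 228) (nat_lit 0) (XT.lf (nat_lit 0) (nat_lit 8980001605) (nat_lit 304) (nat_lit 3653300210) (nat_lit 76) (nat_lit 13839193902) (nat_lit 50) (nat_lit 5) (nat_lit 54) (nat_lit 5) (nat_lit 51) (nat_lit 5) (nat_lit 518) (nat_lit 395) (nat_lit 227)) (XT.lf (nat_lit 0) (nat_lit 6456787787) (nat_lit 228) (nat_lit 6809008566) (nat_lit 304) (nat_lit 13610940430) (nat_lit 47) (nat_lit 5) (nat_lit 50) (nat_lit 5) (nat_lit 51) (nat_lit 5) (nat_lit 519) (nat_lit 395) (nat_lit 226))) (XT.nd (nat_lit 78) (nat_lit 0) (nat_lit 0) (XT.lf (nat_lit 0) (nat_lit 16805351324) (nat_lit 228) (nat_lit 848403919) (nat_lit 304) (nat_lit 9634982162) (nat_lit 47) (nat_lit 5) (nat_lit 50) (nat_lit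 5) (nat_lit 51) (nat_lit 5) (nat_lit 520) (nat_lit 395) (nat_lit 225)) (XT.lf (nat_lit 0) (nat_lit 22155497000) (nat_lit 304) (nat_lit 395174455) (nat_lit 76) (nat_lit 5157789737) (nat_lit 47) (nat_lit 5) (nat_lit 51) (nat_lit 5) (nat_lit 48) (nat_lit 5) (nat_lit 521) (nat_lit 395) (nat_lit 224)))))) (XT.nd (nat_lit 49842) (nat_lit 0) (nat_lit 34428) (XT.nd (nat_lit 49530) (nat_lit 0) (nat_lit 35340) (XT.nd (nat_lit 78) (nat_lit 304) (nat_lit 0) (XT.lf (nat_lit 0) (nat_lit 10007574420) (nat_lit 152) (nat_lit 16802507168) (nat_lit 228) (nat_lit 1325245264) (nat_lit 45) (nat_lit 5) (nat_lit 47) (nat_lit 5) (nat_lit 48) (nat_lit 5) (nat_lit 522) (nat_lit 395) (nat_lit 223)) (XT.nd (nat_lit 78) (nat_lit 228) (nat_lit 0) (XT.lf (nat_lit 0) (nat_lit 2942750824) (nat_lit 228) (nat_lit 7979234794) (nat_lit 76) (nat_lit 17648461785) (nat_lit 44) (nat_lit 5) (nat_lit 47) (nat_lit 5) (nat_lit 45) (nat_lit 5) (nat_lit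 523) (nat_lit 395) (nat_lit 222)) (XT.lf (nat_lit 0) (nat_lit 2382089204) (nat_lit 228) (nat_lit 4904136466) (nat_lit 304) (nat_lit 21727715571) (nat_lit 41) (nat_lit 5) (nat_lit 44) (nat_lit 5) (nat_lit 45) (nat_lit 5) (nat_lit 524) (nat_lit 395) (nat_lit 221)))) (XT.nd (nat_lit 156) (nat_lit 988) (nat_lit 0) (XT.nd (nat_lit 78) (nat_lit 0) (nat_lit 0) (XT.lf (nat_lit 0) (nat_lit 916617043) (nat_lit 988) (nat_lit 1278045288) (nat_lit 988) (nat_lit 1278045288) (nat_lit 519) (nat_lit 3) (nat_lit 532) (nat_lit 3) (nat_lit 532) (nat_lit 5) (nat_lit 396) (nat_lit 396) (nat_lit 348)) (XT.lf (nat_lit 76) (nat_lit 585060376) (nat_lit 0) (nat_lit 3019208133) (nat_lit 988) (nat_lit 3373104694) (nat_lit 520) (nat_lit 5) (nat_lit 519) (nat_lit 3) (nat_lit 532) (nat_lit 5) (nat_lit 397) (nat_lit 396) (nat_lit 347))) (XT.nd (nat_lit 78) (nat_lit 988) (nat_lit 0) (XT.lf (nat_lit 76) (nat_lit 3799943527) (nat_lit 0)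 (nat_lit 1581904308) (nat_lit 988) (nat_lit 1628764066) (nat_lit 520) (nat_lit 5) (nat_lit 519) (nat_lit 3) (nat_lit 532) (nat_lit 5) (nat_lit 398) (nat_lit 396) (nat_lit 346)) (XT.lf (nat_lit 76) (nat_lit 9820972) (nat_lit 0) (nat_lit 93246007) (nat_lit 1064) (nat_lit 6942398888) (nat_lit 507) (nat_lit 5) (nat_lit 506) (nat_lit 5) (nat_lit 520) (nat_lit 5) (nat_lit 399) (nat_lit 396) (nat_lit 345))))) (XT.nd (nat_lit 234) (nat_lit 988) (nat_lit 0) (XT.nd (nat_lit 78) (nat_lit 0) (nat_lit 0) (XT.lf (nat_lit 0) (nat_lit 1834073902) (nat_lit 988) (nat_lit 3787400769) (nat_lit 1064) (nat_lit 1459660312) (nat_lit 507) (nat_lit 5) (nat_lit 520) (nat_lit 5) (nat_lit 521) (nat_lit 5) (nat_lit 400) (nat_lit 396) (nat_lit 344)) (XT.nd (nat_lit 78) (nat_lit 0) (nat_lit 0) (XT.lf (nat_lit 0) (nat_lit 3556580068) (nat_lit 988) (nat_lit 499195435) (nat_lit 1064) (nat_lit 3062663578) (nat_lit 507) (nat_lit 5) (nat_lit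 520) (nat_lit 5) (nat_lit 521) (nat_lit 5) (nat_lit 401) (nat_lit 396) (nat_lit 343)) (XT.lf (nat_lit 76) (nat_lit 2868486733) (nat_lit 0) (nat_lit 2420792939) (nat_lit 1064) (nat_lit 1867752741) (nat_lit 508) (nat_lit 5) (nat_lit 507) (nat_lit 5) (nat_lit 521) (nat_lit 5) (nat_lit 402) (nat_lit 396) (nat_lit 342)))) (XT.nd (nat_lit 156) (nat_lit 0) (nat_lit 0) (XT.nd (nat_lit 78) (nat_lit 988) (nat_lit 0) (XT.lf (nat_lit 76) (nat_lit 6286538570) (nat_lit 0) (nat_lit 731250356) (nat_lit 1064) (nat_lit 179442456) (nat_lit 508) (nat_lit 5) (nat_lit 507) (nat_lit 5) (nat_lit 521) (nat_lit 5) (nat_lit 403) (nat_lit 396) (nat_lit 341)) (XT.lf (nat_lit 0) (nat_lit 1503891066) (nat_lit 1064) (nat_lit 4711283749) (nat_lit 1140) (nat_lit 1023284092) (nat_lit 494) (nat_lit 5) (nat_lit 508) (nat_lit 5) (nat_lit 509) (nat_lit 5) (nat_lit 404) (nat_lit 396) (nat_lit 340))) (XT.nd (nat_lit 78) (nat_lit 0) (nat_lit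 0) (XT.lf (nat_lit 0) (nat_lit 3188565078) (nat_lit 1064) (nat_lit 1265038277) (nat_lit 1140) (nat_lit 2827535976) (nat_lit 494) (nat_lit 5) (nat_lit 508) (nat_lit 5) (nat_lit 509) (nat_lit 5) (nat_lit 405) (nat_lit 396) (nat_lit 339)) (XT.lf (nat_lit 76) (nat_lit 2255474686) (nat_lit 0) (nat_lit 2625984166) (nat_lit 1140) (nat_lit 2443776537) (nat_lit 495) (nat_lit 5) (nat_lit 494) (nat_lit 5) (nat_lit 509) (nat_lit 5) (nat_lit 406) (nat_lit 396) (nat_lit 338))))))))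
noncomputable def xc143 : XT := (XT.nd (nat_lit 2106) (nat_lit 9728) (nat_lit 0) (XT.nd (nat_lit 1014) (nat_lit 10868) (nat_lit 0) (XT.nd (nat_lit 468) (nat_lit 2356) (nat_lit 0) (XT.nd (nat_lit 234) (nat_lit 0) (nat_lit 0) (XT.nd (nat_lit 78) (nat_lit 1064) (nat_lit 0) (XT.lf (nat_lit 76) (nat_lit 5839466926) (nat_lit 0) (nat_lit 737745178) (nat_lit 1140) (nat_lit 793672749) (nat_lit 495) (nat_lit 5) (nat_lit 494) (nat_lit 5) (nat_lit 509) (nat_lit 5) (nat_lit 407) (nat_lit 396) (nat_lit 337)) (XT.nd (nat_lit 78) (nat_lit 0) (nat_lit 0) (XT.lf (nat_lit 0) (nat_lit 860159400) (nat_lit 1140) (nat_lit 5350875604) (nat_lit 1216) (nat_lit 1206698502) (nat_lit 480) (nat_lit 5) (nat_lit 495) (nat_lit 5) (nat_lit 496) (nat_lit 5) (nat_lit 408) (nat_lit 396) (nat_lit 336)) (XT.lf (nat_lit 0) (nat_lit 2513364444) (nat_lit 1140) (nat_lit 1742591480) (nat_lit 1216) (nat_lit 3209968361) (nat_lit 480) (nat_lit 5)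 (nat_lit 495) (nat_lit 5) (nat_lit 496) (nat_lit 5) (nat_lit 409) (nat_lit 396) (nat_lit 335)))) (XT.nd (nat_lit 78) (nat_lit 0) (nat_lit 0) (XT.lf (nat_lit 76) (nat_lit 1938849421) (nat_lit 0) (nat_lit 2235806961) (nat_lit 1216) (nat_lit 3340969636) (nat_lit 481) (nat_lit 5) (nat_lit 480) (nat_lit 5) (nat_lit 496) (nat_lit 5) (nat_lit 410) (nat_lit 396) (nat_lit 334)) (XT.nd (nat_lit 78) (nat_lit 0) (nat_lit 76) (XT.lf (nat_lit 76) (nat_lit 5693263936) (nat_lit 0) (nat_lit 150617388) (nat_lit 1216) (nat_lit 1722992983) (nat_lit 481) (nat_lit 5) (nat_lit 480) (nat_lit 5) (nat_lit 496) (nat_lit 5) (nat_lit 411) (nat_lit 396) (nat_lit 333)) (XT.lf (nat_lit 76) (nat_lit 1890935482) (nat_lit 0) (nat_lit 5644483373) (nat_lit 1216) (nat_lit 83995895) (nat_lit 482) (nat_lit 5) (nat_lit 481) (nat_lit 5) (nat_lit 497) (nat_lit 5) (nat_lit 412) (nat_lit 396) (nat_lit 332))))) (XT.nd (nat_lit 234) (nat_lit 1216)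 (nat_lit 0) (XT.nd (nat_lit 78) (nat_lit 0) (nat_lit 0) (XT.lf (nat_lit 0) (nat_lit 1544700520) (nat_lit 1216) (nat_lit 1952986038) (nat_lit 1292) (nat_lit 4175602365) (nat_lit 465) (nat_lit 5) (nat_lit 481) (nat_lit 5) (nat_lit 482) (nat_lit 5) (nat_lit 413) (nat_lit 396) (nat_lit 331)) (XT.nd (nat_lit 78) (nat_lit 0) (nat_lit 76) (XT.lf (nat_lit 76) (nat_lit 1897830221) (nat_lit 0) (nat_lit 1284132861) (nat_lit 1292) (nat_lit 4546767166) (nat_lit 466) (nat_lit 5) (nat_lit 465) (nat_lit 5) (nat_lit 482) (nat_lit 5) (nat_lit 414) (nat_lit 396) (nat_lit 330)) (XT.lf (nat_lit 0) (nat_lit 4836878131) (nat_lit 1216) (nat_lit 1964453230) (nat_lit 1292) (nat_lit 984293158) (nat_lit 466) (nat_lit 5) (nat_lit 482) (nat_lit 5) (nat_lit 483) (nat_lit 5) (nat_lit 415) (nat_lit 396) (nat_lit 329)))) (XT.nd (nat_lit 156) (nat_lit 0) (nat_lit 76) (XT.nd (nat_lit 78) (nat_lit 1292) (nat_lit 0) (XT.lf (nat_lit 76) (nat_lit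 1972012648) (nat_lit 0) (nat_lit 4540258229) (nat_lit 1292) (nat_lit 1331679646) (nat_lit 467) (nat_lit 5) (nat_lit 466) (nat_lit 5) (nat_lit 483) (nat_lit 5) (nat_lit 416) (nat_lit 396) (nat_lit 328)) (XT.lf (nat_lit 0) (nat_lit 293147493) (nat_lit 1292) (nat_lit 1916487209) (nat_lit 1368) (nat_lit 5694215191) (nat_lit 449) (nat_lit 5) (nat_lit 466) (nat_lit 5) (nat_lit 467) (nat_lit 5) (nat_lit 417) (nat_lit 396) (nat_lit 327))) (XT.nd (nat_lit 78) (nat_lit 0) (nat_lit 0) (XT.lf (nat_lit 0) (nat_lit 1914641613) (nat_lit 1292) (nat_lit 5854034226) (nat_lit 76) (nat_lit 196494376) (nat_lit 450) (nat_lit 5) (nat_lit 467) (nat_lit 5) (nat_lit 451) (nat_lit 5) (nat_lit 418) (nat_lit 396) (nat_lit 326)) (XT.lf (nat_lit 0) (nat_lit 3563664187) (nat_lit 1292) (nat_lit 1821973079) (nat_lit 76) (nat_lit 2642215986) (nat_lit 450) (nat_lit 5) (nat_lit 467) (nat_lit 5) (nat_lit 451) (nat_lit 5) (nat_lit 419) (nat_lit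 396) (nat_lit 325)))))) (XT.nd (nat_lit 546) (nat_lit 5244) (nat_lit 0) (XT.nd (nat_lit 234) (nat_lit 2964) (nat_lit 0) (XT.nd (nat_lit 78) (nat_lit 1444) (nat_lit 0) (XT.lf (nat_lit 0) (nat_lit 2296251933) (nat_lit 1292) (nat_lit 2932480365) (nat_lit 1368) (nat_lit 2863433880) (nat_lit 433) (nat_lit 5) (nat_lit 450) (nat_lit 5) (nat_lit 451) (nat_lit 5) (nat_lit 420) (nat_lit 396) (nat_lit 324)) (XT.nd (nat_lit 78) (nat_lit 1444) (nat_lit 0) (XT.lf (nat_lit 0) (nat_lit 6497107453) (nat_lit 1292) (nat_lit 410842775) (nat_lit 1368) (nat_lit 1250234958) (nat_lit 433) (nat_lit 5) (nat_lit 450) (nat_lit 5) (nat_lit 451) (nat_lit 5) (nat_lit 421) (nat_lit 396) (nat_lit 323)) (XT.lf (nat_lit 0) (nat_lit 389886014) (nat_lit 1444) (nat_lit 5676892645) (nat_lit 76) (nat_lit 2158733127) (nat_lit 414) (nat_lit 5) (nat_lit 433) (nat_lit 5) (nat_lit 415) (nat_lit 5) (nat_lit 422) (nat_lit 396) (nat_lit 322)))) (XT.nd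 (nat_lit 156) (nat_lit 1520) (nat_lit 0) (XT.nd (nat_lit 78) (nat_lit 1444) (nat_lit 0) (XT.lf (nat_lit 0) (nat_lit 2029515223) (nat_lit 1444) (nat_lit 1464935818) (nat_lit 76) (nat_lit 4799934339) (nat_lit 414) (nat_lit 5) (nat_lit 433) (nat_lit 5) (nat_lit 415) (nat_lit 5) (nat_lit 423) (nat_lit 396) (nat_lit 321)) (XT.lf (nat_lit 0) (nat_lit 2844124289) (nat_lit 1444) (nat_lit 846366390) (nat_lit 1520) (nat_lit 4674408684) (nat_lit 395) (nat_lit 5) (nat_lit 414) (nat_lit 5) (nat_lit 415) (nat_lit 5) (nat_lit 424) (nat_lit 396) (nat_lit 320))) (XT.nd (nat_lit 78) (nat_lit 1520) (nat_lit 0) (XT.lf (nat_lit 0) (nat_lit 5377173479) (nat_lit 1520) (nat_lit 1214443831) (nat_lit 76) (nat_lit 1845389885) (nat_lit 395) (nat_lit 5) (nat_lit 415) (nat_lit 5) (nat_lit 396) (nat_lit 5) (nat_lit 425) (nat_lit 396) (nat_lit 319)) (XT.lf (nat_lit 0) (nat_lit 3189799552) (nat_lit 1520) (nat_lit 3905233621) (nat_lit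 1596) (nat_lit 1415607817) (nat_lit 375) (nat_lit 5) (nat_lit 395) (nat_lit 5) (nat_lit 396) (nat_lit 5) (nat_lit 426) (nat_lit 396) (nat_lit 318))))) (XT.nd (nat_lit 234) (nat_lit 3572) (nat_lit 0) (XT.nd (nat_lit 78) (nat_lit 1596) (nat_lit 0) (XT.lf (nat_lit 0) (nat_lit 237592689) (nat_lit 1596) (nat_lit 913442363) (nat_lit 76) (nat_lit 7435119461) (nat_lit 374) (nat_lit 5) (nat_lit 395) (nat_lit 5) (nat_lit 375) (nat_lit 5) (nat_lit 427) (nat_lit 396) (nat_lit 317)) (XT.nd (nat_lit 78) (nat_lit 0) (nat_lit 0) (XT.lf (nat_lit 0) (nat_lit 1911152609) (nat_lit 1672) (nat_lit 5078449631) (nat_lit 76) (nat_lit 1673294701) (nat_lit 353) (nat_lit 5) (nat_lit 375) (nat_lit 5) (nat_lit 354) (nat_lit 5) (nat_lit 428) (nat_lit 396) (nat_lit 316)) (XT.lf (nat_lit 0) (nat_lit 3604274476) (nat_lit 1672) (nat_lit 588699256) (nat_lit 76) (nat_lit 4548508853) (nat_lit 353) (nat_lit 5) (nat_lit 375) (nat_lit 5) (nat_lit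 354) (nat_lit 5) (nat_lit 429) (nat_lit 396) (nat_lit 315)))) (XT.nd (nat_lit 156) (nat_lit 1900) (nat_lit 0) (XT.nd (nat_lit 78) (nat_lit 0) (nat_lit 0) (XT.lf (nat_lit 0) (nat_lit 4019383596) (nat_lit 1672) (nat_lit 1310812600) (nat_lit 1748) (nat_lit 3491494593) (nat_lit 331) (nat_lit 5) (nat_lit 353) (nat_lit 5) (nat_lit 354) (nat_lit 5) (nat_lit 430) (nat_lit 396) (nat_lit 314)) (XT.lf (nat_lit 0) (nat_lit 7078424933) (nat_lit 1748) (nat_lit 211019736) (nat_lit 76) (nat_lit 1614331725) (nat_lit 331) (nat_lit 5) (nat_lit 354) (nat_lit 5) (nat_lit 332) (nat_lit 5) (nat_lit 431) (nat_lit 396) (nat_lit 313))) (XT.nd (nat_lit 78) (nat_lit 912) (nat_lit 0) (XT.lf (nat_lit 0) (nat_lit 4498289830) (nat_lit 988) (nat_lit 4374975413) (nat_lit 1064) (nat_lit 114033971) (nat_lit 318) (nat_lit 5) (nat_lit 331) (nat_lit 5) (nat_lit 332) (nat_lit 5) (nat_lit 432) (nat_lit 396) (nat_lit 312)) (XT.lf (nat_lit 0)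 (nat_lit 199867026) (nat_lit 836) (nat_lit 1386888662) (nat_lit 912) (nat_lit 7486019417) (nat_lit 306) (nat_lit 5) (nat_lit 317) (nat_lit 5) (nat_lit 318) (nat_lit 5) (nat_lit 433) (nat_lit 396) (nat_lit 311))))))) (XT.nd (nat_lit 1092) (nat_lit 4408) (nat_lit 0) (XT.nd (nat_lit 546) (nat_lit 2888) (nat_lit 0) (XT.nd (nat_lit 234) (nat_lit 1596) (nat_lit 0) (XT.nd (nat_lit 78) (nat_lit 836) (nat_lit 0) (XT.lf (nat_lit 0) (nat_lit 3335427570) (nat_lit 912) (nat_lit 4152451292) (nat_lit 76) (nat_lit 1671785511) (nat_lit 306) (nat_lit 5) (nat_lit 318) (nat_lit 5) (nat_lit 307) (nat_lit 5) (nat_lit 434) (nat_lit 396) (nat_lit 310)) (XT.nd (nat_lit 78) (nat_lit 0) (nat_lit 0) (XT.lf (nat_lit 0) (nat_lit 637348505) (nat_lit 836) (nat_lit 4469836141) (nat_lit 912) (nat_lit 4141370823) (nat_lit 295) (nat_lit 5) (nat_lit 306) (nat_lit 5) (nat_lit 307) (nat_lit 5) (nat_lit 435) (nat_lit 396) (nat_lit 309)) (XT.lf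 (nat_lit 0) (nat_lit 5555150972) (nat_lit 836) (nat_lit 1362217984) (nat_lit 912) (nat_lit 2421821349) (nat_lit 295) (nat_lit 5) (nat_lit 306) (nat_lit 5) (nat_lit 307) (nat_lit 5) (nat_lit 436) (nat_lit 396) (nat_lit 308)))) (XT.nd (nat_lit 156) (nat_lit 760) (nat_lit 0) (XT.nd (nat_lit 78) (nat_lit 76) (nat_lit 0) (XT.lf (nat_lit 0) (nat_lit 1118478134) (nat_lit 760) (nat_lit 7639896258) (nat_lit 836) (nat_lit 673396354) (nat_lit 285) (nat_lit 5) (nat_lit 295) (nat_lit 5) (nat_lit 296) (nat_lit 5) (nat_lit 437) (nat_lit 396) (nat_lit 307)) (XT.lf (nat_lit 0) (nat_lit 1105780077) (nat_lit 836) (nat_lit 3396066084) (nat_lit 76) (nat_lit 5024029958) (nat_lit 284) (nat_lit 5) (nat_lit 295) (nat_lit 5) (nat_lit 285) (nat_lit 5) (nat_lit 438) (nat_lit 396) (nat_lit 306))) (XT.nd (nat_lit 78) (nat_lit 0) (nat_lit 0) (XT.lf (nat_lit 0) (nat_lit 1612354029) (nat_lit 760) (nat_lit 1285879833) (nat_lit 836) (nat_lit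 6723830301) (nat_lit 274) (nat_lit 5) (nat_lit 284) (nat_lit 5) (nat_lit 285) (nat_lit 5) (nat_lit 439) (nat_lit 396) (nat_lit 305)) (XT.lf (nat_lit 0) (nat_lit 4738970528) (nat_lit 836) (nat_lit 2990014790) (nat_lit 76) (nat_lit 1990965309) (nat_lit 274) (nat_lit 5) (nat_lit 285) (nat_lit 5) (nat_lit 275) (nat_lit 5) (nat_lit 440) (nat_lit 396) (nat_lit 304))))) (XT.nd (nat_lit 234) (nat_lit 1368) (nat_lit 0) (XT.nd (nat_lit 78) (nat_lit 836) (nat_lit 0) (XT.lf (nat_lit 0) (nat_lit 2125740332) (nat_lit 684) (nat_lit 4490103468) (nat_lit 760) (nat_lit 3203987457) (nat_lit 265) (nat_lit 5) (nat_lit 274) (nat_lit 5) (nat_lit 275) (nat_lit 5) (nat_lit 441) (nat_lit 396) (nat_lit 303)) (XT.nd (nat_lit 78) (nat_lit 836) (nat_lit 0) (XT.lf (nat_lit 0) (nat_lit 7360799064) (nat_lit 684) (nat_lit 1166822486) (nat_lit 760) (nat_lit 1394163036) (nat_lit 265) (nat_lit 5) (nat_lit 274) (nat_lit 5) (nat_lit 275) (nat_lit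 5) (nat_lit 442) (nat_lit 396) (nat_lit 302)) (XT.lf (nat_lit 0) (nat_lit 455495269) (nat_lit 836) (nat_lit 7356756118) (nat_lit 76) (nat_lit 2213297203) (nat_lit 254) (nat_lit 5) (nat_lit 265) (nat_lit 5) (nat_lit 255) (nat_lit 5) (nat_lit 443) (nat_lit 396) (nat_lit 301)))) (XT.nd (nat_lit 156) (nat_lit 684) (nat_lit 0) (XT.nd (nat_lit 78) (nat_lit 684) (nat_lit 0) (XT.lf (nat_lit 0) (nat_lit 2326382930) (nat_lit 836) (nat_lit 2133939751) (nat_lit 76) (nat_lit 5670843938) (nat_lit 254) (nat_lit 5) (nat_lit 265) (nat_lit 5) (nat_lit 255) (nat_lit 5) (nat_lit 444) (nat_lit 396) (nat_lit 300)) (XT.lf (nat_lit 0) (nat_lit 3212224126) (nat_lit 684) (nat_lit 1021614136) (nat_lit 760) (nat_lit 6005096467) (nat_lit 245) (nat_lit 5) (nat_lit 254) (nat_lit 5) (nat_lit 255) (nat_lit 5) (nat_lit 445) (nat_lit 396) (nat_lit 299))) (XT.nd (nat_lit 78) (nat_lit 684) (nat_lit 0) (XT.lf (nat_lit 0) (nat_lit 6188556312)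 (nat_lit 760) (nat_lit 1694092158) (nat_lit 76) (nat_lit 2466047771) (nat_lit 245) (nat_lit 5) (nat_lit 255) (nat_lit 5) (nat_lit 246) (nat_lit 5) (nat_lit 446) (nat_lit 396) (nat_lit 298)) (XT.lf (nat_lit 0) (nat_lit 3764726288) (nat_lit 684) (nat_lit 4427830613) (nat_lit 760) (nat_lit 2267912233) (nat_lit 236) (nat_lit 5) (nat_lit 245) (nat_lit 5) (nat_lit 246) (nat_lit 5) (nat_lit 447) (nat_lit 396) (nat_lit 297)))))) (XT.nd (nat_lit 546) (nat_lit 1748) (nat_lit 0) (XT.nd (nat_lit 234) (nat_lit 1976) (nat_lit 0) (XT.nd (nat_lit 78) (nat_lit 684) (nat_lit 0) (XT.lf (nat_lit 0) (nat_lit 9332774917) (nat_lit 684) (nat_lit 894473679) (nat_lit 760) (nat_lit 347436192) (nat_lit 236) (nat_lit 5) (nat_lit 245) (nat_lit 5) (nat_lit 246) (nat_lit 5) (nat_lit 448) (nat_lit 396) (nat_lit 296)) (XT.nd (nat_lit 78) (nat_lit 0) (nat_lit 0) (XT.lf (nat_lit 0) (nat_lit 1615853926) (nat_lit 684) (nat_lit 6363906380)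 (nat_lit 76) (nat_lit 2710723182) (nat_lit 227) (nat_lit 5) (nat_lit 236) (nat_lit 5) (nat_lit 228) (nat_lit 5) (nat_lit 449) (nat_lit 396) (nat_lit 295)) (XT.lf (nat_lit 0) (nat_lit 3607810942) (nat_lit 684) (nat_lit 816453487) (nat_lit 76) (nat_lit 6384425135) (nat_lit 227) (nat_lit 5) (nat_lit 236) (nat_lit 5) (nat_lit 228) (nat_lit 5) (nat_lit 450) (nat_lit 396) (nat_lit 294)))) (XT.nd (nat_lit 156) (nat_lit 1292) (nat_lit 0) (XT.nd (nat_lit 78) (nat_lit 0) (nat_lit 0) (XT.lf (nat_lit 0) (nat_lit 4883436309) (nat_lit 684) (nat_lit 768010816) (nat_lit 760) (nat_lit 5277593872) (nat_lit 218) (nat_lit 5) (nat_lit 227) (nat_lit 5) (nat_lit 228) (nat_lit 5) (nat_lit 451) (nat_lit 396) (nat_lit 293)) (XT.lf (nat_lit 0) (nat_lit 7741057761) (nat_lit 760) (nat_lit 385365099) (nat_lit 76) (nat_lit 2925292248) (nat_lit 218) (nat_lit 5) (nat_lit 228) (nat_lit 5) (nat_lit 219) (nat_lit 5) (nat_lit 452) (nat_lit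 396) (nat_lit 292))) (XT.nd (nat_lit 78) (nat_lit 684) (nat_lit 0) (XT.lf (nat_lit 0) (nat_lit 5431877371) (nat_lit 608) (nat_lit 4461681310) (nat_lit 684) (nat_lit 1282879396) (nat_lit 210) (nat_lit 5) (nat_lit 218) (nat_lit 5) (nat_lit 219) (nat_lit 5) (nat_lit 453) (nat_lit 396) (nat_lit 291)) (XT.lf (nat_lit 0) (nat_lit 40012516) (nat_lit 608) (nat_lit 718838315) (nat_lit 684) (nat_lit 10545045381) (nat_lit 201) (nat_lit 5) (nat_lit 209) (nat_lit 5) (nat_lit 210) (nat_lit 5) (nat_lit 454) (nat_lit 396) (nat_lit 290))))) (XT.nd (nat_lit 234) (nat_lit 1216) (nat_lit 0) (XT.nd (nat_lit 78) (nat_lit 532) (nat_lit 0) (XT.lf (nat_lit 0) (nat_lit 2864222043) (nat_lit 684) (nat_lit 5466562472) (nat_lit 76) (nat_lit 3102166052) (nat_lit 201) (nat_lit 5) (nat_lit 210) (nat_lit 5) (nat_lit 202) (nat_lit 5) (nat_lit 455) (nat_lit 396) (nat_lit 289)) (XT.nd (nat_lit 78) (nat_lit 0) (nat_lit 0) (XT.lf (nat_lit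 0) (nat_lit 425262115) (nat_lit 532) (nat_lit 4575375751) (nat_lit 608) (nat_lit 6564185417) (nat_lit 194) (nat_lit 5) (nat_lit 201) (nat_lit 5) (nat_lit 202) (nat_lit 5) (nat_lit 456) (nat_lit 396) (nat_lit 288)) (XT.lf (nat_lit 0) (nat_lit 6486910401) (nat_lit 532) (nat_lit 711191523) (nat_lit 608) (nat_lit 4500880832) (nat_lit 194) (nat_lit 5) (nat_lit 201) (nat_lit 5) (nat_lit 202) (nat_lit 5) (nat_lit 457) (nat_lit 396) (nat_lit 287)))) (XT.nd (nat_lit 156) (nat_lit 608) (nat_lit 0) (XT.nd (nat_lit 78) (nat_lit 0) (nat_lit 0) (XT.lf (nat_lit 0) (nat_lit 801473117) (nat_lit 608) (nat_lit 8646191549) (nat_lit 684) (nat_lit 2388013160) (nat_lit 186) (nat_lit 5) (nat_lit 194) (nat_lit 5) (nat_lit 195) (nat_lit 5) (nat_lit 458) (nat_lit 396) (nat_lit 286)) (XT.lf (nat_lit 0) (nat_lit 6979281503) (nat_lit 608) (nat_lit 4784775786) (nat_lit 684) (nat_lit 210627828) (nat_lit 186) (nat_lit 5) (nat_lit 194)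 (nat_lit 5) (nat_lit 195) (nat_lit 5) (nat_lit 459) (nat_lit 396) (nat_lit 285))) (XT.nd (nat_lit 78) (nat_lit 0) (nat_lit 0) (XT.lf (nat_lit 0) (nat_lit 1144424854) (nat_lit 532) (nat_lit 829348250) (nat_lit 608) (nat_lit 10142656243) (nat_lit 178) (nat_lit 5) (nat_lit 185) (nat_lit 5) (nat_lit 186) (nat_lit 5) (nat_lit 460) (nat_lit 396) (nat_lit 284)) (XT.lf (nat_lit 0) (nat_lit 4236179377) (nat_lit 608) (nat_lit 4829899145) (nat_lit 76) (nat_lit 3194173564) (nat_lit 178) (nat_lit 5) (nat_lit 186) (nat_lit 5) (nat_lit 179) (nat_lit 5) (nat_lit 461) (nat_lit 396) (nat_lit 283))))))))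
noncomputable def xc144 : XT := (XT.nd (nat_lit 2106) (nat_lit 3496) (nat_lit 0) (XT.nd (nat_lit 1014) (nat_lit 2432) (nat_lit 0) (XT.nd (nat_lit 468) (nat_lit 1900) (nat_lit 0) (XT.nd (nat_lit 234) (nat_lit 608) (nat_lit 0) (XT.nd (nat_lit 78) (nat_lit 456) (nat_lit 0) (XT.lf (nat_lit 0) (nat_lit 1426800118) (nat_lit 532) (nat_lit 5114712312) (nat_lit 608) (nat_lit 5865499222) (nat_lit 171) (nat_lit 5) (nat_lit 178) (nat_lit 5) (nat_lit 179) (nat_lit 5) (nat_lit 462) (nat_lit 396) (nat_lit 282)) (XT.nd (nat_lit 78) (nat_lit 456) (nat_lit 0) (XT.lf (nat_lit 0) (nat_lit 7852776603) (nat_lit 532) (nat_lit 1055705636) (nat_lit 608) (nat_lit 3647927236) (nat_lit 171) (nat_lit 5) (nat_lit 178) (nat_lit 5) (nat_lit 179) (nat_lit 5) (nat_lit 463) (nat_lit 396) (nat_lit 281)) (XT.lf (nat_lit 0) (nat_lit 1679249282) (nat_lit 456) (nat_lit 9657893088) (nat_lit 532) (nat_lit 1371379268) (nat_lit 165) (nat_lit 5)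 (nat_lit 171) (nat_lit 5) (nat_lit 172) (nat_lit 5) (nat_lit 464) (nat_lit 396) (nat_lit 280)))) (XT.nd (nat_lit 78) (nat_lit 532) (nat_lit 0) (XT.lf (nat_lit 0) (nat_lit 960483657) (nat_lit 532) (nat_lit 4644187649) (nat_lit 76) (nat_lit 7258449116) (nat_lit 164) (nat_lit 5) (nat_lit 171) (nat_lit 5) (nat_lit 165) (nat_lit 5) (nat_lit 465) (nat_lit 396) (nat_lit 279)) (XT.nd (nat_lit 78) (nat_lit 0) (nat_lit 0) (XT.lf (nat_lit 0) (nat_lit 1863051107) (nat_lit 532) (nat_lit 1453495337) (nat_lit 608) (nat_lit 9704177565) (nat_lit 157) (nat_lit 5) (nat_lit 164) (nat_lit 5) (nat_lit 165) (nat_lit 5) (nat_lit 466) (nat_lit 396) (nat_lit 278)) (XT.lf (nat_lit 0) (nat_lit 5753119759) (nat_lit 608) (nat_lit 4656793124) (nat_lit 76) (nat_lit 2770911378) (nat_lit 157) (nat_lit 5) (nat_lit 165) (nat_lit 5) (nat_lit 158) (nat_lit 5) (nat_lit 467) (nat_lit 396) (nat_lit 277))))) (XT.nd (nat_lit 234) (nat_lit 988)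 (nat_lit 0) (XT.nd (nat_lit 78) (nat_lit 456) (nat_lit 0) (XT.lf (nat_lit 0) (nat_lit 1969659901) (nat_lit 456) (nat_lit 6275456974) (nat_lit 532) (nat_lit 5098887936) (nat_lit 151) (nat_lit 5) (nat_lit 157) (nat_lit 5) (nat_lit 158) (nat_lit 5) (nat_lit 468) (nat_lit 396) (nat_lit 276)) (XT.nd (nat_lit 78) (nat_lit 456) (nat_lit 0) (XT.lf (nat_lit 0) (nat_lit 8771250909) (nat_lit 456) (nat_lit 2031405829) (nat_lit 532) (nat_lit 2707490078) (nat_lit 151) (nat_lit 5) (nat_lit 157) (nat_lit 5) (nat_lit 158) (nat_lit 5) (nat_lit 469) (nat_lit 396) (nat_lit 275)) (XT.lf (nat_lit 0) (nat_lit 2020445765) (nat_lit 456) (nat_lit 11403663256) (nat_lit 532) (nat_lit 255259073) (nat_lit 145) (nat_lit 5) (nat_lit 151) (nat_lit 5) (nat_lit 152) (nat_lit 5) (nat_lit 470) (nat_lit 396) (nat_lit 274)))) (XT.nd (nat_lit 156) (nat_lit 456) (nat_lit 0) (XT.nd (nat_lit 78) (nat_lit 456) (nat_lit 0) (XT.lf (nat_lit 0) (nat_lit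 2246806818) (nat_lit 532) (nat_lit 4920849783) (nat_lit 76) (nat_lit 6683431817) (nat_lit 144) (nat_lit 5) (nat_lit 151) (nat_lit 5) (nat_lit 145) (nat_lit 5) (nat_lit 471) (nat_lit 396) (nat_lit 273)) (XT.lf (nat_lit 0) (nat_lit 1955869852) (nat_lit 456) (nat_lit 2837409702) (nat_lit 532) (nat_lit 9232985173) (nat_lit 138) (nat_lit 5) (nat_lit 144) (nat_lit 5) (nat_lit 145) (nat_lit 5) (nat_lit 472) (nat_lit 396) (nat_lit 272))) (XT.nd (nat_lit 78) (nat_lit 456) (nat_lit 0) (XT.lf (nat_lit 0) (nat_lit 7419387506) (nat_lit 532) (nat_lit 5198145929) (nat_lit 76) (nat_lit 1586847791) (nat_lit 138) (nat_lit 5) (nat_lit 145) (nat_lit 5) (nat_lit 139) (nat_lit 5) (nat_lit 473) (nat_lit 396) (nat_lit 271)) (XT.lf (nat_lit 0) (nat_lit 1796499382) (nat_lit 456) (nat_lit 8317473875) (nat_lit 532) (nat_lit 4271778252) (nat_lit 132) (nat_lit 5) (nat_lit 138) (nat_lit 5) (nat_lit 139) (nat_lit 5) (nat_lit 474) (nat_lit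 396) (nat_lit 270)))))) (XT.nd (nat_lit 546) (nat_lit 1216) (nat_lit 0) (XT.nd (nat_lit 234) (nat_lit 760) (nat_lit 0) (XT.nd (nat_lit 78) (nat_lit 456) (nat_lit 0) (XT.lf (nat_lit 0) (nat_lit 8981810991) (nat_lit 456) (nat_lit 3901179275) (nat_lit 532) (nat_lit 1687358501) (nat_lit 132) (nat_lit 5) (nat_lit 138) (nat_lit 5) (nat_lit 139) (nat_lit 5) (nat_lit 475) (nat_lit 396) (nat_lit 269)) (XT.nd (nat_lit 78) (nat_lit 0) (nat_lit 0) (XT.lf (nat_lit 0) (nat_lit 936175511) (nat_lit 456) (nat_lit 13215781021) (nat_lit 76) (nat_lit 606570820) (nat_lit 126) (nat_lit 5) (nat_lit 132) (nat_lit 5) (nat_lit 127) (nat_lit 5) (nat_lit 476) (nat_lit 396) (nat_lit 268)) (XT.lf (nat_lit 0) (nat_lit 3639146095) (nat_lit 456) (nat_lit 6114195695) (nat_lit 76) (nat_lit 5195923220) (nat_lit 126) (nat_lit 5) (nat_lit 132) (nat_lit 5) (nat_lit 127) (nat_lit 5) (nat_lit 477) (nat_lit 396) (nat_lit 267)))) (XT.nd (nat_lit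 156) (nat_lit 380) (nat_lit 0) (XT.nd (nat_lit 78) (nat_lit 0) (nat_lit 0) (XT.lf (nat_lit 0) (nat_lit 1124931976) (nat_lit 380) (nat_lit 5264775850) (nat_lit 456) (nat_lit 8754248532) (nat_lit 121) (nat_lit 5) (nat_lit 126) (nat_lit 5) (nat_lit 127) (nat_lit 5) (nat_lit 478) (nat_lit 396) (nat_lit 266)) (XT.lf (nat_lit 0) (nat_lit 8572605285) (nat_lit 380) (nat_lit 650078832) (nat_lit 456) (nat_lit 6119318732) (nat_lit 121) (nat_lit 5) (nat_lit 126) (nat_lit 5) (nat_lit 127) (nat_lit 5) (nat_lit 479) (nat_lit 396) (nat_lit 265))) (XT.nd (nat_lit 78) (nat_lit 0) (nat_lit 0) (XT.lf (nat_lit 0) (nat_lit 587605125) (nat_lit 380) (nat_lit 11541476182) (nat_lit 456) (nat_lit 3414602935) (nat_lit 116) (nat_lit 5) (nat_lit 121) (nat_lit 5) (nat_lit 122) (nat_lit 5) (nat_lit 480) (nat_lit 396) (nat_lit 264)) (XT.lf (nat_lit 0) (nat_lit 8160288305) (nat_lit 380) (nat_lit 6969767463) (nat_lit 456) (nat_lit 618623527)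 (nat_lit 116) (nat_lit 5) (nat_lit 121) (nat_lit 5) (nat_lit 122) (nat_lit 5) (nat_lit 481) (nat_lit 396) (nat_lit 263))))) (XT.nd (nat_lit 234) (nat_lit 760) (nat_lit 0) (XT.nd (nat_lit 78) (nat_lit 380) (nat_lit 0) (XT.lf (nat_lit 0) (nat_lit 2190897029) (nat_lit 456) (nat_lit 106520006) (nat_lit 76) (nat_lit 13660337658) (nat_lit 115) (nat_lit 5) (nat_lit 121) (nat_lit 5) (nat_lit 116) (nat_lit 5) (nat_lit 482) (nat_lit 396) (nat_lit 262)) (XT.nd (nat_lit 78) (nat_lit 0) (nat_lit 0) (XT.lf (nat_lit 0) (nat_lit 5101204347) (nat_lit 456) (nat_lit 8584260382) (nat_lit 76) (nat_lit 2484415992) (nat_lit 110) (nat_lit 5) (nat_lit 116) (nat_lit 5) (nat_lit 111) (nat_lit 5) (nat_lit 483) (nat_lit 396) (nat_lit 261)) (XT.lf (nat_lit 0) (nat_lit 8072917966) (nat_lit 456) (nat_lit 986818147) (nat_lit 76) (nat_lit 7326457485) (nat_lit 110) (nat_lit 5) (nat_lit 116) (nat_lit 5) (nat_lit 111) (nat_lit 5) (nat_lit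 484) (nat_lit 396) (nat_lit 260)))) (XT.nd (nat_lit 156) (nat_lit 456) (nat_lit 0) (XT.nd (nat_lit 78) (nat_lit 0) (nat_lit 0) (XT.lf (nat_lit 0) (nat_lit 6834153936) (nat_lit 304) (nat_lit 4301799404) (nat_lit 380) (nat_lit 5470249813) (nat_lit 106) (nat_lit 5) (nat_lit 110) (nat_lit 5) (nat_lit 111) (nat_lit 5) (nat_lit 485) (nat_lit 396) (nat_lit 259)) (XT.lf (nat_lit 0) (nat_lit 14258102517) (nat_lit 380) (nat_lit 2027331983) (nat_lit 76) (nat_lit 545229345) (nat_lit 106) (nat_lit 5) (nat_lit 111) (nat_lit 5) (nat_lit 107) (nat_lit 5) (nat_lit 486) (nat_lit 396) (nat_lit 258))) (XT.nd (nat_lit 78) (nat_lit 0) (nat_lit 0) (XT.lf (nat_lit 0) (nat_lit 433079480) (nat_lit 456) (nat_lit 11157956602) (nat_lit 76) (nat_lit 5467435167) (nat_lit 100) (nat_lit 5) (nat_lit 106) (nat_lit 5) (nat_lit 101) (nat_lit 5) (nat_lit 487) (nat_lit 396) (nat_lit 257)) (XT.lf (nat_lit 0) (nat_lit 3466000255) (nat_lit 456)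 (nat_lit 3311136306) (nat_lit 76) (nat_lit 10513333421) (nat_lit 100) (nat_lit 5) (nat_lit 106) (nat_lit 5) (nat_lit 101) (nat_lit 5) (nat_lit 488) (nat_lit 396) (nat_lit 256))))))) (XT.nd (nat_lit 1014) (nat_lit 1596) (nat_lit 0) (XT.nd (nat_lit 468) (nat_lit 912) (nat_lit 0) (XT.nd (nat_lit 234) (nat_lit 380) (nat_lit 0) (XT.nd (nat_lit 78) (nat_lit 304) (nat_lit 0) (XT.lf (nat_lit 0) (nat_lit 4737254361) (nat_lit 304) (nat_lit 1841206977) (nat_lit 380) (nat_lit 10948277111) (nat_lit 96) (nat_lit 5) (nat_lit 100) (nat_lit 5) (nat_lit 101) (nat_lit 5) (nat_lit 489) (nat_lit 396) (nat_lit 255)) (XT.nd (nat_lit 78) (nat_lit 304) (nat_lit 0) (XT.lf (nat_lit 0) (nat_lit 9784480175) (nat_lit 380) (nat_lit 4814259531) (nat_lit 76) (nat_lit 3168373664) (nat_lit 96) (nat_lit 5) (nat_lit 101) (nat_lit 5) (nat_lit 97) (nat_lit 5) (nat_lit 490) (nat_lit 396) (nat_lit 254)) (XT.lf (nat_lit 0) (nat_lit 3334770332)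 (nat_lit 304) (nat_lit 9742133213) (nat_lit 380) (nat_lit 4934953671) (nat_lit 92) (nat_lit 5) (nat_lit 96) (nat_lit 5) (nat_lit 97) (nat_lit 5) (nat_lit 491) (nat_lit 396) (nat_lit 253)))) (XT.nd (nat_lit 78) (nat_lit 380) (nat_lit 0) (XT.lf (nat_lit 0) (nat_lit 11694910905) (nat_lit 304) (nat_lit 4761125358) (nat_lit 380) (nat_lit 1805049431) (nat_lit 92) (nat_lit 5) (nat_lit 96) (nat_lit 5) (nat_lit 97) (nat_lit 5) (nat_lit 492) (nat_lit 396) (nat_lit 252)) (XT.nd (nat_lit 78) (nat_lit 0) (nat_lit 0) (XT.lf (nat_lit 0) (nat_lit 1371184077) (nat_lit 380) (nat_lit 16813963416) (nat_lit 76) (nat_lit 329939227) (nat_lit 87) (nat_lit 5) (nat_lit 92) (nat_lit 5) (nat_lit 88) (nat_lit 5) (nat_lit 493) (nat_lit 396) (nat_lit 251)) (XT.lf (nat_lit 0) (nat_lit 4651453800) (nat_lit 380) (nat_lit 8611321004) (nat_lit 76) (nat_lit 5509867281) (nat_lit 87) (nat_lit 5) (nat_lit 92) (nat_lit 5) (nat_lit 88) (nat_lit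 5) (nat_lit 494) (nat_lit 396) (nat_lit 250))))) (XT.nd (nat_lit 234) (nat_lit 608) (nat_lit 0) (XT.nd (nat_lit 78) (nat_lit 304) (nat_lit 0) (XT.lf (nat_lit 0) (nat_lit 7986322683) (nat_lit 380) (nat_lit 261323460) (nat_lit 76) (nat_lit 10787928982) (nat_lit 87) (nat_lit 5) (nat_lit 92) (nat_lit 5) (nat_lit 88) (nat_lit 5) (nat_lit 495) (nat_lit 396) (nat_lit 249)) (XT.nd (nat_lit 78) (nat_lit 0) (nat_lit 0) (XT.lf (nat_lit 0) (nat_lit 8348799735) (nat_lit 304) (nat_lit 3082504725) (nat_lit 380) (nat_lit 7871600367) (nat_lit 83) (nat_lit 5) (nat_lit 87) (nat_lit 5) (nat_lit 88) (nat_lit 5) (nat_lit 496) (nat_lit 396) (nat_lit 248)) (XT.lf (nat_lit 0) (nat_lit 14950423020) (nat_lit 380) (nat_lit 2471528805) (nat_lit 76) (nat_lit 2153530748) (nat_lit 83) (nat_lit 5) (nat_lit 88) (nat_lit 5) (nat_lit 84) (nat_lit 5) (nat_lit 497) (nat_lit 396) (nat_lit 247)))) (XT.nd (nat_lit 156) (nat_lit 304) (nat_lit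 0) (XT.nd (nat_lit 78) (nat_lit 76) (nat_lit 0) (XT.lf (nat_lit 0) (nat_lit 6225813941) (nat_lit 228) (nat_lit 12364435615) (nat_lit 304) (nat_lit 1262261876) (nat_lit 80) (nat_lit 5) (nat_lit 83) (nat_lit 5) (nat_lit 84) (nat_lit 5) (nat_lit 498) (nat_lit 396) (nat_lit 246)) (XT.lf (nat_lit 0) (nat_lit 2145572713) (nat_lit 304) (nat_lit 5034490841) (nat_lit 76) (nat_lit 12954617414) (nat_lit 79) (nat_lit 5) (nat_lit 83) (nat_lit 5) (nat_lit 80) (nat_lit 5) (nat_lit 499) (nat_lit 396) (nat_lit 245))) (XT.nd (nat_lit 78) (nat_lit 0) (nat_lit 0) (XT.lf (nat_lit 0) (nat_lit 3754596854) (nat_lit 304) (nat_lit 1864180979) (nat_lit 380) (nat_lit 14803272599) (nat_lit 75) (nat_lit 5) (nat_lit 79) (nat_lit 5) (nat_lit 80) (nat_lit 5) (nat_lit 500) (nat_lit 396) (nat_lit 244)) (XT.lf (nat_lit 0) (nat_lit 9208341484) (nat_lit 380) (nat_lit 7966020961) (nat_lit 76) (nat_lit 3539872559) (nat_lit 75) (nat_lit 5) (nat_lit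 80) (nat_lit 5) (nat_lit 76) (nat_lit 5) (nat_lit 501) (nat_lit 396) (nat_lit 243)))))) (XT.nd (nat_lit 546) (nat_lit 760) (nat_lit 0) (XT.nd (nat_lit 234) (nat_lit 608) (nat_lit 0) (XT.nd (nat_lit 78) (nat_lit 0) (nat_lit 0) (XT.lf (nat_lit 0) (nat_lit 893206607) (nat_lit 228) (nat_lit 11984620531) (nat_lit 304) (nat_lit 8134279013) (nat_lit 72) (nat_lit 5) (nat_lit 75) (nat_lit 5) (nat_lit 76) (nat_lit 5) (nat_lit 502) (nat_lit 396) (nat_lit 242)) (XT.nd (nat_lit 78) (nat_lit 0) (nat_lit 0) (XT.lf (nat_lit 0) (nat_lit 10022100189) (nat_lit 228) (nat_lit 6642140099) (nat_lit 304) (nat_lit 4650829066) (nat_lit 72) (nat_lit 5) (nat_lit 75) (nat_lit 5) (nat_lit 76) (nat_lit 5) (nat_lit 503) (nat_lit 396) (nat_lit 241)) (XT.lf (nat_lit 0) (nat_lit 19318375518) (nat_lit 228) (nat_lit 1198282252) (nat_lit 304) (nat_lit 1107633815) (nat_lit 72) (nat_lit 5) (nat_lit 75) (nat_lit 5) (nat_lit 76) (nat_lit 5) (nat_lit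 504) (nat_lit 396) (nat_lit 240)))) (XT.nd (nat_lit 156) (nat_lit 228) (nat_lit 0) (XT.nd (nat_lit 78) (nat_lit 0) (nat_lit 0) (XT.lf (nat_lit 0) (nat_lit 2537525090) (nat_lit 380) (nat_lit 15046978029) (nat_lit 76) (nat_lit 4353595312) (nat_lit 67) (nat_lit 5) (nat_lit 72) (nat_lit 5) (nat_lit 68) (nat_lit 5) (nat_lit 505) (nat_lit 396) (nat_lit 239)) (XT.lf (nat_lit 0) (nat_lit 6254736454) (nat_lit 380) (nat_lit 5984982413) (nat_lit 76) (nat_lit 10018041487) (nat_lit 67) (nat_lit 5) (nat_lit 72) (nat_lit 5) (nat_lit 68) (nat_lit 5) (nat_lit 506) (nat_lit 396) (nat_lit 238))) (XT.nd (nat_lit 78) (nat_lit 0) (nat_lit 0) (XT.lf (nat_lit 0) (nat_lit 3286560938) (nat_lit 228) (nat_lit 6771711408) (nat_lit 304) (nat_lit 12525308446) (nat_lit 64) (nat_lit 5) (nat_lit 67) (nat_lit 5) (nat_lit 68) (nat_lit 5) (nat_lit 507) (nat_lit 396) (nat_lit 237)) (XT.lf (nat_lit 0) (nat_lit 12809964497) (nat_lit 228) (nat_lit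 1158806669) (nat_lit 304) (nat_lit 8946533414) (nat_lit 64) (nat_lit 5) (nat_lit 67) (nat_lit 5) (nat_lit 68) (nat_lit 5) (nat_lit 508) (nat_lit 396) (nat_lit 236))))) (XT.nd (nat_lit 234) (nat_lit 456) (nat_lit 0) (XT.nd (nat_lit 78) (nat_lit 304) (nat_lit 0) (XT.lf (nat_lit 0) (nat_lit 17978004817) (nat_lit 304) (nat_lit 774036899) (nat_lit 76) (nat_lit 4501215322) (nat_lit 64) (nat_lit 5) (nat_lit 68) (nat_lit 5) (nat_lit 65) (nat_lit 5) (nat_lit 509) (nat_lit 396) (nat_lit 235)) (XT.nd (nat_lit 78) (nat_lit 76) (nat_lit 0) (XT.lf (nat_lit 0) (nat_lit 8837851310) (nat_lit 228) (nat_lit 13285683164) (nat_lit 304) (nat_lit 1473316445) (nat_lit 61) (nat_lit 5) (nat_lit 64) (nat_lit 5) (nat_lit 65) (nat_lit 5) (nat_lit 510) (nat_lit 396) (nat_lit 234)) (XT.lf (nat_lit 0) (nat_lit 2369425198) (nat_lit 304) (nat_lit 5324696190) (nat_lit 76) (nat_lit 16252961364) (nat_lit 60) (nat_lit 5) (nat_lit 64) (nat_lit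 5) (nat_lit 61) (nat_lit 5) (nat_lit 511) (nat_lit 396) (nat_lit 233)))) (XT.nd (nat_lit 156) (nat_lit 228) (nat_lit 0) (XT.nd (nat_lit 78) (nat_lit 0) (nat_lit 0) (XT.lf (nat_lit 0) (nat_lit 4331316820) (nat_lit 228) (nat_lit 1957368430) (nat_lit 304) (nat_lit 18015055709) (nat_lit 57) (nat_lit 5) (nat_lit 60) (nat_lit 5) (nat_lit 61) (nat_lit 5) (nat_lit 512) (nat_lit 396) (nat_lit 232)) (XT.lf (nat_lit 0) (nat_lit 10338879816) (nat_lit 304) (nat_lit 10453786352) (nat_lit 76) (nat_lit 3873819425) (nat_lit 57) (nat_lit 5) (nat_lit 61) (nat_lit 5) (nat_lit 58) (nat_lit 5) (nat_lit 513) (nat_lit 396) (nat_lit 231))) (XT.nd (nat_lit 78) (nat_lit 228) (nat_lit 0) (XT.lf (nat_lit 0) (nat_lit 14474509566) (nat_lit 304) (nat_lit 771539063) (nat_lit 76) (nat_lit 9790352032) (nat_lit 57) (nat_lit 5) (nat_lit 61) (nat_lit 5) (nat_lit 58) (nat_lit 5) (nat_lit 514) (nat_lit 396) (nat_lit 230)) (XT.lf (nat_lit 0)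 (nat_lit 9211635475) (nat_lit 228) (nat_lit 9532660352) (nat_lit 304) (nat_lit 6668393409) (nat_lit 54) (nat_lit 5) (nat_lit 57) (nat_lit 5) (nat_lit 58) (nat_lit 5) (nat_lit 515) (nat_lit 396) (nat_lit 229))))))))
noncomputable def xc145 : XT := (XT.nd (nat_lit 51558) (nat_lit 0) (nat_lit 16644) (XT.nd (nat_lit 50466) (nat_lit 0) (nat_lit 31844) (XT.nd (nat_lit 468) (nat_lit 152) (nat_lit 0) (XT.nd (nat_lit 234) (nat_lit 228) (nat_lit 0) (XT.nd (nat_lit 78) (nat_lit 304) (nat_lit 0) (XT.lf (nat_lit 0) (nat_lit 19391490982) (nat_lit 228) (nat_lit 3704876870) (nat_lit 304) (nat_lit 2700201933) (nat_lit 54) (nat_lit 5) (nat_lit 57) (nat_lit 5) (nat_lit 58) (nat_lit 5) (nat_lit 516) (nat_lit 396) (nat_lit 228)) (XT.nd (nat_lit 78) (nat_lit 0) (nat_lit 0) (XT.lf (nat_lit 0) (nat_lit 1359672656) (nat_lit 304) (nat_lit 22590219825) (nat_lit 76) (nat_lit 2237464555) (nat_lit 50) (nat_lit 5) (nat_lit 54) (nat_lit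 5) (nat_lit 51) (nat_lit 5) (nat_lit 517) (nat_lit 396) (nat_lit 227)) (XT.lf (nat_lit 0) (nat_lit 5524283602) (nat_lit 304) (nat_lit 12754918111) (nat_lit 76) (nat_lit 8305211235) (nat_lit 50) (nat_lit 5) (nat_lit 54) (nat_lit 5) (nat_lit 51) (nat_lit 5) (nat_lit 518) (nat_lit 396) (nat_lit 226)))) (XT.nd (nat_lit 78) (nat_lit 228) (nat_lit 0) (XT.lf (nat_lit 0) (nat_lit 9764205458) (nat_lit 304) (nat_lit 2735984284) (nat_lit 76) (nat_lit 14489383560) (nat_lit 50) (nat_lit 5) (nat_lit 54) (nat_lit 5) (nat_lit 51) (nat_lit 5) (nat_lit 519) (nat_lit 396) (nat_lit 225)) (XT.nd (nat_lit 78) (nat_lit 0) (nat_lit 0) (XT.lf (nat_lit 0) (nat_lit 7569789802) (nat_lit 228) (nat_lit 6560459234) (nat_lit 304) (nat_lit 13271764990) (nat_lit 47) (nat_lit 5) (nat_lit 50) (nat_lit 5) (nat_lit 51) (nat_lit 5) (nat_lit 520) (nat_lit 396) (nat_lit 224)) (XT.lf (nat_lit 0) (nat_lit 18106033114) (nat_lit 228) (nat_lit 488186211)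 (nat_lit 304) (nat_lit 9228275679) (nat_lit 47) (nat_lit 5) (nat_lit 50) (nat_lit 5) (nat_lit 51) (nat_lit 5) (nat_lit 521) (nat_lit 396) (nat_lit 223))))) (XT.nd (nat_lit 49686) (nat_lit 0) (nat_lit 35036) (XT.nd (nat_lit 78) (nat_lit 0) (nat_lit 0) (XT.lf (nat_lit 0) (nat_lit 559299498) (nat_lit 152) (nat_lit 22621211253) (nat_lit 228) (nat_lit 5070217501) (nat_lit 45) (nat_lit 5) (nat_lit 47) (nat_lit 5) (nat_lit 48) (nat_lit 5) (nat_lit 522) (nat_lit 396) (nat_lit 222)) (XT.nd (nat_lit 49530) (nat_lit 0) (nat_lit 36024) (XT.lf (nat_lit 0) (nat_lit 11156484866) (nat_lit 152) (nat_lit 16762892118) (nat_lit 228) (nat_lit 766935620) (nat_lit 45) (nat_lit 5) (nat_lit 47) (nat_lit 5) (nat_lit 48) (nat_lit 5) (nat_lit 523) (nat_lit 396) (nat_lit 221)) (XT.lf (nat_lit 0) (nat_lit 2672497825) (nat_lit 988) (nat_lit 416243344) (nat_lit 988) (nat_lit 416243344) (nat_lit 519) (nat_lit 3) (nat_lit 532) (nat_lit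 3) (nat_lit 532) (nat_lit 5) (nat_lit 397) (nat_lit 397) (nat_lit 346)))) (XT.nd (nat_lit 156) (nat_lit 0) (nat_lit 0) (XT.nd (nat_lit 78) (nat_lit 0) (nat_lit 0) (XT.lf (nat_lit 0) (nat_lit 50294958) (nat_lit 988) (nat_lit 4684314574) (nat_lit 1064) (nat_lit 2309178993) (nat_lit 506) (nat_lit 5) (nat_lit 519) (nat_lit 3) (nat_lit 520) (nat_lit 5) (nat_lit 398) (nat_lit 397) (nat_lit 345)) (XT.lf (nat_lit 0) (nat_lit 1738624019) (nat_lit 988) (nat_lit 1486148099) (nat_lit 1064) (nat_lit 3854131564) (nat_lit 506) (nat_lit 5) (nat_lit 519) (nat_lit 3) (nat_lit 520) (nat_lit 5) (nat_lit 399) (nat_lit 397) (nat_lit 344))) (XT.nd (nat_lit 78) (nat_lit 0) (nat_lit 0) (XT.lf (nat_lit 76) (nat_lit 1776267497) (nat_lit 0) (nat_lit 1652264374) (nat_lit 1064) (nat_lit 3686892207) (nat_lit 507) (nat_lit 5) (nat_lit 506) (nat_lit 5) (nat_lit 520) (nat_lit 5) (nat_lit 400) (nat_lit 397) (nat_lit 343)) (XT.lf (nat_lit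 76) (nat_lit 5101217640) (nat_lit 0) (nat_lit 17981427) (nat_lit 1064) (nat_lit 2034194609) (nat_lit 507) (nat_lit 5) (nat_lit 506) (nat_lit 5) (nat_lit 520) (nat_lit 5) (nat_lit 401) (nat_lit 397) (nat_lit 342)))))) (XT.nd (nat_lit 546) (nat_lit 1140) (nat_lit 0) (XT.nd (nat_lit 234) (nat_lit 1064) (nat_lit 0) (XT.nd (nat_lit 78) (nat_lit 1064) (nat_lit 0) (XT.lf (nat_lit 76) (nat_lit 1283228362) (nat_lit 0) (nat_lit 5537449132) (nat_lit 1064) (nat_lit 371962098) (nat_lit 508) (nat_lit 5) (nat_lit 507) (nat_lit 5) (nat_lit 521) (nat_lit 5) (nat_lit 402) (nat_lit 397) (nat_lit 341)) (XT.nd (nat_lit 78) (nat_lit 0) (nat_lit 0) (XT.lf (nat_lit 0) (nat_lit 1278442529) (nat_lit 1064) (nat_lit 2551933577) (nat_lit 1140) (nat_lit 3402731419) (nat_lit 493) (nat_lit 5) (nat_lit 507) (nat_lit 5) (nat_lit 508) (nat_lit 5) (nat_lit 403) (nat_lit 397) (nat_lit 340)) (XT.lf (nat_lit 76) (nat_lit 858058611) (nat_lit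 0) (nat_lit 2063513513) (nat_lit 1140) (nat_lit 4353523170) (nat_lit 494) (nat_lit 5) (nat_lit 493) (nat_lit 5) (nat_lit 508) (nat_lit 5) (nat_lit 404) (nat_lit 397) (nat_lit 339)))) (XT.nd (nat_lit 156) (nat_lit 1064) (nat_lit 0) (XT.nd (nat_lit 78) (nat_lit 0) (nat_lit 76) (XT.lf (nat_lit 76) (nat_lit 4347571604) (nat_lit 0) (nat_lit 226889677) (nat_lit 1140) (nat_lit 2743976149) (nat_lit 494) (nat_lit 5) (nat_lit 493) (nat_lit 5) (nat_lit 508) (nat_lit 5) (nat_lit 405) (nat_lit 397) (nat_lit 338)) (XT.lf (nat_lit 76) (nat_lit 516550029) (nat_lit 0) (nat_lit 5718570798) (nat_lit 1140) (nat_lit 1128082850) (nat_lit 495) (nat_lit 5) (nat_lit 494) (nat_lit 5) (nat_lit 509) (nat_lit 5) (nat_lit 406) (nat_lit 397) (nat_lit 337))) (XT.nd (nat_lit 78) (nat_lit 0) (nat_lit 0) (XT.lf (nat_lit 0) (nat_lit 495857988) (nat_lit 1140) (nat_lit 3323667923) (nat_lit 1216) (nat_lit 3589670292) (nat_lit 479) (nat_lit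 5) (nat_lit 494) (nat_lit 5) (nat_lit 495) (nat_lit 5) (nat_lit 407) (nat_lit 397) (nat_lit 336)) (XT.lf (nat_lit 76) (nat_lit 241776892) (nat_lit 0) (nat_lit 1858725274) (nat_lit 1216) (nat_lit 5356239237) (nat_lit 480) (nat_lit 5) (nat_lit 479) (nat_lit 5) (nat_lit 495) (nat_lit 5) (nat_lit 408) (nat_lit 397) (nat_lit 335))))) (XT.nd (nat_lit 234) (nat_lit 1216) (nat_lit 0) (XT.nd (nat_lit 78) (nat_lit 0) (nat_lit 0) (XT.lf (nat_lit 0) (nat_lit 3723042349) (nat_lit 1140) (nat_lit 3606709965) (nat_lit 1216) (nat_lit 175816726) (nat_lit 480) (nat_lit 5) (nat_lit 495) (nat_lit 5) (nat_lit 496) (nat_lit 5) (nat_lit 409) (nat_lit 397) (nat_lit 334)) (XT.nd (nat_lit 78) (nat_lit 0) (nat_lit 0) (XT.lf (nat_lit 76) (nat_lit 37939717) (nat_lit 0) (nat_lit 5315820464) (nat_lit 1216) (nat_lit 2202145177) (nat_lit 481) (nat_lit 5) (nat_lit 480) (nat_lit 5) (nat_lit 496) (nat_lit 5) (nat_lit 410) (nat_lit 397) (nat_lit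 333)) (XT.lf (nat_lit 76) (nat_lit 3780571815) (nat_lit 0) (nat_lit 3224462161) (nat_lit 1216) (nat_lit 602501342) (nat_lit 481) (nat_lit 5) (nat_lit 480) (nat_lit 5) (nat_lit 496) (nat_lit 5) (nat_lit 411) (nat_lit 397) (nat_lit 332)))) (XT.nd (nat_lit 156) (nat_lit 0) (nat_lit 76) (XT.nd (nat_lit 78) (nat_lit 0) (nat_lit 76) (XT.lf (nat_lit 0) (nat_lit 979808068) (nat_lit 1216) (nat_lit 92677090) (nat_lit 1292) (nat_lit 6588339653) (nat_lit 464) (nat_lit 5) (nat_lit 480) (nat_lit 5) (nat_lit 481) (nat_lit 5) (nat_lit 412) (nat_lit 397) (nat_lit 331)) (XT.lf (nat_lit 0) (nat_lit 2582397060) (nat_lit 1216) (nat_lit 3984969618) (nat_lit 1292) (nat_lit 1147842859) (nat_lit 465) (nat_lit 5) (nat_lit 481) (nat_lit 5) (nat_lit 482) (nat_lit 5) (nat_lit 413) (nat_lit 397) (nat_lit 330))) (XT.nd (nat_lit 78) (nat_lit 0) (nat_lit 0) (XT.lf (nat_lit 0) (nat_lit 4190250628) (nat_lit 1216) (nat_lit 170944807) (nat_lit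 1292) (nat_lit 3410064529) (nat_lit 465) (nat_lit 5) (nat_lit 481) (nat_lit 5) (nat_lit 482) (nat_lit 5) (nat_lit 414) (nat_lit 397) (nat_lit 329)) (XT.lf (nat_lit 76) (nat_lit 3744906850) (nat_lit 0) (nat_lit 2075829832) (nat_lit 1292) (nat_lit 2007926645) (nat_lit 466) (nat_lit 5) (nat_lit 465) (nat_lit 5) (nat_lit 482) (nat_lit 5) (nat_lit 415) (nat_lit 397) (nat_lit 328))))))) (XT.nd (nat_lit 1092) (nat_lit 6764) (nat_lit 0) (XT.nd (nat_lit 546) (nat_lit 4636) (nat_lit 0) (XT.nd (nat_lit 234) (nat_lit 2660) (nat_lit 0) (XT.nd (nat_lit 78) (nat_lit 1292) (nat_lit 0) (XT.lf (nat_lit 0) (nat_lit 7453381248) (nat_lit 1216) (nat_lit 171649135) (nat_lit 1292) (nat_lit 262834023) (nat_lit 466) (nat_lit 5) (nat_lit 482) (nat_lit 5) (nat_lit 483) (nat_lit 5) (nat_lit 416) (nat_lit 397) (nat_lit 327)) (XT.nd (nat_lit 78) (nat_lit 0) (nat_lit 0) (XT.lf (nat_lit 0) (nat_lit 1161092208) (nat_lit 1292) (nat_lit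 4124315022) (nat_lit 1368) (nat_lit 2662609068) (nat_lit 449) (nat_lit 5) (nat_lit 466) (nat_lit 5) (nat_lit 467) (nat_lit 5) (nat_lit 417) (nat_lit 397) (nat_lit 326)) (XT.lf (nat_lit 0) (nat_lit 2751550567) (nat_lit 1292) (nat_lit 134971325) (nat_lit 1368) (nat_lit 5123454395) (nat_lit 449) (nat_lit 5) (nat_lit 466) (nat_lit 5) (nat_lit 467) (nat_lit 5) (nat_lit 418) (nat_lit 397) (nat_lit 325)))) (XT.nd (nat_lit 156) (nat_lit 2660) (nat_lit 0) (XT.nd (nat_lit 78) (nat_lit 0) (nat_lit 76) (XT.lf (nat_lit 76) (nat_lit 3962576621) (nat_lit 0) (nat_lit 405228255) (nat_lit 1368) (nat_lit 3705528391) (nat_lit 450) (nat_lit 5) (nat_lit 449) (nat_lit 5) (nat_lit 467) (nat_lit 5) (nat_lit 419) (nat_lit 397) (nat_lit 324)) (XT.lf (nat_lit 0) (nat_lit 5999878079) (nat_lit 1292) (nat_lit 31952468) (nat_lit 76) (nat_lit 2106493759) (nat_lit 450) (nat_lit 5) (nat_lit 467) (nat_lit 5) (nat_lit 451) (nat_lit 5) (nat_lit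 420) (nat_lit 397) (nat_lit 323))) (XT.nd (nat_lit 78) (nat_lit 1444) (nat_lit 0) (XT.lf (nat_lit 0) (nat_lit 4156620860) (nat_lit 1292) (nat_lit 3507035881) (nat_lit 1368) (nat_lit 541013216) (nat_lit 433) (nat_lit 5) (nat_lit 450) (nat_lit 5) (nat_lit 451) (nat_lit 5) (nat_lit 421) (nat_lit 397) (nat_lit 322)) (XT.lf (nat_lit 0) (nat_lit 127746926) (nat_lit 1368) (nat_lit 916998505) (nat_lit 1444) (nat_lit 7228077411) (nat_lit 414) (nat_lit 5) (nat_lit 432) (nat_lit 5) (nat_lit 433) (nat_lit 5) (nat_lit 422) (nat_lit 397) (nat_lit 321))))) (XT.nd (nat_lit 234) (nat_lit 3192) (nat_lit 0) (XT.nd (nat_lit 78) (nat_lit 1444) (nat_lit 0) (XT.lf (nat_lit 0) (nat_lit 2663612820) (nat_lit 1444) (nat_lit 3939262880) (nat_lit 76) (nat_lit 1739252800) (nat_lit 414) (nat_lit 5) (nat_lit 433) (nat_lit 5) (nat_lit 415) (nat_lit 5) (nat_lit 423) (nat_lit 397) (nat_lit 320)) (XT.nd (nat_lit 78) (nat_lit 0) (nat_lit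 0) (XT.lf (nat_lit 0) (nat_lit 324896759) (nat_lit 1444) (nat_lit 3968817317) (nat_lit 1520) (nat_lit 4119562388) (nat_lit 395) (nat_lit 5) (nat_lit 414) (nat_lit 5) (nat_lit 415) (nat_lit 5) (nat_lit 424) (nat_lit 397) (nat_lit 319)) (XT.lf (nat_lit 0) (nat_lit 4703937054) (nat_lit 1444) (nat_lit 1250009556) (nat_lit 1520) (nat_lit 2531982865) (nat_lit 395) (nat_lit 5) (nat_lit 414) (nat_lit 5) (nat_lit 415) (nat_lit 5) (nat_lit 425) (nat_lit 397) (nat_lit 318)))) (XT.nd (nat_lit 156) (nat_lit 1596) (nat_lit 0) (XT.nd (nat_lit 78) (nat_lit 76) (nat_lit 0) (XT.lf (nat_lit 0) (nat_lit 584331860) (nat_lit 1520) (nat_lit 7048429254) (nat_lit 1596) (nat_lit 927598918) (nat_lit 375) (nat_lit 5) (nat_lit 395) (nat_lit 5) (nat_lit 396) (nat_lit 5) (nat_lit 426) (nat_lit 397) (nat_lit 317)) (XT.lf (nat_lit 0) (nat_lit 705279799) (nat_lit 1596) (nat_lit 3583783586) (nat_lit 76) (nat_lit 4347040468) (nat_lit 374)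 (nat_lit 5) (nat_lit 395) (nat_lit 5) (nat_lit 375) (nat_lit 5) (nat_lit 427) (nat_lit 397) (nat_lit 316))) (XT.nd (nat_lit 78) (nat_lit 0) (nat_lit 0) (XT.lf (nat_lit 0) (nat_lit 877940186) (nat_lit 1596) (nat_lit 1458597176) (nat_lit 1672) (nat_lit 6377169910) (nat_lit 353) (nat_lit 5) (nat_lit 374) (nat_lit 5) (nat_lit 375) (nat_lit 5) (nat_lit 428) (nat_lit 397) (nat_lit 315)) (XT.lf (nat_lit 0) (nat_lit 4006743956) (nat_lit 1672) (nat_lit 3348515574) (nat_lit 76) (nat_lit 1437506342) (nat_lit 353) (nat_lit 5) (nat_lit 375) (nat_lit 5) (nat_lit 354) (nat_lit 5) (nat_lit 429) (nat_lit 397) (nat_lit 314)))))) (XT.nd (nat_lit 546) (nat_lit 2356) (nat_lit 0) (XT.nd (nat_lit 234) (nat_lit 1672) (nat_lit 0) (XT.nd (nat_lit 78) (nat_lit 1064) (nat_lit 0) (XT.lf (nat_lit 0) (nat_lit 1211000472) (nat_lit 1672) (nat_lit 4490249853) (nat_lit 1748) (nat_lit 3172366419) (nat_lit 331) (nat_lit 5) (nat_lit 353)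 (nat_lit 5) (nat_lit 354) (nat_lit 5) (nat_lit 430) (nat_lit 397) (nat_lit 313)) (XT.nd (nat_lit 78) (nat_lit 1064) (nat_lit 0) (XT.lf (nat_lit 0) (nat_lit 5883549393) (nat_lit 1672) (nat_lit 1542310374) (nat_lit 1748) (nat_lit 1530329048) (nat_lit 331) (nat_lit 5) (nat_lit 353) (nat_lit 5) (nat_lit 354) (nat_lit 5) (nat_lit 431) (nat_lit 397) (nat_lit 312)) (XT.lf (nat_lit 0) (nat_lit 136739160) (nat_lit 1064) (nat_lit 7444530638) (nat_lit 76) (nat_lit 1459269382) (nat_lit 317) (nat_lit 5) (nat_lit 331) (nat_lit 5) (nat_lit 318) (nat_lit 5) (nat_lit 432) (nat_lit 397) (nat_lit 311)))) (XT.nd (nat_lit 156) (nat_lit 836) (nat_lit 0) (XT.nd (nat_lit 78) (nat_lit 836) (nat_lit 0) (XT.lf (nat_lit 0) (nat_lit 1822077967) (nat_lit 1064) (nat_lit 2770826177) (nat_lit 76) (nat_lit 4533388492) (nat_lit 317) (nat_lit 5) (nat_lit 331) (nat_lit 5) (nat_lit 318) (nat_lit 5) (nat_lit 433) (nat_lit 397) (nat_lit 310))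 (XT.lf (nat_lit 0) (nat_lit 1999183042) (nat_lit 836) (nat_lit 1529853503) (nat_lit 912) (nat_lit 5684992634) (nat_lit 306) (nat_lit 5) (nat_lit 317) (nat_lit 5) (nat_lit 318) (nat_lit 5) (nat_lit 434) (nat_lit 397) (nat_lit 309))) (XT.nd (nat_lit 78) (nat_lit 836) (nat_lit 0) (XT.lf (nat_lit 0) (nat_lit 5274486722) (nat_lit 912) (nat_lit 2435237343) (nat_lit 76) (nat_lit 1593735099) (nat_lit 306) (nat_lit 5) (nat_lit 318) (nat_lit 5) (nat_lit 307) (nat_lit 5) (nat_lit 435) (nat_lit 397) (nat_lit 308)) (XT.lf (nat_lit 0) (nat_lit 2438514614) (nat_lit 836) (nat_lit 4618063172) (nat_lit 912) (nat_lit 2338090583) (nat_lit 295) (nat_lit 5) (nat_lit 306) (nat_lit 5) (nat_lit 307) (nat_lit 5) (nat_lit 436) (nat_lit 397) (nat_lit 307))))) (XT.nd (nat_lit 234) (nat_lit 1520) (nat_lit 0) (XT.nd (nat_lit 78) (nat_lit 836) (nat_lit 0) (XT.lf (nat_lit 0) (nat_lit 7419606089) (nat_lit 836) (nat_lit 1447139116) (nat_lit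 912) (nat_lit 621132623) (nat_lit 295) (nat_lit 5) (nat_lit 306) (nat_lit 5) (nat_lit 307) (nat_lit 5) (nat_lit 437) (nat_lit 397) (nat_lit 306)) (XT.nd (nat_lit 78) (nat_lit 0) (nat_lit 0) (XT.lf (nat_lit 0) (nat_lit 1122499914) (nat_lit 836) (nat_lit 6669335687) (nat_lit 76) (nat_lit 1790849764) (nat_lit 284) (nat_lit 5) (nat_lit 295) (nat_lit 5) (nat_lit 285) (nat_lit 5) (nat_lit 438) (nat_lit 397) (nat_lit 305)) (XT.lf (nat_lit 0) (nat_lit 2892950431) (nat_lit 836) (nat_lit 1693631329) (nat_lit 76) (nat_lit 5092743268) (nat_lit 284) (nat_lit 5) (nat_lit 295) (nat_lit 5) (nat_lit 285) (nat_lit 5) (nat_lit 439) (nat_lit 397) (nat_lit 304)))) (XT.nd (nat_lit 156) (nat_lit 760) (nat_lit 0) (XT.nd (nat_lit 78) (nat_lit 0) (nat_lit 0) (XT.lf (nat_lit 0) (nat_lit 3403310107) (nat_lit 760) (nat_lit 1294752974) (nat_lit 836) (nat_lit 5079872214) (nat_lit 274) (nat_lit 5) (nat_lit 284) (nat_lit 5) (nat_lit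 285) (nat_lit 5) (nat_lit 440) (nat_lit 397) (nat_lit 303)) (XT.lf (nat_lit 0) (nat_lit 6541567494) (nat_lit 836) (nat_lit 1289844708) (nat_lit 76) (nat_lit 2047082202) (nat_lit 274) (nat_lit 5) (nat_lit 285) (nat_lit 5) (nat_lit 275) (nat_lit 5) (nat_lit 441) (nat_lit 397) (nat_lit 302))) (XT.nd (nat_lit 78) (nat_lit 76) (nat_lit 0) (XT.lf (nat_lit 0) (nat_lit 3916646763) (nat_lit 684) (nat_lit 4517196567) (nat_lit 760) (nat_lit 1547005326) (nat_lit 265) (nat_lit 5) (nat_lit 274) (nat_lit 5) (nat_lit 275) (nat_lit 5) (nat_lit 442) (nat_lit 397) (nat_lit 301)) (XT.lf (nat_lit 0) (nat_lit 261790218) (nat_lit 760) (nat_lit 865132585) (nat_lit 76) (nat_lit 8958577513) (nat_lit 264) (nat_lit 5) (nat_lit 274) (nat_lit 5) (nat_lit 265) (nat_lit 5) (nat_lit 443) (nat_lit 397) (nat_lit 300))))))))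
noncomputable def xc146 : XT := (XT.nd (nat_lit 2106) (nat_lit 5168) (nat_lit 0) (XT.nd (nat_lit 1014) (nat_lit 3800) (nat_lit 0) (XT.nd (nat_lit 468) (nat_lit 1976) (nat_lit 0) (XT.nd (nat_lit 234) (nat_lit 1368) (nat_lit 0) (XT.nd (nat_lit 78) (nat_lit 684) (nat_lit 0) (XT.lf (nat_lit 0) (nat_lit 2108886263) (nat_lit 836) (nat_lit 5743576921) (nat_lit 76) (nat_lit 2339141250) (nat_lit 254) (nat_lit 5) (nat_lit 265) (nat_lit 5) (nat_lit 255) (nat_lit 5) (nat_lit 444) (nat_lit 397) (nat_lit 299)) (XT.nd (nat_lit 78) (nat_lit 684) (nat_lit 0) (XT.lf (nat_lit 0) (nat_lit 3984950872) (nat_lit 836) (nat_lit 450820194) (nat_lit 76) (nat_lit 5864239348) (nat_lit 254) (nat_lit 5) (nat_lit 265) (nat_lit 5) (nat_lit 255) (nat_lit 5) (nat_lit 445) (nat_lit 397) (nat_lit 298)) (XT.lf (nat_lit 0) (nat_lit 4990913024) (nat_lit 684) (nat_lit 919164963) (nat_lit 760) (nat_lit 4500295616) (nat_lit 245) (nat_lit 5) (nat_lit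 254) (nat_lit 5) (nat_lit 255) (nat_lit 5) (nat_lit 446) (nat_lit 397) (nat_lit 297)))) (XT.nd (nat_lit 78) (nat_lit 1368) (nat_lit 0) (XT.lf (nat_lit 0) (nat_lit 7873465466) (nat_lit 760) (nat_lit 15242230) (nat_lit 76) (nat_lit 2634260729) (nat_lit 245) (nat_lit 5) (nat_lit 255) (nat_lit 5) (nat_lit 246) (nat_lit 5) (nat_lit 447) (nat_lit 397) (nat_lit 296)) (XT.nd (nat_lit 78) (nat_lit 684) (nat_lit 0) (XT.lf (nat_lit 0) (nat_lit 5541484613) (nat_lit 684) (nat_lit 4356497936) (nat_lit 760) (nat_lit 739414497) (nat_lit 236) (nat_lit 5) (nat_lit 245) (nat_lit 5) (nat_lit 246) (nat_lit 5) (nat_lit 448) (nat_lit 397) (nat_lit 295)) (XT.lf (nat_lit 0) (nat_lit 430936757) (nat_lit 608) (nat_lit 744883463) (nat_lit 684) (nat_lit 9578499458) (nat_lit 227) (nat_lit 5) (nat_lit 235) (nat_lit 5) (nat_lit 236) (nat_lit 5) (nat_lit 449) (nat_lit 397) (nat_lit 294))))) (XT.nd (nat_lit 234) (nat_lit 1292) (nat_lit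 0) (XT.nd (nat_lit 78) (nat_lit 684) (nat_lit 0) (XT.lf (nat_lit 0) (nat_lit 3153106068) (nat_lit 684) (nat_lit 4782261721) (nat_lit 76) (nat_lit 2937460317) (nat_lit 227) (nat_lit 5) (nat_lit 236) (nat_lit 5) (nat_lit 228) (nat_lit 5) (nat_lit 450) (nat_lit 397) (nat_lit 293)) (XT.nd (nat_lit 78) (nat_lit 0) (nat_lit 0) (XT.lf (nat_lit 0) (nat_lit 853830074) (nat_lit 684) (nat_lit 4307107251) (nat_lit 760) (nat_lit 5832967068) (nat_lit 218) (nat_lit 5) (nat_lit 227) (nat_lit 5) (nat_lit 228) (nat_lit 5) (nat_lit 451) (nat_lit 397) (nat_lit 292)) (XT.lf (nat_lit 0) (nat_lit 6645497067) (nat_lit 684) (nat_lit 576281938) (nat_lit 760) (nat_lit 3895383460) (nat_lit 218) (nat_lit 5) (nat_lit 227) (nat_lit 5) (nat_lit 228) (nat_lit 5) (nat_lit 452) (nat_lit 397) (nat_lit 291)))) (XT.nd (nat_lit 156) (nat_lit 608) (nat_lit 0) (XT.nd (nat_lit 78) (nat_lit 76) (nat_lit 0) (XT.lf (nat_lit 0) (nat_lit 1284069205)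 (nat_lit 608) (nat_lit 8050193307) (nat_lit 684) (nat_lit 1908431685) (nat_lit 210) (nat_lit 5) (nat_lit 218) (nat_lit 5) (nat_lit 219) (nat_lit 5) (nat_lit 453) (nat_lit 397) (nat_lit 290)) (XT.lf (nat_lit 0) (nat_lit 131941477) (nat_lit 684) (nat_lit 4181425578) (nat_lit 76) (nat_lit 7057065820) (nat_lit 209) (nat_lit 5) (nat_lit 218) (nat_lit 5) (nat_lit 210) (nat_lit 5) (nat_lit 454) (nat_lit 397) (nat_lit 289))) (XT.nd (nat_lit 78) (nat_lit 0) (nat_lit 0) (XT.lf (nat_lit 0) (nat_lit 1699359465) (nat_lit 608) (nat_lit 480845359) (nat_lit 684) (nat_lit 9320432492) (nat_lit 201) (nat_lit 5) (nat_lit 209) (nat_lit 5) (nat_lit 210) (nat_lit 5) (nat_lit 455) (nat_lit 397) (nat_lit 288)) (XT.lf (nat_lit 0) (nat_lit 4301717787) (nat_lit 684) (nat_lit 3922712382) (nat_lit 76) (nat_lit 3408385694) (nat_lit 201) (nat_lit 5) (nat_lit 210) (nat_lit 5) (nat_lit 202) (nat_lit 5) (nat_lit 456) (nat_lit 397) (nat_lit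 287)))))) (XT.nd (nat_lit 546) (nat_lit 1520) (nat_lit 0) (XT.nd (nat_lit 234) (nat_lit 1140) (nat_lit 0) (XT.nd (nat_lit 78) (nat_lit 608) (nat_lit 0) (XT.lf (nat_lit 0) (nat_lit 2076072503) (nat_lit 532) (nat_lit 4388389390) (nat_lit 608) (nat_lit 5303215464) (nat_lit 194) (nat_lit 5) (nat_lit 201) (nat_lit 5) (nat_lit 202) (nat_lit 5) (nat_lit 457) (nat_lit 397) (nat_lit 286)) (XT.nd (nat_lit 78) (nat_lit 608) (nat_lit 0) (XT.lf (nat_lit 0) (nat_lit 8226751694) (nat_lit 532) (nat_lit 452382142) (nat_lit 608) (nat_lit 3225943878) (nat_lit 194) (nat_lit 5) (nat_lit 201) (nat_lit 5) (nat_lit 202) (nat_lit 5) (nat_lit 458) (nat_lit 397) (nat_lit 285)) (XT.lf (nat_lit 0) (nat_lit 2442953076) (nat_lit 608) (nat_lit 8516809157) (nat_lit 684) (nat_lit 1085045382) (nat_lit 186) (nat_lit 5) (nat_lit 194) (nat_lit 5) (nat_lit 195) (nat_lit 5) (nat_lit 459) (nat_lit 397) (nat_lit 284)))) (XT.nd (nat_lit 156) (nat_lit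 532) (nat_lit 0) (XT.nd (nat_lit 78) (nat_lit 532) (nat_lit 0) (XT.lf (nat_lit 0) (nat_lit 1094852775) (nat_lit 684) (nat_lit 3481892837) (nat_lit 76) (nat_lit 7610246238) (nat_lit 185) (nat_lit 5) (nat_lit 194) (nat_lit 5) (nat_lit 186) (nat_lit 5) (nat_lit 460) (nat_lit 397) (nat_lit 283)) (XT.lf (nat_lit 0) (nat_lit 2768731893) (nat_lit 532) (nat_lit 536164625) (nat_lit 608) (nat_lit 9026972224) (nat_lit 178) (nat_lit 5) (nat_lit 185) (nat_lit 5) (nat_lit 186) (nat_lit 5) (nat_lit 461) (nat_lit 397) (nat_lit 282))) (XT.nd (nat_lit 78) (nat_lit 532) (nat_lit 0) (XT.lf (nat_lit 0) (nat_lit 5589196286) (nat_lit 608) (nat_lit 3332088797) (nat_lit 76) (nat_lit 3557770656) (nat_lit 178) (nat_lit 5) (nat_lit 186) (nat_lit 5) (nat_lit 179) (nat_lit 5) (nat_lit 462) (nat_lit 397) (nat_lit 281)) (XT.lf (nat_lit 0) (nat_lit 3039254923) (nat_lit 532) (nat_lit 4886796431) (nat_lit 608) (nat_lit 4703011138) (nat_lit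 171) (nat_lit 5) (nat_lit 178) (nat_lit 5) (nat_lit 179) (nat_lit 5) (nat_lit 463) (nat_lit 397) (nat_lit 280))))) (XT.nd (nat_lit 234) (nat_lit 988) (nat_lit 0) (XT.nd (nat_lit 78) (nat_lit 532) (nat_lit 0) (XT.lf (nat_lit 0) (nat_lit 9562693706) (nat_lit 532) (nat_lit 753084330) (nat_lit 608) (nat_lit 2466181793) (nat_lit 171) (nat_lit 5) (nat_lit 178) (nat_lit 5) (nat_lit 179) (nat_lit 5) (nat_lit 464) (nat_lit 397) (nat_lit 279)) (XT.nd (nat_lit 78) (nat_lit 76) (nat_lit 0) (XT.lf (nat_lit 0) (nat_lit 3278801127) (nat_lit 456) (nat_lit 9502337718) (nat_lit 532) (nat_lit 156232357) (nat_lit 165) (nat_lit 5) (nat_lit 171) (nat_lit 5) (nat_lit 172) (nat_lit 5) (nat_lit 465) (nat_lit 397) (nat_lit 278)) (XT.lf (nat_lit 0) (nat_lit 2181926573) (nat_lit 532) (nat_lit 3184894824) (nat_lit 76) (nat_lit 7728578865) (nat_lit 164) (nat_lit 5) (nat_lit 171) (nat_lit 5) (nat_lit 165) (nat_lit 5) (nat_lit 466)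 (nat_lit 397) (nat_lit 277)))) (XT.nd (nat_lit 156) (nat_lit 456) (nat_lit 0) (XT.nd (nat_lit 78) (nat_lit 0) (nat_lit 0) (XT.lf (nat_lit 0) (nat_lit 3442277019) (nat_lit 532) (nat_lit 1129271854) (nat_lit 608) (nat_lit 8684896671) (nat_lit 157) (nat_lit 5) (nat_lit 164) (nat_lit 5) (nat_lit 165) (nat_lit 5) (nat_lit 467) (nat_lit 397) (nat_lit 276)) (XT.lf (nat_lit 0) (nat_lit 7035795209) (nat_lit 608) (nat_lit 3216238771) (nat_lit 76) (nat_lit 3168153021) (nat_lit 157) (nat_lit 5) (nat_lit 165) (nat_lit 5) (nat_lit 158) (nat_lit 5) (nat_lit 468) (nat_lit 397) (nat_lit 275))) (XT.nd (nat_lit 78) (nat_lit 0) (nat_lit 0) (XT.lf (nat_lit 0) (nat_lit 3532653247) (nat_lit 456) (nat_lit 6031976869) (nat_lit 532) (nat_lit 4022278765) (nat_lit 151) (nat_lit 5) (nat_lit 157) (nat_lit 5) (nat_lit 158) (nat_lit 5) (nat_lit 469) (nat_lit 397) (nat_lit 274)) (XT.lf (nat_lit 0) (nat_lit 10440401563) (nat_lit 456)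 (nat_lit 1710279784) (nat_lit 532) (nat_lit 1606162497) (nat_lit 151) (nat_lit 5) (nat_lit 157) (nat_lit 5) (nat_lit 158) (nat_lit 5) (nat_lit 470) (nat_lit 397) (nat_lit 273))))))) (XT.nd (nat_lit 1014) (nat_lit 2052) (nat_lit 0) (XT.nd (nat_lit 468) (nat_lit 1672) (nat_lit 0) (XT.nd (nat_lit 234) (nat_lit 456) (nat_lit 0) (XT.nd (nat_lit 78) (nat_lit 456) (nat_lit 0) (XT.lf (nat_lit 0) (nat_lit 873167848) (nat_lit 532) (nat_lit 10369642360) (nat_lit 76) (nat_lit 2686743877) (nat_lit 144) (nat_lit 5) (nat_lit 151) (nat_lit 5) (nat_lit 145) (nat_lit 5) (nat_lit 471) (nat_lit 397) (nat_lit 272)) (XT.nd (nat_lit 78) (nat_lit 456) (nat_lit 0) (XT.lf (nat_lit 0) (nat_lit 3399701170) (nat_lit 532) (nat_lit 3528317800) (nat_lit 76) (nat_lit 7177115550) (nat_lit 144) (nat_lit 5) (nat_lit 151) (nat_lit 5) (nat_lit 145) (nat_lit 5) (nat_lit 472) (nat_lit 397) (nat_lit 271)) (XT.lf (nat_lit 0) (nat_lit 3476127354)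 (nat_lit 456) (nat_lit 2508867880) (nat_lit 532) (nat_lit 8299077294) (nat_lit 138) (nat_lit 5) (nat_lit 144) (nat_lit 5) (nat_lit 145) (nat_lit 5) (nat_lit 473) (nat_lit 397) (nat_lit 270)))) (XT.nd (nat_lit 78) (nat_lit 456) (nat_lit 0) (XT.lf (nat_lit 0) (nat_lit 8644590597) (nat_lit 532) (nat_lit 3830191161) (nat_lit 76) (nat_lit 1991365990) (nat_lit 138) (nat_lit 5) (nat_lit 145) (nat_lit 5) (nat_lit 139) (nat_lit 5) (nat_lit 474) (nat_lit 397) (nat_lit 269)) (XT.nd (nat_lit 78) (nat_lit 0) (nat_lit 0) (XT.lf (nat_lit 0) (nat_lit 3294663387) (nat_lit 456) (nat_lit 8086784443) (nat_lit 532) (nat_lit 3269945399) (nat_lit 132) (nat_lit 5) (nat_lit 138) (nat_lit 5) (nat_lit 139) (nat_lit 5) (nat_lit 475) (nat_lit 397) (nat_lit 268)) (XT.lf (nat_lit 0) (nat_lit 10595009973) (nat_lit 456) (nat_lit 3589949027) (nat_lit 532) (nat_lit 655156242) (nat_lit 132) (nat_lit 5) (nat_lit 138) (nat_lit 5) (nat_lit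 139) (nat_lit 5) (nat_lit 476) (nat_lit 397) (nat_lit 267))))) (XT.nd (nat_lit 234) (nat_lit 836) (nat_lit 0) (XT.nd (nat_lit 78) (nat_lit 380) (nat_lit 0) (XT.lf (nat_lit 0) (nat_lit 1998167367) (nat_lit 456) (nat_lit 12022388234) (nat_lit 76) (nat_lit 1011551901) (nat_lit 126) (nat_lit 5) (nat_lit 132) (nat_lit 5) (nat_lit 127) (nat_lit 5) (nat_lit 477) (nat_lit 397) (nat_lit 266)) (XT.nd (nat_lit 78) (nat_lit 380) (nat_lit 0) (XT.lf (nat_lit 0) (nat_lit 4734741121) (nat_lit 456) (nat_lit 4807353719) (nat_lit 76) (nat_lit 5684988414) (nat_lit 126) (nat_lit 5) (nat_lit 132) (nat_lit 5) (nat_lit 127) (nat_lit 5) (nat_lit 478) (nat_lit 397) (nat_lit 265)) (XT.lf (nat_lit 0) (nat_lit 2567154361) (nat_lit 380) (nat_lit 4962322374) (nat_lit 456) (nat_lit 7896422378) (nat_lit 121) (nat_lit 5) (nat_lit 126) (nat_lit 5) (nat_lit 127) (nat_lit 5) (nat_lit 479) (nat_lit 397) (nat_lit 264)))) (XT.nd (nat_lit 156)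 (nat_lit 456) (nat_lit 0) (XT.nd (nat_lit 78) (nat_lit 380) (nat_lit 0) (XT.lf (nat_lit 0) (nat_lit 10135943416) (nat_lit 380) (nat_lit 263326494) (nat_lit 456) (nat_lit 5229047141) (nat_lit 121) (nat_lit 5) (nat_lit 126) (nat_lit 5) (nat_lit 127) (nat_lit 5) (nat_lit 480) (nat_lit 397) (nat_lit 263)) (XT.lf (nat_lit 0) (nat_lit 1999898532) (nat_lit 380) (nat_lit 11356080760) (nat_lit 456) (nat_lit 2478222491) (nat_lit 116) (nat_lit 5) (nat_lit 121) (nat_lit 5) (nat_lit 122) (nat_lit 5) (nat_lit 481) (nat_lit 397) (nat_lit 262))) (XT.nd (nat_lit 78) (nat_lit 380) (nat_lit 0) (XT.lf (nat_lit 0) (nat_lit 349334570) (nat_lit 456) (nat_lit 6349420350) (nat_lit 76) (nat_lit 9344894993) (nat_lit 115) (nat_lit 5) (nat_lit 121) (nat_lit 5) (nat_lit 116) (nat_lit 5) (nat_lit 482) (nat_lit 397) (nat_lit 261)) (XT.lf (nat_lit 0) (nat_lit 1267424659) (nat_lit 380) (nat_lit 1928514313) (nat_lit 456) (nat_lit 13061115152)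 (nat_lit 110) (nat_lit 5) (nat_lit 115) (nat_lit 5) (nat_lit 116) (nat_lit 5) (nat_lit 483) (nat_lit 397) (nat_lit 260)))))) (XT.nd (nat_lit 546) (nat_lit 988) (nat_lit 0) (XT.nd (nat_lit 234) (nat_lit 760) (nat_lit 0) (XT.nd (nat_lit 78) (nat_lit 304) (nat_lit 0) (XT.lf (nat_lit 0) (nat_lit 6148951013) (nat_lit 456) (nat_lit 7388601756) (nat_lit 76) (nat_lit 2936192308) (nat_lit 110) (nat_lit 5) (nat_lit 116) (nat_lit 5) (nat_lit 111) (nat_lit 5) (nat_lit 484) (nat_lit 397) (nat_lit 259)) (XT.nd (nat_lit 78) (nat_lit 0) (nat_lit 0) (XT.lf (nat_lit 0) (nat_lit 338417060) (nat_lit 304) (nat_lit 8825335493) (nat_lit 380) (nat_lit 7530970720) (nat_lit 106) (nat_lit 5) (nat_lit 110) (nat_lit 5) (nat_lit 111) (nat_lit 5) (nat_lit 485) (nat_lit 397) (nat_lit 258)) (XT.lf (nat_lit 0) (nat_lit 8302550888) (nat_lit 304) (nat_lit 3973766908) (nat_lit 380) (nat_lit 4643061735) (nat_lit 106) (nat_lit 5) (nat_lit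 110) (nat_lit 5) (nat_lit 111) (nat_lit 5) (nat_lit 486) (nat_lit 397) (nat_lit 257)))) (XT.nd (nat_lit 156) (nat_lit 304) (nat_lit 0) (XT.nd (nat_lit 78) (nat_lit 456) (nat_lit 0) (XT.lf (nat_lit 0) (nat_lit 15445552602) (nat_lit 380) (nat_lit 746336318) (nat_lit 76) (nat_lit 956759326) (nat_lit 106) (nat_lit 5) (nat_lit 111) (nat_lit 5) (nat_lit 107) (nat_lit 5) (nat_lit 487) (nat_lit 397) (nat_lit 256)) (XT.lf (nat_lit 0) (nat_lit 1341339948) (nat_lit 456) (nat_lit 10055752119) (nat_lit 76) (nat_lit 5983996158) (nat_lit 100) (nat_lit 5) (nat_lit 106) (nat_lit 5) (nat_lit 101) (nat_lit 5) (nat_lit 488) (nat_lit 397) (nat_lit 255))) (XT.nd (nat_lit 78) (nat_lit 304) (nat_lit 0) (XT.lf (nat_lit 0) (nat_lit 4417279945) (nat_lit 456) (nat_lit 2077982938) (nat_lit 76) (nat_lit 11122827822) (nat_lit 100) (nat_lit 5) (nat_lit 106) (nat_lit 5) (nat_lit 101) (nat_lit 5) (nat_lit 489) (nat_lit 397) (nat_lit 254))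 (XT.lf (nat_lit 0) (nat_lit 6122827015) (nat_lit 304) (nat_lit 1460250816) (nat_lit 380) (nat_lit 10276195733) (nat_lit 96) (nat_lit 5) (nat_lit 100) (nat_lit 5) (nat_lit 101) (nat_lit 5) (nat_lit 490) (nat_lit 397) (nat_lit 253))))) (XT.nd (nat_lit 234) (nat_lit 684) (nat_lit 0) (XT.nd (nat_lit 78) (nat_lit 304) (nat_lit 0) (XT.lf (nat_lit 0) (nat_lit 10838757791) (nat_lit 380) (nat_lit 3630040100) (nat_lit 76) (nat_lit 3635957840) (nat_lit 96) (nat_lit 5) (nat_lit 101) (nat_lit 5) (nat_lit 97) (nat_lit 5) (nat_lit 491) (nat_lit 397) (nat_lit 252)) (XT.nd (nat_lit 78) (nat_lit 0) (nat_lit 0) (XT.lf (nat_lit 0) (nat_lit 4673545987) (nat_lit 304) (nat_lit 9514907771) (nat_lit 380) (nat_lit 4166122570) (nat_lit 92) (nat_lit 5) (nat_lit 96) (nat_lit 5) (nat_lit 97) (nat_lit 5) (nat_lit 492) (nat_lit 397) (nat_lit 251)) (XT.lf (nat_lit 0) (nat_lit 13175946622) (nat_lit 304) (nat_lit 4442555604) (nat_lit 380)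 (nat_lit 990630640) (nat_lit 92) (nat_lit 5) (nat_lit 96) (nat_lit 5) (nat_lit 97) (nat_lit 5) (nat_lit 493) (nat_lit 397) (nat_lit 250)))) (XT.nd (nat_lit 156) (nat_lit 304) (nat_lit 0) (XT.nd (nat_lit 78) (nat_lit 0) (nat_lit 0) (XT.lf (nat_lit 0) (nat_lit 2232357367) (nat_lit 380) (nat_lit 15885349406) (nat_lit 76) (nat_lit 750518764) (nat_lit 87) (nat_lit 5) (nat_lit 92) (nat_lit 5) (nat_lit 88) (nat_lit 5) (nat_lit 494) (nat_lit 397) (nat_lit 249)) (XT.lf (nat_lit 0) (nat_lit 5561884454) (nat_lit 380) (nat_lit 7543455975) (nat_lit 76) (nat_lit 6025928109) (nat_lit 87) (nat_lit 5) (nat_lit 92) (nat_lit 5) (nat_lit 88) (nat_lit 5) (nat_lit 495) (nat_lit 397) (nat_lit 248))) (XT.nd (nat_lit 78) (nat_lit 0) (nat_lit 0) (XT.lf (nat_lit 0) (nat_lit 961840714) (nat_lit 304) (nat_lit 7991827425) (nat_lit 380) (nat_lit 10445997129) (nat_lit 83) (nat_lit 5) (nat_lit 87) (nat_lit 5) (nat_lit 88) (nat_lit 5)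 (nat_lit 496) (nat_lit 397) (nat_lit 247)) (XT.lf (nat_lit 0) (nat_lit 9723553134) (nat_lit 304) (nat_lit 2729879985) (nat_lit 380) (nat_lit 7219199971) (nat_lit 83) (nat_lit 5) (nat_lit 87) (nat_lit 5) (nat_lit 88) (nat_lit 5) (nat_lit 497) (nat_lit 397) (nat_lit 246))))))))
noncomputable def xc147 : XT := (XT.nd (nat_lit 51636) (nat_lit 0) (nat_lit 26600) (XT.nd (nat_lit 1014) (nat_lit 1216) (nat_lit 0) (XT.nd (nat_lit 468) (nat_lit 836) (nat_lit 0) (XT.nd (nat_lit 234) (nat_lit 532) (nat_lit 0) (XT.nd (nat_lit 78) (nat_lit 304) (nat_lit 0) (XT.lf (nat_lit 0) (nat_lit 16030012183) (nat_lit 380) (nat_lit 1323491253) (nat_lit 76) (nat_lit 2597426408) (nat_lit 83) (nat_lit 5) (nat_lit 88) (nat_lit 5) (nat_lit 84) (nat_lit 5) (nat_lit 498) (nat_lit 397) (nat_lit 245)) (XT.nd (nat_lit 78) (nat_lit 76) (nat_lit 0) (XT.lf (nat_lit 0) (nat_lit 7539920269) (nat_lit 228) (nat_lit 12195133084) (nat_lit 304) (nat_lit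 498606402) (nat_lit 80) (nat_lit 5) (nat_lit 83) (nat_lit 5) (nat_lit 84) (nat_lit 5) (nat_lit 499) (nat_lit 397) (nat_lit 244)) (XT.lf (nat_lit 0) (nat_lit 2951772536) (nat_lit 304) (nat_lit 3958347436) (nat_lit 76) (nat_lit 13611564080) (nat_lit 79) (nat_lit 5) (nat_lit 83) (nat_lit 5) (nat_lit 80) (nat_lit 5) (nat_lit 500) (nat_lit 397) (nat_lit 243)))) (XT.nd (nat_lit 78) (nat_lit 228) (nat_lit 0) (XT.lf (nat_lit 0) (nat_lit 4998779689) (nat_lit 304) (nat_lit 1488286144) (nat_lit 380) (nat_lit 14327890919) (nat_lit 75) (nat_lit 5) (nat_lit 79) (nat_lit 5) (nat_lit 80) (nat_lit 5) (nat_lit 501) (nat_lit 397) (nat_lit 242)) (XT.nd (nat_lit 78) (nat_lit 228) (nat_lit 0) (XT.lf (nat_lit 0) (nat_lit 10136228973) (nat_lit 380) (nat_lit 6966573774) (nat_lit 76) (nat_lit 4010434270) (nat_lit 75) (nat_lit 5) (nat_lit 80) (nat_lit 5) (nat_lit 76) (nat_lit 5) (nat_lit 502) (nat_lit 397) (nat_lit 241)) (XT.lf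 (nat_lit 0) (nat_lit 2062214874) (nat_lit 228) (nat_lit 11809780700) (nat_lit 304) (nat_lit 7545220195) (nat_lit 72) (nat_lit 5) (nat_lit 75) (nat_lit 5) (nat_lit 76) (nat_lit 5) (nat_lit 503) (nat_lit 397) (nat_lit 240))))) (XT.nd (nat_lit 234) (nat_lit 456) (nat_lit 0) (XT.nd (nat_lit 78) (nat_lit 380) (nat_lit 0) (XT.lf (nat_lit 0) (nat_lit 11351114874) (nat_lit 228) (nat_lit 6368578742) (nat_lit 304) (nat_lit 4006841335) (nat_lit 72) (nat_lit 5) (nat_lit 75) (nat_lit 5) (nat_lit 76) (nat_lit 5) (nat_lit 504) (nat_lit 397) (nat_lit 239)) (XT.nd (nat_lit 78) (nat_lit 380) (nat_lit 0) (XT.lf (nat_lit 0) (nat_lit 20811186833) (nat_lit 228) (nat_lit 823812447) (nat_lit 304) (nat_lit 407233244) (nat_lit 72) (nat_lit 5) (nat_lit 75) (nat_lit 5) (nat_lit 76) (nat_lit 5) (nat_lit 505) (nat_lit 397) (nat_lit 238)) (XT.lf (nat_lit 0) (nat_lit 3297184911) (nat_lit 380) (nat_lit 14227082888) (nat_lit 76) (nat_lit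 4838044628) (nat_lit 67) (nat_lit 5) (nat_lit 72) (nat_lit 5) (nat_lit 68) (nat_lit 5) (nat_lit 506) (nat_lit 397) (nat_lit 237)))) (XT.nd (nat_lit 156) (nat_lit 228) (nat_lit 0) (XT.nd (nat_lit 78) (nat_lit 228) (nat_lit 0) (XT.lf (nat_lit 0) (nat_lit 7074840320) (nat_lit 380) (nat_lit 5005824511) (nat_lit 76) (nat_lit 10607988013) (nat_lit 67) (nat_lit 5) (nat_lit 72) (nat_lit 5) (nat_lit 68) (nat_lit 5) (nat_lit 507) (nat_lit 397) (nat_lit 236)) (XT.lf (nat_lit 0) (nat_lit 4443920381) (nat_lit 228) (nat_lit 6503986492) (nat_lit 304) (nat_lit 12073220726) (nat_lit 64) (nat_lit 5) (nat_lit 67) (nat_lit 5) (nat_lit 68) (nat_lit 5) (nat_lit 508) (nat_lit 397) (nat_lit 235))) (XT.nd (nat_lit 78) (nat_lit 228) (nat_lit 0) (XT.lf (nat_lit 0) (nat_lit 14136387536) (nat_lit 228) (nat_lit 786728740) (nat_lit 304) (nat_lit 8436646544) (nat_lit 64) (nat_lit 5) (nat_lit 67) (nat_lit 5) (nat_lit 68) (nat_lit 5)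 (nat_lit 509) (nat_lit 397) (nat_lit 234)) (XT.lf (nat_lit 0) (nat_lit 274380271) (nat_lit 228) (nat_lit 18729217021) (nat_lit 304) (nat_lit 4701062614) (nat_lit 61) (nat_lit 5) (nat_lit 64) (nat_lit 5) (nat_lit 65) (nat_lit 5) (nat_lit 510) (nat_lit 397) (nat_lit 233)))))) (XT.nd (nat_lit 546) (nat_lit 684) (nat_lit 0) (XT.nd (nat_lit 234) (nat_lit 228) (nat_lit 0) (XT.nd (nat_lit 78) (nat_lit 304) (nat_lit 0) (XT.lf (nat_lit 0) (nat_lit 10067932045) (nat_lit 228) (nat_lit 13156138387) (nat_lit 304) (nat_lit 831221274) (nat_lit 61) (nat_lit 5) (nat_lit 64) (nat_lit 5) (nat_lit 65) (nat_lit 5) (nat_lit 511) (nat_lit 397) (nat_lit 232)) (XT.nd (nat_lit 78) (nat_lit 228) (nat_lit 0) (XT.lf (nat_lit 0) (nat_lit 3066572379) (nat_lit 304) (nat_lit 4389562940) (nat_lit 76) (nat_lit 16956571994) (nat_lit 60) (nat_lit 5) (nat_lit 64) (nat_lit 5) (nat_lit 61) (nat_lit 5) (nat_lit 512) (nat_lit 397) (nat_lit 231))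 (XT.lf (nat_lit 0) (nat_lit 5452717520) (nat_lit 228) (nat_lit 1605478187) (nat_lit 304) (nat_lit 17718429727) (nat_lit 57) (nat_lit 5) (nat_lit 60) (nat_lit 5) (nat_lit 61) (nat_lit 5) (nat_lit 513) (nat_lit 397) (nat_lit 230)))) (XT.nd (nat_lit 156) (nat_lit 0) (nat_lit 0) (XT.nd (nat_lit 78) (nat_lit 228) (nat_lit 0) (XT.lf (nat_lit 0) (nat_lit 11179260969) (nat_lit 304) (nat_lit 9637934792) (nat_lit 76) (nat_lit 4329638052) (nat_lit 57) (nat_lit 5) (nat_lit 61) (nat_lit 5) (nat_lit 58) (nat_lit 5) (nat_lit 514) (nat_lit 397) (nat_lit 229)) (XT.lf (nat_lit 0) (nat_lit 220756083) (nat_lit 228) (nat_lit 15165856925) (nat_lit 304) (nat_lit 10137760047) (nat_lit 54) (nat_lit 5) (nat_lit 57) (nat_lit 5) (nat_lit 58) (nat_lit 5) (nat_lit 515) (nat_lit 397) (nat_lit 228))) (XT.nd (nat_lit 78) (nat_lit 0) (nat_lit 0) (XT.lf (nat_lit 0) (nat_lit 10394088129) (nat_lit 228) (nat_lit 9340574678) (nat_lit 304)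 (nat_lit 6173673186) (nat_lit 54) (nat_lit 5) (nat_lit 57) (nat_lit 5) (nat_lit 58) (nat_lit 5) (nat_lit 516) (nat_lit 397) (nat_lit 227)) (XT.lf (nat_lit 0) (nat_lit 20757967806) (nat_lit 228) (nat_lit 3403740211) (nat_lit 304) (nat_lit 2138433334) (nat_lit 54) (nat_lit 5) (nat_lit 57) (nat_lit 5) (nat_lit 58) (nat_lit 5) (nat_lit 517) (nat_lit 397) (nat_lit 226))))) (XT.nd (nat_lit 234) (nat_lit 380) (nat_lit 0) (XT.nd (nat_lit 78) (nat_lit 0) (nat_lit 0) (XT.lf (nat_lit 0) (nat_lit 1991469930) (nat_lit 304) (nat_lit 22051642292) (nat_lit 76) (nat_lit 2655619627) (nat_lit 50) (nat_lit 5) (nat_lit 54) (nat_lit 5) (nat_lit 51) (nat_lit 5) (nat_lit 518) (nat_lit 397) (nat_lit 225)) (XT.nd (nat_lit 78) (nat_lit 0) (nat_lit 0) (XT.lf (nat_lit 0) (nat_lit 6227518118) (nat_lit 304) (nat_lit 12039053797) (nat_lit 76) (nat_lit 8837399559) (nat_lit 50) (nat_lit 5) (nat_lit 54) (nat_lit 5) (nat_lit 51) (nat_lit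 5) (nat_lit 519) (nat_lit 397) (nat_lit 224)) (XT.lf (nat_lit 0) (nat_lit 10540615885) (nat_lit 304) (nat_lit 1838779778) (nat_lit 76) (nat_lit 15138077211) (nat_lit 50) (nat_lit 5) (nat_lit 54) (nat_lit 5) (nat_lit 51) (nat_lit 5) (nat_lit 520) (nat_lit 397) (nat_lit 223)))) (XT.nd (nat_lit 156) (nat_lit 152) (nat_lit 0) (XT.nd (nat_lit 78) (nat_lit 0) (nat_lit 0) (XT.lf (nat_lit 0) (nat_lit 8666847131) (nat_lit 228) (nat_lit 6321878432) (nat_lit 304) (nat_lit 12949547226) (nat_lit 47) (nat_lit 5) (nat_lit 50) (nat_lit 5) (nat_lit 51) (nat_lit 5) (nat_lit 521) (nat_lit 397) (nat_lit 222)) (XT.lf (nat_lit 0) (nat_lit 19395272927) (nat_lit 228) (nat_lit 135410732) (nat_lit 304) (nat_lit 8836710738) (nat_lit 47) (nat_lit 5) (nat_lit 50) (nat_lit 5) (nat_lit 51) (nat_lit 5) (nat_lit 522) (nat_lit 397) (nat_lit 221))) (XT.nd (nat_lit 49608) (nat_lit 0) (nat_lit 35036) (XT.lf (nat_lit 0) (nat_lit 1500641329)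 (nat_lit 152) (nat_lit 22705336269) (nat_lit 228) (nat_lit 4598274254) (nat_lit 45) (nat_lit 5) (nat_lit 47) (nat_lit 5) (nat_lit 48) (nat_lit 5) (nat_lit 523) (nat_lit 397) (nat_lit 220)) (XT.lf (nat_lit 0) (nat_lit 425519249) (nat_lit 0) (nat_lit 425519249) (nat_lit 988) (nat_lit 2688088852) (nat_lit 506) (nat_lit 5) (nat_lit 506) (nat_lit 3) (nat_lit 519) (nat_lit 3) (nat_lit 398) (nat_lit 398) (nat_lit 344))))))) (XT.nd (nat_lit 1092) (nat_lit 5244) (nat_lit 0) (XT.nd (nat_lit 546) (nat_lit 2128) (nat_lit 0) (XT.nd (nat_lit 234) (nat_lit 1064) (nat_lit 0) (XT.nd (nat_lit 78) (nat_lit 0) (nat_lit 0) (XT.lf (nat_lit 0) (nat_lit 3363236743) (nat_lit 988) (nat_lit 3034915448) (nat_lit 1064) (nat_lit 715790352) (nat_lit 506) (nat_lit 5) (nat_lit 519) (nat_lit 3) (nat_lit 520) (nat_lit 5) (nat_lit 399) (nat_lit 398) (nat_lit 343)) (XT.nd (nat_lit 78) (nat_lit 0) (nat_lit 0) (XT.lf (nat_lit 76) (nat_lit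 195601560) (nat_lit 0) (nat_lit 4826060880) (nat_lit 1064) (nat_lit 2129458864) (nat_lit 507) (nat_lit 5) (nat_lit 506) (nat_lit 5) (nat_lit 520) (nat_lit 5) (nat_lit 400) (nat_lit 398) (nat_lit 342)) (XT.lf (nat_lit 76) (nat_lit 3509457308) (nat_lit 0) (nat_lit 3181996942) (nat_lit 1064) (nat_lit 498082320) (nat_lit 507) (nat_lit 5) (nat_lit 506) (nat_lit 5) (nat_lit 520) (nat_lit 5) (nat_lit 401) (nat_lit 398) (nat_lit 341)))) (XT.nd (nat_lit 156) (nat_lit 0) (nat_lit 76) (XT.nd (nat_lit 78) (nat_lit 0) (nat_lit 76) (XT.lf (nat_lit 0) (nat_lit 1108960206) (nat_lit 1064) (nat_lit 369279614) (nat_lit 1140) (nat_lit 5751217002) (nat_lit 492) (nat_lit 5) (nat_lit 506) (nat_lit 5) (nat_lit 507) (nat_lit 5) (nat_lit 402) (nat_lit 398) (nat_lit 340)) (XT.lf (nat_lit 0) (nat_lit 2722206432) (nat_lit 1064) (nat_lit 4250612803) (nat_lit 1140) (nat_lit 297729355) (nat_lit 493) (nat_lit 5) (nat_lit 507) (nat_lit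 5) (nat_lit 508) (nat_lit 5) (nat_lit 403) (nat_lit 398) (nat_lit 339))) (XT.nd (nat_lit 78) (nat_lit 0) (nat_lit 0) (XT.lf (nat_lit 0) (nat_lit 4339924964) (nat_lit 1064) (nat_lit 863243497) (nat_lit 1140) (nat_lit 2109902136) (nat_lit 493) (nat_lit 5) (nat_lit 507) (nat_lit 5) (nat_lit 508) (nat_lit 5) (nat_lit 404) (nat_lit 398) (nat_lit 338)) (XT.lf (nat_lit 76) (nat_lit 2603502952) (nat_lit 0) (nat_lit 3364107644) (nat_lit 1140) (nat_lit 1389331712) (nat_lit 494) (nat_lit 5) (nat_lit 493) (nat_lit 5) (nat_lit 508) (nat_lit 5) (nat_lit 405) (nat_lit 398) (nat_lit 337))))) (XT.nd (nat_lit 234) (nat_lit 1064) (nat_lit 0) (XT.nd (nat_lit 78) (nat_lit 0) (nat_lit 76) (XT.lf (nat_lit 0) (nat_lit 190051893) (nat_lit 1140) (nat_lit 1274731464) (nat_lit 1216) (nat_lit 5937591058) (nat_lit 478) (nat_lit 5) (nat_lit 493) (nat_lit 5) (nat_lit 494) (nat_lit 5) (nat_lit 406) (nat_lit 398) (nat_lit 336)) (XT.nd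 (nat_lit 78) (nat_lit 0) (nat_lit 0) (XT.lf (nat_lit 0) (nat_lit 1762307653) (nat_lit 1140) (nat_lit 5180719853) (nat_lit 1216) (nat_lit 505954785) (nat_lit 479) (nat_lit 5) (nat_lit 494) (nat_lit 5) (nat_lit 495) (nat_lit 5) (nat_lit 407) (nat_lit 398) (nat_lit 335)) (XT.lf (nat_lit 0) (nat_lit 3346815590) (nat_lit 1140) (nat_lit 1629949006) (nat_lit 1216) (nat_lit 2520189182) (nat_lit 479) (nat_lit 5) (nat_lit 494) (nat_lit 5) (nat_lit 495) (nat_lit 5) (nat_lit 408) (nat_lit 398) (nat_lit 334)))) (XT.nd (nat_lit 156) (nat_lit 1140) (nat_lit 0) (XT.nd (nat_lit 78) (nat_lit 0) (nat_lit 0) (XT.lf (nat_lit 76) (nat_lit 1995224493) (nat_lit 0) (nat_lit 2943974632) (nat_lit 1216) (nat_lit 2607208525) (nat_lit 480) (nat_lit 5) (nat_lit 479) (nat_lit 5) (nat_lit 495) (nat_lit 5) (nat_lit 409) (nat_lit 398) (nat_lit 333)) (XT.lf (nat_lit 76) (nat_lit 5692365229) (nat_lit 0) (nat_lit 845808062) (nat_lit 1216)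 (nat_lit 1059228197) (nat_lit 480) (nat_lit 5) (nat_lit 479) (nat_lit 5) (nat_lit 495) (nat_lit 5) (nat_lit 410) (nat_lit 398) (nat_lit 332))) (XT.nd (nat_lit 78) (nat_lit 0) (nat_lit 0) (XT.lf (nat_lit 0) (nat_lit 497482682) (nat_lit 1216) (nat_lit 5846746272) (nat_lit 1292) (nat_lit 1305470994) (nat_lit 464) (nat_lit 5) (nat_lit 480) (nat_lit 5) (nat_lit 481) (nat_lit 5) (nat_lit 411) (nat_lit 398) (nat_lit 331)) (XT.lf (nat_lit 0) (nat_lit 2054500349) (nat_lit 1216) (nat_lit 2127949031) (nat_lit 1292) (nat_lit 3520830961) (nat_lit 464) (nat_lit 5) (nat_lit 480) (nat_lit 5) (nat_lit 481) (nat_lit 5) (nat_lit 412) (nat_lit 398) (nat_lit 330)))))) (XT.nd (nat_lit 546) (nat_lit 4028) (nat_lit 0) (XT.nd (nat_lit 234) (nat_lit 1216) (nat_lit 0) (XT.nd (nat_lit 78) (nat_lit 0) (nat_lit 76) (XT.lf (nat_lit 76) (nat_lit 1664121747) (nat_lit 0) (nat_lit 1954902522) (nat_lit 1292) (nat_lit 4139423022) (nat_lit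 465) (nat_lit 5) (nat_lit 464) (nat_lit 5) (nat_lit 481) (nat_lit 5) (nat_lit 413) (nat_lit 398) (nat_lit 329)) (XT.nd (nat_lit 78) (nat_lit 0) (nat_lit 0) (XT.lf (nat_lit 0) (nat_lit 5197433332) (nat_lit 1216) (nat_lit 2279275921) (nat_lit 1292) (nat_lit 338397869) (nat_lit 465) (nat_lit 5) (nat_lit 481) (nat_lit 5) (nat_lit 482) (nat_lit 5) (nat_lit 414) (nat_lit 398) (nat_lit 328)) (XT.lf (nat_lit 76) (nat_lit 1596966176) (nat_lit 0) (nat_lit 5200583842) (nat_lit 1292) (nat_lit 1075587964) (nat_lit 466) (nat_lit 5) (nat_lit 465) (nat_lit 5) (nat_lit 482) (nat_lit 5) (nat_lit 415) (nat_lit 398) (nat_lit 327)))) (XT.nd (nat_lit 156) (nat_lit 0) (nat_lit 76) (XT.nd (nat_lit 78) (nat_lit 0) (nat_lit 0) (XT.lf (nat_lit 0) (nat_lit 473283593) (nat_lit 1292) (nat_lit 2377155898) (nat_lit 1368) (nat_lit 5082215101) (nat_lit 448) (nat_lit 5) (nat_lit 465) (nat_lit 5) (nat_lit 466) (nat_lit 5) (nat_lit 416)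 (nat_lit 398) (nat_lit 326)) (XT.lf (nat_lit 76) (nat_lit 1590606467) (nat_lit 0) (nat_lit 426180688) (nat_lit 1368) (nat_lit 5976909330) (nat_lit 449) (nat_lit 5) (nat_lit 448) (nat_lit 5) (nat_lit 466) (nat_lit 5) (nat_lit 417) (nat_lit 398) (nat_lit 325))) (XT.nd (nat_lit 78) (nat_lit 0) (nat_lit 0) (XT.lf (nat_lit 0) (nat_lit 3588765154) (nat_lit 1292) (nat_lit 2422638942) (nat_lit 1368) (nat_lit 2044640563) (nat_lit 449) (nat_lit 5) (nat_lit 466) (nat_lit 5) (nat_lit 467) (nat_lit 5) (nat_lit 418) (nat_lit 398) (nat_lit 324)) (XT.lf (nat_lit 76) (nat_lit 1632924146) (nat_lit 0) (nat_lit 3541564460) (nat_lit 1368) (nat_lit 2945541866) (nat_lit 450) (nat_lit 5) (nat_lit 449) (nat_lit 5) (nat_lit 467) (nat_lit 5) (nat_lit 419) (nat_lit 398) (nat_lit 323))))) (XT.nd (nat_lit 234) (nat_lit 2812) (nat_lit 0) (XT.nd (nat_lit 78) (nat_lit 1292) (nat_lit 0) (XT.lf (nat_lit 76) (nat_lit 5779499202) (nat_lit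 0) (nat_lit 998027219) (nat_lit 1368) (nat_lit 1408093654) (nat_lit 450) (nat_lit 5) (nat_lit 449) (nat_lit 5) (nat_lit 467) (nat_lit 5) (nat_lit 420) (nat_lit 398) (nat_lit 322)) (XT.nd (nat_lit 78) (nat_lit 0) (nat_lit 0) (XT.lf (nat_lit 0) (nat_lit 149606713) (nat_lit 1368) (nat_lit 6507865318) (nat_lit 76) (nat_lit 1595231262) (nat_lit 432) (nat_lit 5) (nat_lit 450) (nat_lit 5) (nat_lit 433) (nat_lit 5) (nat_lit 421) (nat_lit 398) (nat_lit 321)) (XT.lf (nat_lit 0) (nat_lit 1712688889) (nat_lit 1368) (nat_lit 2348867319) (nat_lit 76) (nat_lit 4259558164) (nat_lit 432) (nat_lit 5) (nat_lit 450) (nat_lit 5) (nat_lit 433) (nat_lit 5) (nat_lit 422) (nat_lit 398) (nat_lit 320)))) (XT.nd (nat_lit 156) (nat_lit 1444) (nat_lit 0) (XT.nd (nat_lit 78) (nat_lit 0) (nat_lit 0) (XT.lf (nat_lit 0) (nat_lit 1895173862) (nat_lit 1368) (nat_lit 1394949683) (nat_lit 1444) (nat_lit 5101141638) (nat_lit 414) (nat_lit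 5) (nat_lit 432) (nat_lit 5) (nat_lit 433) (nat_lit 5) (nat_lit 423) (nat_lit 398) (nat_lit 319)) (XT.lf (nat_lit 0) (nat_lit 4894825374) (nat_lit 1444) (nat_lit 2238763613) (nat_lit 76) (nat_lit 1329348323) (nat_lit 414) (nat_lit 5) (nat_lit 433) (nat_lit 5) (nat_lit 415) (nat_lit 5) (nat_lit 424) (nat_lit 398) (nat_lit 318))) (XT.nd (nat_lit 78) (nat_lit 0) (nat_lit 0) (XT.lf (nat_lit 0) (nat_lit 2098973399) (nat_lit 1444) (nat_lit 4427326838) (nat_lit 1520) (nat_lit 2009881094) (nat_lit 395) (nat_lit 5) (nat_lit 414) (nat_lit 5) (nat_lit 415) (nat_lit 5) (nat_lit 425) (nat_lit 398) (nat_lit 317)) (XT.lf (nat_lit 0) (nat_lit 6530936094) (nat_lit 1444) (nat_lit 1646708939) (nat_lit 1520) (nat_lit 433531795) (nat_lit 395) (nat_lit 5) (nat_lit 414) (nat_lit 5) (nat_lit 415) (nat_lit 5) (nat_lit 426) (nat_lit 398) (nat_lit 316))))))))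
noncomputable def xc148 : XT := (XT.nd (nat_lit 2106) (nat_lit 7372) (nat_lit 0) (XT.nd (nat_lit 1014) (nat_lit 5016) (nat_lit 0) (XT.nd (nat_lit 468) (nat_lit 3496) (nat_lit 0) (XT.nd (nat_lit 234) (nat_lit 1748) (nat_lit 0) (XT.nd (nat_lit 78) (nat_lit 1596) (nat_lit 0) (XT.lf (nat_lit 0) (nat_lit 1154750692) (nat_lit 1596) (nat_lit 6331268642) (nat_lit 76) (nat_lit 1201614431) (nat_lit 374) (nat_lit 5) (nat_lit 395) (nat_lit 5) (nat_lit 375) (nat_lit 5) (nat_lit 427) (nat_lit 398) (nat_lit 315)) (XT.nd (nat_lit 78) (nat_lit 1596) (nat_lit 0) (XT.lf (nat_lit 0) (nat_lit 2766927209) (nat_lit 1596) (nat_lit 1892579794) (nat_lit 76) (nat_lit 4106126451) (nat_lit 374) (nat_lit 5) (nat_lit 395) (nat_lit 5) (nat_lit 375) (nat_lit 5) (nat_lit 428) (nat_lit 398) (nat_lit 314)) (XT.lf (nat_lit 0) (nat_lit 2646780563) (nat_lit 1596) (nat_lit 1755251963) (nat_lit 1672) (nat_lit 4443375915) (nat_lit 353) (nat_lit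 5) (nat_lit 374) (nat_lit 5) (nat_lit 375) (nat_lit 5) (nat_lit 429) (nat_lit 398) (nat_lit 313)))) (XT.nd (nat_lit 78) (nat_lit 1748) (nat_lit 0) (XT.lf (nat_lit 0) (nat_lit 6064357013) (nat_lit 1672) (nat_lit 1655102331) (nat_lit 76) (nat_lit 1207457686) (nat_lit 353) (nat_lit 5) (nat_lit 375) (nat_lit 5) (nat_lit 354) (nat_lit 5) (nat_lit 430) (nat_lit 398) (nat_lit 312)) (XT.nd (nat_lit 78) (nat_lit 76) (nat_lit 0) (XT.lf (nat_lit 0) (nat_lit 2984022565) (nat_lit 1672) (nat_lit 4781311245) (nat_lit 1748) (nat_lit 1244641750) (nat_lit 331) (nat_lit 5) (nat_lit 353) (nat_lit 5) (nat_lit 354) (nat_lit 5) (nat_lit 431) (nat_lit 398) (nat_lit 311)) (XT.lf (nat_lit 0) (nat_lit 386063202) (nat_lit 1748) (nat_lit 1381812883) (nat_lit 76) (nat_lit 7327078338) (nat_lit 330) (nat_lit 5) (nat_lit 353) (nat_lit 5) (nat_lit 331) (nat_lit 5) (nat_lit 432) (nat_lit 398) (nat_lit 310))))) (XT.nd (nat_lit 234) (nat_lit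 1672) (nat_lit 0) (XT.nd (nat_lit 78) (nat_lit 836) (nat_lit 0) (XT.lf (nat_lit 0) (nat_lit 2038363287) (nat_lit 1064) (nat_lit 5821648502) (nat_lit 76) (nat_lit 1321369873) (nat_lit 317) (nat_lit 5) (nat_lit 331) (nat_lit 5) (nat_lit 318) (nat_lit 5) (nat_lit 433) (nat_lit 398) (nat_lit 309)) (XT.nd (nat_lit 78) (nat_lit 836) (nat_lit 0) (XT.lf (nat_lit 0) (nat_lit 3720175746) (nat_lit 1064) (nat_lit 1089210595) (nat_lit 76) (nat_lit 4460247540) (nat_lit 317) (nat_lit 5) (nat_lit 331) (nat_lit 5) (nat_lit 318) (nat_lit 5) (nat_lit 434) (nat_lit 398) (nat_lit 308)) (XT.lf (nat_lit 0) (nat_lit 3764770966) (nat_lit 836) (nat_lit 1671203234) (nat_lit 912) (nat_lit 3923695205) (nat_lit 306) (nat_lit 5) (nat_lit 317) (nat_lit 5) (nat_lit 318) (nat_lit 5) (nat_lit 435) (nat_lit 398) (nat_lit 307)))) (XT.nd (nat_lit 156) (nat_lit 836) (nat_lit 0) (XT.nd (nat_lit 78) (nat_lit 836) (nat_lit 0) (XT.lf (nat_lit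 0) (nat_lit 7179621402) (nat_lit 912) (nat_lit 753585520) (nat_lit 76) (nat_lit 1518452821) (nat_lit 306) (nat_lit 5) (nat_lit 318) (nat_lit 5) (nat_lit 307) (nat_lit 5) (nat_lit 436) (nat_lit 398) (nat_lit 306)) (XT.lf (nat_lit 0) (nat_lit 4206257551) (nat_lit 836) (nat_lit 4766970291) (nat_lit 912) (nat_lit 571984598) (nat_lit 295) (nat_lit 5) (nat_lit 306) (nat_lit 5) (nat_lit 307) (nat_lit 5) (nat_lit 437) (nat_lit 398) (nat_lit 305))) (XT.nd (nat_lit 78) (nat_lit 760) (nat_lit 0) (XT.lf (nat_lit 0) (nat_lit 1128765395) (nat_lit 912) (nat_lit 395179007) (nat_lit 76) (nat_lit 8116925504) (nat_lit 294) (nat_lit 5) (nat_lit 306) (nat_lit 5) (nat_lit 295) (nat_lit 5) (nat_lit 438) (nat_lit 398) (nat_lit 304)) (XT.lf (nat_lit 0) (nat_lit 2875395749) (nat_lit 836) (nat_lit 5067079188) (nat_lit 76) (nat_lit 1795522358) (nat_lit 284) (nat_lit 5) (nat_lit 295) (nat_lit 5) (nat_lit 285) (nat_lit 5) (nat_lit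 439) (nat_lit 398) (nat_lit 303)))))) (XT.nd (nat_lit 546) (nat_lit 2052) (nat_lit 0) (XT.nd (nat_lit 234) (nat_lit 1520) (nat_lit 0) (XT.nd (nat_lit 78) (nat_lit 1444) (nat_lit 0) (XT.lf (nat_lit 0) (nat_lit 4647324965) (nat_lit 836) (nat_lit 25892962) (nat_lit 76) (nat_lit 5164064406) (nat_lit 284) (nat_lit 5) (nat_lit 295) (nat_lit 5) (nat_lit 285) (nat_lit 5) (nat_lit 440) (nat_lit 398) (nat_lit 302)) (XT.nd (nat_lit 78) (nat_lit 684) (nat_lit 0) (XT.lf (nat_lit 0) (nat_lit 5161792493) (nat_lit 760) (nat_lit 1304457667) (nat_lit 836) (nat_lit 3472093751) (nat_lit 274) (nat_lit 5) (nat_lit 284) (nat_lit 5) (nat_lit 285) (nat_lit 5) (nat_lit 441) (nat_lit 398) (nat_lit 301)) (XT.lf (nat_lit 0) (nat_lit 380983648) (nat_lit 684) (nat_lit 7935389712) (nat_lit 760) (nat_lit 1725178527) (nat_lit 265) (nat_lit 5) (nat_lit 274) (nat_lit 5) (nat_lit 275) (nat_lit 5) (nat_lit 442) (nat_lit 398) (nat_lit 300))))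 (XT.nd (nat_lit 156) (nat_lit 684) (nat_lit 0) (XT.nd (nat_lit 78) (nat_lit 760) (nat_lit 0) (XT.lf (nat_lit 0) (nat_lit 75285018) (nat_lit 760) (nat_lit 4471476373) (nat_lit 76) (nat_lit 5599688924) (nat_lit 264) (nat_lit 5) (nat_lit 274) (nat_lit 5) (nat_lit 265) (nat_lit 5) (nat_lit 443) (nat_lit 398) (nat_lit 299)) (XT.lf (nat_lit 0) (nat_lit 798393175) (nat_lit 760) (nat_lit 1074341460) (nat_lit 836) (nat_lit 8380822784) (nat_lit 254) (nat_lit 5) (nat_lit 264) (nat_lit 5) (nat_lit 265) (nat_lit 5) (nat_lit 444) (nat_lit 398) (nat_lit 298))) (XT.nd (nat_lit 78) (nat_lit 684) (nat_lit 0) (XT.lf (nat_lit 0) (nat_lit 3731495638) (nat_lit 836) (nat_lit 4166489291) (nat_lit 76) (nat_lit 2464334400) (nat_lit 254) (nat_lit 5) (nat_lit 265) (nat_lit 5) (nat_lit 255) (nat_lit 5) (nat_lit 445) (nat_lit 398) (nat_lit 297)) (XT.lf (nat_lit 0) (nat_lit 1214880273) (nat_lit 684) (nat_lit 4407100218) (nat_lit 760)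 (nat_lit 4851404538) (nat_lit 245) (nat_lit 5) (nat_lit 254) (nat_lit 5) (nat_lit 255) (nat_lit 5) (nat_lit 446) (nat_lit 398) (nat_lit 296))))) (XT.nd (nat_lit 234) (nat_lit 1292) (nat_lit 0) (XT.nd (nat_lit 78) (nat_lit 760) (nat_lit 0) (XT.lf (nat_lit 0) (nat_lit 6738601734) (nat_lit 684) (nat_lit 819438444) (nat_lit 760) (nat_lit 3028495704) (nat_lit 245) (nat_lit 5) (nat_lit 254) (nat_lit 5) (nat_lit 255) (nat_lit 5) (nat_lit 447) (nat_lit 398) (nat_lit 295)) (XT.nd (nat_lit 78) (nat_lit 76) (nat_lit 0) (XT.lf (nat_lit 0) (nat_lit 1652348077) (nat_lit 684) (nat_lit 7889831973) (nat_lit 760) (nat_lit 1159601288) (nat_lit 236) (nat_lit 5) (nat_lit 245) (nat_lit 5) (nat_lit 246) (nat_lit 5) (nat_lit 448) (nat_lit 398) (nat_lit 294)) (XT.lf (nat_lit 0) (nat_lit 748590079) (nat_lit 760) (nat_lit 3536333788) (nat_lit 76) (nat_lit 6534094679) (nat_lit 235) (nat_lit 5) (nat_lit 245) (nat_lit 5) (nat_lit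 236) (nat_lit 5) (nat_lit 449) (nat_lit 398) (nat_lit 293)))) (XT.nd (nat_lit 156) (nat_lit 684) (nat_lit 0) (XT.nd (nat_lit 78) (nat_lit 0) (nat_lit 0) (XT.lf (nat_lit 0) (nat_lit 2085256917) (nat_lit 608) (nat_lit 588393479) (nat_lit 684) (nat_lit 8264929842) (nat_lit 227) (nat_lit 5) (nat_lit 235) (nat_lit 5) (nat_lit 236) (nat_lit 5) (nat_lit 450) (nat_lit 398) (nat_lit 292)) (XT.lf (nat_lit 0) (nat_lit 4662664791) (nat_lit 684) (nat_lit 3235343724) (nat_lit 76) (nat_lit 3162032929) (nat_lit 227) (nat_lit 5) (nat_lit 236) (nat_lit 5) (nat_lit 228) (nat_lit 5) (nat_lit 451) (nat_lit 398) (nat_lit 291))) (XT.nd (nat_lit 78) (nat_lit 0) (nat_lit 0) (XT.lf (nat_lit 0) (nat_lit 2502663569) (nat_lit 684) (nat_lit 4190220873) (nat_lit 760) (nat_lit 4491035929) (nat_lit 218) (nat_lit 5) (nat_lit 227) (nat_lit 5) (nat_lit 228) (nat_lit 5) (nat_lit 452) (nat_lit 398) (nat_lit 290)) (XT.lf (nat_lit 0) (nat_lit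 8378168670) (nat_lit 684) (nat_lit 388760005) (nat_lit 760) (nat_lit 2543300462) (nat_lit 218) (nat_lit 5) (nat_lit 227) (nat_lit 5) (nat_lit 228) (nat_lit 5) (nat_lit 453) (nat_lit 398) (nat_lit 289))))))) (XT.nd (nat_lit 1014) (nat_lit 3268) (nat_lit 0) (XT.nd (nat_lit 468) (nat_lit 2280) (nat_lit 0) (XT.nd (nat_lit 234) (nat_lit 532) (nat_lit 0) (XT.nd (nat_lit 78) (nat_lit 684) (nat_lit 0) (XT.lf (nat_lit 0) (nat_lit 2926787624) (nat_lit 608) (nat_lit 7979175130) (nat_lit 684) (nat_lit 532647481) (nat_lit 210) (nat_lit 5) (nat_lit 218) (nat_lit 5) (nat_lit 219) (nat_lit 5) (nat_lit 454) (nat_lit 398) (nat_lit 288)) (XT.nd (nat_lit 78) (nat_lit 608) (nat_lit 0) (XT.lf (nat_lit 0) (nat_lit 1502627946) (nat_lit 684) (nat_lit 2660353540) (nat_lit 76) (nat_lit 7406309605) (nat_lit 209) (nat_lit 5) (nat_lit 218) (nat_lit 5) (nat_lit 210) (nat_lit 5) (nat_lit 455) (nat_lit 398) (nat_lit 287)) (XT.lf (nat_lit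 0) (nat_lit 3327489964) (nat_lit 608) (nat_lit 247892369) (nat_lit 684) (nat_lit 8127070096) (nat_lit 201) (nat_lit 5) (nat_lit 209) (nat_lit 5) (nat_lit 210) (nat_lit 5) (nat_lit 456) (nat_lit 398) (nat_lit 286)))) (XT.nd (nat_lit 78) (nat_lit 532) (nat_lit 0) (XT.lf (nat_lit 0) (nat_lit 5714368159) (nat_lit 684) (nat_lit 2412180336) (nat_lit 76) (nat_lit 3711248065) (nat_lit 201) (nat_lit 5) (nat_lit 210) (nat_lit 5) (nat_lit 202) (nat_lit 5) (nat_lit 457) (nat_lit 398) (nat_lit 285)) (XT.nd (nat_lit 78) (nat_lit 0) (nat_lit 0) (XT.lf (nat_lit 0) (nat_lit 3696126389) (nat_lit 532) (nat_lit 4208477558) (nat_lit 608) (nat_lit 4071089017) (nat_lit 194) (nat_lit 5) (nat_lit 201) (nat_lit 5) (nat_lit 202) (nat_lit 5) (nat_lit 458) (nat_lit 398) (nat_lit 284)) (XT.lf (nat_lit 0) (nat_lit 9938867547) (nat_lit 532) (nat_lit 198998785) (nat_lit 608) (nat_lit 1978511035) (nat_lit 194) (nat_lit 5) (nat_lit 201)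 (nat_lit 5) (nat_lit 202) (nat_lit 5) (nat_lit 459) (nat_lit 398) (nat_lit 283))))) (XT.nd (nat_lit 234) (nat_lit 1064) (nat_lit 0) (XT.nd (nat_lit 78) (nat_lit 532) (nat_lit 0) (XT.lf (nat_lit 0) (nat_lit 189019367) (nat_lit 684) (nat_lit 8206290249) (nat_lit 76) (nat_lit 3863856624) (nat_lit 185) (nat_lit 5) (nat_lit 194) (nat_lit 5) (nat_lit 186) (nat_lit 5) (nat_lit 460) (nat_lit 398) (nat_lit 282)) (XT.nd (nat_lit 78) (nat_lit 532) (nat_lit 0) (XT.lf (nat_lit 0) (nat_lit 2372877753) (nat_lit 684) (nat_lit 2002103585) (nat_lit 76) (nat_lit 8029592268) (nat_lit 185) (nat_lit 5) (nat_lit 194) (nat_lit 5) (nat_lit 186) (nat_lit 5) (nat_lit 461) (nat_lit 398) (nat_lit 281)) (XT.lf (nat_lit 0) (nat_lit 4363340040) (nat_lit 532) (nat_lit 249146096) (nat_lit 608) (nat_lit 7940174930) (nat_lit 178) (nat_lit 5) (nat_lit 185) (nat_lit 5) (nat_lit 186) (nat_lit 5) (nat_lit 462) (nat_lit 398) (nat_lit 280))))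 (XT.nd (nat_lit 156) (nat_lit 532) (nat_lit 0) (XT.nd (nat_lit 78) (nat_lit 532) (nat_lit 0) (XT.lf (nat_lit 0) (nat_lit 6920024158) (nat_lit 608) (nat_lit 1866235060) (nat_lit 76) (nat_lit 3917001446) (nat_lit 178) (nat_lit 5) (nat_lit 186) (nat_lit 5) (nat_lit 179) (nat_lit 5) (nat_lit 463) (nat_lit 398) (nat_lit 279)) (XT.lf (nat_lit 0) (nat_lit 4622453327) (nat_lit 532) (nat_lit 4667144695) (nat_lit 608) (nat_lit 3566969412) (nat_lit 171) (nat_lit 5) (nat_lit 178) (nat_lit 5) (nat_lit 179) (nat_lit 5) (nat_lit 464) (nat_lit 398) (nat_lit 278))) (XT.nd (nat_lit 78) (nat_lit 532) (nat_lit 0) (XT.lf (nat_lit 0) (nat_lit 11246509644) (nat_lit 532) (nat_lit 456981640) (nat_lit 608) (nat_lit 1309523126) (nat_lit 171) (nat_lit 5) (nat_lit 178) (nat_lit 5) (nat_lit 179) (nat_lit 5) (nat_lit 465) (nat_lit 398) (nat_lit 277)) (XT.lf (nat_lit 0) (nat_lit 1021393032) (nat_lit 532) (nat_lit 8328965082) (nat_lit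 76) (nat_lit 3821288490) (nat_lit 164) (nat_lit 5) (nat_lit 171) (nat_lit 5) (nat_lit 165) (nat_lit 5) (nat_lit 466) (nat_lit 398) (nat_lit 276)))))) (XT.nd (nat_lit 546) (nat_lit 1748) (nat_lit 0) (XT.nd (nat_lit 234) (nat_lit 988) (nat_lit 0) (XT.nd (nat_lit 78) (nat_lit 532) (nat_lit 0) (XT.lf (nat_lit 0) (nat_lit 3381114166) (nat_lit 532) (nat_lit 1756689050) (nat_lit 76) (nat_lit 8195492586) (nat_lit 164) (nat_lit 5) (nat_lit 171) (nat_lit 5) (nat_lit 165) (nat_lit 5) (nat_lit 467) (nat_lit 398) (nat_lit 275)) (XT.nd (nat_lit 78) (nat_lit 0) (nat_lit 0) (XT.lf (nat_lit 0) (nat_lit 4993211074) (nat_lit 532) (nat_lit 812282714) (nat_lit 608) (nat_lit 7692346580) (nat_lit 157) (nat_lit 5) (nat_lit 164) (nat_lit 5) (nat_lit 165) (nat_lit 5) (nat_lit 468) (nat_lit 398) (nat_lit 274)) (XT.lf (nat_lit 0) (nat_lit 8298784330) (nat_lit 608) (nat_lit 1806428391) (nat_lit 76) (nat_lit 3560066077) (nat_lit 157)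 (nat_lit 5) (nat_lit 165) (nat_lit 5) (nat_lit 158) (nat_lit 5) (nat_lit 469) (nat_lit 398) (nat_lit 273)))) (XT.nd (nat_lit 156) (nat_lit 532) (nat_lit 0) (XT.nd (nat_lit 78) (nat_lit 0) (nat_lit 0) (XT.lf (nat_lit 0) (nat_lit 5067743209) (nat_lit 456) (nat_lit 5797955464) (nat_lit 532) (nat_lit 2969903377) (nat_lit 151) (nat_lit 5) (nat_lit 157) (nat_lit 5) (nat_lit 158) (nat_lit 5) (nat_lit 470) (nat_lit 398) (nat_lit 272)) (XT.lf (nat_lit 0) (nat_lit 12084932042) (nat_lit 456) (nat_lit 1396778574) (nat_lit 532) (nat_lit 527676959) (nat_lit 151) (nat_lit 5) (nat_lit 157) (nat_lit 5) (nat_lit 158) (nat_lit 5) (nat_lit 471) (nat_lit 398) (nat_lit 271))) (XT.nd (nat_lit 78) (nat_lit 0) (nat_lit 0) (XT.lf (nat_lit 0) (nat_lit 1976864750) (nat_lit 532) (nat_lit 9115320522) (nat_lit 76) (nat_lit 3093434732) (nat_lit 144) (nat_lit 5) (nat_lit 151) (nat_lit 5) (nat_lit 145) (nat_lit 5) (nat_lit 472) (nat_lit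 398) (nat_lit 270)) (XT.lf (nat_lit 0) (nat_lit 4532630041) (nat_lit 532) (nat_lit 2165830542) (nat_lit 76) (nat_lit 7666693133) (nat_lit 144) (nat_lit 5) (nat_lit 151) (nat_lit 5) (nat_lit 145) (nat_lit 5) (nat_lit 473) (nat_lit 398) (nat_lit 269))))) (XT.nd (nat_lit 234) (nat_lit 836) (nat_lit 0) (XT.nd (nat_lit 78) (nat_lit 456) (nat_lit 0) (XT.lf (nat_lit 0) (nat_lit 4969275530) (nat_lit 456) (nat_lit 2188716503) (nat_lit 532) (nat_lit 7389926599) (nat_lit 138) (nat_lit 5) (nat_lit 144) (nat_lit 5) (nat_lit 145) (nat_lit 5) (nat_lit 474) (nat_lit 398) (nat_lit 268)) (XT.nd (nat_lit 78) (nat_lit 456) (nat_lit 0) (XT.lf (nat_lit 0) (nat_lit 9852483697) (nat_lit 532) (nat_lit 2492033655) (nat_lit 76) (nat_lit 2389499002) (nat_lit 138) (nat_lit 5) (nat_lit 145) (nat_lit 5) (nat_lit 139) (nat_lit 5) (nat_lit 475) (nat_lit 398) (nat_lit 267)) (XT.lf (nat_lit 0) (nat_lit 4766010344) (nat_lit 456) (nat_lit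 7866898726) (nat_lit 532) (nat_lit 2290295847) (nat_lit 132) (nat_lit 5) (nat_lit 138) (nat_lit 5) (nat_lit 139) (nat_lit 5) (nat_lit 476) (nat_lit 398) (nat_lit 266)))) (XT.nd (nat_lit 156) (nat_lit 380) (nat_lit 0) (XT.nd (nat_lit 78) (nat_lit 380) (nat_lit 0) (XT.lf (nat_lit 0) (nat_lit 351625035) (nat_lit 532) (nat_lit 2933624751) (nat_lit 76) (nat_lit 11830821322) (nat_lit 131) (nat_lit 5) (nat_lit 138) (nat_lit 5) (nat_lit 132) (nat_lit 5) (nat_lit 477) (nat_lit 398) (nat_lit 265)) (XT.lf (nat_lit 0) (nat_lit 3040887679) (nat_lit 456) (nat_lit 10861732185) (nat_lit 76) (nat_lit 1409377772) (nat_lit 126) (nat_lit 5) (nat_lit 132) (nat_lit 5) (nat_lit 127) (nat_lit 5) (nat_lit 478) (nat_lit 398) (nat_lit 264))) (XT.nd (nat_lit 78) (nat_lit 380) (nat_lit 0) (XT.lf (nat_lit 0) (nat_lit 5812531006) (nat_lit 456) (nat_lit 3529869603) (nat_lit 76) (nat_lit 6168879196) (nat_lit 126) (nat_lit 5) (nat_lit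 132) (nat_lit 5) (nat_lit 127) (nat_lit 5) (nat_lit 479) (nat_lit 398) (nat_lit 263)) (XT.lf (nat_lit 0) (nat_lit 3983091591) (nat_lit 380) (nat_lit 4669653218) (nat_lit 456) (nat_lit 7061548899) (nat_lit 121) (nat_lit 5) (nat_lit 126) (nat_lit 5) (nat_lit 127) (nat_lit 5) (nat_lit 480) (nat_lit 398) (nat_lit 262))))))))
noncomputable def xc149 : XT := (XT.nd (nat_lit 2106) (nat_lit 1520) (nat_lit 0) (XT.nd (nat_lit 1014) (nat_lit 1900) (nat_lit 0) (XT.nd (nat_lit 468) (nat_lit 1064) (nat_lit 0) (XT.nd (nat_lit 234) (nat_lit 684) (nat_lit 0) (XT.nd (nat_lit 78) (nat_lit 456) (nat_lit 0) (XT.lf (nat_lit 0) (nat_lit 11561612518) (nat_lit 456) (nat_lit 4245405701) (nat_lit 76) (nat_lit 114121346) (nat_lit 121) (nat_lit 5) (nat_lit 127) (nat_lit 5) (nat_lit 122) (nat_lit 5) (nat_lit 481) (nat_lit 398) (nat_lit 261)) (XT.nd (nat_lit 78) (nat_lit 76) (nat_lit 0) (XT.lf (nat_lit 0) (nat_lit 3386053081) (nat_lit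 380) (nat_lit 11183139951) (nat_lit 456) (nat_lit 1562127097) (nat_lit 116) (nat_lit 5) (nat_lit 121) (nat_lit 5) (nat_lit 122) (nat_lit 5) (nat_lit 482) (nat_lit 398) (nat_lit 260)) (XT.lf (nat_lit 0) (nat_lit 1290630126) (nat_lit 456) (nat_lit 5143612126) (nat_lit 76) (nat_lit 9910975676) (nat_lit 115) (nat_lit 5) (nat_lit 121) (nat_lit 5) (nat_lit 116) (nat_lit 5) (nat_lit 483) (nat_lit 398) (nat_lit 259)))) (XT.nd (nat_lit 78) (nat_lit 304) (nat_lit 0) (XT.lf (nat_lit 0) (nat_lit 2616801385) (nat_lit 380) (nat_lit 1567641919) (nat_lit 456) (nat_lit 12378653518) (nat_lit 110) (nat_lit 5) (nat_lit 115) (nat_lit 5) (nat_lit 116) (nat_lit 5) (nat_lit 484) (nat_lit 398) (nat_lit 258)) (XT.nd (nat_lit 78) (nat_lit 304) (nat_lit 0) (XT.lf (nat_lit 0) (nat_lit 7180929052) (nat_lit 456) (nat_lit 6222125585) (nat_lit 76) (nat_lit 3381390584) (nat_lit 110) (nat_lit 5) (nat_lit 116) (nat_lit 5) (nat_lit 111)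 (nat_lit 5) (nat_lit 485) (nat_lit 398) (nat_lit 257)) (XT.lf (nat_lit 0) (nat_lit 1650787238) (nat_lit 304) (nat_lit 8595892708) (nat_lit 380) (nat_lit 6763361631) (nat_lit 106) (nat_lit 5) (nat_lit 110) (nat_lit 5) (nat_lit 111) (nat_lit 5) (nat_lit 486) (nat_lit 398) (nat_lit 256))))) (XT.nd (nat_lit 234) (nat_lit 608) (nat_lit 0) (XT.nd (nat_lit 78) (nat_lit 456) (nat_lit 0) (XT.lf (nat_lit 0) (nat_lit 9748603706) (nat_lit 304) (nat_lit 3655252545) (nat_lit 380) (nat_lit 3835698946) (nat_lit 106) (nat_lit 5) (nat_lit 110) (nat_lit 5) (nat_lit 111) (nat_lit 5) (nat_lit 487) (nat_lit 398) (nat_lit 255)) (XT.nd (nat_lit 78) (nat_lit 76) (nat_lit 0) (XT.lf (nat_lit 0) (nat_lit 515726001) (nat_lit 380) (nat_lit 16109337180) (nat_lit 456) (nat_lit 848585568) (nat_lit 101) (nat_lit 5) (nat_lit 106) (nat_lit 5) (nat_lit 107) (nat_lit 5) (nat_lit 488) (nat_lit 398) (nat_lit 254)) (XT.lf (nat_lit 0) (nat_lit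 2232833105) (nat_lit 456) (nat_lit 8982969030) (nat_lit 76) (nat_lit 6495075819) (nat_lit 100) (nat_lit 5) (nat_lit 106) (nat_lit 5) (nat_lit 101) (nat_lit 5) (nat_lit 489) (nat_lit 398) (nat_lit 253)))) (XT.nd (nat_lit 156) (nat_lit 304) (nat_lit 0) (XT.nd (nat_lit 78) (nat_lit 304) (nat_lit 0) (XT.lf (nat_lit 0) (nat_lit 5353337659) (nat_lit 456) (nat_lit 870622860) (nat_lit 76) (nat_lit 11729009612) (nat_lit 100) (nat_lit 5) (nat_lit 106) (nat_lit 5) (nat_lit 101) (nat_lit 5) (nat_lit 490) (nat_lit 398) (nat_lit 252)) (XT.lf (nat_lit 0) (nat_lit 7485986715) (nat_lit 304) (nat_lit 1087898450) (nat_lit 380) (nat_lit 9625273166) (nat_lit 96) (nat_lit 5) (nat_lit 100) (nat_lit 5) (nat_lit 101) (nat_lit 5) (nat_lit 491) (nat_lit 398) (nat_lit 251))) (XT.nd (nat_lit 78) (nat_lit 304) (nat_lit 0) (XT.lf (nat_lit 0) (nat_lit 11880780941) (nat_lit 380) (nat_lit 2471859836) (nat_lit 76) (nat_lit 4097197472)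 (nat_lit 96) (nat_lit 5) (nat_lit 101) (nat_lit 5) (nat_lit 97) (nat_lit 5) (nat_lit 492) (nat_lit 398) (nat_lit 250)) (XT.lf (nat_lit 0) (nat_lit 5989700729) (nat_lit 304) (nat_lit 9299527239) (nat_lit 380) (nat_lit 3415602100) (nat_lit 92) (nat_lit 5) (nat_lit 96) (nat_lit 5) (nat_lit 97) (nat_lit 5) (nat_lit 493) (nat_lit 398) (nat_lit 249)))))) (XT.nd (nat_lit 546) (nat_lit 912) (nat_lit 0) (XT.nd (nat_lit 234) (nat_lit 608) (nat_lit 0) (XT.nd (nat_lit 78) (nat_lit 380) (nat_lit 0) (XT.lf (nat_lit 0) (nat_lit 14638175184) (nat_lit 304) (nat_lit 4133682513) (nat_lit 380) (nat_lit 192950192) (nat_lit 92) (nat_lit 5) (nat_lit 96) (nat_lit 5) (nat_lit 97) (nat_lit 5) (nat_lit 494) (nat_lit 398) (nat_lit 248)) (XT.nd (nat_lit 78) (nat_lit 0) (nat_lit 0) (XT.lf (nat_lit 0) (nat_lit 3078378610) (nat_lit 380) (nat_lit 14987280464) (nat_lit 76) (nat_lit 1163434514) (nat_lit 87) (nat_lit 5) (nat_lit 92) (nat_lit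 5) (nat_lit 88) (nat_lit 5) (nat_lit 495) (nat_lit 398) (nat_lit 247)) (XT.lf (nat_lit 0) (nat_lit 6458783021) (nat_lit 380) (nat_lit 6502387908) (nat_lit 76) (nat_lit 6536549980) (nat_lit 87) (nat_lit 5) (nat_lit 92) (nat_lit 5) (nat_lit 88) (nat_lit 5) (nat_lit 496) (nat_lit 398) (nat_lit 246)))) (XT.nd (nat_lit 156) (nat_lit 304) (nat_lit 0) (XT.nd (nat_lit 78) (nat_lit 0) (nat_lit 0) (XT.lf (nat_lit 0) (nat_lit 2165173023) (nat_lit 304) (nat_lit 7745512175) (nat_lit 380) (nat_lit 9860963735) (nat_lit 83) (nat_lit 5) (nat_lit 87) (nat_lit 5) (nat_lit 88) (nat_lit 5) (nat_lit 497) (nat_lit 398) (nat_lit 245)) (XT.lf (nat_lit 0) (nat_lit 11078902133) (nat_lit 304) (nat_lit 2386289547) (nat_lit 380) (nat_lit 6585198346) (nat_lit 83) (nat_lit 5) (nat_lit 87) (nat_lit 5) (nat_lit 88) (nat_lit 5) (nat_lit 498) (nat_lit 398) (nat_lit 244))) (XT.nd (nat_lit 78) (nat_lit 304) (nat_lit 0) (XT.lf (nat_lit 0)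 (nat_lit 17100882230) (nat_lit 380) (nat_lit 198992096) (nat_lit 76) (nat_lit 3034635456) (nat_lit 83) (nat_lit 5) (nat_lit 88) (nat_lit 5) (nat_lit 84) (nat_lit 5) (nat_lit 499) (nat_lit 398) (nat_lit 243)) (XT.lf (nat_lit 0) (nat_lit 246413498) (nat_lit 304) (nat_lit 11790554187) (nat_lit 76) (nat_lit 8586048429) (nat_lit 79) (nat_lit 5) (nat_lit 83) (nat_lit 5) (nat_lit 80) (nat_lit 5) (nat_lit 500) (nat_lit 398) (nat_lit 242))))) (XT.nd (nat_lit 234) (nat_lit 608) (nat_lit 0) (XT.nd (nat_lit 78) (nat_lit 304) (nat_lit 0) (XT.lf (nat_lit 0) (nat_lit 3744456938) (nat_lit 304) (nat_lit 2906379031) (nat_lit 76) (nat_lit 14266200511) (nat_lit 79) (nat_lit 5) (nat_lit 83) (nat_lit 5) (nat_lit 80) (nat_lit 5) (nat_lit 501) (nat_lit 398) (nat_lit 241)) (XT.nd (nat_lit 78) (nat_lit 0) (nat_lit 0) (XT.lf (nat_lit 0) (nat_lit 6222448957) (nat_lit 304) (nat_lit 1120917636) (nat_lit 380) (nat_lit 13872957838)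 (nat_lit 75) (nat_lit 5) (nat_lit 79) (nat_lit 5) (nat_lit 80) (nat_lit 5) (nat_lit 502) (nat_lit 398) (nat_lit 240)) (XT.lf (nat_lit 0) (nat_lit 11053794633) (nat_lit 380) (nat_lit 5992134002) (nat_lit 76) (nat_lit 4474883882) (nat_lit 75) (nat_lit 5) (nat_lit 80) (nat_lit 5) (nat_lit 76) (nat_lit 5) (nat_lit 503) (nat_lit 398) (nat_lit 239)))) (XT.nd (nat_lit 156) (nat_lit 380) (nat_lit 0) (XT.nd (nat_lit 78) (nat_lit 0) (nat_lit 0) (XT.lf (nat_lit 0) (nat_lit 3209902976) (nat_lit 228) (nat_lit 11647540864) (nat_lit 304) (nat_lit 6973571351) (nat_lit 72) (nat_lit 5) (nat_lit 75) (nat_lit 5) (nat_lit 76) (nat_lit 5) (nat_lit 504) (nat_lit 398) (nat_lit 238)) (XT.lf (nat_lit 0) (nat_lit 12662886000) (nat_lit 228) (nat_lit 6105327327) (nat_lit 304) (nat_lit 3378592625) (nat_lit 72) (nat_lit 5) (nat_lit 75) (nat_lit 5) (nat_lit 76) (nat_lit 5) (nat_lit 505) (nat_lit 398) (nat_lit 237))) (XT.nd (nat_lit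 78) (nat_lit 304) (nat_lit 0) (XT.lf (nat_lit 0) (nat_lit 275457036) (nat_lit 304) (nat_lit 180019482) (nat_lit 76) (nat_lit 22013584315) (nat_lit 71) (nat_lit 5) (nat_lit 75) (nat_lit 5) (nat_lit 72) (nat_lit 5) (nat_lit 506) (nat_lit 398) (nat_lit 236)) (XT.lf (nat_lit 0) (nat_lit 4044510115) (nat_lit 380) (nat_lit 13434313222) (nat_lit 76) (nat_lit 5316752282) (nat_lit 67) (nat_lit 5) (nat_lit 72) (nat_lit 5) (nat_lit 68) (nat_lit 5) (nat_lit 507) (nat_lit 398) (nat_lit 235))))))) (XT.nd (nat_lit 1092) (nat_lit 228) (nat_lit 0) (XT.nd (nat_lit 546) (nat_lit 532) (nat_lit 0) (XT.nd (nat_lit 234) (nat_lit 532) (nat_lit 0) (XT.nd (nat_lit 78) (nat_lit 228) (nat_lit 0) (XT.lf (nat_lit 0) (nat_lit 7884358210) (nat_lit 380) (nat_lit 4049753428) (nat_lit 76) (nat_lit 11194605383) (nat_lit 67) (nat_lit 5) (nat_lit 72) (nat_lit 5) (nat_lit 68) (nat_lit 5) (nat_lit 508) (nat_lit 398) (nat_lit 234)) (XT.nd (nat_lit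 78) (nat_lit 0) (nat_lit 0) (XT.lf (nat_lit 0) (nat_lit 5582037759) (nat_lit 228) (nat_lit 6246562239) (nat_lit 304) (nat_lit 11639373829) (nat_lit 64) (nat_lit 5) (nat_lit 67) (nat_lit 5) (nat_lit 68) (nat_lit 5) (nat_lit 509) (nat_lit 398) (nat_lit 233)) (XT.lf (nat_lit 0) (nat_lit 15447780944) (nat_lit 228) (nat_lit 422557449) (nat_lit 304) (nat_lit 7943309561) (nat_lit 64) (nat_lit 5) (nat_lit 67) (nat_lit 5) (nat_lit 68) (nat_lit 5) (nat_lit 510) (nat_lit 398) (nat_lit 232)))) (XT.nd (nat_lit 156) (nat_lit 304) (nat_lit 0) (XT.nd (nat_lit 78) (nat_lit 0) (nat_lit 0) (XT.lf (nat_lit 0) (nat_lit 1312538179) (nat_lit 228) (nat_lit 18716293086) (nat_lit 304) (nat_lit 4136690239) (nat_lit 61) (nat_lit 5) (nat_lit 64) (nat_lit 5) (nat_lit 65) (nat_lit 5) (nat_lit 511) (nat_lit 398) (nat_lit 231)) (XT.lf (nat_lit 0) (nat_lit 11281712551) (nat_lit 228) (nat_lit 13039351081) (nat_lit 304) (nat_lit 202361750)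 (nat_lit 61) (nat_lit 5) (nat_lit 64) (nat_lit 5) (nat_lit 65) (nat_lit 5) (nat_lit 512) (nat_lit 398) (nat_lit 230))) (XT.nd (nat_lit 78) (nat_lit 228) (nat_lit 0) (XT.lf (nat_lit 0) (nat_lit 3752431582) (nat_lit 304) (nat_lit 3476174677) (nat_lit 76) (nat_lit 17659555224) (nat_lit 60) (nat_lit 5) (nat_lit 64) (nat_lit 5) (nat_lit 61) (nat_lit 5) (nat_lit 513) (nat_lit 398) (nat_lit 229)) (XT.lf (nat_lit 0) (nat_lit 6556364685) (nat_lit 228) (nat_lit 1261734606) (nat_lit 304) (nat_lit 17441380506) (nat_lit 57) (nat_lit 5) (nat_lit 60) (nat_lit 5) (nat_lit 61) (nat_lit 5) (nat_lit 514) (nat_lit 398) (nat_lit 228))))) (XT.nd (nat_lit 234) (nat_lit 304) (nat_lit 0) (XT.nd (nat_lit 78) (nat_lit 228) (nat_lit 0) (XT.lf (nat_lit 0) (nat_lit 12011846147) (nat_lit 304) (nat_lit 8845565377) (nat_lit 76) (nat_lit 4779881561) (nat_lit 57) (nat_lit 5) (nat_lit 61) (nat_lit 5) (nat_lit 58) (nat_lit 5) (nat_lit 515)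 (nat_lit 398) (nat_lit 227)) (XT.nd (nat_lit 78) (nat_lit 0) (nat_lit 0) (XT.lf (nat_lit 0) (nat_lit 1203818210) (nat_lit 228) (nat_lit 15093939867) (nat_lit 304) (nat_lit 9724742610) (nat_lit 54) (nat_lit 5) (nat_lit 57) (nat_lit 5) (nat_lit 58) (nat_lit 5) (nat_lit 516) (nat_lit 398) (nat_lit 226)) (XT.lf (nat_lit 0) (nat_lit 11561427740) (nat_lit 228) (nat_lit 9159509508) (nat_lit 304) (nat_lit 5693447985) (nat_lit 54) (nat_lit 5) (nat_lit 57) (nat_lit 5) (nat_lit 58) (nat_lit 5) (nat_lit 517) (nat_lit 398) (nat_lit 225)))) (XT.nd (nat_lit 156) (nat_lit 0) (nat_lit 0) (XT.nd (nat_lit 78) (nat_lit 304) (nat_lit 0) (XT.lf (nat_lit 0) (nat_lit 22113772111) (nat_lit 228) (nat_lit 3111151620) (nat_lit 304) (nat_lit 1589340565) (nat_lit 54) (nat_lit 5) (nat_lit 57) (nat_lit 5) (nat_lit 58) (nat_lit 5) (nat_lit 518) (nat_lit 398) (nat_lit 224)) (XT.lf (nat_lit 0) (nat_lit 2612425647) (nat_lit 304) (nat_lit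 21540750945) (nat_lit 76) (nat_lit 3067637999) (nat_lit 50) (nat_lit 5) (nat_lit 54) (nat_lit 5) (nat_lit 51) (nat_lit 5) (nat_lit 519) (nat_lit 398) (nat_lit 223))) (XT.nd (nat_lit 78) (nat_lit 0) (nat_lit 0) (XT.lf (nat_lit 0) (nat_lit 6921800165) (nat_lit 304) (nat_lit 11346575861) (nat_lit 76) (nat_lit 9366016157) (nat_lit 50) (nat_lit 5) (nat_lit 54) (nat_lit 5) (nat_lit 51) (nat_lit 5) (nat_lit 520) (nat_lit 398) (nat_lit 222)) (XT.lf (nat_lit 0) (nat_lit 11309988678) (nat_lit 304) (nat_lit 960595557) (nat_lit 76) (nat_lit 15785807977) (nat_lit 50) (nat_lit 5) (nat_lit 54) (nat_lit 5) (nat_lit 51) (nat_lit 5) (nat_lit 521) (nat_lit 398) (nat_lit 221)))))) (XT.nd (nat_lit 50154) (nat_lit 0) (nat_lit 31616) (XT.nd (nat_lit 49842) (nat_lit 0) (nat_lit 33820) (XT.nd (nat_lit 78) (nat_lit 0) (nat_lit 0) (XT.lf (nat_lit 0) (nat_lit 9749124418) (nat_lit 228) (nat_lit 6092885409) (nat_lit 304) (nat_lit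 12643704391) (nat_lit 47) (nat_lit 5) (nat_lit 50) (nat_lit 5) (nat_lit 51) (nat_lit 5) (nat_lit 522) (nat_lit 398) (nat_lit 220)) (XT.nd (nat_lit 49686) (nat_lit 0) (nat_lit 34884) (XT.lf (nat_lit 0) (nat_lit 20465319634) (nat_lit 304) (nat_lit 8250709610) (nat_lit 76) (nat_lit 207583738) (nat_lit 47) (nat_lit 5) (nat_lit 51) (nat_lit 5) (nat_lit 48) (nat_lit 5) (nat_lit 523) (nat_lit 398) (nat_lit 219)) (XT.lf (nat_lit 0) (nat_lit 1248422415) (nat_lit 0) (nat_lit 1248422415) (nat_lit 988) (nat_lit 1078291790) (nat_lit 506) (nat_lit 5) (nat_lit 506) (nat_lit 3) (nat_lit 519) (nat_lit 3) (nat_lit 399) (nat_lit 399) (nat_lit 342)))) (XT.nd (nat_lit 156) (nat_lit 0) (nat_lit 0) (XT.nd (nat_lit 78) (nat_lit 1064) (nat_lit 0) (XT.lf (nat_lit 0) (nat_lit 5762355623) (nat_lit 0) (nat_lit 857039703) (nat_lit 988) (nat_lit 568739237) (nat_lit 506) (nat_lit 5) (nat_lit 506) (nat_lit 3) (nat_lit 519) (nat_lit 3)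 (nat_lit 400) (nat_lit 399) (nat_lit 341)) (XT.lf (nat_lit 0) (nat_lit 1013065063) (nat_lit 1064) (nat_lit 5370059306) (nat_lit 1140) (nat_lit 844027251) (nat_lit 492) (nat_lit 5) (nat_lit 506) (nat_lit 5) (nat_lit 507) (nat_lit 5) (nat_lit 401) (nat_lit 399) (nat_lit 340))) (XT.nd (nat_lit 78) (nat_lit 0) (nat_lit 0) (XT.lf (nat_lit 0) (nat_lit 2593350791) (nat_lit 1064) (nat_lit 2073452431) (nat_lit 1140) (nat_lit 2600634995) (nat_lit 492) (nat_lit 5) (nat_lit 506) (nat_lit 5) (nat_lit 507) (nat_lit 5) (nat_lit 402) (nat_lit 399) (nat_lit 339)) (XT.lf (nat_lit 76) (nat_lit 1284226537) (nat_lit 0) (nat_lit 2889301582) (nat_lit 1140) (nat_lit 3135689259) (nat_lit 493) (nat_lit 5) (nat_lit 492) (nat_lit 5) (nat_lit 507) (nat_lit 5) (nat_lit 403) (nat_lit 399) (nat_lit 338))))) (XT.nd (nat_lit 234) (nat_lit 1140) (nat_lit 0) (XT.nd (nat_lit 78) (nat_lit 1064) (nat_lit 0) (XT.lf (nat_lit 76) (nat_lit 4715605154)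 (nat_lit 0) (nat_lit 1044210985) (nat_lit 1140) (nat_lit 1592577360) (nat_lit 493) (nat_lit 5) (nat_lit 492) (nat_lit 5) (nat_lit 507) (nat_lit 5) (nat_lit 404) (nat_lit 399) (nat_lit 337)) (XT.nd (nat_lit 78) (nat_lit 1140) (nat_lit 0) (XT.lf (nat_lit 76) (nat_lit 802185403) (nat_lit 0) (nat_lit 6547771741) (nat_lit 1140) (nat_lit 47083964) (nat_lit 494) (nat_lit 5) (nat_lit 493) (nat_lit 5) (nat_lit 508) (nat_lit 5) (nat_lit 405) (nat_lit 399) (nat_lit 336)) (XT.lf (nat_lit 0) (nat_lit 1495781209) (nat_lit 1140) (nat_lit 3135993888) (nat_lit 1216) (nat_lit 2810926148) (nat_lit 478) (nat_lit 5) (nat_lit 493) (nat_lit 5) (nat_lit 494) (nat_lit 5) (nat_lit 406) (nat_lit 399) (nat_lit 335)))) (XT.nd (nat_lit 156) (nat_lit 1140) (nat_lit 0) (XT.nd (nat_lit 78) (nat_lit 0) (nat_lit 0) (XT.lf (nat_lit 76) (nat_lit 374601959) (nat_lit 0) (nat_lit 2659245679) (nat_lit 1216) (nat_lit 4456168831) (nat_lit 479)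 (nat_lit 5) (nat_lit 478) (nat_lit 5) (nat_lit 494) (nat_lit 5) (nat_lit 407) (nat_lit 399) (nat_lit 334)) (XT.lf (nat_lit 76) (nat_lit 3976019613) (nat_lit 0) (nat_lit 610833899) (nat_lit 1216) (nat_lit 2951787588) (nat_lit 479) (nat_lit 5) (nat_lit 478) (nat_lit 5) (nat_lit 494) (nat_lit 5) (nat_lit 408) (nat_lit 399) (nat_lit 333))) (XT.nd (nat_lit 78) (nat_lit 1216) (nat_lit 0) (XT.lf (nat_lit 76) (nat_lit 29683178) (nat_lit 0) (nat_lit 6114980826) (nat_lit 1216) (nat_lit 1444145076) (nat_lit 480) (nat_lit 5) (nat_lit 479) (nat_lit 5) (nat_lit 495) (nat_lit 5) (nat_lit 409) (nat_lit 399) (nat_lit 332)) (XT.lf (nat_lit 0) (nat_lit 84768276) (nat_lit 1216) (nat_lit 3924893837) (nat_lit 1292) (nat_lit 3630503192) (nat_lit 463) (nat_lit 5) (nat_lit 479) (nat_lit 5) (nat_lit 480) (nat_lit 5) (nat_lit 410) (nat_lit 399) (nat_lit 331))))))))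
noncomputable def xc150 : XT := (XT.nd (nat_lit 2106) (nat_lit 9424) (nat_lit 0) (XT.nd (nat_lit 1014) (nat_lit 10336) (nat_lit 0) (XT.nd (nat_lit 468) (nat_lit 1292) (nat_lit 0) (XT.nd (nat_lit 234) (nat_lit 1140) (nat_lit 0) (XT.nd (nat_lit 78) (nat_lit 0) (nat_lit 76) (XT.lf (nat_lit 0) (nat_lit 1589877716) (nat_lit 1216) (nat_lit 249801933) (nat_lit 1292) (nat_lit 5853422103) (nat_lit 463) (nat_lit 5) (nat_lit 479) (nat_lit 5) (nat_lit 480) (nat_lit 5) (nat_lit 411) (nat_lit 399) (nat_lit 330)) (XT.nd (nat_lit 78) (nat_lit 0) (nat_lit 0) (XT.lf (nat_lit 0) (nat_lit 3116247793) (nat_lit 1216) (nat_lit 4226854073) (nat_lit 1292) (nat_lit 404214155) (nat_lit 464) (nat_lit 5) (nat_lit 480) (nat_lit 5) (nat_lit 481) (nat_lit 5) (nat_lit 412) (nat_lit 399) (nat_lit 329)) (XT.lf (nat_lit 0) (nat_lit 4653252570) (nat_lit 1216) (nat_lit 467736322) (nat_lit 1292) (nat_lit 2682064974) (nat_lit 464) (nat_lit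 5) (nat_lit 480) (nat_lit 5) (nat_lit 481) (nat_lit 5) (nat_lit 413) (nat_lit 399) (nat_lit 328)))) (XT.nd (nat_lit 78) (nat_lit 1216) (nat_lit 0) (XT.lf (nat_lit 76) (nat_lit 3388973427) (nat_lit 0) (nat_lit 2820926092) (nat_lit 1292) (nat_lit 1650269530) (nat_lit 465) (nat_lit 5) (nat_lit 464) (nat_lit 5) (nat_lit 481) (nat_lit 5) (nat_lit 414) (nat_lit 399) (nat_lit 327)) (XT.nd (nat_lit 78) (nat_lit 1216) (nat_lit 0) (XT.lf (nat_lit 76) (nat_lit 7307265290) (nat_lit 0) (nat_lit 460958394) (nat_lit 1292) (nat_lit 150831792) (nat_lit 465) (nat_lit 5) (nat_lit 464) (nat_lit 5) (nat_lit 481) (nat_lit 5) (nat_lit 415) (nat_lit 399) (nat_lit 326)) (XT.lf (nat_lit 0) (nat_lit 1362884786) (nat_lit 1292) (nat_lit 4654397455) (nat_lit 1368) (nat_lit 1961649245) (nat_lit 448) (nat_lit 5) (nat_lit 465) (nat_lit 5) (nat_lit 466) (nat_lit 5) (nat_lit 416) (nat_lit 399) (nat_lit 325))))) (XT.nd (nat_lit 234) (nat_lit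 1292) (nat_lit 0) (XT.nd (nat_lit 78) (nat_lit 0) (nat_lit 0) (XT.lf (nat_lit 0) (nat_lit 2880392255) (nat_lit 1292) (nat_lit 718645399) (nat_lit 1368) (nat_lit 4441474226) (nat_lit 448) (nat_lit 5) (nat_lit 465) (nat_lit 5) (nat_lit 466) (nat_lit 5) (nat_lit 417) (nat_lit 399) (nat_lit 324)) (XT.nd (nat_lit 78) (nat_lit 0) (nat_lit 76) (XT.lf (nat_lit 76) (nat_lit 3317248176) (nat_lit 0) (nat_lit 1101509063) (nat_lit 1368) (nat_lit 3684793290) (nat_lit 449) (nat_lit 5) (nat_lit 448) (nat_lit 5) (nat_lit 466) (nat_lit 5) (nat_lit 418) (nat_lit 399) (nat_lit 323)) (XT.lf (nat_lit 0) (nat_lit 5971623792) (nat_lit 1292) (nat_lit 756210540) (nat_lit 1368) (nat_lit 1440377006) (nat_lit 449) (nat_lit 5) (nat_lit 466) (nat_lit 5) (nat_lit 467) (nat_lit 5) (nat_lit 419) (nat_lit 399) (nat_lit 322)))) (XT.nd (nat_lit 156) (nat_lit 0) (nat_lit 76) (XT.nd (nat_lit 78) (nat_lit 1368) (nat_lit 0) (XT.lf (nat_lit 76)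 (nat_lit 3369181697) (nat_lit 0) (nat_lit 4185625552) (nat_lit 1368) (nat_lit 679408287) (nat_lit 450) (nat_lit 5) (nat_lit 449) (nat_lit 5) (nat_lit 467) (nat_lit 5) (nat_lit 420) (nat_lit 399) (nat_lit 321)) (XT.lf (nat_lit 0) (nat_lit 832141066) (nat_lit 1368) (nat_lit 742252595) (nat_lit 1444) (nat_lit 6727559180) (nat_lit 431) (nat_lit 5) (nat_lit 449) (nat_lit 5) (nat_lit 450) (nat_lit 5) (nat_lit 421) (nat_lit 399) (nat_lit 320))) (XT.nd (nat_lit 78) (nat_lit 0) (nat_lit 0) (XT.lf (nat_lit 0) (nat_lit 2365623332) (nat_lit 1368) (nat_lit 4896297241) (nat_lit 76) (nat_lit 1109051843) (nat_lit 432) (nat_lit 5) (nat_lit 450) (nat_lit 5) (nat_lit 433) (nat_lit 5) (nat_lit 422) (nat_lit 399) (nat_lit 319)) (XT.lf (nat_lit 0) (nat_lit 3916574515) (nat_lit 1368) (nat_lit 688270760) (nat_lit 76) (nat_lit 3836823794) (nat_lit 432) (nat_lit 5) (nat_lit 450) (nat_lit 5) (nat_lit 433) (nat_lit 5) (nat_lit 423)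 (nat_lit 399) (nat_lit 318)))))) (XT.nd (nat_lit 546) (nat_lit 4408) (nat_lit 0) (XT.nd (nat_lit 234) (nat_lit 3116) (nat_lit 0) (XT.nd (nat_lit 78) (nat_lit 1520) (nat_lit 0) (XT.lf (nat_lit 0) (nat_lit 3629417205) (nat_lit 1368) (nat_lit 1864612621) (nat_lit 1444) (nat_lit 3019872159) (nat_lit 414) (nat_lit 5) (nat_lit 432) (nat_lit 5) (nat_lit 433) (nat_lit 5) (nat_lit 424) (nat_lit 399) (nat_lit 317)) (XT.nd (nat_lit 78) (nat_lit 1520) (nat_lit 0) (XT.lf (nat_lit 0) (nat_lit 7086090103) (nat_lit 1444) (nat_lit 573346148) (nat_lit 76) (nat_lit 928513592) (nat_lit 414) (nat_lit 5) (nat_lit 433) (nat_lit 5) (nat_lit 415) (nat_lit 5) (nat_lit 425) (nat_lit 399) (nat_lit 316)) (XT.lf (nat_lit 0) (nat_lit 56127077) (nat_lit 1520) (nat_lit 4823780627) (nat_lit 76) (nat_lit 3783390616) (nat_lit 394) (nat_lit 5) (nat_lit 414) (nat_lit 5) (nat_lit 395) (nat_lit 5) (nat_lit 426) (nat_lit 399) (nat_lit 315))))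 (XT.nd (nat_lit 156) (nat_lit 1596) (nat_lit 0) (XT.nd (nat_lit 78) (nat_lit 1520) (nat_lit 0) (XT.lf (nat_lit 0) (nat_lit 1602144822) (nat_lit 1520) (nat_lit 424012719) (nat_lit 76) (nat_lit 6714287650) (nat_lit 394) (nat_lit 5) (nat_lit 414) (nat_lit 5) (nat_lit 395) (nat_lit 5) (nat_lit 427) (nat_lit 399) (nat_lit 314)) (XT.lf (nat_lit 0) (nat_lit 3185239641) (nat_lit 1596) (nat_lit 4729580814) (nat_lit 76) (nat_lit 904220418) (nat_lit 374) (nat_lit 5) (nat_lit 395) (nat_lit 5) (nat_lit 375) (nat_lit 5) (nat_lit 428) (nat_lit 399) (nat_lit 313))) (XT.nd (nat_lit 78) (nat_lit 1596) (nat_lit 0) (XT.lf (nat_lit 0) (nat_lit 4790299023) (nat_lit 1596) (nat_lit 236006683) (nat_lit 76) (nat_lit 3873125155) (nat_lit 374) (nat_lit 5) (nat_lit 395) (nat_lit 5) (nat_lit 375) (nat_lit 5) (nat_lit 429) (nat_lit 399) (nat_lit 312)) (XT.lf (nat_lit 0) (nat_lit 4382993350) (nat_lit 1596) (nat_lit 2047453161) (nat_lit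 1672) (nat_lit 2550950284) (nat_lit 353) (nat_lit 5) (nat_lit 374) (nat_lit 5) (nat_lit 375) (nat_lit 5) (nat_lit 430) (nat_lit 399) (nat_lit 311))))) (XT.nd (nat_lit 234) (nat_lit 1672) (nat_lit 0) (XT.nd (nat_lit 78) (nat_lit 1064) (nat_lit 0) (XT.lf (nat_lit 0) (nat_lit 3872120) (nat_lit 1672) (nat_lit 8082487462) (nat_lit 1748) (nat_lit 979010550) (nat_lit 331) (nat_lit 5) (nat_lit 353) (nat_lit 5) (nat_lit 354) (nat_lit 5) (nat_lit 431) (nat_lit 399) (nat_lit 310)) (XT.nd (nat_lit 78) (nat_lit 988) (nat_lit 0) (XT.lf (nat_lit 0) (nat_lit 635867431) (nat_lit 1748) (nat_lit 4430244396) (nat_lit 76) (nat_lit 4084462546) (nat_lit 330) (nat_lit 5) (nat_lit 353) (nat_lit 5) (nat_lit 331) (nat_lit 5) (nat_lit 432) (nat_lit 399) (nat_lit 309)) (XT.lf (nat_lit 0) (nat_lit 268568276) (nat_lit 988) (nat_lit 1978677406) (nat_lit 1064) (nat_lit 6990587121) (nat_lit 317) (nat_lit 5) (nat_lit 330) (nat_lit 5) (nat_lit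 331) (nat_lit 5) (nat_lit 433) (nat_lit 399) (nat_lit 308)))) (XT.nd (nat_lit 156) (nat_lit 836) (nat_lit 0) (XT.nd (nat_lit 78) (nat_lit 836) (nat_lit 0) (XT.lf (nat_lit 0) (nat_lit 3904283709) (nat_lit 1064) (nat_lit 4235108820) (nat_lit 76) (nat_lit 1187200485) (nat_lit 317) (nat_lit 5) (nat_lit 331) (nat_lit 5) (nat_lit 318) (nat_lit 5) (nat_lit 434) (nat_lit 399) (nat_lit 307)) (XT.lf (nat_lit 0) (nat_lit 566009541) (nat_lit 836) (nat_lit 5021610468) (nat_lit 912) (nat_lit 3829670029) (nat_lit 306) (nat_lit 5) (nat_lit 317) (nat_lit 5) (nat_lit 318) (nat_lit 5) (nat_lit 435) (nat_lit 399) (nat_lit 306))) (XT.nd (nat_lit 78) (nat_lit 836) (nat_lit 0) (XT.lf (nat_lit 0) (nat_lit 5498663331) (nat_lit 836) (nat_lit 1811079299) (nat_lit 912) (nat_lit 2199980257) (nat_lit 306) (nat_lit 5) (nat_lit 317) (nat_lit 5) (nat_lit 318) (nat_lit 5) (nat_lit 436) (nat_lit 399) (nat_lit 305)) (XT.lf (nat_lit 0) (nat_lit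 906395017) (nat_lit 836) (nat_lit 8152466269) (nat_lit 912) (nat_lit 545315834) (nat_lit 295) (nat_lit 5) (nat_lit 306) (nat_lit 5) (nat_lit 307) (nat_lit 5) (nat_lit 437) (nat_lit 399) (nat_lit 304))))))) (XT.nd (nat_lit 1092) (nat_lit 4256) (nat_lit 0) (XT.nd (nat_lit 546) (nat_lit 2812) (nat_lit 0) (XT.nd (nat_lit 234) (nat_lit 1520) (nat_lit 0) (XT.nd (nat_lit 78) (nat_lit 760) (nat_lit 0) (XT.lf (nat_lit 0) (nat_lit 1143846521) (nat_lit 912) (nat_lit 3765137473) (nat_lit 76) (nat_lit 4791083210) (nat_lit 294) (nat_lit 5) (nat_lit 306) (nat_lit 5) (nat_lit 295) (nat_lit 5) (nat_lit 438) (nat_lit 399) (nat_lit 303)) (XT.nd (nat_lit 78) (nat_lit 0) (nat_lit 0) (XT.lf (nat_lit 0) (nat_lit 1257337558) (nat_lit 760) (nat_lit 1588067690) (nat_lit 836) (nat_lit 6952701881) (nat_lit 284) (nat_lit 5) (nat_lit 294) (nat_lit 5) (nat_lit 295) (nat_lit 5) (nat_lit 439) (nat_lit 399) (nat_lit 302)) (XT.lf (nat_lit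 0) (nat_lit 4596154178) (nat_lit 836) (nat_lit 3500174700) (nat_lit 76) (nat_lit 1801497779) (nat_lit 284) (nat_lit 5) (nat_lit 295) (nat_lit 5) (nat_lit 285) (nat_lit 5) (nat_lit 440) (nat_lit 399) (nat_lit 301)))) (XT.nd (nat_lit 156) (nat_lit 760) (nat_lit 0) (XT.nd (nat_lit 78) (nat_lit 0) (nat_lit 0) (XT.lf (nat_lit 0) (nat_lit 1630508960) (nat_lit 760) (nat_lit 4750986609) (nat_lit 836) (nat_lit 3618075014) (nat_lit 274) (nat_lit 5) (nat_lit 284) (nat_lit 5) (nat_lit 285) (nat_lit 5) (nat_lit 441) (nat_lit 399) (nat_lit 300)) (XT.lf (nat_lit 0) (nat_lit 6889803606) (nat_lit 760) (nat_lit 1314985147) (nat_lit 836) (nat_lit 1898536869) (nat_lit 274) (nat_lit 5) (nat_lit 284) (nat_lit 5) (nat_lit 285) (nat_lit 5) (nat_lit 442) (nat_lit 399) (nat_lit 299))) (XT.nd (nat_lit 78) (nat_lit 76) (nat_lit 0) (XT.lf (nat_lit 0) (nat_lit 2036151799) (nat_lit 684) (nat_lit 8035005444) (nat_lit 760) (nat_lit 137887048)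 (nat_lit 265) (nat_lit 5) (nat_lit 274) (nat_lit 5) (nat_lit 275) (nat_lit 5) (nat_lit 443) (nat_lit 399) (nat_lit 298)) (XT.lf (nat_lit 0) (nat_lit 1645932793) (nat_lit 760) (nat_lit 2923300663) (nat_lit 76) (nat_lit 5747254465) (nat_lit 264) (nat_lit 5) (nat_lit 274) (nat_lit 5) (nat_lit 265) (nat_lit 5) (nat_lit 444) (nat_lit 399) (nat_lit 297))))) (XT.nd (nat_lit 234) (nat_lit 1368) (nat_lit 0) (XT.nd (nat_lit 78) (nat_lit 684) (nat_lit 0) (XT.lf (nat_lit 0) (nat_lit 2441192558) (nat_lit 760) (nat_lit 1017933821) (nat_lit 836) (nat_lit 6967044466) (nat_lit 254) (nat_lit 5) (nat_lit 264) (nat_lit 5) (nat_lit 265) (nat_lit 5) (nat_lit 445) (nat_lit 399) (nat_lit 296)) (XT.nd (nat_lit 78) (nat_lit 684) (nat_lit 0) (XT.lf (nat_lit 0) (nat_lit 5325187114) (nat_lit 836) (nat_lit 2623560745) (nat_lit 76) (nat_lit 2588986645) (nat_lit 254) (nat_lit 5) (nat_lit 265) (nat_lit 5) (nat_lit 255) (nat_lit 5) (nat_lit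 446) (nat_lit 399) (nat_lit 295)) (XT.lf (nat_lit 0) (nat_lit 2854737143) (nat_lit 684) (nat_lit 4379448283) (nat_lit 760) (nat_lit 3417250448) (nat_lit 245) (nat_lit 5) (nat_lit 254) (nat_lit 5) (nat_lit 255) (nat_lit 5) (nat_lit 447) (nat_lit 399) (nat_lit 294)))) (XT.nd (nat_lit 156) (nat_lit 608) (nat_lit 0) (XT.nd (nat_lit 78) (nat_lit 760) (nat_lit 0) (XT.lf (nat_lit 0) (nat_lit 8457255400) (nat_lit 684) (nat_lit 722303743) (nat_lit 760) (nat_lit 1587906617) (nat_lit 245) (nat_lit 5) (nat_lit 254) (nat_lit 5) (nat_lit 255) (nat_lit 5) (nat_lit 448) (nat_lit 399) (nat_lit 293)) (XT.lf (nat_lit 0) (nat_lit 296348018) (nat_lit 760) (nat_lit 7598624693) (nat_lit 76) (nat_lit 2990385708) (nat_lit 235) (nat_lit 5) (nat_lit 245) (nat_lit 5) (nat_lit 236) (nat_lit 5) (nat_lit 449) (nat_lit 399) (nat_lit 292))) (XT.nd (nat_lit 78) (nat_lit 608) (nat_lit 0) (XT.lf (nat_lit 0) (nat_lit 2198492063) (nat_lit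 760) (nat_lit 2014788155) (nat_lit 76) (nat_lit 6792106803) (nat_lit 235) (nat_lit 5) (nat_lit 245) (nat_lit 5) (nat_lit 236) (nat_lit 5) (nat_lit 450) (nat_lit 399) (nat_lit 291)) (XT.lf (nat_lit 0) (nat_lit 3708758888) (nat_lit 608) (nat_lit 435428887) (nat_lit 684) (nat_lit 6983535239) (nat_lit 227) (nat_lit 5) (nat_lit 235) (nat_lit 5) (nat_lit 236) (nat_lit 5) (nat_lit 451) (nat_lit 399) (nat_lit 290)))))) (XT.nd (nat_lit 546) (nat_lit 2280) (nat_lit 0) (XT.nd (nat_lit 234) (nat_lit 1292) (nat_lit 0) (XT.nd (nat_lit 78) (nat_lit 684) (nat_lit 0) (XT.lf (nat_lit 0) (nat_lit 6146245463) (nat_lit 684) (nat_lit 1721270100) (nat_lit 76) (nat_lit 3384657868) (nat_lit 227) (nat_lit 5) (nat_lit 236) (nat_lit 5) (nat_lit 228) (nat_lit 5) (nat_lit 452) (nat_lit 399) (nat_lit 289)) (XT.nd (nat_lit 78) (nat_lit 0) (nat_lit 0) (XT.lf (nat_lit 0) (nat_lit 4121110626) (nat_lit 684) (nat_lit 4078880612) (nat_lit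 760) (nat_lit 3178905014) (nat_lit 218) (nat_lit 5) (nat_lit 227) (nat_lit 5) (nat_lit 228) (nat_lit 5) (nat_lit 453) (nat_lit 399) (nat_lit 288)) (XT.lf (nat_lit 0) (nat_lit 10083373010) (nat_lit 684) (nat_lit 205216893) (nat_lit 760) (nat_lit 1219704085) (nat_lit 218) (nat_lit 5) (nat_lit 227) (nat_lit 5) (nat_lit 228) (nat_lit 5) (nat_lit 454) (nat_lit 399) (nat_lit 287)))) (XT.nd (nat_lit 156) (nat_lit 608) (nat_lit 0) (XT.nd (nat_lit 78) (nat_lit 0) (nat_lit 0) (XT.lf (nat_lit 0) (nat_lit 805048227) (nat_lit 684) (nat_lit 7105295764) (nat_lit 76) (nat_lit 3729118369) (nat_lit 209) (nat_lit 5) (nat_lit 218) (nat_lit 5) (nat_lit 210) (nat_lit 5) (nat_lit 455) (nat_lit 399) (nat_lit 286)) (XT.lf (nat_lit 0) (nat_lit 2847605187) (nat_lit 684) (nat_lit 1171172539) (nat_lit 76) (nat_lit 7754457393) (nat_lit 209) (nat_lit 5) (nat_lit 218) (nat_lit 5) (nat_lit 210) (nat_lit 5) (nat_lit 456) (nat_lit 399)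 (nat_lit 285))) (XT.nd (nat_lit 78) (nat_lit 0) (nat_lit 0) (XT.lf (nat_lit 0) (nat_lit 4926280545) (nat_lit 608) (nat_lit 19699603) (nat_lit 684) (nat_lit 6963418644) (nat_lit 201) (nat_lit 5) (nat_lit 209) (nat_lit 5) (nat_lit 210) (nat_lit 5) (nat_lit 457) (nat_lit 399) (nat_lit 284)) (XT.lf (nat_lit 0) (nat_lit 7103757421) (nat_lit 684) (nat_lit 933139924) (nat_lit 76) (nat_lit 4011054204) (nat_lit 201) (nat_lit 5) (nat_lit 210) (nat_lit 5) (nat_lit 202) (nat_lit 5) (nat_lit 458) (nat_lit 399) (nat_lit 283))))) (XT.nd (nat_lit 234) (nat_lit 1064) (nat_lit 0) (XT.nd (nat_lit 78) (nat_lit 684) (nat_lit 0) (XT.lf (nat_lit 0) (nat_lit 5287285015) (nat_lit 532) (nat_lit 4035361816) (nat_lit 608) (nat_lit 2866283620) (nat_lit 194) (nat_lit 5) (nat_lit 201) (nat_lit 5) (nat_lit 202) (nat_lit 5) (nat_lit 459) (nat_lit 399) (nat_lit 282)) (XT.nd (nat_lit 78) (nat_lit 684) (nat_lit 0) (XT.lf (nat_lit 0) (nat_lit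 11576189386) (nat_lit 608) (nat_lit 708132336) (nat_lit 76) (nat_lit 48615645) (nat_lit 194) (nat_lit 5) (nat_lit 202) (nat_lit 5) (nat_lit 195) (nat_lit 5) (nat_lit 460) (nat_lit 399) (nat_lit 281)) (XT.lf (nat_lit 0) (nat_lit 1424297717) (nat_lit 684) (nat_lit 6851369869) (nat_lit 76) (nat_lit 4203036801) (nat_lit 185) (nat_lit 5) (nat_lit 194) (nat_lit 5) (nat_lit 186) (nat_lit 5) (nat_lit 461) (nat_lit 399) (nat_lit 280)))) (XT.nd (nat_lit 156) (nat_lit 532) (nat_lit 0) (XT.nd (nat_lit 78) (nat_lit 532) (nat_lit 0) (XT.lf (nat_lit 0) (nat_lit 3627686252) (nat_lit 684) (nat_lit 552884692) (nat_lit 76) (nat_lit 8446951804) (nat_lit 185) (nat_lit 5) (nat_lit 194) (nat_lit 5) (nat_lit 186) (nat_lit 5) (nat_lit 462) (nat_lit 399) (nat_lit 279)) (XT.lf (nat_lit 0) (nat_lit 5898227009) (nat_lit 608) (nat_lit 6849010892) (nat_lit 76) (nat_lit 31630768) (nat_lit 178) (nat_lit 5) (nat_lit 186) (nat_lit 5) (nat_lit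 179) (nat_lit 5) (nat_lit 463) (nat_lit 399) (nat_lit 278))) (XT.nd (nat_lit 78) (nat_lit 532) (nat_lit 0) (XT.lf (nat_lit 0) (nat_lit 8230131625) (nat_lit 608) (nat_lit 430572917) (nat_lit 76) (nat_lit 4272230532) (nat_lit 178) (nat_lit 5) (nat_lit 186) (nat_lit 5) (nat_lit 179) (nat_lit 5) (nat_lit 464) (nat_lit 399) (nat_lit 277)) (XT.lf (nat_lit 0) (nat_lit 6178198535) (nat_lit 532) (nat_lit 4455424474) (nat_lit 608) (nat_lit 2455973209) (nat_lit 171) (nat_lit 5) (nat_lit 178) (nat_lit 5) (nat_lit 179) (nat_lit 5) (nat_lit 465) (nat_lit 399) (nat_lit 276))))))))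
noncomputable def xc151 : XT := (XT.nd (nat_lit 2106) (nat_lit 3496) (nat_lit 0) (XT.nd (nat_lit 1014) (nat_lit 2660) (nat_lit 0) (XT.nd (nat_lit 468) (nat_lit 1520) (nat_lit 0) (XT.nd (nat_lit 234) (nat_lit 988) (nat_lit 0) (XT.nd (nat_lit 78) (nat_lit 532) (nat_lit 0) (XT.lf (nat_lit 0) (nat_lit 12906043897) (nat_lit 532) (nat_lit 167039787) (nat_lit 608) (nat_lit 176561048) (nat_lit 171) (nat_lit 5) (nat_lit 178) (nat_lit 5) (nat_lit 179) (nat_lit 5) (nat_lit 466) (nat_lit 399) (nat_lit 275)) (XT.nd (nat_lit 78) (nat_lit 0) (nat_lit 0) (XT.lf (nat_lit 0) (nat_lit 2174712129) (nat_lit 532) (nat_lit 7032893726) (nat_lit 76) (nat_lit 4203932048) (nat_lit 164) (nat_lit 5) (nat_lit 171) (nat_lit 5) (nat_lit 165) (nat_lit 5) (nat_lit 467) (nat_lit 399) (nat_lit 274)) (XT.lf (nat_lit 0) (nat_lit 4559414131) (nat_lit 532) (nat_lit 357851598) (nat_lit 76) (nat_lit 8659615955) (nat_lit 164) (nat_lit 5) (nat_lit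 171) (nat_lit 5) (nat_lit 165) (nat_lit 5) (nat_lit 468) (nat_lit 399) (nat_lit 273)))) (XT.nd (nat_lit 78) (nat_lit 456) (nat_lit 0) (XT.lf (nat_lit 0) (nat_lit 6517612507) (nat_lit 532) (nat_lit 502139886) (nat_lit 608) (nat_lit 6725232319) (nat_lit 157) (nat_lit 5) (nat_lit 164) (nat_lit 5) (nat_lit 165) (nat_lit 5) (nat_lit 469) (nat_lit 399) (nat_lit 272)) (XT.nd (nat_lit 78) (nat_lit 456) (nat_lit 0) (XT.lf (nat_lit 0) (nat_lit 9543453996) (nat_lit 608) (nat_lit 425664269) (nat_lit 76) (nat_lit 3947059397) (nat_lit 157) (nat_lit 5) (nat_lit 165) (nat_lit 5) (nat_lit 158) (nat_lit 5) (nat_lit 470) (nat_lit 399) (nat_lit 271)) (XT.lf (nat_lit 0) (nat_lit 6576669101) (nat_lit 456) (nat_lit 5573025548) (nat_lit 532) (nat_lit 1940469299) (nat_lit 151) (nat_lit 5) (nat_lit 157) (nat_lit 5) (nat_lit 158) (nat_lit 5) (nat_lit 471) (nat_lit 399) (nat_lit 270))))) (XT.nd (nat_lit 234) (nat_lit 988) (nat_lit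 0) (XT.nd (nat_lit 78) (nat_lit 456) (nat_lit 0) (XT.lf (nat_lit 0) (nat_lit 522310761) (nat_lit 532) (nat_lit 564693477) (nat_lit 76) (nat_lit 13180786538) (nat_lit 150) (nat_lit 5) (nat_lit 157) (nat_lit 5) (nat_lit 151) (nat_lit 5) (nat_lit 472) (nat_lit 399) (nat_lit 269)) (XT.nd (nat_lit 78) (nat_lit 0) (nat_lit 0) (XT.lf (nat_lit 0) (nat_lit 3060455818) (nat_lit 532) (nat_lit 7892672409) (nat_lit 76) (nat_lit 3494553693) (nat_lit 144) (nat_lit 5) (nat_lit 151) (nat_lit 5) (nat_lit 145) (nat_lit 5) (nat_lit 473) (nat_lit 399) (nat_lit 268)) (XT.lf (nat_lit 0) (nat_lit 5646864772) (nat_lit 532) (nat_lit 831740758) (nat_lit 76) (nat_lit 8152625296) (nat_lit 144) (nat_lit 5) (nat_lit 151) (nat_lit 5) (nat_lit 145) (nat_lit 5) (nat_lit 474) (nat_lit 399) (nat_lit 267)))) (XT.nd (nat_lit 156) (nat_lit 532) (nat_lit 0) (XT.nd (nat_lit 78) (nat_lit 0) (nat_lit 0) (XT.lf (nat_lit 0) (nat_lit 6437005551)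 (nat_lit 456) (nat_lit 1876542415) (nat_lit 532) (nat_lit 6504341585) (nat_lit 138) (nat_lit 5) (nat_lit 144) (nat_lit 5) (nat_lit 145) (nat_lit 5) (nat_lit 475) (nat_lit 399) (nat_lit 266)) (XT.lf (nat_lit 0) (nat_lit 11044344298) (nat_lit 532) (nat_lit 1182049906) (nat_lit 76) (nat_lit 2781681228) (nat_lit 138) (nat_lit 5) (nat_lit 145) (nat_lit 5) (nat_lit 139) (nat_lit 5) (nat_lit 476) (nat_lit 399) (nat_lit 265))) (XT.nd (nat_lit 78) (nat_lit 76) (nat_lit 0) (XT.lf (nat_lit 0) (nat_lit 6212208759) (nat_lit 456) (nat_lit 7657434120) (nat_lit 532) (nat_lit 1331633809) (nat_lit 132) (nat_lit 5) (nat_lit 138) (nat_lit 5) (nat_lit 139) (nat_lit 5) (nat_lit 477) (nat_lit 399) (nat_lit 264)) (XT.lf (nat_lit 0) (nat_lit 1330514572) (nat_lit 532) (nat_lit 1654308164) (nat_lit 76) (nat_lit 12413449441) (nat_lit 131) (nat_lit 5) (nat_lit 138) (nat_lit 5) (nat_lit 132) (nat_lit 5) (nat_lit 478) (nat_lit 399)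 (nat_lit 263)))))) (XT.nd (nat_lit 546) (nat_lit 1064) (nat_lit 0) (XT.nd (nat_lit 234) (nat_lit 836) (nat_lit 0) (XT.nd (nat_lit 78) (nat_lit 380) (nat_lit 0) (XT.lf (nat_lit 0) (nat_lit 4065524122) (nat_lit 456) (nat_lit 9732269583) (nat_lit 76) (nat_lit 1800497694) (nat_lit 126) (nat_lit 5) (nat_lit 132) (nat_lit 5) (nat_lit 127) (nat_lit 5) (nat_lit 479) (nat_lit 399) (nat_lit 262)) (XT.nd (nat_lit 78) (nat_lit 380) (nat_lit 0) (XT.lf (nat_lit 0) (nat_lit 6873701910) (nat_lit 456) (nat_lit 2280175578) (nat_lit 76) (nat_lit 6648072825) (nat_lit 126) (nat_lit 5) (nat_lit 132) (nat_lit 5) (nat_lit 127) (nat_lit 5) (nat_lit 480) (nat_lit 399) (nat_lit 261)) (XT.lf (nat_lit 0) (nat_lit 5374358712) (nat_lit 380) (nat_lit 4386349240) (nat_lit 456) (nat_lit 6248529659) (nat_lit 121) (nat_lit 5) (nat_lit 126) (nat_lit 5) (nat_lit 127) (nat_lit 5) (nat_lit 481) (nat_lit 399) (nat_lit 260)))) (XT.nd (nat_lit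 156) (nat_lit 456) (nat_lit 0) (XT.nd (nat_lit 78) (nat_lit 380) (nat_lit 0) (XT.lf (nat_lit 0) (nat_lit 12711819292) (nat_lit 456) (nat_lit 3027861371) (nat_lit 76) (nat_lit 480871021) (nat_lit 121) (nat_lit 5) (nat_lit 127) (nat_lit 5) (nat_lit 122) (nat_lit 5) (nat_lit 482) (nat_lit 399) (nat_lit 259)) (XT.lf (nat_lit 0) (nat_lit 4747657821) (nat_lit 380) (nat_lit 11022275238) (nat_lit 456) (nat_lit 665207543) (nat_lit 116) (nat_lit 5) (nat_lit 121) (nat_lit 5) (nat_lit 122) (nat_lit 5) (nat_lit 483) (nat_lit 399) (nat_lit 258))) (XT.nd (nat_lit 78) (nat_lit 380) (nat_lit 0) (XT.lf (nat_lit 0) (nat_lit 2214471241) (nat_lit 456) (nat_lit 3965441854) (nat_lit 76) (nat_lit 10473653843) (nat_lit 115) (nat_lit 5) (nat_lit 121) (nat_lit 5) (nat_lit 116) (nat_lit 5) (nat_lit 484) (nat_lit 399) (nat_lit 257)) (XT.lf (nat_lit 0) (nat_lit 3941752016) (nat_lit 380) (nat_lit 1215062923) (nat_lit 456) (nat_lit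 11719187049) (nat_lit 110) (nat_lit 5) (nat_lit 115) (nat_lit 5) (nat_lit 116) (nat_lit 5) (nat_lit 485) (nat_lit 399) (nat_lit 256))))) (XT.nd (nat_lit 234) (nat_lit 760) (nat_lit 0) (XT.nd (nat_lit 78) (nat_lit 304) (nat_lit 0) (XT.lf (nat_lit 0) (nat_lit 8198249112) (nat_lit 456) (nat_lit 5083353750) (nat_lit 76) (nat_lit 3820485551) (nat_lit 110) (nat_lit 5) (nat_lit 116) (nat_lit 5) (nat_lit 111) (nat_lit 5) (nat_lit 486) (nat_lit 399) (nat_lit 255)) (XT.nd (nat_lit 78) (nat_lit 0) (nat_lit 0) (XT.lf (nat_lit 0) (nat_lit 2938706708) (nat_lit 304) (nat_lit 8377624581) (nat_lit 380) (nat_lit 6016056291) (nat_lit 106) (nat_lit 5) (nat_lit 110) (nat_lit 5) (nat_lit 111) (nat_lit 5) (nat_lit 487) (nat_lit 399) (nat_lit 254)) (XT.lf (nat_lit 0) (nat_lit 11173873550) (nat_lit 304) (nat_lit 3345822321) (nat_lit 380) (nat_lit 3047145698) (nat_lit 106) (nat_lit 5) (nat_lit 110) (nat_lit 5) (nat_lit 111) (nat_lit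 5) (nat_lit 488) (nat_lit 399) (nat_lit 253)))) (XT.nd (nat_lit 156) (nat_lit 304) (nat_lit 0) (XT.nd (nat_lit 78) (nat_lit 76) (nat_lit 0) (XT.lf (nat_lit 0) (nat_lit 1763166464) (nat_lit 380) (nat_lit 16036004897) (nat_lit 456) (nat_lit 6579516) (nat_lit 101) (nat_lit 5) (nat_lit 106) (nat_lit 5) (nat_lit 107) (nat_lit 5) (nat_lit 489) (nat_lit 399) (nat_lit 252)) (XT.lf (nat_lit 0) (nat_lit 3108580076) (nat_lit 456) (nat_lit 7938197297) (nat_lit 76) (nat_lit 7001178544) (nat_lit 100) (nat_lit 5) (nat_lit 106) (nat_lit 5) (nat_lit 101) (nat_lit 5) (nat_lit 490) (nat_lit 399) (nat_lit 251))) (XT.nd (nat_lit 78) (nat_lit 0) (nat_lit 0) (XT.lf (nat_lit 0) (nat_lit 316538806) (nat_lit 304) (nat_lit 5960715207) (nat_lit 380) (nat_lit 12017930892) (nat_lit 96) (nat_lit 5) (nat_lit 100) (nat_lit 5) (nat_lit 101) (nat_lit 5) (nat_lit 491) (nat_lit 399) (nat_lit 250)) (XT.lf (nat_lit 0) (nat_lit 8828231593)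 (nat_lit 304) (nat_lit 723692000) (nat_lit 380) (nat_lit 8994589007) (nat_lit 96) (nat_lit 5) (nat_lit 100) (nat_lit 5) (nat_lit 101) (nat_lit 5) (nat_lit 492) (nat_lit 399) (nat_lit 249))))))) (XT.nd (nat_lit 1092) (nat_lit 1672) (nat_lit 0) (XT.nd (nat_lit 546) (nat_lit 836) (nat_lit 0) (XT.nd (nat_lit 234) (nat_lit 608) (nat_lit 0) (XT.nd (nat_lit 78) (nat_lit 380) (nat_lit 0) (XT.lf (nat_lit 0) (nat_lit 12911599169) (nat_lit 380) (nat_lit 1338308695) (nat_lit 76) (nat_lit 4552575173) (nat_lit 96) (nat_lit 5) (nat_lit 101) (nat_lit 5) (nat_lit 97) (nat_lit 5) (nat_lit 493) (nat_lit 399) (nat_lit 248)) (XT.nd (nat_lit 78) (nat_lit 76) (nat_lit 0) (XT.lf (nat_lit 0) (nat_lit 7284700263) (nat_lit 304) (nat_lit 9095592095) (nat_lit 380) (nat_lit 2682450357) (nat_lit 92) (nat_lit 5) (nat_lit 96) (nat_lit 5) (nat_lit 97) (nat_lit 5) (nat_lit 494) (nat_lit 399) (nat_lit 247)) (XT.lf (nat_lit 0) (nat_lit 581215562)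 (nat_lit 380) (nat_lit 3248960251) (nat_lit 76) (nat_lit 15497985137) (nat_lit 91) (nat_lit 5) (nat_lit 96) (nat_lit 5) (nat_lit 92) (nat_lit 5) (nat_lit 495) (nat_lit 399) (nat_lit 246)))) (XT.nd (nat_lit 156) (nat_lit 304) (nat_lit 0) (XT.nd (nat_lit 78) (nat_lit 0) (nat_lit 0) (XT.lf (nat_lit 0) (nat_lit 3910201945) (nat_lit 380) (nat_lit 14118460204) (nat_lit 76) (nat_lit 1569157428) (nat_lit 87) (nat_lit 5) (nat_lit 92) (nat_lit 5) (nat_lit 88) (nat_lit 5) (nat_lit 496) (nat_lit 399) (nat_lit 245)) (XT.lf (nat_lit 0) (nat_lit 7343111389) (nat_lit 380) (nat_lit 5486782854) (nat_lit 76) (nat_lit 7042236101) (nat_lit 87) (nat_lit 5) (nat_lit 92) (nat_lit 5) (nat_lit 88) (nat_lit 5) (nat_lit 497) (nat_lit 399) (nat_lit 244))) (XT.nd (nat_lit 78) (nat_lit 0) (nat_lit 0) (XT.lf (nat_lit 0) (nat_lit 3346592107) (nat_lit 304) (nat_lit 7510041989) (nat_lit 380) (nat_lit 9295059848) (nat_lit 83) (nat_lit 5)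 (nat_lit 87) (nat_lit 5) (nat_lit 88) (nat_lit 5) (nat_lit 498) (nat_lit 399) (nat_lit 243)) (XT.lf (nat_lit 0) (nat_lit 12416279806) (nat_lit 304) (nat_lit 2051289427) (nat_lit 380) (nat_lit 5968742351) (nat_lit 83) (nat_lit 5) (nat_lit 87) (nat_lit 5) (nat_lit 88) (nat_lit 5) (nat_lit 499) (nat_lit 399) (nat_lit 242))))) (XT.nd (nat_lit 234) (nat_lit 532) (nat_lit 0) (XT.nd (nat_lit 78) (nat_lit 76) (nat_lit 0) (XT.lf (nat_lit 0) (nat_lit 915307943) (nat_lit 228) (nat_lit 17254670630) (nat_lit 304) (nat_lit 2556263392) (nat_lit 80) (nat_lit 5) (nat_lit 83) (nat_lit 5) (nat_lit 84) (nat_lit 5) (nat_lit 500) (nat_lit 399) (nat_lit 241)) (XT.nd (nat_lit 78) (nat_lit 0) (nat_lit 0) (XT.lf (nat_lit 0) (nat_lit 970605446) (nat_lit 304) (nat_lit 10917409041) (nat_lit 76) (nat_lit 9132676408) (nat_lit 79) (nat_lit 5) (nat_lit 83) (nat_lit 5) (nat_lit 80) (nat_lit 5) (nat_lit 501) (nat_lit 399) (nat_lit 240))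 (XT.lf (nat_lit 0) (nat_lit 4524506545) (nat_lit 304) (nat_lit 1877294622) (nat_lit 76) (nat_lit 14919080414) (nat_lit 79) (nat_lit 5) (nat_lit 83) (nat_lit 5) (nat_lit 80) (nat_lit 5) (nat_lit 502) (nat_lit 399) (nat_lit 239)))) (XT.nd (nat_lit 156) (nat_lit 228) (nat_lit 0) (XT.nd (nat_lit 78) (nat_lit 0) (nat_lit 0) (XT.lf (nat_lit 0) (nat_lit 7426957215) (nat_lit 304) (nat_lit 761622963) (nat_lit 380) (nat_lit 13437719091) (nat_lit 75) (nat_lit 5) (nat_lit 79) (nat_lit 5) (nat_lit 80) (nat_lit 5) (nat_lit 503) (nat_lit 399) (nat_lit 238)) (XT.lf (nat_lit 0) (nat_lit 11961953455) (nat_lit 380) (nat_lit 5041454530) (nat_lit 76) (nat_lit 4933701942) (nat_lit 75) (nat_lit 5) (nat_lit 80) (nat_lit 5) (nat_lit 76) (nat_lit 5) (nat_lit 504) (nat_lit 399) (nat_lit 237))) (XT.nd (nat_lit 78) (nat_lit 0) (nat_lit 0) (XT.lf (nat_lit 0) (nat_lit 4337580279) (nat_lit 228) (nat_lit 11497527965) (nat_lit 304) (nat_lit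 6418547154) (nat_lit 72) (nat_lit 5) (nat_lit 75) (nat_lit 5) (nat_lit 76) (nat_lit 5) (nat_lit 505) (nat_lit 399) (nat_lit 236)) (XT.lf (nat_lit 0) (nat_lit 13958770430) (nat_lit 228) (nat_lit 5851979250) (nat_lit 304) (nat_lit 2765286414) (nat_lit 72) (nat_lit 5) (nat_lit 75) (nat_lit 5) (nat_lit 76) (nat_lit 5) (nat_lit 506) (nat_lit 399) (nat_lit 235)))))) (XT.nd (nat_lit 546) (nat_lit 760) (nat_lit 0) (XT.nd (nat_lit 234) (nat_lit 532) (nat_lit 0) (XT.nd (nat_lit 78) (nat_lit 0) (nat_lit 0) (XT.lf (nat_lit 0) (nat_lit 858931417) (nat_lit 304) (nat_lit 86384281) (nat_lit 380) (nat_lit 21959490904) (nat_lit 67) (nat_lit 5) (nat_lit 71) (nat_lit 5) (nat_lit 72) (nat_lit 5) (nat_lit 507) (nat_lit 399) (nat_lit 234)) (XT.nd (nat_lit 78) (nat_lit 0) (nat_lit 0) (XT.lf (nat_lit 0) (nat_lit 4780322949) (nat_lit 380) (nat_lit 12667521474) (nat_lit 76) (nat_lit 5790202631) (nat_lit 67) (nat_lit 5) (nat_lit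 72) (nat_lit 5) (nat_lit 68) (nat_lit 5) (nat_lit 508) (nat_lit 399) (nat_lit 233)) (XT.lf (nat_lit 0) (nat_lit 8684126386) (nat_lit 380) (nat_lit 3115573975) (nat_lit 76) (nat_lit 11778414454) (nat_lit 67) (nat_lit 5) (nat_lit 72) (nat_lit 5) (nat_lit 68) (nat_lit 5) (nat_lit 509) (nat_lit 399) (nat_lit 232)))) (XT.nd (nat_lit 156) (nat_lit 304) (nat_lit 0) (XT.nd (nat_lit 78) (nat_lit 0) (nat_lit 0) (XT.lf (nat_lit 0) (nat_lit 6702174256) (nat_lit 228) (nat_lit 5999036752) (nat_lit 304) (nat_lit 11223073155) (nat_lit 64) (nat_lit 5) (nat_lit 67) (nat_lit 5) (nat_lit 68) (nat_lit 5) (nat_lit 510) (nat_lit 399) (nat_lit 231)) (XT.lf (nat_lit 0) (nat_lit 16745457879) (nat_lit 228) (nat_lit 65854940) (nat_lit 304) (nat_lit 7465814820) (nat_lit 64) (nat_lit 5) (nat_lit 67) (nat_lit 5) (nat_lit 68) (nat_lit 5) (nat_lit 511) (nat_lit 399) (nat_lit 230))) (XT.nd (nat_lit 78) (nat_lit 76) (nat_lit 0) (XT.lf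 (nat_lit 0) (nat_lit 2331359398) (nat_lit 228) (nat_lit 18718158092) (nat_lit 304) (nat_lit 3586596643) (nat_lit 61) (nat_lit 5) (nat_lit 64) (nat_lit 5) (nat_lit 65) (nat_lit 5) (nat_lit 512) (nat_lit 399) (nat_lit 229)) (XT.lf (nat_lit 0) (nat_lit 408580218) (nat_lit 304) (nat_lit 12523658394) (nat_lit 76) (nat_lit 12069133085) (nat_lit 60) (nat_lit 5) (nat_lit 64) (nat_lit 5) (nat_lit 61) (nat_lit 5) (nat_lit 513) (nat_lit 399) (nat_lit 228))))) (XT.nd (nat_lit 234) (nat_lit 532) (nat_lit 0) (XT.nd (nat_lit 78) (nat_lit 228) (nat_lit 0) (XT.lf (nat_lit 0) (nat_lit 4427756795) (nat_lit 304) (nat_lit 2583395670) (nat_lit 76) (nat_lit 18362469311) (nat_lit 60) (nat_lit 5) (nat_lit 64) (nat_lit 5) (nat_lit 61) (nat_lit 5) (nat_lit 514) (nat_lit 399) (nat_lit 227)) (XT.nd (nat_lit 78) (nat_lit 0) (nat_lit 0) (XT.lf (nat_lit 0) (nat_lit 7643463541) (nat_lit 228) (nat_lit 925710989) (nat_lit 304) (nat_lit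 17183309023) (nat_lit 57) (nat_lit 5) (nat_lit 60) (nat_lit 5) (nat_lit 61) (nat_lit 5) (nat_lit 515) (nat_lit 399) (nat_lit 226)) (XT.lf (nat_lit 0) (nat_lit 12837434817) (nat_lit 304) (nat_lit 8075602299) (nat_lit 76) (nat_lit 5225008939) (nat_lit 57) (nat_lit 5) (nat_lit 61) (nat_lit 5) (nat_lit 58) (nat_lit 5) (nat_lit 516) (nat_lit 399) (nat_lit 225)))) (XT.nd (nat_lit 156) (nat_lit 304) (nat_lit 0) (XT.nd (nat_lit 78) (nat_lit 0) (nat_lit 0) (XT.lf (nat_lit 0) (nat_lit 2168539523) (nat_lit 228) (nat_lit 15035155269) (nat_lit 304) (nat_lit 9327376026) (nat_lit 54) (nat_lit 5) (nat_lit 57) (nat_lit 5) (nat_lit 58) (nat_lit 5) (nat_lit 517) (nat_lit 399) (nat_lit 224)) (XT.lf (nat_lit 0) (nat_lit 12714857225) (nat_lit 228) (nat_lit 8989108134) (nat_lit 304) (nat_lit 5227060635) (nat_lit 54) (nat_lit 5) (nat_lit 57) (nat_lit 5) (nat_lit 58) (nat_lit 5) (nat_lit 518) (nat_lit 399) (nat_lit 223))) (XT.nd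 (nat_lit 78) (nat_lit 304) (nat_lit 0) (XT.lf (nat_lit 0) (nat_lit 23460166113) (nat_lit 228) (nat_lit 2826716256) (nat_lit 304) (nat_lit 1052248641) (nat_lit 54) (nat_lit 5) (nat_lit 57) (nat_lit 5) (nat_lit 58) (nat_lit 5) (nat_lit 519) (nat_lit 399) (nat_lit 222)) (XT.lf (nat_lit 0) (nat_lit 3223234635) (nat_lit 304) (nat_lit 21056606148) (nat_lit 76) (nat_lit 3473959981) (nat_lit 50) (nat_lit 5) (nat_lit 54) (nat_lit 5) (nat_lit 51) (nat_lit 5) (nat_lit 520) (nat_lit 399) (nat_lit 221))))))))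
noncomputable def xc152 : XT := (XT.nd (nat_lit 51792) (nat_lit 0) (nat_lit 14288) (XT.nd (nat_lit 50700) (nat_lit 0) (nat_lit 29184) (XT.nd (nat_lit 50154) (nat_lit 0) (nat_lit 32680) (XT.nd (nat_lit 49920) (nat_lit 0) (nat_lit 33744) (XT.nd (nat_lit 78) (nat_lit 228) (nat_lit 0) (XT.lf (nat_lit 0) (nat_lit 7607844477) (nat_lit 304) (nat_lit 10676487950) (nat_lit 76) (nat_lit 9891541600) (nat_lit 50) (nat_lit 5) (nat_lit 54) (nat_lit 5) (nat_lit 51) (nat_lit 5) (nat_lit 521) (nat_lit 399) (nat_lit 220)) (XT.nd (nat_lit 78) (nat_lit 228) (nat_lit 0) (XT.lf (nat_lit 0) (nat_lit 12073059342) (nat_lit 304) (nat_lit 100376657) (nat_lit 76) (nat_lit 16433097784) (nat_lit 50) (nat_lit 5) (nat_lit 54) (nat_lit 5) (nat_lit 51) (nat_lit 5) (nat_lit 522) (nat_lit 399) (nat_lit 219)) (XT.lf (nat_lit 0) (nat_lit 10817751988) (nat_lit 228) (nat_lit 5873114329) (nat_lit 304) (nat_lit 12353677883) (nat_lit 47) (nat_lit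 5) (nat_lit 50) (nat_lit 5) (nat_lit 51) (nat_lit 5) (nat_lit 523) (nat_lit 399) (nat_lit 218)))) (XT.nd (nat_lit 78) (nat_lit 0) (nat_lit 0) (XT.lf (nat_lit 0) (nat_lit 492557366) (nat_lit 1140) (nat_lit 1560297094) (nat_lit 1140) (nat_lit 1560297094) (nat_lit 491) (nat_lit 3) (nat_lit 506) (nat_lit 3) (nat_lit 506) (nat_lit 5) (nat_lit 400) (nat_lit 400) (nat_lit 340)) (XT.nd (nat_lit 78) (nat_lit 0) (nat_lit 0) (XT.lf (nat_lit 76) (nat_lit 131213224) (nat_lit 0) (nat_lit 2391231334) (nat_lit 1140) (nat_lit 4743568598) (nat_lit 492) (nat_lit 5) (nat_lit 491) (nat_lit 3) (nat_lit 506) (nat_lit 5) (nat_lit 401) (nat_lit 400) (nat_lit 339)) (XT.lf (nat_lit 76) (nat_lit 3469636809) (nat_lit 0) (nat_lit 601646501) (nat_lit 1140) (nat_lit 3235671397) (nat_lit 492) (nat_lit 5) (nat_lit 491) (nat_lit 3) (nat_lit 506) (nat_lit 5) (nat_lit 402) (nat_lit 400) (nat_lit 338))))) (XT.nd (nat_lit 234) (nat_lit 0)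 (nat_lit 0) (XT.nd (nat_lit 78) (nat_lit 1140) (nat_lit 0) (XT.lf (nat_lit 0) (nat_lit 5619777275) (nat_lit 1064) (nat_lit 503108850) (nat_lit 1140) (nat_lit 1226506915) (nat_lit 492) (nat_lit 5) (nat_lit 506) (nat_lit 5) (nat_lit 507) (nat_lit 5) (nat_lit 403) (nat_lit 400) (nat_lit 337)) (XT.nd (nat_lit 78) (nat_lit 1140) (nat_lit 0) (XT.lf (nat_lit 76) (nat_lit 2911119666) (nat_lit 0) (nat_lit 4272509895) (nat_lit 1140) (nat_lit 209413319) (nat_lit 493) (nat_lit 5) (nat_lit 492) (nat_lit 5) (nat_lit 507) (nat_lit 5) (nat_lit 404) (nat_lit 400) (nat_lit 336)) (XT.lf (nat_lit 0) (nat_lit 1288825365) (nat_lit 1140) (nat_lit 1067054753) (nat_lit 1216) (nat_lit 5082255546) (nat_lit 477) (nat_lit 5) (nat_lit 492) (nat_lit 5) (nat_lit 493) (nat_lit 5) (nat_lit 405) (nat_lit 400) (nat_lit 335)))) (XT.nd (nat_lit 156) (nat_lit 0) (nat_lit 76) (XT.nd (nat_lit 78) (nat_lit 0) (nat_lit 76) (XT.lf (nat_lit 76)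 (nat_lit 2425675831) (nat_lit 0) (nat_lit 366872915) (nat_lit 1216) (nat_lit 4692034990) (nat_lit 478) (nat_lit 5) (nat_lit 477) (nat_lit 5) (nat_lit 493) (nat_lit 5) (nat_lit 406) (nat_lit 400) (nat_lit 334)) (XT.lf (nat_lit 0) (nat_lit 4307620896) (nat_lit 1140) (nat_lit 1561542117) (nat_lit 1216) (nat_lit 1663218934) (nat_lit 478) (nat_lit 5) (nat_lit 493) (nat_lit 5) (nat_lit 494) (nat_lit 5) (nat_lit 407) (nat_lit 400) (nat_lit 333))) (XT.nd (nat_lit 78) (nat_lit 0) (nat_lit 0) (XT.lf (nat_lit 76) (nat_lit 2008494782) (nat_lit 0) (nat_lit 3823966014) (nat_lit 1216) (nat_lit 1749131747) (nat_lit 479) (nat_lit 5) (nat_lit 478) (nat_lit 5) (nat_lit 494) (nat_lit 5) (nat_lit 408) (nat_lit 400) (nat_lit 332)) (XT.lf (nat_lit 76) (nat_lit 5650050576) (nat_lit 0) (nat_lit 1712791186) (nat_lit 1216) (nat_lit 269489555) (nat_lit 479) (nat_lit 5) (nat_lit 478) (nat_lit 5) (nat_lit 494) (nat_lit 5) (nat_lit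 409) (nat_lit 400) (nat_lit 331)))))) (XT.nd (nat_lit 546) (nat_lit 1216) (nat_lit 0) (XT.nd (nat_lit 234) (nat_lit 1216) (nat_lit 0) (XT.nd (nat_lit 78) (nat_lit 0) (nat_lit 0) (XT.lf (nat_lit 0) (nat_lit 1202411719) (nat_lit 1216) (nat_lit 6014424250) (nat_lit 1292) (nat_lit 467552508) (nat_lit 463) (nat_lit 5) (nat_lit 479) (nat_lit 5) (nat_lit 480) (nat_lit 5) (nat_lit 410) (nat_lit 400) (nat_lit 330)) (XT.nd (nat_lit 78) (nat_lit 0) (nat_lit 0) (XT.lf (nat_lit 0) (nat_lit 2690503515) (nat_lit 1216) (nat_lit 2350136522) (nat_lit 1292) (nat_lit 2697046162) (nat_lit 463) (nat_lit 5) (nat_lit 479) (nat_lit 5) (nat_lit 480) (nat_lit 5) (nat_lit 411) (nat_lit 400) (nat_lit 329)) (XT.lf (nat_lit 76) (nat_lit 1384194410) (nat_lit 0) (nat_lit 2799448236) (nat_lit 1292) (nat_lit 3608942954) (nat_lit 464) (nat_lit 5) (nat_lit 463) (nat_lit 5) (nat_lit 480) (nat_lit 5) (nat_lit 412) (nat_lit 400) (nat_lit 328))))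 (XT.nd (nat_lit 156) (nat_lit 1216) (nat_lit 0) (XT.nd (nat_lit 78) (nat_lit 0) (nat_lit 76) (XT.lf (nat_lit 76) (nat_lit 5203812939) (nat_lit 0) (nat_lit 485423474) (nat_lit 1292) (nat_lit 2159735361) (nat_lit 464) (nat_lit 5) (nat_lit 463) (nat_lit 5) (nat_lit 480) (nat_lit 5) (nat_lit 413) (nat_lit 400) (nat_lit 327)) (XT.lf (nat_lit 76) (nat_lit 1174969882) (nat_lit 0) (nat_lit 6037321495) (nat_lit 1292) (nat_lit 694487136) (nat_lit 465) (nat_lit 5) (nat_lit 464) (nat_lit 5) (nat_lit 481) (nat_lit 5) (nat_lit 414) (nat_lit 400) (nat_lit 326))) (XT.nd (nat_lit 78) (nat_lit 0) (nat_lit 0) (XT.lf (nat_lit 0) (nat_lit 778450197) (nat_lit 1292) (nat_lit 2888485599) (nat_lit 1368) (nat_lit 4298962437) (nat_lit 447) (nat_lit 5) (nat_lit 464) (nat_lit 5) (nat_lit 465) (nat_lit 5) (nat_lit 415) (nat_lit 400) (nat_lit 325)) (XT.lf (nat_lit 76) (nat_lit 1018969211) (nat_lit 0) (nat_lit 1227628350) (nat_lit 1368)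 (nat_lit 5780047495) (nat_lit 448) (nat_lit 5) (nat_lit 447) (nat_lit 5) (nat_lit 465) (nat_lit 5) (nat_lit 416) (nat_lit 400) (nat_lit 324))))) (XT.nd (nat_lit 234) (nat_lit 1292) (nat_lit 0) (XT.nd (nat_lit 78) (nat_lit 0) (nat_lit 0) (XT.lf (nat_lit 0) (nat_lit 3740772864) (nat_lit 1292) (nat_lit 3074883820) (nat_lit 1368) (nat_lit 1273053625) (nat_lit 448) (nat_lit 5) (nat_lit 465) (nat_lit 5) (nat_lit 466) (nat_lit 5) (nat_lit 417) (nat_lit 400) (nat_lit 323)) (XT.nd (nat_lit 78) (nat_lit 0) (nat_lit 0) (XT.lf (nat_lit 76) (nat_lit 918837891) (nat_lit 0) (nat_lit 4329667504) (nat_lit 1368) (nat_lit 2903874068) (nat_lit 449) (nat_lit 5) (nat_lit 448) (nat_lit 5) (nat_lit 466) (nat_lit 5) (nat_lit 418) (nat_lit 400) (nat_lit 322)) (XT.lf (nat_lit 76) (nat_lit 5012610421) (nat_lit 0) (nat_lit 1764451163) (nat_lit 1368) (nat_lit 1440482402) (nat_lit 449) (nat_lit 5) (nat_lit 448) (nat_lit 5) (nat_lit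 466) (nat_lit 5) (nat_lit 419) (nat_lit 400) (nat_lit 321)))) (XT.nd (nat_lit 156) (nat_lit 0) (nat_lit 0) (XT.nd (nat_lit 78) (nat_lit 0) (nat_lit 0) (XT.lf (nat_lit 0) (nat_lit 33317183) (nat_lit 1368) (nat_lit 7396016324) (nat_lit 1444) (nat_lit 855069021) (nat_lit 431) (nat_lit 5) (nat_lit 449) (nat_lit 5) (nat_lit 450) (nat_lit 5) (nat_lit 420) (nat_lit 400) (nat_lit 320)) (XT.lf (nat_lit 0) (nat_lit 1521543147) (nat_lit 1368) (nat_lit 3288555151) (nat_lit 1444) (nat_lit 3542258067) (nat_lit 431) (nat_lit 5) (nat_lit 449) (nat_lit 5) (nat_lit 450) (nat_lit 5) (nat_lit 421) (nat_lit 400) (nat_lit 319))) (XT.nd (nat_lit 78) (nat_lit 0) (nat_lit 76) (XT.lf (nat_lit 76) (nat_lit 891138790) (nat_lit 0) (nat_lit 2125637654) (nat_lit 1444) (nat_lit 5405380650) (nat_lit 432) (nat_lit 5) (nat_lit 431) (nat_lit 5) (nat_lit 450) (nat_lit 5) (nat_lit 422) (nat_lit 400) (nat_lit 318)) (XT.lf (nat_lit 0) (nat_lit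 4540025846) (nat_lit 1368) (nat_lit 3320131122) (nat_lit 76) (nat_lit 633266672) (nat_lit 432) (nat_lit 5) (nat_lit 450) (nat_lit 5) (nat_lit 433) (nat_lit 5) (nat_lit 423) (nat_lit 400) (nat_lit 317))))))) (XT.nd (nat_lit 1014) (nat_lit 5396) (nat_lit 0) (XT.nd (nat_lit 468) (nat_lit 5168) (nat_lit 0) (XT.nd (nat_lit 234) (nat_lit 1520) (nat_lit 0) (XT.nd (nat_lit 78) (nat_lit 1520) (nat_lit 0) (XT.lf (nat_lit 0) (nat_lit 951712433) (nat_lit 1368) (nat_lit 5134755120) (nat_lit 1444) (nat_lit 2479824820) (nat_lit 414) (nat_lit 5) (nat_lit 432) (nat_lit 5) (nat_lit 433) (nat_lit 5) (nat_lit 424) (nat_lit 400) (nat_lit 316)) (XT.nd (nat_lit 78) (nat_lit 1520) (nat_lit 0) (XT.lf (nat_lit 0) (nat_lit 5332474472) (nat_lit 1368) (nat_lit 2326514585) (nat_lit 1444) (nat_lit 981757192) (nat_lit 414) (nat_lit 5) (nat_lit 432) (nat_lit 5) (nat_lit 433) (nat_lit 5) (nat_lit 425) (nat_lit 400) (nat_lit 315)) (XT.lf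 (nat_lit 0) (nat_lit 522868922) (nat_lit 1520) (nat_lit 7647437391) (nat_lit 76) (nat_lit 546666313) (nat_lit 394) (nat_lit 5) (nat_lit 414) (nat_lit 5) (nat_lit 395) (nat_lit 5) (nat_lit 426) (nat_lit 400) (nat_lit 314)))) (XT.nd (nat_lit 78) (nat_lit 1520) (nat_lit 0) (XT.lf (nat_lit 0) (nat_lit 2055825785) (nat_lit 1520) (nat_lit 3258529025) (nat_lit 76) (nat_lit 3480040266) (nat_lit 394) (nat_lit 5) (nat_lit 414) (nat_lit 5) (nat_lit 395) (nat_lit 5) (nat_lit 427) (nat_lit 400) (nat_lit 313)) (XT.nd (nat_lit 78) (nat_lit 0) (nat_lit 0) (XT.lf (nat_lit 0) (nat_lit 1212554221) (nat_lit 1520) (nat_lit 2388894601) (nat_lit 1596) (nat_lit 5272305454) (nat_lit 374) (nat_lit 5) (nat_lit 394) (nat_lit 5) (nat_lit 395) (nat_lit 5) (nat_lit 428) (nat_lit 400) (nat_lit 312)) (XT.lf (nat_lit 0) (nat_lit 5178388816) (nat_lit 1596) (nat_lit 3162971738) (nat_lit 76) (nat_lit 613359901) (nat_lit 374) (nat_lit 5)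 (nat_lit 395) (nat_lit 5) (nat_lit 375) (nat_lit 5) (nat_lit 429) (nat_lit 400) (nat_lit 311))))) (XT.nd (nat_lit 234) (nat_lit 1824) (nat_lit 0) (XT.nd (nat_lit 78) (nat_lit 1748) (nat_lit 0) (XT.lf (nat_lit 0) (nat_lit 1406345790) (nat_lit 1596) (nat_lit 5380502282) (nat_lit 1672) (nat_lit 2250485615) (nat_lit 353) (nat_lit 5) (nat_lit 374) (nat_lit 5) (nat_lit 375) (nat_lit 5) (nat_lit 430) (nat_lit 400) (nat_lit 310)) (XT.nd (nat_lit 78) (nat_lit 1748) (nat_lit 0) (XT.lf (nat_lit 0) (nat_lit 6088566688) (nat_lit 1596) (nat_lit 2335515025) (nat_lit 1672) (nat_lit 697612168) (nat_lit 353) (nat_lit 5) (nat_lit 374) (nat_lit 5) (nat_lit 375) (nat_lit 5) (nat_lit 431) (nat_lit 400) (nat_lit 309)) (XT.lf (nat_lit 0) (nat_lit 866223429) (nat_lit 1748) (nat_lit 7561749363) (nat_lit 76) (nat_lit 779848580) (nat_lit 330) (nat_lit 5) (nat_lit 353) (nat_lit 5) (nat_lit 331) (nat_lit 5) (nat_lit 432) (nat_lit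 400) (nat_lit 308)))) (XT.nd (nat_lit 156) (nat_lit 836) (nat_lit 0) (XT.nd (nat_lit 78) (nat_lit 988) (nat_lit 0) (XT.lf (nat_lit 0) (nat_lit 2463994087) (nat_lit 1748) (nat_lit 2877187425) (nat_lit 76) (nat_lit 3954182944) (nat_lit 330) (nat_lit 5) (nat_lit 353) (nat_lit 5) (nat_lit 331) (nat_lit 5) (nat_lit 433) (nat_lit 400) (nat_lit 307)) (XT.lf (nat_lit 0) (nat_lit 1904801094) (nat_lit 988) (nat_lit 2177791183) (nat_lit 1064) (nat_lit 5302313444) (nat_lit 317) (nat_lit 5) (nat_lit 330) (nat_lit 5) (nat_lit 331) (nat_lit 5) (nat_lit 434) (nat_lit 400) (nat_lit 306))) (XT.nd (nat_lit 78) (nat_lit 836) (nat_lit 0) (XT.lf (nat_lit 0) (nat_lit 5736649618) (nat_lit 1064) (nat_lit 2682966847) (nat_lit 76) (nat_lit 1056583877) (nat_lit 317) (nat_lit 5) (nat_lit 331) (nat_lit 5) (nat_lit 318) (nat_lit 5) (nat_lit 435) (nat_lit 400) (nat_lit 305)) (XT.lf (nat_lit 0) (nat_lit 2203405170) (nat_lit 836) (nat_lit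 5226407383) (nat_lit 912) (nat_lit 2139411614) (nat_lit 306) (nat_lit 5) (nat_lit 317) (nat_lit 5) (nat_lit 318) (nat_lit 5) (nat_lit 436) (nat_lit 400) (nat_lit 304)))))) (XT.nd (nat_lit 546) (nat_lit 2964) (nat_lit 0) (XT.nd (nat_lit 234) (nat_lit 1520) (nat_lit 0) (XT.nd (nat_lit 78) (nat_lit 912) (nat_lit 0) (XT.lf (nat_lit 0) (nat_lit 7202828204) (nat_lit 836) (nat_lit 1949619224) (nat_lit 912) (nat_lit 511772199) (nat_lit 306) (nat_lit 5) (nat_lit 317) (nat_lit 5) (nat_lit 318) (nat_lit 5) (nat_lit 437) (nat_lit 400) (nat_lit 303)) (XT.nd (nat_lit 78) (nat_lit 0) (nat_lit 0) (XT.lf (nat_lit 0) (nat_lit 1136973878) (nat_lit 912) (nat_lit 7224196446) (nat_lit 76) (nat_lit 1399745661) (nat_lit 294) (nat_lit 5) (nat_lit 306) (nat_lit 5) (nat_lit 295) (nat_lit 5) (nat_lit 438) (nat_lit 400) (nat_lit 302)) (XT.lf (nat_lit 0) (nat_lit 2819567644) (nat_lit 912) (nat_lit 2228744206) (nat_lit 76) (nat_lit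 4811034242) (nat_lit 294) (nat_lit 5) (nat_lit 306) (nat_lit 5) (nat_lit 295) (nat_lit 5) (nat_lit 439) (nat_lit 400) (nat_lit 301)))) (XT.nd (nat_lit 156) (nat_lit 760) (nat_lit 0) (XT.nd (nat_lit 78) (nat_lit 0) (nat_lit 0) (XT.lf (nat_lit 0) (nat_lit 2883577063) (nat_lit 760) (nat_lit 1649567129) (nat_lit 836) (nat_lit 5426675548) (nat_lit 284) (nat_lit 5) (nat_lit 294) (nat_lit 5) (nat_lit 295) (nat_lit 5) (nat_lit 440) (nat_lit 400) (nat_lit 300)) (XT.lf (nat_lit 0) (nat_lit 6286741732) (nat_lit 836) (nat_lit 1966712151) (nat_lit 76) (nat_lit 1808755122) (nat_lit 284) (nat_lit 5) (nat_lit 295) (nat_lit 5) (nat_lit 285) (nat_lit 5) (nat_lit 441) (nat_lit 400) (nat_lit 299))) (XT.nd (nat_lit 78) (nat_lit 0) (nat_lit 0) (XT.lf (nat_lit 0) (nat_lit 3256036064) (nat_lit 760) (nat_lit 4830749798) (nat_lit 836) (nat_lit 2079653419) (nat_lit 274) (nat_lit 5) (nat_lit 284) (nat_lit 5) (nat_lit 285) (nat_lit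 5) (nat_lit 442) (nat_lit 400) (nat_lit 298)) (XT.lf (nat_lit 0) (nat_lit 8589282938) (nat_lit 760) (nat_lit 1326327454) (nat_lit 836) (nat_lit 357308493) (nat_lit 274) (nat_lit 5) (nat_lit 284) (nat_lit 5) (nat_lit 285) (nat_lit 5) (nat_lit 443) (nat_lit 400) (nat_lit 297))))) (XT.nd (nat_lit 234) (nat_lit 1444) (nat_lit 0) (XT.nd (nat_lit 78) (nat_lit 760) (nat_lit 0) (XT.lf (nat_lit 0) (nat_lit 1399574373) (nat_lit 760) (nat_lit 6729941852) (nat_lit 76) (nat_lit 2251480742) (nat_lit 264) (nat_lit 5) (nat_lit 274) (nat_lit 5) (nat_lit 265) (nat_lit 5) (nat_lit 444) (nat_lit 400) (nat_lit 296)) (XT.nd (nat_lit 78) (nat_lit 760) (nat_lit 0) (XT.lf (nat_lit 0) (nat_lit 3187061823) (nat_lit 760) (nat_lit 1407751645) (nat_lit 76) (nat_lit 5896390022) (nat_lit 264) (nat_lit 5) (nat_lit 274) (nat_lit 5) (nat_lit 265) (nat_lit 5) (nat_lit 445) (nat_lit 400) (nat_lit 295)) (XT.lf (nat_lit 0) (nat_lit 4053676078)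 (nat_lit 760) (nat_lit 963422767) (nat_lit 836) (nat_lit 5586398068) (nat_lit 254) (nat_lit 5) (nat_lit 264) (nat_lit 5) (nat_lit 265) (nat_lit 5) (nat_lit 446) (nat_lit 400) (nat_lit 294)))) (XT.nd (nat_lit 156) (nat_lit 760) (nat_lit 0) (XT.nd (nat_lit 78) (nat_lit 684) (nat_lit 0) (XT.lf (nat_lit 0) (nat_lit 6891765407) (nat_lit 836) (nat_lit 1112923220) (nat_lit 76) (nat_lit 2713205399) (nat_lit 254) (nat_lit 5) (nat_lit 265) (nat_lit 5) (nat_lit 255) (nat_lit 5) (nat_lit 447) (nat_lit 400) (nat_lit 293)) (XT.lf (nat_lit 0) (nat_lit 4464657014) (nat_lit 684) (nat_lit 4355739728) (nat_lit 760) (nat_lit 2013870946) (nat_lit 245) (nat_lit 5) (nat_lit 254) (nat_lit 5) (nat_lit 255) (nat_lit 5) (nat_lit 448) (nat_lit 400) (nat_lit 292))) (XT.nd (nat_lit 78) (nat_lit 760) (nat_lit 0) (XT.lf (nat_lit 0) (nat_lit 10148778085) (nat_lit 684) (nat_lit 627634602) (nat_lit 760) (nat_lit 176797582) (nat_lit 245)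 (nat_lit 5) (nat_lit 254) (nat_lit 5) (nat_lit 255) (nat_lit 5) (nat_lit 449) (nat_lit 400) (nat_lit 291)) (XT.lf (nat_lit 0) (nat_lit 1709069275) (nat_lit 760) (nat_lit 6189545905) (nat_lit 76) (nat_lit 3175026981) (nat_lit 235) (nat_lit 5) (nat_lit 245) (nat_lit 5) (nat_lit 236) (nat_lit 5) (nat_lit 450) (nat_lit 400) (nat_lit 290))))))))
noncomputable def xc153 : XT := (XT.nd (nat_lit 2106) (nat_lit 4332) (nat_lit 0) (XT.nd (nat_lit 1014) (nat_lit 3496) (nat_lit 0) (XT.nd (nat_lit 468) (nat_lit 2356) (nat_lit 0) (XT.nd (nat_lit 234) (nat_lit 1368) (nat_lit 0) (XT.nd (nat_lit 78) (nat_lit 608) (nat_lit 0) (XT.lf (nat_lit 0) (nat_lit 3621671998) (nat_lit 760) (nat_lit 524641484) (nat_lit 76) (nat_lit 7050334780) (nat_lit 235) (nat_lit 5) (nat_lit 245) (nat_lit 5) (nat_lit 236) (nat_lit 5) (nat_lit 451) (nat_lit 400) (nat_lit 289)) (XT.nd (nat_lit 78) (nat_lit 0) (nat_lit 0) (XT.lf (nat_lit 0) (nat_lit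 5303307800) (nat_lit 608) (nat_lit 285801765) (nat_lit 684) (nat_lit 5732689604) (nat_lit 227) (nat_lit 5) (nat_lit 235) (nat_lit 5) (nat_lit 236) (nat_lit 5) (nat_lit 452) (nat_lit 400) (nat_lit 288)) (XT.lf (nat_lit 0) (nat_lit 7605509641) (nat_lit 684) (nat_lit 238220973) (nat_lit 76) (nat_lit 3605546220) (nat_lit 227) (nat_lit 5) (nat_lit 236) (nat_lit 5) (nat_lit 228) (nat_lit 5) (nat_lit 453) (nat_lit 400) (nat_lit 287)))) (XT.nd (nat_lit 78) (nat_lit 684) (nat_lit 0) (XT.lf (nat_lit 0) (nat_lit 5711023982) (nat_lit 684) (nat_lit 3972891252) (nat_lit 760) (nat_lit 1894970970) (nat_lit 218) (nat_lit 5) (nat_lit 227) (nat_lit 5) (nat_lit 228) (nat_lit 5) (nat_lit 454) (nat_lit 400) (nat_lit 286)) (XT.nd (nat_lit 78) (nat_lit 0) (nat_lit 0) (XT.lf (nat_lit 0) (nat_lit 51738806) (nat_lit 608) (nat_lit 24579519) (nat_lit 684) (nat_lit 11635077793) (nat_lit 209) (nat_lit 5) (nat_lit 217) (nat_lit 5) (nat_lit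 218) (nat_lit 5) (nat_lit 455) (nat_lit 400) (nat_lit 285)) (XT.lf (nat_lit 0) (nat_lit 2110291037) (nat_lit 684) (nat_lit 5735256511) (nat_lit 76) (nat_lit 3999800340) (nat_lit 209) (nat_lit 5) (nat_lit 218) (nat_lit 5) (nat_lit 210) (nat_lit 5) (nat_lit 456) (nat_lit 400) (nat_lit 284))))) (XT.nd (nat_lit 234) (nat_lit 1216) (nat_lit 0) (XT.nd (nat_lit 78) (nat_lit 532) (nat_lit 0) (XT.lf (nat_lit 0) (nat_lit 291725302) (nat_lit 608) (nat_lit 3878590616) (nat_lit 684) (nat_lit 7811969826) (nat_lit 201) (nat_lit 5) (nat_lit 209) (nat_lit 5) (nat_lit 210) (nat_lit 5) (nat_lit 457) (nat_lit 400) (nat_lit 283)) (XT.nd (nat_lit 78) (nat_lit 532) (nat_lit 0) (XT.lf (nat_lit 0) (nat_lit 6294869191) (nat_lit 684) (nat_lit 5625312878) (nat_lit 76) (nat_lit 201327952) (nat_lit 201) (nat_lit 5) (nat_lit 210) (nat_lit 5) (nat_lit 202) (nat_lit 5) (nat_lit 458) (nat_lit 400) (nat_lit 282)) (XT.lf (nat_lit 0) (nat_lit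 523034689) (nat_lit 532) (nat_lit 7951781906) (nat_lit 608) (nat_lit 3788458071) (nat_lit 194) (nat_lit 5) (nat_lit 201) (nat_lit 5) (nat_lit 202) (nat_lit 5) (nat_lit 459) (nat_lit 400) (nat_lit 281)))) (XT.nd (nat_lit 156) (nat_lit 532) (nat_lit 0) (XT.nd (nat_lit 78) (nat_lit 684) (nat_lit 0) (XT.lf (nat_lit 0) (nat_lit 6851350686) (nat_lit 532) (nat_lit 3868774460) (nat_lit 608) (nat_lit 1687327884) (nat_lit 194) (nat_lit 5) (nat_lit 201) (nat_lit 5) (nat_lit 202) (nat_lit 5) (nat_lit 460) (nat_lit 400) (nat_lit 280)) (XT.lf (nat_lit 0) (nat_lit 440807974) (nat_lit 684) (nat_lit 11817281047) (nat_lit 76) (nat_lit 296560662) (nat_lit 185) (nat_lit 5) (nat_lit 194) (nat_lit 5) (nat_lit 186) (nat_lit 5) (nat_lit 461) (nat_lit 400) (nat_lit 279))) (XT.nd (nat_lit 78) (nat_lit 532) (nat_lit 0) (XT.lf (nat_lit 0) (nat_lit 2636461067) (nat_lit 684) (nat_lit 5528337497) (nat_lit 76) (nat_lit 4538830567) (nat_lit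 185) (nat_lit 5) (nat_lit 194) (nat_lit 5) (nat_lit 186) (nat_lit 5) (nat_lit 462) (nat_lit 400) (nat_lit 278)) (XT.lf (nat_lit 0) (nat_lit 879017229) (nat_lit 532) (nat_lit 3987397945) (nat_lit 608) (nat_lit 7989377862) (nat_lit 178) (nat_lit 5) (nat_lit 185) (nat_lit 5) (nat_lit 186) (nat_lit 5) (nat_lit 463) (nat_lit 400) (nat_lit 277)))))) (XT.nd (nat_lit 546) (nat_lit 1900) (nat_lit 0) (XT.nd (nat_lit 234) (nat_lit 1064) (nat_lit 0) (XT.nd (nat_lit 78) (nat_lit 532) (nat_lit 0) (XT.lf (nat_lit 0) (nat_lit 7164923886) (nat_lit 608) (nat_lit 5541886360) (nat_lit 76) (nat_lit 303723244) (nat_lit 178) (nat_lit 5) (nat_lit 186) (nat_lit 5) (nat_lit 179) (nat_lit 5) (nat_lit 464) (nat_lit 400) (nat_lit 276)) (XT.nd (nat_lit 78) (nat_lit 0) (nat_lit 0) (XT.lf (nat_lit 0) (nat_lit 989583154) (nat_lit 532) (nat_lit 8537784307) (nat_lit 608) (nat_lit 3640654137) (nat_lit 171) (nat_lit 5) (nat_lit 178) (nat_lit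 5) (nat_lit 179) (nat_lit 5) (nat_lit 465) (nat_lit 400) (nat_lit 275)) (XT.lf (nat_lit 0) (nat_lit 7708237074) (nat_lit 532) (nat_lit 4251315822) (nat_lit 608) (nat_lit 1368668613) (nat_lit 171) (nat_lit 5) (nat_lit 178) (nat_lit 5) (nat_lit 179) (nat_lit 5) (nat_lit 466) (nat_lit 400) (nat_lit 274)))) (XT.nd (nat_lit 156) (nat_lit 532) (nat_lit 0) (XT.nd (nat_lit 78) (nat_lit 0) (nat_lit 0) (XT.lf (nat_lit 0) (nat_lit 929520119) (nat_lit 532) (nat_lit 12433552191) (nat_lit 76) (nat_lit 128577215) (nat_lit 164) (nat_lit 5) (nat_lit 171) (nat_lit 5) (nat_lit 165) (nat_lit 5) (nat_lit 467) (nat_lit 400) (nat_lit 273)) (XT.lf (nat_lit 0) (nat_lit 3307106060) (nat_lit 532) (nat_lit 5767697451) (nat_lit 76) (nat_lit 4582337667) (nat_lit 164) (nat_lit 5) (nat_lit 171) (nat_lit 5) (nat_lit 165) (nat_lit 5) (nat_lit 468) (nat_lit 400) (nat_lit 272))) (XT.nd (nat_lit 78) (nat_lit 0) (nat_lit 0) (XT.lf (nat_lit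 0) (nat_lit 1026745705) (nat_lit 532) (nat_lit 4698071737) (nat_lit 608) (nat_lit 8101284744) (nat_lit 157) (nat_lit 5) (nat_lit 164) (nat_lit 5) (nat_lit 165) (nat_lit 5) (nat_lit 469) (nat_lit 400) (nat_lit 271)) (XT.lf (nat_lit 0) (nat_lit 8017185452) (nat_lit 532) (nat_lit 198468264) (nat_lit 608) (nat_lit 5782304062) (nat_lit 157) (nat_lit 5) (nat_lit 164) (nat_lit 5) (nat_lit 165) (nat_lit 5) (nat_lit 470) (nat_lit 400) (nat_lit 270))))) (XT.nd (nat_lit 234) (nat_lit 912) (nat_lit 0) (XT.nd (nat_lit 78) (nat_lit 532) (nat_lit 0) (XT.lf (nat_lit 0) (nat_lit 940024050) (nat_lit 456) (nat_lit 9837209263) (nat_lit 532) (nat_lit 3395609204) (nat_lit 151) (nat_lit 5) (nat_lit 157) (nat_lit 5) (nat_lit 158) (nat_lit 5) (nat_lit 471) (nat_lit 400) (nat_lit 269)) (XT.nd (nat_lit 78) (nat_lit 532) (nat_lit 0) (XT.lf (nat_lit 0) (nat_lit 8061115813) (nat_lit 456) (nat_lit 5356834170) (nat_lit 532) (nat_lit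 932727220) (nat_lit 151) (nat_lit 5) (nat_lit 157) (nat_lit 5) (nat_lit 158) (nat_lit 5) (nat_lit 472) (nat_lit 400) (nat_lit 268)) (XT.lf (nat_lit 0) (nat_lit 774770424) (nat_lit 456) (nat_lit 775591144) (nat_lit 532) (nat_lit 12981678609) (nat_lit 144) (nat_lit 5) (nat_lit 150) (nat_lit 5) (nat_lit 151) (nat_lit 5) (nat_lit 473) (nat_lit 400) (nat_lit 267)))) (XT.nd (nat_lit 156) (nat_lit 456) (nat_lit 0) (XT.nd (nat_lit 78) (nat_lit 456) (nat_lit 0) (XT.lf (nat_lit 0) (nat_lit 4125176827) (nat_lit 532) (nat_lit 6700127431) (nat_lit 76) (nat_lit 3890521533) (nat_lit 144) (nat_lit 5) (nat_lit 151) (nat_lit 5) (nat_lit 145) (nat_lit 5) (nat_lit 474) (nat_lit 400) (nat_lit 266)) (XT.lf (nat_lit 0) (nat_lit 481864187) (nat_lit 456) (nat_lit 6264901650) (nat_lit 532) (nat_lit 8156625299) (nat_lit 138) (nat_lit 5) (nat_lit 144) (nat_lit 5) (nat_lit 145) (nat_lit 5) (nat_lit 475) (nat_lit 400) (nat_lit 265)))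 (XT.nd (nat_lit 78) (nat_lit 456) (nat_lit 0) (XT.lf (nat_lit 0) (nat_lit 7880955688) (nat_lit 456) (nat_lit 1571946756) (nat_lit 532) (nat_lit 5641172414) (nat_lit 138) (nat_lit 5) (nat_lit 144) (nat_lit 5) (nat_lit 145) (nat_lit 5) (nat_lit 476) (nat_lit 400) (nat_lit 264)) (XT.lf (nat_lit 0) (nat_lit 102676499) (nat_lit 456) (nat_lit 12119402536) (nat_lit 532) (nat_lit 3066324073) (nat_lit 132) (nat_lit 5) (nat_lit 138) (nat_lit 5) (nat_lit 139) (nat_lit 5) (nat_lit 477) (nat_lit 400) (nat_lit 263))))))) (XT.nd (nat_lit 1092) (nat_lit 1900) (nat_lit 0) (XT.nd (nat_lit 546) (nat_lit 1140) (nat_lit 0) (XT.nd (nat_lit 234) (nat_lit 836) (nat_lit 0) (XT.nd (nat_lit 78) (nat_lit 456) (nat_lit 0) (XT.lf (nat_lit 0) (nat_lit 7634874896) (nat_lit 456) (nat_lit 7458023612) (nat_lit 532) (nat_lit 392803245) (nat_lit 132) (nat_lit 5) (nat_lit 138) (nat_lit 5) (nat_lit 139) (nat_lit 5) (nat_lit 478) (nat_lit 400)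 (nat_lit 262)) (XT.nd (nat_lit 78) (nat_lit 380) (nat_lit 0) (XT.lf (nat_lit 0) (nat_lit 2291243506) (nat_lit 532) (nat_lit 401360992) (nat_lit 76) (nat_lit 12994294067) (nat_lit 131) (nat_lit 5) (nat_lit 138) (nat_lit 5) (nat_lit 132) (nat_lit 5) (nat_lit 479) (nat_lit 400) (nat_lit 261)) (XT.lf (nat_lit 0) (nat_lit 5073227039) (nat_lit 456) (nat_lit 8632511625) (nat_lit 76) (nat_lit 2185346907) (nat_lit 126) (nat_lit 5) (nat_lit 132) (nat_lit 5) (nat_lit 127) (nat_lit 5) (nat_lit 480) (nat_lit 400) (nat_lit 260)))) (XT.nd (nat_lit 156) (nat_lit 456) (nat_lit 0) (XT.nd (nat_lit 78) (nat_lit 380) (nat_lit 0) (XT.lf (nat_lit 0) (nat_lit 7919403826) (nat_lit 456) (nat_lit 1056756198) (nat_lit 76) (nat_lit 7123033555) (nat_lit 126) (nat_lit 5) (nat_lit 132) (nat_lit 5) (nat_lit 127) (nat_lit 5) (nat_lit 481) (nat_lit 400) (nat_lit 259)) (XT.lf (nat_lit 0) (nat_lit 6742519943) (nat_lit 380) (nat_lit 4112006788)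 (nat_lit 456) (nat_lit 5456304733) (nat_lit 121) (nat_lit 5) (nat_lit 126) (nat_lit 5) (nat_lit 127) (nat_lit 5) (nat_lit 482) (nat_lit 400) (nat_lit 258))) (XT.nd (nat_lit 78) (nat_lit 456) (nat_lit 0) (XT.lf (nat_lit 0) (nat_lit 13849345300) (nat_lit 456) (nat_lit 1836541970) (nat_lit 76) (nat_lit 840802982) (nat_lit 121) (nat_lit 5) (nat_lit 127) (nat_lit 5) (nat_lit 122) (nat_lit 5) (nat_lit 483) (nat_lit 400) (nat_lit 257)) (XT.lf (nat_lit 0) (nat_lit 210807218) (nat_lit 456) (nat_lit 10660903056) (nat_lit 76) (nat_lit 5874029730) (nat_lit 115) (nat_lit 5) (nat_lit 121) (nat_lit 5) (nat_lit 116) (nat_lit 5) (nat_lit 484) (nat_lit 400) (nat_lit 256))))) (XT.nd (nat_lit 234) (nat_lit 760) (nat_lit 0) (XT.nd (nat_lit 78) (nat_lit 380) (nat_lit 0) (XT.lf (nat_lit 0) (nat_lit 3121917637) (nat_lit 456) (nat_lit 2813452619) (nat_lit 76) (nat_lit 11033433199) (nat_lit 115) (nat_lit 5) (nat_lit 121) (nat_lit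 5) (nat_lit 116) (nat_lit 5) (nat_lit 485) (nat_lit 400) (nat_lit 255)) (XT.nd (nat_lit 78) (nat_lit 0) (nat_lit 0) (XT.lf (nat_lit 0) (nat_lit 5243784483) (nat_lit 380) (nat_lit 870340888) (nat_lit 456) (nat_lit 11081752701) (nat_lit 110) (nat_lit 5) (nat_lit 115) (nat_lit 5) (nat_lit 116) (nat_lit 5) (nat_lit 486) (nat_lit 400) (nat_lit 254)) (XT.lf (nat_lit 0) (nat_lit 9201988681) (nat_lit 456) (nat_lit 3970858631) (nat_lit 76) (nat_lit 4253937896) (nat_lit 110) (nat_lit 5) (nat_lit 116) (nat_lit 5) (nat_lit 111) (nat_lit 5) (nat_lit 487) (nat_lit 400) (nat_lit 253)))) (XT.nd (nat_lit 156) (nat_lit 456) (nat_lit 0) (XT.nd (nat_lit 78) (nat_lit 0) (nat_lit 0) (XT.lf (nat_lit 0) (nat_lit 4203655127) (nat_lit 304) (nat_lit 8170142489) (nat_lit 380) (nat_lit 5288076214) (nat_lit 106) (nat_lit 5) (nat_lit 110) (nat_lit 5) (nat_lit 111) (nat_lit 5) (nat_lit 488) (nat_lit 400) (nat_lit 252)) (XT.lf (nat_lit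 0) (nat_lit 12579874830) (nat_lit 304) (nat_lit 3045057803) (nat_lit 380) (nat_lit 2276420765) (nat_lit 106) (nat_lit 5) (nat_lit 110) (nat_lit 5) (nat_lit 111) (nat_lit 5) (nat_lit 489) (nat_lit 400) (nat_lit 251))) (XT.nd (nat_lit 78) (nat_lit 0) (nat_lit 0) (XT.lf (nat_lit 0) (nat_lit 808171331) (nat_lit 456) (nat_lit 15162969868) (nat_lit 76) (nat_lit 2173922042) (nat_lit 100) (nat_lit 5) (nat_lit 106) (nat_lit 5) (nat_lit 101) (nat_lit 5) (nat_lit 490) (nat_lit 400) (nat_lit 250)) (XT.lf (nat_lit 0) (nat_lit 3969569737) (nat_lit 456) (nat_lit 6920076281) (nat_lit 76) (nat_lit 7502794973) (nat_lit 100) (nat_lit 5) (nat_lit 106) (nat_lit 5) (nat_lit 101) (nat_lit 5) (nat_lit 491) (nat_lit 400) (nat_lit 249)))))) (XT.nd (nat_lit 546) (nat_lit 912) (nat_lit 0) (XT.nd (nat_lit 234) (nat_lit 684) (nat_lit 0) (XT.nd (nat_lit 78) (nat_lit 0) (nat_lit 0) (XT.lf (nat_lit 0) (nat_lit 1492011879) (nat_lit 304)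 (nat_lit 5701533022) (nat_lit 380) (nat_lit 11451240862) (nat_lit 96) (nat_lit 5) (nat_lit 100) (nat_lit 5) (nat_lit 101) (nat_lit 5) (nat_lit 492) (nat_lit 400) (nat_lit 248)) (XT.nd (nat_lit 78) (nat_lit 0) (nat_lit 0) (XT.lf (nat_lit 0) (nat_lit 10151014163) (nat_lit 304) (nat_lit 367188889) (nat_lit 380) (nat_lit 8383256622) (nat_lit 96) (nat_lit 5) (nat_lit 100) (nat_lit 5) (nat_lit 101) (nat_lit 5) (nat_lit 493) (nat_lit 400) (nat_lit 247)) (XT.lf (nat_lit 0) (nat_lit 13932232737) (nat_lit 380) (nat_lit 228023410) (nat_lit 76) (nat_lit 5002559541) (nat_lit 96) (nat_lit 5) (nat_lit 101) (nat_lit 5) (nat_lit 97) (nat_lit 5) (nat_lit 494) (nat_lit 400) (nat_lit 246)))) (XT.nd (nat_lit 156) (nat_lit 304) (nat_lit 0) (XT.nd (nat_lit 78) (nat_lit 76) (nat_lit 0) (XT.lf (nat_lit 0) (nat_lit 8559965125) (nat_lit 304) (nat_lit 8902719537) (nat_lit 380) (nat_lit 1965757396) (nat_lit 92) (nat_lit 5) (nat_lit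 96) (nat_lit 5) (nat_lit 97) (nat_lit 5) (nat_lit 495) (nat_lit 400) (nat_lit 245)) (XT.lf (nat_lit 0) (nat_lit 1338172026) (nat_lit 380) (nat_lit 2196170047) (nat_lit 76) (nat_lit 16165033525) (nat_lit 91) (nat_lit 5) (nat_lit 96) (nat_lit 5) (nat_lit 92) (nat_lit 5) (nat_lit 496) (nat_lit 400) (nat_lit 244))) (XT.nd (nat_lit 78) (nat_lit 0) (nat_lit 0) (XT.lf (nat_lit 0) (nat_lit 4728751776) (nat_lit 380) (nat_lit 13277640376) (nat_lit 76) (nat_lit 1968143637) (nat_lit 87) (nat_lit 5) (nat_lit 92) (nat_lit 5) (nat_lit 88) (nat_lit 5) (nat_lit 497) (nat_lit 400) (nat_lit 243)) (XT.lf (nat_lit 0) (nat_lit 8215802826) (nat_lit 380) (nat_lit 4495352793) (nat_lit 76) (nat_lit 7543475980) (nat_lit 87) (nat_lit 5) (nat_lit 92) (nat_lit 5) (nat_lit 88) (nat_lit 5) (nat_lit 498) (nat_lit 400) (nat_lit 242))))) (XT.nd (nat_lit 234) (nat_lit 380) (nat_lit 0) (XT.nd (nat_lit 78) (nat_lit 228) (nat_lit 0) (XT.lf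 (nat_lit 0) (nat_lit 4507445155) (nat_lit 304) (nat_lit 7285021348) (nat_lit 380) (nat_lit 8747470886) (nat_lit 83) (nat_lit 5) (nat_lit 87) (nat_lit 5) (nat_lit 88) (nat_lit 5) (nat_lit 499) (nat_lit 400) (nat_lit 241)) (XT.nd (nat_lit 78) (nat_lit 228) (nat_lit 0) (XT.lf (nat_lit 0) (nat_lit 13737077173) (nat_lit 304) (nat_lit 1724451018) (nat_lit 380) (nat_lit 5369009199) (nat_lit 83) (nat_lit 5) (nat_lit 87) (nat_lit 5) (nat_lit 88) (nat_lit 5) (nat_lit 500) (nat_lit 400) (nat_lit 240)) (XT.lf (nat_lit 0) (nat_lit 2011062460) (nat_lit 228) (nat_lit 17222444519) (nat_lit 304) (nat_lit 1892856980) (nat_lit 80) (nat_lit 5) (nat_lit 83) (nat_lit 5) (nat_lit 84) (nat_lit 5) (nat_lit 501) (nat_lit 400) (nat_lit 239)))) (XT.nd (nat_lit 156) (nat_lit 304) (nat_lit 0) (XT.nd (nat_lit 78) (nat_lit 0) (nat_lit 0) (XT.lf (nat_lit 0) (nat_lit 1681351347) (nat_lit 304) (nat_lit 10069863114) (nat_lit 76) (nat_lit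 9675678849) (nat_lit 79) (nat_lit 5) (nat_lit 83) (nat_lit 5) (nat_lit 80) (nat_lit 5) (nat_lit 502) (nat_lit 400) (nat_lit 238)) (XT.lf (nat_lit 0) (nat_lit 5292774904) (nat_lit 304) (nat_lit 869846291) (nat_lit 76) (nat_lit 15570745271) (nat_lit 79) (nat_lit 5) (nat_lit 83) (nat_lit 5) (nat_lit 80) (nat_lit 5) (nat_lit 503) (nat_lit 400) (nat_lit 237))) (XT.nd (nat_lit 78) (nat_lit 0) (nat_lit 0) (XT.lf (nat_lit 0) (nat_lit 8613615621) (nat_lit 304) (nat_lit 409964779) (nat_lit 380) (nat_lit 13021450496) (nat_lit 75) (nat_lit 5) (nat_lit 79) (nat_lit 5) (nat_lit 80) (nat_lit 5) (nat_lit 504) (nat_lit 400) (nat_lit 236)) (XT.lf (nat_lit 0) (nat_lit 12861595186) (nat_lit 380) (nat_lit 4113331148) (nat_lit 76) (nat_lit 5387355203) (nat_lit 75) (nat_lit 5) (nat_lit 80) (nat_lit 5) (nat_lit 76) (nat_lit 5) (nat_lit 505) (nat_lit 400) (nat_lit 235))))))))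
noncomputable def xc154 : XT := (XT.nd (nat_lit 51870) (nat_lit 0) (nat_lit 20520) (XT.nd (nat_lit 1014) (nat_lit 532) (nat_lit 0) (XT.nd (nat_lit 468) (nat_lit 760) (nat_lit 0) (XT.nd (nat_lit 234) (nat_lit 228) (nat_lit 0) (XT.nd (nat_lit 78) (nat_lit 380) (nat_lit 0) (XT.lf (nat_lit 0) (nat_lit 5446514933) (nat_lit 228) (nat_lit 11359385756) (nat_lit 304) (nat_lit 5879390584) (nat_lit 72) (nat_lit 5) (nat_lit 75) (nat_lit 5) (nat_lit 76) (nat_lit 5) (nat_lit 506) (nat_lit 400) (nat_lit 234)) (XT.nd (nat_lit 78) (nat_lit 380) (nat_lit 0) (XT.lf (nat_lit 0) (nat_lit 15240086082) (nat_lit 228) (nat_lit 5608143572) (nat_lit 304) (nat_lit 2166153405) (nat_lit 72) (nat_lit 5) (nat_lit 75) (nat_lit 5) (nat_lit 76) (nat_lit 5) (nat_lit 507) (nat_lit 400) (nat_lit 233)) (XT.lf (nat_lit 0) (nat_lit 1605730943) (nat_lit 380) (nat_lit 21471046086) (nat_lit 76) (nat_lit 272960600) (nat_lit 67) (nat_lit 5) (nat_lit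 72) (nat_lit 5) (nat_lit 68) (nat_lit 5) (nat_lit 508) (nat_lit 400) (nat_lit 232)))) (XT.nd (nat_lit 78) (nat_lit 228) (nat_lit 0) (XT.lf (nat_lit 0) (nat_lit 5505420596) (nat_lit 380) (nat_lit 11925602764) (nat_lit 76) (nat_lit 6258866452) (nat_lit 67) (nat_lit 5) (nat_lit 72) (nat_lit 5) (nat_lit 68) (nat_lit 5) (nat_lit 509) (nat_lit 400) (nat_lit 231)) (XT.nd (nat_lit 78) (nat_lit 228) (nat_lit 0) (XT.lf (nat_lit 0) (nat_lit 9474957137) (nat_lit 380) (nat_lit 2202131396) (nat_lit 76) (nat_lit 12359923692) (nat_lit 67) (nat_lit 5) (nat_lit 72) (nat_lit 5) (nat_lit 68) (nat_lit 5) (nat_lit 510) (nat_lit 400) (nat_lit 230)) (XT.lf (nat_lit 0) (nat_lit 7805552365) (nat_lit 228) (nat_lit 5761023705) (nat_lit 304) (nat_lit 10823651351) (nat_lit 64) (nat_lit 5) (nat_lit 67) (nat_lit 5) (nat_lit 68) (nat_lit 5) (nat_lit 511) (nat_lit 400) (nat_lit 229))))) (XT.nd (nat_lit 234) (nat_lit 456) (nat_lit 0) (XT.nd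 (nat_lit 78) (nat_lit 304) (nat_lit 0) (XT.lf (nat_lit 0) (nat_lit 17748735473) (nat_lit 304) (nat_lit 6721521230) (nat_lit 76) (nat_lit 280080139) (nat_lit 64) (nat_lit 5) (nat_lit 68) (nat_lit 5) (nat_lit 65) (nat_lit 5) (nat_lit 512) (nat_lit 400) (nat_lit 228)) (XT.nd (nat_lit 78) (nat_lit 76) (nat_lit 0) (XT.lf (nat_lit 0) (nat_lit 3332014322) (nat_lit 228) (nat_lit 18734523507) (nat_lit 304) (nat_lit 3050074634) (nat_lit 61) (nat_lit 5) (nat_lit 64) (nat_lit 5) (nat_lit 65) (nat_lit 5) (nat_lit 513) (nat_lit 400) (nat_lit 227)) (XT.lf (nat_lit 0) (nat_lit 1005258275) (nat_lit 304) (nat_lit 11830697738) (nat_lit 76) (nat_lit 12653381416) (nat_lit 60) (nat_lit 5) (nat_lit 64) (nat_lit 5) (nat_lit 61) (nat_lit 5) (nat_lit 514) (nat_lit 400) (nat_lit 226)))) (XT.nd (nat_lit 156) (nat_lit 228) (nat_lit 0) (XT.nd (nat_lit 78) (nat_lit 228) (nat_lit 0) (XT.lf (nat_lit 0) (nat_lit 5093279041) (nat_lit 304)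 (nat_lit 1710128462) (nat_lit 76) (nat_lit 19065861510) (nat_lit 60) (nat_lit 5) (nat_lit 64) (nat_lit 5) (nat_lit 61) (nat_lit 5) (nat_lit 515) (nat_lit 400) (nat_lit 225)) (XT.lf (nat_lit 0) (nat_lit 8715182834) (nat_lit 228) (nat_lit 596995000) (nat_lit 304) (nat_lit 16943642742) (nat_lit 57) (nat_lit 5) (nat_lit 60) (nat_lit 5) (nat_lit 61) (nat_lit 5) (nat_lit 516) (nat_lit 400) (nat_lit 224))) (XT.nd (nat_lit 78) (nat_lit 228) (nat_lit 0) (XT.lf (nat_lit 0) (nat_lit 13656805339) (nat_lit 304) (nat_lit 7327008246) (nat_lit 76) (nat_lit 5665466198) (nat_lit 57) (nat_lit 5) (nat_lit 61) (nat_lit 5) (nat_lit 58) (nat_lit 5) (nat_lit 517) (nat_lit 400) (nat_lit 223)) (XT.lf (nat_lit 0) (nat_lit 3116028872) (nat_lit 228) (nat_lit 14989199978) (nat_lit 304) (nat_lit 8945044811) (nat_lit 54) (nat_lit 5) (nat_lit 57) (nat_lit 5) (nat_lit 58) (nat_lit 5) (nat_lit 518) (nat_lit 400) (nat_lit 222)))))) (XT.nd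 (nat_lit 50310) (nat_lit 0) (nat_lit 31540) (XT.nd (nat_lit 234) (nat_lit 228) (nat_lit 0) (XT.nd (nat_lit 78) (nat_lit 304) (nat_lit 0) (XT.lf (nat_lit 0) (nat_lit 13855545114) (nat_lit 228) (nat_lit 8829029124) (nat_lit 304) (nat_lit 4773877597) (nat_lit 54) (nat_lit 5) (nat_lit 57) (nat_lit 5) (nat_lit 58) (nat_lit 5) (nat_lit 519) (nat_lit 400) (nat_lit 221)) (XT.nd (nat_lit 78) (nat_lit 304) (nat_lit 0) (XT.lf (nat_lit 0) (nat_lit 24798379968) (nat_lit 228) (nat_lit 2550053353) (nat_lit 304) (nat_lit 526505133) (nat_lit 54) (nat_lit 5) (nat_lit 57) (nat_lit 5) (nat_lit 58) (nat_lit 5) (nat_lit 520) (nat_lit 400) (nat_lit 220)) (XT.lf (nat_lit 0) (nat_lit 3824570218) (nat_lit 304) (nat_lit 20598307460) (nat_lit 76) (nat_lit 3875012828) (nat_lit 50) (nat_lit 5) (nat_lit 54) (nat_lit 5) (nat_lit 51) (nat_lit 5) (nat_lit 521) (nat_lit 400) (nat_lit 219)))) (XT.nd (nat_lit 49920) (nat_lit 0) (nat_lit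 33744) (XT.nd (nat_lit 78) (nat_lit 228) (nat_lit 0) (XT.lf (nat_lit 0) (nat_lit 8286345377) (nat_lit 304) (nat_lit 10027830640) (nat_lit 76) (nat_lit 10414444635) (nat_lit 50) (nat_lit 5) (nat_lit 54) (nat_lit 5) (nat_lit 51) (nat_lit 5) (nat_lit 522) (nat_lit 400) (nat_lit 218)) (XT.lf (nat_lit 0) (nat_lit 752769963) (nat_lit 228) (nat_lit 12082661587) (nat_lit 304) (nat_lit 16332575497) (nat_lit 47) (nat_lit 5) (nat_lit 50) (nat_lit 5) (nat_lit 51) (nat_lit 5) (nat_lit 523) (nat_lit 400) (nat_lit 217))) (XT.nd (nat_lit 78) (nat_lit 0) (nat_lit 0) (XT.lf (nat_lit 0) (nat_lit 2019123395) (nat_lit 1140) (nat_lit 816983244) (nat_lit 1140) (nat_lit 816983244) (nat_lit 491) (nat_lit 3) (nat_lit 506) (nat_lit 3) (nat_lit 506) (nat_lit 5) (nat_lit 401) (nat_lit 401) (nat_lit 338)) (XT.lf (nat_lit 76) (nat_lit 1672686021) (nat_lit 0) (nat_lit 3884149401) (nat_lit 1140) (nat_lit 1790916405) (nat_lit 492) (nat_lit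 5) (nat_lit 491) (nat_lit 3) (nat_lit 506) (nat_lit 5) (nat_lit 402) (nat_lit 401) (nat_lit 337))))) (XT.nd (nat_lit 234) (nat_lit 1064) (nat_lit 0) (XT.nd (nat_lit 78) (nat_lit 1140) (nat_lit 0) (XT.lf (nat_lit 76) (nat_lit 5047704577) (nat_lit 0) (nat_lit 2030437706) (nat_lit 1140) (nat_lit 312616624) (nat_lit 492) (nat_lit 5) (nat_lit 491) (nat_lit 3) (nat_lit 506) (nat_lit 5) (nat_lit 403) (nat_lit 401) (nat_lit 336)) (XT.nd (nat_lit 78) (nat_lit 0) (nat_lit 76) (XT.lf (nat_lit 76) (nat_lit 1041414332) (nat_lit 0) (nat_lit 106759761) (nat_lit 1216) (nat_lit 6286973361) (nat_lit 477) (nat_lit 5) (nat_lit 476) (nat_lit 5) (nat_lit 492) (nat_lit 5) (nat_lit 404) (nat_lit 401) (nat_lit 335)) (XT.lf (nat_lit 0) (nat_lit 2624444540) (nat_lit 1140) (nat_lit 2989858669) (nat_lit 1216) (nat_lit 1866317833) (nat_lit 477) (nat_lit 5) (nat_lit 492) (nat_lit 5) (nat_lit 493) (nat_lit 5) (nat_lit 405) (nat_lit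 401) (nat_lit 334)))) (XT.nd (nat_lit 156) (nat_lit 1140) (nat_lit 0) (XT.nd (nat_lit 78) (nat_lit 0) (nat_lit 0) (XT.lf (nat_lit 76) (nat_lit 467059293) (nat_lit 0) (nat_lit 3630226706) (nat_lit 1216) (nat_lit 3430423853) (nat_lit 478) (nat_lit 5) (nat_lit 477) (nat_lit 5) (nat_lit 493) (nat_lit 5) (nat_lit 406) (nat_lit 401) (nat_lit 333)) (XT.lf (nat_lit 76) (nat_lit 4013325965) (nat_lit 0) (nat_lit 1570215547) (nat_lit 1216) (nat_lit 1992565531) (nat_lit 478) (nat_lit 5) (nat_lit 477) (nat_lit 5) (nat_lit 493) (nat_lit 5) (nat_lit 407) (nat_lit 401) (nat_lit 332))) (XT.nd (nat_lit 78) (nat_lit 1216) (nat_lit 0) (XT.lf (nat_lit 0) (nat_lit 7067671875) (nat_lit 1140) (nat_lit 19174680) (nat_lit 1216) (nat_lit 539307479) (nat_lit 478) (nat_lit 5) (nat_lit 493) (nat_lit 5) (nat_lit 494) (nat_lit 5) (nat_lit 408) (nat_lit 401) (nat_lit 331)) (XT.lf (nat_lit 0) (nat_lit 891618617) (nat_lit 1216) (nat_lit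 4071216633) (nat_lit 1292) (nat_lit 2714308488) (nat_lit 462) (nat_lit 5) (nat_lit 478) (nat_lit 5) (nat_lit 479) (nat_lit 5) (nat_lit 409) (nat_lit 401) (nat_lit 330))))))) (XT.nd (nat_lit 1014) (nat_lit 8588) (nat_lit 0) (XT.nd (nat_lit 468) (nat_lit 1216) (nat_lit 0) (XT.nd (nat_lit 234) (nat_lit 1216) (nat_lit 0) (XT.nd (nat_lit 78) (nat_lit 0) (nat_lit 0) (XT.lf (nat_lit 0) (nat_lit 2329053215) (nat_lit 1216) (nat_lit 449789275) (nat_lit 1292) (nat_lit 4950962983) (nat_lit 462) (nat_lit 5) (nat_lit 478) (nat_lit 5) (nat_lit 479) (nat_lit 5) (nat_lit 410) (nat_lit 401) (nat_lit 329)) (XT.nd (nat_lit 78) (nat_lit 0) (nat_lit 76) (XT.lf (nat_lit 76) (nat_lit 3266584902) (nat_lit 0) (nat_lit 516206875) (nat_lit 1292) (nat_lit 4001018994) (nat_lit 463) (nat_lit 5) (nat_lit 462) (nat_lit 5) (nat_lit 479) (nat_lit 5) (nat_lit 411) (nat_lit 401) (nat_lit 328)) (XT.lf (nat_lit 0) (nat_lit 5247235416) (nat_lit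 1216) (nat_lit 808081975) (nat_lit 1292) (nat_lit 1783986802) (nat_lit 463) (nat_lit 5) (nat_lit 479) (nat_lit 5) (nat_lit 480) (nat_lit 5) (nat_lit 412) (nat_lit 401) (nat_lit 327)))) (XT.nd (nat_lit 78) (nat_lit 1292) (nat_lit 0) (XT.lf (nat_lit 76) (nat_lit 2990481252) (nat_lit 0) (nat_lit 3740928517) (nat_lit 1292) (nat_lit 1164728704) (nat_lit 464) (nat_lit 5) (nat_lit 463) (nat_lit 5) (nat_lit 480) (nat_lit 5) (nat_lit 413) (nat_lit 401) (nat_lit 326)) (XT.nd (nat_lit 78) (nat_lit 0) (nat_lit 76) (XT.lf (nat_lit 0) (nat_lit 260657991) (nat_lit 1292) (nat_lit 1100853541) (nat_lit 1368) (nat_lit 6593132009) (nat_lit 446) (nat_lit 5) (nat_lit 463) (nat_lit 5) (nat_lit 464) (nat_lit 5) (nat_lit 414) (nat_lit 401) (nat_lit 325)) (XT.lf (nat_lit 0) (nat_lit 1692726027) (nat_lit 1292) (nat_lit 5233213201) (nat_lit 1368) (nat_lit 1088387650) (nat_lit 447) (nat_lit 5) (nat_lit 464) (nat_lit 5) (nat_lit 465)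 (nat_lit 5) (nat_lit 415) (nat_lit 401) (nat_lit 324))))) (XT.nd (nat_lit 234) (nat_lit 1292) (nat_lit 0) (XT.nd (nat_lit 78) (nat_lit 0) (nat_lit 0) (XT.lf (nat_lit 0) (nat_lit 3138933334) (nat_lit 1292) (nat_lit 1349556928) (nat_lit 1368) (nat_lit 3587040454) (nat_lit 447) (nat_lit 5) (nat_lit 464) (nat_lit 5) (nat_lit 465) (nat_lit 5) (nat_lit 416) (nat_lit 401) (nat_lit 323)) (XT.nd (nat_lit 78) (nat_lit 0) (nat_lit 76) (XT.lf (nat_lit 76) (nat_lit 2625542384) (nat_lit 0) (nat_lit 1975221176) (nat_lit 1368) (nat_lit 3537497168) (nat_lit 448) (nat_lit 5) (nat_lit 447) (nat_lit 5) (nat_lit 465) (nat_lit 5) (nat_lit 417) (nat_lit 401) (nat_lit 322)) (XT.lf (nat_lit 0) (nat_lit 6074940861) (nat_lit 1292) (nat_lit 1528729069) (nat_lit 1368) (nat_lit 598948564) (nat_lit 448) (nat_lit 5) (nat_lit 465) (nat_lit 5) (nat_lit 466) (nat_lit 5) (nat_lit 418) (nat_lit 401) (nat_lit 321)))) (XT.nd (nat_lit 156)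 (nat_lit 0) (nat_lit 76) (XT.nd (nat_lit 78) (nat_lit 1368) (nat_lit 0) (XT.lf (nat_lit 76) (nat_lit 2534290415) (nat_lit 0) (nat_lit 5044605873) (nat_lit 1368) (nat_lit 689395909) (nat_lit 449) (nat_lit 5) (nat_lit 448) (nat_lit 5) (nat_lit 466) (nat_lit 5) (nat_lit 419) (nat_lit 401) (nat_lit 320)) (XT.lf (nat_lit 0) (nat_lit 748753140) (nat_lit 1368) (nat_lit 1661987047) (nat_lit 1444) (nat_lit 5924845517) (nat_lit 430) (nat_lit 5) (nat_lit 448) (nat_lit 5) (nat_lit 449) (nat_lit 5) (nat_lit 420) (nat_lit 401) (nat_lit 319))) (XT.nd (nat_lit 78) (nat_lit 0) (nat_lit 0) (XT.lf (nat_lit 0) (nat_lit 2196190220) (nat_lit 1368) (nat_lit 5907387658) (nat_lit 1444) (nat_lit 300793613) (nat_lit 431) (nat_lit 5) (nat_lit 449) (nat_lit 5) (nat_lit 450) (nat_lit 5) (nat_lit 421) (nat_lit 401) (nat_lit 318)) (XT.lf (nat_lit 0) (nat_lit 3671784494) (nat_lit 1368) (nat_lit 1749866457) (nat_lit 1444) (nat_lit 3052929907)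 (nat_lit 431) (nat_lit 5) (nat_lit 449) (nat_lit 5) (nat_lit 450) (nat_lit 5) (nat_lit 422) (nat_lit 401) (nat_lit 317)))))) (XT.nd (nat_lit 546) (nat_lit 4332) (nat_lit 0) (XT.nd (nat_lit 234) (nat_lit 3040) (nat_lit 0) (XT.nd (nat_lit 78) (nat_lit 1292) (nat_lit 0) (XT.lf (nat_lit 76) (nat_lit 2502865706) (nat_lit 0) (nat_lit 2662840522) (nat_lit 1444) (nat_lit 3380743274) (nat_lit 432) (nat_lit 5) (nat_lit 431) (nat_lit 5) (nat_lit 450) (nat_lit 5) (nat_lit 423) (nat_lit 401) (nat_lit 316)) (XT.nd (nat_lit 78) (nat_lit 1368) (nat_lit 0) (XT.lf (nat_lit 0) (nat_lit 6675318911) (nat_lit 1368) (nat_lit 1777448715) (nat_lit 76) (nat_lit 167302431) (nat_lit 432) (nat_lit 5) (nat_lit 450) (nat_lit 5) (nat_lit 433) (nat_lit 5) (nat_lit 424) (nat_lit 401) (nat_lit 315)) (XT.lf (nat_lit 0) (nat_lit 2569245625) (nat_lit 1368) (nat_lit 5653734253) (nat_lit 1444) (nat_lit 472056208) (nat_lit 414) (nat_lit 5) (nat_lit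 432) (nat_lit 5) (nat_lit 433) (nat_lit 5) (nat_lit 425) (nat_lit 401) (nat_lit 314)))) (XT.nd (nat_lit 156) (nat_lit 1520) (nat_lit 0) (XT.nd (nat_lit 78) (nat_lit 1444) (nat_lit 0) (XT.lf (nat_lit 0) (nat_lit 1002312079) (nat_lit 1444) (nat_lit 1772128354) (nat_lit 76) (nat_lit 5997241667) (nat_lit 413) (nat_lit 5) (nat_lit 432) (nat_lit 5) (nat_lit 414) (nat_lit 5) (nat_lit 426) (nat_lit 401) (nat_lit 313)) (XT.lf (nat_lit 0) (nat_lit 2492714699) (nat_lit 1520) (nat_lit 6171241811) (nat_lit 76) (nat_lit 186013206) (nat_lit 394) (nat_lit 5) (nat_lit 414) (nat_lit 5) (nat_lit 395) (nat_lit 5) (nat_lit 427) (nat_lit 401) (nat_lit 312))) (XT.nd (nat_lit 78) (nat_lit 1520) (nat_lit 0) (XT.lf (nat_lit 0) (nat_lit 4017911318) (nat_lit 1520) (nat_lit 1726499284) (nat_lit 76) (nat_lit 3185340646) (nat_lit 394) (nat_lit 5) (nat_lit 414) (nat_lit 5) (nat_lit 395) (nat_lit 5) (nat_lit 428) (nat_lit 401) (nat_lit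 311)) (XT.lf (nat_lit 0) (nat_lit 2823497730) (nat_lit 1520) (nat_lit 2743584887) (nat_lit 1596) (nat_lit 3444203719) (nat_lit 374) (nat_lit 5) (nat_lit 394) (nat_lit 5) (nat_lit 395) (nat_lit 5) (nat_lit 429) (nat_lit 401) (nat_lit 310))))) (XT.nd (nat_lit 234) (nat_lit 2660) (nat_lit 0) (XT.nd (nat_lit 78) (nat_lit 1672) (nat_lit 0) (XT.lf (nat_lit 0) (nat_lit 7136478298) (nat_lit 1596) (nat_lit 1629536928) (nat_lit 76) (nat_lit 328678881) (nat_lit 374) (nat_lit 5) (nat_lit 395) (nat_lit 5) (nat_lit 375) (nat_lit 5) (nat_lit 430) (nat_lit 401) (nat_lit 309)) (XT.nd (nat_lit 78) (nat_lit 76) (nat_lit 0) (XT.lf (nat_lit 0) (nat_lit 3020662384) (nat_lit 1596) (nat_lit 5730379780) (nat_lit 1672) (nat_lit 428478542) (nat_lit 353) (nat_lit 5) (nat_lit 374) (nat_lit 5) (nat_lit 375) (nat_lit 5) (nat_lit 431) (nat_lit 401) (nat_lit 308)) (XT.lf (nat_lit 0) (nat_lit 1104170359) (nat_lit 1672) (nat_lit 1508162513)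 (nat_lit 76) (nat_lit 6653846018) (nat_lit 352) (nat_lit 5) (nat_lit 374) (nat_lit 5) (nat_lit 353) (nat_lit 5) (nat_lit 432) (nat_lit 401) (nat_lit 307)))) (XT.nd (nat_lit 156) (nat_lit 988) (nat_lit 0) (XT.nd (nat_lit 78) (nat_lit 0) (nat_lit 0) (XT.lf (nat_lit 0) (nat_lit 2663360944) (nat_lit 1748) (nat_lit 6103511939) (nat_lit 76) (nat_lit 587632950) (nat_lit 330) (nat_lit 5) (nat_lit 353) (nat_lit 5) (nat_lit 331) (nat_lit 5) (nat_lit 433) (nat_lit 401) (nat_lit 306)) (XT.lf (nat_lit 0) (nat_lit 4258188720) (nat_lit 1748) (nat_lit 1356817045) (nat_lit 76) (nat_lit 3829528758) (nat_lit 330) (nat_lit 5) (nat_lit 353) (nat_lit 5) (nat_lit 331) (nat_lit 5) (nat_lit 434) (nat_lit 401) (nat_lit 305))) (XT.nd (nat_lit 78) (nat_lit 0) (nat_lit 0) (XT.lf (nat_lit 0) (nat_lit 3510430230) (nat_lit 988) (nat_lit 2374692093) (nat_lit 1064) (nat_lit 3651261078) (nat_lit 317) (nat_lit 5) (nat_lit 330) (nat_lit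 5) (nat_lit 331) (nat_lit 5) (nat_lit 435) (nat_lit 401) (nat_lit 304)) (XT.lf (nat_lit 0) (nat_lit 7537542006) (nat_lit 1064) (nat_lit 1163342688) (nat_lit 76) (nat_lit 929348949) (nat_lit 317) (nat_lit 5) (nat_lit 331) (nat_lit 5) (nat_lit 318) (nat_lit 5) (nat_lit 436) (nat_lit 401) (nat_lit 303))))))))
noncomputable def xc155 : XT := (XT.nd (nat_lit 2106) (nat_lit 6460) (nat_lit 0) (XT.nd (nat_lit 1014) (nat_lit 4560) (nat_lit 0) (XT.nd (nat_lit 468) (nat_lit 2964) (nat_lit 0) (XT.nd (nat_lit 234) (nat_lit 760) (nat_lit 0) (XT.nd (nat_lit 78) (nat_lit 912) (nat_lit 0) (XT.lf (nat_lit 0) (nat_lit 3810406220) (nat_lit 836) (nat_lit 5431247628) (nat_lit 912) (nat_lit 483957039) (nat_lit 306) (nat_lit 5) (nat_lit 317) (nat_lit 5) (nat_lit 318) (nat_lit 5) (nat_lit 437) (nat_lit 401) (nat_lit 302)) (XT.nd (nat_lit 78) (nat_lit 836) (nat_lit 0) (XT.lf (nat_lit 0) (nat_lit 1127946469) (nat_lit 912) (nat_lit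 951441218) (nat_lit 76) (nat_lit 7743656387) (nat_lit 305) (nat_lit 5) (nat_lit 317) (nat_lit 5) (nat_lit 306) (nat_lit 5) (nat_lit 438) (nat_lit 401) (nat_lit 301)) (XT.lf (nat_lit 0) (nat_lit 2780148839) (nat_lit 912) (nat_lit 5788586240) (nat_lit 76) (nat_lit 1353357601) (nat_lit 294) (nat_lit 5) (nat_lit 306) (nat_lit 5) (nat_lit 295) (nat_lit 5) (nat_lit 439) (nat_lit 401) (nat_lit 300)))) (XT.nd (nat_lit 78) (nat_lit 760) (nat_lit 0) (XT.lf (nat_lit 0) (nat_lit 4464621236) (nat_lit 912) (nat_lit 724207193) (nat_lit 76) (nat_lit 4834330444) (nat_lit 294) (nat_lit 5) (nat_lit 306) (nat_lit 5) (nat_lit 295) (nat_lit 5) (nat_lit 440) (nat_lit 401) (nat_lit 299)) (XT.nd (nat_lit 78) (nat_lit 0) (nat_lit 0) (XT.lf (nat_lit 0) (nat_lit 4480168975) (nat_lit 760) (nat_lit 1711141791) (nat_lit 836) (nat_lit 3934785789) (nat_lit 284) (nat_lit 5) (nat_lit 294) (nat_lit 5) (nat_lit 295) (nat_lit 5) (nat_lit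 441) (nat_lit 401) (nat_lit 298)) (XT.lf (nat_lit 0) (nat_lit 7949062948) (nat_lit 836) (nat_lit 464844891) (nat_lit 76) (nat_lit 1817274887) (nat_lit 284) (nat_lit 5) (nat_lit 295) (nat_lit 5) (nat_lit 285) (nat_lit 5) (nat_lit 442) (nat_lit 401) (nat_lit 297))))) (XT.nd (nat_lit 234) (nat_lit 1444) (nat_lit 0) (XT.nd (nat_lit 78) (nat_lit 760) (nat_lit 0) (XT.lf (nat_lit 0) (nat_lit 4852218804) (nat_lit 760) (nat_lit 4912700681) (nat_lit 836) (nat_lit 573012063) (nat_lit 274) (nat_lit 5) (nat_lit 284) (nat_lit 5) (nat_lit 285) (nat_lit 5) (nat_lit 443) (nat_lit 401) (nat_lit 296)) (XT.nd (nat_lit 78) (nat_lit 684) (nat_lit 0) (XT.lf (nat_lit 0) (nat_lit 1138294883) (nat_lit 836) (nat_lit 192543981) (nat_lit 76) (nat_lit 9116176351) (nat_lit 273) (nat_lit 5) (nat_lit 284) (nat_lit 5) (nat_lit 274) (nat_lit 5) (nat_lit 444) (nat_lit 401) (nat_lit 295)) (XT.lf (nat_lit 0) (nat_lit 2906203483) (nat_lit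 760) (nat_lit 5321388698) (nat_lit 76) (nat_lit 2330030423) (nat_lit 264) (nat_lit 5) (nat_lit 274) (nat_lit 5) (nat_lit 265) (nat_lit 5) (nat_lit 445) (nat_lit 401) (nat_lit 294)))) (XT.nd (nat_lit 156) (nat_lit 684) (nat_lit 0) (XT.nd (nat_lit 78) (nat_lit 0) (nat_lit 0) (XT.lf (nat_lit 0) (nat_lit 78010552) (nat_lit 760) (nat_lit 4622943731) (nat_lit 836) (nat_lit 5969676576) (nat_lit 254) (nat_lit 5) (nat_lit 264) (nat_lit 5) (nat_lit 265) (nat_lit 5) (nat_lit 446) (nat_lit 401) (nat_lit 293)) (XT.lf (nat_lit 0) (nat_lit 5637690458) (nat_lit 760) (nat_lit 910728774) (nat_lit 836) (nat_lit 4237161702) (nat_lit 254) (nat_lit 5) (nat_lit 264) (nat_lit 5) (nat_lit 265) (nat_lit 5) (nat_lit 447) (nat_lit 401) (nat_lit 292))) (XT.nd (nat_lit 78) (nat_lit 0) (nat_lit 0) (XT.lf (nat_lit 0) (nat_lit 372109924) (nat_lit 684) (nat_lit 8063284851) (nat_lit 760) (nat_lit 2467401691) (nat_lit 245) (nat_lit 5) (nat_lit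 254) (nat_lit 5) (nat_lit 255) (nat_lit 5) (nat_lit 448) (nat_lit 401) (nat_lit 291)) (XT.lf (nat_lit 0) (nat_lit 6046477191) (nat_lit 684) (nat_lit 4335878821) (nat_lit 760) (nat_lit 639572711) (nat_lit 245) (nat_lit 5) (nat_lit 254) (nat_lit 5) (nat_lit 255) (nat_lit 5) (nat_lit 449) (nat_lit 401) (nat_lit 290)))))) (XT.nd (nat_lit 546) (nat_lit 1824) (nat_lit 0) (XT.nd (nat_lit 234) (nat_lit 1368) (nat_lit 0) (XT.nd (nat_lit 78) (nat_lit 608) (nat_lit 0) (XT.lf (nat_lit 0) (nat_lit 672178495) (nat_lit 684) (nat_lit 522867540) (nat_lit 760) (nat_lit 9948529271) (nat_lit 235) (nat_lit 5) (nat_lit 244) (nat_lit 5) (nat_lit 245) (nat_lit 5) (nat_lit 450) (nat_lit 401) (nat_lit 289)) (XT.nd (nat_lit 78) (nat_lit 608) (nat_lit 0) (XT.lf (nat_lit 0) (nat_lit 3095417420) (nat_lit 760) (nat_lit 4812903064) (nat_lit 76) (nat_lit 3358513640) (nat_lit 235) (nat_lit 5) (nat_lit 245) (nat_lit 5) (nat_lit 236) (nat_lit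 5) (nat_lit 451) (nat_lit 401) (nat_lit 288)) (XT.lf (nat_lit 0) (nat_lit 948316516) (nat_lit 608) (nat_lit 4077599708) (nat_lit 684) (nat_lit 6366815510) (nat_lit 227) (nat_lit 5) (nat_lit 235) (nat_lit 5) (nat_lit 236) (nat_lit 5) (nat_lit 452) (nat_lit 401) (nat_lit 287)))) (XT.nd (nat_lit 156) (nat_lit 684) (nat_lit 0) (XT.nd (nat_lit 78) (nat_lit 684) (nat_lit 0) (XT.lf (nat_lit 0) (nat_lit 6870709724) (nat_lit 608) (nat_lit 139330469) (nat_lit 684) (nat_lit 4510822501) (nat_lit 227) (nat_lit 5) (nat_lit 235) (nat_lit 5) (nat_lit 236) (nat_lit 5) (nat_lit 453) (nat_lit 401) (nat_lit 286)) (XT.lf (nat_lit 0) (nat_lit 1231717952) (nat_lit 684) (nat_lit 7818346598) (nat_lit 760) (nat_lit 2601182760) (nat_lit 218) (nat_lit 5) (nat_lit 227) (nat_lit 5) (nat_lit 228) (nat_lit 5) (nat_lit 454) (nat_lit 401) (nat_lit 285))) (XT.nd (nat_lit 78) (nat_lit 684) (nat_lit 0) (XT.lf (nat_lit 0) (nat_lit 7274197887)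 (nat_lit 684) (nat_lit 3872065558) (nat_lit 760) (nat_lit 637683785) (nat_lit 218) (nat_lit 5) (nat_lit 227) (nat_lit 5) (nat_lit 228) (nat_lit 5) (nat_lit 455) (nat_lit 401) (nat_lit 284)) (XT.lf (nat_lit 0) (nat_lit 1341546468) (nat_lit 684) (nat_lit 10410192418) (nat_lit 76) (nat_lit 167512215) (nat_lit 209) (nat_lit 5) (nat_lit 218) (nat_lit 5) (nat_lit 210) (nat_lit 5) (nat_lit 456) (nat_lit 401) (nat_lit 283))))) (XT.nd (nat_lit 234) (nat_lit 1216) (nat_lit 0) (XT.nd (nat_lit 78) (nat_lit 608) (nat_lit 0) (XT.lf (nat_lit 0) (nat_lit 3391579754) (nat_lit 684) (nat_lit 4396534913) (nat_lit 76) (nat_lit 4268281163) (nat_lit 209) (nat_lit 5) (nat_lit 218) (nat_lit 5) (nat_lit 210) (nat_lit 5) (nat_lit 457) (nat_lit 401) (nat_lit 282)) (XT.nd (nat_lit 78) (nat_lit 0) (nat_lit 0) (XT.lf (nat_lit 0) (nat_lit 1741424518) (nat_lit 608) (nat_lit 3736459399) (nat_lit 684) (nat_lit 6718508075) (nat_lit 201)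 (nat_lit 5) (nat_lit 209) (nat_lit 5) (nat_lit 210) (nat_lit 5) (nat_lit 458) (nat_lit 401) (nat_lit 281)) (XT.lf (nat_lit 0) (nat_lit 7622323574) (nat_lit 684) (nat_lit 4298625294) (nat_lit 76) (nat_lit 417924692) (nat_lit 201) (nat_lit 5) (nat_lit 210) (nat_lit 5) (nat_lit 202) (nat_lit 5) (nat_lit 459) (nat_lit 401) (nat_lit 280)))) (XT.nd (nat_lit 156) (nat_lit 684) (nat_lit 0) (XT.nd (nat_lit 78) (nat_lit 0) (nat_lit 0) (XT.lf (nat_lit 0) (nat_lit 1963220845) (nat_lit 532) (nat_lit 7868371866) (nat_lit 608) (nat_lit 2652186636) (nat_lit 194) (nat_lit 5) (nat_lit 201) (nat_lit 5) (nat_lit 202) (nat_lit 5) (nat_lit 460) (nat_lit 401) (nat_lit 279)) (XT.lf (nat_lit 0) (nat_lit 8390069328) (nat_lit 532) (nat_lit 3708458108) (nat_lit 608) (nat_lit 532799347) (nat_lit 194) (nat_lit 5) (nat_lit 201) (nat_lit 5) (nat_lit 202) (nat_lit 5) (nat_lit 461) (nat_lit 401) (nat_lit 278))) (XT.nd (nat_lit 78) (nat_lit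 0) (nat_lit 0) (XT.lf (nat_lit 0) (nat_lit 1610092169) (nat_lit 684) (nat_lit 10622195521) (nat_lit 76) (nat_lit 549288964) (nat_lit 185) (nat_lit 5) (nat_lit 194) (nat_lit 5) (nat_lit 186) (nat_lit 5) (nat_lit 462) (nat_lit 401) (nat_lit 277)) (XT.lf (nat_lit 0) (nat_lit 3826904048) (nat_lit 684) (nat_lit 4235540378) (nat_lit 76) (nat_lit 4871565108) (nat_lit 185) (nat_lit 5) (nat_lit 194) (nat_lit 5) (nat_lit 186) (nat_lit 5) (nat_lit 463) (nat_lit 401) (nat_lit 276))))))) (XT.nd (nat_lit 1092) (nat_lit 2888) (nat_lit 0) (XT.nd (nat_lit 546) (nat_lit 1444) (nat_lit 0) (XT.nd (nat_lit 234) (nat_lit 1064) (nat_lit 0) (XT.nd (nat_lit 78) (nat_lit 532) (nat_lit 0) (XT.lf (nat_lit 0) (nat_lit 2290728786) (nat_lit 532) (nat_lit 3797471964) (nat_lit 608) (nat_lit 7001299488) (nat_lit 178) (nat_lit 5) (nat_lit 185) (nat_lit 5) (nat_lit 186) (nat_lit 5) (nat_lit 464) (nat_lit 401) (nat_lit 275)) (XT.nd (nat_lit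 78) (nat_lit 532) (nat_lit 0) (XT.lf (nat_lit 0) (nat_lit 8412348024) (nat_lit 608) (nat_lit 4264695686) (nat_lit 76) (nat_lit 570716452) (nat_lit 178) (nat_lit 5) (nat_lit 186) (nat_lit 5) (nat_lit 179) (nat_lit 5) (nat_lit 465) (nat_lit 401) (nat_lit 274)) (XT.lf (nat_lit 0) (nat_lit 2388271453) (nat_lit 532) (nat_lit 8421072207) (nat_lit 608) (nat_lit 2599325985) (nat_lit 171) (nat_lit 5) (nat_lit 178) (nat_lit 5) (nat_lit 179) (nat_lit 5) (nat_lit 466) (nat_lit 401) (nat_lit 273)))) (XT.nd (nat_lit 156) (nat_lit 532) (nat_lit 0) (XT.nd (nat_lit 78) (nat_lit 532) (nat_lit 0) (XT.lf (nat_lit 0) (nat_lit 9214261263) (nat_lit 532) (nat_lit 4054510975) (nat_lit 608) (nat_lit 303746658) (nat_lit 171) (nat_lit 5) (nat_lit 178) (nat_lit 5) (nat_lit 179) (nat_lit 5) (nat_lit 467) (nat_lit 401) (nat_lit 272)) (XT.lf (nat_lit 0) (nat_lit 2015659236) (nat_lit 532) (nat_lit 11303934853) (nat_lit 76) (nat_lit 419704620)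 (nat_lit 164) (nat_lit 5) (nat_lit 171) (nat_lit 5) (nat_lit 165) (nat_lit 5) (nat_lit 468) (nat_lit 401) (nat_lit 271))) (XT.nd (nat_lit 78) (nat_lit 532) (nat_lit 0) (XT.lf (nat_lit 0) (nat_lit 4419864568) (nat_lit 532) (nat_lit 4531788281) (nat_lit 76) (nat_lit 4956882324) (nat_lit 164) (nat_lit 5) (nat_lit 171) (nat_lit 5) (nat_lit 165) (nat_lit 5) (nat_lit 469) (nat_lit 401) (nat_lit 270)) (XT.lf (nat_lit 0) (nat_lit 2389653850) (nat_lit 532) (nat_lit 4484470015) (nat_lit 608) (nat_lit 7207003671) (nat_lit 157) (nat_lit 5) (nat_lit 164) (nat_lit 5) (nat_lit 165) (nat_lit 5) (nat_lit 470) (nat_lit 401) (nat_lit 269))))) (XT.nd (nat_lit 234) (nat_lit 912) (nat_lit 0) (XT.nd (nat_lit 78) (nat_lit 532) (nat_lit 0) (XT.lf (nat_lit 0) (nat_lit 9395129862) (nat_lit 608) (nat_lit 4763903786) (nat_lit 76) (nat_lit 97795229) (nat_lit 157) (nat_lit 5) (nat_lit 165) (nat_lit 5) (nat_lit 158) (nat_lit 5) (nat_lit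 471) (nat_lit 401) (nat_lit 268)) (XT.nd (nat_lit 78) (nat_lit 76) (nat_lit 0) (XT.lf (nat_lit 0) (nat_lit 2285210148) (nat_lit 456) (nat_lit 9712726106) (nat_lit 532) (nat_lit 2437490540) (nat_lit 151) (nat_lit 5) (nat_lit 157) (nat_lit 5) (nat_lit 158) (nat_lit 5) (nat_lit 472) (nat_lit 401) (nat_lit 267)) (XT.lf (nat_lit 0) (nat_lit 53815650) (nat_lit 532) (nat_lit 5094865304) (nat_lit 76) (nat_lit 9468539404) (nat_lit 150) (nat_lit 5) (nat_lit 157) (nat_lit 5) (nat_lit 151) (nat_lit 5) (nat_lit 473) (nat_lit 401) (nat_lit 266)))) (XT.nd (nat_lit 156) (nat_lit 456) (nat_lit 0) (XT.nd (nat_lit 78) (nat_lit 0) (nat_lit 0) (XT.lf (nat_lit 0) (nat_lit 2095929366) (nat_lit 456) (nat_lit 467171444) (nat_lit 532) (nat_lit 12239220501) (nat_lit 144) (nat_lit 5) (nat_lit 150) (nat_lit 5) (nat_lit 151) (nat_lit 5) (nat_lit 474) (nat_lit 401) (nat_lit 265)) (XT.lf (nat_lit 0) (nat_lit 5172224666) (nat_lit 532)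 (nat_lit 5536169170) (nat_lit 76) (nat_lit 4281746770) (nat_lit 144) (nat_lit 5) (nat_lit 151) (nat_lit 5) (nat_lit 145) (nat_lit 5) (nat_lit 475) (nat_lit 401) (nat_lit 264))) (XT.nd (nat_lit 78) (nat_lit 0) (nat_lit 0) (XT.lf (nat_lit 0) (nat_lit 1780923065) (nat_lit 456) (nat_lit 6054781539) (nat_lit 532) (nat_lit 7345977410) (nat_lit 138) (nat_lit 5) (nat_lit 144) (nat_lit 5) (nat_lit 145) (nat_lit 5) (nat_lit 476) (nat_lit 401) (nat_lit 263)) (XT.lf (nat_lit 0) (nat_lit 9302713619) (nat_lit 456) (nat_lit 1274544372) (nat_lit 532) (nat_lit 4799309201) (nat_lit 138) (nat_lit 5) (nat_lit 144) (nat_lit 5) (nat_lit 145) (nat_lit 5) (nat_lit 477) (nat_lit 401) (nat_lit 262)))))) (XT.nd (nat_lit 546) (nat_lit 1596) (nat_lit 0) (XT.nd (nat_lit 234) (nat_lit 380) (nat_lit 0) (XT.nd (nat_lit 78) (nat_lit 456) (nat_lit 0) (XT.lf (nat_lit 0) (nat_lit 1377692736) (nat_lit 456) (nat_lit 12016144322) (nat_lit 532)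 (nat_lit 2181117966) (nat_lit 132) (nat_lit 5) (nat_lit 138) (nat_lit 5) (nat_lit 139) (nat_lit 5) (nat_lit 478) (nat_lit 401) (nat_lit 261)) (XT.nd (nat_lit 78) (nat_lit 380) (nat_lit 0) (XT.lf (nat_lit 0) (nat_lit 520397999) (nat_lit 532) (nat_lit 6744425054) (nat_lit 76) (nat_lit 8511684905) (nat_lit 131) (nat_lit 5) (nat_lit 138) (nat_lit 5) (nat_lit 132) (nat_lit 5) (nat_lit 479) (nat_lit 401) (nat_lit 260)) (XT.lf (nat_lit 0) (nat_lit 837693380) (nat_lit 380) (nat_lit 2402659534) (nat_lit 456) (nat_lit 12741586748) (nat_lit 126) (nat_lit 5) (nat_lit 131) (nat_lit 5) (nat_lit 132) (nat_lit 5) (nat_lit 480) (nat_lit 401) (nat_lit 259)))) (XT.nd (nat_lit 156) (nat_lit 0) (nat_lit 0) (XT.nd (nat_lit 78) (nat_lit 380) (nat_lit 0) (XT.lf (nat_lit 0) (nat_lit 6065111067) (nat_lit 456) (nat_lit 7561021768) (nat_lit 76) (nat_lit 2564347251) (nat_lit 126) (nat_lit 5) (nat_lit 132) (nat_lit 5) (nat_lit 127)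 (nat_lit 5) (nat_lit 481) (nat_lit 401) (nat_lit 258)) (XT.lf (nat_lit 0) (nat_lit 143739026) (nat_lit 380) (nat_lit 8807946406) (nat_lit 456) (nat_lit 7451407474) (nat_lit 121) (nat_lit 5) (nat_lit 126) (nat_lit 5) (nat_lit 127) (nat_lit 5) (nat_lit 482) (nat_lit 401) (nat_lit 257))) (XT.nd (nat_lit 78) (nat_lit 0) (nat_lit 0) (XT.lf (nat_lit 0) (nat_lit 8089090889) (nat_lit 380) (nat_lit 3846237084) (nat_lit 456) (nat_lit 4683851129) (nat_lit 121) (nat_lit 5) (nat_lit 126) (nat_lit 5) (nat_lit 127) (nat_lit 5) (nat_lit 483) (nat_lit 401) (nat_lit 256)) (XT.lf (nat_lit 0) (nat_lit 14975322616) (nat_lit 456) (nat_lit 670008076) (nat_lit 76) (nat_lit 1194330442) (nat_lit 121) (nat_lit 5) (nat_lit 127) (nat_lit 5) (nat_lit 122) (nat_lit 5) (nat_lit 484) (nat_lit 401) (nat_lit 255))))) (XT.nd (nat_lit 234) (nat_lit 760) (nat_lit 0) (XT.nd (nat_lit 78) (nat_lit 380) (nat_lit 0) (XT.lf (nat_lit 0) (nat_lit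 1061255687) (nat_lit 456) (nat_lit 9666966144) (nat_lit 76) (nat_lit 6334947853) (nat_lit 115) (nat_lit 5) (nat_lit 121) (nat_lit 5) (nat_lit 116) (nat_lit 5) (nat_lit 485) (nat_lit 401) (nat_lit 254)) (XT.nd (nat_lit 78) (nat_lit 380) (nat_lit 0) (XT.lf (nat_lit 0) (nat_lit 4013995524) (nat_lit 456) (nat_lit 1686236404) (nat_lit 76) (nat_lit 11590805323) (nat_lit 115) (nat_lit 5) (nat_lit 121) (nat_lit 5) (nat_lit 116) (nat_lit 5) (nat_lit 486) (nat_lit 401) (nat_lit 253)) (XT.lf (nat_lit 0) (nat_lit 6524359352) (nat_lit 380) (nat_lit 533054037) (nat_lit 456) (nat_lit 10465423426) (nat_lit 110) (nat_lit 5) (nat_lit 115) (nat_lit 5) (nat_lit 116) (nat_lit 5) (nat_lit 487) (nat_lit 401) (nat_lit 252)))) (XT.nd (nat_lit 156) (nat_lit 456) (nat_lit 0) (XT.nd (nat_lit 78) (nat_lit 304) (nat_lit 0) (XT.lf (nat_lit 0) (nat_lit 10193193569) (nat_lit 456) (nat_lit 2883261008) (nat_lit 76) (nat_lit 4682194887)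 (nat_lit 110) (nat_lit 5) (nat_lit 116) (nat_lit 5) (nat_lit 111) (nat_lit 5) (nat_lit 488) (nat_lit 401) (nat_lit 251)) (XT.lf (nat_lit 0) (nat_lit 5447065296) (nat_lit 304) (nat_lit 7973073806) (nat_lit 380) (nat_lit 4578477104) (nat_lit 106) (nat_lit 5) (nat_lit 110) (nat_lit 5) (nat_lit 111) (nat_lit 5) (nat_lit 489) (nat_lit 401) (nat_lit 250))) (XT.nd (nat_lit 78) (nat_lit 456) (nat_lit 0) (XT.lf (nat_lit 0) (nat_lit 13968077294) (nat_lit 304) (nat_lit 2752555495) (nat_lit 380) (nat_lit 1522576010) (nat_lit 106) (nat_lit 5) (nat_lit 110) (nat_lit 5) (nat_lit 111) (nat_lit 5) (nat_lit 490) (nat_lit 401) (nat_lit 249)) (XT.lf (nat_lit 0) (nat_lit 1607489718) (nat_lit 456) (nat_lit 14312420479) (nat_lit 76) (nat_lit 2571903284) (nat_lit 100) (nat_lit 5) (nat_lit 106) (nat_lit 5) (nat_lit 101) (nat_lit 5) (nat_lit 491) (nat_lit 401) (nat_lit 248))))))))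
noncomputable def xc156 : XT := (XT.nd (nat_lit 2106) (nat_lit 532) (nat_lit 0) (XT.nd (nat_lit 1014) (nat_lit 1368) (nat_lit 0) (XT.nd (nat_lit 468) (nat_lit 1216) (nat_lit 0) (XT.nd (nat_lit 234) (nat_lit 380) (nat_lit 0) (XT.nd (nat_lit 78) (nat_lit 304) (nat_lit 0) (XT.lf (nat_lit 0) (nat_lit 4816760113) (nat_lit 456) (nat_lit 5927292722) (nat_lit 76) (nat_lit 8000402638) (nat_lit 100) (nat_lit 5) (nat_lit 106) (nat_lit 5) (nat_lit 101) (nat_lit 5) (nat_lit 492) (nat_lit 401) (nat_lit 247)) (XT.nd (nat_lit 78) (nat_lit 0) (nat_lit 0) (XT.lf (nat_lit 0) (nat_lit 2645595194) (nat_lit 304) (nat_lit 5451860789) (nat_lit 380) (nat_lit 10904555713) (nat_lit 96) (nat_lit 5) (nat_lit 100) (nat_lit 5) (nat_lit 101) (nat_lit 5) (nat_lit 493) (nat_lit 401) (nat_lit 246)) (XT.lf (nat_lit 0) (nat_lit 11455743345) (nat_lit 304) (nat_lit 17961203) (nat_lit 380) (nat_lit 7790421788) (nat_lit 96) (nat_lit 5) (nat_lit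 100) (nat_lit 5) (nat_lit 101) (nat_lit 5) (nat_lit 494) (nat_lit 401) (nat_lit 245)))) (XT.nd (nat_lit 78) (nat_lit 76) (nat_lit 0) (XT.lf (nat_lit 0) (nat_lit 871747612) (nat_lit 304) (nat_lit 14077586345) (nat_lit 380) (nat_lit 4581518146) (nat_lit 92) (nat_lit 5) (nat_lit 96) (nat_lit 5) (nat_lit 97) (nat_lit 5) (nat_lit 495) (nat_lit 401) (nat_lit 244)) (XT.nd (nat_lit 78) (nat_lit 76) (nat_lit 0) (XT.lf (nat_lit 0) (nat_lit 9816872671) (nat_lit 304) (nat_lit 8720542863) (nat_lit 380) (nat_lit 1264643892) (nat_lit 92) (nat_lit 5) (nat_lit 96) (nat_lit 5) (nat_lit 97) (nat_lit 5) (nat_lit 496) (nat_lit 401) (nat_lit 243)) (XT.lf (nat_lit 0) (nat_lit 2081325463) (nat_lit 380) (nat_lit 1165728387) (nat_lit 76) (nat_lit 16831556692) (nat_lit 91) (nat_lit 5) (nat_lit 96) (nat_lit 5) (nat_lit 92) (nat_lit 5) (nat_lit 497) (nat_lit 401) (nat_lit 242))))) (XT.nd (nat_lit 234) (nat_lit 608) (nat_lit 0) (XT.nd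 (nat_lit 78) (nat_lit 304) (nat_lit 0) (XT.lf (nat_lit 0) (nat_lit 5534924075) (nat_lit 380) (nat_lit 12463618951) (nat_lit 76) (nat_lit 2360835096) (nat_lit 87) (nat_lit 5) (nat_lit 92) (nat_lit 5) (nat_lit 88) (nat_lit 5) (nat_lit 498) (nat_lit 401) (nat_lit 241)) (XT.nd (nat_lit 78) (nat_lit 304) (nat_lit 0) (XT.lf (nat_lit 0) (nat_lit 9077763258) (nat_lit 380) (nat_lit 3526853738) (nat_lit 76) (nat_lit 8040746074) (nat_lit 87) (nat_lit 5) (nat_lit 92) (nat_lit 5) (nat_lit 88) (nat_lit 5) (nat_lit 499) (nat_lit 401) (nat_lit 240)) (XT.lf (nat_lit 0) (nat_lit 5649036971) (nat_lit 304) (nat_lit 7070070601) (nat_lit 380) (nat_lit 8217412462) (nat_lit 83) (nat_lit 5) (nat_lit 87) (nat_lit 5) (nat_lit 88) (nat_lit 5) (nat_lit 500) (nat_lit 401) (nat_lit 239)))) (XT.nd (nat_lit 156) (nat_lit 380) (nat_lit 0) (XT.nd (nat_lit 78) (nat_lit 228) (nat_lit 0) (XT.lf (nat_lit 0) (nat_lit 15042645102) (nat_lit 304)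 (nat_lit 1405360456) (nat_lit 380) (nat_lit 4785205224) (nat_lit 83) (nat_lit 5) (nat_lit 87) (nat_lit 5) (nat_lit 88) (nat_lit 5) (nat_lit 501) (nat_lit 401) (nat_lit 238)) (XT.lf (nat_lit 0) (nat_lit 3086893434) (nat_lit 228) (nat_lit 17204225663) (nat_lit 304) (nat_lit 1243928576) (nat_lit 80) (nat_lit 5) (nat_lit 83) (nat_lit 5) (nat_lit 84) (nat_lit 5) (nat_lit 502) (nat_lit 401) (nat_lit 237))) (XT.nd (nat_lit 78) (nat_lit 304) (nat_lit 0) (XT.lf (nat_lit 0) (nat_lit 2379466833) (nat_lit 304) (nat_lit 9246756236) (nat_lit 76) (nat_lit 10215548552) (nat_lit 79) (nat_lit 5) (nat_lit 83) (nat_lit 5) (nat_lit 80) (nat_lit 5) (nat_lit 503) (nat_lit 401) (nat_lit 236)) (XT.lf (nat_lit 0) (nat_lit 118729768) (nat_lit 304) (nat_lit 5932130780) (nat_lit 380) (nat_lit 16103766109) (nat_lit 75) (nat_lit 5) (nat_lit 79) (nat_lit 5) (nat_lit 80) (nat_lit 5) (nat_lit 504) (nat_lit 401) (nat_lit 235)))))) (XT.nd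 (nat_lit 546) (nat_lit 760) (nat_lit 0) (XT.nd (nat_lit 234) (nat_lit 380) (nat_lit 0) (XT.nd (nat_lit 78) (nat_lit 228) (nat_lit 0) (XT.lf (nat_lit 0) (nat_lit 9783695758) (nat_lit 304) (nat_lit 65520242) (nat_lit 380) (nat_lit 12623456807) (nat_lit 75) (nat_lit 5) (nat_lit 79) (nat_lit 5) (nat_lit 80) (nat_lit 5) (nat_lit 505) (nat_lit 401) (nat_lit 234)) (XT.nd (nat_lit 78) (nat_lit 228) (nat_lit 0) (XT.lf (nat_lit 0) (nat_lit 13753585511) (nat_lit 380) (nat_lit 3206600777) (nat_lit 76) (nat_lit 5836297253) (nat_lit 75) (nat_lit 5) (nat_lit 80) (nat_lit 5) (nat_lit 76) (nat_lit 5) (nat_lit 506) (nat_lit 401) (nat_lit 233)) (XT.lf (nat_lit 0) (nat_lit 6537935667) (nat_lit 228) (nat_lit 11232774194) (nat_lit 304) (nat_lit 5355371790) (nat_lit 72) (nat_lit 5) (nat_lit 75) (nat_lit 5) (nat_lit 76) (nat_lit 5) (nat_lit 507) (nat_lit 401) (nat_lit 232)))) (XT.nd (nat_lit 156) (nat_lit 0) (nat_lit 0) (XT.nd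 (nat_lit 78) (nat_lit 380) (nat_lit 0) (XT.lf (nat_lit 0) (nat_lit 16508113720) (nat_lit 228) (nat_lit 5373444407) (nat_lit 304) (nat_lit 1580450388) (nat_lit 72) (nat_lit 5) (nat_lit 75) (nat_lit 5) (nat_lit 76) (nat_lit 5) (nat_lit 508) (nat_lit 401) (nat_lit 231)) (XT.lf (nat_lit 0) (nat_lit 2254993785) (nat_lit 380) (nat_lit 20924712950) (nat_lit 76) (nat_lit 624360761) (nat_lit 67) (nat_lit 5) (nat_lit 72) (nat_lit 5) (nat_lit 68) (nat_lit 5) (nat_lit 509) (nat_lit 401) (nat_lit 230))) (XT.nd (nat_lit 78) (nat_lit 0) (nat_lit 0) (XT.lf (nat_lit 0) (nat_lit 6220576285) (nat_lit 380) (nat_lit 11207493194) (nat_lit 76) (nat_lit 6723201574) (nat_lit 67) (nat_lit 5) (nat_lit 72) (nat_lit 5) (nat_lit 68) (nat_lit 5) (nat_lit 510) (nat_lit 401) (nat_lit 229)) (XT.lf (nat_lit 0) (nat_lit 10257639885) (nat_lit 380) (nat_lit 1308309686) (nat_lit 76) (nat_lit 12939629807) (nat_lit 67) (nat_lit 5) (nat_lit 72)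 (nat_lit 5) (nat_lit 68) (nat_lit 5) (nat_lit 511) (nat_lit 401) (nat_lit 228))))) (XT.nd (nat_lit 234) (nat_lit 304) (nat_lit 0) (XT.nd (nat_lit 78) (nat_lit 228) (nat_lit 0) (XT.lf (nat_lit 0) (nat_lit 8893357591) (nat_lit 228) (nat_lit 5532151731) (nat_lit 304) (nat_lit 10440467259) (nat_lit 64) (nat_lit 5) (nat_lit 67) (nat_lit 5) (nat_lit 68) (nat_lit 5) (nat_lit 512) (nat_lit 401) (nat_lit 227)) (XT.nd (nat_lit 78) (nat_lit 228) (nat_lit 0) (XT.lf (nat_lit 0) (nat_lit 18681980582) (nat_lit 304) (nat_lit 5932897253) (nat_lit 76) (nat_lit 618602932) (nat_lit 64) (nat_lit 5) (nat_lit 68) (nat_lit 5) (nat_lit 65) (nat_lit 5) (nat_lit 513) (nat_lit 401) (nat_lit 226)) (XT.lf (nat_lit 0) (nat_lit 4315636284) (nat_lit 228) (nat_lit 18765117719) (nat_lit 304) (nat_lit 2526441427) (nat_lit 61) (nat_lit 5) (nat_lit 64) (nat_lit 5) (nat_lit 65) (nat_lit 5) (nat_lit 514) (nat_lit 401) (nat_lit 225)))) (XT.nd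 (nat_lit 156) (nat_lit 228) (nat_lit 0) (XT.nd (nat_lit 78) (nat_lit 0) (nat_lit 0) (XT.lf (nat_lit 0) (nat_lit 1591017470) (nat_lit 304) (nat_lit 11160512554) (nat_lit 76) (nat_lit 13236000821) (nat_lit 60) (nat_lit 5) (nat_lit 64) (nat_lit 5) (nat_lit 61) (nat_lit 5) (nat_lit 515) (nat_lit 401) (nat_lit 224)) (XT.lf (nat_lit 0) (nat_lit 5749707396) (nat_lit 304) (nat_lit 855312268) (nat_lit 76) (nat_lit 19770268717) (nat_lit 60) (nat_lit 5) (nat_lit 64) (nat_lit 5) (nat_lit 61) (nat_lit 5) (nat_lit 516) (nat_lit 401) (nat_lit 223))) (XT.nd (nat_lit 78) (nat_lit 0) (nat_lit 0) (XT.lf (nat_lit 0) (nat_lit 9772656447) (nat_lit 228) (nat_lit 275188064) (nat_lit 304) (nat_lit 16721834646) (nat_lit 57) (nat_lit 5) (nat_lit 60) (nat_lit 5) (nat_lit 61) (nat_lit 5) (nat_lit 517) (nat_lit 401) (nat_lit 222)) (XT.lf (nat_lit 0) (nat_lit 14470715981) (nat_lit 304) (nat_lit 6598782841) (nat_lit 76) (nat_lit 6101686979)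 (nat_lit 57) (nat_lit 5) (nat_lit 61) (nat_lit 5) (nat_lit 58) (nat_lit 5) (nat_lit 518) (nat_lit 401) (nat_lit 221))))))) (XT.nd (nat_lit 50934) (nat_lit 0) (nat_lit 28804) (XT.nd (nat_lit 50388) (nat_lit 0) (nat_lit 31236) (XT.nd (nat_lit 234) (nat_lit 304) (nat_lit 0) (XT.nd (nat_lit 78) (nat_lit 0) (nat_lit 0) (XT.lf (nat_lit 0) (nat_lit 4047359983) (nat_lit 228) (nat_lit 14955786749) (nat_lit 304) (nat_lit 8577157227) (nat_lit 54) (nat_lit 5) (nat_lit 57) (nat_lit 5) (nat_lit 58) (nat_lit 5) (nat_lit 519) (nat_lit 401) (nat_lit 220)) (XT.nd (nat_lit 78) (nat_lit 0) (nat_lit 0) (XT.lf (nat_lit 0) (nat_lit 14984627127) (nat_lit 228) (nat_lit 8678945757) (nat_lit 304) (nat_lit 4333288012) (nat_lit 54) (nat_lit 5) (nat_lit 57) (nat_lit 5) (nat_lit 58) (nat_lit 5) (nat_lit 520) (nat_lit 401) (nat_lit 219)) (XT.lf (nat_lit 0) (nat_lit 26129613363) (nat_lit 228) (nat_lit 2280795646) (nat_lit 304) (nat_lit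 11479219) (nat_lit 54) (nat_lit 5) (nat_lit 57) (nat_lit 5) (nat_lit 58) (nat_lit 5) (nat_lit 521) (nat_lit 401) (nat_lit 218)))) (XT.nd (nat_lit 49998) (nat_lit 0) (nat_lit 32376) (XT.lf (nat_lit 0) (nat_lit 4417085162) (nat_lit 304) (nat_lit 20164992168) (nat_lit 76) (nat_lit 4271211323) (nat_lit 50) (nat_lit 5) (nat_lit 54) (nat_lit 5) (nat_lit 51) (nat_lit 5) (nat_lit 522) (nat_lit 401) (nat_lit 217)) (XT.nd (nat_lit 78) (nat_lit 1140) (nat_lit 0) (XT.lf (nat_lit 0) (nat_lit 3517324857) (nat_lit 1140) (nat_lit 88878665) (nat_lit 1140) (nat_lit 88878665) (nat_lit 491) (nat_lit 3) (nat_lit 506) (nat_lit 3) (nat_lit 506) (nat_lit 5) (nat_lit 402) (nat_lit 402) (nat_lit 336)) (XT.lf (nat_lit 0) (nat_lit 1087990949) (nat_lit 1140) (nat_lit 4255519149) (nat_lit 1216) (nat_lit 2089940968) (nat_lit 476) (nat_lit 5) (nat_lit 491) (nat_lit 3) (nat_lit 492) (nat_lit 5) (nat_lit 403) (nat_lit 402) (nat_lit 335)))))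 (XT.nd (nat_lit 234) (nat_lit 1140) (nat_lit 0) (XT.nd (nat_lit 78) (nat_lit 0) (nat_lit 0) (XT.lf (nat_lit 0) (nat_lit 2519399075) (nat_lit 1140) (nat_lit 896484716) (nat_lit 1216) (nat_lit 4062444442) (nat_lit 476) (nat_lit 5) (nat_lit 491) (nat_lit 3) (nat_lit 492) (nat_lit 5) (nat_lit 404) (nat_lit 402) (nat_lit 334)) (XT.nd (nat_lit 78) (nat_lit 0) (nat_lit 76) (XT.lf (nat_lit 76) (nat_lit 2543791430) (nat_lit 0) (nat_lit 1415481037) (nat_lit 1216) (nat_lit 3565280395) (nat_lit 477) (nat_lit 5) (nat_lit 476) (nat_lit 5) (nat_lit 492) (nat_lit 5) (nat_lit 405) (nat_lit 402) (nat_lit 333)) (XT.lf (nat_lit 0) (nat_lit 5402082125) (nat_lit 1140) (nat_lit 1530705278) (nat_lit 1216) (nat_lit 639477552) (nat_lit 477) (nat_lit 5) (nat_lit 492) (nat_lit 5) (nat_lit 493) (nat_lit 5) (nat_lit 406) (nat_lit 402) (nat_lit 332)))) (XT.nd (nat_lit 156) (nat_lit 0) (nat_lit 0) (XT.nd (nat_lit 78) (nat_lit 1216)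 (nat_lit 0) (XT.lf (nat_lit 76) (nat_lit 1985357947) (nat_lit 0) (nat_lit 4875385332) (nat_lit 1216) (nat_lit 760492958) (nat_lit 478) (nat_lit 5) (nat_lit 477) (nat_lit 5) (nat_lit 493) (nat_lit 5) (nat_lit 407) (nat_lit 402) (nat_lit 331)) (XT.lf (nat_lit 0) (nat_lit 643868998) (nat_lit 1216) (nat_lit 2102992994) (nat_lit 1292) (nat_lit 4924772853) (nat_lit 461) (nat_lit 5) (nat_lit 477) (nat_lit 5) (nat_lit 478) (nat_lit 5) (nat_lit 408) (nat_lit 402) (nat_lit 330))) (XT.nd (nat_lit 78) (nat_lit 0) (nat_lit 76) (XT.lf (nat_lit 76) (nat_lit 1495483100) (nat_lit 0) (nat_lit 546079638) (nat_lit 1292) (nat_lit 5681911863) (nat_lit 462) (nat_lit 5) (nat_lit 461) (nat_lit 5) (nat_lit 478) (nat_lit 5) (nat_lit 409) (nat_lit 402) (nat_lit 329)) (XT.lf (nat_lit 0) (nat_lit 3458791646) (nat_lit 1216) (nat_lit 2613079807) (nat_lit 1292) (nat_lit 1704689508) (nat_lit 462) (nat_lit 5) (nat_lit 478) (nat_lit 5)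 (nat_lit 479) (nat_lit 5) (nat_lit 410) (nat_lit 402) (nat_lit 328)))))) (XT.nd (nat_lit 546) (nat_lit 1292) (nat_lit 0) (XT.nd (nat_lit 234) (nat_lit 1216) (nat_lit 0) (XT.nd (nat_lit 78) (nat_lit 0) (nat_lit 0) (XT.lf (nat_lit 76) (nat_lit 1064550394) (nat_lit 0) (nat_lit 3817349237) (nat_lit 1292) (nat_lit 2949299351) (nat_lit 463) (nat_lit 5) (nat_lit 462) (nat_lit 5) (nat_lit 479) (nat_lit 5) (nat_lit 411) (nat_lit 402) (nat_lit 327)) (XT.nd (nat_lit 78) (nat_lit 0) (nat_lit 76) (XT.lf (nat_lit 76) (nat_lit 4831360196) (nat_lit 0) (nat_lit 1487169451) (nat_lit 1292) (nat_lit 1568738744) (nat_lit 463) (nat_lit 5) (nat_lit 462) (nat_lit 5) (nat_lit 479) (nat_lit 5) (nat_lit 412) (nat_lit 402) (nat_lit 326)) (XT.lf (nat_lit 76) (nat_lit 712452575) (nat_lit 0) (nat_lit 7050083589) (nat_lit 1292) (nat_lit 182389193) (nat_lit 464) (nat_lit 5) (nat_lit 463) (nat_lit 5) (nat_lit 480) (nat_lit 5) (nat_lit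 413) (nat_lit 402) (nat_lit 325)))) (XT.nd (nat_lit 156) (nat_lit 0) (nat_lit 76) (XT.nd (nat_lit 78) (nat_lit 0) (nat_lit 0) (XT.lf (nat_lit 0) (nat_lit 1214514954) (nat_lit 1292) (nat_lit 3444188707) (nat_lit 1368) (nat_lit 3344929764) (nat_lit 446) (nat_lit 5) (nat_lit 463) (nat_lit 5) (nat_lit 464) (nat_lit 5) (nat_lit 414) (nat_lit 402) (nat_lit 324)) (XT.lf (nat_lit 76) (nat_lit 403865592) (nat_lit 0) (nat_lit 2204781736) (nat_lit 1368) (nat_lit 5455446361) (nat_lit 447) (nat_lit 5) (nat_lit 446) (nat_lit 5) (nat_lit 464) (nat_lit 5) (nat_lit 415) (nat_lit 402) (nat_lit 323))) (XT.nd (nat_lit 78) (nat_lit 0) (nat_lit 0) (XT.lf (nat_lit 0) (nat_lit 4025515973) (nat_lit 1292) (nat_lit 3772486893) (nat_lit 1368) (nat_lit 327899293) (nat_lit 447) (nat_lit 5) (nat_lit 464) (nat_lit 5) (nat_lit 465) (nat_lit 5) (nat_lit 416) (nat_lit 402) (nat_lit 322)) (XT.lf (nat_lit 76) (nat_lit 160250283) (nat_lit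 0) (nat_lit 5296360428) (nat_lit 1368) (nat_lit 2732653675) (nat_lit 448) (nat_lit 5) (nat_lit 447) (nat_lit 5) (nat_lit 465) (nat_lit 5) (nat_lit 417) (nat_lit 402) (nat_lit 321))))) (XT.nd (nat_lit 234) (nat_lit 0) (nat_lit 76) (XT.nd (nat_lit 78) (nat_lit 1368) (nat_lit 0) (XT.lf (nat_lit 76) (nat_lit 4202653182) (nat_lit 0) (nat_lit 2709689323) (nat_lit 1368) (nat_lit 1341665722) (nat_lit 448) (nat_lit 5) (nat_lit 447) (nat_lit 5) (nat_lit 465) (nat_lit 5) (nat_lit 418) (nat_lit 402) (nat_lit 320)) (XT.nd (nat_lit 78) (nat_lit 0) (nat_lit 76) (XT.lf (nat_lit 0) (nat_lit 47180776) (nat_lit 1368) (nat_lit 14793158) (nat_lit 1444) (nat_lit 8258675310) (nat_lit 429) (nat_lit 5) (nat_lit 447) (nat_lit 5) (nat_lit 448) (nat_lit 5) (nat_lit 419) (nat_lit 402) (nat_lit 319)) (XT.lf (nat_lit 0) (nat_lit 1461700478) (nat_lit 1368) (nat_lit 4277934349) (nat_lit 1444) (nat_lit 2648526333) (nat_lit 430) (nat_lit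 5) (nat_lit 448) (nat_lit 5) (nat_lit 449) (nat_lit 5) (nat_lit 420) (nat_lit 402) (nat_lit 318)))) (XT.nd (nat_lit 156) (nat_lit 0) (nat_lit 76) (XT.nd (nat_lit 78) (nat_lit 0) (nat_lit 0) (XT.lf (nat_lit 0) (nat_lit 2877122245) (nat_lit 1368) (nat_lit 159754304) (nat_lit 1444) (nat_lit 5420726563) (nat_lit 430) (nat_lit 5) (nat_lit 448) (nat_lit 5) (nat_lit 449) (nat_lit 5) (nat_lit 421) (nat_lit 402) (nat_lit 317)) (XT.lf (nat_lit 76) (nat_lit 4074353055) (nat_lit 0) (nat_lit 245601148) (nat_lit 1444) (nat_lit 4208529068) (nat_lit 431) (nat_lit 5) (nat_lit 430) (nat_lit 5) (nat_lit 449) (nat_lit 5) (nat_lit 422) (nat_lit 402) (nat_lit 316))) (XT.nd (nat_lit 78) (nat_lit 0) (nat_lit 0) (XT.lf (nat_lit 0) (nat_lit 5782715843) (nat_lit 1368) (nat_lit 242707118) (nat_lit 1444) (nat_lit 2575567396) (nat_lit 431) (nat_lit 5) (nat_lit 449) (nat_lit 5) (nat_lit 450) (nat_lit 5) (nat_lit 423) (nat_lit 402)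 (nat_lit 315)) (XT.lf (nat_lit 76) (nat_lit 4084933920) (nat_lit 0) (nat_lit 3191578028) (nat_lit 1444) (nat_lit 1398430238) (nat_lit 432) (nat_lit 5) (nat_lit 431) (nat_lit 5) (nat_lit 450) (nat_lit 5) (nat_lit 424) (nat_lit 402) (nat_lit 314))))))))
noncomputable def xc157 : XT := (XT.nd (nat_lit 2106) (nat_lit 7828) (nat_lit 0) (XT.nd (nat_lit 1014) (nat_lit 5396) (nat_lit 0) (XT.nd (nat_lit 468) (nat_lit 5168) (nat_lit 0) (XT.nd (nat_lit 234) (nat_lit 2888) (nat_lit 0) (XT.nd (nat_lit 78) (nat_lit 0) (nat_lit 76) (XT.lf (nat_lit 0) (nat_lit 24614807) (nat_lit 1444) (nat_lit 268461250) (nat_lit 1520) (nat_lit 8457810396) (nat_lit 412) (nat_lit 5) (nat_lit 431) (nat_lit 5) (nat_lit 432) (nat_lit 5) (nat_lit 425) (nat_lit 402) (nat_lit 313)) (XT.nd (nat_lit 78) (nat_lit 0) (nat_lit 0) (XT.lf (nat_lit 0) (nat_lit 1476357762) (nat_lit 1444) (nat_lit 4680663253) (nat_lit 76) (nat_lit 2670792918) (nat_lit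 413) (nat_lit 5) (nat_lit 432) (nat_lit 5) (nat_lit 414) (nat_lit 5) (nat_lit 426) (nat_lit 402) (nat_lit 312)) (XT.lf (nat_lit 0) (nat_lit 2935632999) (nat_lit 1444) (nat_lit 273730903) (nat_lit 76) (nat_lit 5697373998) (nat_lit 413) (nat_lit 5) (nat_lit 432) (nat_lit 5) (nat_lit 414) (nat_lit 5) (nat_lit 427) (nat_lit 402) (nat_lit 311)))) (XT.nd (nat_lit 78) (nat_lit 1520) (nat_lit 0) (XT.lf (nat_lit 0) (nat_lit 4257324640) (nat_lit 1444) (nat_lit 169648783) (nat_lit 1520) (nat_lit 4560236668) (nat_lit 394) (nat_lit 5) (nat_lit 413) (nat_lit 5) (nat_lit 414) (nat_lit 5) (nat_lit 428) (nat_lit 402) (nat_lit 310)) (XT.nd (nat_lit 78) (nat_lit 1520) (nat_lit 0) (XT.lf (nat_lit 0) (nat_lit 5944644994) (nat_lit 1520) (nat_lit 225850183) (nat_lit 76) (nat_lit 2898893263) (nat_lit 394) (nat_lit 5) (nat_lit 414) (nat_lit 5) (nat_lit 395) (nat_lit 5) (nat_lit 429) (nat_lit 402) (nat_lit 309)) (XT.lf (nat_lit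 0) (nat_lit 4405046908) (nat_lit 1520) (nat_lit 3093451196) (nat_lit 1596) (nat_lit 1654621968) (nat_lit 374) (nat_lit 5) (nat_lit 394) (nat_lit 5) (nat_lit 395) (nat_lit 5) (nat_lit 430) (nat_lit 402) (nat_lit 308))))) (XT.nd (nat_lit 234) (nat_lit 3496) (nat_lit 0) (XT.nd (nat_lit 78) (nat_lit 1672) (nat_lit 0) (XT.lf (nat_lit 0) (nat_lit 9061716231) (nat_lit 1596) (nat_lit 127435005) (nat_lit 76) (nat_lit 49835102) (nat_lit 374) (nat_lit 5) (nat_lit 395) (nat_lit 5) (nat_lit 375) (nat_lit 5) (nat_lit 431) (nat_lit 402) (nat_lit 307)) (XT.nd (nat_lit 78) (nat_lit 0) (nat_lit 0) (XT.lf (nat_lit 0) (nat_lit 1339666670) (nat_lit 1672) (nat_lit 4729190748) (nat_lit 76) (nat_lit 3257015091) (nat_lit 352) (nat_lit 5) (nat_lit 374) (nat_lit 5) (nat_lit 353) (nat_lit 5) (nat_lit 432) (nat_lit 402) (nat_lit 306)) (XT.lf (nat_lit 0) (nat_lit 2862511432) (nat_lit 1672) (nat_lit 18710926) (nat_lit 76) (nat_lit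 6533716030) (nat_lit 352) (nat_lit 5) (nat_lit 374) (nat_lit 5) (nat_lit 353) (nat_lit 5) (nat_lit 433) (nat_lit 402) (nat_lit 305)))) (XT.nd (nat_lit 156) (nat_lit 836) (nat_lit 0) (XT.nd (nat_lit 78) (nat_lit 988) (nat_lit 0) (XT.lf (nat_lit 0) (nat_lit 4427328899) (nat_lit 1748) (nat_lit 4678607542) (nat_lit 76) (nat_lit 399642624) (nat_lit 330) (nat_lit 5) (nat_lit 353) (nat_lit 5) (nat_lit 331) (nat_lit 5) (nat_lit 434) (nat_lit 402) (nat_lit 304)) (XT.lf (nat_lit 0) (nat_lit 134451772) (nat_lit 988) (nat_lit 5886931257) (nat_lit 1064) (nat_lit 3576714055) (nat_lit 317) (nat_lit 5) (nat_lit 330) (nat_lit 5) (nat_lit 331) (nat_lit 5) (nat_lit 435) (nat_lit 402) (nat_lit 303))) (XT.nd (nat_lit 78) (nat_lit 836) (nat_lit 0) (XT.lf (nat_lit 0) (nat_lit 5087302728) (nat_lit 988) (nat_lit 2569576445) (nat_lit 1064) (nat_lit 2035417946) (nat_lit 317) (nat_lit 5) (nat_lit 330) (nat_lit 5) (nat_lit 331) (nat_lit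 5) (nat_lit 436) (nat_lit 402) (nat_lit 302)) (XT.lf (nat_lit 0) (nat_lit 329908244) (nat_lit 836) (nat_lit 8981210356) (nat_lit 912) (nat_lit 477564316) (nat_lit 306) (nat_lit 5) (nat_lit 317) (nat_lit 5) (nat_lit 318) (nat_lit 5) (nat_lit 437) (nat_lit 402) (nat_lit 301)))))) (XT.nd (nat_lit 546) (nat_lit 2888) (nat_lit 0) (XT.nd (nat_lit 234) (nat_lit 1596) (nat_lit 0) (XT.nd (nat_lit 78) (nat_lit 836) (nat_lit 0) (XT.lf (nat_lit 0) (nat_lit 1123728033) (nat_lit 912) (nat_lit 4505020596) (nat_lit 76) (nat_lit 4257587860) (nat_lit 305) (nat_lit 5) (nat_lit 317) (nat_lit 5) (nat_lit 306) (nat_lit 5) (nat_lit 438) (nat_lit 402) (nat_lit 300)) (XT.nd (nat_lit 78) (nat_lit 0) (nat_lit 0) (XT.lf (nat_lit 0) (nat_lit 531881314) (nat_lit 836) (nat_lit 2201381416) (nat_lit 912) (nat_lit 7252986181) (nat_lit 294) (nat_lit 5) (nat_lit 305) (nat_lit 5) (nat_lit 306) (nat_lit 5) (nat_lit 439) (nat_lit 402) (nat_lit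 299)) (XT.lf (nat_lit 0) (nat_lit 4393263814) (nat_lit 912) (nat_lit 4385620812) (nat_lit 76) (nat_lit 1308930162) (nat_lit 294) (nat_lit 5) (nat_lit 306) (nat_lit 5) (nat_lit 295) (nat_lit 5) (nat_lit 440) (nat_lit 402) (nat_lit 298)))) (XT.nd (nat_lit 156) (nat_lit 836) (nat_lit 0) (XT.nd (nat_lit 78) (nat_lit 0) (nat_lit 0) (XT.lf (nat_lit 0) (nat_lit 760237304) (nat_lit 760) (nat_lit 5325584868) (nat_lit 836) (nat_lit 4105622977) (nat_lit 284) (nat_lit 5) (nat_lit 294) (nat_lit 5) (nat_lit 295) (nat_lit 5) (nat_lit 441) (nat_lit 402) (nat_lit 297)) (XT.lf (nat_lit 0) (nat_lit 6048934572) (nat_lit 760) (nat_lit 1772838021) (nat_lit 836) (nat_lit 2475204621) (nat_lit 284) (nat_lit 5) (nat_lit 294) (nat_lit 5) (nat_lit 295) (nat_lit 5) (nat_lit 442) (nat_lit 402) (nat_lit 296))) (XT.nd (nat_lit 78) (nat_lit 76) (nat_lit 0) (XT.lf (nat_lit 0) (nat_lit 1020598310) (nat_lit 760) (nat_lit 8570991156) (nat_lit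 836) (nat_lit 813067029) (nat_lit 274) (nat_lit 5) (nat_lit 284) (nat_lit 5) (nat_lit 285) (nat_lit 5) (nat_lit 443) (nat_lit 402) (nat_lit 295)) (XT.lf (nat_lit 0) (nat_lit 891790858) (nat_lit 836) (nat_lit 4099084762) (nat_lit 76) (nat_lit 5523096951) (nat_lit 273) (nat_lit 5) (nat_lit 284) (nat_lit 5) (nat_lit 274) (nat_lit 5) (nat_lit 444) (nat_lit 402) (nat_lit 294))))) (XT.nd (nat_lit 234) (nat_lit 1444) (nat_lit 0) (XT.nd (nat_lit 78) (nat_lit 760) (nat_lit 0) (XT.lf (nat_lit 0) (nat_lit 1283723219) (nat_lit 684) (nat_lit 1325474015) (nat_lit 760) (nat_lit 8016401880) (nat_lit 264) (nat_lit 5) (nat_lit 273) (nat_lit 5) (nat_lit 274) (nat_lit 5) (nat_lit 445) (nat_lit 402) (nat_lit 293)) (XT.nd (nat_lit 78) (nat_lit 760) (nat_lit 0) (XT.lf (nat_lit 0) (nat_lit 4385547874) (nat_lit 760) (nat_lit 3944586953) (nat_lit 76) (nat_lit 2408849473) (nat_lit 264) (nat_lit 5) (nat_lit 274) (nat_lit 5) (nat_lit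 265) (nat_lit 5) (nat_lit 446) (nat_lit 402) (nat_lit 292)) (XT.lf (nat_lit 0) (nat_lit 1553042193) (nat_lit 760) (nat_lit 4644851186) (nat_lit 836) (nat_lit 4656752139) (nat_lit 254) (nat_lit 5) (nat_lit 264) (nat_lit 5) (nat_lit 265) (nat_lit 5) (nat_lit 447) (nat_lit 402) (nat_lit 291)))) (XT.nd (nat_lit 156) (nat_lit 760) (nat_lit 0) (XT.nd (nat_lit 78) (nat_lit 684) (nat_lit 0) (XT.lf (nat_lit 0) (nat_lit 7195024100) (nat_lit 760) (nat_lit 859775291) (nat_lit 836) (nat_lit 2917671633) (nat_lit 254) (nat_lit 5) (nat_lit 264) (nat_lit 5) (nat_lit 265) (nat_lit 5) (nat_lit 448) (nat_lit 402) (nat_lit 290)) (XT.lf (nat_lit 0) (nat_lit 1842813923) (nat_lit 684) (nat_lit 8119672409) (nat_lit 760) (nat_lit 1129910848) (nat_lit 245) (nat_lit 5) (nat_lit 254) (nat_lit 5) (nat_lit 255) (nat_lit 5) (nat_lit 449) (nat_lit 402) (nat_lit 289))) (XT.nd (nat_lit 78) (nat_lit 684) (nat_lit 0) (XT.lf (nat_lit 0) (nat_lit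 698005663) (nat_lit 760) (nat_lit 3617085044) (nat_lit 76) (nat_lit 6899287479) (nat_lit 244) (nat_lit 5) (nat_lit 254) (nat_lit 5) (nat_lit 245) (nat_lit 5) (nat_lit 450) (nat_lit 402) (nat_lit 288)) (XT.lf (nat_lit 0) (nat_lit 2129698583) (nat_lit 684) (nat_lit 414128154) (nat_lit 760) (nat_lit 8794909200) (nat_lit 235) (nat_lit 5) (nat_lit 244) (nat_lit 5) (nat_lit 245) (nat_lit 5) (nat_lit 451) (nat_lit 402) (nat_lit 287))))))) (XT.nd (nat_lit 1092) (nat_lit 3496) (nat_lit 0) (XT.nd (nat_lit 546) (nat_lit 2356) (nat_lit 0) (XT.nd (nat_lit 234) (nat_lit 1368) (nat_lit 0) (XT.nd (nat_lit 78) (nat_lit 608) (nat_lit 0) (XT.lf (nat_lit 0) (nat_lit 4456986245) (nat_lit 760) (nat_lit 3466991038) (nat_lit 76) (nat_lit 3541010825) (nat_lit 235) (nat_lit 5) (nat_lit 245) (nat_lit 5) (nat_lit 236) (nat_lit 5) (nat_lit 452) (nat_lit 402) (nat_lit 286)) (XT.nd (nat_lit 78) (nat_lit 0) (nat_lit 0) (XT.lf (nat_lit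 0) (nat_lit 2399964972) (nat_lit 608) (nat_lit 4009948436) (nat_lit 684) (nat_lit 5183837217) (nat_lit 227) (nat_lit 5) (nat_lit 235) (nat_lit 5) (nat_lit 236) (nat_lit 5) (nat_lit 453) (nat_lit 402) (nat_lit 285)) (XT.lf (nat_lit 0) (nat_lit 8408580619) (nat_lit 684) (nat_lit 3312283171) (nat_lit 76) (nat_lit 4106065) (nat_lit 227) (nat_lit 5) (nat_lit 236) (nat_lit 5) (nat_lit 228) (nat_lit 5) (nat_lit 454) (nat_lit 402) (nat_lit 284)))) (XT.nd (nat_lit 156) (nat_lit 608) (nat_lit 0) (XT.nd (nat_lit 78) (nat_lit 76) (nat_lit 0) (XT.lf (nat_lit 0) (nat_lit 2676894885) (nat_lit 684) (nat_lit 7797964982) (nat_lit 760) (nat_lit 1383415626) (nat_lit 218) (nat_lit 5) (nat_lit 227) (nat_lit 5) (nat_lit 228) (nat_lit 5) (nat_lit 455) (nat_lit 402) (nat_lit 283)) (XT.lf (nat_lit 0) (nat_lit 586659079) (nat_lit 760) (nat_lit 3185628109) (nat_lit 76) (nat_lit 8221774772) (nat_lit 217) (nat_lit 5) (nat_lit 227)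 (nat_lit 5) (nat_lit 218) (nat_lit 5) (nat_lit 456) (nat_lit 402) (nat_lit 282))) (XT.nd (nat_lit 78) (nat_lit 0) (nat_lit 0) (XT.lf (nat_lit 0) (nat_lit 2583164551) (nat_lit 684) (nat_lit 9193468101) (nat_lit 76) (nat_lit 355651495) (nat_lit 209) (nat_lit 5) (nat_lit 218) (nat_lit 5) (nat_lit 210) (nat_lit 5) (nat_lit 457) (nat_lit 402) (nat_lit 281)) (XT.lf (nat_lit 0) (nat_lit 4650379146) (nat_lit 684) (nat_lit 3087477214) (nat_lit 76) (nat_lit 4534812508) (nat_lit 209) (nat_lit 5) (nat_lit 218) (nat_lit 5) (nat_lit 210) (nat_lit 5) (nat_lit 458) (nat_lit 402) (nat_lit 280))))) (XT.nd (nat_lit 234) (nat_lit 1216) (nat_lit 0) (XT.nd (nat_lit 78) (nat_lit 532) (nat_lit 0) (XT.lf (nat_lit 0) (nat_lit 3164050693) (nat_lit 608) (nat_lit 3600016893) (nat_lit 684) (nat_lit 5651704509) (nat_lit 201) (nat_lit 5) (nat_lit 209) (nat_lit 5) (nat_lit 210) (nat_lit 5) (nat_lit 459) (nat_lit 402) (nat_lit 279)) (XT.nd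 (nat_lit 78) (nat_lit 532) (nat_lit 0) (XT.lf (nat_lit 0) (nat_lit 8929669121) (nat_lit 684) (nat_lit 3001289608) (nat_lit 76) (nat_lit 630599009) (nat_lit 201) (nat_lit 5) (nat_lit 210) (nat_lit 5) (nat_lit 202) (nat_lit 5) (nat_lit 460) (nat_lit 402) (nat_lit 278)) (XT.lf (nat_lit 0) (nat_lit 3376692741) (nat_lit 532) (nat_lit 7792708086) (nat_lit 608) (nat_lit 1540254786) (nat_lit 194) (nat_lit 5) (nat_lit 201) (nat_lit 5) (nat_lit 202) (nat_lit 5) (nat_lit 461) (nat_lit 402) (nat_lit 277)))) (XT.nd (nat_lit 156) (nat_lit 532) (nat_lit 0) (XT.nd (nat_lit 78) (nat_lit 608) (nat_lit 0) (XT.lf (nat_lit 0) (nat_lit 590825826) (nat_lit 608) (nat_lit 2959374714) (nat_lit 76) (nat_lit 9310342371) (nat_lit 193) (nat_lit 5) (nat_lit 201) (nat_lit 5) (nat_lit 194) (nat_lit 5) (nat_lit 462) (nat_lit 402) (nat_lit 276)) (XT.lf (nat_lit 0) (nat_lit 2757699660) (nat_lit 684) (nat_lit 9458792501) (nat_lit 76) (nat_lit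 797488400) (nat_lit 185) (nat_lit 5) (nat_lit 194) (nat_lit 5) (nat_lit 186) (nat_lit 5) (nat_lit 463) (nat_lit 402) (nat_lit 275))) (XT.nd (nat_lit 78) (nat_lit 532) (nat_lit 0) (XT.lf (nat_lit 0) (nat_lit 4996977078) (nat_lit 684) (nat_lit 2971381645) (nat_lit 76) (nat_lit 5201558818) (nat_lit 185) (nat_lit 5) (nat_lit 194) (nat_lit 5) (nat_lit 186) (nat_lit 5) (nat_lit 464) (nat_lit 402) (nat_lit 274)) (XT.lf (nat_lit 0) (nat_lit 3676538760) (nat_lit 532) (nat_lit 3614219230) (nat_lit 608) (nat_lit 6038032580) (nat_lit 178) (nat_lit 5) (nat_lit 185) (nat_lit 5) (nat_lit 186) (nat_lit 5) (nat_lit 465) (nat_lit 402) (nat_lit 273)))))) (XT.nd (nat_lit 546) (nat_lit 1900) (nat_lit 0) (XT.nd (nat_lit 234) (nat_lit 988) (nat_lit 0) (XT.nd (nat_lit 78) (nat_lit 608) (nat_lit 0) (XT.lf (nat_lit 0) (nat_lit 9641846100) (nat_lit 608) (nat_lit 3015860032) (nat_lit 76) (nat_lit 832917732) (nat_lit 178) (nat_lit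 5) (nat_lit 186) (nat_lit 5) (nat_lit 179) (nat_lit 5) (nat_lit 466) (nat_lit 402) (nat_lit 272)) (XT.nd (nat_lit 78) (nat_lit 76) (nat_lit 0) (XT.lf (nat_lit 0) (nat_lit 3761389282) (nat_lit 532) (nat_lit 8313188589) (nat_lit 608) (nat_lit 1580434732) (nat_lit 171) (nat_lit 5) (nat_lit 178) (nat_lit 5) (nat_lit 179) (nat_lit 5) (nat_lit 467) (nat_lit 402) (nat_lit 271)) (XT.lf (nat_lit 0) (nat_lit 730352576) (nat_lit 608) (nat_lit 3129460252) (nat_lit 76) (nat_lit 9962657958) (nat_lit 170) (nat_lit 5) (nat_lit 178) (nat_lit 5) (nat_lit 171) (nat_lit 5) (nat_lit 468) (nat_lit 402) (nat_lit 270)))) (XT.nd (nat_lit 156) (nat_lit 532) (nat_lit 0) (XT.nd (nat_lit 78) (nat_lit 0) (nat_lit 0) (XT.lf (nat_lit 0) (nat_lit 3082066917) (nat_lit 532) (nat_lit 10205245786) (nat_lit 76) (nat_lit 705449598) (nat_lit 164) (nat_lit 5) (nat_lit 171) (nat_lit 5) (nat_lit 165) (nat_lit 5) (nat_lit 469) (nat_lit 402) (nat_lit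 269)) (XT.lf (nat_lit 0) (nat_lit 5514236856) (nat_lit 532) (nat_lit 3323632121) (nat_lit 76) (nat_lit 5327932603) (nat_lit 164) (nat_lit 5) (nat_lit 171) (nat_lit 5) (nat_lit 165) (nat_lit 5) (nat_lit 470) (nat_lit 402) (nat_lit 268))) (XT.nd (nat_lit 78) (nat_lit 0) (nat_lit 0) (XT.lf (nat_lit 0) (nat_lit 3727694169) (nat_lit 532) (nat_lit 4278539311) (nat_lit 608) (nat_lit 6335854656) (nat_lit 157) (nat_lit 5) (nat_lit 164) (nat_lit 5) (nat_lit 165) (nat_lit 5) (nat_lit 471) (nat_lit 402) (nat_lit 267)) (XT.lf (nat_lit 0) (nat_lit 10560038831) (nat_lit 608) (nat_lit 3575858498) (nat_lit 76) (nat_lit 385773676) (nat_lit 157) (nat_lit 5) (nat_lit 165) (nat_lit 5) (nat_lit 158) (nat_lit 5) (nat_lit 472) (nat_lit 402) (nat_lit 266))))) (XT.nd (nat_lit 234) (nat_lit 912) (nat_lit 0) (XT.nd (nat_lit 78) (nat_lit 532) (nat_lit 0) (XT.lf (nat_lit 0) (nat_lit 3605794798) (nat_lit 456) (nat_lit 9598226935) (nat_lit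 532) (nat_lit 1500051530) (nat_lit 151) (nat_lit 5) (nat_lit 157) (nat_lit 5) (nat_lit 158) (nat_lit 5) (nat_lit 473) (nat_lit 402) (nat_lit 265)) (XT.nd (nat_lit 78) (nat_lit 456) (nat_lit 0) (XT.lf (nat_lit 0) (nat_lit 1009063312) (nat_lit 532) (nat_lit 3933488570) (nat_lit 76) (nat_lit 9947218642) (nat_lit 150) (nat_lit 5) (nat_lit 157) (nat_lit 5) (nat_lit 151) (nat_lit 5) (nat_lit 474) (nat_lit 402) (nat_lit 264)) (XT.lf (nat_lit 0) (nat_lit 3392810981) (nat_lit 456) (nat_lit 165162005) (nat_lit 532) (nat_lit 11520825671) (nat_lit 144) (nat_lit 5) (nat_lit 150) (nat_lit 5) (nat_lit 151) (nat_lit 5) (nat_lit 475) (nat_lit 402) (nat_lit 263)))) (XT.nd (nat_lit 156) (nat_lit 456) (nat_lit 0) (XT.nd (nat_lit 78) (nat_lit 456) (nat_lit 0) (XT.lf (nat_lit 0) (nat_lit 6202759031) (nat_lit 532) (nat_lit 4399333143) (nat_lit 76) (nat_lit 4668626234) (nat_lit 144) (nat_lit 5) (nat_lit 151) (nat_lit 5) (nat_lit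 145) (nat_lit 5) (nat_lit 476) (nat_lit 402) (nat_lit 262)) (XT.lf (nat_lit 0) (nat_lit 3055893308) (nat_lit 456) (nat_lit 5853483720) (nat_lit 532) (nat_lit 6556929643) (nat_lit 138) (nat_lit 5) (nat_lit 144) (nat_lit 5) (nat_lit 145) (nat_lit 5) (nat_lit 477) (nat_lit 402) (nat_lit 261))) (XT.nd (nat_lit 78) (nat_lit 456) (nat_lit 0) (XT.lf (nat_lit 0) (nat_lit 10703818659) (nat_lit 456) (nat_lit 983963251) (nat_lit 532) (nat_lit 3977680369) (nat_lit 138) (nat_lit 5) (nat_lit 144) (nat_lit 5) (nat_lit 145) (nat_lit 5) (nat_lit 478) (nat_lit 402) (nat_lit 260)) (XT.lf (nat_lit 0) (nat_lit 2628778605) (nat_lit 456) (nat_lit 11924242809) (nat_lit 532) (nat_lit 1314962752) (nat_lit 132) (nat_lit 5) (nat_lit 138) (nat_lit 5) (nat_lit 139) (nat_lit 5) (nat_lit 479) (nat_lit 402) (nat_lit 259))))))))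
noncomputable def xc158 : XT := (XT.nd (nat_lit 2106) (nat_lit 1672) (nat_lit 0) (XT.nd (nat_lit 1014) (nat_lit 1900) (nat_lit 0) (XT.nd (nat_lit 468) (nat_lit 1216) (nat_lit 0) (XT.nd (nat_lit 234) (nat_lit 760) (nat_lit 0) (XT.nd (nat_lit 78) (nat_lit 380) (nat_lit 0) (XT.lf (nat_lit 0) (nat_lit 1411046819) (nat_lit 532) (nat_lit 5667455620) (nat_lit 76) (nat_lit 8995312054) (nat_lit 131) (nat_lit 5) (nat_lit 138) (nat_lit 5) (nat_lit 132) (nat_lit 5) (nat_lit 480) (nat_lit 402) (nat_lit 258)) (XT.nd (nat_lit 78) (nat_lit 0) (nat_lit 0) (XT.lf (nat_lit 0) (nat_lit 2058332433) (nat_lit 380) (nat_lit 2117625196) (nat_lit 456) (nat_lit 12107598200) (nat_lit 126) (nat_lit 5) (nat_lit 131) (nat_lit 5) (nat_lit 132) (nat_lit 5) (nat_lit 481) (nat_lit 402) (nat_lit 257)) (XT.lf (nat_lit 0) (nat_lit 7042256703) (nat_lit 456) (nat_lit 6516413589) (nat_lit 76) (nat_lit 2937907751) (nat_lit 126) (nat_lit 5) (nat_lit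 132) (nat_lit 5) (nat_lit 127) (nat_lit 5) (nat_lit 482) (nat_lit 402) (nat_lit 256)))) (XT.nd (nat_lit 78) (nat_lit 380) (nat_lit 0) (XT.lf (nat_lit 0) (nat_lit 1334575128) (nat_lit 380) (nat_lit 8642919217) (nat_lit 456) (nat_lit 6736141801) (nat_lit 121) (nat_lit 5) (nat_lit 126) (nat_lit 5) (nat_lit 127) (nat_lit 5) (nat_lit 483) (nat_lit 402) (nat_lit 255)) (XT.nd (nat_lit 78) (nat_lit 380) (nat_lit 0) (XT.lf (nat_lit 0) (nat_lit 9415540668) (nat_lit 380) (nat_lit 3588665632) (nat_lit 456) (nat_lit 3930181267) (nat_lit 121) (nat_lit 5) (nat_lit 126) (nat_lit 5) (nat_lit 127) (nat_lit 5) (nat_lit 484) (nat_lit 402) (nat_lit 254)) (XT.lf (nat_lit 0) (nat_lit 479419938) (nat_lit 380) (nat_lit 15614544919) (nat_lit 456) (nat_lit 1065546311) (nat_lit 116) (nat_lit 5) (nat_lit 121) (nat_lit 5) (nat_lit 122) (nat_lit 5) (nat_lit 485) (nat_lit 402) (nat_lit 253))))) (XT.nd (nat_lit 234) (nat_lit 760) (nat_lit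 0) (XT.nd (nat_lit 78) (nat_lit 380) (nat_lit 0) (XT.lf (nat_lit 0) (nat_lit 1895852893) (nat_lit 456) (nat_lit 8700025793) (nat_lit 76) (nat_lit 6791748242) (nat_lit 115) (nat_lit 5) (nat_lit 121) (nat_lit 5) (nat_lit 116) (nat_lit 5) (nat_lit 486) (nat_lit 402) (nat_lit 252)) (XT.nd (nat_lit 78) (nat_lit 380) (nat_lit 0) (XT.lf (nat_lit 0) (nat_lit 4891699054) (nat_lit 456) (nat_lit 582432041) (nat_lit 76) (nat_lit 12146250284) (nat_lit 115) (nat_lit 5) (nat_lit 121) (nat_lit 5) (nat_lit 116) (nat_lit 5) (nat_lit 487) (nat_lit 402) (nat_lit 251)) (XT.lf (nat_lit 0) (nat_lit 7784891887) (nat_lit 380) (nat_lit 202794637) (nat_lit 456) (nat_lit 9869306741) (nat_lit 110) (nat_lit 5) (nat_lit 115) (nat_lit 5) (nat_lit 116) (nat_lit 5) (nat_lit 488) (nat_lit 402) (nat_lit 250)))) (XT.nd (nat_lit 156) (nat_lit 456) (nat_lit 0) (XT.nd (nat_lit 78) (nat_lit 304) (nat_lit 0) (XT.lf (nat_lit 0) (nat_lit 11172879351)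 (nat_lit 456) (nat_lit 1819228039) (nat_lit 76) (nat_lit 5105690989) (nat_lit 110) (nat_lit 5) (nat_lit 116) (nat_lit 5) (nat_lit 111) (nat_lit 5) (nat_lit 489) (nat_lit 402) (nat_lit 249)) (XT.lf (nat_lit 0) (nat_lit 6670325198) (nat_lit 304) (nat_lit 7786061297) (nat_lit 380) (nat_lit 3886347459) (nat_lit 106) (nat_lit 5) (nat_lit 110) (nat_lit 5) (nat_lit 111) (nat_lit 5) (nat_lit 490) (nat_lit 402) (nat_lit 248))) (XT.nd (nat_lit 78) (nat_lit 456) (nat_lit 0) (XT.lf (nat_lit 0) (nat_lit 15339908051) (nat_lit 304) (nat_lit 2467926228) (nat_lit 380) (nat_lit 784694994) (nat_lit 106) (nat_lit 5) (nat_lit 110) (nat_lit 5) (nat_lit 111) (nat_lit 5) (nat_lit 491) (nat_lit 402) (nat_lit 247)) (XT.lf (nat_lit 0) (nat_lit 2392383611) (nat_lit 456) (nat_lit 13489663904) (nat_lit 76) (nat_lit 2964078375) (nat_lit 100) (nat_lit 5) (nat_lit 106) (nat_lit 5) (nat_lit 101) (nat_lit 5) (nat_lit 492) (nat_lit 402)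 (nat_lit 246)))))) (XT.nd (nat_lit 546) (nat_lit 912) (nat_lit 0) (XT.nd (nat_lit 234) (nat_lit 684) (nat_lit 0) (XT.nd (nat_lit 78) (nat_lit 304) (nat_lit 0) (XT.lf (nat_lit 0) (nat_lit 5651079726) (nat_lit 456) (nat_lit 4958578788) (nat_lit 76) (nat_lit 8494466599) (nat_lit 100) (nat_lit 5) (nat_lit 106) (nat_lit 5) (nat_lit 101) (nat_lit 5) (nat_lit 493) (nat_lit 402) (nat_lit 245)) (XT.nd (nat_lit 78) (nat_lit 0) (nat_lit 0) (XT.lf (nat_lit 0) (nat_lit 3778613862) (nat_lit 304) (nat_lit 5211318139) (nat_lit 380) (nat_lit 10377058624) (nat_lit 96) (nat_lit 5) (nat_lit 100) (nat_lit 5) (nat_lit 101) (nat_lit 5) (nat_lit 494) (nat_lit 402) (nat_lit 244)) (XT.lf (nat_lit 0) (nat_lit 12421487733) (nat_lit 380) (nat_lit 6892962718) (nat_lit 76) (nat_lit 320150302) (nat_lit 96) (nat_lit 5) (nat_lit 101) (nat_lit 5) (nat_lit 97) (nat_lit 5) (nat_lit 495) (nat_lit 402) (nat_lit 243)))) (XT.nd (nat_lit 156)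 (nat_lit 380) (nat_lit 0) (XT.nd (nat_lit 78) (nat_lit 0) (nat_lit 0) (XT.lf (nat_lit 0) (nat_lit 1953602411) (nat_lit 304) (nat_lit 14005970362) (nat_lit 380) (nat_lit 3947238067) (nat_lit 92) (nat_lit 5) (nat_lit 96) (nat_lit 5) (nat_lit 97) (nat_lit 5) (nat_lit 496) (nat_lit 402) (nat_lit 242)) (XT.lf (nat_lit 0) (nat_lit 11056758994) (nat_lit 304) (nat_lit 8548710867) (nat_lit 380) (nat_lit 578259866) (nat_lit 92) (nat_lit 5) (nat_lit 96) (nat_lit 5) (nat_lit 97) (nat_lit 5) (nat_lit 497) (nat_lit 402) (nat_lit 241))) (XT.nd (nat_lit 78) (nat_lit 304) (nat_lit 0) (XT.lf (nat_lit 0) (nat_lit 2811523672) (nat_lit 380) (nat_lit 156396799) (nat_lit 76) (nat_lit 17498082574) (nat_lit 91) (nat_lit 5) (nat_lit 96) (nat_lit 5) (nat_lit 92) (nat_lit 5) (nat_lit 498) (nat_lit 402) (nat_lit 240)) (XT.lf (nat_lit 0) (nat_lit 6329587630) (nat_lit 380) (nat_lit 11675238280) (nat_lit 76) (nat_lit 2747660204) (nat_lit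 87) (nat_lit 5) (nat_lit 92) (nat_lit 5) (nat_lit 88) (nat_lit 5) (nat_lit 499) (nat_lit 402) (nat_lit 239))))) (XT.nd (nat_lit 234) (nat_lit 608) (nat_lit 0) (XT.nd (nat_lit 78) (nat_lit 304) (nat_lit 0) (XT.lf (nat_lit 0) (nat_lit 9929872517) (nat_lit 380) (nat_lit 2580083901) (nat_lit 76) (nat_lit 8534510413) (nat_lit 87) (nat_lit 5) (nat_lit 92) (nat_lit 5) (nat_lit 88) (nat_lit 5) (nat_lit 500) (nat_lit 402) (nat_lit 238)) (XT.nd (nat_lit 78) (nat_lit 0) (nat_lit 0) (XT.lf (nat_lit 0) (nat_lit 6772631814) (nat_lit 304) (nat_lit 6864825364) (nat_lit 380) (nat_lit 7704129183) (nat_lit 83) (nat_lit 5) (nat_lit 87) (nat_lit 5) (nat_lit 88) (nat_lit 5) (nat_lit 501) (nat_lit 402) (nat_lit 237)) (XT.lf (nat_lit 0) (nat_lit 16334296144) (nat_lit 304) (nat_lit 1093618009) (nat_lit 380) (nat_lit 4216564693) (nat_lit 83) (nat_lit 5) (nat_lit 87) (nat_lit 5) (nat_lit 88) (nat_lit 5) (nat_lit 502) (nat_lit 402)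 (nat_lit 236)))) (XT.nd (nat_lit 156) (nat_lit 304) (nat_lit 0) (XT.nd (nat_lit 78) (nat_lit 76) (nat_lit 0) (XT.lf (nat_lit 0) (nat_lit 4144027040) (nat_lit 228) (nat_lit 17199725260) (nat_lit 304) (nat_lit 608690323) (nat_lit 80) (nat_lit 5) (nat_lit 83) (nat_lit 5) (nat_lit 84) (nat_lit 5) (nat_lit 503) (nat_lit 402) (nat_lit 235)) (XT.lf (nat_lit 0) (nat_lit 3065741732) (nat_lit 304) (nat_lit 8446969965) (nat_lit 76) (nat_lit 10752766219) (nat_lit 79) (nat_lit 5) (nat_lit 83) (nat_lit 5) (nat_lit 80) (nat_lit 5) (nat_lit 504) (nat_lit 402) (nat_lit 234))) (XT.nd (nat_lit 78) (nat_lit 0) (nat_lit 0) (XT.lf (nat_lit 0) (nat_lit 1099347329) (nat_lit 304) (nat_lit 5705044148) (nat_lit 380) (nat_lit 15780328981) (nat_lit 75) (nat_lit 5) (nat_lit 79) (nat_lit 5) (nat_lit 80) (nat_lit 5) (nat_lit 505) (nat_lit 402) (nat_lit 233)) (XT.lf (nat_lit 0) (nat_lit 10668078590) (nat_lit 380) (nat_lit 11972717786)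 (nat_lit 76) (nat_lit 268550697) (nat_lit 75) (nat_lit 5) (nat_lit 80) (nat_lit 5) (nat_lit 76) (nat_lit 5) (nat_lit 506) (nat_lit 402) (nat_lit 232))))))) (XT.nd (nat_lit 1092) (nat_lit 76) (nat_lit 0) (XT.nd (nat_lit 546) (nat_lit 760) (nat_lit 0) (XT.nd (nat_lit 234) (nat_lit 608) (nat_lit 0) (XT.nd (nat_lit 78) (nat_lit 228) (nat_lit 0) (XT.lf (nat_lit 0) (nat_lit 14638767200) (nat_lit 380) (nat_lit 2320139757) (nat_lit 76) (nat_lit 6280969129) (nat_lit 75) (nat_lit 5) (nat_lit 80) (nat_lit 5) (nat_lit 76) (nat_lit 5) (nat_lit 507) (nat_lit 402) (nat_lit 231)) (XT.nd (nat_lit 78) (nat_lit 0) (nat_lit 0) (XT.lf (nat_lit 0) (nat_lit 7613033514) (nat_lit 228) (nat_lit 11117368858) (nat_lit 304) (nat_lit 4845786986) (nat_lit 72) (nat_lit 5) (nat_lit 75) (nat_lit 5) (nat_lit 76) (nat_lit 5) (nat_lit 508) (nat_lit 402) (nat_lit 230)) (XT.lf (nat_lit 0) (nat_lit 17764098675) (nat_lit 228) (nat_lit 5147520334)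 (nat_lit 304) (nat_lit 1007459161) (nat_lit 72) (nat_lit 5) (nat_lit 75) (nat_lit 5) (nat_lit 76) (nat_lit 5) (nat_lit 509) (nat_lit 402) (nat_lit 229)))) (XT.nd (nat_lit 156) (nat_lit 228) (nat_lit 0) (XT.nd (nat_lit 78) (nat_lit 0) (nat_lit 0) (XT.lf (nat_lit 0) (nat_lit 2893277266) (nat_lit 380) (nat_lit 20405342870) (nat_lit 76) (nat_lit 969355617) (nat_lit 67) (nat_lit 5) (nat_lit 72) (nat_lit 5) (nat_lit 68) (nat_lit 5) (nat_lit 510) (nat_lit 402) (nat_lit 228)) (XT.lf (nat_lit 0) (nat_lit 6926540366) (nat_lit 380) (nat_lit 10512168216) (nat_lit 76) (nat_lit 7183653488) (nat_lit 67) (nat_lit 5) (nat_lit 72) (nat_lit 5) (nat_lit 68) (nat_lit 5) (nat_lit 511) (nat_lit 402) (nat_lit 227))) (XT.nd (nat_lit 78) (nat_lit 228) (nat_lit 0) (XT.lf (nat_lit 0) (nat_lit 11032942246) (nat_lit 380) (nat_lit 433029956) (nat_lit 76) (nat_lit 13518018366) (nat_lit 67) (nat_lit 5) (nat_lit 72) (nat_lit 5) (nat_lit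 68) (nat_lit 5) (nat_lit 512) (nat_lit 402) (nat_lit 226)) (XT.lf (nat_lit 0) (nat_lit 9966740101) (nat_lit 228) (nat_lit 5312063848) (nat_lit 304) (nat_lit 10072904902) (nat_lit 64) (nat_lit 5) (nat_lit 67) (nat_lit 5) (nat_lit 68) (nat_lit 5) (nat_lit 513) (nat_lit 402) (nat_lit 225))))) (XT.nd (nat_lit 234) (nat_lit 456) (nat_lit 0) (XT.nd (nat_lit 78) (nat_lit 304) (nat_lit 0) (XT.lf (nat_lit 0) (nat_lit 19611435649) (nat_lit 304) (nat_lit 5164344123) (nat_lit 76) (nat_lit 950968444) (nat_lit 64) (nat_lit 5) (nat_lit 68) (nat_lit 5) (nat_lit 65) (nat_lit 5) (nat_lit 514) (nat_lit 402) (nat_lit 224)) (XT.nd (nat_lit 78) (nat_lit 76) (nat_lit 0) (XT.lf (nat_lit 0) (nat_lit 5283323170) (nat_lit 228) (nat_lit 18809685492) (nat_lit 304) (nat_lit 2015037634) (nat_lit 61) (nat_lit 5) (nat_lit 64) (nat_lit 5) (nat_lit 65) (nat_lit 5) (nat_lit 515) (nat_lit 402) (nat_lit 223)) (XT.lf (nat_lit 0) (nat_lit 2166526814)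 (nat_lit 304) (nat_lit 10512135782) (nat_lit 76) (nat_lit 13817475717) (nat_lit 60) (nat_lit 5) (nat_lit 64) (nat_lit 5) (nat_lit 61) (nat_lit 5) (nat_lit 516) (nat_lit 402) (nat_lit 222)))) (XT.nd (nat_lit 156) (nat_lit 228) (nat_lit 0) (XT.nd (nat_lit 78) (nat_lit 228) (nat_lit 0) (XT.lf (nat_lit 0) (nat_lit 6397729970) (nat_lit 304) (nat_lit 17921432) (nat_lit 76) (nat_lit 20476218091) (nat_lit 60) (nat_lit 5) (nat_lit 64) (nat_lit 5) (nat_lit 61) (nat_lit 5) (nat_lit 517) (nat_lit 402) (nat_lit 221)) (XT.lf (nat_lit 0) (nat_lit 10777150076) (nat_lit 304) (nat_lit 16477527423) (nat_lit 76) (nat_lit 39569358) (nat_lit 57) (nat_lit 5) (nat_lit 61) (nat_lit 5) (nat_lit 58) (nat_lit 5) (nat_lit 518) (nat_lit 402) (nat_lit 220))) (XT.nd (nat_lit 78) (nat_lit 228) (nat_lit 0) (XT.lf (nat_lit 0) (nat_lit 15279905901) (nat_lit 304) (nat_lit 5889961141) (nat_lit 76) (nat_lit 6534093131) (nat_lit 57) (nat_lit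 5) (nat_lit 61) (nat_lit 5) (nat_lit 58) (nat_lit 5) (nat_lit 519) (nat_lit 402) (nat_lit 219)) (XT.lf (nat_lit 0) (nat_lit 4963572978) (nat_lit 228) (nat_lit 14934643711) (nat_lit 304) (nat_lit 8223144354) (nat_lit 54) (nat_lit 5) (nat_lit 57) (nat_lit 5) (nat_lit 58) (nat_lit 5) (nat_lit 520) (nat_lit 402) (nat_lit 218)))))) (XT.nd (nat_lit 50544) (nat_lit 0) (nat_lit 29792) (XT.nd (nat_lit 50232) (nat_lit 0) (nat_lit 30932) (XT.nd (nat_lit 78) (nat_lit 76) (nat_lit 0) (XT.lf (nat_lit 0) (nat_lit 16103207705) (nat_lit 228) (nat_lit 8538545482) (nat_lit 304) (nat_lit 3904702775) (nat_lit 54) (nat_lit 5) (nat_lit 57) (nat_lit 5) (nat_lit 58) (nat_lit 5) (nat_lit 521) (nat_lit 402) (nat_lit 217)) (XT.nd (nat_lit 50076) (nat_lit 0) (nat_lit 32148) (XT.lf (nat_lit 0) (nat_lit 486967688) (nat_lit 304) (nat_lit 1528353325) (nat_lit 76) (nat_lit 26964801539) (nat_lit 53) (nat_lit 5) (nat_lit 57) (nat_lit 5)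 (nat_lit 54) (nat_lit 5) (nat_lit 522) (nat_lit 402) (nat_lit 216)) (XT.lf (nat_lit 0) (nat_lit 620769272) (nat_lit 0) (nat_lit 620769272) (nat_lit 1140) (nat_lit 2497256600) (nat_lit 476) (nat_lit 5) (nat_lit 476) (nat_lit 3) (nat_lit 491) (nat_lit 3) (nat_lit 403) (nat_lit 403) (nat_lit 334)))) (XT.nd (nat_lit 156) (nat_lit 1216) (nat_lit 0) (XT.nd (nat_lit 78) (nat_lit 0) (nat_lit 0) (XT.lf (nat_lit 0) (nat_lit 3888266463) (nat_lit 1140) (nat_lit 2878511499) (nat_lit 1216) (nat_lit 756236968) (nat_lit 476) (nat_lit 5) (nat_lit 491) (nat_lit 3) (nat_lit 492) (nat_lit 5) (nat_lit 404) (nat_lit 403) (nat_lit 333)) (XT.lf (nat_lit 76) (nat_lit 525932337) (nat_lit 0) (nat_lit 4771304415) (nat_lit 1216) (nat_lit 2272643518) (nat_lit 477) (nat_lit 5) (nat_lit 476) (nat_lit 5) (nat_lit 492) (nat_lit 5) (nat_lit 405) (nat_lit 403) (nat_lit 332))) (XT.nd (nat_lit 78) (nat_lit 1216) (nat_lit 0) (XT.lf (nat_lit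 76) (nat_lit 4018685723) (nat_lit 0) (nat_lit 2699640409) (nat_lit 1216) (nat_lit 899722842) (nat_lit 477) (nat_lit 5) (nat_lit 476) (nat_lit 5) (nat_lit 492) (nat_lit 5) (nat_lit 406) (nat_lit 403) (nat_lit 331)) (XT.lf (nat_lit 0) (nat_lit 459133984) (nat_lit 1216) (nat_lit 108074840) (nat_lit 1292) (nat_lit 7100649447) (nat_lit 460) (nat_lit 5) (nat_lit 476) (nat_lit 5) (nat_lit 477) (nat_lit 5) (nat_lit 407) (nat_lit 403) (nat_lit 330))))) (XT.nd (nat_lit 234) (nat_lit 1216) (nat_lit 0) (XT.nd (nat_lit 78) (nat_lit 0) (nat_lit 0) (XT.lf (nat_lit 0) (nat_lit 1832147456) (nat_lit 1216) (nat_lit 4255473296) (nat_lit 1292) (nat_lit 1630985787) (nat_lit 461) (nat_lit 5) (nat_lit 477) (nat_lit 5) (nat_lit 478) (nat_lit 5) (nat_lit 408) (nat_lit 403) (nat_lit 329)) (XT.nd (nat_lit 78) (nat_lit 0) (nat_lit 0) (XT.lf (nat_lit 0) (nat_lit 3203488331) (nat_lit 1216) (nat_lit 686144830) (nat_lit 1292) (nat_lit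 3881360702) (nat_lit 461) (nat_lit 5) (nat_lit 477) (nat_lit 5) (nat_lit 478) (nat_lit 5) (nat_lit 409) (nat_lit 403) (nat_lit 328)) (XT.lf (nat_lit 76) (nat_lit 2974702707) (nat_lit 0) (nat_lit 1613907004) (nat_lit 1292) (nat_lit 3236132774) (nat_lit 462) (nat_lit 5) (nat_lit 461) (nat_lit 5) (nat_lit 478) (nat_lit 5) (nat_lit 410) (nat_lit 403) (nat_lit 327)))) (XT.nd (nat_lit 156) (nat_lit 1292) (nat_lit 0) (XT.nd (nat_lit 78) (nat_lit 0) (nat_lit 0) (XT.lf (nat_lit 0) (nat_lit 5978314130) (nat_lit 1216) (nat_lit 1185563281) (nat_lit 1292) (nat_lit 716190882) (nat_lit 462) (nat_lit 5) (nat_lit 478) (nat_lit 5) (nat_lit 479) (nat_lit 5) (nat_lit 411) (nat_lit 403) (nat_lit 326)) (XT.lf (nat_lit 76) (nat_lit 2555884142) (nat_lit 0) (nat_lit 4835498613) (nat_lit 1292) (nat_lit 545245506) (nat_lit 463) (nat_lit 5) (nat_lit 462) (nat_lit 5) (nat_lit 479) (nat_lit 5) (nat_lit 412) (nat_lit 403) (nat_lit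 325))) (XT.nd (nat_lit 78) (nat_lit 0) (nat_lit 76) (XT.lf (nat_lit 0) (nat_lit 803947376) (nat_lit 1292) (nat_lit 1630906232) (nat_lit 1368) (nat_lit 5559863486) (nat_lit 445) (nat_lit 5) (nat_lit 462) (nat_lit 5) (nat_lit 463) (nat_lit 5) (nat_lit 413) (nat_lit 403) (nat_lit 324)) (XT.lf (nat_lit 0) (nat_lit 2156556944) (nat_lit 1292) (nat_lit 5854474928) (nat_lit 1368) (nat_lit 43225870) (nat_lit 446) (nat_lit 5) (nat_lit 463) (nat_lit 5) (nat_lit 464) (nat_lit 5) (nat_lit 414) (nat_lit 403) (nat_lit 323))))))))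
noncomputable def xc159 : XT := (XT.nd (nat_lit 2106) (nat_lit 9424) (nat_lit 0) (XT.nd (nat_lit 1014) (nat_lit 8968) (nat_lit 0) (XT.nd (nat_lit 468) (nat_lit 1292) (nat_lit 0) (XT.nd (nat_lit 234) (nat_lit 1292) (nat_lit 0) (XT.nd (nat_lit 78) (nat_lit 0) (nat_lit 0) (XT.lf (nat_lit 0) (nat_lit 3533073895) (nat_lit 1292) (nat_lit 2021465191) (nat_lit 1368) (nat_lit 2560549086) (nat_lit 446) (nat_lit 5) (nat_lit 463) (nat_lit 5) (nat_lit 464) (nat_lit 5) (nat_lit 415) (nat_lit 403) (nat_lit 322)) (XT.nd (nat_lit 78) (nat_lit 0) (nat_lit 0) (XT.lf (nat_lit 76) (nat_lit 1893736987) (nat_lit 0) (nat_lit 3025987059) (nat_lit 1368) (nat_lit 3257794472) (nat_lit 447) (nat_lit 5) (nat_lit 446) (nat_lit 5) (nat_lit 464) (nat_lit 5) (nat_lit 416) (nat_lit 403) (nat_lit 321)) (XT.lf (nat_lit 76) (nat_lit 5895467253) (nat_lit 0) (nat_lit 422970203) (nat_lit 1368) (nat_lit 1923108082) (nat_lit 447) (nat_lit 5) (nat_lit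 446) (nat_lit 5) (nat_lit 464) (nat_lit 5) (nat_lit 417) (nat_lit 403) (nat_lit 320)))) (XT.nd (nat_lit 78) (nat_lit 1368) (nat_lit 0) (XT.lf (nat_lit 76) (nat_lit 1658161123) (nat_lit 0) (nat_lit 6083624622) (nat_lit 1368) (nat_lit 565168132) (nat_lit 448) (nat_lit 5) (nat_lit 447) (nat_lit 5) (nat_lit 465) (nat_lit 5) (nat_lit 418) (nat_lit 403) (nat_lit 319)) (XT.nd (nat_lit 78) (nat_lit 0) (nat_lit 0) (XT.lf (nat_lit 0) (nat_lit 799444043) (nat_lit 1368) (nat_lit 2627051812) (nat_lit 1444) (nat_lit 4947295390) (nat_lit 429) (nat_lit 5) (nat_lit 447) (nat_lit 5) (nat_lit 448) (nat_lit 5) (nat_lit 419) (nat_lit 403) (nat_lit 318)) (XT.lf (nat_lit 76) (nat_lit 1471310550) (nat_lit 0) (nat_lit 694204770) (nat_lit 1444) (nat_lit 6276772665) (nat_lit 430) (nat_lit 5) (nat_lit 429) (nat_lit 5) (nat_lit 448) (nat_lit 5) (nat_lit 420) (nat_lit 403) (nat_lit 317))))) (XT.nd (nat_lit 234) (nat_lit 1368) (nat_lit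 0) (XT.nd (nat_lit 78) (nat_lit 0) (nat_lit 0) (XT.lf (nat_lit 0) (nat_lit 3562889431) (nat_lit 1368) (nat_lit 2858127856) (nat_lit 1444) (nat_lit 2091089150) (nat_lit 430) (nat_lit 5) (nat_lit 448) (nat_lit 5) (nat_lit 449) (nat_lit 5) (nat_lit 421) (nat_lit 403) (nat_lit 316)) (XT.nd (nat_lit 78) (nat_lit 0) (nat_lit 0) (XT.lf (nat_lit 76) (nat_lit 1330346558) (nat_lit 0) (nat_lit 3644283999) (nat_lit 1444) (nat_lit 3608993096) (nat_lit 431) (nat_lit 5) (nat_lit 430) (nat_lit 5) (nat_lit 449) (nat_lit 5) (nat_lit 422) (nat_lit 403) (nat_lit 315)) (XT.lf (nat_lit 76) (nat_lit 5621978804) (nat_lit 0) (nat_lit 785392035) (nat_lit 1444) (nat_lit 2249375272) (nat_lit 431) (nat_lit 5) (nat_lit 430) (nat_lit 5) (nat_lit 449) (nat_lit 5) (nat_lit 423) (nat_lit 403) (nat_lit 314)))) (XT.nd (nat_lit 156) (nat_lit 0) (nat_lit 0) (XT.nd (nat_lit 78) (nat_lit 1444) (nat_lit 0) (XT.lf (nat_lit 76) (nat_lit 1251120250)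 (nat_lit 0) (nat_lit 6613750232) (nat_lit 1444) (nat_lit 866568035) (nat_lit 432) (nat_lit 5) (nat_lit 431) (nat_lit 5) (nat_lit 450) (nat_lit 5) (nat_lit 424) (nat_lit 403) (nat_lit 313)) (XT.lf (nat_lit 0) (nat_lit 536794147) (nat_lit 1444) (nat_lit 3172030471) (nat_lit 1520) (nat_lit 5098757330) (nat_lit 412) (nat_lit 5) (nat_lit 431) (nat_lit 5) (nat_lit 432) (nat_lit 5) (nat_lit 425) (nat_lit 403) (nat_lit 312))) (XT.nd (nat_lit 78) (nat_lit 0) (nat_lit 76) (XT.lf (nat_lit 76) (nat_lit 1213175475) (nat_lit 0) (nat_lit 726166714) (nat_lit 1520) (nat_lit 6946164942) (nat_lit 413) (nat_lit 5) (nat_lit 412) (nat_lit 5) (nat_lit 432) (nat_lit 5) (nat_lit 426) (nat_lit 403) (nat_lit 311)) (XT.lf (nat_lit 0) (nat_lit 3381644406) (nat_lit 1444) (nat_lit 3270511794) (nat_lit 76) (nat_lit 2312627891) (nat_lit 413) (nat_lit 5) (nat_lit 432) (nat_lit 5) (nat_lit 414) (nat_lit 5) (nat_lit 427) (nat_lit 403) (nat_lit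 310)))))) (XT.nd (nat_lit 546) (nat_lit 2736) (nat_lit 0) (XT.nd (nat_lit 234) (nat_lit 3344) (nat_lit 0) (XT.nd (nat_lit 78) (nat_lit 1520) (nat_lit 0) (XT.lf (nat_lit 0) (nat_lit 1210955518) (nat_lit 1444) (nat_lit 3630232358) (nat_lit 1520) (nat_lit 4204717614) (nat_lit 394) (nat_lit 5) (nat_lit 413) (nat_lit 5) (nat_lit 414) (nat_lit 5) (nat_lit 428) (nat_lit 403) (nat_lit 309)) (XT.nd (nat_lit 78) (nat_lit 1520) (nat_lit 0) (XT.lf (nat_lit 0) (nat_lit 5807051069) (nat_lit 1444) (nat_lit 520892309) (nat_lit 1520) (nat_lit 2800771792) (nat_lit 394) (nat_lit 5) (nat_lit 413) (nat_lit 5) (nat_lit 414) (nat_lit 5) (nat_lit 429) (nat_lit 403) (nat_lit 308)) (XT.lf (nat_lit 0) (nat_lit 1261747063) (nat_lit 1520) (nat_lit 6584661370) (nat_lit 1596) (nat_lit 1366758882) (nat_lit 374) (nat_lit 5) (nat_lit 394) (nat_lit 5) (nat_lit 395) (nat_lit 5) (nat_lit 430) (nat_lit 403) (nat_lit 307)))) (XT.nd (nat_lit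 156) (nat_lit 1672) (nat_lit 0) (XT.nd (nat_lit 78) (nat_lit 1596) (nat_lit 0) (XT.lf (nat_lit 0) (nat_lit 97291965) (nat_lit 1596) (nat_lit 3340914985) (nat_lit 76) (nat_lit 5861061539) (nat_lit 373) (nat_lit 5) (nat_lit 394) (nat_lit 5) (nat_lit 374) (nat_lit 5) (nat_lit 431) (nat_lit 403) (nat_lit 306)) (XT.lf (nat_lit 0) (nat_lit 1351171168) (nat_lit 1596) (nat_lit 207126397) (nat_lit 1672) (nat_lit 7828918219) (nat_lit 352) (nat_lit 5) (nat_lit 373) (nat_lit 5) (nat_lit 374) (nat_lit 5) (nat_lit 432) (nat_lit 403) (nat_lit 305))) (XT.nd (nat_lit 78) (nat_lit 1672) (nat_lit 0) (XT.lf (nat_lit 0) (nat_lit 3068673402) (nat_lit 1672) (nat_lit 3333956095) (nat_lit 76) (nat_lit 3073913326) (nat_lit 352) (nat_lit 5) (nat_lit 374) (nat_lit 5) (nat_lit 353) (nat_lit 5) (nat_lit 433) (nat_lit 403) (nat_lit 304)) (XT.lf (nat_lit 0) (nat_lit 1460678254) (nat_lit 1672) (nat_lit 3137403763) (nat_lit 1748) (nat_lit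 4969821212) (nat_lit 330) (nat_lit 5) (nat_lit 352) (nat_lit 5) (nat_lit 353) (nat_lit 5) (nat_lit 434) (nat_lit 403) (nat_lit 303))))) (XT.nd (nat_lit 234) (nat_lit 1748) (nat_lit 0) (XT.nd (nat_lit 78) (nat_lit 988) (nat_lit 0) (XT.lf (nat_lit 0) (nat_lit 6160147619) (nat_lit 1748) (nat_lit 3285275968) (nat_lit 76) (nat_lit 215648756) (nat_lit 330) (nat_lit 5) (nat_lit 353) (nat_lit 5) (nat_lit 331) (nat_lit 5) (nat_lit 435) (nat_lit 403) (nat_lit 302)) (XT.nd (nat_lit 78) (nat_lit 0) (nat_lit 0) (XT.lf (nat_lit 0) (nat_lit 1614262272) (nat_lit 988) (nat_lit 6149170382) (nat_lit 1064) (nat_lit 1992495049) (nat_lit 317) (nat_lit 5) (nat_lit 330) (nat_lit 5) (nat_lit 331) (nat_lit 5) (nat_lit 436) (nat_lit 403) (nat_lit 301)) (XT.lf (nat_lit 0) (nat_lit 6637207081) (nat_lit 988) (nat_lit 2762635131) (nat_lit 1064) (nat_lit 452838769) (nat_lit 317) (nat_lit 5) (nat_lit 330) (nat_lit 5) (nat_lit 331) (nat_lit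 5) (nat_lit 437) (nat_lit 403) (nat_lit 300)))) (XT.nd (nat_lit 156) (nat_lit 836) (nat_lit 0) (XT.nd (nat_lit 78) (nat_lit 0) (nat_lit 0) (XT.lf (nat_lit 0) (nat_lit 1098577012) (nat_lit 912) (nat_lit 8149411850) (nat_lit 76) (nat_lit 703343989) (nat_lit 305) (nat_lit 5) (nat_lit 317) (nat_lit 5) (nat_lit 306) (nat_lit 5) (nat_lit 438) (nat_lit 403) (nat_lit 299)) (XT.lf (nat_lit 0) (nat_lit 2694539856) (nat_lit 912) (nat_lit 3129066461) (nat_lit 76) (nat_lit 4227920652) (nat_lit 305) (nat_lit 5) (nat_lit 317) (nat_lit 5) (nat_lit 306) (nat_lit 5) (nat_lit 439) (nat_lit 403) (nat_lit 298))) (XT.nd (nat_lit 78) (nat_lit 0) (nat_lit 0) (XT.lf (nat_lit 0) (nat_lit 1998928393) (nat_lit 836) (nat_lit 2316433277) (nat_lit 912) (nat_lit 5838524816) (nat_lit 294) (nat_lit 5) (nat_lit 305) (nat_lit 5) (nat_lit 306) (nat_lit 5) (nat_lit 440) (nat_lit 403) (nat_lit 297)) (XT.lf (nat_lit 0) (nat_lit 5978160999)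 (nat_lit 912) (nat_lit 3013570489) (nat_lit 76) (nat_lit 1266390397) (nat_lit 294) (nat_lit 5) (nat_lit 306) (nat_lit 5) (nat_lit 295) (nat_lit 5) (nat_lit 441) (nat_lit 403) (nat_lit 296))))))) (XT.nd (nat_lit 1092) (nat_lit 4332) (nat_lit 0) (XT.nd (nat_lit 546) (nat_lit 2052) (nat_lit 0) (XT.nd (nat_lit 234) (nat_lit 1444) (nat_lit 0) (XT.nd (nat_lit 78) (nat_lit 836) (nat_lit 0) (XT.lf (nat_lit 0) (nat_lit 2225601087) (nat_lit 760) (nat_lit 5459031265) (nat_lit 836) (nat_lit 2679620844) (nat_lit 284) (nat_lit 5) (nat_lit 294) (nat_lit 5) (nat_lit 295) (nat_lit 5) (nat_lit 442) (nat_lit 403) (nat_lit 295)) (XT.nd (nat_lit 78) (nat_lit 836) (nat_lit 0) (XT.lf (nat_lit 0) (nat_lit 7591637809) (nat_lit 760) (nat_lit 1834701350) (nat_lit 836) (nat_lit 1046164996) (nat_lit 284) (nat_lit 5) (nat_lit 294) (nat_lit 5) (nat_lit 295) (nat_lit 5) (nat_lit 443) (nat_lit 403) (nat_lit 294)) (XT.lf (nat_lit 0) (nat_lit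 621350091) (nat_lit 836) (nat_lit 8103072980) (nat_lit 76) (nat_lit 1858244534) (nat_lit 273) (nat_lit 5) (nat_lit 284) (nat_lit 5) (nat_lit 274) (nat_lit 5) (nat_lit 444) (nat_lit 403) (nat_lit 293)))) (XT.nd (nat_lit 156) (nat_lit 760) (nat_lit 0) (XT.nd (nat_lit 78) (nat_lit 684) (nat_lit 0) (XT.lf (nat_lit 0) (nat_lit 2321196941) (nat_lit 836) (nat_lit 2746476439) (nat_lit 76) (nat_lit 5626980888) (nat_lit 273) (nat_lit 5) (nat_lit 284) (nat_lit 5) (nat_lit 274) (nat_lit 5) (nat_lit 445) (nat_lit 403) (nat_lit 292)) (XT.lf (nat_lit 0) (nat_lit 2734549610) (nat_lit 684) (nat_lit 1319977017) (nat_lit 760) (nat_lit 6754382001) (nat_lit 264) (nat_lit 5) (nat_lit 273) (nat_lit 5) (nat_lit 274) (nat_lit 5) (nat_lit 446) (nat_lit 403) (nat_lit 291))) (XT.nd (nat_lit 78) (nat_lit 760) (nat_lit 0) (XT.lf (nat_lit 0) (nat_lit 5839291436) (nat_lit 760) (nat_lit 2597844784) (nat_lit 76) (nat_lit 2487993822) (nat_lit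 264) (nat_lit 5) (nat_lit 274) (nat_lit 5) (nat_lit 265) (nat_lit 5) (nat_lit 447) (nat_lit 403) (nat_lit 290)) (XT.lf (nat_lit 0) (nat_lit 3000357775) (nat_lit 760) (nat_lit 4669936388) (nat_lit 836) (nat_lit 3373187865) (nat_lit 254) (nat_lit 5) (nat_lit 264) (nat_lit 5) (nat_lit 265) (nat_lit 5) (nat_lit 448) (nat_lit 403) (nat_lit 289))))) (XT.nd (nat_lit 234) (nat_lit 1292) (nat_lit 0) (XT.nd (nat_lit 78) (nat_lit 760) (nat_lit 0) (XT.lf (nat_lit 0) (nat_lit 8727409619) (nat_lit 760) (nat_lit 810488619) (nat_lit 836) (nat_lit 1626319854) (nat_lit 254) (nat_lit 5) (nat_lit 264) (nat_lit 5) (nat_lit 265) (nat_lit 5) (nat_lit 449) (nat_lit 403) (nat_lit 288)) (XT.nd (nat_lit 78) (nat_lit 0) (nat_lit 0) (XT.lf (nat_lit 0) (nat_lit 178110176) (nat_lit 760) (nat_lit 8001954875) (nat_lit 76) (nat_lit 3106806374) (nat_lit 244) (nat_lit 5) (nat_lit 254) (nat_lit 5) (nat_lit 245) (nat_lit 5) (nat_lit 450)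 (nat_lit 403) (nat_lit 287)) (XT.lf (nat_lit 0) (nat_lit 2001675462) (nat_lit 760) (nat_lit 2292233416) (nat_lit 76) (nat_lit 7117773188) (nat_lit 244) (nat_lit 5) (nat_lit 254) (nat_lit 5) (nat_lit 245) (nat_lit 5) (nat_lit 451) (nat_lit 403) (nat_lit 286)))) (XT.nd (nat_lit 156) (nat_lit 608) (nat_lit 0) (XT.nd (nat_lit 78) (nat_lit 0) (nat_lit 0) (XT.lf (nat_lit 0) (nat_lit 3560293822) (nat_lit 684) (nat_lit 307842535) (nat_lit 760) (nat_lit 7670739472) (nat_lit 235) (nat_lit 5) (nat_lit 244) (nat_lit 5) (nat_lit 245) (nat_lit 5) (nat_lit 452) (nat_lit 403) (nat_lit 285)) (XT.lf (nat_lit 0) (nat_lit 5795319045) (nat_lit 760) (nat_lit 2150161994) (nat_lit 76) (nat_lit 3722679669) (nat_lit 235) (nat_lit 5) (nat_lit 245) (nat_lit 5) (nat_lit 236) (nat_lit 5) (nat_lit 453) (nat_lit 403) (nat_lit 284))) (XT.nd (nat_lit 78) (nat_lit 0) (nat_lit 0) (XT.lf (nat_lit 0) (nat_lit 3825013605) (nat_lit 608) (nat_lit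 3946737883) (nat_lit 684) (nat_lit 4028080471) (nat_lit 227) (nat_lit 5) (nat_lit 235) (nat_lit 5) (nat_lit 236) (nat_lit 5) (nat_lit 454) (nat_lit 403) (nat_lit 283)) (XT.lf (nat_lit 0) (nat_lit 9787115880) (nat_lit 684) (nat_lit 2004105401) (nat_lit 76) (nat_lit 142941794) (nat_lit 227) (nat_lit 5) (nat_lit 236) (nat_lit 5) (nat_lit 228) (nat_lit 5) (nat_lit 455) (nat_lit 403) (nat_lit 282)))))) (XT.nd (nat_lit 546) (nat_lit 1824) (nat_lit 0) (XT.nd (nat_lit 234) (nat_lit 1140) (nat_lit 0) (XT.nd (nat_lit 78) (nat_lit 684) (nat_lit 0) (XT.lf (nat_lit 0) (nat_lit 4095813956) (nat_lit 684) (nat_lit 7784039096) (nat_lit 760) (nat_lit 190600674) (nat_lit 218) (nat_lit 5) (nat_lit 227) (nat_lit 5) (nat_lit 228) (nat_lit 5) (nat_lit 456) (nat_lit 403) (nat_lit 281)) (XT.nd (nat_lit 78) (nat_lit 608) (nat_lit 0) (XT.lf (nat_lit 0) (nat_lit 1779251483) (nat_lit 760) (nat_lit 1894003157) (nat_lit 76) (nat_lit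 8536035852) (nat_lit 217) (nat_lit 5) (nat_lit 227) (nat_lit 5) (nat_lit 218) (nat_lit 5) (nat_lit 457) (nat_lit 403) (nat_lit 280)) (XT.lf (nat_lit 0) (nat_lit 3802443329) (nat_lit 684) (nat_lit 8007740996) (nat_lit 76) (nat_lit 540377978) (nat_lit 209) (nat_lit 5) (nat_lit 218) (nat_lit 5) (nat_lit 210) (nat_lit 5) (nat_lit 458) (nat_lit 403) (nat_lit 279)))) (XT.nd (nat_lit 156) (nat_lit 532) (nat_lit 0) (XT.nd (nat_lit 78) (nat_lit 608) (nat_lit 0) (XT.lf (nat_lit 0) (nat_lit 5888107795) (nat_lit 684) (nat_lit 1806485123) (nat_lit 76) (nat_lit 4799639595) (nat_lit 209) (nat_lit 5) (nat_lit 218) (nat_lit 5) (nat_lit 210) (nat_lit 5) (nat_lit 459) (nat_lit 403) (nat_lit 278)) (XT.lf (nat_lit 0) (nat_lit 4561239515) (nat_lit 608) (nat_lit 3469045592) (nat_lit 684) (nat_lit 4610207911) (nat_lit 201) (nat_lit 5) (nat_lit 209) (nat_lit 5) (nat_lit 210) (nat_lit 5) (nat_lit 460) (nat_lit 403) (nat_lit 277)))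 (XT.nd (nat_lit 78) (nat_lit 532) (nat_lit 0) (XT.lf (nat_lit 0) (nat_lit 10218315440) (nat_lit 684) (nat_lit 1731722752) (nat_lit 76) (nat_lit 839592979) (nat_lit 201) (nat_lit 5) (nat_lit 210) (nat_lit 5) (nat_lit 202) (nat_lit 5) (nat_lit 461) (nat_lit 403) (nat_lit 276)) (XT.lf (nat_lit 0) (nat_lit 4765071924) (nat_lit 532) (nat_lit 7724579916) (nat_lit 608) (nat_lit 451321720) (nat_lit 194) (nat_lit 5) (nat_lit 201) (nat_lit 5) (nat_lit 202) (nat_lit 5) (nat_lit 462) (nat_lit 403) (nat_lit 275))))) (XT.nd (nat_lit 234) (nat_lit 1140) (nat_lit 0) (XT.nd (nat_lit 78) (nat_lit 608) (nat_lit 0) (XT.lf (nat_lit 0) (nat_lit 1686027238) (nat_lit 608) (nat_lit 1708316709) (nat_lit 76) (nat_lit 9700840640) (nat_lit 193) (nat_lit 5) (nat_lit 201) (nat_lit 5) (nat_lit 194) (nat_lit 5) (nat_lit 463) (nat_lit 403) (nat_lit 274)) (XT.nd (nat_lit 78) (nat_lit 0) (nat_lit 0) (XT.lf (nat_lit 0) (nat_lit 3884946739)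 (nat_lit 684) (nat_lit 8325547233) (nat_lit 76) (nat_lit 1041440529) (nat_lit 185) (nat_lit 5) (nat_lit 194) (nat_lit 5) (nat_lit 186) (nat_lit 5) (nat_lit 464) (nat_lit 403) (nat_lit 273)) (XT.lf (nat_lit 0) (nat_lit 6147988272) (nat_lit 684) (nat_lit 1734317986) (nat_lit 76) (nat_lit 5529121721) (nat_lit 185) (nat_lit 5) (nat_lit 194) (nat_lit 5) (nat_lit 186) (nat_lit 5) (nat_lit 465) (nat_lit 403) (nat_lit 272)))) (XT.nd (nat_lit 156) (nat_lit 608) (nat_lit 0) (XT.nd (nat_lit 78) (nat_lit 0) (nat_lit 0) (XT.lf (nat_lit 0) (nat_lit 5038031279) (nat_lit 532) (nat_lit 3437366578) (nat_lit 608) (nat_lit 5098342541) (nat_lit 178) (nat_lit 5) (nat_lit 185) (nat_lit 5) (nat_lit 186) (nat_lit 5) (nat_lit 466) (nat_lit 403) (nat_lit 271)) (XT.lf (nat_lit 0) (nat_lit 10854724464) (nat_lit 608) (nat_lit 1793853543) (nat_lit 76) (nat_lit 1090624675) (nat_lit 178) (nat_lit 5) (nat_lit 186) (nat_lit 5) (nat_lit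 179) (nat_lit 5) (nat_lit 467) (nat_lit 403) (nat_lit 270))) (XT.nd (nat_lit 78) (nat_lit 76) (nat_lit 0) (XT.lf (nat_lit 0) (nat_lit 5110504417) (nat_lit 532) (nat_lit 8213876561) (nat_lit 608) (nat_lit 582749143) (nat_lit 171) (nat_lit 5) (nat_lit 178) (nat_lit 5) (nat_lit 179) (nat_lit 5) (nat_lit 468) (nat_lit 403) (nat_lit 269)) (XT.lf (nat_lit 0) (nat_lit 1740836984) (nat_lit 608) (nat_lit 1929120808) (nat_lit 76) (nat_lit 10408260066) (nat_lit 170) (nat_lit 5) (nat_lit 178) (nat_lit 5) (nat_lit 171) (nat_lit 5) (nat_lit 469) (nat_lit 403) (nat_lit 268))))))))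
noncomputable def xc160 : XT := (XT.nd (nat_lit 2106) (nat_lit 3192) (nat_lit 0) (XT.nd (nat_lit 1014) (nat_lit 2280) (nat_lit 0) (XT.nd (nat_lit 468) (nat_lit 1824) (nat_lit 0) (XT.nd (nat_lit 234) (nat_lit 532) (nat_lit 0) (XT.nd (nat_lit 78) (nat_lit 532) (nat_lit 0) (XT.lf (nat_lit 0) (nat_lit 4129958253) (nat_lit 532) (nat_lit 9136025284) (nat_lit 76) (nat_lit 986139602) (nat_lit 164) (nat_lit 5) (nat_lit 171) (nat_lit 5) (nat_lit 165) (nat_lit 5) (nat_lit 470) (nat_lit 403) (nat_lit 267)) (XT.nd (nat_lit 78) (nat_lit 532) (nat_lit 0) (XT.lf (nat_lit 0) (nat_lit 6591433355) (nat_lit 532) (nat_lit 2141746511) (nat_lit 76) (nat_lit 5695845188) (nat_lit 164) (nat_lit 5) (nat_lit 171) (nat_lit 5) (nat_lit 165) (nat_lit 5) (nat_lit 471) (nat_lit 403) (nat_lit 266)) (XT.lf (nat_lit 0) (nat_lit 5042393421) (nat_lit 532) (nat_lit 4079969282) (nat_lit 608) (nat_lit 5486707573) (nat_lit 157) (nat_lit 5) (nat_lit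 164) (nat_lit 5) (nat_lit 165) (nat_lit 5) (nat_lit 472) (nat_lit 403) (nat_lit 265)))) (XT.nd (nat_lit 78) (nat_lit 532) (nat_lit 0) (XT.lf (nat_lit 0) (nat_lit 11710307632) (nat_lit 608) (nat_lit 2413885314) (nat_lit 76) (nat_lit 668405088) (nat_lit 157) (nat_lit 5) (nat_lit 165) (nat_lit 5) (nat_lit 158) (nat_lit 5) (nat_lit 473) (nat_lit 403) (nat_lit 264)) (XT.nd (nat_lit 78) (nat_lit 76) (nat_lit 0) (XT.lf (nat_lit 0) (nat_lit 4903285980) (nat_lit 456) (nat_lit 9493427063) (nat_lit 532) (nat_lit 582158655) (nat_lit 151) (nat_lit 5) (nat_lit 157) (nat_lit 5) (nat_lit 158) (nat_lit 5) (nat_lit 474) (nat_lit 403) (nat_lit 263)) (XT.lf (nat_lit 0) (nat_lit 1946364292) (nat_lit 532) (nat_lit 2797938771) (nat_lit 76) (nat_lit 10424237264) (nat_lit 150) (nat_lit 5) (nat_lit 157) (nat_lit 5) (nat_lit 151) (nat_lit 5) (nat_lit 475) (nat_lit 403) (nat_lit 262))))) (XT.nd (nat_lit 234) (nat_lit 912) (nat_lit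 0) (XT.nd (nat_lit 78) (nat_lit 456) (nat_lit 0) (XT.lf (nat_lit 0) (nat_lit 4536950297) (nat_lit 532) (nat_lit 10695516181) (nat_lit 76) (nat_lit 129081978) (nat_lit 144) (nat_lit 5) (nat_lit 151) (nat_lit 5) (nat_lit 145) (nat_lit 5) (nat_lit 476) (nat_lit 403) (nat_lit 261)) (XT.nd (nat_lit 78) (nat_lit 456) (nat_lit 0) (XT.lf (nat_lit 0) (nat_lit 7217904053) (nat_lit 532) (nat_lit 3288204649) (nat_lit 76) (nat_lit 5051545594) (nat_lit 144) (nat_lit 5) (nat_lit 151) (nat_lit 5) (nat_lit 145) (nat_lit 5) (nat_lit 477) (nat_lit 403) (nat_lit 260)) (XT.lf (nat_lit 0) (nat_lit 4308237416) (nat_lit 456) (nat_lit 5660678876) (nat_lit 532) (nat_lit 5788445672) (nat_lit 138) (nat_lit 5) (nat_lit 144) (nat_lit 5) (nat_lit 145) (nat_lit 5) (nat_lit 478) (nat_lit 403) (nat_lit 259)))) (XT.nd (nat_lit 156) (nat_lit 456) (nat_lit 0) (XT.nd (nat_lit 78) (nat_lit 456) (nat_lit 0) (XT.lf (nat_lit 0) (nat_lit 12085763896)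 (nat_lit 456) (nat_lit 699843968) (nat_lit 532) (nat_lit 3175251071) (nat_lit 138) (nat_lit 5) (nat_lit 144) (nat_lit 5) (nat_lit 145) (nat_lit 5) (nat_lit 479) (nat_lit 403) (nat_lit 258)) (XT.lf (nat_lit 0) (nat_lit 3857374952) (nat_lit 456) (nat_lit 11843403945) (nat_lit 532) (nat_lit 466812205) (nat_lit 132) (nat_lit 5) (nat_lit 138) (nat_lit 5) (nat_lit 139) (nat_lit 5) (nat_lit 480) (nat_lit 403) (nat_lit 257))) (XT.nd (nat_lit 78) (nat_lit 380) (nat_lit 0) (XT.lf (nat_lit 0) (nat_lit 2285327790) (nat_lit 532) (nat_lit 4616004718) (nat_lit 76) (nat_lit 9476442296) (nat_lit 131) (nat_lit 5) (nat_lit 138) (nat_lit 5) (nat_lit 132) (nat_lit 5) (nat_lit 481) (nat_lit 403) (nat_lit 256)) (XT.lf (nat_lit 0) (nat_lit 3256635938) (nat_lit 380) (nat_lit 1839824367) (nat_lit 456) (nat_lit 11495443855) (nat_lit 126) (nat_lit 5) (nat_lit 131) (nat_lit 5) (nat_lit 132) (nat_lit 5) (nat_lit 482) (nat_lit 403)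 (nat_lit 255)))))) (XT.nd (nat_lit 546) (nat_lit 1064) (nat_lit 0) (XT.nd (nat_lit 234) (nat_lit 836) (nat_lit 0) (XT.nd (nat_lit 78) (nat_lit 380) (nat_lit 0) (XT.lf (nat_lit 0) (nat_lit 8005711808) (nat_lit 456) (nat_lit 5497348729) (nat_lit 76) (nat_lit 3306425185) (nat_lit 126) (nat_lit 5) (nat_lit 132) (nat_lit 5) (nat_lit 127) (nat_lit 5) (nat_lit 483) (nat_lit 403) (nat_lit 254)) (XT.nd (nat_lit 78) (nat_lit 0) (nat_lit 0) (XT.lf (nat_lit 0) (nat_lit 2503097965) (nat_lit 380) (nat_lit 8487840157) (nat_lit 456) (nat_lit 6040132397) (nat_lit 121) (nat_lit 5) (nat_lit 126) (nat_lit 5) (nat_lit 127) (nat_lit 5) (nat_lit 484) (nat_lit 403) (nat_lit 253)) (XT.lf (nat_lit 0) (nat_lit 10723293967) (nat_lit 380) (nat_lit 3338931646) (nat_lit 456) (nat_lit 3194341520) (nat_lit 121) (nat_lit 5) (nat_lit 126) (nat_lit 5) (nat_lit 127) (nat_lit 5) (nat_lit 485) (nat_lit 403) (nat_lit 252)))) (XT.nd (nat_lit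 156) (nat_lit 380) (nat_lit 0) (XT.nd (nat_lit 78) (nat_lit 76) (nat_lit 0) (XT.lf (nat_lit 0) (nat_lit 1615411943) (nat_lit 380) (nat_lit 15592081478) (nat_lit 456) (nat_lit 278836277) (nat_lit 116) (nat_lit 5) (nat_lit 121) (nat_lit 5) (nat_lit 122) (nat_lit 5) (nat_lit 486) (nat_lit 403) (nat_lit 251)) (XT.lf (nat_lit 0) (nat_lit 2715557814) (nat_lit 456) (nat_lit 7758801709) (nat_lit 76) (nat_lit 7244866397) (nat_lit 115) (nat_lit 5) (nat_lit 121) (nat_lit 5) (nat_lit 116) (nat_lit 5) (nat_lit 487) (nat_lit 403) (nat_lit 250))) (XT.nd (nat_lit 78) (nat_lit 0) (nat_lit 0) (XT.lf (nat_lit 0) (nat_lit 505911894) (nat_lit 380) (nat_lit 5253364545) (nat_lit 456) (nat_lit 12197610062) (nat_lit 110) (nat_lit 5) (nat_lit 115) (nat_lit 5) (nat_lit 116) (nat_lit 5) (nat_lit 488) (nat_lit 403) (nat_lit 249)) (XT.lf (nat_lit 0) (nat_lit 8906706960) (nat_lit 456) (nat_lit 9172496288) (nat_lit 76) (nat_lit 119246865)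 (nat_lit 110) (nat_lit 5) (nat_lit 116) (nat_lit 5) (nat_lit 111) (nat_lit 5) (nat_lit 489) (nat_lit 403) (nat_lit 248))))) (XT.nd (nat_lit 234) (nat_lit 760) (nat_lit 0) (XT.nd (nat_lit 78) (nat_lit 304) (nat_lit 0) (XT.lf (nat_lit 0) (nat_lit 12142032738) (nat_lit 456) (nat_lit 777471318) (nat_lit 76) (nat_lit 5524848449) (nat_lit 110) (nat_lit 5) (nat_lit 116) (nat_lit 5) (nat_lit 111) (nat_lit 5) (nat_lit 490) (nat_lit 403) (nat_lit 247)) (XT.nd (nat_lit 78) (nat_lit 0) (nat_lit 0) (XT.lf (nat_lit 0) (nat_lit 7874779949) (nat_lit 304) (nat_lit 7608762545) (nat_lit 380) (nat_lit 3210807216) (nat_lit 106) (nat_lit 5) (nat_lit 110) (nat_lit 5) (nat_lit 111) (nat_lit 5) (nat_lit 491) (nat_lit 403) (nat_lit 246)) (XT.lf (nat_lit 0) (nat_lit 16696753513) (nat_lit 304) (nat_lit 2190794578) (nat_lit 380) (nat_lit 61891647) (nat_lit 106) (nat_lit 5) (nat_lit 110) (nat_lit 5) (nat_lit 111) (nat_lit 5) (nat_lit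 492) (nat_lit 403) (nat_lit 245)))) (XT.nd (nat_lit 156) (nat_lit 304) (nat_lit 0) (XT.nd (nat_lit 78) (nat_lit 0) (nat_lit 0) (XT.lf (nat_lit 0) (nat_lit 3163745411) (nat_lit 456) (nat_lit 12693516213) (nat_lit 76) (nat_lit 3350865735) (nat_lit 100) (nat_lit 5) (nat_lit 106) (nat_lit 5) (nat_lit 101) (nat_lit 5) (nat_lit 493) (nat_lit 403) (nat_lit 244)) (XT.lf (nat_lit 0) (nat_lit 6473428897) (nat_lit 456) (nat_lit 4012710198) (nat_lit 76) (nat_lit 8985440040) (nat_lit 100) (nat_lit 5) (nat_lit 106) (nat_lit 5) (nat_lit 101) (nat_lit 5) (nat_lit 494) (nat_lit 403) (nat_lit 243))) (XT.nd (nat_lit 78) (nat_lit 0) (nat_lit 0) (XT.lf (nat_lit 0) (nat_lit 4892351041) (nat_lit 304) (nat_lit 4979539247) (nat_lit 380) (nat_lit 9867963693) (nat_lit 96) (nat_lit 5) (nat_lit 100) (nat_lit 5) (nat_lit 101) (nat_lit 5) (nat_lit 495) (nat_lit 403) (nat_lit 242)) (XT.lf (nat_lit 0) (nat_lit 13360448092) (nat_lit 380)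 (nat_lit 6000959434) (nat_lit 76) (nat_lit 651649862) (nat_lit 96) (nat_lit 5) (nat_lit 101) (nat_lit 5) (nat_lit 97) (nat_lit 5) (nat_lit 496) (nat_lit 403) (nat_lit 241))))))) (XT.nd (nat_lit 1014) (nat_lit 1368) (nat_lit 0) (XT.nd (nat_lit 468) (nat_lit 836) (nat_lit 0) (XT.nd (nat_lit 234) (nat_lit 304) (nat_lit 0) (XT.nd (nat_lit 78) (nat_lit 380) (nat_lit 0) (XT.lf (nat_lit 0) (nat_lit 3015761586) (nat_lit 304) (nat_lit 13946635991) (nat_lit 380) (nat_lit 3328460373) (nat_lit 92) (nat_lit 5) (nat_lit 96) (nat_lit 5) (nat_lit 97) (nat_lit 5) (nat_lit 497) (nat_lit 403) (nat_lit 240)) (XT.nd (nat_lit 78) (nat_lit 304) (nat_lit 0) (XT.lf (nat_lit 0) (nat_lit 92980891) (nat_lit 380) (nat_lit 8293282421) (nat_lit 76) (nat_lit 12187315926) (nat_lit 91) (nat_lit 5) (nat_lit 96) (nat_lit 5) (nat_lit 92) (nat_lit 5) (nat_lit 498) (nat_lit 403) (nat_lit 239)) (XT.lf (nat_lit 0) (nat_lit 844092942) (nat_lit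 304) (nat_lit 2690975235) (nat_lit 380) (nat_lit 17326516228) (nat_lit 87) (nat_lit 5) (nat_lit 91) (nat_lit 5) (nat_lit 92) (nat_lit 5) (nat_lit 499) (nat_lit 403) (nat_lit 238)))) (XT.nd (nat_lit 78) (nat_lit 304) (nat_lit 0) (XT.lf (nat_lit 0) (nat_lit 7113585260) (nat_lit 380) (nat_lit 10911383328) (nat_lit 76) (nat_lit 3129034406) (nat_lit 87) (nat_lit 5) (nat_lit 92) (nat_lit 5) (nat_lit 88) (nat_lit 5) (nat_lit 500) (nat_lit 403) (nat_lit 237)) (XT.nd (nat_lit 78) (nat_lit 304) (nat_lit 0) (XT.lf (nat_lit 0) (nat_lit 10772985533) (nat_lit 380) (nat_lit 1653881935) (nat_lit 76) (nat_lit 9025221207) (nat_lit 87) (nat_lit 5) (nat_lit 92) (nat_lit 5) (nat_lit 88) (nat_lit 5) (nat_lit 501) (nat_lit 403) (nat_lit 236)) (XT.lf (nat_lit 0) (nat_lit 7879455176) (nat_lit 304) (nat_lit 6668935933) (nat_lit 380) (nat_lit 7206893497) (nat_lit 83) (nat_lit 5) (nat_lit 87) (nat_lit 5) (nat_lit 88) (nat_lit 5)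 (nat_lit 502) (nat_lit 403) (nat_lit 235))))) (XT.nd (nat_lit 234) (nat_lit 532) (nat_lit 0) (XT.nd (nat_lit 78) (nat_lit 304) (nat_lit 0) (XT.lf (nat_lit 0) (nat_lit 17613306308) (nat_lit 304) (nat_lit 788837490) (nat_lit 380) (nat_lit 3662348663) (nat_lit 83) (nat_lit 5) (nat_lit 87) (nat_lit 5) (nat_lit 88) (nat_lit 5) (nat_lit 503) (nat_lit 403) (nat_lit 234)) (XT.nd (nat_lit 78) (nat_lit 0) (nat_lit 0) (XT.lf (nat_lit 0) (nat_lit 13440930) (nat_lit 304) (nat_lit 17195139701) (nat_lit 76) (nat_lit 5170119763) (nat_lit 79) (nat_lit 5) (nat_lit 83) (nat_lit 5) (nat_lit 80) (nat_lit 5) (nat_lit 504) (nat_lit 403) (nat_lit 233)) (XT.lf (nat_lit 0) (nat_lit 3740941190) (nat_lit 304) (nat_lit 7669425901) (nat_lit 76) (nat_lit 11287801066) (nat_lit 79) (nat_lit 5) (nat_lit 83) (nat_lit 5) (nat_lit 80) (nat_lit 5) (nat_lit 505) (nat_lit 403) (nat_lit 232)))) (XT.nd (nat_lit 156) (nat_lit 228) (nat_lit 0)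 (XT.nd (nat_lit 78) (nat_lit 0) (nat_lit 0) (XT.lf (nat_lit 0) (nat_lit 2061590875) (nat_lit 304) (nat_lit 5486840871) (nat_lit 380) (nat_lit 15475489146) (nat_lit 75) (nat_lit 5) (nat_lit 79) (nat_lit 5) (nat_lit 80) (nat_lit 5) (nat_lit 506) (nat_lit 403) (nat_lit 231)) (XT.lf (nat_lit 0) (nat_lit 11479587199) (nat_lit 380) (nat_lit 11280218185) (nat_lit 76) (nat_lit 595437330) (nat_lit 75) (nat_lit 5) (nat_lit 80) (nat_lit 5) (nat_lit 76) (nat_lit 5) (nat_lit 507) (nat_lit 403) (nat_lit 230))) (XT.nd (nat_lit 78) (nat_lit 228) (nat_lit 0) (XT.lf (nat_lit 0) (nat_lit 15517961208) (nat_lit 380) (nat_lit 1452862203) (nat_lit 76) (nat_lit 6721799902) (nat_lit 75) (nat_lit 5) (nat_lit 80) (nat_lit 5) (nat_lit 76) (nat_lit 5) (nat_lit 508) (nat_lit 403) (nat_lit 229)) (XT.lf (nat_lit 0) (nat_lit 8672963479) (nat_lit 228) (nat_lit 11012860391) (nat_lit 304) (nat_lit 4349957397) (nat_lit 72) (nat_lit 5) (nat_lit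 75) (nat_lit 5) (nat_lit 76) (nat_lit 5) (nat_lit 509) (nat_lit 403) (nat_lit 228)))))) (XT.nd (nat_lit 546) (nat_lit 532) (nat_lit 0) (XT.nd (nat_lit 234) (nat_lit 456) (nat_lit 0) (XT.nd (nat_lit 78) (nat_lit 380) (nat_lit 0) (XT.lf (nat_lit 0) (nat_lit 19009252505) (nat_lit 228) (nat_lit 4930023835) (nat_lit 304) (nat_lit 446485474) (nat_lit 72) (nat_lit 5) (nat_lit 75) (nat_lit 5) (nat_lit 76) (nat_lit 5) (nat_lit 510) (nat_lit 403) (nat_lit 227)) (XT.nd (nat_lit 78) (nat_lit 0) (nat_lit 0) (XT.lf (nat_lit 0) (nat_lit 3521292375) (nat_lit 380) (nat_lit 19912003804) (nat_lit 76) (nat_lit 1308338693) (nat_lit 67) (nat_lit 5) (nat_lit 72) (nat_lit 5) (nat_lit 68) (nat_lit 5) (nat_lit 511) (nat_lit 403) (nat_lit 226)) (XT.lf (nat_lit 0) (nat_lit 7624041333) (nat_lit 380) (nat_lit 9838641067) (nat_lit 76) (nat_lit 7640655934) (nat_lit 67) (nat_lit 5) (nat_lit 72) (nat_lit 5) (nat_lit 68) (nat_lit 5) (nat_lit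 512) (nat_lit 403) (nat_lit 225)))) (XT.nd (nat_lit 156) (nat_lit 228) (nat_lit 0) (XT.nd (nat_lit 78) (nat_lit 0) (nat_lit 0) (XT.lf (nat_lit 0) (nat_lit 430395842) (nat_lit 228) (nat_lit 11374009624) (nat_lit 304) (nat_lit 13667962969) (nat_lit 64) (nat_lit 5) (nat_lit 67) (nat_lit 5) (nat_lit 68) (nat_lit 5) (nat_lit 513) (nat_lit 403) (nat_lit 224)) (XT.lf (nat_lit 0) (nat_lit 11026816308) (nat_lit 228) (nat_lit 5100416891) (nat_lit 304) (nat_lit 9720372513) (nat_lit 64) (nat_lit 5) (nat_lit 67) (nat_lit 5) (nat_lit 68) (nat_lit 5) (nat_lit 514) (nat_lit 403) (nat_lit 223))) (XT.nd (nat_lit 78) (nat_lit 228) (nat_lit 0) (XT.lf (nat_lit 0) (nat_lit 20537896826) (nat_lit 304) (nat_lit 4414871419) (nat_lit 76) (nat_lit 1277555531) (nat_lit 64) (nat_lit 5) (nat_lit 68) (nat_lit 5) (nat_lit 65) (nat_lit 5) (nat_lit 515) (nat_lit 403) (nat_lit 222)) (XT.lf (nat_lit 0) (nat_lit 6236138960) (nat_lit 228)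 (nat_lit 18867987447) (nat_lit 304) (nat_lit 1515226294) (nat_lit 61) (nat_lit 5) (nat_lit 64) (nat_lit 5) (nat_lit 65) (nat_lit 5) (nat_lit 516) (nat_lit 403) (nat_lit 221))))) (XT.nd (nat_lit 234) (nat_lit 228) (nat_lit 0) (XT.nd (nat_lit 78) (nat_lit 228) (nat_lit 0) (XT.lf (nat_lit 0) (nat_lit 2732434238) (nat_lit 304) (nat_lit 9884636261) (nat_lit 76) (nat_lit 14398280133) (nat_lit 60) (nat_lit 5) (nat_lit 64) (nat_lit 5) (nat_lit 61) (nat_lit 5) (nat_lit 517) (nat_lit 403) (nat_lit 220)) (XT.nd (nat_lit 78) (nat_lit 0) (nat_lit 0) (XT.lf (nat_lit 0) (nat_lit 813707984) (nat_lit 228) (nat_lit 6229590000) (nat_lit 304) (nat_lit 20375802799) (nat_lit 57) (nat_lit 5) (nat_lit 60) (nat_lit 5) (nat_lit 61) (nat_lit 5) (nat_lit 518) (nat_lit 403) (nat_lit 219)) (XT.lf (nat_lit 0) (nat_lit 11502277000) (nat_lit 304) (nat_lit 15982766837) (nat_lit 76) (nat_lit 344647424) (nat_lit 57) (nat_lit 5) (nat_lit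 61) (nat_lit 5) (nat_lit 58) (nat_lit 5) (nat_lit 519) (nat_lit 403) (nat_lit 218)))) (XT.nd (nat_lit 156) (nat_lit 0) (nat_lit 0) (XT.nd (nat_lit 78) (nat_lit 228) (nat_lit 0) (XT.lf (nat_lit 0) (nat_lit 16085096099) (nat_lit 304) (nat_lit 5199612193) (nat_lit 76) (nat_lit 6963095267) (nat_lit 57) (nat_lit 5) (nat_lit 61) (nat_lit 5) (nat_lit 58) (nat_lit 5) (nat_lit 520) (nat_lit 403) (nat_lit 217)) (XT.lf (nat_lit 0) (nat_lit 5865675845) (nat_lit 228) (nat_lit 14925513849) (nat_lit 304) (nat_lit 7882459204) (nat_lit 54) (nat_lit 5) (nat_lit 57) (nat_lit 5) (nat_lit 58) (nat_lit 5) (nat_lit 521) (nat_lit 403) (nat_lit 216))) (XT.nd (nat_lit 50154) (nat_lit 0) (nat_lit 32072) (XT.lf (nat_lit 0) (nat_lit 17212361473) (nat_lit 228) (nat_lit 8407529397) (nat_lit 304) (nat_lit 3487553657) (nat_lit 54) (nat_lit 5) (nat_lit 57) (nat_lit 5) (nat_lit 58) (nat_lit 5) (nat_lit 522) (nat_lit 403) (nat_lit 215))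 (XT.lf (nat_lit 0) (nat_lit 1316411387) (nat_lit 0) (nat_lit 1316411387) (nat_lit 1140) (nat_lit 1151686439) (nat_lit 476) (nat_lit 5) (nat_lit 476) (nat_lit 3) (nat_lit 491) (nat_lit 3) (nat_lit 404) (nat_lit 404) (nat_lit 332))))))))
noncomputable def xc161 : XT := (XT.nd (nat_lit 2106) (nat_lit 12464) (nat_lit 0) (XT.nd (nat_lit 1014) (nat_lit 5396) (nat_lit 0) (XT.nd (nat_lit 468) (nat_lit 1216) (nat_lit 0) (XT.nd (nat_lit 234) (nat_lit 0) (nat_lit 0) (XT.nd (nat_lit 78) (nat_lit 1216) (nat_lit 0) (XT.lf (nat_lit 0) (nat_lit 6082229998) (nat_lit 0) (nat_lit 558047554) (nat_lit 1140) (nat_lit 976315183) (nat_lit 476) (nat_lit 5) (nat_lit 476) (nat_lit 3) (nat_lit 491) (nat_lit 3) (nat_lit 405) (nat_lit 404) (nat_lit 331)) (XT.nd (nat_lit 78) (nat_lit 0) (nat_lit 0) (XT.lf (nat_lit 0) (nat_lit 360314399) (nat_lit 1216) (nat_lit 5735223450) (nat_lit 1292) (nat_lit 1569815220) (nat_lit 460) (nat_lit 5)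 (nat_lit 476) (nat_lit 5) (nat_lit 477) (nat_lit 5) (nat_lit 406) (nat_lit 404) (nat_lit 330)) (XT.lf (nat_lit 0) (nat_lit 1690405530) (nat_lit 1216) (nat_lit 2258967751) (nat_lit 1292) (nat_lit 3766032490) (nat_lit 460) (nat_lit 5) (nat_lit 476) (nat_lit 5) (nat_lit 477) (nat_lit 5) (nat_lit 407) (nat_lit 404) (nat_lit 329)))) (XT.nd (nat_lit 78) (nat_lit 0) (nat_lit 76) (XT.lf (nat_lit 76) (nat_lit 1285470224) (nat_lit 0) (nat_lit 1736375704) (nat_lit 1292) (nat_lit 4745160084) (nat_lit 461) (nat_lit 5) (nat_lit 460) (nat_lit 5) (nat_lit 477) (nat_lit 5) (nat_lit 408) (nat_lit 404) (nat_lit 328)) (XT.nd (nat_lit 78) (nat_lit 0) (nat_lit 0) (XT.lf (nat_lit 0) (nat_lit 4365596242) (nat_lit 1216) (nat_lit 2910280778) (nat_lit 1292) (nat_lit 544088240) (nat_lit 461) (nat_lit 5) (nat_lit 477) (nat_lit 5) (nat_lit 478) (nat_lit 5) (nat_lit 409) (nat_lit 404) (nat_lit 327)) (XT.lf (nat_lit 76) (nat_lit 711723501)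 (nat_lit 0) (nat_lit 5008304438) (nat_lit 1292) (nat_lit 2154319452) (nat_lit 462) (nat_lit 5) (nat_lit 461) (nat_lit 5) (nat_lit 478) (nat_lit 5) (nat_lit 410) (nat_lit 404) (nat_lit 326))))) (XT.nd (nat_lit 234) (nat_lit 0) (nat_lit 76) (XT.nd (nat_lit 78) (nat_lit 1292) (nat_lit 0) (XT.lf (nat_lit 76) (nat_lit 4427228234) (nat_lit 0) (nat_lit 2662049979) (nat_lit 1292) (nat_lit 840823398) (nat_lit 462) (nat_lit 5) (nat_lit 461) (nat_lit 5) (nat_lit 478) (nat_lit 5) (nat_lit 411) (nat_lit 404) (nat_lit 325)) (XT.nd (nat_lit 78) (nat_lit 0) (nat_lit 76) (XT.lf (nat_lit 76) (nat_lit 211117758) (nat_lit 0) (nat_lit 251231520) (nat_lit 1368) (nat_lit 7525195369) (nat_lit 445) (nat_lit 5) (nat_lit 444) (nat_lit 5) (nat_lit 462) (nat_lit 5) (nat_lit 412) (nat_lit 404) (nat_lit 324)) (XT.lf (nat_lit 0) (nat_lit 1787491752) (nat_lit 1292) (nat_lit 4037952878) (nat_lit 1368) (nat_lit 2220474251) (nat_lit 445)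 (nat_lit 5) (nat_lit 462) (nat_lit 5) (nat_lit 463) (nat_lit 5) (nat_lit 413) (nat_lit 404) (nat_lit 323)))) (XT.nd (nat_lit 156) (nat_lit 0) (nat_lit 76) (XT.nd (nat_lit 78) (nat_lit 0) (nat_lit 0) (XT.lf (nat_lit 0) (nat_lit 3110563732) (nat_lit 1292) (nat_lit 245097664) (nat_lit 1368) (nat_lit 4750406743) (nat_lit 445) (nat_lit 5) (nat_lit 462) (nat_lit 5) (nat_lit 463) (nat_lit 5) (nat_lit 414) (nat_lit 404) (nat_lit 322)) (XT.lf (nat_lit 76) (nat_lit 3653169279) (nat_lit 0) (nat_lit 801002425) (nat_lit 1368) (nat_lit 3713402553) (nat_lit 446) (nat_lit 5) (nat_lit 445) (nat_lit 5) (nat_lit 463) (nat_lit 5) (nat_lit 415) (nat_lit 404) (nat_lit 321))) (XT.nd (nat_lit 78) (nat_lit 0) (nat_lit 0) (XT.lf (nat_lit 0) (nat_lit 5808914767) (nat_lit 1292) (nat_lit 628208135) (nat_lit 1368) (nat_lit 1793537007) (nat_lit 446) (nat_lit 5) (nat_lit 463) (nat_lit 5) (nat_lit 464) (nat_lit 5) (nat_lit 416) (nat_lit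 404) (nat_lit 320)) (XT.lf (nat_lit 76) (nat_lit 3355865940) (nat_lit 0) (nat_lit 3833440372) (nat_lit 1368) (nat_lit 1105763880) (nat_lit 447) (nat_lit 5) (nat_lit 446) (nat_lit 5) (nat_lit 464) (nat_lit 5) (nat_lit 417) (nat_lit 404) (nat_lit 319)))))) (XT.nd (nat_lit 546) (nat_lit 4180) (nat_lit 0) (XT.nd (nat_lit 234) (nat_lit 0) (nat_lit 76) (XT.nd (nat_lit 78) (nat_lit 0) (nat_lit 76) (XT.lf (nat_lit 0) (nat_lit 209359712) (nat_lit 1368) (nat_lit 952952796) (nat_lit 1444) (nat_lit 7198939632) (nat_lit 428) (nat_lit 5) (nat_lit 446) (nat_lit 5) (nat_lit 447) (nat_lit 5) (nat_lit 418) (nat_lit 404) (nat_lit 318)) (XT.nd (nat_lit 78) (nat_lit 0) (nat_lit 0) (XT.lf (nat_lit 0) (nat_lit 1538927237) (nat_lit 1368) (nat_lit 5310922704) (nat_lit 1444) (nat_lit 1578734682) (nat_lit 429) (nat_lit 5) (nat_lit 447) (nat_lit 5) (nat_lit 448) (nat_lit 5) (nat_lit 419) (nat_lit 404) (nat_lit 317)) (XT.lf (nat_lit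 0) (nat_lit 2881940968) (nat_lit 1368) (nat_lit 1241256505) (nat_lit 1444) (nat_lit 4374360587) (nat_lit 429) (nat_lit 5) (nat_lit 447) (nat_lit 5) (nat_lit 448) (nat_lit 5) (nat_lit 420) (nat_lit 404) (nat_lit 316)))) (XT.nd (nat_lit 156) (nat_lit 0) (nat_lit 76) (XT.nd (nat_lit 78) (nat_lit 0) (nat_lit 76) (XT.lf (nat_lit 76) (nat_lit 2929610365) (nat_lit 0) (nat_lit 1314480735) (nat_lit 1444) (nat_lit 4324005132) (nat_lit 430) (nat_lit 5) (nat_lit 429) (nat_lit 5) (nat_lit 448) (nat_lit 5) (nat_lit 421) (nat_lit 404) (nat_lit 315)) (XT.lf (nat_lit 0) (nat_lit 5625645627) (nat_lit 1368) (nat_lit 1468380398) (nat_lit 1444) (nat_lit 1546206098) (nat_lit 430) (nat_lit 5) (nat_lit 448) (nat_lit 5) (nat_lit 449) (nat_lit 5) (nat_lit 422) (nat_lit 404) (nat_lit 314))) (XT.nd (nat_lit 78) (nat_lit 0) (nat_lit 0) (XT.lf (nat_lit 76) (nat_lit 2794344360) (nat_lit 0) (nat_lit 4241560722) (nat_lit 1444) (nat_lit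 1677913764) (nat_lit 431) (nat_lit 5) (nat_lit 430) (nat_lit 5) (nat_lit 449) (nat_lit 5) (nat_lit 423) (nat_lit 404) (nat_lit 313)) (XT.lf (nat_lit 76) (nat_lit 7143625115) (nat_lit 0) (nat_lit 1315208742) (nat_lit 1444) (nat_lit 330383175) (nat_lit 431) (nat_lit 5) (nat_lit 430) (nat_lit 5) (nat_lit 449) (nat_lit 5) (nat_lit 424) (nat_lit 404) (nat_lit 312))))) (XT.nd (nat_lit 234) (nat_lit 2964) (nat_lit 0) (XT.nd (nat_lit 78) (nat_lit 0) (nat_lit 0) (XT.lf (nat_lit 0) (nat_lit 1034051449) (nat_lit 1444) (nat_lit 6153090837) (nat_lit 1520) (nat_lit 1678800264) (nat_lit 412) (nat_lit 5) (nat_lit 431) (nat_lit 5) (nat_lit 432) (nat_lit 5) (nat_lit 425) (nat_lit 404) (nat_lit 311)) (XT.nd (nat_lit 78) (nat_lit 0) (nat_lit 0) (XT.lf (nat_lit 0) (nat_lit 2416508801) (nat_lit 1444) (nat_lit 1793221143) (nat_lit 1520) (nat_lit 4734553137) (nat_lit 412) (nat_lit 5) (nat_lit 431) (nat_lit 5) (nat_lit 432) (nat_lit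 5) (nat_lit 426) (nat_lit 404) (nat_lit 310)) (XT.lf (nat_lit 76) (nat_lit 2670200435) (nat_lit 0) (nat_lit 1149563164) (nat_lit 1520) (nat_lit 5204590660) (nat_lit 413) (nat_lit 5) (nat_lit 412) (nat_lit 5) (nat_lit 432) (nat_lit 5) (nat_lit 427) (nat_lit 404) (nat_lit 309)))) (XT.nd (nat_lit 156) (nat_lit 1596) (nat_lit 0) (XT.nd (nat_lit 78) (nat_lit 1444) (nat_lit 0) (XT.lf (nat_lit 0) (nat_lit 5252198756) (nat_lit 1444) (nat_lit 1890550323) (nat_lit 76) (nat_lit 1963281752) (nat_lit 413) (nat_lit 5) (nat_lit 432) (nat_lit 5) (nat_lit 414) (nat_lit 5) (nat_lit 428) (nat_lit 404) (nat_lit 308)) (XT.lf (nat_lit 0) (nat_lit 2671037311) (nat_lit 1444) (nat_lit 4043866956) (nat_lit 1520) (nat_lit 2474429997) (nat_lit 394) (nat_lit 5) (nat_lit 413) (nat_lit 5) (nat_lit 414) (nat_lit 5) (nat_lit 429) (nat_lit 404) (nat_lit 307))) (XT.nd (nat_lit 78) (nat_lit 1596) (nat_lit 0) (XT.lf (nat_lit 0) (nat_lit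 7330900602) (nat_lit 1444) (nat_lit 865653244) (nat_lit 1520) (nat_lit 1077981375) (nat_lit 394) (nat_lit 5) (nat_lit 413) (nat_lit 5) (nat_lit 414) (nat_lit 5) (nat_lit 430) (nat_lit 404) (nat_lit 306)) (XT.lf (nat_lit 0) (nat_lit 352495317) (nat_lit 1596) (nat_lit 6639473861) (nat_lit 76) (nat_lit 2369237472) (nat_lit 373) (nat_lit 5) (nat_lit 394) (nat_lit 5) (nat_lit 374) (nat_lit 5) (nat_lit 431) (nat_lit 404) (nat_lit 305))))))) (XT.nd (nat_lit 1092) (nat_lit 4864) (nat_lit 0) (XT.nd (nat_lit 546) (nat_lit 3268) (nat_lit 0) (XT.nd (nat_lit 234) (nat_lit 2736) (nat_lit 0) (XT.nd (nat_lit 78) (nat_lit 1596) (nat_lit 0) (XT.lf (nat_lit 0) (nat_lit 1793655043) (nat_lit 1596) (nat_lit 1974475036) (nat_lit 76) (nat_lit 5681432565) (nat_lit 373) (nat_lit 5) (nat_lit 394) (nat_lit 5) (nat_lit 374) (nat_lit 5) (nat_lit 432) (nat_lit 404) (nat_lit 304)) (XT.nd (nat_lit 78) (nat_lit 0) (nat_lit 0) (XT.lf (nat_lit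 0) (nat_lit 2802023509) (nat_lit 1596) (nat_lit 457877821) (nat_lit 1672) (nat_lit 6279882495) (nat_lit 352) (nat_lit 5) (nat_lit 373) (nat_lit 5) (nat_lit 374) (nat_lit 5) (nat_lit 433) (nat_lit 404) (nat_lit 303)) (XT.lf (nat_lit 0) (nat_lit 4766161247) (nat_lit 1672) (nat_lit 1968668216) (nat_lit 76) (nat_lit 2896789067) (nat_lit 352) (nat_lit 5) (nat_lit 374) (nat_lit 5) (nat_lit 353) (nat_lit 5) (nat_lit 434) (nat_lit 404) (nat_lit 302)))) (XT.nd (nat_lit 156) (nat_lit 1064) (nat_lit 0) (XT.nd (nat_lit 78) (nat_lit 0) (nat_lit 0) (XT.lf (nat_lit 0) (nat_lit 2912437985) (nat_lit 1672) (nat_lit 3390875489) (nat_lit 1748) (nat_lit 3421983540) (nat_lit 330) (nat_lit 5) (nat_lit 352) (nat_lit 5) (nat_lit 353) (nat_lit 5) (nat_lit 435) (nat_lit 404) (nat_lit 301)) (XT.lf (nat_lit 0) (nat_lit 7863773622) (nat_lit 1748) (nat_lit 1921816045) (nat_lit 76) (nat_lit 35430088) (nat_lit 330) (nat_lit 5) (nat_lit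 353) (nat_lit 5) (nat_lit 331) (nat_lit 5) (nat_lit 436) (nat_lit 404) (nat_lit 300))) (XT.nd (nat_lit 78) (nat_lit 76) (nat_lit 0) (XT.lf (nat_lit 0) (nat_lit 3066310555) (nat_lit 988) (nat_lit 6411043159) (nat_lit 1064) (nat_lit 440886580) (nat_lit 317) (nat_lit 5) (nat_lit 330) (nat_lit 5) (nat_lit 331) (nat_lit 5) (nat_lit 437) (nat_lit 404) (nat_lit 299)) (XT.lf (nat_lit 0) (nat_lit 1083952599) (nat_lit 1064) (nat_lit 1862827391) (nat_lit 76) (nat_lit 7070649277) (nat_lit 316) (nat_lit 5) (nat_lit 330) (nat_lit 5) (nat_lit 317) (nat_lit 5) (nat_lit 438) (nat_lit 404) (nat_lit 298))))) (XT.nd (nat_lit 234) (nat_lit 1596) (nat_lit 0) (XT.nd (nat_lit 78) (nat_lit 836) (nat_lit 0) (XT.lf (nat_lit 0) (nat_lit 2638526260) (nat_lit 912) (nat_lit 6875091707) (nat_lit 76) (nat_lit 604843256) (nat_lit 305) (nat_lit 5) (nat_lit 317) (nat_lit 5) (nat_lit 306) (nat_lit 5) (nat_lit 439) (nat_lit 404) (nat_lit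 297)) (XT.nd (nat_lit 78) (nat_lit 836) (nat_lit 0) (XT.lf (nat_lit 0) (nat_lit 4236644091) (nat_lit 912) (nat_lit 1782521927) (nat_lit 76) (nat_lit 4202118659) (nat_lit 305) (nat_lit 5) (nat_lit 317) (nat_lit 5) (nat_lit 306) (nat_lit 5) (nat_lit 440) (nat_lit 404) (nat_lit 296)) (XT.lf (nat_lit 0) (nat_lit 3438762258) (nat_lit 836) (nat_lit 2431028217) (nat_lit 912) (nat_lit 4456332328) (nat_lit 294) (nat_lit 5) (nat_lit 305) (nat_lit 5) (nat_lit 306) (nat_lit 5) (nat_lit 441) (nat_lit 404) (nat_lit 295)))) (XT.nd (nat_lit 156) (nat_lit 836) (nat_lit 0) (XT.nd (nat_lit 78) (nat_lit 760) (nat_lit 0) (XT.lf (nat_lit 0) (nat_lit 7536624555) (nat_lit 912) (nat_lit 1670763527) (nat_lit 76) (nat_lit 1225668254) (nat_lit 294) (nat_lit 5) (nat_lit 306) (nat_lit 5) (nat_lit 295) (nat_lit 5) (nat_lit 442) (nat_lit 404) (nat_lit 294)) (XT.lf (nat_lit 0) (nat_lit 3663960702) (nat_lit 760) (nat_lit 5594100683) (nat_lit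 836) (nat_lit 1283660597) (nat_lit 284) (nat_lit 5) (nat_lit 294) (nat_lit 5) (nat_lit 295) (nat_lit 5) (nat_lit 443) (nat_lit 404) (nat_lit 293))) (XT.nd (nat_lit 78) (nat_lit 760) (nat_lit 0) (XT.lf (nat_lit 0) (nat_lit 349398445) (nat_lit 836) (nat_lit 1545033453) (nat_lit 76) (nat_lit 8758244721) (nat_lit 283) (nat_lit 5) (nat_lit 294) (nat_lit 5) (nat_lit 284) (nat_lit 5) (nat_lit 444) (nat_lit 404) (nat_lit 292)) (XT.lf (nat_lit 0) (nat_lit 2017669511) (nat_lit 836) (nat_lit 6858673637) (nat_lit 76) (nat_lit 1888960404) (nat_lit 273) (nat_lit 5) (nat_lit 284) (nat_lit 5) (nat_lit 274) (nat_lit 5) (nat_lit 445) (nat_lit 404) (nat_lit 291)))))) (XT.nd (nat_lit 546) (nat_lit 2660) (nat_lit 0) (XT.nd (nat_lit 234) (nat_lit 1520) (nat_lit 0) (XT.nd (nat_lit 78) (nat_lit 684) (nat_lit 0) (XT.lf (nat_lit 0) (nat_lit 3724378152) (nat_lit 836) (nat_lit 1422522827) (nat_lit 76) (nat_lit 5733197936) (nat_lit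 273) (nat_lit 5) (nat_lit 284) (nat_lit 5) (nat_lit 274) (nat_lit 5) (nat_lit 446) (nat_lit 404) (nat_lit 290)) (XT.nd (nat_lit 78) (nat_lit 0) (nat_lit 0) (XT.lf (nat_lit 0) (nat_lit 4159052142) (nat_lit 684) (nat_lit 1315612930) (nat_lit 760) (nat_lit 5522353228) (nat_lit 264) (nat_lit 5) (nat_lit 273) (nat_lit 5) (nat_lit 274) (nat_lit 5) (nat_lit 447) (nat_lit 404) (nat_lit 289)) (XT.lf (nat_lit 0) (nat_lit 7269065158) (nat_lit 760) (nat_lit 1279526873) (nat_lit 76) (nat_lit 2567518558) (nat_lit 264) (nat_lit 5) (nat_lit 274) (nat_lit 5) (nat_lit 265) (nat_lit 5) (nat_lit 448) (nat_lit 404) (nat_lit 288)))) (XT.nd (nat_lit 156) (nat_lit 760) (nat_lit 0) (XT.nd (nat_lit 78) (nat_lit 0) (nat_lit 0) (XT.lf (nat_lit 0) (nat_lit 4421624771) (nat_lit 760) (nat_lit 4698156509) (nat_lit 836) (nat_lit 2117411219) (nat_lit 254) (nat_lit 5) (nat_lit 264) (nat_lit 5) (nat_lit 265) (nat_lit 5) (nat_lit 449) (nat_lit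 404) (nat_lit 287)) (XT.lf (nat_lit 0) (nat_lit 10236526283) (nat_lit 760) (nat_lit 762797797) (nat_lit 836) (nat_lit 361551737) (nat_lit 254) (nat_lit 5) (nat_lit 264) (nat_lit 5) (nat_lit 265) (nat_lit 5) (nat_lit 450) (nat_lit 404) (nat_lit 286))) (XT.nd (nat_lit 78) (nat_lit 0) (nat_lit 0) (XT.lf (nat_lit 0) (nat_lit 1446093640) (nat_lit 760) (nat_lit 6792196592) (nat_lit 76) (nat_lit 3247864031) (nat_lit 244) (nat_lit 5) (nat_lit 254) (nat_lit 5) (nat_lit 245) (nat_lit 5) (nat_lit 451) (nat_lit 404) (nat_lit 285)) (XT.lf (nat_lit 0) (nat_lit 3281337657) (nat_lit 760) (nat_lit 995139476) (nat_lit 76) (nat_lit 7337502701) (nat_lit 244) (nat_lit 5) (nat_lit 254) (nat_lit 5) (nat_lit 245) (nat_lit 5) (nat_lit 452) (nat_lit 404) (nat_lit 284))))) (XT.nd (nat_lit 234) (nat_lit 1368) (nat_lit 0) (XT.nd (nat_lit 78) (nat_lit 608) (nat_lit 0) (XT.lf (nat_lit 0) (nat_lit 4965603185) (nat_lit 684) (nat_lit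 203880025) (nat_lit 760) (nat_lit 6574569570) (nat_lit 235) (nat_lit 5) (nat_lit 244) (nat_lit 5) (nat_lit 245) (nat_lit 5) (nat_lit 453) (nat_lit 404) (nat_lit 283)) (XT.nd (nat_lit 78) (nat_lit 608) (nat_lit 0) (XT.lf (nat_lit 0) (nat_lit 7111910812) (nat_lit 760) (nat_lit 860822995) (nat_lit 76) (nat_lit 3903677502) (nat_lit 235) (nat_lit 5) (nat_lit 245) (nat_lit 5) (nat_lit 236) (nat_lit 5) (nat_lit 454) (nat_lit 404) (nat_lit 282)) (XT.lf (nat_lit 0) (nat_lit 5225090706) (nat_lit 608) (nat_lit 3887831886) (nat_lit 684) (nat_lit 2898113927) (nat_lit 227) (nat_lit 5) (nat_lit 235) (nat_lit 5) (nat_lit 236) (nat_lit 5) (nat_lit 455) (nat_lit 404) (nat_lit 281)))) (XT.nd (nat_lit 156) (nat_lit 608) (nat_lit 0) (XT.nd (nat_lit 78) (nat_lit 760) (nat_lit 0) (XT.lf (nat_lit 0) (nat_lit 11146221950) (nat_lit 684) (nat_lit 723134612) (nat_lit 76) (nat_lit 279166266) (nat_lit 227) (nat_lit 5) (nat_lit 236)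 (nat_lit 5) (nat_lit 228) (nat_lit 5) (nat_lit 456) (nat_lit 404) (nat_lit 280)) (XT.lf (nat_lit 0) (nat_lit 965842190) (nat_lit 760) (nat_lit 6804108041) (nat_lit 76) (nat_lit 4517768495) (nat_lit 217) (nat_lit 5) (nat_lit 227) (nat_lit 5) (nat_lit 218) (nat_lit 5) (nat_lit 457) (nat_lit 404) (nat_lit 279))) (XT.nd (nat_lit 78) (nat_lit 608) (nat_lit 0) (XT.lf (nat_lit 0) (nat_lit 2949841533) (nat_lit 760) (nat_lit 629175114) (nat_lit 76) (nat_lit 8850764243) (nat_lit 217) (nat_lit 5) (nat_lit 227) (nat_lit 5) (nat_lit 218) (nat_lit 5) (nat_lit 458) (nat_lit 404) (nat_lit 278)) (XT.lf (nat_lit 0) (nat_lit 5000767751) (nat_lit 684) (nat_lit 6851482448) (nat_lit 76) (nat_lit 721902044) (nat_lit 209) (nat_lit 5) (nat_lit 218) (nat_lit 5) (nat_lit 210) (nat_lit 5) (nat_lit 459) (nat_lit 404) (nat_lit 277))))))))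
noncomputable def xc162 : XT := (XT.nd (nat_lit 2106) (nat_lit 4104) (nat_lit 0) (XT.nd (nat_lit 1014) (nat_lit 3268) (nat_lit 0) (XT.nd (nat_lit 468) (nat_lit 1596) (nat_lit 0) (XT.nd (nat_lit 234) (nat_lit 1216) (nat_lit 0) (XT.nd (nat_lit 78) (nat_lit 608) (nat_lit 0) (XT.lf (nat_lit 0) (nat_lit 7106140103) (nat_lit 684) (nat_lit 552013485) (nat_lit 76) (nat_lit 5063001510) (nat_lit 209) (nat_lit 5) (nat_lit 218) (nat_lit 5) (nat_lit 210) (nat_lit 5) (nat_lit 460) (nat_lit 404) (nat_lit 276)) (XT.nd (nat_lit 78) (nat_lit 0) (nat_lit 0) (XT.lf (nat_lit 0) (nat_lit 5934574848) (nat_lit 608) (nat_lit 3343336500) (nat_lit 684) (nat_lit 3592713214) (nat_lit 201) (nat_lit 5) (nat_lit 209) (nat_lit 5) (nat_lit 210) (nat_lit 5) (nat_lit 461) (nat_lit 404) (nat_lit 275)) (XT.lf (nat_lit 0) (nat_lit 11489629977) (nat_lit 684) (nat_lit 488394262) (nat_lit 76) (nat_lit 1045141076) (nat_lit 201) (nat_lit 5) (nat_lit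 210) (nat_lit 5) (nat_lit 202) (nat_lit 5) (nat_lit 462) (nat_lit 404) (nat_lit 274)))) (XT.nd (nat_lit 78) (nat_lit 608) (nat_lit 0) (XT.lf (nat_lit 0) (nat_lit 607831449) (nat_lit 608) (nat_lit 7051876373) (nat_lit 76) (nat_lit 5518018339) (nat_lit 193) (nat_lit 5) (nat_lit 201) (nat_lit 5) (nat_lit 194) (nat_lit 5) (nat_lit 463) (nat_lit 404) (nat_lit 273)) (XT.nd (nat_lit 78) (nat_lit 608) (nat_lit 0) (XT.lf (nat_lit 0) (nat_lit 2761063523) (nat_lit 608) (nat_lit 483115973) (nat_lit 76) (nat_lit 10091215989) (nat_lit 193) (nat_lit 5) (nat_lit 201) (nat_lit 5) (nat_lit 194) (nat_lit 5) (nat_lit 464) (nat_lit 404) (nat_lit 272)) (XT.lf (nat_lit 0) (nat_lit 4993108079) (nat_lit 684) (nat_lit 7220988284) (nat_lit 76) (nat_lit 1281418091) (nat_lit 185) (nat_lit 5) (nat_lit 194) (nat_lit 5) (nat_lit 186) (nat_lit 5) (nat_lit 465) (nat_lit 404) (nat_lit 271))))) (XT.nd (nat_lit 234) (nat_lit 1064) (nat_lit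 0) (XT.nd (nat_lit 78) (nat_lit 532) (nat_lit 0) (XT.lf (nat_lit 0) (nat_lit 7281205298) (nat_lit 684) (nat_lit 522857391) (nat_lit 76) (nat_lit 5854555873) (nat_lit 185) (nat_lit 5) (nat_lit 194) (nat_lit 5) (nat_lit 186) (nat_lit 5) (nat_lit 466) (nat_lit 404) (nat_lit 270)) (XT.nd (nat_lit 78) (nat_lit 0) (nat_lit 0) (XT.lf (nat_lit 0) (nat_lit 6376740524) (nat_lit 532) (nat_lit 3266651168) (nat_lit 608) (nat_lit 4181037294) (nat_lit 178) (nat_lit 5) (nat_lit 185) (nat_lit 5) (nat_lit 186) (nat_lit 5) (nat_lit 467) (nat_lit 404) (nat_lit 269)) (XT.lf (nat_lit 0) (nat_lit 12052250942) (nat_lit 608) (nat_lit 597201115) (nat_lit 76) (nat_lit 1344125546) (nat_lit 178) (nat_lit 5) (nat_lit 186) (nat_lit 5) (nat_lit 179) (nat_lit 5) (nat_lit 468) (nat_lit 404) (nat_lit 268)))) (XT.nd (nat_lit 156) (nat_lit 456) (nat_lit 0) (XT.nd (nat_lit 78) (nat_lit 0) (nat_lit 0) (XT.lf (nat_lit 0) (nat_lit 389741940)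 (nat_lit 608) (nat_lit 7730533610) (nat_lit 76) (nat_lit 6044777944) (nat_lit 170) (nat_lit 5) (nat_lit 178) (nat_lit 5) (nat_lit 171) (nat_lit 5) (nat_lit 469) (nat_lit 404) (nat_lit 267)) (XT.lf (nat_lit 0) (nat_lit 2732859949) (nat_lit 608) (nat_lit 753815633) (nat_lit 76) (nat_lit 10853208186) (nat_lit 170) (nat_lit 5) (nat_lit 178) (nat_lit 5) (nat_lit 171) (nat_lit 5) (nat_lit 470) (nat_lit 404) (nat_lit 266))) (XT.nd (nat_lit 78) (nat_lit 0) (nat_lit 0) (XT.lf (nat_lit 0) (nat_lit 5160510125) (nat_lit 532) (nat_lit 8094865151) (nat_lit 76) (nat_lit 1262091741) (nat_lit 164) (nat_lit 5) (nat_lit 171) (nat_lit 5) (nat_lit 165) (nat_lit 5) (nat_lit 471) (nat_lit 404) (nat_lit 265)) (XT.lf (nat_lit 0) (nat_lit 7652627422) (nat_lit 532) (nat_lit 984698461) (nat_lit 76) (nat_lit 6060967334) (nat_lit 164) (nat_lit 5) (nat_lit 171) (nat_lit 5) (nat_lit 165) (nat_lit 5) (nat_lit 472) (nat_lit 404) (nat_lit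 264)))))) (XT.nd (nat_lit 546) (nat_lit 1292) (nat_lit 0) (XT.nd (nat_lit 234) (nat_lit 912) (nat_lit 0) (XT.nd (nat_lit 78) (nat_lit 532) (nat_lit 0) (XT.lf (nat_lit 0) (nat_lit 6335230303) (nat_lit 532) (nat_lit 3888461387) (nat_lit 608) (nat_lit 4658471543) (nat_lit 157) (nat_lit 5) (nat_lit 164) (nat_lit 5) (nat_lit 165) (nat_lit 5) (nat_lit 473) (nat_lit 404) (nat_lit 263)) (XT.nd (nat_lit 78) (nat_lit 532) (nat_lit 0) (XT.lf (nat_lit 0) (nat_lit 12847116652) (nat_lit 608) (nat_lit 1276570600) (nat_lit 76) (nat_lit 946013807) (nat_lit 157) (nat_lit 5) (nat_lit 165) (nat_lit 5) (nat_lit 158) (nat_lit 5) (nat_lit 474) (nat_lit 404) (nat_lit 262)) (XT.lf (nat_lit 0) (nat_lit 313122963) (nat_lit 532) (nat_lit 9082830734) (nat_lit 76) (nat_lit 5863919986) (nat_lit 150) (nat_lit 5) (nat_lit 157) (nat_lit 5) (nat_lit 151) (nat_lit 5) (nat_lit 475) (nat_lit 404) (nat_lit 261)))) (XT.nd (nat_lit 156) (nat_lit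 456) (nat_lit 0) (XT.nd (nat_lit 78) (nat_lit 456) (nat_lit 0) (XT.lf (nat_lit 0) (nat_lit 2866798414) (nat_lit 532) (nat_lit 1686827602) (nat_lit 76) (nat_lit 10899998298) (nat_lit 150) (nat_lit 5) (nat_lit 157) (nat_lit 5) (nat_lit 151) (nat_lit 5) (nat_lit 476) (nat_lit 404) (nat_lit 260)) (XT.lf (nat_lit 0) (nat_lit 5501306795) (nat_lit 532) (nat_lit 9733823410) (nat_lit 76) (nat_lit 415533065) (nat_lit 144) (nat_lit 5) (nat_lit 151) (nat_lit 5) (nat_lit 145) (nat_lit 5) (nat_lit 477) (nat_lit 404) (nat_lit 259))) (XT.nd (nat_lit 78) (nat_lit 456) (nat_lit 0) (XT.lf (nat_lit 0) (nat_lit 8218749872) (nat_lit 532) (nat_lit 2201416687) (nat_lit 76) (nat_lit 5430879886) (nat_lit 144) (nat_lit 5) (nat_lit 151) (nat_lit 5) (nat_lit 145) (nat_lit 5) (nat_lit 478) (nat_lit 404) (nat_lit 258)) (XT.lf (nat_lit 0) (nat_lit 5539371640) (nat_lit 456) (nat_lit 5476050740) (nat_lit 532) (nat_lit 5039525462) (nat_lit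 138) (nat_lit 5) (nat_lit 144) (nat_lit 5) (nat_lit 145) (nat_lit 5) (nat_lit 479) (nat_lit 404) (nat_lit 257))))) (XT.nd (nat_lit 234) (nat_lit 760) (nat_lit 0) (XT.nd (nat_lit 78) (nat_lit 532) (nat_lit 0) (XT.lf (nat_lit 0) (nat_lit 13449998267) (nat_lit 456) (nat_lit 421839167) (nat_lit 532) (nat_lit 2391021658) (nat_lit 138) (nat_lit 5) (nat_lit 144) (nat_lit 5) (nat_lit 145) (nat_lit 5) (nat_lit 480) (nat_lit 404) (nat_lit 256)) (XT.nd (nat_lit 78) (nat_lit 0) (nat_lit 0) (XT.lf (nat_lit 0) (nat_lit 359566945) (nat_lit 532) (nat_lit 11411368203) (nat_lit 76) (nat_lit 4702897077) (nat_lit 131) (nat_lit 5) (nat_lit 138) (nat_lit 5) (nat_lit 132) (nat_lit 5) (nat_lit 481) (nat_lit 404) (nat_lit 255)) (XT.lf (nat_lit 0) (nat_lit 3144240839) (nat_lit 532) (nat_lit 3588755403) (nat_lit 76) (nat_lit 9955498248) (nat_lit 131) (nat_lit 5) (nat_lit 138) (nat_lit 5) (nat_lit 132) (nat_lit 5) (nat_lit 482)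 (nat_lit 404) (nat_lit 254)))) (XT.nd (nat_lit 156) (nat_lit 380) (nat_lit 0) (XT.nd (nat_lit 78) (nat_lit 0) (nat_lit 0) (XT.lf (nat_lit 0) (nat_lit 4433972479) (nat_lit 380) (nat_lit 1568899464) (nat_lit 456) (nat_lit 10904220179) (nat_lit 126) (nat_lit 5) (nat_lit 131) (nat_lit 5) (nat_lit 132) (nat_lit 5) (nat_lit 483) (nat_lit 404) (nat_lit 253)) (XT.lf (nat_lit 0) (nat_lit 8956493067) (nat_lit 456) (nat_lit 4502534908) (nat_lit 76) (nat_lit 3670284638) (nat_lit 126) (nat_lit 5) (nat_lit 132) (nat_lit 5) (nat_lit 127) (nat_lit 5) (nat_lit 484) (nat_lit 404) (nat_lit 252))) (XT.nd (nat_lit 78) (nat_lit 0) (nat_lit 0) (XT.lf (nat_lit 0) (nat_lit 3650652556) (nat_lit 380) (nat_lit 8342393726) (nat_lit 456) (nat_lit 5362461150) (nat_lit 121) (nat_lit 5) (nat_lit 126) (nat_lit 5) (nat_lit 127) (nat_lit 5) (nat_lit 485) (nat_lit 404) (nat_lit 251)) (XT.lf (nat_lit 0) (nat_lit 12013733015) (nat_lit 380)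 (nat_lit 3096687500) (nat_lit 456) (nat_lit 2475410806) (nat_lit 121) (nat_lit 5) (nat_lit 126) (nat_lit 5) (nat_lit 127) (nat_lit 5) (nat_lit 486) (nat_lit 404) (nat_lit 250))))))) (XT.nd (nat_lit 1014) (nat_lit 1824) (nat_lit 0) (XT.nd (nat_lit 468) (nat_lit 1140) (nat_lit 0) (XT.nd (nat_lit 234) (nat_lit 304) (nat_lit 0) (XT.nd (nat_lit 78) (nat_lit 380) (nat_lit 0) (XT.lf (nat_lit 0) (nat_lit 485775813) (nat_lit 456) (nat_lit 15093132062) (nat_lit 76) (nat_lit 2241348538) (nat_lit 115) (nat_lit 5) (nat_lit 121) (nat_lit 5) (nat_lit 116) (nat_lit 5) (nat_lit 487) (nat_lit 404) (nat_lit 249)) (XT.nd (nat_lit 78) (nat_lit 380) (nat_lit 0) (XT.lf (nat_lit 0) (nat_lit 3521299057) (nat_lit 456) (nat_lit 6842058674) (nat_lit 76) (nat_lit 7694726423) (nat_lit 115) (nat_lit 5) (nat_lit 121) (nat_lit 5) (nat_lit 116) (nat_lit 5) (nat_lit 488) (nat_lit 404) (nat_lit 248)) (XT.lf (nat_lit 0) (nat_lit 1580897102)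 (nat_lit 380) (nat_lit 5037174852) (nat_lit 456) (nat_lit 11682592153) (nat_lit 110) (nat_lit 5) (nat_lit 115) (nat_lit 5) (nat_lit 116) (nat_lit 5) (nat_lit 489) (nat_lit 404) (nat_lit 247)))) (XT.nd (nat_lit 78) (nat_lit 304) (nat_lit 0) (XT.lf (nat_lit 0) (nat_lit 9815915413) (nat_lit 456) (nat_lit 8298944957) (nat_lit 76) (nat_lit 432458901) (nat_lit 110) (nat_lit 5) (nat_lit 116) (nat_lit 5) (nat_lit 111) (nat_lit 5) (nat_lit 490) (nat_lit 404) (nat_lit 246)) (XT.nd (nat_lit 78) (nat_lit 0) (nat_lit 0) (XT.lf (nat_lit 0) (nat_lit 246487727) (nat_lit 304) (nat_lit 12856725550) (nat_lit 380) (nat_lit 5695190503) (nat_lit 106) (nat_lit 5) (nat_lit 110) (nat_lit 5) (nat_lit 111) (nat_lit 5) (nat_lit 491) (nat_lit 404) (nat_lit 245)) (XT.lf (nat_lit 0) (nat_lit 9061733686) (nat_lit 304) (nat_lit 7440849390) (nat_lit 380) (nat_lit 2551006452) (nat_lit 106) (nat_lit 5) (nat_lit 110) (nat_lit 5) (nat_lit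 111) (nat_lit 5) (nat_lit 492) (nat_lit 404) (nat_lit 244))))) (XT.nd (nat_lit 234) (nat_lit 684) (nat_lit 0) (XT.nd (nat_lit 78) (nat_lit 380) (nat_lit 0) (XT.lf (nat_lit 0) (nat_lit 638209549) (nat_lit 380) (nat_lit 1278306036) (nat_lit 76) (nat_lit 17397468996) (nat_lit 105) (nat_lit 5) (nat_lit 110) (nat_lit 5) (nat_lit 106) (nat_lit 5) (nat_lit 493) (nat_lit 404) (nat_lit 243)) (XT.nd (nat_lit 78) (nat_lit 0) (nat_lit 0) (XT.lf (nat_lit 0) (nat_lit 3922439512) (nat_lit 456) (nat_lit 11922837355) (nat_lit 76) (nat_lit 3732671392) (nat_lit 100) (nat_lit 5) (nat_lit 106) (nat_lit 5) (nat_lit 101) (nat_lit 5) (nat_lit 494) (nat_lit 404) (nat_lit 242)) (XT.lf (nat_lit 0) (nat_lit 7284680997) (nat_lit 456) (nat_lit 3088504419) (nat_lit 76) (nat_lit 9473764863) (nat_lit 100) (nat_lit 5) (nat_lit 106) (nat_lit 5) (nat_lit 101) (nat_lit 5) (nat_lit 495) (nat_lit 404) (nat_lit 241)))) (XT.nd (nat_lit 156)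 (nat_lit 380) (nat_lit 0) (XT.nd (nat_lit 78) (nat_lit 0) (nat_lit 0) (XT.lf (nat_lit 0) (nat_lit 5988049755) (nat_lit 304) (nat_lit 4756172272) (nat_lit 380) (nat_lit 9376514716) (nat_lit 96) (nat_lit 5) (nat_lit 100) (nat_lit 5) (nat_lit 101) (nat_lit 5) (nat_lit 496) (nat_lit 404) (nat_lit 240)) (XT.lf (nat_lit 0) (nat_lit 14291373514) (nat_lit 380) (nat_lit 5131106902) (nat_lit 76) (nat_lit 977155517) (nat_lit 96) (nat_lit 5) (nat_lit 101) (nat_lit 5) (nat_lit 97) (nat_lit 5) (nat_lit 497) (nat_lit 404) (nat_lit 239))) (XT.nd (nat_lit 78) (nat_lit 76) (nat_lit 0) (XT.lf (nat_lit 0) (nat_lit 4059436224) (nat_lit 304) (nat_lit 13899296337) (nat_lit 380) (nat_lit 2724400538) (nat_lit 92) (nat_lit 5) (nat_lit 96) (nat_lit 5) (nat_lit 97) (nat_lit 5) (nat_lit 498) (nat_lit 404) (nat_lit 238)) (XT.lf (nat_lit 0) (nat_lit 743697001) (nat_lit 380) (nat_lit 7486062533) (nat_lit 76) (nat_lit 12741929435) (nat_lit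 91) (nat_lit 5) (nat_lit 96) (nat_lit 5) (nat_lit 92) (nat_lit 5) (nat_lit 499) (nat_lit 404) (nat_lit 237)))))) (XT.nd (nat_lit 546) (nat_lit 912) (nat_lit 0) (XT.nd (nat_lit 234) (nat_lit 608) (nat_lit 0) (XT.nd (nat_lit 78) (nat_lit 0) (nat_lit 0) (XT.lf (nat_lit 0) (nat_lit 1827658459) (nat_lit 304) (nat_lit 2420521249) (nat_lit 380) (nat_lit 17017411001) (nat_lit 87) (nat_lit 5) (nat_lit 91) (nat_lit 5) (nat_lit 92) (nat_lit 5) (nat_lit 500) (nat_lit 404) (nat_lit 236)) (XT.nd (nat_lit 78) (nat_lit 0) (nat_lit 0) (XT.lf (nat_lit 0) (nat_lit 7887734970) (nat_lit 380) (nat_lit 10170979971) (nat_lit 76) (nat_lit 3505360766) (nat_lit 87) (nat_lit 5) (nat_lit 92) (nat_lit 5) (nat_lit 88) (nat_lit 5) (nat_lit 501) (nat_lit 404) (nat_lit 235)) (XT.lf (nat_lit 0) (nat_lit 11607933484) (nat_lit 380) (nat_lit 747125236) (nat_lit 76) (nat_lit 9513319428) (nat_lit 87) (nat_lit 5) (nat_lit 92) (nat_lit 5) (nat_lit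 88) (nat_lit 5) (nat_lit 502) (nat_lit 404) (nat_lit 234)))) (XT.nd (nat_lit 156) (nat_lit 304) (nat_lit 0) (XT.nd (nat_lit 78) (nat_lit 0) (nat_lit 0) (XT.lf (nat_lit 0) (nat_lit 8970695496) (nat_lit 304) (nat_lit 6482066731) (nat_lit 380) (nat_lit 6725004579) (nat_lit 83) (nat_lit 5) (nat_lit 87) (nat_lit 5) (nat_lit 88) (nat_lit 5) (nat_lit 503) (nat_lit 404) (nat_lit 233)) (XT.lf (nat_lit 0) (nat_lit 18880916764) (nat_lit 304) (nat_lit 490645689) (nat_lit 380) (nat_lit 3121843884) (nat_lit 83) (nat_lit 5) (nat_lit 87) (nat_lit 5) (nat_lit 88) (nat_lit 5) (nat_lit 504) (nat_lit 404) (nat_lit 232))) (XT.nd (nat_lit 78) (nat_lit 0) (nat_lit 0) (XT.lf (nat_lit 0) (nat_lit 615557419) (nat_lit 304) (nat_lit 16611117530) (nat_lit 76) (nat_lit 5587227573) (nat_lit 79) (nat_lit 5) (nat_lit 83) (nat_lit 5) (nat_lit 80) (nat_lit 5) (nat_lit 505) (nat_lit 404) (nat_lit 231)) (XT.lf (nat_lit 0) (nat_lit 4405806749)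 (nat_lit 304) (nat_lit 6913084061) (nat_lit 76) (nat_lit 11821111416) (nat_lit 79) (nat_lit 5) (nat_lit 83) (nat_lit 5) (nat_lit 80) (nat_lit 5) (nat_lit 506) (nat_lit 404) (nat_lit 230))))) (XT.nd (nat_lit 234) (nat_lit 608) (nat_lit 0) (XT.nd (nat_lit 78) (nat_lit 0) (nat_lit 0) (XT.lf (nat_lit 0) (nat_lit 3006567982) (nat_lit 304) (nat_lit 5277177304) (nat_lit 380) (nat_lit 15188645205) (nat_lit 75) (nat_lit 5) (nat_lit 79) (nat_lit 5) (nat_lit 80) (nat_lit 5) (nat_lit 507) (nat_lit 404) (nat_lit 229)) (XT.nd (nat_lit 78) (nat_lit 0) (nat_lit 0) (XT.lf (nat_lit 0) (nat_lit 12284099203) (nat_lit 380) (nat_lit 10610057500) (nat_lit 76) (nat_lit 916376851) (nat_lit 75) (nat_lit 5) (nat_lit 80) (nat_lit 5) (nat_lit 76) (nat_lit 5) (nat_lit 508) (nat_lit 404) (nat_lit 228)) (XT.lf (nat_lit 0) (nat_lit 16391967746) (nat_lit 380) (nat_lit 603718419) (nat_lit 76) (nat_lit 7159207248) (nat_lit 75) (nat_lit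 5) (nat_lit 80) (nat_lit 5) (nat_lit 76) (nat_lit 5) (nat_lit 509) (nat_lit 404) (nat_lit 227)))) (XT.nd (nat_lit 156) (nat_lit 304) (nat_lit 0) (XT.nd (nat_lit 78) (nat_lit 76) (nat_lit 0) (XT.lf (nat_lit 0) (nat_lit 9718846138) (nat_lit 228) (nat_lit 10918953966) (nat_lit 304) (nat_lit 3867228241) (nat_lit 72) (nat_lit 5) (nat_lit 75) (nat_lit 5) (nat_lit 76) (nat_lit 5) (nat_lit 510) (nat_lit 404) (nat_lit 226)) (XT.lf (nat_lit 0) (nat_lit 101789252) (nat_lit 304) (nat_lit 4618148438) (nat_lit 76) (nat_lit 20142282292) (nat_lit 71) (nat_lit 5) (nat_lit 75) (nat_lit 5) (nat_lit 72) (nat_lit 5) (nat_lit 511) (nat_lit 404) (nat_lit 225))) (XT.nd (nat_lit 78) (nat_lit 0) (nat_lit 0) (XT.lf (nat_lit 0) (nat_lit 4139728183) (nat_lit 380) (nat_lit 19443802201) (nat_lit 76) (nat_lit 1641691130) (nat_lit 67) (nat_lit 5) (nat_lit 72) (nat_lit 5) (nat_lit 68) (nat_lit 5) (nat_lit 512) (nat_lit 404) (nat_lit 224))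 (XT.lf (nat_lit 0) (nat_lit 8313786827) (nat_lit 380) (nat_lit 9185961261) (nat_lit 76) (nat_lit 8094631468) (nat_lit 67) (nat_lit 5) (nat_lit 72) (nat_lit 5) (nat_lit 68) (nat_lit 5) (nat_lit 513) (nat_lit 404) (nat_lit 223))))))))
noncomputable def xc163 : XT := (XT.nd (nat_lit 52260) (nat_lit 0) (nat_lit 15200) (XT.nd (nat_lit 51168) (nat_lit 0) (nat_lit 28424) (XT.nd (nat_lit 468) (nat_lit 228) (nat_lit 0) (XT.nd (nat_lit 234) (nat_lit 532) (nat_lit 0) (XT.nd (nat_lit 78) (nat_lit 0) (nat_lit 0) (XT.lf (nat_lit 0) (nat_lit 1282867882) (nat_lit 228) (nat_lit 11289834686) (nat_lit 304) (nat_lit 13398194300) (nat_lit 64) (nat_lit 5) (nat_lit 67) (nat_lit 5) (nat_lit 68) (nat_lit 5) (nat_lit 514) (nat_lit 404) (nat_lit 222)) (XT.nd (nat_lit 78) (nat_lit 0) (nat_lit 0) (XT.lf (nat_lit 0) (nat_lit 12074670402) (nat_lit 228) (nat_lit 4896880983) (nat_lit 304) (nat_lit 9382301603) (nat_lit 64) (nat_lit 5)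 (nat_lit 67) (nat_lit 5) (nat_lit 68) (nat_lit 5) (nat_lit 515) (nat_lit 404) (nat_lit 221)) (XT.lf (nat_lit 0) (nat_lit 21462142328) (nat_lit 304) (nat_lit 3683522954) (nat_lit 76) (nat_lit 1598731130) (nat_lit 64) (nat_lit 5) (nat_lit 68) (nat_lit 5) (nat_lit 65) (nat_lit 5) (nat_lit 516) (nat_lit 404) (nat_lit 220)))) (XT.nd (nat_lit 78) (nat_lit 304) (nat_lit 0) (XT.lf (nat_lit 0) (nat_lit 7175115225) (nat_lit 228) (nat_lit 18939799566) (nat_lit 304) (nat_lit 1026391937) (nat_lit 61) (nat_lit 5) (nat_lit 64) (nat_lit 5) (nat_lit 65) (nat_lit 5) (nat_lit 517) (nat_lit 404) (nat_lit 219)) (XT.nd (nat_lit 78) (nat_lit 228) (nat_lit 0) (XT.lf (nat_lit 0) (nat_lit 3289367514) (nat_lit 304) (nat_lit 9277117301) (nat_lit 76) (nat_lit 14978878283) (nat_lit 60) (nat_lit 5) (nat_lit 64) (nat_lit 5) (nat_lit 61) (nat_lit 5) (nat_lit 518) (nat_lit 404) (nat_lit 218)) (XT.lf (nat_lit 0) (nat_lit 1629896383) (nat_lit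 228) (nat_lit 6051897007) (nat_lit 304) (nat_lit 20275492843) (nat_lit 57) (nat_lit 5) (nat_lit 60) (nat_lit 5) (nat_lit 61) (nat_lit 5) (nat_lit 519) (nat_lit 404) (nat_lit 217))))) (XT.nd (nat_lit 50388) (nat_lit 0) (nat_lit 30780) (XT.nd (nat_lit 78) (nat_lit 228) (nat_lit 0) (XT.lf (nat_lit 0) (nat_lit 12222118697) (nat_lit 304) (nat_lit 15510120045) (nat_lit 76) (nat_lit 644011228) (nat_lit 57) (nat_lit 5) (nat_lit 61) (nat_lit 5) (nat_lit 58) (nat_lit 5) (nat_lit 520) (nat_lit 404) (nat_lit 216)) (XT.nd (nat_lit 78) (nat_lit 228) (nat_lit 0) (XT.lf (nat_lit 0) (nat_lit 16886990332) (nat_lit 304) (nat_lit 4526837644) (nat_lit 76) (nat_lit 7389093305) (nat_lit 57) (nat_lit 5) (nat_lit 61) (nat_lit 5) (nat_lit 58) (nat_lit 5) (nat_lit 521) (nat_lit 404) (nat_lit 215)) (XT.lf (nat_lit 0) (nat_lit 6754645846) (nat_lit 228) (nat_lit 14928154523) (nat_lit 304) (nat_lit 7554575866) (nat_lit 54) (nat_lit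 5) (nat_lit 57) (nat_lit 5) (nat_lit 58) (nat_lit 5) (nat_lit 522) (nat_lit 404) (nat_lit 214)))) (XT.nd (nat_lit 156) (nat_lit 0) (nat_lit 76) (XT.nd (nat_lit 78) (nat_lit 0) (nat_lit 0) (XT.lf (nat_lit 0) (nat_lit 164420504) (nat_lit 1292) (nat_lit 1833911965) (nat_lit 1292) (nat_lit 1833911965) (nat_lit 459) (nat_lit 3) (nat_lit 476) (nat_lit 3) (nat_lit 476) (nat_lit 5) (nat_lit 405) (nat_lit 405) (nat_lit 330)) (XT.lf (nat_lit 0) (nat_lit 1612776027) (nat_lit 1292) (nat_lit 233249515) (nat_lit 1292) (nat_lit 5867915608) (nat_lit 459) (nat_lit 3) (nat_lit 476) (nat_lit 3) (nat_lit 476) (nat_lit 5) (nat_lit 406) (nat_lit 405) (nat_lit 329))) (XT.nd (nat_lit 78) (nat_lit 0) (nat_lit 0) (XT.lf (nat_lit 0) (nat_lit 2912703826) (nat_lit 1216) (nat_lit 4471080531) (nat_lit 1292) (nat_lit 380833271) (nat_lit 460) (nat_lit 5) (nat_lit 476) (nat_lit 5) (nat_lit 477) (nat_lit 5) (nat_lit 407) (nat_lit 405)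 (nat_lit 328)) (XT.lf (nat_lit 0) (nat_lit 4219491227) (nat_lit 1216) (nat_lit 952335941) (nat_lit 1292) (nat_lit 2644903872) (nat_lit 460) (nat_lit 5) (nat_lit 476) (nat_lit 5) (nat_lit 477) (nat_lit 5) (nat_lit 408) (nat_lit 405) (nat_lit 327)))))) (XT.nd (nat_lit 546) (nat_lit 1216) (nat_lit 0) (XT.nd (nat_lit 234) (nat_lit 0) (nat_lit 0) (XT.nd (nat_lit 78) (nat_lit 1216) (nat_lit 0) (XT.lf (nat_lit 76) (nat_lit 2654097298) (nat_lit 0) (nat_lit 2883255236) (nat_lit 1292) (nat_lit 2332875250) (nat_lit 461) (nat_lit 5) (nat_lit 460) (nat_lit 5) (nat_lit 477) (nat_lit 5) (nat_lit 409) (nat_lit 405) (nat_lit 326)) (XT.nd (nat_lit 78) (nat_lit 1216) (nat_lit 0) (XT.lf (nat_lit 76) (nat_lit 6328188263) (nat_lit 0) (nat_lit 527999851) (nat_lit 1292) (nat_lit 1069153053) (nat_lit 461) (nat_lit 5) (nat_lit 460) (nat_lit 5) (nat_lit 477) (nat_lit 5) (nat_lit 410) (nat_lit 405) (nat_lit 325)) (XT.lf (nat_lit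 0) (nat_lit 211578500) (nat_lit 1292) (nat_lit 5891418138) (nat_lit 1368) (nat_lit 1878676797) (nat_lit 444) (nat_lit 5) (nat_lit 461) (nat_lit 5) (nat_lit 462) (nat_lit 5) (nat_lit 411) (nat_lit 405) (nat_lit 324)))) (XT.nd (nat_lit 156) (nat_lit 0) (nat_lit 76) (XT.nd (nat_lit 78) (nat_lit 0) (nat_lit 0) (XT.lf (nat_lit 0) (nat_lit 1487103302) (nat_lit 1292) (nat_lit 2194625994) (nat_lit 1368) (nat_lit 4357628613) (nat_lit 444) (nat_lit 5) (nat_lit 461) (nat_lit 5) (nat_lit 462) (nat_lit 5) (nat_lit 412) (nat_lit 405) (nat_lit 323)) (XT.lf (nat_lit 76) (nat_lit 1579045435) (nat_lit 0) (nat_lit 1189145170) (nat_lit 1368) (nat_lit 5330440499) (nat_lit 445) (nat_lit 5) (nat_lit 444) (nat_lit 5) (nat_lit 462) (nat_lit 5) (nat_lit 413) (nat_lit 405) (nat_lit 322))) (XT.nd (nat_lit 78) (nat_lit 0) (nat_lit 0) (XT.lf (nat_lit 0) (nat_lit 4068866498) (nat_lit 1292) (nat_lit 2728097532) (nat_lit 1368) (nat_lit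 1362281762) (nat_lit 445) (nat_lit 5) (nat_lit 462) (nat_lit 5) (nat_lit 463) (nat_lit 5) (nat_lit 414) (nat_lit 405) (nat_lit 321)) (XT.lf (nat_lit 76) (nat_lit 1128143643) (nat_lit 0) (nat_lit 4253549069) (nat_lit 1368) (nat_lit 2839691996) (nat_lit 446) (nat_lit 5) (nat_lit 445) (nat_lit 5) (nat_lit 463) (nat_lit 5) (nat_lit 415) (nat_lit 405) (nat_lit 320))))) (XT.nd (nat_lit 234) (nat_lit 0) (nat_lit 0) (XT.nd (nat_lit 78) (nat_lit 1292) (nat_lit 0) (XT.lf (nat_lit 76) (nat_lit 5080610728) (nat_lit 0) (nat_lit 1629862488) (nat_lit 1368) (nat_lit 1574533222) (nat_lit 446) (nat_lit 5) (nat_lit 445) (nat_lit 5) (nat_lit 463) (nat_lit 5) (nat_lit 416) (nat_lit 405) (nat_lit 319)) (XT.nd (nat_lit 78) (nat_lit 1368) (nat_lit 0) (XT.lf (nat_lit 76) (nat_lit 747039835) (nat_lit 0) (nat_lit 7302453095) (nat_lit 1368) (nat_lit 300767727) (nat_lit 447) (nat_lit 5) (nat_lit 446) (nat_lit 5) (nat_lit 464) (nat_lit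 5) (nat_lit 417) (nat_lit 405) (nat_lit 318)) (XT.lf (nat_lit 0) (nat_lit 990053974) (nat_lit 1368) (nat_lit 3631340653) (nat_lit 1444) (nat_lit 3795234187) (nat_lit 428) (nat_lit 5) (nat_lit 446) (nat_lit 5) (nat_lit 447) (nat_lit 5) (nat_lit 418) (nat_lit 405) (nat_lit 317)))) (XT.nd (nat_lit 156) (nat_lit 0) (nat_lit 76) (XT.nd (nat_lit 78) (nat_lit 0) (nat_lit 76) (XT.lf (nat_lit 76) (nat_lit 405189283) (nat_lit 0) (nat_lit 1872891121) (nat_lit 1444) (nat_lit 6206727261) (nat_lit 429) (nat_lit 5) (nat_lit 428) (nat_lit 5) (nat_lit 447) (nat_lit 5) (nat_lit 419) (nat_lit 405) (nat_lit 316)) (XT.lf (nat_lit 0) (nat_lit 3595694061) (nat_lit 1368) (nat_lit 4007007488) (nat_lit 1444) (nat_lit 951602797) (nat_lit 429) (nat_lit 5) (nat_lit 447) (nat_lit 5) (nat_lit 448) (nat_lit 5) (nat_lit 420) (nat_lit 405) (nat_lit 315))) (XT.nd (nat_lit 78) (nat_lit 0) (nat_lit 0) (XT.lf (nat_lit 76) (nat_lit 117949280)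 (nat_lit 0) (nat_lit 4808659330) (nat_lit 1444) (nat_lit 3698873561) (nat_lit 430) (nat_lit 5) (nat_lit 429) (nat_lit 5) (nat_lit 448) (nat_lit 5) (nat_lit 421) (nat_lit 405) (nat_lit 314)) (XT.lf (nat_lit 76) (nat_lit 4361591273) (nat_lit 0) (nat_lit 1923615285) (nat_lit 1444) (nat_lit 2412885285) (nat_lit 430) (nat_lit 5) (nat_lit 429) (nat_lit 5) (nat_lit 448) (nat_lit 5) (nat_lit 422) (nat_lit 405) (nat_lit 313))))))) (XT.nd (nat_lit 1092) (nat_lit 5776) (nat_lit 0) (XT.nd (nat_lit 546) (nat_lit 6156) (nat_lit 0) (XT.nd (nat_lit 234) (nat_lit 0) (nat_lit 76) (XT.nd (nat_lit 78) (nat_lit 1444) (nat_lit 0) (XT.lf (nat_lit 0) (nat_lit 7652324637) (nat_lit 1368) (nat_lit 107023270) (nat_lit 1444) (nat_lit 1013207849) (nat_lit 430) (nat_lit 5) (nat_lit 448) (nat_lit 5) (nat_lit 449) (nat_lit 5) (nat_lit 423) (nat_lit 405) (nat_lit 312)) (XT.nd (nat_lit 78) (nat_lit 0) (nat_lit 0) (XT.lf (nat_lit 0) (nat_lit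 211191534) (nat_lit 1444) (nat_lit 4617811497) (nat_lit 1520) (nat_lit 4019197738) (nat_lit 411) (nat_lit 5) (nat_lit 430) (nat_lit 5) (nat_lit 431) (nat_lit 5) (nat_lit 424) (nat_lit 405) (nat_lit 311)) (XT.lf (nat_lit 0) (nat_lit 1530387003) (nat_lit 1444) (nat_lit 295001604) (nat_lit 1520) (nat_lit 7100326433) (nat_lit 411) (nat_lit 5) (nat_lit 430) (nat_lit 5) (nat_lit 431) (nat_lit 5) (nat_lit 425) (nat_lit 405) (nat_lit 310)))) (XT.nd (nat_lit 156) (nat_lit 0) (nat_lit 0) (XT.nd (nat_lit 78) (nat_lit 0) (nat_lit 0) (XT.lf (nat_lit 0) (nat_lit 2887064606) (nat_lit 1444) (nat_lit 4862182127) (nat_lit 1520) (nat_lit 1255337701) (nat_lit 412) (nat_lit 5) (nat_lit 431) (nat_lit 5) (nat_lit 432) (nat_lit 5) (nat_lit 426) (nat_lit 405) (nat_lit 309)) (XT.lf (nat_lit 0) (nat_lit 4261243024) (nat_lit 1444) (nat_lit 442839952) (nat_lit 1520) (nat_lit 4381167172) (nat_lit 412) (nat_lit 5) (nat_lit 431) (nat_lit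 5) (nat_lit 432) (nat_lit 5) (nat_lit 427) (nat_lit 405) (nat_lit 308))) (XT.nd (nat_lit 78) (nat_lit 0) (nat_lit 76) (XT.lf (nat_lit 76) (nat_lit 4100730020) (nat_lit 0) (nat_lit 1565550501) (nat_lit 1520) (nat_lit 3501206905) (nat_lit 413) (nat_lit 5) (nat_lit 412) (nat_lit 5) (nat_lit 432) (nat_lit 5) (nat_lit 428) (nat_lit 405) (nat_lit 307)) (XT.lf (nat_lit 0) (nat_lit 7090154555) (nat_lit 1444) (nat_lit 539115168) (nat_lit 76) (nat_lit 1622310269) (nat_lit 413) (nat_lit 5) (nat_lit 432) (nat_lit 5) (nat_lit 414) (nat_lit 5) (nat_lit 429) (nat_lit 405) (nat_lit 306))))) (XT.nd (nat_lit 234) (nat_lit 3268) (nat_lit 0) (XT.nd (nat_lit 78) (nat_lit 1596) (nat_lit 0) (XT.lf (nat_lit 0) (nat_lit 4104564441) (nat_lit 1444) (nat_lit 4452531637) (nat_lit 1520) (nat_lit 779991291) (nat_lit 394) (nat_lit 5) (nat_lit 413) (nat_lit 5) (nat_lit 414) (nat_lit 5) (nat_lit 430) (nat_lit 405) (nat_lit 305)) (XT.nd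 (nat_lit 78) (nat_lit 1520) (nat_lit 0) (XT.lf (nat_lit 0) (nat_lit 602188876) (nat_lit 1520) (nat_lit 598096567) (nat_lit 76) (nat_lit 8224334208) (nat_lit 393) (nat_lit 5) (nat_lit 413) (nat_lit 5) (nat_lit 394) (nat_lit 5) (nat_lit 431) (nat_lit 405) (nat_lit 304)) (XT.lf (nat_lit 0) (nat_lit 2020738595) (nat_lit 1596) (nat_lit 5367108193) (nat_lit 76) (nat_lit 2125592609) (nat_lit 373) (nat_lit 5) (nat_lit 394) (nat_lit 5) (nat_lit 374) (nat_lit 5) (nat_lit 432) (nat_lit 405) (nat_lit 303)))) (XT.nd (nat_lit 156) (nat_lit 1672) (nat_lit 0) (XT.nd (nat_lit 78) (nat_lit 1596) (nat_lit 0) (XT.lf (nat_lit 0) (nat_lit 3458149097) (nat_lit 1596) (nat_lit 636361454) (nat_lit 76) (nat_lit 5509738067) (nat_lit 373) (nat_lit 5) (nat_lit 394) (nat_lit 5) (nat_lit 374) (nat_lit 5) (nat_lit 433) (nat_lit 405) (nat_lit 302)) (XT.lf (nat_lit 0) (nat_lit 4226603885) (nat_lit 1596) (nat_lit 704068149) (nat_lit 1672)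 (nat_lit 4766097130) (nat_lit 352) (nat_lit 5) (nat_lit 373) (nat_lit 5) (nat_lit 374) (nat_lit 5) (nat_lit 434) (nat_lit 405) (nat_lit 301))) (XT.nd (nat_lit 78) (nat_lit 1672) (nat_lit 0) (XT.lf (nat_lit 0) (nat_lit 6434066534) (nat_lit 1672) (nat_lit 631679603) (nat_lit 76) (nat_lit 2725387550) (nat_lit 352) (nat_lit 5) (nat_lit 374) (nat_lit 5) (nat_lit 353) (nat_lit 5) (nat_lit 435) (nat_lit 405) (nat_lit 300)) (XT.lf (nat_lit 0) (nat_lit 4337993709) (nat_lit 1672) (nat_lit 3642010617) (nat_lit 1748) (nat_lit 1907153222) (nat_lit 330) (nat_lit 5) (nat_lit 352) (nat_lit 5) (nat_lit 353) (nat_lit 5) (nat_lit 436) (nat_lit 405) (nat_lit 299)))))) (XT.nd (nat_lit 546) (nat_lit 3040) (nat_lit 0) (XT.nd (nat_lit 234) (nat_lit 1672) (nat_lit 0) (XT.nd (nat_lit 78) (nat_lit 1064) (nat_lit 0) (XT.lf (nat_lit 0) (nat_lit 9397927318) (nat_lit 1672) (nat_lit 143104201) (nat_lit 1748) (nat_lit 444408087) (nat_lit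 330) (nat_lit 5) (nat_lit 352) (nat_lit 5) (nat_lit 353) (nat_lit 5) (nat_lit 437) (nat_lit 405) (nat_lit 298)) (XT.nd (nat_lit 78) (nat_lit 0) (nat_lit 0) (XT.lf (nat_lit 0) (nat_lit 1065791974) (nat_lit 1064) (nat_lit 5599816149) (nat_lit 76) (nat_lit 3419324674) (nat_lit 316) (nat_lit 5) (nat_lit 330) (nat_lit 5) (nat_lit 317) (nat_lit 5) (nat_lit 438) (nat_lit 405) (nat_lit 297)) (XT.lf (nat_lit 0) (nat_lit 2585630017) (nat_lit 1064) (nat_lit 541032559) (nat_lit 76) (nat_lit 7060006748) (nat_lit 316) (nat_lit 5) (nat_lit 330) (nat_lit 5) (nat_lit 317) (nat_lit 5) (nat_lit 439) (nat_lit 405) (nat_lit 296)))) (XT.nd (nat_lit 156) (nat_lit 836) (nat_lit 0) (XT.nd (nat_lit 78) (nat_lit 0) (nat_lit 0) (XT.lf (nat_lit 0) (nat_lit 4150329568) (nat_lit 912) (nat_lit 5631097597) (nat_lit 76) (nat_lit 508743645) (nat_lit 305) (nat_lit 5) (nat_lit 317) (nat_lit 5) (nat_lit 306) (nat_lit 5) (nat_lit 440) (nat_lit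 405) (nat_lit 295)) (XT.lf (nat_lit 0) (nat_lit 5751801270) (nat_lit 912) (nat_lit 463764578) (nat_lit 76) (nat_lit 4180086056) (nat_lit 305) (nat_lit 5) (nat_lit 317) (nat_lit 5) (nat_lit 306) (nat_lit 5) (nat_lit 441) (nat_lit 405) (nat_lit 294))) (XT.nd (nat_lit 78) (nat_lit 0) (nat_lit 0) (XT.lf (nat_lit 0) (nat_lit 4853034714) (nat_lit 836) (nat_lit 2545264193) (nat_lit 912) (nat_lit 3104702549) (nat_lit 294) (nat_lit 5) (nat_lit 305) (nat_lit 5) (nat_lit 306) (nat_lit 5) (nat_lit 442) (nat_lit 405) (nat_lit 293)) (XT.lf (nat_lit 0) (nat_lit 9070383128) (nat_lit 912) (nat_lit 355583668) (nat_lit 76) (nat_lit 1186696468) (nat_lit 294) (nat_lit 5) (nat_lit 306) (nat_lit 5) (nat_lit 295) (nat_lit 5) (nat_lit 443) (nat_lit 405) (nat_lit 292))))) (XT.nd (nat_lit 234) (nat_lit 1444) (nat_lit 0) (XT.nd (nat_lit 78) (nat_lit 760) (nat_lit 0) (XT.lf (nat_lit 0) (nat_lit 82830188) (nat_lit 836) (nat_lit 5647480173)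 (nat_lit 76) (nat_lit 4993576686) (nat_lit 283) (nat_lit 5) (nat_lit 294) (nat_lit 5) (nat_lit 284) (nat_lit 5) (nat_lit 444) (nat_lit 405) (nat_lit 291)) (XT.nd (nat_lit 78) (nat_lit 760) (nat_lit 0) (XT.lf (nat_lit 0) (nat_lit 1704417640) (nat_lit 836) (nat_lit 243252486) (nat_lit 76) (nat_lit 8889786109) (nat_lit 283) (nat_lit 5) (nat_lit 294) (nat_lit 5) (nat_lit 284) (nat_lit 5) (nat_lit 445) (nat_lit 405) (nat_lit 290)) (XT.lf (nat_lit 0) (nat_lit 3388177089) (nat_lit 836) (nat_lit 5644000894) (nat_lit 76) (nat_lit 1920541014) (nat_lit 273) (nat_lit 5) (nat_lit 284) (nat_lit 5) (nat_lit 274) (nat_lit 5) (nat_lit 446) (nat_lit 405) (nat_lit 289)))) (XT.nd (nat_lit 156) (nat_lit 760) (nat_lit 0) (XT.nd (nat_lit 78) (nat_lit 684) (nat_lit 0) (XT.lf (nat_lit 0) (nat_lit 5102938448) (nat_lit 836) (nat_lit 125633857) (nat_lit 76) (nat_lit 5841784838) (nat_lit 273) (nat_lit 5) (nat_lit 284) (nat_lit 5)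 (nat_lit 274) (nat_lit 5) (nat_lit 447) (nat_lit 405) (nat_lit 288)) (XT.lf (nat_lit 0) (nat_lit 5558853274) (nat_lit 684) (nat_lit 1312356151) (nat_lit 760) (nat_lit 4318770675) (nat_lit 264) (nat_lit 5) (nat_lit 273) (nat_lit 5) (nat_lit 274) (nat_lit 5) (nat_lit 448) (nat_lit 405) (nat_lit 287))) (XT.nd (nat_lit 78) (nat_lit 0) (nat_lit 0) (XT.lf (nat_lit 0) (nat_lit 12106736) (nat_lit 760) (nat_lit 8664421302) (nat_lit 836) (nat_lit 2635449851) (nat_lit 254) (nat_lit 5) (nat_lit 264) (nat_lit 5) (nat_lit 265) (nat_lit 5) (nat_lit 449) (nat_lit 405) (nat_lit 286)) (XT.lf (nat_lit 0) (nat_lit 5818457729) (nat_lit 760) (nat_lit 4729471998) (nat_lit 836) (nat_lit 887902077) (nat_lit 254) (nat_lit 5) (nat_lit 264) (nat_lit 5) (nat_lit 265) (nat_lit 5) (nat_lit 450) (nat_lit 405) (nat_lit 285))))))))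
noncomputable def xc164 : XT := (XT.nd (nat_lit 2106) (nat_lit 5092) (nat_lit 0) (XT.nd (nat_lit 1014) (nat_lit 3344) (nat_lit 0) (XT.nd (nat_lit 468) (nat_lit 2508) (nat_lit 0) (XT.nd (nat_lit 234) (nat_lit 608) (nat_lit 0) (XT.nd (nat_lit 78) (nat_lit 684) (nat_lit 0) (XT.lf (nat_lit 0) (nat_lit 157870778) (nat_lit 684) (nat_lit 709773523) (nat_lit 760) (nat_lit 10694721811) (nat_lit 244) (nat_lit 5) (nat_lit 253) (nat_lit 5) (nat_lit 254) (nat_lit 5) (nat_lit 451) (nat_lit 405) (nat_lit 284)) (XT.nd (nat_lit 78) (nat_lit 684) (nat_lit 0) (XT.lf (nat_lit 0) (nat_lit 2690337754) (nat_lit 760) (nat_lit 5611434044) (nat_lit 76) (nat_lit 3388678222) (nat_lit 244) (nat_lit 5) (nat_lit 254) (nat_lit 5) (nat_lit 245) (nat_lit 5) (nat_lit 452) (nat_lit 405) (nat_lit 283)) (XT.lf (nat_lit 0) (nat_lit 279412951) (nat_lit 684) (nat_lit 4260857987) (nat_lit 760) (nat_lit 7281023458) (nat_lit 235) (nat_lit 5) (nat_lit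 244) (nat_lit 5) (nat_lit 245) (nat_lit 5) (nat_lit 453) (nat_lit 405) (nat_lit 282)))) (XT.nd (nat_lit 78) (nat_lit 608) (nat_lit 0) (XT.lf (nat_lit 0) (nat_lit 6347213870) (nat_lit 684) (nat_lit 102114334) (nat_lit 760) (nat_lit 5504999167) (nat_lit 235) (nat_lit 5) (nat_lit 244) (nat_lit 5) (nat_lit 245) (nat_lit 5) (nat_lit 454) (nat_lit 405) (nat_lit 281)) (XT.nd (nat_lit 78) (nat_lit 0) (nat_lit 0) (XT.lf (nat_lit 0) (nat_lit 407916204) (nat_lit 608) (nat_lit 8002942596) (nat_lit 684) (nat_lit 3678890307) (nat_lit 227) (nat_lit 5) (nat_lit 235) (nat_lit 5) (nat_lit 236) (nat_lit 5) (nat_lit 455) (nat_lit 405) (nat_lit 280)) (XT.lf (nat_lit 0) (nat_lit 6601773248) (nat_lit 608) (nat_lit 3833100293) (nat_lit 684) (nat_lit 1792554336) (nat_lit 227) (nat_lit 5) (nat_lit 235) (nat_lit 5) (nat_lit 236) (nat_lit 5) (nat_lit 456) (nat_lit 405) (nat_lit 279))))) (XT.nd (nat_lit 234) (nat_lit 1140) (nat_lit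 0) (XT.nd (nat_lit 78) (nat_lit 608) (nat_lit 0) (XT.lf (nat_lit 0) (nat_lit 121181636) (nat_lit 760) (nat_lit 11829611926) (nat_lit 76) (nat_lit 417234761) (nat_lit 217) (nat_lit 5) (nat_lit 227) (nat_lit 5) (nat_lit 218) (nat_lit 5) (nat_lit 457) (nat_lit 405) (nat_lit 278)) (XT.nd (nat_lit 78) (nat_lit 608) (nat_lit 0) (XT.lf (nat_lit 0) (nat_lit 2097909054) (nat_lit 760) (nat_lit 5663025391) (nat_lit 76) (nat_lit 4749307859) (nat_lit 217) (nat_lit 5) (nat_lit 227) (nat_lit 5) (nat_lit 218) (nat_lit 5) (nat_lit 458) (nat_lit 405) (nat_lit 277)) (XT.lf (nat_lit 0) (nat_lit 618475159) (nat_lit 608) (nat_lit 3485310148) (nat_lit 684) (nat_lit 8551735600) (nat_lit 209) (nat_lit 5) (nat_lit 217) (nat_lit 5) (nat_lit 218) (nat_lit 5) (nat_lit 459) (nat_lit 405) (nat_lit 276)))) (XT.nd (nat_lit 156) (nat_lit 532) (nat_lit 0) (XT.nd (nat_lit 78) (nat_lit 608) (nat_lit 0) (XT.lf (nat_lit 0) (nat_lit 6179479333)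 (nat_lit 684) (nat_lit 5723216664) (nat_lit 76) (nat_lit 900427460) (nat_lit 209) (nat_lit 5) (nat_lit 218) (nat_lit 5) (nat_lit 210) (nat_lit 5) (nat_lit 460) (nat_lit 405) (nat_lit 275)) (XT.lf (nat_lit 0) (nat_lit 686434676) (nat_lit 608) (nat_lit 7623830338) (nat_lit 684) (nat_lit 4643153629) (nat_lit 201) (nat_lit 5) (nat_lit 209) (nat_lit 5) (nat_lit 210) (nat_lit 5) (nat_lit 461) (nat_lit 405) (nat_lit 274))) (XT.nd (nat_lit 78) (nat_lit 532) (nat_lit 0) (XT.lf (nat_lit 0) (nat_lit 7285590973) (nat_lit 608) (nat_lit 3222688810) (nat_lit 684) (nat_lit 2597959583) (nat_lit 201) (nat_lit 5) (nat_lit 209) (nat_lit 5) (nat_lit 210) (nat_lit 5) (nat_lit 462) (nat_lit 405) (nat_lit 273)) (XT.lf (nat_lit 0) (nat_lit 739879592) (nat_lit 532) (nat_lit 12009864102) (nat_lit 608) (nat_lit 512394698) (nat_lit 194) (nat_lit 5) (nat_lit 201) (nat_lit 5) (nat_lit 202) (nat_lit 5) (nat_lit 463) (nat_lit 405) (nat_lit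 272)))))) (XT.nd (nat_lit 546) (nat_lit 1520) (nat_lit 0) (XT.nd (nat_lit 234) (nat_lit 1140) (nat_lit 0) (XT.nd (nat_lit 78) (nat_lit 608) (nat_lit 0) (XT.lf (nat_lit 0) (nat_lit 1640885862) (nat_lit 608) (nat_lit 5958240302) (nat_lit 76) (nat_lit 5820887074) (nat_lit 193) (nat_lit 5) (nat_lit 201) (nat_lit 5) (nat_lit 194) (nat_lit 5) (nat_lit 464) (nat_lit 405) (nat_lit 271)) (XT.nd (nat_lit 78) (nat_lit 0) (nat_lit 0) (XT.lf (nat_lit 0) (nat_lit 727223688) (nat_lit 608) (nat_lit 3094662905) (nat_lit 684) (nat_lit 9759271934) (nat_lit 185) (nat_lit 5) (nat_lit 193) (nat_lit 5) (nat_lit 194) (nat_lit 5) (nat_lit 465) (nat_lit 405) (nat_lit 270)) (XT.lf (nat_lit 0) (nat_lit 6083418535) (nat_lit 684) (nat_lit 6143695349) (nat_lit 76) (nat_lit 1517685391) (nat_lit 185) (nat_lit 5) (nat_lit 194) (nat_lit 5) (nat_lit 186) (nat_lit 5) (nat_lit 466) (nat_lit 405) (nat_lit 269)))) (XT.nd (nat_lit 156) (nat_lit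 608) (nat_lit 0) (XT.nd (nat_lit 78) (nat_lit 0) (nat_lit 0) (XT.lf (nat_lit 0) (nat_lit 673273108) (nat_lit 532) (nat_lit 7728955371) (nat_lit 608) (nat_lit 5509253981) (nat_lit 178) (nat_lit 5) (nat_lit 185) (nat_lit 5) (nat_lit 186) (nat_lit 5) (nat_lit 467) (nat_lit 405) (nat_lit 268)) (XT.lf (nat_lit 0) (nat_lit 7694152900) (nat_lit 532) (nat_lit 3101820079) (nat_lit 608) (nat_lit 3284965520) (nat_lit 178) (nat_lit 5) (nat_lit 185) (nat_lit 5) (nat_lit 186) (nat_lit 5) (nat_lit 468) (nat_lit 405) (nat_lit 267))) (XT.nd (nat_lit 78) (nat_lit 76) (nat_lit 0) (XT.lf (nat_lit 0) (nat_lit 583172145) (nat_lit 532) (nat_lit 12656270776) (nat_lit 608) (nat_lit 1014313887) (nat_lit 171) (nat_lit 5) (nat_lit 178) (nat_lit 5) (nat_lit 179) (nat_lit 5) (nat_lit 469) (nat_lit 405) (nat_lit 266)) (XT.lf (nat_lit 0) (nat_lit 1335974254) (nat_lit 608) (nat_lit 6695058410) (nat_lit 76) (nat_lit 6397813619) (nat_lit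 170) (nat_lit 5) (nat_lit 178) (nat_lit 5) (nat_lit 171) (nat_lit 5) (nat_lit 470) (nat_lit 405) (nat_lit 265))))) (XT.nd (nat_lit 234) (nat_lit 532) (nat_lit 0) (XT.nd (nat_lit 78) (nat_lit 532) (nat_lit 0) (XT.lf (nat_lit 0) (nat_lit 403146244) (nat_lit 456) (nat_lit 3307025137) (nat_lit 532) (nat_lit 10897331948) (nat_lit 164) (nat_lit 5) (nat_lit 170) (nat_lit 5) (nat_lit 171) (nat_lit 5) (nat_lit 471) (nat_lit 405) (nat_lit 264)) (XT.nd (nat_lit 78) (nat_lit 532) (nat_lit 0) (XT.lf (nat_lit 0) (nat_lit 6174862876) (nat_lit 532) (nat_lit 7080406591) (nat_lit 76) (nat_lit 1533613224) (nat_lit 164) (nat_lit 5) (nat_lit 171) (nat_lit 5) (nat_lit 165) (nat_lit 5) (nat_lit 472) (nat_lit 405) (nat_lit 263)) (XT.lf (nat_lit 0) (nat_lit 150876401) (nat_lit 532) (nat_lit 8549060167) (nat_lit 608) (nat_lit 6273740505) (nat_lit 157) (nat_lit 5) (nat_lit 164) (nat_lit 5) (nat_lit 165) (nat_lit 5) (nat_lit 473)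 (nat_lit 405) (nat_lit 262)))) (XT.nd (nat_lit 156) (nat_lit 532) (nat_lit 0) (XT.nd (nat_lit 78) (nat_lit 0) (nat_lit 0) (XT.lf (nat_lit 0) (nat_lit 7607637535) (nat_lit 532) (nat_lit 3703728422) (nat_lit 608) (nat_lit 3850093319) (nat_lit 157) (nat_lit 5) (nat_lit 164) (nat_lit 5) (nat_lit 165) (nat_lit 5) (nat_lit 474) (nat_lit 405) (nat_lit 261)) (XT.lf (nat_lit 0) (nat_lit 13971612684) (nat_lit 608) (nat_lit 162547591) (nat_lit 76) (nat_lit 1218913916) (nat_lit 157) (nat_lit 5) (nat_lit 165) (nat_lit 5) (nat_lit 158) (nat_lit 5) (nat_lit 475) (nat_lit 405) (nat_lit 260))) (XT.nd (nat_lit 78) (nat_lit 0) (nat_lit 0) (XT.lf (nat_lit 0) (nat_lit 1183607811) (nat_lit 532) (nat_lit 8120301129) (nat_lit 76) (nat_lit 6243233962) (nat_lit 150) (nat_lit 5) (nat_lit 157) (nat_lit 5) (nat_lit 151) (nat_lit 5) (nat_lit 476) (nat_lit 405) (nat_lit 259)) (XT.lf (nat_lit 0) (nat_lit 3771411235) (nat_lit 532) (nat_lit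 598812959) (nat_lit 76) (nat_lit 11374895888) (nat_lit 150) (nat_lit 5) (nat_lit 157) (nat_lit 5) (nat_lit 151) (nat_lit 5) (nat_lit 477) (nat_lit 405) (nat_lit 258))))))) (XT.nd (nat_lit 1014) (nat_lit 2052) (nat_lit 0) (XT.nd (nat_lit 468) (nat_lit 1596) (nat_lit 0) (XT.nd (nat_lit 234) (nat_lit 532) (nat_lit 0) (XT.nd (nat_lit 78) (nat_lit 456) (nat_lit 0) (XT.lf (nat_lit 0) (nat_lit 6451026791) (nat_lit 532) (nat_lit 8798546884) (nat_lit 76) (nat_lit 696690177) (nat_lit 144) (nat_lit 5) (nat_lit 151) (nat_lit 5) (nat_lit 145) (nat_lit 5) (nat_lit 478) (nat_lit 405) (nat_lit 257)) (XT.nd (nat_lit 78) (nat_lit 456) (nat_lit 0) (XT.lf (nat_lit 0) (nat_lit 9206354144) (nat_lit 532) (nat_lit 1137647968) (nat_lit 76) (nat_lit 5806994003) (nat_lit 144) (nat_lit 5) (nat_lit 151) (nat_lit 5) (nat_lit 145) (nat_lit 5) (nat_lit 479) (nat_lit 405) (nat_lit 256)) (XT.lf (nat_lit 0) (nat_lit 6750667987) (nat_lit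 456) (nat_lit 5299295598) (nat_lit 532) (nat_lit 4309203780) (nat_lit 138) (nat_lit 5) (nat_lit 144) (nat_lit 5) (nat_lit 145) (nat_lit 5) (nat_lit 480) (nat_lit 405) (nat_lit 255)))) (XT.nd (nat_lit 78) (nat_lit 532) (nat_lit 0) (XT.lf (nat_lit 0) (nat_lit 14797928541) (nat_lit 456) (nat_lit 149613052) (nat_lit 532) (nat_lit 1624026218) (nat_lit 138) (nat_lit 5) (nat_lit 144) (nat_lit 5) (nat_lit 145) (nat_lit 5) (nat_lit 481) (nat_lit 405) (nat_lit 254)) (XT.nd (nat_lit 78) (nat_lit 0) (nat_lit 0) (XT.lf (nat_lit 0) (nat_lit 1164019552) (nat_lit 532) (nat_lit 10541978499) (nat_lit 76) (nat_lit 5080805122) (nat_lit 131) (nat_lit 5) (nat_lit 138) (nat_lit 5) (nat_lit 132) (nat_lit 5) (nat_lit 482) (nat_lit 405) (nat_lit 253)) (XT.lf (nat_lit 0) (nat_lit 3988754349) (nat_lit 532) (nat_lit 2584435346) (nat_lit 76) (nat_lit 10432892628) (nat_lit 131) (nat_lit 5) (nat_lit 138) (nat_lit 5) (nat_lit 132) (nat_lit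 5) (nat_lit 483) (nat_lit 405) (nat_lit 252))))) (XT.nd (nat_lit 234) (nat_lit 836) (nat_lit 0) (XT.nd (nat_lit 78) (nat_lit 380) (nat_lit 0) (XT.lf (nat_lit 0) (nat_lit 5591667520) (nat_lit 380) (nat_lit 1304505261) (nat_lit 456) (nat_lit 10333057608) (nat_lit 126) (nat_lit 5) (nat_lit 131) (nat_lit 5) (nat_lit 132) (nat_lit 5) (nat_lit 484) (nat_lit 405) (nat_lit 251)) (XT.nd (nat_lit 78) (nat_lit 380) (nat_lit 0) (XT.lf (nat_lit 0) (nat_lit 9895587387) (nat_lit 456) (nat_lit 3530724019) (nat_lit 76) (nat_lit 4029860025) (nat_lit 126) (nat_lit 5) (nat_lit 132) (nat_lit 5) (nat_lit 127) (nat_lit 5) (nat_lit 485) (nat_lit 405) (nat_lit 250)) (XT.lf (nat_lit 0) (nat_lit 4778541263) (nat_lit 380) (nat_lit 8206278092) (nat_lit 456) (nat_lit 4702242193) (nat_lit 121) (nat_lit 5) (nat_lit 126) (nat_lit 5) (nat_lit 127) (nat_lit 5) (nat_lit 486) (nat_lit 405) (nat_lit 249)))) (XT.nd (nat_lit 156) (nat_lit 380)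 (nat_lit 0) (XT.nd (nat_lit 78) (nat_lit 456) (nat_lit 0) (XT.lf (nat_lit 0) (nat_lit 13288199495) (nat_lit 380) (nat_lit 2861598203) (nat_lit 456) (nat_lit 1772499238) (nat_lit 121) (nat_lit 5) (nat_lit 126) (nat_lit 5) (nat_lit 127) (nat_lit 5) (nat_lit 487) (nat_lit 405) (nat_lit 248)) (XT.lf (nat_lit 0) (nat_lit 1232187493) (nat_lit 456) (nat_lit 14344093654) (nat_lit 76) (nat_lit 2585158546) (nat_lit 115) (nat_lit 5) (nat_lit 121) (nat_lit 5) (nat_lit 116) (nat_lit 5) (nat_lit 488) (nat_lit 405) (nat_lit 247))) (XT.nd (nat_lit 78) (nat_lit 380) (nat_lit 0) (XT.lf (nat_lit 0) (nat_lit 4313976179) (nat_lit 456) (nat_lit 5948604702) (nat_lit 76) (nat_lit 8141741575) (nat_lit 115) (nat_lit 5) (nat_lit 121) (nat_lit 5) (nat_lit 116) (nat_lit 5) (nat_lit 489) (nat_lit 405) (nat_lit 246)) (XT.lf (nat_lit 0) (nat_lit 2636031932) (nat_lit 380) (nat_lit 4829136165) (nat_lit 456) (nat_lit 11186745619) (nat_lit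 110) (nat_lit 5) (nat_lit 115) (nat_lit 5) (nat_lit 116) (nat_lit 5) (nat_lit 490) (nat_lit 405) (nat_lit 245)))))) (XT.nd (nat_lit 546) (nat_lit 988) (nat_lit 0) (XT.nd (nat_lit 234) (nat_lit 760) (nat_lit 0) (XT.nd (nat_lit 78) (nat_lit 304) (nat_lit 0) (XT.lf (nat_lit 0) (nat_lit 10714919528) (nat_lit 456) (nat_lit 7448967247) (nat_lit 76) (nat_lit 739865383) (nat_lit 110) (nat_lit 5) (nat_lit 116) (nat_lit 5) (nat_lit 111) (nat_lit 5) (nat_lit 491) (nat_lit 405) (nat_lit 244)) (XT.nd (nat_lit 78) (nat_lit 0) (nat_lit 0) (XT.lf (nat_lit 0) (nat_lit 1260690165) (nat_lit 304) (nat_lit 12800047898) (nat_lit 380) (nat_lit 5099273814) (nat_lit 106) (nat_lit 5) (nat_lit 110) (nat_lit 5) (nat_lit 111) (nat_lit 5) (nat_lit 492) (nat_lit 405) (nat_lit 243)) (XT.lf (nat_lit 0) (nat_lit 10232451383) (nat_lit 304) (nat_lit 7282007395) (nat_lit 380) (nat_lit 1906124131) (nat_lit 106) (nat_lit 5) (nat_lit 110) (nat_lit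 5) (nat_lit 111) (nat_lit 5) (nat_lit 493) (nat_lit 405) (nat_lit 242)))) (XT.nd (nat_lit 156) (nat_lit 304) (nat_lit 0) (XT.nd (nat_lit 78) (nat_lit 380) (nat_lit 0) (XT.lf (nat_lit 0) (nat_lit 1324283117) (nat_lit 380) (nat_lit 324418065) (nat_lit 76) (nat_lit 18037672135) (nat_lit 105) (nat_lit 5) (nat_lit 110) (nat_lit 5) (nat_lit 106) (nat_lit 5) (nat_lit 494) (nat_lit 405) (nat_lit 241)) (XT.lf (nat_lit 0) (nat_lit 4669303520) (nat_lit 456) (nat_lit 11176529413) (nat_lit 76) (nat_lit 4109889547) (nat_lit 100) (nat_lit 5) (nat_lit 106) (nat_lit 5) (nat_lit 101) (nat_lit 5) (nat_lit 495) (nat_lit 405) (nat_lit 240))) (XT.nd (nat_lit 78) (nat_lit 304) (nat_lit 0) (XT.lf (nat_lit 0) (nat_lit 8085683654) (nat_lit 456) (nat_lit 2184818930) (nat_lit 76) (nat_lit 9959872246) (nat_lit 100) (nat_lit 5) (nat_lit 106) (nat_lit 5) (nat_lit 101) (nat_lit 5) (nat_lit 496) (nat_lit 405) (nat_lit 239)) (XT.lf (nat_lit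 0) (nat_lit 7066914646) (nat_lit 304) (nat_lit 4540878800) (nat_lit 380) (nat_lit 8901984024) (nat_lit 96) (nat_lit 5) (nat_lit 100) (nat_lit 5) (nat_lit 101) (nat_lit 5) (nat_lit 497) (nat_lit 405) (nat_lit 238))))) (XT.nd (nat_lit 234) (nat_lit 608) (nat_lit 0) (XT.nd (nat_lit 78) (nat_lit 380) (nat_lit 0) (XT.lf (nat_lit 0) (nat_lit 15215144525) (nat_lit 380) (nat_lit 4282295245) (nat_lit 76) (nat_lit 1297037591) (nat_lit 96) (nat_lit 5) (nat_lit 101) (nat_lit 5) (nat_lit 97) (nat_lit 5) (nat_lit 498) (nat_lit 405) (nat_lit 237)) (XT.nd (nat_lit 78) (nat_lit 76) (nat_lit 0) (XT.lf (nat_lit 0) (nat_lit 5085799312) (nat_lit 304) (nat_lit 13863679444) (nat_lit 380) (nat_lit 2134300850) (nat_lit 92) (nat_lit 5) (nat_lit 96) (nat_lit 5) (nat_lit 97) (nat_lit 5) (nat_lit 499) (nat_lit 405) (nat_lit 236)) (XT.lf (nat_lit 0) (nat_lit 1382231544) (nat_lit 380) (nat_lit 6700484344) (nat_lit 76) (nat_lit 13295563861)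 (nat_lit 91) (nat_lit 5) (nat_lit 96) (nat_lit 5) (nat_lit 92) (nat_lit 5) (nat_lit 500) (nat_lit 405) (nat_lit 235)))) (XT.nd (nat_lit 156) (nat_lit 304) (nat_lit 0) (XT.nd (nat_lit 78) (nat_lit 0) (nat_lit 0) (XT.lf (nat_lit 0) (nat_lit 2793357781) (nat_lit 304) (nat_lit 2157250118) (nat_lit 380) (nat_lit 16727582796) (nat_lit 87) (nat_lit 5) (nat_lit 91) (nat_lit 5) (nat_lit 92) (nat_lit 5) (nat_lit 501) (nat_lit 405) (nat_lit 234)) (XT.lf (nat_lit 0) (nat_lit 8652831082) (nat_lit 380) (nat_lit 9452993357) (nat_lit 76) (nat_lit 3877030527) (nat_lit 87) (nat_lit 5) (nat_lit 92) (nat_lit 5) (nat_lit 88) (nat_lit 5) (nat_lit 502) (nat_lit 405) (nat_lit 233))) (XT.nd (nat_lit 78) (nat_lit 0) (nat_lit 0) (XT.lf (nat_lit 0) (nat_lit 143149109) (nat_lit 304) (nat_lit 12293305220) (nat_lit 380) (nat_lit 9857015681) (nat_lit 83) (nat_lit 5) (nat_lit 87) (nat_lit 5) (nat_lit 88) (nat_lit 5) (nat_lit 503) (nat_lit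 405) (nat_lit 232)) (XT.lf (nat_lit 0) (nat_lit 10047505808) (nat_lit 304) (nat_lit 6303895761) (nat_lit 380) (nat_lit 6257787265) (nat_lit 83) (nat_lit 5) (nat_lit 87) (nat_lit 5) (nat_lit 88) (nat_lit 5) (nat_lit 504) (nat_lit 405) (nat_lit 231))))))))
noncomputable def xc165 : XT := (XT.nd (nat_lit 52338) (nat_lit 0) (nat_lit 18012) (XT.nd (nat_lit 1014) (nat_lit 532) (nat_lit 0) (XT.nd (nat_lit 468) (nat_lit 608) (nat_lit 0) (XT.nd (nat_lit 234) (nat_lit 532) (nat_lit 0) (XT.nd (nat_lit 78) (nat_lit 304) (nat_lit 0) (XT.lf (nat_lit 0) (nat_lit 20138335494) (nat_lit 304) (nat_lit 198681834) (nat_lit 380) (nat_lit 2594361737) (nat_lit 83) (nat_lit 5) (nat_lit 87) (nat_lit 5) (nat_lit 88) (nat_lit 5) (nat_lit 505) (nat_lit 405) (nat_lit 230)) (XT.nd (nat_lit 78) (nat_lit 0) (nat_lit 0) (XT.lf (nat_lit 0) (nat_lit 1206345759) (nat_lit 304) (nat_lit 16051447373) (nat_lit 76) (nat_lit 6000495975) (nat_lit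 79) (nat_lit 5) (nat_lit 83) (nat_lit 5) (nat_lit 80) (nat_lit 5) (nat_lit 506) (nat_lit 405) (nat_lit 229)) (XT.lf (nat_lit 0) (nat_lit 5061057386) (nat_lit 304) (nat_lit 6176941324) (nat_lit 76) (nat_lit 12353145263) (nat_lit 79) (nat_lit 5) (nat_lit 83) (nat_lit 5) (nat_lit 80) (nat_lit 5) (nat_lit 507) (nat_lit 405) (nat_lit 228)))) (XT.nd (nat_lit 78) (nat_lit 228) (nat_lit 0) (XT.lf (nat_lit 0) (nat_lit 3935351100) (nat_lit 304) (nat_lit 5075723173) (nat_lit 380) (nat_lit 14919221526) (nat_lit 75) (nat_lit 5) (nat_lit 79) (nat_lit 5) (nat_lit 80) (nat_lit 5) (nat_lit 508) (nat_lit 405) (nat_lit 227)) (XT.nd (nat_lit 78) (nat_lit 228) (nat_lit 0) (XT.lf (nat_lit 0) (nat_lit 13082376592) (nat_lit 380) (nat_lit 9961277251) (nat_lit 76) (nat_lit 1231735122) (nat_lit 75) (nat_lit 5) (nat_lit 80) (nat_lit 5) (nat_lit 76) (nat_lit 5) (nat_lit 509) (nat_lit 405) (nat_lit 226)) (XT.lf (nat_lit 0) (nat_lit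 231340698) (nat_lit 228) (nat_lit 17031728620) (nat_lit 304) (nat_lit 7363759314) (nat_lit 72) (nat_lit 5) (nat_lit 75) (nat_lit 5) (nat_lit 76) (nat_lit 5) (nat_lit 510) (nat_lit 405) (nat_lit 225))))) (XT.nd (nat_lit 234) (nat_lit 228) (nat_lit 0) (XT.nd (nat_lit 78) (nat_lit 380) (nat_lit 0) (XT.lf (nat_lit 0) (nat_lit 10751769187) (nat_lit 228) (nat_lit 10835368769) (nat_lit 304) (nat_lit 3396967745) (nat_lit 72) (nat_lit 5) (nat_lit 75) (nat_lit 5) (nat_lit 76) (nat_lit 5) (nat_lit 511) (nat_lit 405) (nat_lit 224)) (XT.nd (nat_lit 78) (nat_lit 304) (nat_lit 0) (XT.lf (nat_lit 0) (nat_lit 633651626) (nat_lit 304) (nat_lit 3881085994) (nat_lit 76) (nat_lit 20833849978) (nat_lit 71) (nat_lit 5) (nat_lit 75) (nat_lit 5) (nat_lit 72) (nat_lit 5) (nat_lit 512) (nat_lit 405) (nat_lit 223)) (XT.lf (nat_lit 0) (nat_lit 4749252813) (nat_lit 380) (nat_lit 18999881552) (nat_lit 76) (nat_lit 1969782222) (nat_lit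 67) (nat_lit 5) (nat_lit 72) (nat_lit 5) (nat_lit 68) (nat_lit 5) (nat_lit 513) (nat_lit 405) (nat_lit 222)))) (XT.nd (nat_lit 156) (nat_lit 0) (nat_lit 0) (XT.nd (nat_lit 78) (nat_lit 228) (nat_lit 0) (XT.lf (nat_lit 0) (nat_lit 8996464589) (nat_lit 380) (nat_lit 8553213141) (nat_lit 76) (nat_lit 8545992008) (nat_lit 67) (nat_lit 5) (nat_lit 72) (nat_lit 5) (nat_lit 68) (nat_lit 5) (nat_lit 514) (nat_lit 405) (nat_lit 221)) (XT.lf (nat_lit 0) (nat_lit 2119621090) (nat_lit 228) (nat_lit 11216078197) (nat_lit 304) (nat_lit 13144120578) (nat_lit 64) (nat_lit 5) (nat_lit 67) (nat_lit 5) (nat_lit 68) (nat_lit 5) (nat_lit 515) (nat_lit 405) (nat_lit 220))) (XT.nd (nat_lit 78) (nat_lit 0) (nat_lit 0) (XT.lf (nat_lit 0) (nat_lit 13111355820) (nat_lit 228) (nat_lit 4701139011) (nat_lit 304) (nat_lit 9058146058) (nat_lit 64) (nat_lit 5) (nat_lit 67) (nat_lit 5) (nat_lit 68) (nat_lit 5) (nat_lit 516) (nat_lit 405)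 (nat_lit 219)) (XT.lf (nat_lit 0) (nat_lit 22384933392) (nat_lit 304) (nat_lit 2969375368) (nat_lit 76) (nat_lit 1914850782) (nat_lit 64) (nat_lit 5) (nat_lit 68) (nat_lit 5) (nat_lit 65) (nat_lit 5) (nat_lit 517) (nat_lit 405) (nat_lit 218)))))) (XT.nd (nat_lit 50778) (nat_lit 0) (nat_lit 29336) (XT.nd (nat_lit 234) (nat_lit 0) (nat_lit 0) (XT.nd (nat_lit 78) (nat_lit 304) (nat_lit 0) (XT.lf (nat_lit 0) (nat_lit 8101252560) (nat_lit 228) (nat_lit 19024912714) (nat_lit 304) (nat_lit 547939689) (nat_lit 61) (nat_lit 5) (nat_lit 64) (nat_lit 5) (nat_lit 65) (nat_lit 5) (nat_lit 518) (nat_lit 405) (nat_lit 217)) (XT.nd (nat_lit 78) (nat_lit 228) (nat_lit 0) (XT.lf (nat_lit 0) (nat_lit 3837935132) (nat_lit 304) (nat_lit 8688715314) (nat_lit 76) (nat_lit 15559725117) (nat_lit 60) (nat_lit 5) (nat_lit 64) (nat_lit 5) (nat_lit 61) (nat_lit 5) (nat_lit 519) (nat_lit 405) (nat_lit 216)) (XT.lf (nat_lit 0) (nat_lit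 2431346905) (nat_lit 228) (nat_lit 5882388242) (nat_lit 304) (nat_lit 20192896191) (nat_lit 57) (nat_lit 5) (nat_lit 60) (nat_lit 5) (nat_lit 61) (nat_lit 5) (nat_lit 520) (nat_lit 405) (nat_lit 215)))) (XT.nd (nat_lit 50388) (nat_lit 0) (nat_lit 30552) (XT.nd (nat_lit 78) (nat_lit 0) (nat_lit 0) (XT.lf (nat_lit 0) (nat_lit 12937337847) (nat_lit 304) (nat_lit 15058786375) (nat_lit 76) (nat_lit 938005309) (nat_lit 57) (nat_lit 5) (nat_lit 61) (nat_lit 5) (nat_lit 58) (nat_lit 5) (nat_lit 521) (nat_lit 405) (nat_lit 214)) (XT.lf (nat_lit 0) (nat_lit 17686275997) (nat_lit 304) (nat_lit 3870770406) (nat_lit 76) (nat_lit 7812476991) (nat_lit 57) (nat_lit 5) (nat_lit 61) (nat_lit 5) (nat_lit 58) (nat_lit 5) (nat_lit 522) (nat_lit 405) (nat_lit 213))) (XT.nd (nat_lit 78) (nat_lit 0) (nat_lit 0) (XT.lf (nat_lit 0) (nat_lit 1440040715) (nat_lit 1292) (nat_lit 1220916276) (nat_lit 1292) (nat_lit 1220916276) (nat_lit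 459) (nat_lit 3) (nat_lit 476) (nat_lit 3) (nat_lit 476) (nat_lit 5) (nat_lit 406) (nat_lit 406) (nat_lit 328)) (XT.lf (nat_lit 76) (nat_lit 1049723251) (nat_lit 0) (nat_lit 3096892033) (nat_lit 1292) (nat_lit 3668495720) (nat_lit 460) (nat_lit 5) (nat_lit 459) (nat_lit 3) (nat_lit 476) (nat_lit 5) (nat_lit 407) (nat_lit 406) (nat_lit 327))))) (XT.nd (nat_lit 234) (nat_lit 0) (nat_lit 0) (XT.nd (nat_lit 78) (nat_lit 1216) (nat_lit 0) (XT.lf (nat_lit 76) (nat_lit 4627504265) (nat_lit 0) (nat_lit 794965658) (nat_lit 1292) (nat_lit 2445392865) (nat_lit 460) (nat_lit 5) (nat_lit 459) (nat_lit 3) (nat_lit 476) (nat_lit 5) (nat_lit 408) (nat_lit 406) (nat_lit 326)) (XT.nd (nat_lit 78) (nat_lit 1292) (nat_lit 0) (XT.lf (nat_lit 76) (nat_lit 332294126) (nat_lit 0) (nat_lit 6372127317) (nat_lit 1292) (nat_lit 1217675613) (nat_lit 461) (nat_lit 5) (nat_lit 460) (nat_lit 5) (nat_lit 477) (nat_lit 5) (nat_lit 409)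 (nat_lit 406) (nat_lit 325)) (XT.lf (nat_lit 0) (nat_lit 29900748) (nat_lit 1292) (nat_lit 3979784742) (nat_lit 1368) (nat_lit 3967848387) (nat_lit 443) (nat_lit 5) (nat_lit 460) (nat_lit 5) (nat_lit 461) (nat_lit 5) (nat_lit 410) (nat_lit 406) (nat_lit 324)))) (XT.nd (nat_lit 156) (nat_lit 0) (nat_lit 76) (XT.nd (nat_lit 78) (nat_lit 0) (nat_lit 76) (XT.lf (nat_lit 0) (nat_lit 1255360093) (nat_lit 1292) (nat_lit 322781313) (nat_lit 1368) (nat_lit 6456429122) (nat_lit 443) (nat_lit 5) (nat_lit 460) (nat_lit 5) (nat_lit 461) (nat_lit 5) (nat_lit 411) (nat_lit 406) (nat_lit 323)) (XT.lf (nat_lit 0) (nat_lit 2503550334) (nat_lit 1292) (nat_lit 4663426419) (nat_lit 1368) (nat_lit 925842798) (nat_lit 444) (nat_lit 5) (nat_lit 461) (nat_lit 5) (nat_lit 462) (nat_lit 5) (nat_lit 412) (nat_lit 406) (nat_lit 322))) (XT.nd (nat_lit 78) (nat_lit 0) (nat_lit 0) (XT.lf (nat_lit 0) (nat_lit 3759727979) (nat_lit 1292)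 (nat_lit 919087061) (nat_lit 1368) (nat_lit 3473793406) (nat_lit 444) (nat_lit 5) (nat_lit 461) (nat_lit 5) (nat_lit 462) (nat_lit 5) (nat_lit 413) (nat_lit 406) (nat_lit 321)) (XT.lf (nat_lit 76) (nat_lit 2921377327) (nat_lit 0) (nat_lit 2109591876) (nat_lit 1368) (nat_lit 3182859788) (nat_lit 445) (nat_lit 5) (nat_lit 444) (nat_lit 5) (nat_lit 462) (nat_lit 5) (nat_lit 414) (nat_lit 406) (nat_lit 320))))))) (XT.nd (nat_lit 1092) (nat_lit 8892) (nat_lit 0) (XT.nd (nat_lit 546) (nat_lit 1216) (nat_lit 0) (XT.nd (nat_lit 234) (nat_lit 0) (nat_lit 76) (XT.nd (nat_lit 78) (nat_lit 1368) (nat_lit 0) (XT.lf (nat_lit 0) (nat_lit 6308668385) (nat_lit 1292) (nat_lit 1446044331) (nat_lit 1368) (nat_lit 521974559) (nat_lit 445) (nat_lit 5) (nat_lit 462) (nat_lit 5) (nat_lit 463) (nat_lit 5) (nat_lit 415) (nat_lit 406) (nat_lit 319)) (XT.nd (nat_lit 78) (nat_lit 1368) (nat_lit 0) (XT.lf (nat_lit 76) (nat_lit 2478528147)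 (nat_lit 0) (nat_lit 5135522026) (nat_lit 1368) (nat_lit 726743305) (nat_lit 446) (nat_lit 5) (nat_lit 445) (nat_lit 5) (nat_lit 463) (nat_lit 5) (nat_lit 416) (nat_lit 406) (nat_lit 318)) (XT.lf (nat_lit 0) (nat_lit 514339373) (nat_lit 1368) (nat_lit 1925945324) (nat_lit 1444) (nat_lit 5966217994) (nat_lit 427) (nat_lit 5) (nat_lit 445) (nat_lit 5) (nat_lit 446) (nat_lit 5) (nat_lit 417) (nat_lit 406) (nat_lit 317)))) (XT.nd (nat_lit 156) (nat_lit 0) (nat_lit 0) (XT.nd (nat_lit 78) (nat_lit 0) (nat_lit 0) (XT.lf (nat_lit 0) (nat_lit 1759143173) (nat_lit 1368) (nat_lit 6381406394) (nat_lit 1444) (nat_lit 333139237) (nat_lit 428) (nat_lit 5) (nat_lit 446) (nat_lit 5) (nat_lit 447) (nat_lit 5) (nat_lit 418) (nat_lit 406) (nat_lit 316)) (XT.lf (nat_lit 0) (nat_lit 3031328328) (nat_lit 1368) (nat_lit 2358980206) (nat_lit 1444) (nat_lit 3151891187) (nat_lit 428) (nat_lit 5) (nat_lit 446) (nat_lit 5) (nat_lit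 447) (nat_lit 5) (nat_lit 419) (nat_lit 406) (nat_lit 315))) (XT.nd (nat_lit 78) (nat_lit 0) (nat_lit 76) (XT.lf (nat_lit 76) (nat_lit 1749431728) (nat_lit 0) (nat_lit 2564721926) (nat_lit 1444) (nat_lit 4298253457) (nat_lit 429) (nat_lit 5) (nat_lit 428) (nat_lit 5) (nat_lit 447) (nat_lit 5) (nat_lit 420) (nat_lit 406) (nat_lit 314)) (XT.lf (nat_lit 0) (nat_lit 5614924627) (nat_lit 1368) (nat_lit 2731771177) (nat_lit 1444) (nat_lit 337506654) (nat_lit 429) (nat_lit 5) (nat_lit 447) (nat_lit 5) (nat_lit 448) (nat_lit 5) (nat_lit 421) (nat_lit 406) (nat_lit 313))))) (XT.nd (nat_lit 234) (nat_lit 0) (nat_lit 0) (XT.nd (nat_lit 78) (nat_lit 1368) (nat_lit 0) (XT.lf (nat_lit 76) (nat_lit 1466767776) (nat_lit 0) (nat_lit 5476249120) (nat_lit 1444) (nat_lit 1814419709) (nat_lit 430) (nat_lit 5) (nat_lit 429) (nat_lit 5) (nat_lit 448) (nat_lit 5) (nat_lit 422) (nat_lit 406) (nat_lit 312)) (XT.nd (nat_lit 78)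 (nat_lit 1368) (nat_lit 0) (XT.lf (nat_lit 76) (nat_lit 5768881442) (nat_lit 0) (nat_lit 2522299946) (nat_lit 1444) (nat_lit 541112282) (nat_lit 430) (nat_lit 5) (nat_lit 429) (nat_lit 5) (nat_lit 448) (nat_lit 5) (nat_lit 423) (nat_lit 406) (nat_lit 311)) (XT.lf (nat_lit 0) (nat_lit 734585339) (nat_lit 1444) (nat_lit 7669898010) (nat_lit 1520) (nat_lit 504356262) (nat_lit 411) (nat_lit 5) (nat_lit 430) (nat_lit 5) (nat_lit 431) (nat_lit 5) (nat_lit 424) (nat_lit 406) (nat_lit 310)))) (XT.nd (nat_lit 156) (nat_lit 0) (nat_lit 76) (XT.nd (nat_lit 78) (nat_lit 0) (nat_lit 0) (XT.lf (nat_lit 0) (nat_lit 2041844920) (nat_lit 1444) (nat_lit 3355938135) (nat_lit 1520) (nat_lit 3588822814) (nat_lit 411) (nat_lit 5) (nat_lit 430) (nat_lit 5) (nat_lit 431) (nat_lit 5) (nat_lit 425) (nat_lit 406) (nat_lit 309)) (XT.lf (nat_lit 76) (nat_lit 1040419725) (nat_lit 0) (nat_lit 2317947324) (nat_lit 1520) (nat_lit 5707924332)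 (nat_lit 412) (nat_lit 5) (nat_lit 411) (nat_lit 5) (nat_lit 431) (nat_lit 5) (nat_lit 426) (nat_lit 406) (nat_lit 308))) (XT.nd (nat_lit 78) (nat_lit 0) (nat_lit 0) (XT.lf (nat_lit 0) (nat_lit 4705986337) (nat_lit 1444) (nat_lit 3600361442) (nat_lit 1520) (nat_lit 841153251) (nat_lit 412) (nat_lit 5) (nat_lit 431) (nat_lit 5) (nat_lit 432) (nat_lit 5) (nat_lit 427) (nat_lit 406) (nat_lit 307)) (XT.lf (nat_lit 76) (nat_lit 892423551) (nat_lit 0) (nat_lit 5186486028) (nat_lit 1520) (nat_lit 3151483519) (nat_lit 413) (nat_lit 5) (nat_lit 412) (nat_lit 5) (nat_lit 432) (nat_lit 5) (nat_lit 428) (nat_lit 406) (nat_lit 306)))))) (XT.nd (nat_lit 546) (nat_lit 4408) (nat_lit 0) (XT.nd (nat_lit 234) (nat_lit 3116) (nat_lit 0) (XT.nd (nat_lit 78) (nat_lit 1444) (nat_lit 0) (XT.lf (nat_lit 76) (nat_lit 5506394733) (nat_lit 0) (nat_lit 1974597069) (nat_lit 1520) (nat_lit 1833941954) (nat_lit 413) (nat_lit 5) (nat_lit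 412) (nat_lit 5) (nat_lit 432) (nat_lit 5) (nat_lit 429) (nat_lit 406) (nat_lit 305)) (XT.nd (nat_lit 78) (nat_lit 76) (nat_lit 0) (XT.lf (nat_lit 0) (nat_lit 795840155) (nat_lit 1444) (nat_lit 8106905358) (nat_lit 1520) (nat_lit 498611395) (nat_lit 394) (nat_lit 5) (nat_lit 413) (nat_lit 5) (nat_lit 414) (nat_lit 5) (nat_lit 430) (nat_lit 406) (nat_lit 304)) (XT.lf (nat_lit 0) (nat_lit 869067911) (nat_lit 1520) (nat_lit 3981741415) (nat_lit 76) (nat_lit 4638271087) (nat_lit 393) (nat_lit 5) (nat_lit 413) (nat_lit 5) (nat_lit 394) (nat_lit 5) (nat_lit 431) (nat_lit 406) (nat_lit 303)))) (XT.nd (nat_lit 156) (nat_lit 1596) (nat_lit 0) (XT.nd (nat_lit 78) (nat_lit 0) (nat_lit 0) (XT.lf (nat_lit 0) (nat_lit 723217278) (nat_lit 1520) (nat_lit 1517499910) (nat_lit 1596) (nat_lit 7338132303) (nat_lit 373) (nat_lit 5) (nat_lit 393) (nat_lit 5) (nat_lit 394) (nat_lit 5) (nat_lit 432) (nat_lit 406) (nat_lit 302))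 (XT.lf (nat_lit 0) (nat_lit 3657840575) (nat_lit 1596) (nat_lit 4123859099) (nat_lit 76) (nat_lit 1888375883) (nat_lit 373) (nat_lit 5) (nat_lit 394) (nat_lit 5) (nat_lit 374) (nat_lit 5) (nat_lit 433) (nat_lit 406) (nat_lit 301))) (XT.nd (nat_lit 78) (nat_lit 0) (nat_lit 0) (XT.lf (nat_lit 0) (nat_lit 683991059) (nat_lit 1596) (nat_lit 4413141559) (nat_lit 1672) (nat_lit 4666138988) (nat_lit 352) (nat_lit 5) (nat_lit 373) (nat_lit 5) (nat_lit 374) (nat_lit 5) (nat_lit 434) (nat_lit 406) (nat_lit 300)) (XT.lf (nat_lit 0) (nat_lit 5626533795) (nat_lit 1596) (nat_lit 945978012) (nat_lit 1672) (nat_lit 3285695299) (nat_lit 352) (nat_lit 5) (nat_lit 373) (nat_lit 5) (nat_lit 374) (nat_lit 5) (nat_lit 435) (nat_lit 406) (nat_lit 299))))) (XT.nd (nat_lit 234) (nat_lit 1672) (nat_lit 0) (XT.nd (nat_lit 78) (nat_lit 1064) (nat_lit 0) (XT.lf (nat_lit 0) (nat_lit 687621245) (nat_lit 1672) (nat_lit 7391107896) (nat_lit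 1748) (nat_lit 1876306698) (nat_lit 330) (nat_lit 5) (nat_lit 352) (nat_lit 5) (nat_lit 353) (nat_lit 5) (nat_lit 436) (nat_lit 406) (nat_lit 298)) (XT.nd (nat_lit 78) (nat_lit 1064) (nat_lit 0) (XT.lf (nat_lit 0) (nat_lit 5738966351) (nat_lit 1672) (nat_lit 3891050002) (nat_lit 1748) (nat_lit 423506600) (nat_lit 330) (nat_lit 5) (nat_lit 352) (nat_lit 5) (nat_lit 353) (nat_lit 5) (nat_lit 437) (nat_lit 406) (nat_lit 297)) (XT.lf (nat_lit 0) (nat_lit 722678273) (nat_lit 988) (nat_lit 307046117) (nat_lit 1064) (nat_lit 9124432799) (nat_lit 316) (nat_lit 5) (nat_lit 329) (nat_lit 5) (nat_lit 330) (nat_lit 5) (nat_lit 438) (nat_lit 406) (nat_lit 296)))) (XT.nd (nat_lit 156) (nat_lit 836) (nat_lit 0) (XT.nd (nat_lit 78) (nat_lit 836) (nat_lit 0) (XT.lf (nat_lit 0) (nat_lit 2538086604) (nat_lit 1064) (nat_lit 4379409159) (nat_lit 76) (nat_lit 3338637134) (nat_lit 316) (nat_lit 5) (nat_lit 330) (nat_lit 5)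 (nat_lit 317) (nat_lit 5) (nat_lit 439) (nat_lit 406) (nat_lit 295)) (XT.lf (nat_lit 0) (nat_lit 764450452) (nat_lit 836) (nat_lit 3300383710) (nat_lit 912) (nat_lit 6295568736) (nat_lit 305) (nat_lit 5) (nat_lit 316) (nat_lit 5) (nat_lit 317) (nat_lit 5) (nat_lit 440) (nat_lit 406) (nat_lit 294))) (XT.nd (nat_lit 78) (nat_lit 836) (nat_lit 0) (XT.lf (nat_lit 0) (nat_lit 5635712922) (nat_lit 912) (nat_lit 4415868776) (nat_lit 76) (nat_lit 414923443) (nat_lit 305) (nat_lit 5) (nat_lit 317) (nat_lit 5) (nat_lit 306) (nat_lit 5) (nat_lit 441) (nat_lit 406) (nat_lit 293)) (XT.lf (nat_lit 0) (nat_lit 839788591) (nat_lit 836) (nat_lit 6407380347) (nat_lit 912) (nat_lit 3327395695) (nat_lit 294) (nat_lit 5) (nat_lit 305) (nat_lit 5) (nat_lit 306) (nat_lit 5) (nat_lit 442) (nat_lit 406) (nat_lit 292))))))))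
noncomputable def xc166 : XT := (XT.nd (nat_lit 2106) (nat_lit 5928) (nat_lit 0) (XT.nd (nat_lit 1014) (nat_lit 4332) (nat_lit 0) (XT.nd (nat_lit 468) (nat_lit 2204) (nat_lit 0) (XT.nd (nat_lit 234) (nat_lit 1444) (nat_lit 0) (XT.nd (nat_lit 78) (nat_lit 836) (nat_lit 0) (XT.lf (nat_lit 0) (nat_lit 6243345322) (nat_lit 836) (nat_lit 2659236962) (nat_lit 912) (nat_lit 1781986503) (nat_lit 294) (nat_lit 5) (nat_lit 305) (nat_lit 5) (nat_lit 306) (nat_lit 5) (nat_lit 443) (nat_lit 406) (nat_lit 291)) (XT.nd (nat_lit 78) (nat_lit 76) (nat_lit 0) (XT.lf (nat_lit 0) (nat_lit 945938346) (nat_lit 760) (nat_lit 9641315596) (nat_lit 836) (nat_lit 209613765) (nat_lit 284) (nat_lit 5) (nat_lit 294) (nat_lit 5) (nat_lit 295) (nat_lit 5) (nat_lit 444) (nat_lit 406) (nat_lit 290)) (XT.lf (nat_lit 0) (nat_lit 1406086033) (nat_lit 836) (nat_lit 4453879153) (nat_lit 76) (nat_lit 5050680077) (nat_lit 283) (nat_lit 5) (nat_lit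 294) (nat_lit 5) (nat_lit 284) (nat_lit 5) (nat_lit 445) (nat_lit 406) (nat_lit 289)))) (XT.nd (nat_lit 78) (nat_lit 684) (nat_lit 0) (XT.lf (nat_lit 0) (nat_lit 1046540008) (nat_lit 760) (nat_lit 1994446345) (nat_lit 836) (nat_lit 7985907102) (nat_lit 273) (nat_lit 5) (nat_lit 283) (nat_lit 5) (nat_lit 284) (nat_lit 5) (nat_lit 446) (nat_lit 406) (nat_lit 288)) (XT.nd (nat_lit 78) (nat_lit 684) (nat_lit 0) (XT.lf (nat_lit 0) (nat_lit 4734443310) (nat_lit 836) (nat_lit 4457528532) (nat_lit 76) (nat_lit 1952993935) (nat_lit 273) (nat_lit 5) (nat_lit 284) (nat_lit 5) (nat_lit 274) (nat_lit 5) (nat_lit 447) (nat_lit 406) (nat_lit 287)) (XT.lf (nat_lit 0) (nat_lit 1160954474) (nat_lit 684) (nat_lit 5305014429) (nat_lit 760) (nat_lit 4799362669) (nat_lit 264) (nat_lit 5) (nat_lit 273) (nat_lit 5) (nat_lit 274) (nat_lit 5) (nat_lit 448) (nat_lit 406) (nat_lit 286))))) (XT.nd (nat_lit 234) (nat_lit 1368) (nat_lit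 0) (XT.nd (nat_lit 78) (nat_lit 836) (nat_lit 0) (XT.lf (nat_lit 0) (nat_lit 6935524466) (nat_lit 684) (nat_lit 1310182438) (nat_lit 760) (nat_lit 3142141844) (nat_lit 264) (nat_lit 5) (nat_lit 273) (nat_lit 5) (nat_lit 274) (nat_lit 5) (nat_lit 449) (nat_lit 406) (nat_lit 285)) (XT.nd (nat_lit 78) (nat_lit 76) (nat_lit 0) (XT.lf (nat_lit 0) (nat_lit 1295094422) (nat_lit 760) (nat_lit 8776290472) (nat_lit 836) (nat_lit 1441239862) (nat_lit 254) (nat_lit 5) (nat_lit 264) (nat_lit 5) (nat_lit 265) (nat_lit 5) (nat_lit 450) (nat_lit 406) (nat_lit 284)) (XT.lf (nat_lit 0) (nat_lit 312654462) (nat_lit 836) (nat_lit 4449093942) (nat_lit 76) (nat_lit 6877668022) (nat_lit 253) (nat_lit 5) (nat_lit 264) (nat_lit 5) (nat_lit 254) (nat_lit 5) (nat_lit 451) (nat_lit 406) (nat_lit 283)))) (XT.nd (nat_lit 156) (nat_lit 684) (nat_lit 0) (XT.nd (nat_lit 78) (nat_lit 0) (nat_lit 0) (XT.lf (nat_lit 0) (nat_lit 1427389166)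 (nat_lit 684) (nat_lit 648611142) (nat_lit 760) (nat_lit 9692694160) (nat_lit 244) (nat_lit 5) (nat_lit 253) (nat_lit 5) (nat_lit 254) (nat_lit 5) (nat_lit 452) (nat_lit 406) (nat_lit 282)) (XT.lf (nat_lit 0) (nat_lit 3912274306) (nat_lit 760) (nat_lit 4458181680) (nat_lit 76) (nat_lit 3529363080) (nat_lit 244) (nat_lit 5) (nat_lit 254) (nat_lit 5) (nat_lit 245) (nat_lit 5) (nat_lit 453) (nat_lit 406) (nat_lit 281))) (XT.nd (nat_lit 78) (nat_lit 0) (nat_lit 0) (XT.lf (nat_lit 0) (nat_lit 1542156721) (nat_lit 684) (nat_lit 4242307214) (nat_lit 760) (nat_lit 6249132364) (nat_lit 235) (nat_lit 5) (nat_lit 244) (nat_lit 5) (nat_lit 245) (nat_lit 5) (nat_lit 454) (nat_lit 406) (nat_lit 280)) (XT.lf (nat_lit 0) (nat_lit 7706663551) (nat_lit 684) (nat_lit 2423354) (nat_lit 760) (nat_lit 4460676049) (nat_lit 235) (nat_lit 5) (nat_lit 244) (nat_lit 5) (nat_lit 245) (nat_lit 5) (nat_lit 455) (nat_lit 406) (nat_lit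 279)))))) (XT.nd (nat_lit 546) (nat_lit 1748) (nat_lit 0) (XT.nd (nat_lit 234) (nat_lit 1216) (nat_lit 0) (XT.nd (nat_lit 78) (nat_lit 760) (nat_lit 0) (XT.lf (nat_lit 0) (nat_lit 1663310536) (nat_lit 608) (nat_lit 8033111025) (nat_lit 684) (nat_lit 2611760398) (nat_lit 227) (nat_lit 5) (nat_lit 235) (nat_lit 5) (nat_lit 236) (nat_lit 5) (nat_lit 456) (nat_lit 406) (nat_lit 278)) (XT.nd (nat_lit 78) (nat_lit 760) (nat_lit 0) (XT.lf (nat_lit 0) (nat_lit 7956589112) (nat_lit 608) (nat_lit 3782418748) (nat_lit 684) (nat_lit 710064526) (nat_lit 227) (nat_lit 5) (nat_lit 235) (nat_lit 5) (nat_lit 236) (nat_lit 5) (nat_lit 457) (nat_lit 406) (nat_lit 277)) (XT.lf (nat_lit 0) (nat_lit 1214536661) (nat_lit 760) (nat_lit 10814081802) (nat_lit 76) (nat_lit 563995137) (nat_lit 217) (nat_lit 5) (nat_lit 227) (nat_lit 5) (nat_lit 218) (nat_lit 5) (nat_lit 458) (nat_lit 406) (nat_lit 276)))) (XT.nd (nat_lit 156) (nat_lit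 608) (nat_lit 0) (XT.nd (nat_lit 78) (nat_lit 608) (nat_lit 0) (XT.lf (nat_lit 0) (nat_lit 3209407815) (nat_lit 760) (nat_lit 4548714955) (nat_lit 76) (nat_lit 4979995664) (nat_lit 217) (nat_lit 5) (nat_lit 227) (nat_lit 5) (nat_lit 218) (nat_lit 5) (nat_lit 459) (nat_lit 406) (nat_lit 275)) (XT.lf (nat_lit 0) (nat_lit 1850339481) (nat_lit 608) (nat_lit 3392008497) (nat_lit 684) (nat_lit 7644234093) (nat_lit 209) (nat_lit 5) (nat_lit 217) (nat_lit 5) (nat_lit 218) (nat_lit 5) (nat_lit 460) (nat_lit 406) (nat_lit 274))) (XT.nd (nat_lit 78) (nat_lit 608) (nat_lit 0) (XT.lf (nat_lit 0) (nat_lit 7339878058) (nat_lit 684) (nat_lit 4621518529) (nat_lit 76) (nat_lit 1076151673) (nat_lit 209) (nat_lit 5) (nat_lit 218) (nat_lit 5) (nat_lit 210) (nat_lit 5) (nat_lit 461) (nat_lit 406) (nat_lit 273)) (XT.lf (nat_lit 0) (nat_lit 1908324770) (nat_lit 608) (nat_lit 7592469277) (nat_lit 684) (nat_lit 3690322686) (nat_lit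 201) (nat_lit 5) (nat_lit 209) (nat_lit 5) (nat_lit 210) (nat_lit 5) (nat_lit 462) (nat_lit 406) (nat_lit 272))))) (XT.nd (nat_lit 234) (nat_lit 1140) (nat_lit 0) (XT.nd (nat_lit 78) (nat_lit 608) (nat_lit 0) (XT.lf (nat_lit 0) (nat_lit 8615774753) (nat_lit 608) (nat_lit 3106909579) (nat_lit 684) (nat_lit 1624728563) (nat_lit 201) (nat_lit 5) (nat_lit 209) (nat_lit 5) (nat_lit 210) (nat_lit 5) (nat_lit 463) (nat_lit 406) (nat_lit 271)) (XT.nd (nat_lit 78) (nat_lit 0) (nat_lit 0) (XT.lf (nat_lit 0) (nat_lit 485092140) (nat_lit 608) (nat_lit 11558846322) (nat_lit 76) (nat_lit 1462660129) (nat_lit 193) (nat_lit 5) (nat_lit 201) (nat_lit 5) (nat_lit 194) (nat_lit 5) (nat_lit 464) (nat_lit 406) (nat_lit 270)) (XT.lf (nat_lit 0) (nat_lit 2654958659) (nat_lit 608) (nat_lit 4890675391) (nat_lit 76) (nat_lit 6122337850) (nat_lit 193) (nat_lit 5) (nat_lit 201) (nat_lit 5) (nat_lit 194) (nat_lit 5) (nat_lit 465)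 (nat_lit 406) (nat_lit 269)))) (XT.nd (nat_lit 156) (nat_lit 532) (nat_lit 0) (XT.nd (nat_lit 78) (nat_lit 0) (nat_lit 0) (XT.lf (nat_lit 0) (nat_lit 1920690447) (nat_lit 608) (nat_lit 2947303007) (nat_lit 684) (nat_lit 8964594369) (nat_lit 185) (nat_lit 5) (nat_lit 193) (nat_lit 5) (nat_lit 194) (nat_lit 5) (nat_lit 466) (nat_lit 406) (nat_lit 268)) (XT.lf (nat_lit 0) (nat_lit 7157074886) (nat_lit 684) (nat_lit 5092297148) (nat_lit 76) (nat_lit 1750498671) (nat_lit 185) (nat_lit 5) (nat_lit 194) (nat_lit 5) (nat_lit 186) (nat_lit 5) (nat_lit 467) (nat_lit 406) (nat_lit 267))) (XT.nd (nat_lit 78) (nat_lit 0) (nat_lit 0) (XT.lf (nat_lit 0) (nat_lit 1853285203) (nat_lit 532) (nat_lit 7657883388) (nat_lit 608) (nat_lit 4658956198) (nat_lit 178) (nat_lit 5) (nat_lit 185) (nat_lit 5) (nat_lit 186) (nat_lit 5) (nat_lit 468) (nat_lit 406) (nat_lit 266)) (XT.lf (nat_lit 0) (nat_lit 8991709128) (nat_lit 532) (nat_lit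 2942629922) (nat_lit 608) (nat_lit 2409014966) (nat_lit 178) (nat_lit 5) (nat_lit 185) (nat_lit 5) (nat_lit 186) (nat_lit 5) (nat_lit 469) (nat_lit 406) (nat_lit 265))))))) (XT.nd (nat_lit 1092) (nat_lit 2356) (nat_lit 0) (XT.nd (nat_lit 546) (nat_lit 1520) (nat_lit 0) (XT.nd (nat_lit 234) (nat_lit 988) (nat_lit 0) (XT.nd (nat_lit 78) (nat_lit 532) (nat_lit 0) (XT.lf (nat_lit 0) (nat_lit 1748634609) (nat_lit 532) (nat_lit 12668856007) (nat_lit 608) (nat_lit 102336620) (nat_lit 171) (nat_lit 5) (nat_lit 178) (nat_lit 5) (nat_lit 179) (nat_lit 5) (nat_lit 470) (nat_lit 406) (nat_lit 264)) (XT.nd (nat_lit 78) (nat_lit 456) (nat_lit 0) (XT.lf (nat_lit 0) (nat_lit 2264690544) (nat_lit 608) (nat_lit 5685086190) (nat_lit 76) (nat_lit 6748895724) (nat_lit 170) (nat_lit 5) (nat_lit 178) (nat_lit 5) (nat_lit 171) (nat_lit 5) (nat_lit 471) (nat_lit 406) (nat_lit 263)) (XT.lf (nat_lit 0) (nat_lit 1547557075) (nat_lit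 456) (nat_lit 3128506252) (nat_lit 532) (nat_lit 10205059422) (nat_lit 164) (nat_lit 5) (nat_lit 170) (nat_lit 5) (nat_lit 171) (nat_lit 5) (nat_lit 472) (nat_lit 406) (nat_lit 262)))) (XT.nd (nat_lit 156) (nat_lit 456) (nat_lit 0) (XT.nd (nat_lit 78) (nat_lit 532) (nat_lit 0) (XT.lf (nat_lit 0) (nat_lit 7174121907) (nat_lit 532) (nat_lit 6091338192) (nat_lit 76) (nat_lit 1801001799) (nat_lit 164) (nat_lit 5) (nat_lit 171) (nat_lit 5) (nat_lit 165) (nat_lit 5) (nat_lit 473) (nat_lit 406) (nat_lit 261)) (XT.lf (nat_lit 0) (nat_lit 1277131798) (nat_lit 532) (nat_lit 8462686279) (nat_lit 608) (nat_lit 5515345065) (nat_lit 157) (nat_lit 5) (nat_lit 164) (nat_lit 5) (nat_lit 165) (nat_lit 5) (nat_lit 474) (nat_lit 406) (nat_lit 260))) (XT.nd (nat_lit 78) (nat_lit 456) (nat_lit 0) (XT.lf (nat_lit 0) (nat_lit 8861003884) (nat_lit 532) (nat_lit 3525494078) (nat_lit 608) (nat_lit 3060555724) (nat_lit 157) (nat_lit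 5) (nat_lit 164) (nat_lit 5) (nat_lit 165) (nat_lit 5) (nat_lit 475) (nat_lit 406) (nat_lit 259)) (XT.lf (nat_lit 0) (nat_lit 941858231) (nat_lit 456) (nat_lit 14149167406) (nat_lit 532) (nat_lit 551666618) (nat_lit 151) (nat_lit 5) (nat_lit 157) (nat_lit 5) (nat_lit 158) (nat_lit 5) (nat_lit 476) (nat_lit 406) (nat_lit 258))))) (XT.nd (nat_lit 234) (nat_lit 988) (nat_lit 0) (XT.nd (nat_lit 78) (nat_lit 456) (nat_lit 0) (XT.lf (nat_lit 0) (nat_lit 2037943548) (nat_lit 532) (nat_lit 7182951077) (nat_lit 76) (nat_lit 6619959057) (nat_lit 150) (nat_lit 5) (nat_lit 157) (nat_lit 5) (nat_lit 151) (nat_lit 5) (nat_lit 477) (nat_lit 406) (nat_lit 257)) (XT.nd (nat_lit 78) (nat_lit 0) (nat_lit 0) (XT.lf (nat_lit 0) (nat_lit 473614551) (nat_lit 456) (nat_lit 4190675987) (nat_lit 532) (nat_lit 11378776250) (nat_lit 144) (nat_lit 5) (nat_lit 150) (nat_lit 5) (nat_lit 151) (nat_lit 5) (nat_lit 478) (nat_lit 406)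 (nat_lit 256)) (XT.lf (nat_lit 0) (nat_lit 7387134851) (nat_lit 532) (nat_lit 7888442279) (nat_lit 76) (nat_lit 972875470) (nat_lit 144) (nat_lit 5) (nat_lit 151) (nat_lit 5) (nat_lit 145) (nat_lit 5) (nat_lit 479) (nat_lit 406) (nat_lit 255)))) (XT.nd (nat_lit 156) (nat_lit 532) (nat_lit 0) (XT.nd (nat_lit 78) (nat_lit 456) (nat_lit 0) (XT.lf (nat_lit 0) (nat_lit 10181743506) (nat_lit 532) (nat_lit 95620984) (nat_lit 76) (nat_lit 6180243187) (nat_lit 144) (nat_lit 5) (nat_lit 151) (nat_lit 5) (nat_lit 145) (nat_lit 5) (nat_lit 480) (nat_lit 406) (nat_lit 254)) (XT.lf (nat_lit 0) (nat_lit 7943456160) (nat_lit 456) (nat_lit 5130121805) (nat_lit 532) (nat_lit 3596548764) (nat_lit 138) (nat_lit 5) (nat_lit 144) (nat_lit 5) (nat_lit 145) (nat_lit 5) (nat_lit 481) (nat_lit 406) (nat_lit 253))) (XT.nd (nat_lit 78) (nat_lit 532) (nat_lit 0) (XT.lf (nat_lit 0) (nat_lit 16014522814) (nat_lit 532) (nat_lit 756932734)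 (nat_lit 76) (nat_lit 115622540) (nat_lit 138) (nat_lit 5) (nat_lit 145) (nat_lit 5) (nat_lit 139) (nat_lit 5) (nat_lit 482) (nat_lit 406) (nat_lit 252)) (XT.lf (nat_lit 0) (nat_lit 1953602583) (nat_lit 532) (nat_lit 9697822809) (nat_lit 76) (nat_lit 5455249083) (nat_lit 131) (nat_lit 5) (nat_lit 138) (nat_lit 5) (nat_lit 132) (nat_lit 5) (nat_lit 483) (nat_lit 406) (nat_lit 251)))))) (XT.nd (nat_lit 546) (nat_lit 1140) (nat_lit 0) (XT.nd (nat_lit 234) (nat_lit 836) (nat_lit 0) (XT.nd (nat_lit 78) (nat_lit 380) (nat_lit 0) (XT.lf (nat_lit 0) (nat_lit 4819806535) (nat_lit 532) (nat_lit 1601814974) (nat_lit 76) (nat_lit 10909028773) (nat_lit 131) (nat_lit 5) (nat_lit 138) (nat_lit 5) (nat_lit 132) (nat_lit 5) (nat_lit 484) (nat_lit 406) (nat_lit 250)) (XT.nd (nat_lit 78) (nat_lit 0) (nat_lit 0) (XT.lf (nat_lit 0) (nat_lit 6731005284) (nat_lit 380) (nat_lit 1046308368) (nat_lit 456) (nat_lit 9781119206)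 (nat_lit 126) (nat_lit 5) (nat_lit 131) (nat_lit 5) (nat_lit 132) (nat_lit 5) (nat_lit 485) (nat_lit 406) (nat_lit 249)) (XT.lf (nat_lit 0) (nat_lit 10823953248) (nat_lit 456) (nat_lit 2580710292) (nat_lit 76) (nat_lit 4385514601) (nat_lit 126) (nat_lit 5) (nat_lit 132) (nat_lit 5) (nat_lit 127) (nat_lit 5) (nat_lit 486) (nat_lit 406) (nat_lit 248)))) (XT.nd (nat_lit 156) (nat_lit 456) (nat_lit 0) (XT.nd (nat_lit 78) (nat_lit 0) (nat_lit 0) (XT.lf (nat_lit 0) (nat_lit 5888025637) (nat_lit 380) (nat_lit 8079204588) (nat_lit 456) (nat_lit 4058620582) (nat_lit 121) (nat_lit 5) (nat_lit 126) (nat_lit 5) (nat_lit 127) (nat_lit 5) (nat_lit 487) (nat_lit 406) (nat_lit 247)) (XT.lf (nat_lit 0) (nat_lit 14547996375) (nat_lit 380) (nat_lit 2633340887) (nat_lit 456) (nat_lit 1084746815) (nat_lit 121) (nat_lit 5) (nat_lit 126) (nat_lit 5) (nat_lit 127) (nat_lit 5) (nat_lit 488) (nat_lit 406) (nat_lit 246))) (XT.nd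 (nat_lit 78) (nat_lit 0) (nat_lit 0) (XT.lf (nat_lit 0) (nat_lit 1964920596) (nat_lit 456) (nat_lit 13620882248) (nat_lit 76) (nat_lit 2924234878) (nat_lit 115) (nat_lit 5) (nat_lit 121) (nat_lit 5) (nat_lit 116) (nat_lit 5) (nat_lit 489) (nat_lit 406) (nat_lit 245)) (XT.lf (nat_lit 0) (nat_lit 5094460951) (nat_lit 456) (nat_lit 5077289267) (nat_lit 76) (nat_lit 8586314800) (nat_lit 115) (nat_lit 5) (nat_lit 121) (nat_lit 5) (nat_lit 116) (nat_lit 5) (nat_lit 490) (nat_lit 406) (nat_lit 244))))) (XT.nd (nat_lit 234) (nat_lit 456) (nat_lit 0) (XT.nd (nat_lit 78) (nat_lit 304) (nat_lit 0) (XT.lf (nat_lit 0) (nat_lit 3672525050) (nat_lit 380) (nat_lit 4628927093) (nat_lit 456) (nat_lit 10709309466) (nat_lit 110) (nat_lit 5) (nat_lit 115) (nat_lit 5) (nat_lit 116) (nat_lit 5) (nat_lit 491) (nat_lit 406) (nat_lit 243)) (XT.nd (nat_lit 78) (nat_lit 304) (nat_lit 0) (XT.lf (nat_lit 0) (nat_lit 11604617579) (nat_lit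 456) (nat_lit 6621440816) (nat_lit 76) (nat_lit 1041818884) (nat_lit 110) (nat_lit 5) (nat_lit 116) (nat_lit 5) (nat_lit 111) (nat_lit 5) (nat_lit 492) (nat_lit 406) (nat_lit 242)) (XT.lf (nat_lit 0) (nat_lit 2255985365) (nat_lit 304) (nat_lit 12754422402) (nat_lit 380) (nat_lit 4519001986) (nat_lit 106) (nat_lit 5) (nat_lit 110) (nat_lit 5) (nat_lit 111) (nat_lit 5) (nat_lit 493) (nat_lit 406) (nat_lit 241)))) (XT.nd (nat_lit 156) (nat_lit 0) (nat_lit 0) (XT.nd (nat_lit 78) (nat_lit 456) (nat_lit 0) (XT.lf (nat_lit 0) (nat_lit 11388160603) (nat_lit 304) (nat_lit 7131935333) (nat_lit 380) (nat_lit 1275366903) (nat_lit 106) (nat_lit 5) (nat_lit 110) (nat_lit 5) (nat_lit 111) (nat_lit 5) (nat_lit 494) (nat_lit 406) (nat_lit 240)) (XT.lf (nat_lit 0) (nat_lit 618627681) (nat_lit 380) (nat_lit 1383321592) (nat_lit 456) (nat_lit 18064719627) (nat_lit 100) (nat_lit 5) (nat_lit 105) (nat_lit 5) (nat_lit 106)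 (nat_lit 5) (nat_lit 495) (nat_lit 406) (nat_lit 239))) (XT.nd (nat_lit 78) (nat_lit 0) (nat_lit 0) (XT.lf (nat_lit 0) (nat_lit 5405149431) (nat_lit 456) (nat_lit 10453534925) (nat_lit 76) (nat_lit 4482903109) (nat_lit 100) (nat_lit 5) (nat_lit 106) (nat_lit 5) (nat_lit 101) (nat_lit 5) (nat_lit 496) (nat_lit 406) (nat_lit 238)) (XT.lf (nat_lit 0) (nat_lit 8877259916) (nat_lit 456) (nat_lit 1300549548) (nat_lit 76) (nat_lit 10444183192) (nat_lit 100) (nat_lit 5) (nat_lit 106) (nat_lit 5) (nat_lit 101) (nat_lit 5) (nat_lit 497) (nat_lit 406) (nat_lit 237))))))))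
noncomputable def xc167 : XT := (XT.nd (nat_lit 52494) (nat_lit 0) (nat_lit 20748) (XT.nd (nat_lit 1014) (nat_lit 1368) (nat_lit 0) (XT.nd (nat_lit 468) (nat_lit 912) (nat_lit 0) (XT.nd (nat_lit 234) (nat_lit 380) (nat_lit 0) (XT.nd (nat_lit 78) (nat_lit 304) (nat_lit 0) (XT.lf (nat_lit 0) (nat_lit 8130113662) (nat_lit 304) (nat_lit 4333333327) (nat_lit 380) (nat_lit 8443671352) (nat_lit 96) (nat_lit 5) (nat_lit 100) (nat_lit 5) (nat_lit 101) (nat_lit 5) (nat_lit 498) (nat_lit 406) (nat_lit 236)) (XT.nd (nat_lit 78) (nat_lit 304) (nat_lit 0) (XT.lf (nat_lit 0) (nat_lit 16132618831) (nat_lit 380) (nat_lit 3453452688) (nat_lit 76) (nat_lit 1611654779) (nat_lit 96) (nat_lit 5) (nat_lit 101) (nat_lit 5) (nat_lit 97) (nat_lit 5) (nat_lit 499) (nat_lit 406) (nat_lit 235)) (XT.lf (nat_lit 0) (nat_lit 6095987388) (nat_lit 304) (nat_lit 13839527793) (nat_lit 380) (nat_lit 1557429294) (nat_lit 92) (nat_lit 5) (nat_lit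 96) (nat_lit 5) (nat_lit 97) (nat_lit 5) (nat_lit 500) (nat_lit 406) (nat_lit 234)))) (XT.nd (nat_lit 78) (nat_lit 304) (nat_lit 0) (XT.lf (nat_lit 0) (nat_lit 2009319277) (nat_lit 380) (nat_lit 5935513409) (nat_lit 76) (nat_lit 13848668370) (nat_lit 91) (nat_lit 5) (nat_lit 96) (nat_lit 5) (nat_lit 92) (nat_lit 5) (nat_lit 501) (nat_lit 406) (nat_lit 233)) (XT.nd (nat_lit 78) (nat_lit 0) (nat_lit 0) (XT.lf (nat_lit 0) (nat_lit 3742291213) (nat_lit 304) (nat_lit 1900816538) (nat_lit 380) (nat_lit 16456428547) (nat_lit 87) (nat_lit 5) (nat_lit 91) (nat_lit 5) (nat_lit 92) (nat_lit 5) (nat_lit 502) (nat_lit 406) (nat_lit 232)) (XT.lf (nat_lit 0) (nat_lit 9409645309) (nat_lit 380) (nat_lit 8756426337) (nat_lit 76) (nat_lit 4244423642) (nat_lit 87) (nat_lit 5) (nat_lit 92) (nat_lit 5) (nat_lit 88) (nat_lit 5) (nat_lit 503) (nat_lit 406) (nat_lit 231))))) (XT.nd (nat_lit 234) (nat_lit 608) (nat_lit 0) (XT.nd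 (nat_lit 78) (nat_lit 0) (nat_lit 0) (XT.lf (nat_lit 0) (nat_lit 1025812485) (nat_lit 304) (nat_lit 12237394556) (nat_lit 380) (nat_lit 9464236970) (nat_lit 83) (nat_lit 5) (nat_lit 87) (nat_lit 5) (nat_lit 88) (nat_lit 5) (nat_lit 504) (nat_lit 406) (nat_lit 230)) (XT.nd (nat_lit 78) (nat_lit 0) (nat_lit 0) (XT.lf (nat_lit 0) (nat_lit 11111005330) (nat_lit 304) (nat_lit 6134114099) (nat_lit 380) (nat_lit 5804591026) (nat_lit 83) (nat_lit 5) (nat_lit 87) (nat_lit 5) (nat_lit 88) (nat_lit 5) (nat_lit 505) (nat_lit 406) (nat_lit 229)) (XT.lf (nat_lit 0) (nat_lit 21299903416) (nat_lit 380) (nat_lit 1992401762) (nat_lit 76) (nat_lit 86256632) (nat_lit 83) (nat_lit 5) (nat_lit 88) (nat_lit 5) (nat_lit 84) (nat_lit 5) (nat_lit 506) (nat_lit 406) (nat_lit 228)))) (XT.nd (nat_lit 156) (nat_lit 304) (nat_lit 0) (XT.nd (nat_lit 78) (nat_lit 0) (nat_lit 0) (XT.lf (nat_lit 0) (nat_lit 1786486891) (nat_lit 304) (nat_lit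 15515217086) (nat_lit 76) (nat_lit 6410321207) (nat_lit 79) (nat_lit 5) (nat_lit 83) (nat_lit 5) (nat_lit 80) (nat_lit 5) (nat_lit 507) (nat_lit 406) (nat_lit 227)) (XT.lf (nat_lit 0) (nat_lit 5707390511) (nat_lit 304) (nat_lit 5460029920) (nat_lit 76) (nat_lit 12884340827) (nat_lit 79) (nat_lit 5) (nat_lit 83) (nat_lit 5) (nat_lit 80) (nat_lit 5) (nat_lit 508) (nat_lit 406) (nat_lit 226))) (XT.nd (nat_lit 78) (nat_lit 0) (nat_lit 0) (XT.lf (nat_lit 0) (nat_lit 4848979073) (nat_lit 304) (nat_lit 4882161052) (nat_lit 380) (nat_lit 14666667296) (nat_lit 75) (nat_lit 5) (nat_lit 79) (nat_lit 5) (nat_lit 80) (nat_lit 5) (nat_lit 509) (nat_lit 406) (nat_lit 225)) (XT.lf (nat_lit 0) (nat_lit 13875161575) (nat_lit 380) (nat_lit 9332954353) (nat_lit 76) (nat_lit 1541866492) (nat_lit 75) (nat_lit 5) (nat_lit 80) (nat_lit 5) (nat_lit 76) (nat_lit 5) (nat_lit 510) (nat_lit 406) (nat_lit 224)))))) (XT.nd (nat_lit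 546) (nat_lit 532) (nat_lit 0) (XT.nd (nat_lit 234) (nat_lit 532) (nat_lit 0) (XT.nd (nat_lit 78) (nat_lit 76) (nat_lit 0) (XT.lf (nat_lit 0) (nat_lit 1058071557) (nat_lit 228) (nat_lit 17076319785) (nat_lit 304) (nat_lit 6974166794) (nat_lit 72) (nat_lit 5) (nat_lit 75) (nat_lit 5) (nat_lit 76) (nat_lit 5) (nat_lit 511) (nat_lit 406) (nat_lit 223)) (XT.nd (nat_lit 78) (nat_lit 76) (nat_lit 0) (XT.lf (nat_lit 0) (nat_lit 11772788928) (nat_lit 228) (nat_lit 10761837509) (nat_lit 304) (nat_lit 2938566212) (nat_lit 72) (nat_lit 5) (nat_lit 75) (nat_lit 5) (nat_lit 76) (nat_lit 5) (nat_lit 512) (nat_lit 406) (nat_lit 222)) (XT.lf (nat_lit 0) (nat_lit 1155577436) (nat_lit 304) (nat_lit 3161489900) (nat_lit 76) (nat_lit 21528037589) (nat_lit 71) (nat_lit 5) (nat_lit 75) (nat_lit 5) (nat_lit 72) (nat_lit 5) (nat_lit 513) (nat_lit 406) (nat_lit 221)))) (XT.nd (nat_lit 156) (nat_lit 228) (nat_lit 0) (XT.nd (nat_lit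 78) (nat_lit 0) (nat_lit 0) (XT.lf (nat_lit 0) (nat_lit 5350514365) (nat_lit 380) (nat_lit 18579421000) (nat_lit 76) (nat_lit 2292969936) (nat_lit 67) (nat_lit 5) (nat_lit 72) (nat_lit 5) (nat_lit 68) (nat_lit 5) (nat_lit 514) (nat_lit 406) (nat_lit 220)) (XT.lf (nat_lit 0) (nat_lit 9672743387) (nat_lit 380) (nat_lit 7939514479) (nat_lit 76) (nat_lit 8995139367) (nat_lit 67) (nat_lit 5) (nat_lit 72) (nat_lit 5) (nat_lit 68) (nat_lit 5) (nat_lit 515) (nat_lit 406) (nat_lit 219))) (XT.nd (nat_lit 78) (nat_lit 0) (nat_lit 0) (XT.lf (nat_lit 0) (nat_lit 2941613522) (nat_lit 228) (nat_lit 11152478593) (nat_lit 304) (nat_lit 12905236737) (nat_lit 64) (nat_lit 5) (nat_lit 67) (nat_lit 5) (nat_lit 68) (nat_lit 5) (nat_lit 516) (nat_lit 406) (nat_lit 218)) (XT.lf (nat_lit 0) (nat_lit 14137896672) (nat_lit 228) (nat_lit 4512886137) (nat_lit 304) (nat_lit 8747381281) (nat_lit 64) (nat_lit 5) (nat_lit 67) (nat_lit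 5) (nat_lit 68) (nat_lit 5) (nat_lit 517) (nat_lit 406) (nat_lit 217))))) (XT.nd (nat_lit 234) (nat_lit 228) (nat_lit 0) (XT.nd (nat_lit 78) (nat_lit 304) (nat_lit 0) (XT.lf (nat_lit 0) (nat_lit 23307015199) (nat_lit 304) (nat_lit 2271536766) (nat_lit 76) (nat_lit 2226259130) (nat_lit 64) (nat_lit 5) (nat_lit 68) (nat_lit 5) (nat_lit 65) (nat_lit 5) (nat_lit 518) (nat_lit 406) (nat_lit 216)) (XT.nd (nat_lit 78) (nat_lit 76) (nat_lit 0) (XT.lf (nat_lit 0) (nat_lit 9015521970) (nat_lit 228) (nat_lit 19123132188) (nat_lit 304) (nat_lit 79294401) (nat_lit 61) (nat_lit 5) (nat_lit 64) (nat_lit 5) (nat_lit 65) (nat_lit 5) (nat_lit 519) (nat_lit 406) (nat_lit 215)) (XT.lf (nat_lit 0) (nat_lit 4378727156) (nat_lit 304) (nat_lit 8118598488) (nat_lit 76) (nat_lit 16141266859) (nat_lit 60) (nat_lit 5) (nat_lit 64) (nat_lit 5) (nat_lit 61) (nat_lit 5) (nat_lit 520) (nat_lit 406) (nat_lit 214)))) (XT.nd (nat_lit 50544)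 (nat_lit 0) (nat_lit 30552) (XT.nd (nat_lit 50466) (nat_lit 0) (nat_lit 30552) (XT.lf (nat_lit 0) (nat_lit 3218970954) (nat_lit 228) (nat_lit 5720771584) (nat_lit 304) (nat_lit 20127601376) (nat_lit 57) (nat_lit 5) (nat_lit 60) (nat_lit 5) (nat_lit 61) (nat_lit 5) (nat_lit 521) (nat_lit 406) (nat_lit 213)) (XT.lf (nat_lit 0) (nat_lit 2691767136) (nat_lit 1292) (nat_lit 620888303) (nat_lit 1292) (nat_lit 620888303) (nat_lit 459) (nat_lit 3) (nat_lit 476) (nat_lit 3) (nat_lit 476) (nat_lit 5) (nat_lit 407) (nat_lit 407) (nat_lit 326))) (XT.nd (nat_lit 78) (nat_lit 0) (nat_lit 0) (XT.lf (nat_lit 76) (nat_lit 2311393913) (nat_lit 0) (nat_lit 4324102315) (nat_lit 1292) (nat_lit 1284840225) (nat_lit 460) (nat_lit 5) (nat_lit 459) (nat_lit 3) (nat_lit 476) (nat_lit 5) (nat_lit 408) (nat_lit 407) (nat_lit 325)) (XT.lf (nat_lit 76) (nat_lit 5936403563) (nat_lit 0) (nat_lit 1953288934) (nat_lit 1292) (nat_lit 85452281)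 (nat_lit 460) (nat_lit 5) (nat_lit 459) (nat_lit 3) (nat_lit 476) (nat_lit 5) (nat_lit 409) (nat_lit 407) (nat_lit 324))))))) (XT.nd (nat_lit 1092) (nat_lit 6080) (nat_lit 0) (XT.nd (nat_lit 546) (nat_lit 1216) (nat_lit 0) (XT.nd (nat_lit 234) (nat_lit 1292) (nat_lit 0) (XT.nd (nat_lit 78) (nat_lit 0) (nat_lit 0) (XT.lf (nat_lit 0) (nat_lit 1105853940) (nat_lit 1292) (nat_lit 6434300746) (nat_lit 1368) (nat_lit 491126520) (nat_lit 443) (nat_lit 5) (nat_lit 460) (nat_lit 5) (nat_lit 461) (nat_lit 5) (nat_lit 410) (nat_lit 407) (nat_lit 323)) (XT.nd (nat_lit 78) (nat_lit 0) (nat_lit 0) (XT.lf (nat_lit 0) (nat_lit 2316374872) (nat_lit 1292) (nat_lit 2785621451) (nat_lit 1368) (nat_lit 2986638161) (nat_lit 443) (nat_lit 5) (nat_lit 460) (nat_lit 5) (nat_lit 461) (nat_lit 5) (nat_lit 411) (nat_lit 407) (nat_lit 322)) (XT.lf (nat_lit 76) (nat_lit 931766667) (nat_lit 0) (nat_lit 2595805284) (nat_lit 1368) (nat_lit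 4620068926) (nat_lit 444) (nat_lit 5) (nat_lit 443) (nat_lit 5) (nat_lit 461) (nat_lit 5) (nat_lit 412) (nat_lit 407) (nat_lit 321)))) (XT.nd (nat_lit 156) (nat_lit 1292) (nat_lit 0) (XT.nd (nat_lit 78) (nat_lit 0) (nat_lit 76) (XT.lf (nat_lit 76) (nat_lit 4744885785) (nat_lit 0) (nat_lit 7690004) (nat_lit 1368) (nat_lit 3455494624) (nat_lit 444) (nat_lit 5) (nat_lit 443) (nat_lit 5) (nat_lit 461) (nat_lit 5) (nat_lit 413) (nat_lit 407) (nat_lit 320)) (XT.lf (nat_lit 76) (nat_lit 335122713) (nat_lit 0) (nat_lit 5657764411) (nat_lit 1368) (nat_lit 2277039259) (nat_lit 445) (nat_lit 5) (nat_lit 444) (nat_lit 5) (nat_lit 462) (nat_lit 5) (nat_lit 414) (nat_lit 407) (nat_lit 319))) (XT.nd (nat_lit 78) (nat_lit 1368) (nat_lit 0) (XT.lf (nat_lit 76) (nat_lit 4239657798) (nat_lit 0) (nat_lit 3013628968) (nat_lit 1368) (nat_lit 1079860389) (nat_lit 445) (nat_lit 5) (nat_lit 444) (nat_lit 5) (nat_lit 462) (nat_lit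 5) (nat_lit 415) (nat_lit 407) (nat_lit 318)) (XT.lf (nat_lit 0) (nat_lit 111736170) (nat_lit 1368) (nat_lit 192970795) (nat_lit 1444) (nat_lit 8093492529) (nat_lit 426) (nat_lit 5) (nat_lit 444) (nat_lit 5) (nat_lit 445) (nat_lit 5) (nat_lit 416) (nat_lit 407) (nat_lit 317))))) (XT.nd (nat_lit 234) (nat_lit 1292) (nat_lit 0) (XT.nd (nat_lit 78) (nat_lit 0) (nat_lit 0) (XT.lf (nat_lit 0) (nat_lit 1326581048) (nat_lit 1368) (nat_lit 4668706661) (nat_lit 1444) (nat_lit 2468876303) (nat_lit 427) (nat_lit 5) (nat_lit 445) (nat_lit 5) (nat_lit 446) (nat_lit 5) (nat_lit 417) (nat_lit 407) (nat_lit 316)) (XT.nd (nat_lit 78) (nat_lit 0) (nat_lit 0) (XT.lf (nat_lit 0) (nat_lit 2542407752) (nat_lit 1368) (nat_lit 684080792) (nat_lit 1444) (nat_lit 5305456365) (nat_lit 427) (nat_lit 5) (nat_lit 445) (nat_lit 5) (nat_lit 446) (nat_lit 5) (nat_lit 418) (nat_lit 407) (nat_lit 315)) (XT.lf (nat_lit 76) (nat_lit 3408368172)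 (nat_lit 0) (nat_lit 370197979) (nat_lit 1444) (nat_lit 4822625153) (nat_lit 428) (nat_lit 5) (nat_lit 427) (nat_lit 5) (nat_lit 446) (nat_lit 5) (nat_lit 419) (nat_lit 407) (nat_lit 314)))) (XT.nd (nat_lit 156) (nat_lit 1368) (nat_lit 0) (XT.nd (nat_lit 78) (nat_lit 0) (nat_lit 0) (XT.lf (nat_lit 0) (nat_lit 5034931898) (nat_lit 1368) (nat_lit 1113400044) (nat_lit 1444) (nat_lit 2523610592) (nat_lit 428) (nat_lit 5) (nat_lit 446) (nat_lit 5) (nat_lit 447) (nat_lit 5) (nat_lit 420) (nat_lit 407) (nat_lit 313)) (XT.lf (nat_lit 76) (nat_lit 3068675130) (nat_lit 0) (nat_lit 3244979246) (nat_lit 1444) (nat_lit 2430538837) (nat_lit 429) (nat_lit 5) (nat_lit 428) (nat_lit 5) (nat_lit 447) (nat_lit 5) (nat_lit 421) (nat_lit 407) (nat_lit 312))) (XT.nd (nat_lit 78) (nat_lit 1368) (nat_lit 0) (XT.lf (nat_lit 76) (nat_lit 7332863352) (nat_lit 0) (nat_lit 267798497) (nat_lit 1444) (nat_lit 1217601287) (nat_lit 429)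 (nat_lit 5) (nat_lit 428) (nat_lit 5) (nat_lit 447) (nat_lit 5) (nat_lit 422) (nat_lit 407) (nat_lit 311)) (XT.lf (nat_lit 0) (nat_lit 31259521) (nat_lit 1444) (nat_lit 6103532612) (nat_lit 1520) (nat_lit 2758808689) (nat_lit 410) (nat_lit 5) (nat_lit 429) (nat_lit 5) (nat_lit 430) (nat_lit 5) (nat_lit 423) (nat_lit 407) (nat_lit 310)))))) (XT.nd (nat_lit 546) (nat_lit 6080) (nat_lit 0) (XT.nd (nat_lit 234) (nat_lit 0) (nat_lit 76) (XT.nd (nat_lit 78) (nat_lit 0) (nat_lit 76) (XT.lf (nat_lit 0) (nat_lit 1276574050) (nat_lit 1444) (nat_lit 1826064037) (nat_lit 1520) (nat_lit 5867917406) (nat_lit 410) (nat_lit 5) (nat_lit 429) (nat_lit 5) (nat_lit 430) (nat_lit 5) (nat_lit 424) (nat_lit 407) (nat_lit 309)) (XT.nd (nat_lit 78) (nat_lit 0) (nat_lit 0) (XT.lf (nat_lit 0) (nat_lit 2539894257) (nat_lit 1444) (nat_lit 6495619900) (nat_lit 1520) (nat_lit 13699389) (nat_lit 411) (nat_lit 5) (nat_lit 430) (nat_lit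 5) (nat_lit 431) (nat_lit 5) (nat_lit 425) (nat_lit 407) (nat_lit 308)) (XT.lf (nat_lit 0) (nat_lit 3838188889) (nat_lit 1444) (nat_lit 2121413691) (nat_lit 1520) (nat_lit 3169673782) (nat_lit 411) (nat_lit 5) (nat_lit 430) (nat_lit 5) (nat_lit 431) (nat_lit 5) (nat_lit 426) (nat_lit 407) (nat_lit 307)))) (XT.nd (nat_lit 156) (nat_lit 0) (nat_lit 76) (XT.nd (nat_lit 78) (nat_lit 0) (nat_lit 76) (XT.lf (nat_lit 76) (nat_lit 2354307884) (nat_lit 0) (nat_lit 2800707400) (nat_lit 1520) (nat_lit 4056099087) (nat_lit 412) (nat_lit 5) (nat_lit 411) (nat_lit 5) (nat_lit 431) (nat_lit 5) (nat_lit 427) (nat_lit 407) (nat_lit 306)) (XT.lf (nat_lit 0) (nat_lit 6492897720) (nat_lit 1444) (nat_lit 2366078468) (nat_lit 1520) (nat_lit 435743325) (nat_lit 412) (nat_lit 5) (nat_lit 431) (nat_lit 5) (nat_lit 432) (nat_lit 5) (nat_lit 428) (nat_lit 407) (nat_lit 305))) (XT.nd (nat_lit 78) (nat_lit 0) (nat_lit 0) (XT.lf (nat_lit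 76) (nat_lit 2207968211) (nat_lit 0) (nat_lit 5660544727) (nat_lit 1520) (nat_lit 1511288592) (nat_lit 413) (nat_lit 5) (nat_lit 412) (nat_lit 5) (nat_lit 432) (nat_lit 5) (nat_lit 429) (nat_lit 407) (nat_lit 304)) (XT.lf (nat_lit 76) (nat_lit 6888773794) (nat_lit 0) (nat_lit 2377156636) (nat_lit 1520) (nat_lit 200792757) (nat_lit 413) (nat_lit 5) (nat_lit 412) (nat_lit 5) (nat_lit 432) (nat_lit 5) (nat_lit 430) (nat_lit 407) (nat_lit 303))))) (XT.nd (nat_lit 234) (nat_lit 3268) (nat_lit 0) (XT.nd (nat_lit 78) (nat_lit 1520) (nat_lit 0) (XT.lf (nat_lit 0) (nat_lit 1119875472) (nat_lit 1520) (nat_lit 7450534373) (nat_lit 76) (nat_lit 984871602) (nat_lit 393) (nat_lit 5) (nat_lit 413) (nat_lit 5) (nat_lit 394) (nat_lit 5) (nat_lit 431) (nat_lit 407) (nat_lit 302)) (XT.nd (nat_lit 78) (nat_lit 1520) (nat_lit 0) (XT.lf (nat_lit 0) (nat_lit 2476438416) (nat_lit 1520) (nat_lit 2763542270) (nat_lit 76) (nat_lit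 4405382669) (nat_lit 393) (nat_lit 5) (nat_lit 413) (nat_lit 5) (nat_lit 394) (nat_lit 5) (nat_lit 432) (nat_lit 407) (nat_lit 301)) (XT.lf (nat_lit 0) (nat_lit 2026977216) (nat_lit 1520) (nat_lit 1825738167) (nat_lit 1596) (nat_lit 5884701849) (nat_lit 373) (nat_lit 5) (nat_lit 393) (nat_lit 5) (nat_lit 394) (nat_lit 5) (nat_lit 433) (nat_lit 407) (nat_lit 300)))) (XT.nd (nat_lit 156) (nat_lit 1672) (nat_lit 0) (XT.nd (nat_lit 78) (nat_lit 1596) (nat_lit 0) (XT.lf (nat_lit 0) (nat_lit 5265683284) (nat_lit 1596) (nat_lit 2908190127) (nat_lit 76) (nat_lit 1657277024) (nat_lit 373) (nat_lit 5) (nat_lit 394) (nat_lit 5) (nat_lit 374) (nat_lit 5) (nat_lit 434) (nat_lit 407) (nat_lit 299)) (XT.lf (nat_lit 0) (nat_lit 1987276598) (nat_lit 1596) (nat_lit 4724765665) (nat_lit 1672) (nat_lit 3214634539) (nat_lit 352) (nat_lit 5) (nat_lit 373) (nat_lit 5) (nat_lit 374) (nat_lit 5) (nat_lit 435) (nat_lit 407) (nat_lit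 298))) (XT.nd (nat_lit 78) (nat_lit 1672) (nat_lit 0) (XT.lf (nat_lit 0) (nat_lit 7003383803) (nat_lit 1596) (nat_lit 1183879215) (nat_lit 1672) (nat_lit 1836872705) (nat_lit 352) (nat_lit 5) (nat_lit 373) (nat_lit 5) (nat_lit 374) (nat_lit 5) (nat_lit 436) (nat_lit 407) (nat_lit 297)) (XT.lf (nat_lit 0) (nat_lit 1989817560) (nat_lit 1672) (nat_lit 7711674341) (nat_lit 1748) (nat_lit 421882159) (nat_lit 330) (nat_lit 5) (nat_lit 352) (nat_lit 5) (nat_lit 353) (nat_lit 5) (nat_lit 437) (nat_lit 407) (nat_lit 296))))))))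
noncomputable def xc168 : XT := (XT.nd (nat_lit 2106) (nat_lit 6536) (nat_lit 0) (XT.nd (nat_lit 1014) (nat_lit 4788) (nat_lit 0) (XT.nd (nat_lit 468) (nat_lit 2280) (nat_lit 0) (XT.nd (nat_lit 234) (nat_lit 1672) (nat_lit 0) (XT.nd (nat_lit 78) (nat_lit 988) (nat_lit 0) (XT.lf (nat_lit 0) (nat_lit 1017201926) (nat_lit 1748) (nat_lit 3114200259) (nat_lit 76) (nat_lit 6092898076) (nat_lit 329) (nat_lit 5) (nat_lit 352) (nat_lit 5) (nat_lit 330) (nat_lit 5) (nat_lit 438) (nat_lit 407) (nat_lit 295)) (XT.nd (nat_lit 78) (nat_lit 0) (nat_lit 0) (XT.lf (nat_lit 0) (nat_lit 2012528301) (nat_lit 988) (nat_lit 461280323) (nat_lit 1064) (nat_lit 7853511932) (nat_lit 316) (nat_lit 5) (nat_lit 329) (nat_lit 5) (nat_lit 330) (nat_lit 5) (nat_lit 439) (nat_lit 407) (nat_lit 294)) (XT.lf (nat_lit 0) (nat_lit 3983483852) (nat_lit 1064) (nat_lit 3186332873) (nat_lit 76) (nat_lit 3262124569) (nat_lit 316) (nat_lit 5)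 (nat_lit 330) (nat_lit 5) (nat_lit 317) (nat_lit 5) (nat_lit 440) (nat_lit 407) (nat_lit 293)))) (XT.nd (nat_lit 78) (nat_lit 836) (nat_lit 0) (XT.lf (nat_lit 0) (nat_lit 2051978506) (nat_lit 836) (nat_lit 3469702281) (nat_lit 912) (nat_lit 5017025494) (nat_lit 305) (nat_lit 5) (nat_lit 316) (nat_lit 5) (nat_lit 317) (nat_lit 5) (nat_lit 441) (nat_lit 407) (nat_lit 292)) (XT.nd (nat_lit 78) (nat_lit 836) (nat_lit 0) (XT.lf (nat_lit 0) (nat_lit 7096347943) (nat_lit 912) (nat_lit 3227897443) (nat_lit 76) (nat_lit 323265093) (nat_lit 305) (nat_lit 5) (nat_lit 317) (nat_lit 5) (nat_lit 306) (nat_lit 5) (nat_lit 442) (nat_lit 407) (nat_lit 291)) (XT.lf (nat_lit 0) (nat_lit 2124476436) (nat_lit 836) (nat_lit 6597358822) (nat_lit 912) (nat_lit 2036286651) (nat_lit 294) (nat_lit 5) (nat_lit 305) (nat_lit 5) (nat_lit 306) (nat_lit 5) (nat_lit 443) (nat_lit 407) (nat_lit 290))))) (XT.nd (nat_lit 234) (nat_lit 1444)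 (nat_lit 0) (XT.nd (nat_lit 78) (nat_lit 836) (nat_lit 0) (XT.lf (nat_lit 0) (nat_lit 7611243672) (nat_lit 836) (nat_lit 2773040199) (nat_lit 912) (nat_lit 486590000) (nat_lit 294) (nat_lit 5) (nat_lit 305) (nat_lit 5) (nat_lit 306) (nat_lit 5) (nat_lit 444) (nat_lit 407) (nat_lit 289)) (XT.nd (nat_lit 78) (nat_lit 0) (nat_lit 0) (XT.lf (nat_lit 0) (nat_lit 1084683593) (nat_lit 836) (nat_lit 8765627794) (nat_lit 76) (nat_lit 1135345431) (nat_lit 283) (nat_lit 5) (nat_lit 294) (nat_lit 5) (nat_lit 284) (nat_lit 5) (nat_lit 445) (nat_lit 407) (nat_lit 288)) (XT.lf (nat_lit 0) (nat_lit 2704487685) (nat_lit 836) (nat_lit 3287141065) (nat_lit 76) (nat_lit 5110586275) (nat_lit 283) (nat_lit 5) (nat_lit 294) (nat_lit 5) (nat_lit 284) (nat_lit 5) (nat_lit 446) (nat_lit 407) (nat_lit 287)))) (XT.nd (nat_lit 156) (nat_lit 684) (nat_lit 0) (XT.nd (nat_lit 78) (nat_lit 0) (nat_lit 0) (XT.lf (nat_lit 0) (nat_lit 2315024534)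 (nat_lit 760) (nat_lit 2040253974) (nat_lit 836) (nat_lit 6865870089) (nat_lit 273) (nat_lit 5) (nat_lit 283) (nat_lit 5) (nat_lit 284) (nat_lit 5) (nat_lit 447) (nat_lit 407) (nat_lit 286)) (XT.lf (nat_lit 0) (nat_lit 6057989039) (nat_lit 836) (nat_lit 3297782160) (nat_lit 76) (nat_lit 1986327268) (nat_lit 273) (nat_lit 5) (nat_lit 284) (nat_lit 5) (nat_lit 274) (nat_lit 5) (nat_lit 448) (nat_lit 407) (nat_lit 285))) (XT.nd (nat_lit 78) (nat_lit 0) (nat_lit 0) (XT.lf (nat_lit 0) (nat_lit 2424854079) (nat_lit 684) (nat_lit 5383251153) (nat_lit 760) (nat_lit 3657110467) (nat_lit 264) (nat_lit 5) (nat_lit 273) (nat_lit 5) (nat_lit 274) (nat_lit 5) (nat_lit 449) (nat_lit 407) (nat_lit 284)) (XT.lf (nat_lit 0) (nat_lit 8290588402) (nat_lit 684) (nat_lit 1309068866) (nat_lit 760) (nat_lit 1991024430) (nat_lit 264) (nat_lit 5) (nat_lit 273) (nat_lit 5) (nat_lit 274) (nat_lit 5) (nat_lit 450) (nat_lit 407) (nat_lit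 283)))))) (XT.nd (nat_lit 546) (nat_lit 1976) (nat_lit 0) (XT.nd (nat_lit 234) (nat_lit 1292) (nat_lit 0) (XT.nd (nat_lit 78) (nat_lit 760) (nat_lit 0) (XT.lf (nat_lit 0) (nat_lit 2553931288) (nat_lit 760) (nat_lit 8892782009) (nat_lit 836) (nat_lit 271565056) (nat_lit 254) (nat_lit 5) (nat_lit 264) (nat_lit 5) (nat_lit 265) (nat_lit 5) (nat_lit 451) (nat_lit 407) (nat_lit 282)) (XT.nd (nat_lit 78) (nat_lit 684) (nat_lit 0) (XT.lf (nat_lit 0) (nat_lit 1478496831) (nat_lit 836) (nat_lit 3312828350) (nat_lit 76) (nat_lit 7056610431) (nat_lit 253) (nat_lit 5) (nat_lit 264) (nat_lit 5) (nat_lit 254) (nat_lit 5) (nat_lit 452) (nat_lit 407) (nat_lit 281)) (XT.lf (nat_lit 0) (nat_lit 2673123581) (nat_lit 684) (nat_lit 589151750) (nat_lit 760) (nat_lit 8717841693) (nat_lit 244) (nat_lit 5) (nat_lit 253) (nat_lit 5) (nat_lit 254) (nat_lit 5) (nat_lit 453) (nat_lit 407) (nat_lit 280)))) (XT.nd (nat_lit 156) (nat_lit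 608) (nat_lit 0) (XT.nd (nat_lit 78) (nat_lit 684) (nat_lit 0) (XT.lf (nat_lit 0) (nat_lit 5113289686) (nat_lit 760) (nat_lit 3331004440) (nat_lit 76) (nat_lit 3670030402) (nat_lit 244) (nat_lit 5) (nat_lit 254) (nat_lit 5) (nat_lit 245) (nat_lit 5) (nat_lit 454) (nat_lit 407) (nat_lit 279)) (XT.lf (nat_lit 0) (nat_lit 2781338487) (nat_lit 684) (nat_lit 4227414861) (nat_lit 760) (nat_lit 5242327657) (nat_lit 235) (nat_lit 5) (nat_lit 244) (nat_lit 5) (nat_lit 245) (nat_lit 5) (nat_lit 455) (nat_lit 407) (nat_lit 278))) (XT.nd (nat_lit 78) (nat_lit 608) (nat_lit 0) (XT.lf (nat_lit 0) (nat_lit 8950750342) (nat_lit 760) (nat_lit 3345601928) (nat_lit 76) (nat_lit 94060997) (nat_lit 235) (nat_lit 5) (nat_lit 245) (nat_lit 5) (nat_lit 236) (nat_lit 5) (nat_lit 456) (nat_lit 407) (nat_lit 277)) (XT.lf (nat_lit 0) (nat_lit 2895381060) (nat_lit 608) (nat_lit 8068926627) (nat_lit 684) (nat_lit 1567582962) (nat_lit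 227) (nat_lit 5) (nat_lit 235) (nat_lit 5) (nat_lit 236) (nat_lit 5) (nat_lit 457) (nat_lit 407) (nat_lit 276))))) (XT.nd (nat_lit 234) (nat_lit 1216) (nat_lit 0) (XT.nd (nat_lit 78) (nat_lit 684) (nat_lit 0) (XT.lf (nat_lit 0) (nat_lit 346049722) (nat_lit 684) (nat_lit 3387296579) (nat_lit 76) (nat_lit 8942647343) (nat_lit 226) (nat_lit 5) (nat_lit 235) (nat_lit 5) (nat_lit 227) (nat_lit 5) (nat_lit 458) (nat_lit 407) (nat_lit 275)) (XT.nd (nat_lit 78) (nat_lit 0) (nat_lit 0) (XT.lf (nat_lit 0) (nat_lit 2287396590) (nat_lit 760) (nat_lit 9826862512) (nat_lit 76) (nat_lit 708315871) (nat_lit 217) (nat_lit 5) (nat_lit 227) (nat_lit 5) (nat_lit 218) (nat_lit 5) (nat_lit 459) (nat_lit 407) (nat_lit 274)) (XT.lf (nat_lit 0) (nat_lit 4301604988) (nat_lit 760) (nat_lit 3459786386) (nat_lit 76) (nat_lit 5210027764) (nat_lit 217) (nat_lit 5) (nat_lit 227) (nat_lit 5) (nat_lit 218) (nat_lit 5) (nat_lit 460) (nat_lit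 407) (nat_lit 273)))) (XT.nd (nat_lit 156) (nat_lit 608) (nat_lit 0) (XT.nd (nat_lit 78) (nat_lit 0) (nat_lit 0) (XT.lf (nat_lit 0) (nat_lit 3059486620) (nat_lit 608) (nat_lit 3303170607) (nat_lit 684) (nat_lit 6760463431) (nat_lit 209) (nat_lit 5) (nat_lit 217) (nat_lit 5) (nat_lit 218) (nat_lit 5) (nat_lit 461) (nat_lit 407) (nat_lit 272)) (XT.lf (nat_lit 0) (nat_lit 8483224195) (nat_lit 684) (nat_lit 3545011502) (nat_lit 76) (nat_lit 1249266078) (nat_lit 209) (nat_lit 5) (nat_lit 218) (nat_lit 5) (nat_lit 210) (nat_lit 5) (nat_lit 462) (nat_lit 407) (nat_lit 271))) (XT.nd (nat_lit 78) (nat_lit 0) (nat_lit 0) (XT.lf (nat_lit 0) (nat_lit 3107738285) (nat_lit 608) (nat_lit 7567619636) (nat_lit 684) (nat_lit 2759040698) (nat_lit 201) (nat_lit 5) (nat_lit 209) (nat_lit 5) (nat_lit 210) (nat_lit 5) (nat_lit 463) (nat_lit 407) (nat_lit 270)) (XT.lf (nat_lit 0) (nat_lit 9926567718) (nat_lit 608) (nat_lit 2995813431)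 (nat_lit 684) (nat_lit 671842309) (nat_lit 201) (nat_lit 5) (nat_lit 209) (nat_lit 5) (nat_lit 210) (nat_lit 5) (nat_lit 464) (nat_lit 407) (nat_lit 269))))))) (XT.nd (nat_lit 1014) (nat_lit 2660) (nat_lit 0) (XT.nd (nat_lit 468) (nat_lit 2128) (nat_lit 0) (XT.nd (nat_lit 234) (nat_lit 532) (nat_lit 0) (XT.nd (nat_lit 78) (nat_lit 608) (nat_lit 0) (XT.lf (nat_lit 0) (nat_lit 1456808766) (nat_lit 608) (nat_lit 10626562741) (nat_lit 76) (nat_lit 1673318267) (nat_lit 193) (nat_lit 5) (nat_lit 201) (nat_lit 5) (nat_lit 194) (nat_lit 5) (nat_lit 465) (nat_lit 407) (nat_lit 268)) (XT.nd (nat_lit 78) (nat_lit 608) (nat_lit 0) (XT.lf (nat_lit 0) (nat_lit 3651209581) (nat_lit 608) (nat_lit 3847841342) (nat_lit 76) (nat_lit 6422632583) (nat_lit 193) (nat_lit 5) (nat_lit 201) (nat_lit 5) (nat_lit 194) (nat_lit 5) (nat_lit 466) (nat_lit 407) (nat_lit 267)) (XT.lf (nat_lit 0) (nat_lit 3092247551) (nat_lit 608) (nat_lit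 2805121466) (nat_lit 684) (nat_lit 8192460839) (nat_lit 185) (nat_lit 5) (nat_lit 193) (nat_lit 5) (nat_lit 194) (nat_lit 5) (nat_lit 467) (nat_lit 407) (nat_lit 266)))) (XT.nd (nat_lit 78) (nat_lit 532) (nat_lit 0) (XT.lf (nat_lit 0) (nat_lit 8215237510) (nat_lit 684) (nat_lit 4065469401) (nat_lit 76) (nat_lit 1980106464) (nat_lit 185) (nat_lit 5) (nat_lit 194) (nat_lit 5) (nat_lit 186) (nat_lit 5) (nat_lit 468) (nat_lit 407) (nat_lit 265)) (XT.nd (nat_lit 78) (nat_lit 0) (nat_lit 0) (XT.lf (nat_lit 0) (nat_lit 3011599113) (nat_lit 532) (nat_lit 7594152273) (nat_lit 608) (nat_lit 3828949180) (nat_lit 178) (nat_lit 5) (nat_lit 185) (nat_lit 5) (nat_lit 186) (nat_lit 5) (nat_lit 469) (nat_lit 407) (nat_lit 264)) (XT.lf (nat_lit 0) (nat_lit 10270806258) (nat_lit 532) (nat_lit 2788846459) (nat_lit 608) (nat_lit 1552110812) (nat_lit 178) (nat_lit 5) (nat_lit 185) (nat_lit 5) (nat_lit 186) (nat_lit 5) (nat_lit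 470) (nat_lit 407) (nat_lit 263))))) (XT.nd (nat_lit 234) (nat_lit 1064) (nat_lit 0) (XT.nd (nat_lit 78) (nat_lit 456) (nat_lit 0) (XT.lf (nat_lit 0) (nat_lit 781296247) (nat_lit 608) (nat_lit 11904494255) (nat_lit 76) (nat_lit 2106063744) (nat_lit 170) (nat_lit 5) (nat_lit 178) (nat_lit 5) (nat_lit 171) (nat_lit 5) (nat_lit 471) (nat_lit 407) (nat_lit 262)) (XT.nd (nat_lit 78) (nat_lit 456) (nat_lit 0) (XT.lf (nat_lit 0) (nat_lit 3176955525) (nat_lit 608) (nat_lit 4699332523) (nat_lit 76) (nat_lit 7098335224) (nat_lit 170) (nat_lit 5) (nat_lit 178) (nat_lit 5) (nat_lit 171) (nat_lit 5) (nat_lit 472) (nat_lit 407) (nat_lit 261)) (XT.lf (nat_lit 0) (nat_lit 2670730347) (nat_lit 456) (nat_lit 2955917411) (nat_lit 532) (nat_lit 9534286366) (nat_lit 164) (nat_lit 5) (nat_lit 170) (nat_lit 5) (nat_lit 171) (nat_lit 5) (nat_lit 473) (nat_lit 407) (nat_lit 260)))) (XT.nd (nat_lit 156) (nat_lit 532) (nat_lit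 0) (XT.nd (nat_lit 78) (nat_lit 532) (nat_lit 0) (XT.lf (nat_lit 0) (nat_lit 8159359221) (nat_lit 532) (nat_lit 5126393973) (nat_lit 76) (nat_lit 2064546162) (nat_lit 164) (nat_lit 5) (nat_lit 171) (nat_lit 5) (nat_lit 165) (nat_lit 5) (nat_lit 474) (nat_lit 407) (nat_lit 259)) (XT.lf (nat_lit 0) (nat_lit 2382295608) (nat_lit 532) (nat_lit 8384578326) (nat_lit 608) (nat_lit 4776103474) (nat_lit 157) (nat_lit 5) (nat_lit 164) (nat_lit 5) (nat_lit 165) (nat_lit 5) (nat_lit 475) (nat_lit 407) (nat_lit 258))) (XT.nd (nat_lit 78) (nat_lit 532) (nat_lit 0) (XT.lf (nat_lit 0) (nat_lit 10096676093) (nat_lit 532) (nat_lit 3353492510) (nat_lit 608) (nat_lit 2288876160) (nat_lit 157) (nat_lit 5) (nat_lit 164) (nat_lit 5) (nat_lit 165) (nat_lit 5) (nat_lit 476) (nat_lit 407) (nat_lit 257)) (XT.lf (nat_lit 0) (nat_lit 259056019) (nat_lit 532) (nat_lit 13913005054) (nat_lit 76) (nat_lit 1766663901) (nat_lit 150) (nat_lit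 5) (nat_lit 157) (nat_lit 5) (nat_lit 151) (nat_lit 5) (nat_lit 477) (nat_lit 407) (nat_lit 256)))))) (XT.nd (nat_lit 546) (nat_lit 1216) (nat_lit 0) (XT.nd (nat_lit 234) (nat_lit 988) (nat_lit 0) (XT.nd (nat_lit 78) (nat_lit 456) (nat_lit 0) (XT.lf (nat_lit 0) (nat_lit 2877110320) (nat_lit 532) (nat_lit 6269558893) (nat_lit 76) (nat_lit 6994438607) (nat_lit 150) (nat_lit 5) (nat_lit 157) (nat_lit 5) (nat_lit 151) (nat_lit 5) (nat_lit 478) (nat_lit 407) (nat_lit 255)) (XT.nd (nat_lit 78) (nat_lit 0) (nat_lit 0) (XT.lf (nat_lit 0) (nat_lit 1533183764) (nat_lit 456) (nat_lit 4013963355) (nat_lit 532) (nat_lit 10800406474) (nat_lit 144) (nat_lit 5) (nat_lit 150) (nat_lit 5) (nat_lit 151) (nat_lit 5) (nat_lit 479) (nat_lit 407) (nat_lit 254)) (XT.lf (nat_lit 0) (nat_lit 8310624880) (nat_lit 532) (nat_lit 7002309219) (nat_lit 76) (nat_lit 1244400925) (nat_lit 144) (nat_lit 5) (nat_lit 151) (nat_lit 5) (nat_lit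 145) (nat_lit 5) (nat_lit 480) (nat_lit 407) (nat_lit 253)))) (XT.nd (nat_lit 156) (nat_lit 532) (nat_lit 0) (XT.nd (nat_lit 78) (nat_lit 0) (nat_lit 0) (XT.lf (nat_lit 0) (nat_lit 938204558) (nat_lit 456) (nat_lit 10213801864) (nat_lit 532) (nat_lit 5618860376) (nat_lit 138) (nat_lit 5) (nat_lit 144) (nat_lit 5) (nat_lit 145) (nat_lit 5) (nat_lit 481) (nat_lit 407) (nat_lit 252)) (XT.lf (nat_lit 0) (nat_lit 9119025410) (nat_lit 456) (nat_lit 4968249323) (nat_lit 532) (nat_lit 2900660543) (nat_lit 138) (nat_lit 5) (nat_lit 144) (nat_lit 5) (nat_lit 145) (nat_lit 5) (nat_lit 482) (nat_lit 407) (nat_lit 251))) (XT.nd (nat_lit 78) (nat_lit 76) (nat_lit 0) (XT.lf (nat_lit 0) (nat_lit 241465044) (nat_lit 456) (nat_lit 16834075149) (nat_lit 532) (nat_lit 133926209) (nat_lit 132) (nat_lit 5) (nat_lit 138) (nat_lit 5) (nat_lit 139) (nat_lit 5) (nat_lit 483) (nat_lit 407) (nat_lit 250)) (XT.lf (nat_lit 0) (nat_lit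 2729220810) (nat_lit 532) (nat_lit 8877750756) (nat_lit 76) (nat_lit 5826587685) (nat_lit 131) (nat_lit 5) (nat_lit 138) (nat_lit 5) (nat_lit 132) (nat_lit 5) (nat_lit 484) (nat_lit 407) (nat_lit 249))))) (XT.nd (nat_lit 234) (nat_lit 836) (nat_lit 0) (XT.nd (nat_lit 78) (nat_lit 380) (nat_lit 0) (XT.lf (nat_lit 0) (nat_lit 5638306759) (nat_lit 532) (nat_lit 639705677) (nat_lit 76) (nat_lit 11384301133) (nat_lit 131) (nat_lit 5) (nat_lit 138) (nat_lit 5) (nat_lit 132) (nat_lit 5) (nat_lit 485) (nat_lit 407) (nat_lit 248)) (XT.nd (nat_lit 78) (nat_lit 0) (nat_lit 0) (XT.lf (nat_lit 0) (nat_lit 7853230555) (nat_lit 380) (nat_lit 793986747) (nat_lit 456) (nat_lit 9247599382) (nat_lit 126) (nat_lit 5) (nat_lit 131) (nat_lit 5) (nat_lit 132) (nat_lit 5) (nat_lit 486) (nat_lit 407) (nat_lit 247)) (XT.lf (nat_lit 0) (nat_lit 11742522002) (nat_lit 456) (nat_lit 1651328527) (nat_lit 76) (nat_lit 4737601455) (nat_lit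 126) (nat_lit 5) (nat_lit 132) (nat_lit 5) (nat_lit 127) (nat_lit 5) (nat_lit 487) (nat_lit 407) (nat_lit 246)))) (XT.nd (nat_lit 156) (nat_lit 456) (nat_lit 0) (XT.nd (nat_lit 78) (nat_lit 0) (nat_lit 0) (XT.lf (nat_lit 0) (nat_lit 6980328199) (nat_lit 380) (nat_lit 7960897229) (nat_lit 456) (nat_lit 3430771025) (nat_lit 121) (nat_lit 5) (nat_lit 126) (nat_lit 5) (nat_lit 127) (nat_lit 5) (nat_lit 488) (nat_lit 407) (nat_lit 245)) (XT.lf (nat_lit 0) (nat_lit 15794389685) (nat_lit 380) (nat_lit 2411604321) (nat_lit 456) (nat_lit 411322175) (nat_lit 121) (nat_lit 5) (nat_lit 126) (nat_lit 5) (nat_lit 127) (nat_lit 5) (nat_lit 489) (nat_lit 407) (nat_lit 244))) (XT.nd (nat_lit 78) (nat_lit 0) (nat_lit 0) (XT.lf (nat_lit 0) (nat_lit 2684812389) (nat_lit 456) (nat_lit 12922429766) (nat_lit 76) (nat_lit 3258933686) (nat_lit 115) (nat_lit 5) (nat_lit 121) (nat_lit 5) (nat_lit 116) (nat_lit 5) (nat_lit 490)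 (nat_lit 407) (nat_lit 243)) (XT.lf (nat_lit 0) (nat_lit 5863598583) (nat_lit 456) (nat_lit 4227001595) (nat_lit 76) (nat_lit 9028839244) (nat_lit 115) (nat_lit 5) (nat_lit 121) (nat_lit 5) (nat_lit 116) (nat_lit 5) (nat_lit 491) (nat_lit 407) (nat_lit 242))))))))
noncomputable def xc169 : XT := (XT.nd (nat_lit 2106) (nat_lit 304) (nat_lit 0) (XT.nd (nat_lit 1014) (nat_lit 1748) (nat_lit 0) (XT.nd (nat_lit 468) (nat_lit 988) (nat_lit 0) (XT.nd (nat_lit 234) (nat_lit 456) (nat_lit 0) (XT.nd (nat_lit 78) (nat_lit 304) (nat_lit 0) (XT.lf (nat_lit 0) (nat_lit 4691546947) (nat_lit 380) (nat_lit 4436238627) (nat_lit 456) (nat_lit 10249551917) (nat_lit 110) (nat_lit 5) (nat_lit 115) (nat_lit 5) (nat_lit 116) (nat_lit 5) (nat_lit 492) (nat_lit 407) (nat_lit 241)) (XT.nd (nat_lit 78) (nat_lit 304) (nat_lit 0) (XT.lf (nat_lit 0) (nat_lit 12485882999) (nat_lit 456) (nat_lit 5815282766) (nat_lit 76) (nat_lit 1338660831)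 (nat_lit 110) (nat_lit 5) (nat_lit 116) (nat_lit 5) (nat_lit 111) (nat_lit 5) (nat_lit 493) (nat_lit 407) (nat_lit 240)) (XT.lf (nat_lit 0) (nat_lit 3233517025) (nat_lit 304) (nat_lit 12719596919) (nat_lit 380) (nat_lit 3953617604) (nat_lit 106) (nat_lit 5) (nat_lit 110) (nat_lit 5) (nat_lit 111) (nat_lit 5) (nat_lit 494) (nat_lit 407) (nat_lit 239)))) (XT.nd (nat_lit 78) (nat_lit 456) (nat_lit 0) (XT.lf (nat_lit 0) (nat_lit 12530053180) (nat_lit 304) (nat_lit 6990344696) (nat_lit 380) (nat_lit 657967946) (nat_lit 106) (nat_lit 5) (nat_lit 110) (nat_lit 5) (nat_lit 111) (nat_lit 5) (nat_lit 495) (nat_lit 407) (nat_lit 238)) (XT.nd (nat_lit 78) (nat_lit 0) (nat_lit 0) (XT.lf (nat_lit 0) (nat_lit 1547889585) (nat_lit 380) (nat_lit 1122085515) (nat_lit 456) (nat_lit 17785075021) (nat_lit 100) (nat_lit 5) (nat_lit 105) (nat_lit 5) (nat_lit 106) (nat_lit 5) (nat_lit 496) (nat_lit 407) (nat_lit 237)) (XT.lf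 (nat_lit 0) (nat_lit 6130764761) (nat_lit 456) (nat_lit 9752835270) (nat_lit 76) (nat_lit 4852084211) (nat_lit 100) (nat_lit 5) (nat_lit 106) (nat_lit 5) (nat_lit 101) (nat_lit 5) (nat_lit 497) (nat_lit 407) (nat_lit 236))))) (XT.nd (nat_lit 234) (nat_lit 684) (nat_lit 0) (XT.nd (nat_lit 78) (nat_lit 304) (nat_lit 0) (XT.lf (nat_lit 0) (nat_lit 9660209370) (nat_lit 456) (nat_lit 434628820) (nat_lit 76) (nat_lit 10927109052) (nat_lit 100) (nat_lit 5) (nat_lit 106) (nat_lit 5) (nat_lit 101) (nat_lit 5) (nat_lit 498) (nat_lit 407) (nat_lit 235)) (XT.nd (nat_lit 78) (nat_lit 0) (nat_lit 0) (XT.lf (nat_lit 0) (nat_lit 9178779682) (nat_lit 304) (nat_lit 4133222744) (nat_lit 380) (nat_lit 8000902765) (nat_lit 96) (nat_lit 5) (nat_lit 100) (nat_lit 5) (nat_lit 101) (nat_lit 5) (nat_lit 499) (nat_lit 407) (nat_lit 234)) (XT.lf (nat_lit 0) (nat_lit 17044632429) (nat_lit 380) (nat_lit 2643543982) (nat_lit 76) (nat_lit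 1921354653) (nat_lit 96) (nat_lit 5) (nat_lit 101) (nat_lit 5) (nat_lit 97) (nat_lit 5) (nat_lit 500) (nat_lit 407) (nat_lit 233)))) (XT.nd (nat_lit 156) (nat_lit 304) (nat_lit 0) (XT.nd (nat_lit 78) (nat_lit 76) (nat_lit 0) (XT.lf (nat_lit 0) (nat_lit 7091102147) (nat_lit 304) (nat_lit 13826597818) (nat_lit 380) (nat_lit 993078483) (nat_lit 92) (nat_lit 5) (nat_lit 96) (nat_lit 5) (nat_lit 97) (nat_lit 5) (nat_lit 501) (nat_lit 407) (nat_lit 232)) (XT.lf (nat_lit 0) (nat_lit 2625671658) (nat_lit 380) (nat_lit 5190151568) (nat_lit 76) (nat_lit 14401682905) (nat_lit 91) (nat_lit 5) (nat_lit 96) (nat_lit 5) (nat_lit 92) (nat_lit 5) (nat_lit 502) (nat_lit 407) (nat_lit 231))) (XT.nd (nat_lit 78) (nat_lit 0) (nat_lit 0) (XT.lf (nat_lit 0) (nat_lit 4675524461) (nat_lit 304) (nat_lit 1650887289) (nat_lit 380) (nat_lit 16203371510) (nat_lit 87) (nat_lit 5) (nat_lit 91) (nat_lit 5) (nat_lit 92) (nat_lit 5) (nat_lit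 503) (nat_lit 407) (nat_lit 230)) (XT.lf (nat_lit 0) (nat_lit 10158927800) (nat_lit 380) (nat_lit 8080317949) (nat_lit 76) (nat_lit 4607909294) (nat_lit 87) (nat_lit 5) (nat_lit 92) (nat_lit 5) (nat_lit 88) (nat_lit 5) (nat_lit 504) (nat_lit 407) (nat_lit 229)))))) (XT.nd (nat_lit 546) (nat_lit 836) (nat_lit 0) (XT.nd (nat_lit 234) (nat_lit 608) (nat_lit 0) (XT.nd (nat_lit 78) (nat_lit 0) (nat_lit 0) (XT.lf (nat_lit 0) (nat_lit 1891965407) (nat_lit 304) (nat_lit 12192084038) (nat_lit 380) (nat_lit 9086509960) (nat_lit 83) (nat_lit 5) (nat_lit 87) (nat_lit 5) (nat_lit 88) (nat_lit 5) (nat_lit 505) (nat_lit 407) (nat_lit 228)) (XT.nd (nat_lit 78) (nat_lit 0) (nat_lit 0) (XT.lf (nat_lit 0) (nat_lit 12162280998) (nat_lit 304) (nat_lit 5972425392) (nat_lit 380) (nat_lit 5364788975) (nat_lit 83) (nat_lit 5) (nat_lit 87) (nat_lit 5) (nat_lit 88) (nat_lit 5) (nat_lit 506) (nat_lit 407) (nat_lit 227)) (XT.lf (nat_lit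 0) (nat_lit 22261716089) (nat_lit 380) (nat_lit 1210270840) (nat_lit 76) (nat_lit 363120405) (nat_lit 83) (nat_lit 5) (nat_lit 88) (nat_lit 5) (nat_lit 84) (nat_lit 5) (nat_lit 507) (nat_lit 407) (nat_lit 226)))) (XT.nd (nat_lit 156) (nat_lit 304) (nat_lit 0) (XT.nd (nat_lit 78) (nat_lit 0) (nat_lit 0) (XT.lf (nat_lit 0) (nat_lit 2356640136) (nat_lit 304) (nat_lit 15001550615) (nat_lit 76) (nat_lit 6817089062) (nat_lit 79) (nat_lit 5) (nat_lit 83) (nat_lit 5) (nat_lit 80) (nat_lit 5) (nat_lit 508) (nat_lit 407) (nat_lit 225)) (XT.lf (nat_lit 0) (nat_lit 6345482936) (nat_lit 304) (nat_lit 4761415996) (nat_lit 76) (nat_lit 13415127086) (nat_lit 79) (nat_lit 5) (nat_lit 83) (nat_lit 5) (nat_lit 80) (nat_lit 5) (nat_lit 509) (nat_lit 407) (nat_lit 224))) (XT.nd (nat_lit 78) (nat_lit 0) (nat_lit 0) (XT.lf (nat_lit 0) (nat_lit 5748458609) (nat_lit 304) (nat_lit 4696185873) (nat_lit 380) (nat_lit 14430455601)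 (nat_lit 75) (nat_lit 5) (nat_lit 79) (nat_lit 5) (nat_lit 80) (nat_lit 5) (nat_lit 510) (nat_lit 407) (nat_lit 223)) (XT.lf (nat_lit 0) (nat_lit 14663177544) (nat_lit 380) (nat_lit 8724199712) (nat_lit 76) (nat_lit 1847114307) (nat_lit 75) (nat_lit 5) (nat_lit 80) (nat_lit 5) (nat_lit 76) (nat_lit 5) (nat_lit 511) (nat_lit 407) (nat_lit 222))))) (XT.nd (nat_lit 234) (nat_lit 532) (nat_lit 0) (XT.nd (nat_lit 78) (nat_lit 76) (nat_lit 0) (XT.lf (nat_lit 0) (nat_lit 1869413731) (nat_lit 228) (nat_lit 17133298498) (nat_lit 304) (nat_lit 6597629651) (nat_lit 72) (nat_lit 5) (nat_lit 75) (nat_lit 5) (nat_lit 76) (nat_lit 5) (nat_lit 512) (nat_lit 407) (nat_lit 221)) (XT.nd (nat_lit 78) (nat_lit 76) (nat_lit 0) (XT.lf (nat_lit 0) (nat_lit 12782931710) (nat_lit 228) (nat_lit 10698105944) (nat_lit 304) (nat_lit 2491435106) (nat_lit 72) (nat_lit 5) (nat_lit 75) (nat_lit 5) (nat_lit 76) (nat_lit 5) (nat_lit 513)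 (nat_lit 407) (nat_lit 220)) (XT.lf (nat_lit 0) (nat_lit 1668166856) (nat_lit 304) (nat_lit 2458458824) (nat_lit 76) (nat_lit 22225332877) (nat_lit 71) (nat_lit 5) (nat_lit 75) (nat_lit 5) (nat_lit 72) (nat_lit 5) (nat_lit 514) (nat_lit 407) (nat_lit 219)))) (XT.nd (nat_lit 156) (nat_lit 228) (nat_lit 0) (XT.nd (nat_lit 78) (nat_lit 0) (nat_lit 0) (XT.lf (nat_lit 0) (nat_lit 5944141814) (nat_lit 380) (nat_lit 18181634004) (nat_lit 76) (nat_lit 2611601412) (nat_lit 67) (nat_lit 5) (nat_lit 72) (nat_lit 5) (nat_lit 68) (nat_lit 5) (nat_lit 515) (nat_lit 407) (nat_lit 218)) (XT.lf (nat_lit 0) (nat_lit 10343273904) (nat_lit 380) (nat_lit 7344015146) (nat_lit 76) (nat_lit 9442465760) (nat_lit 67) (nat_lit 5) (nat_lit 72) (nat_lit 5) (nat_lit 68) (nat_lit 5) (nat_lit 516) (nat_lit 407) (nat_lit 217))) (XT.nd (nat_lit 78) (nat_lit 0) (nat_lit 0) (XT.lf (nat_lit 0) (nat_lit 3749772984) (nat_lit 228) (nat_lit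 11098787328) (nat_lit 304) (nat_lit 12681059415) (nat_lit 64) (nat_lit 5) (nat_lit 67) (nat_lit 5) (nat_lit 68) (nat_lit 5) (nat_lit 517) (nat_lit 407) (nat_lit 216)) (XT.lf (nat_lit 0) (nat_lit 15155289107) (nat_lit 228) (nat_lit 4331829314) (nat_lit 304) (nat_lit 8449503360) (nat_lit 64) (nat_lit 5) (nat_lit 67) (nat_lit 5) (nat_lit 68) (nat_lit 5) (nat_lit 518) (nat_lit 407) (nat_lit 215))))))) (XT.nd (nat_lit 51558) (nat_lit 0) (nat_lit 25232) (XT.nd (nat_lit 51012) (nat_lit 0) (nat_lit 27816) (XT.nd (nat_lit 50700) (nat_lit 0) (nat_lit 29032) (XT.nd (nat_lit 78) (nat_lit 304) (nat_lit 0) (XT.lf (nat_lit 0) (nat_lit 24229117767) (nat_lit 304) (nat_lit 1589145405) (nat_lit 76) (nat_lit 2533290398) (nat_lit 64) (nat_lit 5) (nat_lit 68) (nat_lit 5) (nat_lit 65) (nat_lit 5) (nat_lit 519) (nat_lit 407) (nat_lit 214)) (XT.nd (nat_lit 78) (nat_lit 0) (nat_lit 0) (XT.lf (nat_lit 0) (nat_lit 375115098) (nat_lit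 304) (nat_lit 18856644962) (nat_lit 76) (nat_lit 9541233885) (nat_lit 60) (nat_lit 5) (nat_lit 64) (nat_lit 5) (nat_lit 61) (nat_lit 5) (nat_lit 520) (nat_lit 407) (nat_lit 213)) (XT.lf (nat_lit 0) (nat_lit 4912316041) (nat_lit 304) (nat_lit 7565965525) (nat_lit 76) (nat_lit 16723941523) (nat_lit 60) (nat_lit 5) (nat_lit 64) (nat_lit 5) (nat_lit 61) (nat_lit 5) (nat_lit 521) (nat_lit 407) (nat_lit 212)))) (XT.nd (nat_lit 156) (nat_lit 0) (nat_lit 0) (XT.nd (nat_lit 78) (nat_lit 1292) (nat_lit 0) (XT.lf (nat_lit 0) (nat_lit 3921040393) (nat_lit 1292) (nat_lit 33107782) (nat_lit 1292) (nat_lit 33107782) (nat_lit 459) (nat_lit 3) (nat_lit 476) (nat_lit 3) (nat_lit 476) (nat_lit 5) (nat_lit 408) (nat_lit 408) (nat_lit 324)) (XT.lf (nat_lit 0) (nat_lit 1037293997) (nat_lit 1292) (nat_lit 4486353068) (nat_lit 1368) (nat_lit 2505866233) (nat_lit 442) (nat_lit 5) (nat_lit 459) (nat_lit 3) (nat_lit 460) (nat_lit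 5) (nat_lit 409) (nat_lit 408) (nat_lit 323))) (XT.nd (nat_lit 78) (nat_lit 0) (nat_lit 0) (XT.lf (nat_lit 0) (nat_lit 2198926024) (nat_lit 1292) (nat_lit 876734985) (nat_lit 1368) (nat_lit 5010566550) (nat_lit 442) (nat_lit 5) (nat_lit 459) (nat_lit 3) (nat_lit 460) (nat_lit 5) (nat_lit 410) (nat_lit 408) (nat_lit 322)) (XT.lf (nat_lit 76) (nat_lit 2826587536) (nat_lit 0) (nat_lit 545983377) (nat_lit 1368) (nat_lit 4771764950) (nat_lit 443) (nat_lit 5) (nat_lit 442) (nat_lit 5) (nat_lit 460) (nat_lit 5) (nat_lit 411) (nat_lit 408) (nat_lit 321))))) (XT.nd (nat_lit 234) (nat_lit 1292) (nat_lit 0) (XT.nd (nat_lit 78) (nat_lit 0) (nat_lit 0) (XT.lf (nat_lit 0) (nat_lit 4559815123) (nat_lit 1292) (nat_lit 1617036508) (nat_lit 1368) (nat_lit 2026986848) (nat_lit 443) (nat_lit 5) (nat_lit 460) (nat_lit 5) (nat_lit 461) (nat_lit 5) (nat_lit 412) (nat_lit 408) (nat_lit 320)) (XT.nd (nat_lit 78) (nat_lit 0) (nat_lit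 0) (XT.lf (nat_lit 76) (nat_lit 2166644785) (nat_lit 0) (nat_lit 3593407371) (nat_lit 1368) (nat_lit 2504728022) (nat_lit 444) (nat_lit 5) (nat_lit 443) (nat_lit 5) (nat_lit 461) (nat_lit 5) (nat_lit 413) (nat_lit 408) (nat_lit 319)) (XT.lf (nat_lit 76) (nat_lit 6032178387) (nat_lit 0) (nat_lit 934986924) (nat_lit 1368) (nat_lit 1360151298) (nat_lit 444) (nat_lit 5) (nat_lit 443) (nat_lit 5) (nat_lit 461) (nat_lit 5) (nat_lit 414) (nat_lit 408) (nat_lit 318)))) (XT.nd (nat_lit 156) (nat_lit 0) (nat_lit 0) (XT.nd (nat_lit 78) (nat_lit 1368) (nat_lit 0) (XT.lf (nat_lit 76) (nat_lit 1576975093) (nat_lit 0) (nat_lit 6615866026) (nat_lit 1368) (nat_lit 198406912) (nat_lit 445) (nat_lit 5) (nat_lit 444) (nat_lit 5) (nat_lit 462) (nat_lit 5) (nat_lit 415) (nat_lit 408) (nat_lit 317)) (XT.lf (nat_lit 0) (nat_lit 968198236) (nat_lit 1368) (nat_lit 2927584944) (nat_lit 1444) (nat_lit 4560686898) (nat_lit 426) (nat_lit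 5) (nat_lit 444) (nat_lit 5) (nat_lit 445) (nat_lit 5) (nat_lit 416) (nat_lit 408) (nat_lit 316))) (XT.nd (nat_lit 78) (nat_lit 0) (nat_lit 76) (XT.lf (nat_lit 76) (nat_lit 1033014833) (nat_lit 0) (nat_lit 1102574861) (nat_lit 1444) (nat_lit 6387809211) (nat_lit 427) (nat_lit 5) (nat_lit 426) (nat_lit 5) (nat_lit 445) (nat_lit 5) (nat_lit 417) (nat_lit 408) (nat_lit 315)) (XT.lf (nat_lit 0) (nat_lit 3331329916) (nat_lit 1368) (nat_lit 3506802914) (nat_lit 1444) (nat_lit 1753463643) (nat_lit 427) (nat_lit 5) (nat_lit 445) (nat_lit 5) (nat_lit 446) (nat_lit 5) (nat_lit 418) (nat_lit 408) (nat_lit 314)))))) (XT.nd (nat_lit 546) (nat_lit 1292) (nat_lit 0) (XT.nd (nat_lit 234) (nat_lit 1368) (nat_lit 0) (XT.nd (nat_lit 78) (nat_lit 0) (nat_lit 0) (XT.lf (nat_lit 76) (nat_lit 539984170) (nat_lit 0) (nat_lit 3996206346) (nat_lit 1444) (nat_lit 4125292958) (nat_lit 428) (nat_lit 5) (nat_lit 427) (nat_lit 5) (nat_lit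 446) (nat_lit 5) (nat_lit 419) (nat_lit 408) (nat_lit 313)) (XT.nd (nat_lit 78) (nat_lit 0) (nat_lit 76) (XT.lf (nat_lit 76) (nat_lit 4699103647) (nat_lit 0) (nat_lit 1064372210) (nat_lit 1444) (nat_lit 2969354818) (nat_lit 428) (nat_lit 5) (nat_lit 427) (nat_lit 5) (nat_lit 446) (nat_lit 5) (nat_lit 420) (nat_lit 408) (nat_lit 312)) (XT.lf (nat_lit 76) (nat_lit 108312824) (nat_lit 0) (nat_lit 6895549789) (nat_lit 1444) (nat_lit 1801999535) (nat_lit 429) (nat_lit 5) (nat_lit 428) (nat_lit 5) (nat_lit 447) (nat_lit 5) (nat_lit 421) (nat_lit 408) (nat_lit 311)))) (XT.nd (nat_lit 156) (nat_lit 0) (nat_lit 76) (XT.nd (nat_lit 78) (nat_lit 1444) (nat_lit 0) (XT.lf (nat_lit 76) (nat_lit 4364434221) (nat_lit 0) (nat_lit 3914418318) (nat_lit 1444) (nat_lit 601333688) (nat_lit 429) (nat_lit 5) (nat_lit 428) (nat_lit 5) (nat_lit 447) (nat_lit 5) (nat_lit 422) (nat_lit 408) (nat_lit 310)) (XT.lf (nat_lit 0) (nat_lit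 591186139) (nat_lit 1444) (nat_lit 270686928) (nat_lit 1520) (nat_lit 8094549259) (nat_lit 409) (nat_lit 5) (nat_lit 428) (nat_lit 5) (nat_lit 429) (nat_lit 5) (nat_lit 423) (nat_lit 408) (nat_lit 309))) (XT.nd (nat_lit 78) (nat_lit 0) (nat_lit 0) (XT.lf (nat_lit 0) (nat_lit 1817443396) (nat_lit 1444) (nat_lit 4955963156) (nat_lit 1520) (nat_lit 2260364600) (nat_lit 410) (nat_lit 5) (nat_lit 429) (nat_lit 5) (nat_lit 430) (nat_lit 5) (nat_lit 424) (nat_lit 408) (nat_lit 308)) (XT.lf (nat_lit 0) (nat_lit 3052653261) (nat_lit 1444) (nat_lit 617840113) (nat_lit 1520) (nat_lit 5442510790) (nat_lit 410) (nat_lit 5) (nat_lit 429) (nat_lit 5) (nat_lit 430) (nat_lit 5) (nat_lit 425) (nat_lit 408) (nat_lit 307))))) (XT.nd (nat_lit 234) (nat_lit 1368) (nat_lit 0) (XT.nd (nat_lit 78) (nat_lit 0) (nat_lit 76) (XT.lf (nat_lit 76) (nat_lit 3841315380) (nat_lit 0) (nat_lit 473536639) (nat_lit 1520) (nat_lit 4878949381)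 (nat_lit 411) (nat_lit 5) (nat_lit 410) (nat_lit 5) (nat_lit 430) (nat_lit 5) (nat_lit 426) (nat_lit 408) (nat_lit 306)) (XT.nd (nat_lit 78) (nat_lit 0) (nat_lit 0) (XT.lf (nat_lit 0) (nat_lit 5602291258) (nat_lit 1444) (nat_lit 912743150) (nat_lit 1520) (nat_lit 2761205004) (nat_lit 411) (nat_lit 5) (nat_lit 430) (nat_lit 5) (nat_lit 431) (nat_lit 5) (nat_lit 427) (nat_lit 408) (nat_lit 305)) (XT.lf (nat_lit 76) (nat_lit 3644261944) (nat_lit 0) (nat_lit 3276176690) (nat_lit 1520) (nat_lit 2439812637) (nat_lit 412) (nat_lit 5) (nat_lit 411) (nat_lit 5) (nat_lit 431) (nat_lit 5) (nat_lit 428) (nat_lit 408) (nat_lit 304)))) (XT.nd (nat_lit 156) (nat_lit 0) (nat_lit 0) (XT.nd (nat_lit 78) (nat_lit 1520) (nat_lit 0) (XT.lf (nat_lit 0) (nat_lit 8249814167) (nat_lit 1444) (nat_lit 1157834674) (nat_lit 1520) (nat_lit 38621023) (nat_lit 412) (nat_lit 5) (nat_lit 431) (nat_lit 5) (nat_lit 432) (nat_lit 5) (nat_lit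 429) (nat_lit 408) (nat_lit 303)) (XT.lf (nat_lit 0) (nat_lit 94318502) (nat_lit 1520) (nat_lit 6034752845) (nat_lit 1596) (nat_lit 3404481210) (nat_lit 392) (nat_lit 5) (nat_lit 412) (nat_lit 5) (nat_lit 413) (nat_lit 5) (nat_lit 430) (nat_lit 408) (nat_lit 302))) (XT.nd (nat_lit 78) (nat_lit 0) (nat_lit 76) (XT.lf (nat_lit 0) (nat_lit 1381814380) (nat_lit 1520) (nat_lit 1382581954) (nat_lit 1596) (nat_lit 6858310290) (nat_lit 392) (nat_lit 5) (nat_lit 412) (nat_lit 5) (nat_lit 413) (nat_lit 5) (nat_lit 431) (nat_lit 408) (nat_lit 301)) (XT.lf (nat_lit 0) (nat_lit 2701085870) (nat_lit 1520) (nat_lit 6327158812) (nat_lit 76) (nat_lit 685300564) (nat_lit 393) (nat_lit 5) (nat_lit 413) (nat_lit 5) (nat_lit 394) (nat_lit 5) (nat_lit 432) (nat_lit 408) (nat_lit 300))))))))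
noncomputable def xc170 : XT := (XT.nd (nat_lit 2106) (nat_lit 7600) (nat_lit 0) (XT.nd (nat_lit 1014) (nat_lit 5092) (nat_lit 0) (XT.nd (nat_lit 468) (nat_lit 2736) (nat_lit 0) (XT.nd (nat_lit 234) (nat_lit 3344) (nat_lit 0) (XT.nd (nat_lit 78) (nat_lit 1520) (nat_lit 0) (XT.lf (nat_lit 0) (nat_lit 4054215114) (nat_lit 1520) (nat_lit 1571375616) (nat_lit 76) (nat_lit 4180482018) (nat_lit 393) (nat_lit 5) (nat_lit 413) (nat_lit 5) (nat_lit 394) (nat_lit 5) (nat_lit 433) (nat_lit 408) (nat_lit 299)) (XT.nd (nat_lit 78) (nat_lit 0) (nat_lit 0) (XT.lf (nat_lit 0) (nat_lit 3306747434) (nat_lit 1520) (nat_lit 2129350449) (nat_lit 1596) (nat_lit 4464340234) (nat_lit 373) (nat_lit 5) (nat_lit 393) (nat_lit 5) (nat_lit 394) (nat_lit 5) (nat_lit 434) (nat_lit 408) (nat_lit 298)) (XT.lf (nat_lit 0) (nat_lit 6846089124) (nat_lit 1596) (nat_lit 1718616373) (nat_lit 76) (nat_lit 1431996597) (nat_lit 373) (nat_lit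 5) (nat_lit 394) (nat_lit 5) (nat_lit 374) (nat_lit 5) (nat_lit 435) (nat_lit 408) (nat_lit 297)))) (XT.nd (nat_lit 78) (nat_lit 1748) (nat_lit 0) (XT.lf (nat_lit 0) (nat_lit 3266550887) (nat_lit 1596) (nat_lit 5033948863) (nat_lit 1672) (nat_lit 1794087524) (nat_lit 352) (nat_lit 5) (nat_lit 373) (nat_lit 5) (nat_lit 374) (nat_lit 5) (nat_lit 436) (nat_lit 408) (nat_lit 296)) (XT.nd (nat_lit 78) (nat_lit 1748) (nat_lit 0) (XT.lf (nat_lit 0) (nat_lit 8358675750) (nat_lit 1596) (nat_lit 1418035117) (nat_lit 1672) (nat_lit 417884958) (nat_lit 352) (nat_lit 5) (nat_lit 373) (nat_lit 5) (nat_lit 374) (nat_lit 5) (nat_lit 437) (nat_lit 408) (nat_lit 295)) (XT.lf (nat_lit 0) (nat_lit 990532944) (nat_lit 1748) (nat_lit 7034764301) (nat_lit 76) (nat_lit 2270846013) (nat_lit 329) (nat_lit 5) (nat_lit 352) (nat_lit 5) (nat_lit 330) (nat_lit 5) (nat_lit 438) (nat_lit 408) (nat_lit 294))))) (XT.nd (nat_lit 234) (nat_lit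 1748) (nat_lit 0) (XT.nd (nat_lit 78) (nat_lit 988) (nat_lit 0) (XT.lf (nat_lit 0) (nat_lit 2425005794) (nat_lit 1748) (nat_lit 1942494648) (nat_lit 76) (nat_lit 6032115077) (nat_lit 329) (nat_lit 5) (nat_lit 352) (nat_lit 5) (nat_lit 330) (nat_lit 5) (nat_lit 439) (nat_lit 408) (nat_lit 293)) (XT.nd (nat_lit 78) (nat_lit 0) (nat_lit 0) (XT.lf (nat_lit 0) (nat_lit 3278650130) (nat_lit 988) (nat_lit 612848570) (nat_lit 1064) (nat_lit 6613610312) (nat_lit 316) (nat_lit 5) (nat_lit 329) (nat_lit 5) (nat_lit 330) (nat_lit 5) (nat_lit 440) (nat_lit 408) (nat_lit 292)) (XT.lf (nat_lit 0) (nat_lit 5403633648) (nat_lit 1064) (nat_lit 2019124824) (nat_lit 76) (nat_lit 3189645696) (nat_lit 316) (nat_lit 5) (nat_lit 330) (nat_lit 5) (nat_lit 317) (nat_lit 5) (nat_lit 441) (nat_lit 408) (nat_lit 291)))) (XT.nd (nat_lit 156) (nat_lit 912) (nat_lit 0) (XT.nd (nat_lit 78) (nat_lit 0) (nat_lit 0) (XT.lf (nat_lit 0) (nat_lit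 3315854528) (nat_lit 836) (nat_lit 3638395535) (nat_lit 912) (nat_lit 3767448072) (nat_lit 305) (nat_lit 5) (nat_lit 316) (nat_lit 5) (nat_lit 317) (nat_lit 5) (nat_lit 442) (nat_lit 408) (nat_lit 290)) (XT.lf (nat_lit 0) (nat_lit 8533854259) (nat_lit 912) (nat_lit 2065726529) (nat_lit 76) (nat_lit 233655021) (nat_lit 305) (nat_lit 5) (nat_lit 317) (nat_lit 5) (nat_lit 306) (nat_lit 5) (nat_lit 443) (nat_lit 408) (nat_lit 289))) (XT.nd (nat_lit 78) (nat_lit 76) (nat_lit 0) (XT.lf (nat_lit 0) (nat_lit 3385624242) (nat_lit 836) (nat_lit 6788735899) (nat_lit 912) (nat_lit 772074900) (nat_lit 294) (nat_lit 5) (nat_lit 305) (nat_lit 5) (nat_lit 306) (nat_lit 5) (nat_lit 444) (nat_lit 408) (nat_lit 288)) (XT.lf (nat_lit 0) (nat_lit 772759111) (nat_lit 912) (nat_lit 2108820879) (nat_lit 76) (nat_lit 8180286832) (nat_lit 293) (nat_lit 5) (nat_lit 305) (nat_lit 5) (nat_lit 294) (nat_lit 5) (nat_lit 445) (nat_lit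 408) (nat_lit 287)))))) (XT.nd (nat_lit 546) (nat_lit 2052) (nat_lit 0) (XT.nd (nat_lit 234) (nat_lit 1520) (nat_lit 0) (XT.nd (nat_lit 78) (nat_lit 760) (nat_lit 0) (XT.lf (nat_lit 0) (nat_lit 2351749747) (nat_lit 836) (nat_lit 7709748515) (nat_lit 76) (nat_lit 1117750963) (nat_lit 283) (nat_lit 5) (nat_lit 294) (nat_lit 5) (nat_lit 284) (nat_lit 5) (nat_lit 446) (nat_lit 408) (nat_lit 286)) (XT.nd (nat_lit 78) (nat_lit 760) (nat_lit 0) (XT.lf (nat_lit 0) (nat_lit 3979530852) (nat_lit 836) (nat_lit 2145833068) (nat_lit 76) (nat_lit 5173286847) (nat_lit 283) (nat_lit 5) (nat_lit 294) (nat_lit 5) (nat_lit 284) (nat_lit 5) (nat_lit 447) (nat_lit 408) (nat_lit 285)) (XT.lf (nat_lit 0) (nat_lit 3560434719) (nat_lit 760) (nat_lit 2086747925) (nat_lit 836) (nat_lit 5773126787) (nat_lit 273) (nat_lit 5) (nat_lit 283) (nat_lit 5) (nat_lit 284) (nat_lit 5) (nat_lit 448) (nat_lit 408) (nat_lit 284)))) (XT.nd (nat_lit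 156) (nat_lit 836) (nat_lit 0) (XT.nd (nat_lit 78) (nat_lit 684) (nat_lit 0) (XT.lf (nat_lit 0) (nat_lit 7360287673) (nat_lit 836) (nat_lit 2163337050) (nat_lit 76) (nat_lit 2020549636) (nat_lit 273) (nat_lit 5) (nat_lit 284) (nat_lit 5) (nat_lit 274) (nat_lit 5) (nat_lit 449) (nat_lit 408) (nat_lit 283)) (XT.lf (nat_lit 0) (nat_lit 3665854540) (nat_lit 684) (nat_lit 5464134587) (nat_lit 760) (nat_lit 2540095567) (nat_lit 264) (nat_lit 5) (nat_lit 273) (nat_lit 5) (nat_lit 274) (nat_lit 5) (nat_lit 450) (nat_lit 408) (nat_lit 282))) (XT.nd (nat_lit 78) (nat_lit 836) (nat_lit 0) (XT.lf (nat_lit 0) (nat_lit 9625521130) (nat_lit 684) (nat_lit 1308993784) (nat_lit 760) (nat_lit 864024223) (nat_lit 264) (nat_lit 5) (nat_lit 273) (nat_lit 5) (nat_lit 274) (nat_lit 5) (nat_lit 451) (nat_lit 408) (nat_lit 281)) (XT.lf (nat_lit 0) (nat_lit 863488733) (nat_lit 836) (nat_lit 8144612553) (nat_lit 76) (nat_lit 2920785326)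 (nat_lit 253) (nat_lit 5) (nat_lit 264) (nat_lit 5) (nat_lit 254) (nat_lit 5) (nat_lit 452) (nat_lit 408) (nat_lit 280))))) (XT.nd (nat_lit 234) (nat_lit 1368) (nat_lit 0) (XT.nd (nat_lit 78) (nat_lit 684) (nat_lit 0) (XT.lf (nat_lit 0) (nat_lit 2622627782) (nat_lit 836) (nat_lit 2201415299) (nat_lit 76) (nat_lit 7237524500) (nat_lit 253) (nat_lit 5) (nat_lit 264) (nat_lit 5) (nat_lit 254) (nat_lit 5) (nat_lit 453) (nat_lit 408) (nat_lit 279)) (XT.nd (nat_lit 78) (nat_lit 0) (nat_lit 0) (XT.lf (nat_lit 0) (nat_lit 3896507844) (nat_lit 684) (nat_lit 531315778) (nat_lit 760) (nat_lit 7768874468) (nat_lit 244) (nat_lit 5) (nat_lit 253) (nat_lit 5) (nat_lit 254) (nat_lit 5) (nat_lit 454) (nat_lit 408) (nat_lit 278)) (XT.lf (nat_lit 0) (nat_lit 6294726850) (nat_lit 760) (nat_lit 2228515654) (nat_lit 76) (nat_lit 3810789775) (nat_lit 244) (nat_lit 5) (nat_lit 254) (nat_lit 5) (nat_lit 245) (nat_lit 5) (nat_lit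 455) (nat_lit 408) (nat_lit 277)))) (XT.nd (nat_lit 156) (nat_lit 684) (nat_lit 0) (XT.nd (nat_lit 78) (nat_lit 0) (nat_lit 0) (XT.lf (nat_lit 0) (nat_lit 3998382626) (nat_lit 684) (nat_lit 4216097628) (nat_lit 760) (nat_lit 4259335538) (nat_lit 235) (nat_lit 5) (nat_lit 244) (nat_lit 5) (nat_lit 245) (nat_lit 5) (nat_lit 456) (nat_lit 408) (nat_lit 276)) (XT.lf (nat_lit 0) (nat_lit 10175034234) (nat_lit 760) (nat_lit 2252629869) (nat_lit 76) (nat_lit 188695390) (nat_lit 235) (nat_lit 5) (nat_lit 245) (nat_lit 5) (nat_lit 236) (nat_lit 5) (nat_lit 457) (nat_lit 408) (nat_lit 275))) (XT.nd (nat_lit 78) (nat_lit 76) (nat_lit 0) (XT.lf (nat_lit 0) (nat_lit 4105541962) (nat_lit 608) (nat_lit 8110306488) (nat_lit 684) (nat_lit 545097016) (nat_lit 227) (nat_lit 5) (nat_lit 235) (nat_lit 5) (nat_lit 236) (nat_lit 5) (nat_lit 458) (nat_lit 408) (nat_lit 274)) (XT.lf (nat_lit 0) (nat_lit 1372594574) (nat_lit 684)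 (nat_lit 2310930683) (nat_lit 76) (nat_lit 9224694299) (nat_lit 226) (nat_lit 5) (nat_lit 235) (nat_lit 5) (nat_lit 227) (nat_lit 5) (nat_lit 459) (nat_lit 408) (nat_lit 273))))))) (XT.nd (nat_lit 1014) (nat_lit 3344) (nat_lit 0) (XT.nd (nat_lit 468) (nat_lit 2280) (nat_lit 0) (XT.nd (nat_lit 234) (nat_lit 684) (nat_lit 0) (XT.nd (nat_lit 78) (nat_lit 608) (nat_lit 0) (XT.lf (nat_lit 0) (nat_lit 3340996499) (nat_lit 760) (nat_lit 8866632245) (nat_lit 76) (nat_lit 850356881) (nat_lit 217) (nat_lit 5) (nat_lit 227) (nat_lit 5) (nat_lit 218) (nat_lit 5) (nat_lit 460) (nat_lit 408) (nat_lit 272)) (XT.nd (nat_lit 78) (nat_lit 608) (nat_lit 0) (XT.lf (nat_lit 0) (nat_lit 5375727261) (nat_lit 760) (nat_lit 2394896311) (nat_lit 76) (nat_lit 5439595666) (nat_lit 217) (nat_lit 5) (nat_lit 227) (nat_lit 5) (nat_lit 218) (nat_lit 5) (nat_lit 461) (nat_lit 408) (nat_lit 271)) (XT.lf (nat_lit 0) (nat_lit 4247301064)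 (nat_lit 608) (nat_lit 3218639959) (nat_lit 684) (nat_lit 5899271947) (nat_lit 209) (nat_lit 5) (nat_lit 217) (nat_lit 5) (nat_lit 218) (nat_lit 5) (nat_lit 462) (nat_lit 408) (nat_lit 270)))) (XT.nd (nat_lit 78) (nat_lit 684) (nat_lit 0) (XT.lf (nat_lit 0) (nat_lit 9610740059) (nat_lit 684) (nat_lit 2492365598) (nat_lit 76) (nat_lit 1419956294) (nat_lit 209) (nat_lit 5) (nat_lit 218) (nat_lit 5) (nat_lit 210) (nat_lit 5) (nat_lit 463) (nat_lit 408) (nat_lit 269)) (XT.nd (nat_lit 78) (nat_lit 76) (nat_lit 0) (XT.lf (nat_lit 0) (nat_lit 4286047434) (nat_lit 608) (nat_lit 7549134441) (nat_lit 684) (nat_lit 1848161879) (nat_lit 201) (nat_lit 5) (nat_lit 209) (nat_lit 5) (nat_lit 210) (nat_lit 5) (nat_lit 464) (nat_lit 408) (nat_lit 268)) (XT.lf (nat_lit 0) (nat_lit 258404077) (nat_lit 684) (nat_lit 2629084155) (nat_lit 76) (nat_lit 10959229971) (nat_lit 200) (nat_lit 5) (nat_lit 209) (nat_lit 5) (nat_lit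 201) (nat_lit 5) (nat_lit 465) (nat_lit 408) (nat_lit 267))))) (XT.nd (nat_lit 234) (nat_lit 1140) (nat_lit 0) (XT.nd (nat_lit 78) (nat_lit 608) (nat_lit 0) (XT.lf (nat_lit 0) (nat_lit 2410603519) (nat_lit 608) (nat_lit 9720812078) (nat_lit 76) (nat_lit 1881145393) (nat_lit 193) (nat_lit 5) (nat_lit 201) (nat_lit 5) (nat_lit 194) (nat_lit 5) (nat_lit 466) (nat_lit 408) (nat_lit 266)) (XT.nd (nat_lit 78) (nat_lit 608) (nat_lit 0) (XT.lf (nat_lit 0) (nat_lit 4630761789) (nat_lit 608) (nat_lit 2828443348) (nat_lit 76) (nat_lit 6722027157) (nat_lit 193) (nat_lit 5) (nat_lit 201) (nat_lit 5) (nat_lit 194) (nat_lit 5) (nat_lit 467) (nat_lit 408) (nat_lit 265)) (XT.lf (nat_lit 0) (nat_lit 4243234463) (nat_lit 608) (nat_lit 2667906325) (nat_lit 684) (nat_lit 7441829647) (nat_lit 185) (nat_lit 5) (nat_lit 193) (nat_lit 5) (nat_lit 194) (nat_lit 5) (nat_lit 468) (nat_lit 408) (nat_lit 264)))) (XT.nd (nat_lit 156)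 (nat_lit 608) (nat_lit 0) (XT.nd (nat_lit 78) (nat_lit 532) (nat_lit 0) (XT.lf (nat_lit 0) (nat_lit 9259032001) (nat_lit 684) (nat_lit 3061932873) (nat_lit 76) (nat_lit 2206749943) (nat_lit 185) (nat_lit 5) (nat_lit 194) (nat_lit 5) (nat_lit 186) (nat_lit 5) (nat_lit 469) (nat_lit 408) (nat_lit 263)) (XT.lf (nat_lit 0) (nat_lit 4149539866) (nat_lit 532) (nat_lit 7537568591) (nat_lit 608) (nat_lit 3018190464) (nat_lit 178) (nat_lit 5) (nat_lit 185) (nat_lit 5) (nat_lit 186) (nat_lit 5) (nat_lit 470) (nat_lit 408) (nat_lit 262))) (XT.nd (nat_lit 78) (nat_lit 608) (nat_lit 0) (XT.lf (nat_lit 0) (nat_lit 11532799609) (nat_lit 532) (nat_lit 2640244244) (nat_lit 608) (nat_lit 713214107) (nat_lit 178) (nat_lit 5) (nat_lit 185) (nat_lit 5) (nat_lit 186) (nat_lit 5) (nat_lit 471) (nat_lit 408) (nat_lit 261)) (XT.lf (nat_lit 0) (nat_lit 1646893906) (nat_lit 608) (nat_lit 11064686699) (nat_lit 76) (nat_lit 2358441475)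 (nat_lit 170) (nat_lit 5) (nat_lit 178) (nat_lit 5) (nat_lit 171) (nat_lit 5) (nat_lit 472) (nat_lit 408) (nat_lit 260)))))) (XT.nd (nat_lit 546) (nat_lit 1824) (nat_lit 0) (XT.nd (nat_lit 234) (nat_lit 1064) (nat_lit 0) (XT.nd (nat_lit 78) (nat_lit 456) (nat_lit 0) (XT.lf (nat_lit 0) (nat_lit 4073800258) (nat_lit 608) (nat_lit 3736556976) (nat_lit 76) (nat_lit 7446435708) (nat_lit 170) (nat_lit 5) (nat_lit 178) (nat_lit 5) (nat_lit 171) (nat_lit 5) (nat_lit 473) (nat_lit 408) (nat_lit 259)) (XT.nd (nat_lit 78) (nat_lit 0) (nat_lit 0) (XT.lf (nat_lit 0) (nat_lit 3773954769) (nat_lit 456) (nat_lit 2789008303) (nat_lit 532) (nat_lit 8884070281) (nat_lit 164) (nat_lit 5) (nat_lit 170) (nat_lit 5) (nat_lit 171) (nat_lit 5) (nat_lit 474) (nat_lit 408) (nat_lit 258)) (XT.lf (nat_lit 0) (nat_lit 9131614913) (nat_lit 532) (nat_lit 4184351511) (nat_lit 76) (nat_lit 2324526365) (nat_lit 164) (nat_lit 5) (nat_lit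 171) (nat_lit 5) (nat_lit 165) (nat_lit 5) (nat_lit 475) (nat_lit 408) (nat_lit 257)))) (XT.nd (nat_lit 156) (nat_lit 532) (nat_lit 0) (XT.nd (nat_lit 78) (nat_lit 0) (nat_lit 0) (XT.lf (nat_lit 0) (nat_lit 3467639689) (nat_lit 532) (nat_lit 8314513569) (nat_lit 608) (nat_lit 4055066056) (nat_lit 157) (nat_lit 5) (nat_lit 164) (nat_lit 5) (nat_lit 165) (nat_lit 5) (nat_lit 476) (nat_lit 408) (nat_lit 256)) (XT.lf (nat_lit 0) (nat_lit 11315960760) (nat_lit 532) (nat_lit 3187467925) (nat_lit 608) (nat_lit 1534105166) (nat_lit 157) (nat_lit 5) (nat_lit 164) (nat_lit 5) (nat_lit 165) (nat_lit 5) (nat_lit 477) (nat_lit 408) (nat_lit 255))) (XT.nd (nat_lit 78) (nat_lit 0) (nat_lit 0) (XT.lf (nat_lit 0) (nat_lit 1046989984) (nat_lit 532) (nat_lit 13154940443) (nat_lit 76) (nat_lit 2039330874) (nat_lit 150) (nat_lit 5) (nat_lit 157) (nat_lit 5) (nat_lit 151) (nat_lit 5) (nat_lit 478) (nat_lit 408) (nat_lit 254))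 (XT.lf (nat_lit 0) (nat_lit 3702057276) (nat_lit 532) (nat_lit 5378945452) (nat_lit 76) (nat_lit 7367007473) (nat_lit 150) (nat_lit 5) (nat_lit 157) (nat_lit 5) (nat_lit 151) (nat_lit 5) (nat_lit 479) (nat_lit 408) (nat_lit 253))))) (XT.nd (nat_lit 234) (nat_lit 912) (nat_lit 0) (XT.nd (nat_lit 78) (nat_lit 456) (nat_lit 0) (XT.lf (nat_lit 0) (nat_lit 2573167817) (nat_lit 456) (nat_lit 3843833019) (nat_lit 532) (nat_lit 10241765141) (nat_lit 144) (nat_lit 5) (nat_lit 150) (nat_lit 5) (nat_lit 151) (nat_lit 5) (nat_lit 480) (nat_lit 408) (nat_lit 252)) (XT.nd (nat_lit 78) (nat_lit 456) (nat_lit 0) (XT.lf (nat_lit 0) (nat_lit 9222461495) (nat_lit 532) (nat_lit 6138989481) (nat_lit 76) (nat_lit 1511568783) (nat_lit 144) (nat_lit 5) (nat_lit 151) (nat_lit 5) (nat_lit 145) (nat_lit 5) (nat_lit 481) (nat_lit 408) (nat_lit 251)) (XT.lf (nat_lit 0) (nat_lit 1953733480) (nat_lit 456) (nat_lit 10158788765) (nat_lit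 532) (nat_lit 4978473665) (nat_lit 138) (nat_lit 5) (nat_lit 144) (nat_lit 5) (nat_lit 145) (nat_lit 5) (nat_lit 482) (nat_lit 408) (nat_lit 250)))) (XT.nd (nat_lit 156) (nat_lit 380) (nat_lit 0) (XT.nd (nat_lit 78) (nat_lit 532) (nat_lit 0) (XT.lf (nat_lit 0) (nat_lit 10278626340) (nat_lit 456) (nat_lit 4813409275) (nat_lit 532) (nat_lit 2220669913) (nat_lit 138) (nat_lit 5) (nat_lit 144) (nat_lit 5) (nat_lit 145) (nat_lit 5) (nat_lit 483) (nat_lit 408) (nat_lit 249)) (XT.lf (nat_lit 0) (nat_lit 587290955) (nat_lit 532) (nat_lit 16312328860) (nat_lit 76) (nat_lit 639103934) (nat_lit 131) (nat_lit 5) (nat_lit 138) (nat_lit 5) (nat_lit 132) (nat_lit 5) (nat_lit 484) (nat_lit 408) (nat_lit 248))) (XT.nd (nat_lit 78) (nat_lit 380) (nat_lit 0) (XT.lf (nat_lit 0) (nat_lit 3491750416) (nat_lit 532) (nat_lit 8080653226) (nat_lit 76) (nat_lit 6195170207) (nat_lit 131) (nat_lit 5) (nat_lit 138) (nat_lit 5) (nat_lit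 132) (nat_lit 5) (nat_lit 485) (nat_lit 408) (nat_lit 247)) (XT.lf (nat_lit 0) (nat_lit 307069188) (nat_lit 380) (nat_lit 6140061314) (nat_lit 456) (nat_lit 11554020261) (nat_lit 126) (nat_lit 5) (nat_lit 131) (nat_lit 5) (nat_lit 132) (nat_lit 5) (nat_lit 486) (nat_lit 408) (nat_lit 246))))))))
noncomputable def xc171 : XT := (XT.nd (nat_lit 2106) (nat_lit 912) (nat_lit 0) (XT.nd (nat_lit 1014) (nat_lit 1824) (nat_lit 0) (XT.nd (nat_lit 468) (nat_lit 1444) (nat_lit 0) (XT.nd (nat_lit 234) (nat_lit 456) (nat_lit 0) (XT.nd (nat_lit 78) (nat_lit 380) (nat_lit 0) (XT.lf (nat_lit 0) (nat_lit 8959550418) (nat_lit 380) (nat_lit 547229239) (nat_lit 456) (nat_lit 8731722642) (nat_lit 126) (nat_lit 5) (nat_lit 131) (nat_lit 5) (nat_lit 132) (nat_lit 5) (nat_lit 487) (nat_lit 408) (nat_lit 245)) (XT.nd (nat_lit 78) (nat_lit 380) (nat_lit 0) (XT.lf (nat_lit 0) (nat_lit 12652199133) (nat_lit 456) (nat_lit 741452396)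 (nat_lit 76) (nat_lit 5086463983) (nat_lit 126) (nat_lit 5) (nat_lit 132) (nat_lit 5) (nat_lit 127) (nat_lit 5) (nat_lit 488) (nat_lit 408) (nat_lit 244)) (XT.lf (nat_lit 0) (nat_lit 8056634158) (nat_lit 380) (nat_lit 7851092248) (nat_lit 456) (nat_lit 2817896665) (nat_lit 121) (nat_lit 5) (nat_lit 126) (nat_lit 5) (nat_lit 127) (nat_lit 5) (nat_lit 489) (nat_lit 408) (nat_lit 243)))) (XT.nd (nat_lit 78) (nat_lit 380) (nat_lit 0) (XT.lf (nat_lit 0) (nat_lit 245318463) (nat_lit 456) (nat_lit 1949123762) (nat_lit 76) (nat_lit 16781645538) (nat_lit 120) (nat_lit 5) (nat_lit 126) (nat_lit 5) (nat_lit 121) (nat_lit 5) (nat_lit 490) (nat_lit 408) (nat_lit 242)) (XT.nd (nat_lit 78) (nat_lit 0) (nat_lit 0) (XT.lf (nat_lit 0) (nat_lit 3392673748) (nat_lit 456) (nat_lit 12247708305) (nat_lit 76) (nat_lit 3589600740) (nat_lit 115) (nat_lit 5) (nat_lit 121) (nat_lit 5) (nat_lit 116) (nat_lit 5) (nat_lit 491) (nat_lit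 408) (nat_lit 241)) (XT.lf (nat_lit 0) (nat_lit 6622208898) (nat_lit 456) (nat_lit 3396669022) (nat_lit 76) (nat_lit 9469698755) (nat_lit 115) (nat_lit 5) (nat_lit 121) (nat_lit 5) (nat_lit 116) (nat_lit 5) (nat_lit 492) (nat_lit 408) (nat_lit 240))))) (XT.nd (nat_lit 234) (nat_lit 760) (nat_lit 0) (XT.nd (nat_lit 78) (nat_lit 304) (nat_lit 0) (XT.lf (nat_lit 0) (nat_lit 5694231592) (nat_lit 380) (nat_lit 4250773657) (nat_lit 456) (nat_lit 9806769274) (nat_lit 110) (nat_lit 5) (nat_lit 115) (nat_lit 5) (nat_lit 116) (nat_lit 5) (nat_lit 493) (nat_lit 408) (nat_lit 239)) (XT.nd (nat_lit 78) (nat_lit 304) (nat_lit 0) (XT.lf (nat_lit 0) (nat_lit 13359565546) (nat_lit 456) (nat_lit 5029448027) (nat_lit 76) (nat_lit 1630721983) (nat_lit 110) (nat_lit 5) (nat_lit 116) (nat_lit 5) (nat_lit 111) (nat_lit 5) (nat_lit 494) (nat_lit 408) (nat_lit 238)) (XT.lf (nat_lit 0) (nat_lit 4194392626) (nat_lit 304) (nat_lit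 12695332638) (nat_lit 380) (nat_lit 3402389667) (nat_lit 106) (nat_lit 5) (nat_lit 110) (nat_lit 5) (nat_lit 111) (nat_lit 5) (nat_lit 495) (nat_lit 408) (nat_lit 237)))) (XT.nd (nat_lit 156) (nat_lit 304) (nat_lit 0) (XT.nd (nat_lit 78) (nat_lit 456) (nat_lit 0) (XT.lf (nat_lit 0) (nat_lit 13659286852) (nat_lit 304) (nat_lit 6856959217) (nat_lit 380) (nat_lit 53185845) (nat_lit 106) (nat_lit 5) (nat_lit 110) (nat_lit 5) (nat_lit 111) (nat_lit 5) (nat_lit 496) (nat_lit 408) (nat_lit 236)) (XT.lf (nat_lit 0) (nat_lit 2460132796) (nat_lit 380) (nat_lit 866843153) (nat_lit 456) (nat_lit 17524725965) (nat_lit 100) (nat_lit 5) (nat_lit 105) (nat_lit 5) (nat_lit 106) (nat_lit 5) (nat_lit 497) (nat_lit 408) (nat_lit 235))) (XT.nd (nat_lit 78) (nat_lit 304) (nat_lit 0) (XT.lf (nat_lit 0) (nat_lit 6846913641) (nat_lit 456) (nat_lit 9073449113) (nat_lit 76) (nat_lit 5217794714) (nat_lit 100) (nat_lit 5) (nat_lit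 106) (nat_lit 5) (nat_lit 101) (nat_lit 5) (nat_lit 498) (nat_lit 408) (nat_lit 234)) (XT.lf (nat_lit 0) (nat_lit 419477044) (nat_lit 304) (nat_lit 10018555708) (nat_lit 380) (nat_lit 10992298515) (nat_lit 96) (nat_lit 5) (nat_lit 100) (nat_lit 5) (nat_lit 101) (nat_lit 5) (nat_lit 499) (nat_lit 408) (nat_lit 233)))))) (XT.nd (nat_lit 546) (nat_lit 836) (nat_lit 0) (XT.nd (nat_lit 234) (nat_lit 684) (nat_lit 0) (XT.nd (nat_lit 78) (nat_lit 304) (nat_lit 0) (XT.lf (nat_lit 0) (nat_lit 10214012088) (nat_lit 304) (nat_lit 3940245860) (nat_lit 380) (nat_lit 7573029611) (nat_lit 96) (nat_lit 5) (nat_lit 100) (nat_lit 5) (nat_lit 101) (nat_lit 5) (nat_lit 500) (nat_lit 408) (nat_lit 232)) (XT.nd (nat_lit 78) (nat_lit 304) (nat_lit 0) (XT.lf (nat_lit 0) (nat_lit 17952000686) (nat_lit 380) (nat_lit 1851568879) (nat_lit 76) (nat_lit 2226474151) (nat_lit 96) (nat_lit 5) (nat_lit 101) (nat_lit 5) (nat_lit 97) (nat_lit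 5) (nat_lit 501) (nat_lit 408) (nat_lit 231)) (XT.lf (nat_lit 0) (nat_lit 8072211975) (nat_lit 304) (nat_lit 13824659445) (nat_lit 380) (nat_lit 440564623) (nat_lit 92) (nat_lit 5) (nat_lit 96) (nat_lit 5) (nat_lit 97) (nat_lit 5) (nat_lit 502) (nat_lit 408) (nat_lit 230)))) (XT.nd (nat_lit 156) (nat_lit 304) (nat_lit 0) (XT.nd (nat_lit 78) (nat_lit 304) (nat_lit 0) (XT.lf (nat_lit 0) (nat_lit 3231977859) (nat_lit 380) (nat_lit 4463435464) (nat_lit 76) (nat_lit 14955038716) (nat_lit 91) (nat_lit 5) (nat_lit 96) (nat_lit 5) (nat_lit 92) (nat_lit 5) (nat_lit 503) (nat_lit 408) (nat_lit 229)) (XT.lf (nat_lit 0) (nat_lit 5594090144) (nat_lit 304) (nat_lit 1407140733) (nat_lit 380) (nat_lit 15967860310) (nat_lit 87) (nat_lit 5) (nat_lit 91) (nat_lit 5) (nat_lit 92) (nat_lit 5) (nat_lit 504) (nat_lit 408) (nat_lit 228))) (XT.nd (nat_lit 78) (nat_lit 304) (nat_lit 0) (XT.lf (nat_lit 0) (nat_lit 10901408150)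 (nat_lit 380) (nat_lit 7423741959) (nat_lit 76) (nat_lit 4967846390) (nat_lit 87) (nat_lit 5) (nat_lit 92) (nat_lit 5) (nat_lit 88) (nat_lit 5) (nat_lit 505) (nat_lit 408) (nat_lit 227)) (XT.lf (nat_lit 0) (nat_lit 2742604286) (nat_lit 304) (nat_lit 12157130631) (nat_lit 380) (nat_lit 8723246167) (nat_lit 83) (nat_lit 5) (nat_lit 87) (nat_lit 5) (nat_lit 88) (nat_lit 5) (nat_lit 506) (nat_lit 408) (nat_lit 226))))) (XT.nd (nat_lit 234) (nat_lit 532) (nat_lit 0) (XT.nd (nat_lit 78) (nat_lit 304) (nat_lit 0) (XT.lf (nat_lit 0) (nat_lit 13202388941) (nat_lit 304) (nat_lit 5818545382) (nat_lit 380) (nat_lit 4937776918) (nat_lit 83) (nat_lit 5) (nat_lit 87) (nat_lit 5) (nat_lit 88) (nat_lit 5) (nat_lit 507) (nat_lit 408) (nat_lit 225)) (XT.nd (nat_lit 78) (nat_lit 304) (nat_lit 0) (XT.lf (nat_lit 0) (nat_lit 23221958682) (nat_lit 380) (nat_lit 444415744) (nat_lit 76) (nat_lit 634837484) (nat_lit 83) (nat_lit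 5) (nat_lit 88) (nat_lit 5) (nat_lit 84) (nat_lit 5) (nat_lit 508) (nat_lit 408) (nat_lit 224)) (XT.lf (nat_lit 0) (nat_lit 2917444130) (nat_lit 304) (nat_lit 14509606605) (nat_lit 76) (nat_lit 7221175394) (nat_lit 79) (nat_lit 5) (nat_lit 83) (nat_lit 5) (nat_lit 80) (nat_lit 5) (nat_lit 509) (nat_lit 408) (nat_lit 223)))) (XT.nd (nat_lit 156) (nat_lit 228) (nat_lit 0) (XT.nd (nat_lit 78) (nat_lit 304) (nat_lit 0) (XT.lf (nat_lit 0) (nat_lit 6975991802) (nat_lit 304) (nat_lit 4080198215) (nat_lit 76) (nat_lit 13945924285) (nat_lit 79) (nat_lit 5) (nat_lit 83) (nat_lit 5) (nat_lit 80) (nat_lit 5) (nat_lit 510) (nat_lit 408) (nat_lit 222)) (XT.lf (nat_lit 0) (nat_lit 6634765683) (nat_lit 304) (nat_lit 4517504438) (nat_lit 380) (nat_lit 14210082551) (nat_lit 75) (nat_lit 5) (nat_lit 79) (nat_lit 5) (nat_lit 80) (nat_lit 5) (nat_lit 511) (nat_lit 408) (nat_lit 221))) (XT.nd (nat_lit 78) (nat_lit 228) (nat_lit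 0) (XT.lf (nat_lit 0) (nat_lit 15447130001) (nat_lit 380) (nat_lit 8134156863) (nat_lit 76) (nat_lit 2147811384) (nat_lit 75) (nat_lit 5) (nat_lit 80) (nat_lit 5) (nat_lit 76) (nat_lit 5) (nat_lit 512) (nat_lit 408) (nat_lit 220)) (XT.lf (nat_lit 0) (nat_lit 2666299067) (nat_lit 228) (nat_lit 17202466120) (nat_lit 304) (nat_lit 6233599469) (nat_lit 72) (nat_lit 5) (nat_lit 75) (nat_lit 5) (nat_lit 76) (nat_lit 5) (nat_lit 513) (nat_lit 408) (nat_lit 219))))))) (XT.nd (nat_lit 51636) (nat_lit 0) (nat_lit 26524) (XT.nd (nat_lit 546) (nat_lit 304) (nat_lit 0) (XT.nd (nat_lit 234) (nat_lit 228) (nat_lit 0) (XT.nd (nat_lit 78) (nat_lit 380) (nat_lit 0) (XT.lf (nat_lit 0) (nat_lit 13783195306) (nat_lit 228) (nat_lit 10643932426) (nat_lit 304) (nat_lit 2055006185) (nat_lit 72) (nat_lit 5) (nat_lit 75) (nat_lit 5) (nat_lit 76) (nat_lit 5) (nat_lit 514) (nat_lit 408) (nat_lit 218)) (XT.nd (nat_lit 78) (nat_lit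 304) (nat_lit 0) (XT.lf (nat_lit 0) (nat_lit 2172001043) (nat_lit 304) (nat_lit 1771121970) (nat_lit 76) (nat_lit 22926216444) (nat_lit 71) (nat_lit 5) (nat_lit 75) (nat_lit 5) (nat_lit 72) (nat_lit 5) (nat_lit 515) (nat_lit 408) (nat_lit 217)) (XT.lf (nat_lit 0) (nat_lit 6530745876) (nat_lit 380) (nat_lit 17805767054) (nat_lit 76) (nat_lit 2926013446) (nat_lit 67) (nat_lit 5) (nat_lit 72) (nat_lit 5) (nat_lit 68) (nat_lit 5) (nat_lit 516) (nat_lit 408) (nat_lit 216)))) (XT.nd (nat_lit 156) (nat_lit 0) (nat_lit 0) (XT.nd (nat_lit 78) (nat_lit 228) (nat_lit 0) (XT.lf (nat_lit 0) (nat_lit 11008689602) (nat_lit 380) (nat_lit 6765895811) (nat_lit 76) (nat_lit 9888354297) (nat_lit 67) (nat_lit 5) (nat_lit 72) (nat_lit 5) (nat_lit 68) (nat_lit 5) (nat_lit 517) (nat_lit 408) (nat_lit 215)) (XT.lf (nat_lit 0) (nat_lit 4544998347) (nat_lit 228) (nat_lit 11054768421) (nat_lit 304) (nat_lit 12471126147) (nat_lit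 64) (nat_lit 5) (nat_lit 67) (nat_lit 5) (nat_lit 68) (nat_lit 5) (nat_lit 518) (nat_lit 408) (nat_lit 214))) (XT.nd (nat_lit 78) (nat_lit 0) (nat_lit 0) (XT.lf (nat_lit 0) (nat_lit 16164502638) (nat_lit 228) (nat_lit 4157686828) (nat_lit 304) (nat_lit 8164028274) (nat_lit 64) (nat_lit 5) (nat_lit 67) (nat_lit 5) (nat_lit 68) (nat_lit 5) (nat_lit 519) (nat_lit 408) (nat_lit 213)) (XT.lf (nat_lit 0) (nat_lit 25151956816) (nat_lit 304) (nat_lit 921368435) (nat_lit 76) (nat_lit 2836268861) (nat_lit 64) (nat_lit 5) (nat_lit 68) (nat_lit 5) (nat_lit 65) (nat_lit 5) (nat_lit 520) (nat_lit 408) (nat_lit 212))))) (XT.nd (nat_lit 50778) (nat_lit 0) (nat_lit 29032) (XT.nd (nat_lit 50622) (nat_lit 0) (nat_lit 29032) (XT.lf (nat_lit 0) (nat_lit 819886363) (nat_lit 304) (nat_lit 18532792633) (nat_lit 76) (nat_lit 9986812805) (nat_lit 60) (nat_lit 5) (nat_lit 64) (nat_lit 5) (nat_lit 61) (nat_lit 5) (nat_lit 521) (nat_lit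 408) (nat_lit 211)) (XT.nd (nat_lit 78) (nat_lit 0) (nat_lit 0) (XT.lf (nat_lit 0) (nat_lit 539548747) (nat_lit 0) (nat_lit 539548747) (nat_lit 1292) (nat_lit 2963631049) (nat_lit 442) (nat_lit 5) (nat_lit 442) (nat_lit 3) (nat_lit 459) (nat_lit 3) (nat_lit 409) (nat_lit 409) (nat_lit 322)) (XT.lf (nat_lit 0) (nat_lit 3298181264) (nat_lit 1292) (nat_lit 3397437830) (nat_lit 1368) (nat_lit 1447002673) (nat_lit 442) (nat_lit 5) (nat_lit 459) (nat_lit 3) (nat_lit 460) (nat_lit 5) (nat_lit 410) (nat_lit 409) (nat_lit 321)))) (XT.nd (nat_lit 156) (nat_lit 0) (nat_lit 76) (XT.nd (nat_lit 78) (nat_lit 0) (nat_lit 0) (XT.lf (nat_lit 76) (nat_lit 264734014) (nat_lit 0) (nat_lit 4176106404) (nat_lit 1368) (nat_lit 3760526534) (nat_lit 443) (nat_lit 5) (nat_lit 442) (nat_lit 5) (nat_lit 460) (nat_lit 5) (nat_lit 411) (nat_lit 409) (nat_lit 320)) (XT.lf (nat_lit 76) (nat_lit 4031048771) (nat_lit 0) (nat_lit 1569580647)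 (nat_lit 1368) (nat_lit 2660806080) (nat_lit 443) (nat_lit 5) (nat_lit 442) (nat_lit 5) (nat_lit 460) (nat_lit 5) (nat_lit 412) (nat_lit 409) (nat_lit 319))) (XT.nd (nat_lit 78) (nat_lit 0) (nat_lit 0) (XT.lf (nat_lit 0) (nat_lit 6762807613) (nat_lit 1292) (nat_lit 472620825) (nat_lit 1368) (nat_lit 1087726434) (nat_lit 443) (nat_lit 5) (nat_lit 460) (nat_lit 5) (nat_lit 461) (nat_lit 5) (nat_lit 413) (nat_lit 409) (nat_lit 318)) (XT.lf (nat_lit 76) (nat_lit 3378992275) (nat_lit 0) (nat_lit 4574239362) (nat_lit 1368) (nat_lit 432809623) (nat_lit 444) (nat_lit 5) (nat_lit 443) (nat_lit 5) (nat_lit 461) (nat_lit 5) (nat_lit 414) (nat_lit 409) (nat_lit 317)))))) (XT.nd (nat_lit 546) (nat_lit 1216) (nat_lit 0) (XT.nd (nat_lit 234) (nat_lit 0) (nat_lit 76) (XT.nd (nat_lit 78) (nat_lit 0) (nat_lit 76) (XT.lf (nat_lit 0) (nat_lit 683961055) (nat_lit 1368) (nat_lit 1156276891) (nat_lit 1444) (nat_lit 6610363900)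 (nat_lit 425) (nat_lit 5) (nat_lit 443) (nat_lit 5) (nat_lit 444) (nat_lit 5) (nat_lit 415) (nat_lit 409) (nat_lit 316)) (XT.nd (nat_lit 78) (nat_lit 0) (nat_lit 0) (XT.lf (nat_lit 0) (nat_lit 1815190917) (nat_lit 1368) (nat_lit 5732947575) (nat_lit 1444) (nat_lit 968330340) (nat_lit 426) (nat_lit 5) (nat_lit 444) (nat_lit 5) (nat_lit 445) (nat_lit 5) (nat_lit 416) (nat_lit 409) (nat_lit 315)) (XT.lf (nat_lit 0) (nat_lit 2962965910) (nat_lit 1368) (nat_lit 1793688731) (nat_lit 1444) (nat_lit 3827150290) (nat_lit 426) (nat_lit 5) (nat_lit 444) (nat_lit 5) (nat_lit 445) (nat_lit 5) (nat_lit 417) (nat_lit 409) (nat_lit 314)))) (XT.nd (nat_lit 156) (nat_lit 0) (nat_lit 76) (XT.nd (nat_lit 78) (nat_lit 0) (nat_lit 76) (XT.lf (nat_lit 76) (nat_lit 2238277989) (nat_lit 0) (nat_lit 1884385029) (nat_lit 1444) (nat_lit 4530074993) (nat_lit 427) (nat_lit 5) (nat_lit 426) (nat_lit 5) (nat_lit 445) (nat_lit 5) (nat_lit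 418) (nat_lit 409) (nat_lit 313)) (XT.lf (nat_lit 0) (nat_lit 5299357175) (nat_lit 1368) (nat_lit 2370405061) (nat_lit 1444) (nat_lit 1053440466) (nat_lit 427) (nat_lit 5) (nat_lit 445) (nat_lit 5) (nat_lit 446) (nat_lit 5) (nat_lit 419) (nat_lit 409) (nat_lit 312))) (XT.nd (nat_lit 78) (nat_lit 0) (nat_lit 0) (XT.lf (nat_lit 76) (nat_lit 1749380041) (nat_lit 0) (nat_lit 4749434661) (nat_lit 1444) (nat_lit 2296305838) (nat_lit 428) (nat_lit 5) (nat_lit 427) (nat_lit 5) (nat_lit 446) (nat_lit 5) (nat_lit 420) (nat_lit 409) (nat_lit 311)) (XT.lf (nat_lit 76) (nat_lit 5968180021) (nat_lit 0) (nat_lit 1745761800) (nat_lit 1444) (nat_lit 1154729189) (nat_lit 428) (nat_lit 5) (nat_lit 427) (nat_lit 5) (nat_lit 446) (nat_lit 5) (nat_lit 421) (nat_lit 409) (nat_lit 310))))) (XT.nd (nat_lit 234) (nat_lit 0) (nat_lit 76) (XT.nd (nat_lit 78) (nat_lit 0) (nat_lit 0) (XT.lf (nat_lit 0) (nat_lit 2917705) (nat_lit 1444)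 (nat_lit 7623209271) (nat_lit 1520) (nat_lit 1317723746) (nat_lit 409) (nat_lit 5) (nat_lit 428) (nat_lit 5) (nat_lit 429) (nat_lit 5) (nat_lit 422) (nat_lit 409) (nat_lit 309)) (XT.nd (nat_lit 78) (nat_lit 0) (nat_lit 0) (XT.lf (nat_lit 0) (nat_lit 1175910452) (nat_lit 1444) (nat_lit 3389969735) (nat_lit 1520) (nat_lit 4454374368) (nat_lit 409) (nat_lit 5) (nat_lit 428) (nat_lit 5) (nat_lit 429) (nat_lit 5) (nat_lit 423) (nat_lit 409) (nat_lit 308)) (XT.lf (nat_lit 76) (nat_lit 924370627) (nat_lit 0) (nat_lit 1430941335) (nat_lit 1520) (nat_lit 6743241286) (nat_lit 410) (nat_lit 5) (nat_lit 409) (nat_lit 5) (nat_lit 429) (nat_lit 5) (nat_lit 424) (nat_lit 409) (nat_lit 307)))) (XT.nd (nat_lit 156) (nat_lit 0) (nat_lit 0) (XT.nd (nat_lit 78) (nat_lit 0) (nat_lit 0) (XT.lf (nat_lit 0) (nat_lit 3570015528) (nat_lit 1444) (nat_lit 3834743983) (nat_lit 1520) (nat_lit 1773449378) (nat_lit 410) (nat_lit 5)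 (nat_lit 429) (nat_lit 5) (nat_lit 430) (nat_lit 5) (nat_lit 425) (nat_lit 409) (nat_lit 306)) (XT.lf (nat_lit 76) (nat_lit 573737992) (nat_lit 0) (nat_lit 4226265250) (nat_lit 1520) (nat_lit 4459659362) (nat_lit 411) (nat_lit 5) (nat_lit 410) (nat_lit 5) (nat_lit 430) (nat_lit 5) (nat_lit 426) (nat_lit 409) (nat_lit 305))) (XT.nd (nat_lit 78) (nat_lit 0) (nat_lit 76) (XT.lf (nat_lit 76) (nat_lit 5106680799) (nat_lit 0) (nat_lit 951765268) (nat_lit 1520) (nat_lit 3284246494) (nat_lit 411) (nat_lit 5) (nat_lit 410) (nat_lit 5) (nat_lit 430) (nat_lit 5) (nat_lit 427) (nat_lit 409) (nat_lit 304)) (XT.lf (nat_lit 76) (nat_lit 275127455) (nat_lit 0) (nat_lit 7062813115) (nat_lit 1520) (nat_lit 2089548691) (nat_lit 412) (nat_lit 5) (nat_lit 411) (nat_lit 5) (nat_lit 431) (nat_lit 5) (nat_lit 428) (nat_lit 409) (nat_lit 303))))))))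
noncomputable def xc172 : XT := (XT.nd (nat_lit 2106) (nat_lit 7600) (nat_lit 0) (XT.nd (nat_lit 1014) (nat_lit 5472) (nat_lit 0) (XT.nd (nat_lit 468) (nat_lit 5700) (nat_lit 0) (XT.nd (nat_lit 234) (nat_lit 0) (nat_lit 76) (XT.nd (nat_lit 78) (nat_lit 1520) (nat_lit 0) (XT.lf (nat_lit 76) (nat_lit 4911753008) (nat_lit 0) (nat_lit 3744867412) (nat_lit 1520) (nat_lit 857112897) (nat_lit 412) (nat_lit 5) (nat_lit 411) (nat_lit 5) (nat_lit 431) (nat_lit 5) (nat_lit 429) (nat_lit 409) (nat_lit 302)) (XT.nd (nat_lit 78) (nat_lit 0) (nat_lit 76) (XT.lf (nat_lit 76) (nat_lit 21331705) (nat_lit 0) (nat_lit 352694732) (nat_lit 1596) (nat_lit 9228060297) (nat_lit 392) (nat_lit 5) (nat_lit 391) (nat_lit 5) (nat_lit 412) (nat_lit 5) (nat_lit 430) (nat_lit 409) (nat_lit 301)) (XT.lf (nat_lit 0) (nat_lit 1649084177) (nat_lit 1520) (nat_lit 4934274692) (nat_lit 1596) (nat_lit 3108141581) (nat_lit 392) (nat_lit 5) (nat_lit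 412) (nat_lit 5) (nat_lit 413) (nat_lit 5) (nat_lit 431) (nat_lit 409) (nat_lit 300)))) (XT.nd (nat_lit 78) (nat_lit 0) (nat_lit 76) (XT.lf (nat_lit 0) (nat_lit 2931881358) (nat_lit 1520) (nat_lit 213004956) (nat_lit 1596) (nat_lit 6638192913) (nat_lit 392) (nat_lit 5) (nat_lit 412) (nat_lit 5) (nat_lit 413) (nat_lit 5) (nat_lit 432) (nat_lit 409) (nat_lit 299)) (XT.nd (nat_lit 78) (nat_lit 0) (nat_lit 0) (XT.lf (nat_lit 0) (nat_lit 4253389871) (nat_lit 1520) (nat_lit 5230724048) (nat_lit 76) (nat_lit 392135689) (nat_lit 393) (nat_lit 5) (nat_lit 413) (nat_lit 5) (nat_lit 394) (nat_lit 5) (nat_lit 433) (nat_lit 409) (nat_lit 298)) (XT.lf (nat_lit 0) (nat_lit 5604203617) (nat_lit 1520) (nat_lit 403805148) (nat_lit 76) (nat_lit 3963237849) (nat_lit 393) (nat_lit 5) (nat_lit 413) (nat_lit 5) (nat_lit 394) (nat_lit 5) (nat_lit 434) (nat_lit 409) (nat_lit 297))))) (XT.nd (nat_lit 234) (nat_lit 2736) (nat_lit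 0) (XT.nd (nat_lit 78) (nat_lit 1596) (nat_lit 0) (XT.lf (nat_lit 0) (nat_lit 4563992218) (nat_lit 1520) (nat_lit 2428663255) (nat_lit 1596) (nat_lit 3075295962) (nat_lit 373) (nat_lit 5) (nat_lit 393) (nat_lit 5) (nat_lit 394) (nat_lit 5) (nat_lit 435) (nat_lit 409) (nat_lit 296)) (XT.nd (nat_lit 78) (nat_lit 1596) (nat_lit 0) (XT.lf (nat_lit 0) (nat_lit 8400823454) (nat_lit 1596) (nat_lit 553702314) (nat_lit 76) (nat_lit 1212245557) (nat_lit 373) (nat_lit 5) (nat_lit 394) (nat_lit 5) (nat_lit 374) (nat_lit 5) (nat_lit 436) (nat_lit 409) (nat_lit 295)) (XT.lf (nat_lit 0) (nat_lit 4523278249) (nat_lit 1596) (nat_lit 5340979132) (nat_lit 1672) (nat_lit 402787705) (nat_lit 352) (nat_lit 5) (nat_lit 373) (nat_lit 5) (nat_lit 374) (nat_lit 5) (nat_lit 437) (nat_lit 409) (nat_lit 294)))) (XT.nd (nat_lit 156) (nat_lit 988) (nat_lit 0) (XT.nd (nat_lit 78) (nat_lit 1672) (nat_lit 0) (XT.lf (nat_lit 0) (nat_lit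 960194480) (nat_lit 1672) (nat_lit 682063116) (nat_lit 76) (nat_lit 8727247006) (nat_lit 351) (nat_lit 5) (nat_lit 373) (nat_lit 5) (nat_lit 352) (nat_lit 5) (nat_lit 438) (nat_lit 409) (nat_lit 293)) (XT.lf (nat_lit 0) (nat_lit 2370598338) (nat_lit 1748) (nat_lit 5965665846) (nat_lit 76) (nat_lit 2137203168) (nat_lit 329) (nat_lit 5) (nat_lit 352) (nat_lit 5) (nat_lit 330) (nat_lit 5) (nat_lit 439) (nat_lit 409) (nat_lit 292))) (XT.nd (nat_lit 78) (nat_lit 988) (nat_lit 0) (XT.lf (nat_lit 0) (nat_lit 3807088984) (nat_lit 1748) (nat_lit 795272246) (nat_lit 76) (nat_lit 5977208590) (nat_lit 329) (nat_lit 5) (nat_lit 352) (nat_lit 5) (nat_lit 330) (nat_lit 5) (nat_lit 440) (nat_lit 409) (nat_lit 291)) (XT.lf (nat_lit 0) (nat_lit 4522492321) (nat_lit 988) (nat_lit 761920845) (nat_lit 1064) (nat_lit 5403156779) (nat_lit 316) (nat_lit 5) (nat_lit 329) (nat_lit 5) (nat_lit 330) (nat_lit 5) (nat_lit 441) (nat_lit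 409) (nat_lit 290)))))) (XT.nd (nat_lit 546) (nat_lit 2964) (nat_lit 0) (XT.nd (nat_lit 234) (nat_lit 1672) (nat_lit 0) (XT.nd (nat_lit 78) (nat_lit 836) (nat_lit 0) (XT.lf (nat_lit 0) (nat_lit 6800133964) (nat_lit 1064) (nat_lit 876371309) (nat_lit 76) (nat_lit 3121065134) (nat_lit 316) (nat_lit 5) (nat_lit 330) (nat_lit 5) (nat_lit 317) (nat_lit 5) (nat_lit 442) (nat_lit 409) (nat_lit 289)) (XT.nd (nat_lit 78) (nat_lit 0) (nat_lit 0) (XT.lf (nat_lit 0) (nat_lit 4557523841) (nat_lit 836) (nat_lit 3806606745) (nat_lit 912) (nat_lit 2545298060) (nat_lit 305) (nat_lit 5) (nat_lit 316) (nat_lit 5) (nat_lit 317) (nat_lit 5) (nat_lit 443) (nat_lit 409) (nat_lit 288)) (XT.lf (nat_lit 0) (nat_lit 9949801776) (nat_lit 912) (nat_lit 927947574) (nat_lit 76) (nat_lit 145983471) (nat_lit 305) (nat_lit 5) (nat_lit 317) (nat_lit 5) (nat_lit 306) (nat_lit 5) (nat_lit 444) (nat_lit 409) (nat_lit 287)))) (XT.nd (nat_lit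 156) (nat_lit 760) (nat_lit 0) (XT.nd (nat_lit 78) (nat_lit 0) (nat_lit 0) (XT.lf (nat_lit 0) (nat_lit 460627277) (nat_lit 912) (nat_lit 6517914452) (nat_lit 76) (nat_lit 4160954690) (nat_lit 293) (nat_lit 5) (nat_lit 305) (nat_lit 5) (nat_lit 294) (nat_lit 5) (nat_lit 445) (nat_lit 409) (nat_lit 286)) (XT.lf (nat_lit 0) (nat_lit 2001758663) (nat_lit 912) (nat_lit 985311528) (nat_lit 76) (nat_lit 8270573591) (nat_lit 293) (nat_lit 5) (nat_lit 305) (nat_lit 5) (nat_lit 294) (nat_lit 5) (nat_lit 446) (nat_lit 409) (nat_lit 285))) (XT.nd (nat_lit 78) (nat_lit 0) (nat_lit 0) (XT.lf (nat_lit 0) (nat_lit 3595797892) (nat_lit 836) (nat_lit 6680560331) (nat_lit 76) (nat_lit 1101369558) (nat_lit 283) (nat_lit 5) (nat_lit 294) (nat_lit 5) (nat_lit 284) (nat_lit 5) (nat_lit 447) (nat_lit 409) (nat_lit 284)) (XT.lf (nat_lit 0) (nat_lit 5232663773) (nat_lit 836) (nat_lit 1028570166) (nat_lit 76) (nat_lit 5238775697)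 (nat_lit 283) (nat_lit 5) (nat_lit 294) (nat_lit 5) (nat_lit 284) (nat_lit 5) (nat_lit 448) (nat_lit 409) (nat_lit 283))))) (XT.nd (nat_lit 234) (nat_lit 1520) (nat_lit 0) (XT.nd (nat_lit 78) (nat_lit 684) (nat_lit 0) (XT.lf (nat_lit 0) (nat_lit 4784190217) (nat_lit 760) (nat_lit 2133950850) (nat_lit 836) (nat_lit 4706293375) (nat_lit 273) (nat_lit 5) (nat_lit 283) (nat_lit 5) (nat_lit 284) (nat_lit 5) (nat_lit 449) (nat_lit 409) (nat_lit 282)) (XT.nd (nat_lit 78) (nat_lit 684) (nat_lit 0) (XT.lf (nat_lit 0) (nat_lit 8642767218) (nat_lit 836) (nat_lit 1052816063) (nat_lit 76) (nat_lit 2055670185) (nat_lit 273) (nat_lit 5) (nat_lit 284) (nat_lit 5) (nat_lit 274) (nat_lit 5) (nat_lit 450) (nat_lit 409) (nat_lit 281)) (XT.lf (nat_lit 0) (nat_lit 4885368650) (nat_lit 684) (nat_lit 5547675652) (nat_lit 760) (nat_lit 1446955621) (nat_lit 264) (nat_lit 5) (nat_lit 273) (nat_lit 5) (nat_lit 274) (nat_lit 5) (nat_lit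 451) (nat_lit 409) (nat_lit 280)))) (XT.nd (nat_lit 156) (nat_lit 684) (nat_lit 0) (XT.nd (nat_lit 78) (nat_lit 760) (nat_lit 0) (XT.lf (nat_lit 0) (nat_lit 237056560) (nat_lit 760) (nat_lit 1071289436) (nat_lit 76) (nat_lit 10703106786) (nat_lit 263) (nat_lit 5) (nat_lit 273) (nat_lit 5) (nat_lit 264) (nat_lit 5) (nat_lit 452) (nat_lit 409) (nat_lit 279)) (XT.lf (nat_lit 0) (nat_lit 1973465385) (nat_lit 836) (nat_lit 7152926747) (nat_lit 76) (nat_lit 3018202858) (nat_lit 253) (nat_lit 5) (nat_lit 264) (nat_lit 5) (nat_lit 254) (nat_lit 5) (nat_lit 453) (nat_lit 409) (nat_lit 278))) (XT.nd (nat_lit 78) (nat_lit 684) (nat_lit 0) (XT.lf (nat_lit 0) (nat_lit 3746361589) (nat_lit 836) (nat_lit 1113504333) (nat_lit 76) (nat_lit 7420512074) (nat_lit 253) (nat_lit 5) (nat_lit 264) (nat_lit 5) (nat_lit 254) (nat_lit 5) (nat_lit 454) (nat_lit 409) (nat_lit 277)) (XT.lf (nat_lit 0) (nat_lit 5098930304) (nat_lit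 684) (nat_lit 475026478) (nat_lit 760) (nat_lit 6844547941) (nat_lit 244) (nat_lit 5) (nat_lit 253) (nat_lit 5) (nat_lit 254) (nat_lit 5) (nat_lit 455) (nat_lit 409) (nat_lit 276))))))) (XT.nd (nat_lit 1014) (nat_lit 3724) (nat_lit 0) (XT.nd (nat_lit 468) (nat_lit 1824) (nat_lit 0) (XT.nd (nat_lit 234) (nat_lit 1368) (nat_lit 0) (XT.nd (nat_lit 78) (nat_lit 684) (nat_lit 0) (XT.lf (nat_lit 0) (nat_lit 7457887218) (nat_lit 760) (nat_lit 1149375015) (nat_lit 76) (nat_lit 3951748713) (nat_lit 244) (nat_lit 5) (nat_lit 254) (nat_lit 5) (nat_lit 245) (nat_lit 5) (nat_lit 456) (nat_lit 409) (nat_lit 275)) (XT.nd (nat_lit 78) (nat_lit 0) (nat_lit 0) (XT.lf (nat_lit 0) (nat_lit 5194668396) (nat_lit 684) (nat_lit 4208276626) (nat_lit 760) (nat_lit 3298925678) (nat_lit 235) (nat_lit 5) (nat_lit 244) (nat_lit 5) (nat_lit 245) (nat_lit 5) (nat_lit 457) (nat_lit 409) (nat_lit 274)) (XT.lf (nat_lit 0) (nat_lit 11383214738)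 (nat_lit 760) (nat_lit 1182838082) (nat_lit 76) (nat_lit 281620752) (nat_lit 235) (nat_lit 5) (nat_lit 245) (nat_lit 5) (nat_lit 236) (nat_lit 5) (nat_lit 458) (nat_lit 409) (nat_lit 273)))) (XT.nd (nat_lit 78) (nat_lit 684) (nat_lit 0) (XT.lf (nat_lit 0) (nat_lit 450924303) (nat_lit 684) (nat_lit 7703223397) (nat_lit 76) (nat_lit 4841212441) (nat_lit 226) (nat_lit 5) (nat_lit 235) (nat_lit 5) (nat_lit 227) (nat_lit 5) (nat_lit 459) (nat_lit 409) (nat_lit 272)) (XT.nd (nat_lit 78) (nat_lit 684) (nat_lit 0) (XT.lf (nat_lit 0) (nat_lit 2380077087) (nat_lit 684) (nat_lit 1257464725) (nat_lit 76) (nat_lit 9508375044) (nat_lit 226) (nat_lit 5) (nat_lit 235) (nat_lit 5) (nat_lit 227) (nat_lit 5) (nat_lit 460) (nat_lit 409) (nat_lit 271)) (XT.lf (nat_lit 0) (nat_lit 4376532285) (nat_lit 760) (nat_lit 7932116064) (nat_lit 76) (nat_lit 990273182) (nat_lit 217) (nat_lit 5) (nat_lit 227) (nat_lit 5) (nat_lit 218)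 (nat_lit 5) (nat_lit 461) (nat_lit 409) (nat_lit 270))))) (XT.nd (nat_lit 234) (nat_lit 1216) (nat_lit 0) (XT.nd (nat_lit 78) (nat_lit 608) (nat_lit 0) (XT.lf (nat_lit 0) (nat_lit 6432963234) (nat_lit 760) (nat_lit 1352746370) (nat_lit 76) (nat_lit 5668886759) (nat_lit 217) (nat_lit 5) (nat_lit 227) (nat_lit 5) (nat_lit 218) (nat_lit 5) (nat_lit 462) (nat_lit 409) (nat_lit 269)) (XT.nd (nat_lit 78) (nat_lit 0) (nat_lit 0) (XT.lf (nat_lit 0) (nat_lit 5415123586) (nat_lit 608) (nat_lit 3138266449) (nat_lit 684) (nat_lit 5059548089) (nat_lit 209) (nat_lit 5) (nat_lit 217) (nat_lit 5) (nat_lit 218) (nat_lit 5) (nat_lit 463) (nat_lit 409) (nat_lit 268)) (XT.lf (nat_lit 0) (nat_lit 10723611703) (nat_lit 684) (nat_lit 1462295442) (nat_lit 76) (nat_lit 1588402415) (nat_lit 209) (nat_lit 5) (nat_lit 218) (nat_lit 5) (nat_lit 210) (nat_lit 5) (nat_lit 464) (nat_lit 409) (nat_lit 267)))) (XT.nd (nat_lit 156) (nat_lit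 532) (nat_lit 0) (XT.nd (nat_lit 78) (nat_lit 76) (nat_lit 0) (XT.lf (nat_lit 0) (nat_lit 5444581130) (nat_lit 608) (nat_lit 7536874542) (nat_lit 684) (nat_lit 956578756) (nat_lit 201) (nat_lit 5) (nat_lit 209) (nat_lit 5) (nat_lit 210) (nat_lit 5) (nat_lit 465) (nat_lit 409) (nat_lit 266)) (XT.lf (nat_lit 0) (nat_lit 1161972460) (nat_lit 684) (nat_lit 1617195045) (nat_lit 76) (nat_lit 11325762734) (nat_lit 200) (nat_lit 5) (nat_lit 209) (nat_lit 5) (nat_lit 201) (nat_lit 5) (nat_lit 466) (nat_lit 409) (nat_lit 265))) (XT.nd (nat_lit 78) (nat_lit 0) (nat_lit 0) (XT.lf (nat_lit 0) (nat_lit 3347568547) (nat_lit 608) (nat_lit 8840370652) (nat_lit 76) (nat_lit 2086358421) (nat_lit 193) (nat_lit 5) (nat_lit 201) (nat_lit 5) (nat_lit 194) (nat_lit 5) (nat_lit 467) (nat_lit 409) (nat_lit 264)) (XT.lf (nat_lit 0) (nat_lit 5594703454) (nat_lit 608) (nat_lit 1831230187) (nat_lit 76) (nat_lit 7020771740) (nat_lit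 193) (nat_lit 5) (nat_lit 201) (nat_lit 5) (nat_lit 194) (nat_lit 5) (nat_lit 468) (nat_lit 409) (nat_lit 263)))))) (XT.nd (nat_lit 546) (nat_lit 1520) (nat_lit 0) (XT.nd (nat_lit 234) (nat_lit 1064) (nat_lit 0) (XT.nd (nat_lit 78) (nat_lit 532) (nat_lit 0) (XT.lf (nat_lit 0) (nat_lit 5374948403) (nat_lit 608) (nat_lit 2535453637) (nat_lit 684) (nat_lit 6711696220) (nat_lit 185) (nat_lit 5) (nat_lit 193) (nat_lit 5) (nat_lit 194) (nat_lit 5) (nat_lit 469) (nat_lit 409) (nat_lit 262)) (XT.nd (nat_lit 78) (nat_lit 532) (nat_lit 0) (XT.lf (nat_lit 0) (nat_lit 10289550723) (nat_lit 684) (nat_lit 2080451504) (nat_lit 76) (nat_lit 2430663248) (nat_lit 185) (nat_lit 5) (nat_lit 194) (nat_lit 5) (nat_lit 186) (nat_lit 5) (nat_lit 470) (nat_lit 409) (nat_lit 261)) (XT.lf (nat_lit 0) (nat_lit 5268390690) (nat_lit 532) (nat_lit 7487948253) (nat_lit 608) (nat_lit 2225672979) (nat_lit 178) (nat_lit 5) (nat_lit 185)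 (nat_lit 5) (nat_lit 186) (nat_lit 5) (nat_lit 471) (nat_lit 409) (nat_lit 260)))) (XT.nd (nat_lit 156) (nat_lit 456) (nat_lit 0) (XT.nd (nat_lit 78) (nat_lit 532) (nat_lit 0) (XT.lf (nat_lit 0) (nat_lit 107254388) (nat_lit 608) (nat_lit 2388632154) (nat_lit 76) (nat_lit 12671030525) (nat_lit 177) (nat_lit 5) (nat_lit 185) (nat_lit 5) (nat_lit 178) (nat_lit 5) (nat_lit 472) (nat_lit 409) (nat_lit 259)) (XT.lf (nat_lit 0) (nat_lit 2496798081) (nat_lit 608) (nat_lit 10249939063) (nat_lit 76) (nat_lit 2607702246) (nat_lit 170) (nat_lit 5) (nat_lit 178) (nat_lit 5) (nat_lit 171) (nat_lit 5) (nat_lit 473) (nat_lit 409) (nat_lit 258))) (XT.nd (nat_lit 78) (nat_lit 456) (nat_lit 0) (XT.lf (nat_lit 0) (nat_lit 4956223612) (nat_lit 608) (nat_lit 2795561282) (nat_lit 76) (nat_lit 7793493777) (nat_lit 170) (nat_lit 5) (nat_lit 178) (nat_lit 5) (nat_lit 171) (nat_lit 5) (nat_lit 474) (nat_lit 409) (nat_lit 257))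 (XT.lf (nat_lit 0) (nat_lit 4858478285) (nat_lit 456) (nat_lit 2627537934) (nat_lit 532) (nat_lit 8253503117) (nat_lit 164) (nat_lit 5) (nat_lit 170) (nat_lit 5) (nat_lit 171) (nat_lit 5) (nat_lit 475) (nat_lit 409) (nat_lit 256))))) (XT.nd (nat_lit 234) (nat_lit 988) (nat_lit 0) (XT.nd (nat_lit 78) (nat_lit 532) (nat_lit 0) (XT.lf (nat_lit 0) (nat_lit 10091898603) (nat_lit 532) (nat_lit 3264030139) (nat_lit 76) (nat_lit 2581214201) (nat_lit 164) (nat_lit 5) (nat_lit 171) (nat_lit 5) (nat_lit 165) (nat_lit 5) (nat_lit 476) (nat_lit 409) (nat_lit 255)) (XT.nd (nat_lit 78) (nat_lit 0) (nat_lit 0) (XT.lf (nat_lit 0) (nat_lit 4534395566) (nat_lit 532) (nat_lit 8252279885) (nat_lit 608) (nat_lit 3351315889) (nat_lit 157) (nat_lit 5) (nat_lit 164) (nat_lit 5) (nat_lit 165) (nat_lit 5) (nat_lit 477) (nat_lit 409) (nat_lit 254)) (XT.lf (nat_lit 0) (nat_lit 12520126135) (nat_lit 532) (nat_lit 3027174190) (nat_lit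 608) (nat_lit 795325026) (nat_lit 157) (nat_lit 5) (nat_lit 164) (nat_lit 5) (nat_lit 165) (nat_lit 5) (nat_lit 478) (nat_lit 409) (nat_lit 253)))) (XT.nd (nat_lit 156) (nat_lit 456) (nat_lit 0) (XT.nd (nat_lit 78) (nat_lit 0) (nat_lit 0) (XT.lf (nat_lit 0) (nat_lit 1820287381) (nat_lit 532) (nat_lit 12421956292) (nat_lit 76) (nat_lit 2308235229) (nat_lit 150) (nat_lit 5) (nat_lit 157) (nat_lit 5) (nat_lit 151) (nat_lit 5) (nat_lit 479) (nat_lit 409) (nat_lit 252)) (XT.lf (nat_lit 0) (nat_lit 4513703909) (nat_lit 532) (nat_lit 4509972439) (nat_lit 76) (nat_lit 7737992464) (nat_lit 150) (nat_lit 5) (nat_lit 157) (nat_lit 5) (nat_lit 151) (nat_lit 5) (nat_lit 480) (nat_lit 409) (nat_lit 251))) (XT.nd (nat_lit 78) (nat_lit 0) (nat_lit 0) (XT.lf (nat_lit 0) (nat_lit 3594758411) (nat_lit 456) (nat_lit 3680023786) (nat_lit 532) (nat_lit 9702031564) (nat_lit 144) (nat_lit 5) (nat_lit 150) (nat_lit 5) (nat_lit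 151) (nat_lit 5) (nat_lit 481) (nat_lit 409) (nat_lit 250)) (XT.lf (nat_lit 0) (nat_lit 10123581350) (nat_lit 532) (nat_lit 5297365270) (nat_lit 76) (nat_lit 1774671977) (nat_lit 144) (nat_lit 5) (nat_lit 151) (nat_lit 5) (nat_lit 145) (nat_lit 5) (nat_lit 482) (nat_lit 409) (nat_lit 249))))))))
noncomputable def xc173 : XT := (XT.nd (nat_lit 2106) (nat_lit 1216) (nat_lit 0) (XT.nd (nat_lit 1014) (nat_lit 2280) (nat_lit 0) (XT.nd (nat_lit 468) (nat_lit 1216) (nat_lit 0) (XT.nd (nat_lit 234) (nat_lit 380) (nat_lit 0) (XT.nd (nat_lit 78) (nat_lit 532) (nat_lit 0) (XT.lf (nat_lit 0) (nat_lit 2950867387) (nat_lit 456) (nat_lit 10112743919) (nat_lit 532) (nat_lit 4354509961) (nat_lit 138) (nat_lit 5) (nat_lit 144) (nat_lit 5) (nat_lit 145) (nat_lit 5) (nat_lit 483) (nat_lit 409) (nat_lit 248)) (XT.nd (nat_lit 78) (nat_lit 532) (nat_lit 0) (XT.lf (nat_lit 0) (nat_lit 11423472629) (nat_lit 456) (nat_lit 4665343517)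 (nat_lit 532) (nat_lit 1555737059) (nat_lit 138) (nat_lit 5) (nat_lit 144) (nat_lit 5) (nat_lit 145) (nat_lit 5) (nat_lit 484) (nat_lit 409) (nat_lit 247)) (XT.lf (nat_lit 0) (nat_lit 1293100685) (nat_lit 532) (nat_lit 15683033726) (nat_lit 76) (nat_lit 898994610) (nat_lit 131) (nat_lit 5) (nat_lit 138) (nat_lit 5) (nat_lit 132) (nat_lit 5) (nat_lit 485) (nat_lit 409) (nat_lit 246)))) (XT.nd (nat_lit 78) (nat_lit 380) (nat_lit 0) (XT.lf (nat_lit 0) (nat_lit 4242040239) (nat_lit 532) (nat_lit 7305460691) (nat_lit 76) (nat_lit 6561336942) (nat_lit 131) (nat_lit 5) (nat_lit 138) (nat_lit 5) (nat_lit 132) (nat_lit 5) (nat_lit 486) (nat_lit 409) (nat_lit 245)) (XT.nd (nat_lit 78) (nat_lit 0) (nat_lit 0) (XT.lf (nat_lit 0) (nat_lit 1243852976) (nat_lit 380) (nat_lit 6005375047) (nat_lit 456) (nat_lit 11098013679) (nat_lit 126) (nat_lit 5) (nat_lit 131) (nat_lit 5) (nat_lit 132) (nat_lit 5) (nat_lit 487) (nat_lit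 409) (nat_lit 244)) (XT.lf (nat_lit 0) (nat_lit 10051135941) (nat_lit 380) (nat_lit 305735105) (nat_lit 456) (nat_lit 8232742401) (nat_lit 126) (nat_lit 5) (nat_lit 131) (nat_lit 5) (nat_lit 132) (nat_lit 5) (nat_lit 488) (nat_lit 409) (nat_lit 243))))) (XT.nd (nat_lit 234) (nat_lit 760) (nat_lit 0) (XT.nd (nat_lit 78) (nat_lit 76) (nat_lit 0) (XT.lf (nat_lit 0) (nat_lit 152000712) (nat_lit 380) (nat_lit 13402851641) (nat_lit 456) (nat_lit 5281422518) (nat_lit 121) (nat_lit 5) (nat_lit 126) (nat_lit 5) (nat_lit 127) (nat_lit 5) (nat_lit 489) (nat_lit 409) (nat_lit 242)) (XT.nd (nat_lit 78) (nat_lit 76) (nat_lit 0) (XT.lf (nat_lit 0) (nat_lit 9118093056) (nat_lit 380) (nat_lit 7749537656) (nat_lit 456) (nat_lit 2219227896) (nat_lit 121) (nat_lit 5) (nat_lit 126) (nat_lit 5) (nat_lit 127) (nat_lit 5) (nat_lit 490) (nat_lit 409) (nat_lit 241)) (XT.lf (nat_lit 0) (nat_lit 883985527) (nat_lit 456) (nat_lit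 1096586363) (nat_lit 76) (nat_lit 17361937646) (nat_lit 120) (nat_lit 5) (nat_lit 126) (nat_lit 5) (nat_lit 121) (nat_lit 5) (nat_lit 491) (nat_lit 409) (nat_lit 240)))) (XT.nd (nat_lit 156) (nat_lit 380) (nat_lit 0) (XT.nd (nat_lit 78) (nat_lit 0) (nat_lit 0) (XT.lf (nat_lit 0) (nat_lit 4089290305) (nat_lit 456) (nat_lit 11595728545) (nat_lit 76) (nat_lit 3916571898) (nat_lit 115) (nat_lit 5) (nat_lit 121) (nat_lit 5) (nat_lit 116) (nat_lit 5) (nat_lit 492) (nat_lit 409) (nat_lit 239)) (XT.lf (nat_lit 0) (nat_lit 7371087471) (nat_lit 456) (nat_lit 2585255416) (nat_lit 76) (nat_lit 9909268360) (nat_lit 115) (nat_lit 5) (nat_lit 121) (nat_lit 5) (nat_lit 116) (nat_lit 5) (nat_lit 493) (nat_lit 409) (nat_lit 238))) (XT.nd (nat_lit 78) (nat_lit 0) (nat_lit 0) (XT.lf (nat_lit 0) (nat_lit 6681678032) (nat_lit 380) (nat_lit 4072246509) (nat_lit 456) (nat_lit 9380284820) (nat_lit 110) (nat_lit 5) (nat_lit 115)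 (nat_lit 5) (nat_lit 116) (nat_lit 5) (nat_lit 494) (nat_lit 409) (nat_lit 237)) (XT.lf (nat_lit 0) (nat_lit 14226492427) (nat_lit 456) (nat_lit 4262927804) (nat_lit 76) (nat_lit 1918322905) (nat_lit 110) (nat_lit 5) (nat_lit 116) (nat_lit 5) (nat_lit 111) (nat_lit 5) (nat_lit 495) (nat_lit 409) (nat_lit 236)))))) (XT.nd (nat_lit 546) (nat_lit 1216) (nat_lit 0) (XT.nd (nat_lit 234) (nat_lit 304) (nat_lit 0) (XT.nd (nat_lit 78) (nat_lit 456) (nat_lit 0) (XT.lf (nat_lit 0) (nat_lit 5139684996) (nat_lit 304) (nat_lit 12681403631) (nat_lit 380) (nat_lit 2864612499) (nat_lit 106) (nat_lit 5) (nat_lit 110) (nat_lit 5) (nat_lit 111) (nat_lit 5) (nat_lit 496) (nat_lit 409) (nat_lit 235)) (XT.nd (nat_lit 78) (nat_lit 380) (nat_lit 0) (XT.lf (nat_lit 0) (nat_lit 532618262) (nat_lit 380) (nat_lit 6195322011) (nat_lit 76) (nat_lit 14240794412) (nat_lit 105) (nat_lit 5) (nat_lit 110) (nat_lit 5) (nat_lit 106) (nat_lit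 5) (nat_lit 497) (nat_lit 409) (nat_lit 234)) (XT.lf (nat_lit 0) (nat_lit 3356399485) (nat_lit 380) (nat_lit 617278755) (nat_lit 456) (nat_lit 17283091922) (nat_lit 100) (nat_lit 5) (nat_lit 105) (nat_lit 5) (nat_lit 106) (nat_lit 5) (nat_lit 498) (nat_lit 409) (nat_lit 233)))) (XT.nd (nat_lit 156) (nat_lit 0) (nat_lit 0) (XT.nd (nat_lit 78) (nat_lit 304) (nat_lit 0) (XT.lf (nat_lit 0) (nat_lit 7554337866) (nat_lit 456) (nat_lit 8414430916) (nat_lit 76) (nat_lit 5580386690) (nat_lit 100) (nat_lit 5) (nat_lit 106) (nat_lit 5) (nat_lit 101) (nat_lit 5) (nat_lit 499) (nat_lit 409) (nat_lit 232)) (XT.lf (nat_lit 0) (nat_lit 1262824243) (nat_lit 304) (nat_lit 9948690216) (nat_lit 380) (nat_lit 10635780554) (nat_lit 96) (nat_lit 5) (nat_lit 100) (nat_lit 5) (nat_lit 101) (nat_lit 5) (nat_lit 500) (nat_lit 409) (nat_lit 231))) (XT.nd (nat_lit 78) (nat_lit 0) (nat_lit 0) (XT.lf (nat_lit 0) (nat_lit 11236878270)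 (nat_lit 304) (nat_lit 3754112928) (nat_lit 380) (nat_lit 7159427525) (nat_lit 96) (nat_lit 5) (nat_lit 100) (nat_lit 5) (nat_lit 101) (nat_lit 5) (nat_lit 501) (nat_lit 409) (nat_lit 230)) (XT.lf (nat_lit 0) (nat_lit 18855519369) (nat_lit 380) (nat_lit 1076560673) (nat_lit 76) (nat_lit 2527340048) (nat_lit 96) (nat_lit 5) (nat_lit 101) (nat_lit 5) (nat_lit 97) (nat_lit 5) (nat_lit 502) (nat_lit 409) (nat_lit 229))))) (XT.nd (nat_lit 234) (nat_lit 532) (nat_lit 0) (XT.nd (nat_lit 78) (nat_lit 304) (nat_lit 0) (XT.lf (nat_lit 0) (nat_lit 99451816) (nat_lit 380) (nat_lit 13733376456) (nat_lit 76) (nat_lit 8940234242) (nat_lit 91) (nat_lit 5) (nat_lit 96) (nat_lit 5) (nat_lit 92) (nat_lit 5) (nat_lit 503) (nat_lit 409) (nat_lit 228)) (XT.nd (nat_lit 78) (nat_lit 304) (nat_lit 0) (XT.lf (nat_lit 0) (nat_lit 3828905736) (nat_lit 380) (nat_lit 3754435108) (nat_lit 76) (nat_lit 15509158861) (nat_lit 91) (nat_lit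 5) (nat_lit 96) (nat_lit 5) (nat_lit 92) (nat_lit 5) (nat_lit 504) (nat_lit 409) (nat_lit 227)) (XT.lf (nat_lit 0) (nat_lit 6498989243) (nat_lit 304) (nat_lit 1169266340) (nat_lit 380) (nat_lit 15749368006) (nat_lit 87) (nat_lit 5) (nat_lit 91) (nat_lit 5) (nat_lit 92) (nat_lit 5) (nat_lit 505) (nat_lit 409) (nat_lit 226)))) (XT.nd (nat_lit 156) (nat_lit 228) (nat_lit 0) (XT.nd (nat_lit 78) (nat_lit 304) (nat_lit 0) (XT.lf (nat_lit 0) (nat_lit 11637796360) (nat_lit 380) (nat_lit 6785805468) (nat_lit 76) (nat_lit 5324584047) (nat_lit 87) (nat_lit 5) (nat_lit 92) (nat_lit 5) (nat_lit 88) (nat_lit 5) (nat_lit 506) (nat_lit 409) (nat_lit 225)) (XT.lf (nat_lit 0) (nat_lit 3578693943) (nat_lit 304) (nat_lit 12132304109) (nat_lit 380) (nat_lit 8373879879) (nat_lit 83) (nat_lit 5) (nat_lit 87) (nat_lit 5) (nat_lit 88) (nat_lit 5) (nat_lit 507) (nat_lit 409) (nat_lit 224))) (XT.nd (nat_lit 78) (nat_lit 228) (nat_lit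 0) (XT.lf (nat_lit 0) (nat_lit 14232355908) (nat_lit 304) (nat_lit 5672201452) (nat_lit 380) (nat_lit 4522972446) (nat_lit 83) (nat_lit 5) (nat_lit 87) (nat_lit 5) (nat_lit 88) (nat_lit 5) (nat_lit 508) (nat_lit 409) (nat_lit 223)) (XT.lf (nat_lit 0) (nat_lit 310145048) (nat_lit 228) (nat_lit 23873276346) (nat_lit 304) (nat_lit 593588427) (nat_lit 80) (nat_lit 5) (nat_lit 83) (nat_lit 5) (nat_lit 84) (nat_lit 5) (nat_lit 509) (nat_lit 409) (nat_lit 222))))))) (XT.nd (nat_lit 51714) (nat_lit 0) (nat_lit 26144) (XT.nd (nat_lit 546) (nat_lit 532) (nat_lit 0) (XT.nd (nat_lit 234) (nat_lit 304) (nat_lit 0) (XT.nd (nat_lit 78) (nat_lit 304) (nat_lit 0) (XT.lf (nat_lit 0) (nat_lit 3469517726) (nat_lit 304) (nat_lit 14038577070) (nat_lit 76) (nat_lit 7622946605) (nat_lit 79) (nat_lit 5) (nat_lit 83) (nat_lit 5) (nat_lit 80) (nat_lit 5) (nat_lit 510) (nat_lit 409) (nat_lit 221)) (XT.nd (nat_lit 78) (nat_lit 304)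 (nat_lit 0) (XT.lf (nat_lit 0) (nat_lit 7599555474) (nat_lit 304) (nat_lit 3415506428) (nat_lit 76) (nat_lit 14477144441) (nat_lit 79) (nat_lit 5) (nat_lit 83) (nat_lit 5) (nat_lit 80) (nat_lit 5) (nat_lit 511) (nat_lit 409) (nat_lit 220)) (XT.lf (nat_lit 0) (nat_lit 7508846909) (nat_lit 304) (nat_lit 4345834965) (nat_lit 380) (nat_lit 14005066439) (nat_lit 75) (nat_lit 5) (nat_lit 79) (nat_lit 5) (nat_lit 80) (nat_lit 5) (nat_lit 512) (nat_lit 409) (nat_lit 219)))) (XT.nd (nat_lit 156) (nat_lit 76) (nat_lit 0) (XT.nd (nat_lit 78) (nat_lit 228) (nat_lit 0) (XT.lf (nat_lit 0) (nat_lit 16227707458) (nat_lit 380) (nat_lit 7562000665) (nat_lit 76) (nat_lit 2444280482) (nat_lit 75) (nat_lit 5) (nat_lit 80) (nat_lit 5) (nat_lit 76) (nat_lit 5) (nat_lit 513) (nat_lit 409) (nat_lit 218)) (XT.lf (nat_lit 0) (nat_lit 3449629914) (nat_lit 228) (nat_lit 17283637368) (nat_lit 304) (nat_lit 5881548299) (nat_lit 72)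 (nat_lit 5) (nat_lit 75) (nat_lit 5) (nat_lit 76) (nat_lit 5) (nat_lit 514) (nat_lit 409) (nat_lit 217))) (XT.nd (nat_lit 78) (nat_lit 76) (nat_lit 0) (XT.lf (nat_lit 0) (nat_lit 14774550257) (nat_lit 228) (nat_lit 10599087473) (nat_lit 304) (nat_lit 1628730663) (nat_lit 72) (nat_lit 5) (nat_lit 75) (nat_lit 5) (nat_lit 76) (nat_lit 5) (nat_lit 515) (nat_lit 409) (nat_lit 216)) (XT.lf (nat_lit 0) (nat_lit 2667642956) (nat_lit 304) (nat_lit 1098637806) (nat_lit 76) (nat_lit 23631162254) (nat_lit 71) (nat_lit 5) (nat_lit 75) (nat_lit 5) (nat_lit 72) (nat_lit 5) (nat_lit 516) (nat_lit 409) (nat_lit 215))))) (XT.nd (nat_lit 234) (nat_lit 0) (nat_lit 0) (XT.nd (nat_lit 78) (nat_lit 228) (nat_lit 0) (XT.lf (nat_lit 0) (nat_lit 7110919833) (nat_lit 380) (nat_lit 17451098436) (nat_lit 76) (nat_lit 3236532951) (nat_lit 67) (nat_lit 5) (nat_lit 72) (nat_lit 5) (nat_lit 68) (nat_lit 5) (nat_lit 517) (nat_lit 409)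 (nat_lit 214)) (XT.nd (nat_lit 78) (nat_lit 228) (nat_lit 0) (XT.lf (nat_lit 0) (nat_lit 11669607551) (nat_lit 380) (nat_lit 6204366708) (nat_lit 76) (nat_lit 10333179457) (nat_lit 67) (nat_lit 5) (nat_lit 72) (nat_lit 5) (nat_lit 68) (nat_lit 5) (nat_lit 518) (nat_lit 409) (nat_lit 213)) (XT.lf (nat_lit 0) (nat_lit 5328160813) (nat_lit 228) (nat_lit 11020198032) (nat_lit 304) (nat_lit 12274994597) (nat_lit 64) (nat_lit 5) (nat_lit 67) (nat_lit 5) (nat_lit 68) (nat_lit 5) (nat_lit 519) (nat_lit 409) (nat_lit 212)))) (XT.nd (nat_lit 50778) (nat_lit 0) (nat_lit 28728) (XT.nd (nat_lit 78) (nat_lit 0) (nat_lit 0) (XT.lf (nat_lit 0) (nat_lit 17166481414) (nat_lit 228) (nat_lit 3990187861) (nat_lit 304) (nat_lit 7890491121) (nat_lit 64) (nat_lit 5) (nat_lit 67) (nat_lit 5) (nat_lit 68) (nat_lit 5) (nat_lit 520) (nat_lit 409) (nat_lit 211)) (XT.lf (nat_lit 0) (nat_lit 26076234604) (nat_lit 304) (nat_lit 267400689)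 (nat_lit 76) (nat_lit 3135509285) (nat_lit 64) (nat_lit 5) (nat_lit 68) (nat_lit 5) (nat_lit 65) (nat_lit 5) (nat_lit 521) (nat_lit 409) (nat_lit 210))) (XT.nd (nat_lit 78) (nat_lit 0) (nat_lit 0) (XT.lf (nat_lit 0) (nat_lit 1101182200) (nat_lit 0) (nat_lit 1101182200) (nat_lit 1292) (nat_lit 1897871793) (nat_lit 442) (nat_lit 5) (nat_lit 442) (nat_lit 3) (nat_lit 459) (nat_lit 3) (nat_lit 410) (nat_lit 410) (nat_lit 320)) (XT.lf (nat_lit 0) (nat_lit 5517298856) (nat_lit 1292) (nat_lit 2332512405) (nat_lit 1368) (nat_lit 410024922) (nat_lit 442) (nat_lit 5) (nat_lit 459) (nat_lit 3) (nat_lit 460) (nat_lit 5) (nat_lit 411) (nat_lit 410) (nat_lit 319)))))) (XT.nd (nat_lit 546) (nat_lit 1292) (nat_lit 0) (XT.nd (nat_lit 234) (nat_lit 0) (nat_lit 0) (XT.nd (nat_lit 78) (nat_lit 1292) (nat_lit 0) (XT.lf (nat_lit 76) (nat_lit 1395449757) (nat_lit 0) (nat_lit 5252449711) (nat_lit 1368) (nat_lit 1672605526) (nat_lit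 443) (nat_lit 5) (nat_lit 442) (nat_lit 5) (nat_lit 460) (nat_lit 5) (nat_lit 412) (nat_lit 410) (nat_lit 318)) (XT.nd (nat_lit 78) (nat_lit 1292) (nat_lit 0) (XT.lf (nat_lit 76) (nat_lit 5215023729) (nat_lit 0) (nat_lit 2574326357) (nat_lit 1368) (nat_lit 593305007) (nat_lit 443) (nat_lit 5) (nat_lit 442) (nat_lit 5) (nat_lit 460) (nat_lit 5) (nat_lit 413) (nat_lit 410) (nat_lit 317)) (XT.lf (nat_lit 0) (nat_lit 479246754) (nat_lit 1368) (nat_lit 7792050242) (nat_lit 1444) (nat_lit 175150245) (nat_lit 425) (nat_lit 5) (nat_lit 443) (nat_lit 5) (nat_lit 444) (nat_lit 5) (nat_lit 414) (nat_lit 410) (nat_lit 316)))) (XT.nd (nat_lit 156) (nat_lit 0) (nat_lit 76) (XT.nd (nat_lit 78) (nat_lit 0) (nat_lit 0) (XT.lf (nat_lit 0) (nat_lit 1577186811) (nat_lit 1368) (nat_lit 3951621253) (nat_lit 1444) (nat_lit 2982421888) (nat_lit 425) (nat_lit 5) (nat_lit 443) (nat_lit 5) (nat_lit 444) (nat_lit 5) (nat_lit 415)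 (nat_lit 410) (nat_lit 315)) (XT.lf (nat_lit 0) (nat_lit 2671035103) (nat_lit 1368) (nat_lit 49302014) (nat_lit 1444) (nat_lit 5857522395) (nat_lit 425) (nat_lit 5) (nat_lit 443) (nat_lit 5) (nat_lit 444) (nat_lit 5) (nat_lit 416) (nat_lit 410) (nat_lit 314))) (XT.nd (nat_lit 78) (nat_lit 0) (nat_lit 0) (XT.lf (nat_lit 0) (nat_lit 3788165038) (nat_lit 1368) (nat_lit 4678539947) (nat_lit 1444) (nat_lit 179118176) (nat_lit 426) (nat_lit 5) (nat_lit 444) (nat_lit 5) (nat_lit 445) (nat_lit 5) (nat_lit 417) (nat_lit 410) (nat_lit 313)) (XT.lf (nat_lit 0) (nat_lit 4920921604) (nat_lit 1368) (nat_lit 683418800) (nat_lit 1444) (nat_lit 3110969011) (nat_lit 426) (nat_lit 5) (nat_lit 444) (nat_lit 5) (nat_lit 445) (nat_lit 5) (nat_lit 418) (nat_lit 410) (nat_lit 312))))) (XT.nd (nat_lit 234) (nat_lit 1368) (nat_lit 0) (XT.nd (nat_lit 78) (nat_lit 0) (nat_lit 76) (XT.lf (nat_lit 76) (nat_lit 3421646836) (nat_lit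 0) (nat_lit 2652329045) (nat_lit 1444) (nat_lit 2712285102) (nat_lit 427) (nat_lit 5) (nat_lit 426) (nat_lit 5) (nat_lit 445) (nat_lit 5) (nat_lit 419) (nat_lit 410) (nat_lit 311)) (XT.nd (nat_lit 78) (nat_lit 0) (nat_lit 0) (XT.lf (nat_lit 0) (nat_lit 7232911273) (nat_lit 1368) (nat_lit 1258130434) (nat_lit 1444) (nat_lit 367961361) (nat_lit 427) (nat_lit 5) (nat_lit 445) (nat_lit 5) (nat_lit 446) (nat_lit 5) (nat_lit 420) (nat_lit 410) (nat_lit 310)) (XT.lf (nat_lit 76) (nat_lit 2936420878) (nat_lit 0) (nat_lit 5491582320) (nat_lit 1444) (nat_lit 504964578) (nat_lit 428) (nat_lit 5) (nat_lit 427) (nat_lit 5) (nat_lit 446) (nat_lit 5) (nat_lit 421) (nat_lit 410) (nat_lit 309)))) (XT.nd (nat_lit 156) (nat_lit 0) (nat_lit 76) (XT.nd (nat_lit 78) (nat_lit 0) (nat_lit 76) (XT.lf (nat_lit 0) (nat_lit 615242503) (nat_lit 1444) (nat_lit 1795775505) (nat_lit 1520) (nat_lit 6597636475) (nat_lit 408) (nat_lit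 5) (nat_lit 427) (nat_lit 5) (nat_lit 428) (nat_lit 5) (nat_lit 422) (nat_lit 410) (nat_lit 308)) (XT.lf (nat_lit 0) (nat_lit 1749276532) (nat_lit 1444) (nat_lit 6587325449) (nat_lit 1520) (nat_lit 749248263) (nat_lit 409) (nat_lit 5) (nat_lit 428) (nat_lit 5) (nat_lit 429) (nat_lit 5) (nat_lit 423) (nat_lit 410) (nat_lit 307))) (XT.nd (nat_lit 78) (nat_lit 0) (nat_lit 0) (XT.lf (nat_lit 0) (nat_lit 2911487948) (nat_lit 1444) (nat_lit 2292722063) (nat_lit 1520) (nat_lit 3960295230) (nat_lit 409) (nat_lit 5) (nat_lit 428) (nat_lit 5) (nat_lit 429) (nat_lit 5) (nat_lit 424) (nat_lit 410) (nat_lit 306)) (XT.lf (nat_lit 76) (nat_lit 2100240323) (nat_lit 0) (nat_lit 1988181869) (nat_lit 1520) (nat_lit 5156506335) (nat_lit 410) (nat_lit 5) (nat_lit 409) (nat_lit 5) (nat_lit 429) (nat_lit 5) (nat_lit 425) (nat_lit 410) (nat_lit 305))))))))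
noncomputable def xc174 : XT := (XT.nd (nat_lit 2106) (nat_lit 8664) (nat_lit 0) (XT.nd (nat_lit 1014) (nat_lit 6612) (nat_lit 0) (XT.nd (nat_lit 468) (nat_lit 3040) (nat_lit 0) (XT.nd (nat_lit 234) (nat_lit 1444) (nat_lit 0) (XT.nd (nat_lit 78) (nat_lit 0) (nat_lit 0) (XT.lf (nat_lit 0) (nat_lit 5290996063) (nat_lit 1444) (nat_lit 2738487656) (nat_lit 1520) (nat_lit 1297458818) (nat_lit 410) (nat_lit 5) (nat_lit 429) (nat_lit 5) (nat_lit 430) (nat_lit 5) (nat_lit 426) (nat_lit 410) (nat_lit 304)) (XT.nd (nat_lit 78) (nat_lit 0) (nat_lit 0) (XT.lf (nat_lit 76) (nat_lit 1750447175) (nat_lit 0) (nat_lit 4770357121) (nat_lit 1520) (nat_lit 2889752672) (nat_lit 411) (nat_lit 5) (nat_lit 410) (nat_lit 5) (nat_lit 430) (nat_lit 5) (nat_lit 427) (nat_lit 410) (nat_lit 303)) (XT.lf (nat_lit 76) (nat_lit 6351201104) (nat_lit 0) (nat_lit 1421356030) (nat_lit 1520) (nat_lit 1723362917) (nat_lit 411) (nat_lit 5)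 (nat_lit 410) (nat_lit 5) (nat_lit 430) (nat_lit 5) (nat_lit 428) (nat_lit 410) (nat_lit 302)))) (XT.nd (nat_lit 78) (nat_lit 1520) (nat_lit 0) (XT.lf (nat_lit 76) (nat_lit 1451812187) (nat_lit 0) (nat_lit 7599331326) (nat_lit 1520) (nat_lit 531833789) (nat_lit 412) (nat_lit 5) (nat_lit 411) (nat_lit 5) (nat_lit 431) (nat_lit 5) (nat_lit 429) (nat_lit 410) (nat_lit 301)) (XT.nd (nat_lit 78) (nat_lit 0) (nat_lit 0) (XT.lf (nat_lit 0) (nat_lit 684787395) (nat_lit 1520) (nat_lit 3517893796) (nat_lit 1596) (nat_lit 5468823215) (nat_lit 391) (nat_lit 5) (nat_lit 411) (nat_lit 5) (nat_lit 412) (nat_lit 5) (nat_lit 430) (nat_lit 410) (nat_lit 300)) (XT.lf (nat_lit 76) (nat_lit 1184507887) (nat_lit 0) (nat_lit 721780320) (nat_lit 1596) (nat_lit 7855711723) (nat_lit 392) (nat_lit 5) (nat_lit 391) (nat_lit 5) (nat_lit 412) (nat_lit 5) (nat_lit 431) (nat_lit 410) (nat_lit 299))))) (XT.nd (nat_lit 234) (nat_lit 3116)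 (nat_lit 0) (XT.nd (nat_lit 78) (nat_lit 0) (nat_lit 0) (XT.lf (nat_lit 0) (nat_lit 3174644969) (nat_lit 1520) (nat_lit 3859206620) (nat_lit 1596) (nat_lit 2820026390) (nat_lit 392) (nat_lit 5) (nat_lit 412) (nat_lit 5) (nat_lit 413) (nat_lit 5) (nat_lit 432) (nat_lit 410) (nat_lit 298)) (XT.nd (nat_lit 78) (nat_lit 0) (nat_lit 76) (XT.lf (nat_lit 76) (nat_lit 945879108) (nat_lit 0) (nat_lit 3514094003) (nat_lit 1596) (nat_lit 5487809113) (nat_lit 393) (nat_lit 5) (nat_lit 392) (nat_lit 5) (nat_lit 413) (nat_lit 5) (nat_lit 433) (nat_lit 410) (nat_lit 297)) (XT.lf (nat_lit 0) (nat_lit 5778559826) (nat_lit 1520) (nat_lit 4159850313) (nat_lit 76) (nat_lit 105023687) (nat_lit 393) (nat_lit 5) (nat_lit 413) (nat_lit 5) (nat_lit 394) (nat_lit 5) (nat_lit 434) (nat_lit 410) (nat_lit 296)))) (XT.nd (nat_lit 156) (nat_lit 1672) (nat_lit 0) (XT.nd (nat_lit 78) (nat_lit 0) (nat_lit 0) (XT.lf (nat_lit 0) (nat_lit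 750399804) (nat_lit 1520) (nat_lit 6382624838) (nat_lit 1596) (nat_lit 3007803605) (nat_lit 373) (nat_lit 5) (nat_lit 393) (nat_lit 5) (nat_lit 394) (nat_lit 5) (nat_lit 435) (nat_lit 410) (nat_lit 295)) (XT.lf (nat_lit 0) (nat_lit 5800129651) (nat_lit 1520) (nat_lit 2723993341) (nat_lit 1596) (nat_lit 1715876202) (nat_lit 373) (nat_lit 5) (nat_lit 393) (nat_lit 5) (nat_lit 394) (nat_lit 5) (nat_lit 436) (nat_lit 410) (nat_lit 294))) (XT.nd (nat_lit 78) (nat_lit 76) (nat_lit 0) (XT.lf (nat_lit 0) (nat_lit 595753689) (nat_lit 1596) (nat_lit 9339711419) (nat_lit 1672) (nat_lit 405859158) (nat_lit 352) (nat_lit 5) (nat_lit 373) (nat_lit 5) (nat_lit 374) (nat_lit 5) (nat_lit 437) (nat_lit 410) (nat_lit 293)) (XT.lf (nat_lit 0) (nat_lit 948316286) (nat_lit 1672) (nat_lit 4691457147) (nat_lit 76) (nat_lit 4804196798) (nat_lit 351) (nat_lit 5) (nat_lit 373) (nat_lit 5) (nat_lit 352) (nat_lit 5) (nat_lit 438)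 (nat_lit 410) (nat_lit 292)))))) (XT.nd (nat_lit 546) (nat_lit 2204) (nat_lit 0) (XT.nd (nat_lit 234) (nat_lit 1748) (nat_lit 0) (XT.nd (nat_lit 78) (nat_lit 988) (nat_lit 0) (XT.lf (nat_lit 0) (nat_lit 451906335) (nat_lit 1672) (nat_lit 1857653032) (nat_lit 1748) (nat_lit 8239365758) (nat_lit 329) (nat_lit 5) (nat_lit 351) (nat_lit 5) (nat_lit 352) (nat_lit 5) (nat_lit 439) (nat_lit 410) (nat_lit 291)) (XT.nd (nat_lit 78) (nat_lit 988) (nat_lit 0) (XT.lf (nat_lit 0) (nat_lit 3725444691) (nat_lit 1748) (nat_lit 4922163187) (nat_lit 76) (nat_lit 2007840575) (nat_lit 329) (nat_lit 5) (nat_lit 352) (nat_lit 5) (nat_lit 330) (nat_lit 5) (nat_lit 440) (nat_lit 410) (nat_lit 290)) (XT.lf (nat_lit 0) (nat_lit 333208054) (nat_lit 988) (nat_lit 4833984534) (nat_lit 1064) (nat_lit 5596976098) (nat_lit 316) (nat_lit 5) (nat_lit 329) (nat_lit 5) (nat_lit 330) (nat_lit 5) (nat_lit 441) (nat_lit 410) (nat_lit 289))))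 (XT.nd (nat_lit 156) (nat_lit 912) (nat_lit 0) (XT.nd (nat_lit 78) (nat_lit 836) (nat_lit 0) (XT.lf (nat_lit 0) (nat_lit 5745457726) (nat_lit 988) (nat_lit 908661860) (nat_lit 1064) (nat_lit 4220633852) (nat_lit 316) (nat_lit 5) (nat_lit 329) (nat_lit 5) (nat_lit 330) (nat_lit 5) (nat_lit 442) (nat_lit 410) (nat_lit 288)) (XT.lf (nat_lit 0) (nat_lit 246527921) (nat_lit 836) (nat_lit 7929605772) (nat_lit 912) (nat_lit 2811325885) (nat_lit 305) (nat_lit 5) (nat_lit 316) (nat_lit 5) (nat_lit 317) (nat_lit 5) (nat_lit 443) (nat_lit 410) (nat_lit 287))) (XT.nd (nat_lit 78) (nat_lit 912) (nat_lit 0) (XT.lf (nat_lit 0) (nat_lit 5778386181) (nat_lit 836) (nat_lit 3974476000) (nat_lit 912) (nat_lit 1349088514) (nat_lit 305) (nat_lit 5) (nat_lit 316) (nat_lit 5) (nat_lit 317) (nat_lit 5) (nat_lit 444) (nat_lit 410) (nat_lit 286)) (XT.lf (nat_lit 0) (nat_lit 126232942) (nat_lit 912) (nat_lit 11030577985) (nat_lit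 76) (nat_lit 62203781) (nat_lit 293) (nat_lit 5) (nat_lit 305) (nat_lit 5) (nat_lit 294) (nat_lit 5) (nat_lit 445) (nat_lit 410) (nat_lit 285))))) (XT.nd (nat_lit 234) (nat_lit 1444) (nat_lit 0) (XT.nd (nat_lit 78) (nat_lit 760) (nat_lit 0) (XT.lf (nat_lit 0) (nat_lit 1659589205) (nat_lit 912) (nat_lit 5505443556) (nat_lit 76) (nat_lit 4172292433) (nat_lit 293) (nat_lit 5) (nat_lit 305) (nat_lit 5) (nat_lit 294) (nat_lit 5) (nat_lit 446) (nat_lit 410) (nat_lit 284)) (XT.nd (nat_lit 78) (nat_lit 0) (nat_lit 0) (XT.lf (nat_lit 0) (nat_lit 116936656) (nat_lit 760) (nat_lit 3092037373) (nat_lit 836) (nat_lit 8249335724) (nat_lit 283) (nat_lit 5) (nat_lit 293) (nat_lit 5) (nat_lit 294) (nat_lit 5) (nat_lit 447) (nat_lit 410) (nat_lit 283)) (XT.lf (nat_lit 0) (nat_lit 4818245521) (nat_lit 836) (nat_lit 5676740593) (nat_lit 76) (nat_lit 1086164707) (nat_lit 283) (nat_lit 5) (nat_lit 294) (nat_lit 5) (nat_lit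 284) (nat_lit 5) (nat_lit 448) (nat_lit 410) (nat_lit 282)))) (XT.nd (nat_lit 156) (nat_lit 684) (nat_lit 0) (XT.nd (nat_lit 78) (nat_lit 0) (nat_lit 0) (XT.lf (nat_lit 0) (nat_lit 66863737) (nat_lit 760) (nat_lit 6398859661) (nat_lit 836) (nat_lit 5240619399) (nat_lit 273) (nat_lit 5) (nat_lit 283) (nat_lit 5) (nat_lit 284) (nat_lit 5) (nat_lit 449) (nat_lit 410) (nat_lit 281)) (XT.lf (nat_lit 0) (nat_lit 5987666028) (nat_lit 760) (nat_lit 2181885505) (nat_lit 836) (nat_lit 3664033288) (nat_lit 273) (nat_lit 5) (nat_lit 283) (nat_lit 5) (nat_lit 284) (nat_lit 5) (nat_lit 450) (nat_lit 410) (nat_lit 280))) (XT.nd (nat_lit 78) (nat_lit 0) (nat_lit 0) (XT.lf (nat_lit 0) (nat_lit 35578985) (nat_lit 684) (nat_lit 9871464307) (nat_lit 760) (nat_lit 2056350596) (nat_lit 264) (nat_lit 5) (nat_lit 273) (nat_lit 5) (nat_lit 274) (nat_lit 5) (nat_lit 451) (nat_lit 410) (nat_lit 279)) (XT.lf (nat_lit 0) (nat_lit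 6084764816) (nat_lit 684) (nat_lit 5633887117) (nat_lit 760) (nat_lit 376373532) (nat_lit 264) (nat_lit 5) (nat_lit 273) (nat_lit 5) (nat_lit 274) (nat_lit 5) (nat_lit 452) (nat_lit 410) (nat_lit 278))))))) (XT.nd (nat_lit 1092) (nat_lit 3876) (nat_lit 0) (XT.nd (nat_lit 546) (nat_lit 2584) (nat_lit 0) (XT.nd (nat_lit 234) (nat_lit 1368) (nat_lit 0) (XT.nd (nat_lit 78) (nat_lit 0) (nat_lit 0) (XT.lf (nat_lit 0) (nat_lit 2538090) (nat_lit 760) (nat_lit 1303100376) (nat_lit 836) (nat_lit 10923771244) (nat_lit 253) (nat_lit 5) (nat_lit 263) (nat_lit 5) (nat_lit 264) (nat_lit 5) (nat_lit 453) (nat_lit 410) (nat_lit 277)) (XT.nd (nat_lit 78) (nat_lit 0) (nat_lit 0) (XT.lf (nat_lit 0) (nat_lit 3063210429) (nat_lit 836) (nat_lit 6186240898) (nat_lit 76) (nat_lit 3116054251) (nat_lit 253) (nat_lit 5) (nat_lit 264) (nat_lit 5) (nat_lit 254) (nat_lit 5) (nat_lit 454) (nat_lit 410) (nat_lit 276)) (XT.lf (nat_lit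 0) (nat_lit 4850970916) (nat_lit 836) (nat_lit 47789730) (nat_lit 76) (nat_lit 7605674606) (nat_lit 253) (nat_lit 5) (nat_lit 264) (nat_lit 5) (nat_lit 254) (nat_lit 5) (nat_lit 455) (nat_lit 410) (nat_lit 275)))) (XT.nd (nat_lit 156) (nat_lit 684) (nat_lit 0) (XT.nd (nat_lit 78) (nat_lit 0) (nat_lit 0) (XT.lf (nat_lit 0) (nat_lit 6281735806) (nat_lit 684) (nat_lit 420209807) (nat_lit 760) (nat_lit 5943661106) (nat_lit 244) (nat_lit 5) (nat_lit 253) (nat_lit 5) (nat_lit 254) (nat_lit 5) (nat_lit 456) (nat_lit 410) (nat_lit 274)) (XT.lf (nat_lit 0) (nat_lit 8604032497) (nat_lit 760) (nat_lit 92286628) (nat_lit 76) (nat_lit 4093012775) (nat_lit 244) (nat_lit 5) (nat_lit 254) (nat_lit 5) (nat_lit 245) (nat_lit 5) (nat_lit 457) (nat_lit 410) (nat_lit 273))) (XT.nd (nat_lit 78) (nat_lit 0) (nat_lit 0) (XT.lf (nat_lit 0) (nat_lit 6371531888) (nat_lit 684) (nat_lit 4203877227) (nat_lit 760) (nat_lit 2359909411)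 (nat_lit 235) (nat_lit 5) (nat_lit 244) (nat_lit 5) (nat_lit 245) (nat_lit 5) (nat_lit 458) (nat_lit 410) (nat_lit 272)) (XT.lf (nat_lit 0) (nat_lit 12576545910) (nat_lit 760) (nat_lit 134941226) (nat_lit 76) (nat_lit 372942761) (nat_lit 235) (nat_lit 5) (nat_lit 245) (nat_lit 5) (nat_lit 236) (nat_lit 5) (nat_lit 459) (nat_lit 410) (nat_lit 271))))) (XT.nd (nat_lit 234) (nat_lit 1216) (nat_lit 0) (XT.nd (nat_lit 78) (nat_lit 684) (nat_lit 0) (XT.lf (nat_lit 0) (nat_lit 1420757123) (nat_lit 684) (nat_lit 6779165736) (nat_lit 76) (nat_lit 5035278708) (nat_lit 226) (nat_lit 5) (nat_lit 235) (nat_lit 5) (nat_lit 227) (nat_lit 5) (nat_lit 460) (nat_lit 410) (nat_lit 270)) (XT.nd (nat_lit 78) (nat_lit 684) (nat_lit 0) (XT.lf (nat_lit 0) (nat_lit 3369653466) (nat_lit 684) (nat_lit 225631540) (nat_lit 76) (nat_lit 9793877857) (nat_lit 226) (nat_lit 5) (nat_lit 235) (nat_lit 5) (nat_lit 227) (nat_lit 5) (nat_lit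 461) (nat_lit 410) (nat_lit 269)) (XT.lf (nat_lit 0) (nat_lit 5395162370) (nat_lit 760) (nat_lit 7022084005) (nat_lit 76) (nat_lit 1128215097) (nat_lit 217) (nat_lit 5) (nat_lit 227) (nat_lit 5) (nat_lit 218) (nat_lit 5) (nat_lit 462) (nat_lit 410) (nat_lit 268)))) (XT.nd (nat_lit 156) (nat_lit 608) (nat_lit 0) (XT.nd (nat_lit 78) (nat_lit 608) (nat_lit 0) (XT.lf (nat_lit 0) (nat_lit 7474465085) (nat_lit 760) (nat_lit 332081316) (nat_lit 76) (nat_lit 5898084544) (nat_lit 217) (nat_lit 5) (nat_lit 227) (nat_lit 5) (nat_lit 218) (nat_lit 5) (nat_lit 463) (nat_lit 410) (nat_lit 267)) (XT.lf (nat_lit 0) (nat_lit 6564253144) (nat_lit 608) (nat_lit 3061906145) (nat_lit 684) (nat_lit 4240218772) (nat_lit 209) (nat_lit 5) (nat_lit 217) (nat_lit 5) (nat_lit 218) (nat_lit 5) (nat_lit 464) (nat_lit 410) (nat_lit 266))) (XT.nd (nat_lit 78) (nat_lit 608) (nat_lit 0) (XT.lf (nat_lit 0) (nat_lit 11822990554) (nat_lit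 684) (nat_lit 453558394) (nat_lit 76) (nat_lit 1754779263) (nat_lit 209) (nat_lit 5) (nat_lit 218) (nat_lit 5) (nat_lit 210) (nat_lit 5) (nat_lit 465) (nat_lit 410) (nat_lit 265)) (XT.lf (nat_lit 0) (nat_lit 6584626874) (nat_lit 608) (nat_lit 7530708354) (nat_lit 684) (nat_lit 83220558) (nat_lit 201) (nat_lit 5) (nat_lit 209) (nat_lit 5) (nat_lit 210) (nat_lit 5) (nat_lit 466) (nat_lit 410) (nat_lit 264)))))) (XT.nd (nat_lit 546) (nat_lit 2052) (nat_lit 0) (XT.nd (nat_lit 234) (nat_lit 1216) (nat_lit 0) (XT.nd (nat_lit 78) (nat_lit 532) (nat_lit 0) (XT.lf (nat_lit 0) (nat_lit 2048726232) (nat_lit 684) (nat_lit 626402852) (nat_lit 76) (nat_lit 11693904443) (nat_lit 200) (nat_lit 5) (nat_lit 209) (nat_lit 5) (nat_lit 201) (nat_lit 5) (nat_lit 467) (nat_lit 410) (nat_lit 263)) (XT.nd (nat_lit 78) (nat_lit 0) (nat_lit 0) (XT.lf (nat_lit 0) (nat_lit 4268761515) (nat_lit 608) (nat_lit 7984058430) (nat_lit 76)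 (nat_lit 2289167981) (nat_lit 193) (nat_lit 5) (nat_lit 201) (nat_lit 5) (nat_lit 194) (nat_lit 5) (nat_lit 468) (nat_lit 410) (nat_lit 262)) (XT.lf (nat_lit 0) (nat_lit 6544089285) (nat_lit 608) (nat_lit 854992404) (nat_lit 76) (nat_lit 7319111087) (nat_lit 193) (nat_lit 5) (nat_lit 201) (nat_lit 5) (nat_lit 194) (nat_lit 5) (nat_lit 469) (nat_lit 410) (nat_lit 261)))) (XT.nd (nat_lit 156) (nat_lit 608) (nat_lit 0) (XT.nd (nat_lit 78) (nat_lit 0) (nat_lit 0) (XT.lf (nat_lit 0) (nat_lit 6488646190) (nat_lit 608) (nat_lit 2407567156) (nat_lit 684) (nat_lit 6001091602) (nat_lit 185) (nat_lit 5) (nat_lit 193) (nat_lit 5) (nat_lit 194) (nat_lit 5) (nat_lit 470) (nat_lit 410) (nat_lit 260)) (XT.lf (nat_lit 0) (nat_lit 11307854312) (nat_lit 684) (nat_lit 1119830598) (nat_lit 76) (nat_lit 2652073808) (nat_lit 185) (nat_lit 5) (nat_lit 194) (nat_lit 5) (nat_lit 186) (nat_lit 5) (nat_lit 471) (nat_lit 410) (nat_lit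 259))) (XT.nd (nat_lit 78) (nat_lit 76) (nat_lit 0) (XT.lf (nat_lit 0) (nat_lit 6369394823) (nat_lit 532) (nat_lit 7445116185) (nat_lit 608) (nat_lit 1450423564) (nat_lit 178) (nat_lit 5) (nat_lit 185) (nat_lit 5) (nat_lit 186) (nat_lit 5) (nat_lit 472) (nat_lit 410) (nat_lit 258)) (XT.lf (nat_lit 0) (nat_lit 902548041) (nat_lit 608) (nat_lit 1449119049) (nat_lit 76) (nat_lit 13102094164) (nat_lit 177) (nat_lit 5) (nat_lit 185) (nat_lit 5) (nat_lit 178) (nat_lit 5) (nat_lit 473) (nat_lit 410) (nat_lit 257))))) (XT.nd (nat_lit 234) (nat_lit 1064) (nat_lit 0) (XT.nd (nat_lit 78) (nat_lit 456) (nat_lit 0) (XT.lf (nat_lit 0) (nat_lit 3331976542) (nat_lit 608) (nat_lit 9459127223) (nat_lit 76) (nat_lit 2854100755) (nat_lit 170) (nat_lit 5) (nat_lit 178) (nat_lit 5) (nat_lit 171) (nat_lit 5) (nat_lit 474) (nat_lit 410) (nat_lit 256)) (XT.nd (nat_lit 78) (nat_lit 456) (nat_lit 0) (XT.lf (nat_lit 0) (nat_lit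 5825193672) (nat_lit 608) (nat_lit 1875187585) (nat_lit 76) (nat_lit 8139799402) (nat_lit 170) (nat_lit 5) (nat_lit 178) (nat_lit 5) (nat_lit 171) (nat_lit 5) (nat_lit 475) (nat_lit 410) (nat_lit 255)) (XT.lf (nat_lit 0) (nat_lit 5925509846) (nat_lit 456) (nat_lit 2471274261) (nat_lit 532) (nat_lit 7641709887) (nat_lit 164) (nat_lit 5) (nat_lit 170) (nat_lit 5) (nat_lit 171) (nat_lit 5) (nat_lit 476) (nat_lit 410) (nat_lit 254)))) (XT.nd (nat_lit 156) (nat_lit 532) (nat_lit 0) (XT.nd (nat_lit 78) (nat_lit 532) (nat_lit 0) (XT.lf (nat_lit 0) (nat_lit 11041190816) (nat_lit 532) (nat_lit 2364289210) (nat_lit 76) (nat_lit 2834873577) (nat_lit 164) (nat_lit 5) (nat_lit 171) (nat_lit 5) (nat_lit 165) (nat_lit 5) (nat_lit 477) (nat_lit 410) (nat_lit 253)) (XT.lf (nat_lit 0) (nat_lit 5583756183) (nat_lit 532) (nat_lit 8197675391) (nat_lit 608) (nat_lit 2663967459) (nat_lit 157) (nat_lit 5) (nat_lit 164) (nat_lit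 5) (nat_lit 165) (nat_lit 5) (nat_lit 478) (nat_lit 410) (nat_lit 252))) (XT.nd (nat_lit 78) (nat_lit 532) (nat_lit 0) (XT.lf (nat_lit 0) (nat_lit 13710403860) (nat_lit 532) (nat_lit 2872374446) (nat_lit 608) (nat_lit 71648440) (nat_lit 157) (nat_lit 5) (nat_lit 164) (nat_lit 5) (nat_lit 165) (nat_lit 5) (nat_lit 479) (nat_lit 410) (nat_lit 251)) (XT.lf (nat_lit 0) (nat_lit 2579835764) (nat_lit 532) (nat_lit 11712991573) (nat_lit 76) (nat_lit 2573659582) (nat_lit 150) (nat_lit 5) (nat_lit 157) (nat_lit 5) (nat_lit 151) (nat_lit 5) (nat_lit 480) (nat_lit 410) (nat_lit 250))))))))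
noncomputable def xc175 : XT := (XT.nd (nat_lit 2106) (nat_lit 1748) (nat_lit 0) (XT.nd (nat_lit 1014) (nat_lit 2128) (nat_lit 0) (XT.nd (nat_lit 468) (nat_lit 1216) (nat_lit 0) (XT.nd (nat_lit 234) (nat_lit 988) (nat_lit 0) (XT.nd (nat_lit 78) (nat_lit 456) (nat_lit 0) (XT.lf (nat_lit 0) (nat_lit 5312941355) (nat_lit 532) (nat_lit 3661540668) (nat_lit 76) (nat_lit 8107712753) (nat_lit 150) (nat_lit 5) (nat_lit 157) (nat_lit 5) (nat_lit 151) (nat_lit 5) (nat_lit 481) (nat_lit 410) (nat_lit 249)) (XT.nd (nat_lit 78) (nat_lit 0) (nat_lit 0) (XT.lf (nat_lit 0) (nat_lit 4599109594) (nat_lit 456) (nat_lit 3522284495) (nat_lit 532) (nat_lit 9180415833) (nat_lit 144) (nat_lit 5) (nat_lit 150) (nat_lit 5) (nat_lit 151) (nat_lit 5) (nat_lit 482) (nat_lit 410) (nat_lit 248)) (XT.lf (nat_lit 0) (nat_lit 11014894407) (nat_lit 532) (nat_lit 4476357557) (nat_lit 76) (nat_lit 2033994538) (nat_lit 144) (nat_lit 5) (nat_lit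 151) (nat_lit 5) (nat_lit 145) (nat_lit 5) (nat_lit 483) (nat_lit 410) (nat_lit 247)))) (XT.nd (nat_lit 78) (nat_lit 532) (nat_lit 0) (XT.lf (nat_lit 0) (nat_lit 3930741364) (nat_lit 456) (nat_lit 10075455715) (nat_lit 532) (nat_lit 3746162658) (nat_lit 138) (nat_lit 5) (nat_lit 144) (nat_lit 5) (nat_lit 145) (nat_lit 5) (nat_lit 484) (nat_lit 410) (nat_lit 246)) (XT.nd (nat_lit 78) (nat_lit 532) (nat_lit 0) (XT.lf (nat_lit 0) (nat_lit 12554742699) (nat_lit 456) (nat_lit 4523804229) (nat_lit 532) (nat_lit 905050328) (nat_lit 138) (nat_lit 5) (nat_lit 144) (nat_lit 5) (nat_lit 145) (nat_lit 5) (nat_lit 485) (nat_lit 410) (nat_lit 245)) (XT.lf (nat_lit 0) (nat_lit 1986075263) (nat_lit 532) (nat_lit 15078257538) (nat_lit 76) (nat_lit 1154487571) (nat_lit 131) (nat_lit 5) (nat_lit 138) (nat_lit 5) (nat_lit 132) (nat_lit 5) (nat_lit 486) (nat_lit 410) (nat_lit 244))))) (XT.nd (nat_lit 234) (nat_lit 836) (nat_lit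 0) (XT.nd (nat_lit 78) (nat_lit 380) (nat_lit 0) (XT.lf (nat_lit 0) (nat_lit 4980912969) (nat_lit 532) (nat_lit 6551141609) (nat_lit 76) (nat_lit 6925419631) (nat_lit 131) (nat_lit 5) (nat_lit 138) (nat_lit 5) (nat_lit 132) (nat_lit 5) (nat_lit 487) (nat_lit 410) (nat_lit 243)) (XT.nd (nat_lit 78) (nat_lit 0) (nat_lit 0) (XT.lf (nat_lit 0) (nat_lit 2163234461) (nat_lit 380) (nat_lit 5877993608) (nat_lit 456) (nat_lit 10659567390) (nat_lit 126) (nat_lit 5) (nat_lit 131) (nat_lit 5) (nat_lit 132) (nat_lit 5) (nat_lit 488) (nat_lit 410) (nat_lit 242)) (XT.lf (nat_lit 0) (nat_lit 11129123783) (nat_lit 380) (nat_lit 69213592) (nat_lit 456) (nat_lit 7749939835) (nat_lit 126) (nat_lit 5) (nat_lit 131) (nat_lit 5) (nat_lit 132) (nat_lit 5) (nat_lit 489) (nat_lit 410) (nat_lit 241)))) (XT.nd (nat_lit 156) (nat_lit 456) (nat_lit 0) (XT.nd (nat_lit 78) (nat_lit 0) (nat_lit 0) (XT.lf (nat_lit 0) (nat_lit 1037713486)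 (nat_lit 380) (nat_lit 13417402363) (nat_lit 456) (nat_lit 4744867927) (nat_lit 121) (nat_lit 5) (nat_lit 126) (nat_lit 5) (nat_lit 127) (nat_lit 5) (nat_lit 490) (nat_lit 410) (nat_lit 240)) (XT.lf (nat_lit 0) (nat_lit 10165820368) (nat_lit 380) (nat_lit 7655992810) (nat_lit 456) (nat_lit 1634021237) (nat_lit 121) (nat_lit 5) (nat_lit 126) (nat_lit 5) (nat_lit 127) (nat_lit 5) (nat_lit 491) (nat_lit 410) (nat_lit 239))) (XT.nd (nat_lit 78) (nat_lit 380) (nat_lit 0) (XT.lf (nat_lit 0) (nat_lit 1510816233) (nat_lit 456) (nat_lit 261617020) (nat_lit 76) (nat_lit 17944335181) (nat_lit 120) (nat_lit 5) (nat_lit 126) (nat_lit 5) (nat_lit 121) (nat_lit 5) (nat_lit 492) (nat_lit 410) (nat_lit 238)) (XT.lf (nat_lit 0) (nat_lit 4775423556) (nat_lit 456) (nat_lit 10965538227) (nat_lit 76) (nat_lit 4240173562) (nat_lit 115) (nat_lit 5) (nat_lit 121) (nat_lit 5) (nat_lit 116) (nat_lit 5) (nat_lit 493) (nat_lit 410)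 (nat_lit 237)))))) (XT.nd (nat_lit 546) (nat_lit 988) (nat_lit 0) (XT.nd (nat_lit 234) (nat_lit 760) (nat_lit 0) (XT.nd (nat_lit 78) (nat_lit 380) (nat_lit 0) (XT.lf (nat_lit 0) (nat_lit 8111006716) (nat_lit 456) (nat_lit 1791759654) (nat_lit 76) (nat_lit 10347914733) (nat_lit 115) (nat_lit 5) (nat_lit 121) (nat_lit 5) (nat_lit 116) (nat_lit 5) (nat_lit 494) (nat_lit 410) (nat_lit 236)) (XT.nd (nat_lit 78) (nat_lit 0) (nat_lit 0) (XT.lf (nat_lit 0) (nat_lit 7654951932) (nat_lit 380) (nat_lit 3900382500) (nat_lit 456) (nat_lit 8969447763) (nat_lit 110) (nat_lit 5) (nat_lit 115) (nat_lit 5) (nat_lit 116) (nat_lit 5) (nat_lit 495) (nat_lit 410) (nat_lit 235)) (XT.lf (nat_lit 0) (nat_lit 15087469383) (nat_lit 456) (nat_lit 3514748083) (nat_lit 76) (nat_lit 2201774409) (nat_lit 110) (nat_lit 5) (nat_lit 116) (nat_lit 5) (nat_lit 111) (nat_lit 5) (nat_lit 496) (nat_lit 410) (nat_lit 234)))) (XT.nd (nat_lit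 156) (nat_lit 380) (nat_lit 0) (XT.nd (nat_lit 78) (nat_lit 76) (nat_lit 0) (XT.lf (nat_lit 0) (nat_lit 6070433827) (nat_lit 304) (nat_lit 12677596430) (nat_lit 380) (nat_lit 2339604709) (nat_lit 106) (nat_lit 5) (nat_lit 110) (nat_lit 5) (nat_lit 111) (nat_lit 5) (nat_lit 497) (nat_lit 410) (nat_lit 233)) (XT.lf (nat_lit 0) (nat_lit 1106665793) (nat_lit 380) (nat_lit 5499665083) (nat_lit 76) (nat_lit 14770155172) (nat_lit 105) (nat_lit 5) (nat_lit 110) (nat_lit 5) (nat_lit 106) (nat_lit 5) (nat_lit 498) (nat_lit 410) (nat_lit 232))) (XT.nd (nat_lit 78) (nat_lit 0) (nat_lit 0) (XT.lf (nat_lit 0) (nat_lit 4237698979) (nat_lit 380) (nat_lit 373087170) (nat_lit 456) (nat_lit 17059618272) (nat_lit 100) (nat_lit 5) (nat_lit 105) (nat_lit 5) (nat_lit 106) (nat_lit 5) (nat_lit 499) (nat_lit 410) (nat_lit 231)) (XT.lf (nat_lit 0) (nat_lit 8253757911) (nat_lit 456) (nat_lit 7774869496) (nat_lit 76) (nat_lit 5940202884)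 (nat_lit 100) (nat_lit 5) (nat_lit 106) (nat_lit 5) (nat_lit 101) (nat_lit 5) (nat_lit 500) (nat_lit 410) (nat_lit 230))))) (XT.nd (nat_lit 234) (nat_lit 684) (nat_lit 0) (XT.nd (nat_lit 78) (nat_lit 0) (nat_lit 0) (XT.lf (nat_lit 0) (nat_lit 2090615964) (nat_lit 304) (nat_lit 9887921030) (nat_lit 380) (nat_lit 10294513148) (nat_lit 96) (nat_lit 5) (nat_lit 100) (nat_lit 5) (nat_lit 101) (nat_lit 5) (nat_lit 501) (nat_lit 410) (nat_lit 229)) (XT.nd (nat_lit 78) (nat_lit 0) (nat_lit 0) (XT.lf (nat_lit 0) (nat_lit 12248415086) (nat_lit 304) (nat_lit 3574545196) (nat_lit 380) (nat_lit 6759495471) (nat_lit 96) (nat_lit 5) (nat_lit 100) (nat_lit 5) (nat_lit 101) (nat_lit 5) (nat_lit 502) (nat_lit 410) (nat_lit 228)) (XT.lf (nat_lit 0) (nat_lit 19755965655) (nat_lit 380) (nat_lit 317584790) (nat_lit 76) (nat_lit 2824269408) (nat_lit 96) (nat_lit 5) (nat_lit 101) (nat_lit 5) (nat_lit 97) (nat_lit 5) (nat_lit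 503) (nat_lit 410) (nat_lit 227)))) (XT.nd (nat_lit 156) (nat_lit 304) (nat_lit 0) (XT.nd (nat_lit 78) (nat_lit 0) (nat_lit 0) (XT.lf (nat_lit 0) (nat_lit 623292146) (nat_lit 380) (nat_lit 13225427254) (nat_lit 76) (nat_lit 9369057918) (nat_lit 91) (nat_lit 5) (nat_lit 96) (nat_lit 5) (nat_lit 92) (nat_lit 5) (nat_lit 504) (nat_lit 410) (nat_lit 226)) (XT.lf (nat_lit 0) (nat_lit 4417102767) (nat_lit 380) (nat_lit 3062252505) (nat_lit 76) (nat_lit 16064458696) (nat_lit 91) (nat_lit 5) (nat_lit 96) (nat_lit 5) (nat_lit 92) (nat_lit 5) (nat_lit 505) (nat_lit 410) (nat_lit 225))) (XT.nd (nat_lit 78) (nat_lit 0) (nat_lit 0) (XT.lf (nat_lit 0) (nat_lit 7391192495) (nat_lit 304) (nat_lit 936964232) (nat_lit 380) (nat_lit 15547391208) (nat_lit 87) (nat_lit 5) (nat_lit 91) (nat_lit 5) (nat_lit 92) (nat_lit 5) (nat_lit 506) (nat_lit 410) (nat_lit 224)) (XT.lf (nat_lit 0) (nat_lit 12368783782) (nat_lit 380) (nat_lit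 6165647557) (nat_lit 76) (nat_lit 5678462050) (nat_lit 87) (nat_lit 5) (nat_lit 92) (nat_lit 5) (nat_lit 88) (nat_lit 5) (nat_lit 507) (nat_lit 410) (nat_lit 223))))))) (XT.nd (nat_lit 51792) (nat_lit 0) (nat_lit 26068) (XT.nd (nat_lit 546) (nat_lit 836) (nat_lit 0) (XT.nd (nat_lit 234) (nat_lit 380) (nat_lit 0) (XT.nd (nat_lit 78) (nat_lit 228) (nat_lit 0) (XT.lf (nat_lit 0) (nat_lit 4401168987) (nat_lit 304) (nat_lit 12117386625) (nat_lit 380) (nat_lit 8037867269) (nat_lit 83) (nat_lit 5) (nat_lit 87) (nat_lit 5) (nat_lit 88) (nat_lit 5) (nat_lit 508) (nat_lit 410) (nat_lit 222)) (XT.nd (nat_lit 78) (nat_lit 228) (nat_lit 0) (XT.lf (nat_lit 0) (nat_lit 15253180639) (nat_lit 304) (nat_lit 5533132180) (nat_lit 380) (nat_lit 4119814045) (nat_lit 83) (nat_lit 5) (nat_lit 87) (nat_lit 5) (nat_lit 88) (nat_lit 5) (nat_lit 509) (nat_lit 410) (nat_lit 221)) (XT.lf (nat_lit 0) (nat_lit 1055941644) (nat_lit 228)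 (nat_lit 24091738146) (nat_lit 304) (nat_lit 114983671) (nat_lit 80) (nat_lit 5) (nat_lit 83) (nat_lit 5) (nat_lit 84) (nat_lit 5) (nat_lit 510) (nat_lit 410) (nat_lit 220)))) (XT.nd (nat_lit 156) (nat_lit 304) (nat_lit 0) (XT.nd (nat_lit 78) (nat_lit 0) (nat_lit 0) (XT.lf (nat_lit 0) (nat_lit 4013460861) (nat_lit 304) (nat_lit 13587686109) (nat_lit 76) (nat_lit 8022760116) (nat_lit 79) (nat_lit 5) (nat_lit 83) (nat_lit 5) (nat_lit 80) (nat_lit 5) (nat_lit 511) (nat_lit 410) (nat_lit 219)) (XT.lf (nat_lit 0) (nat_lit 8216794408) (nat_lit 304) (nat_lit 2766500378) (nat_lit 76) (nat_lit 15009191818) (nat_lit 79) (nat_lit 5) (nat_lit 83) (nat_lit 5) (nat_lit 80) (nat_lit 5) (nat_lit 512) (nat_lit 410) (nat_lit 218))) (XT.nd (nat_lit 78) (nat_lit 0) (nat_lit 0) (XT.lf (nat_lit 0) (nat_lit 8371620840) (nat_lit 304) (nat_lit 4180906641) (nat_lit 380) (nat_lit 13814946925) (nat_lit 75) (nat_lit 5) (nat_lit 79)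 (nat_lit 5) (nat_lit 80) (nat_lit 5) (nat_lit 513) (nat_lit 410) (nat_lit 217)) (XT.lf (nat_lit 0) (nat_lit 17005582308) (nat_lit 380) (nat_lit 7006936051) (nat_lit 76) (nat_lit 2736834749) (nat_lit 75) (nat_lit 5) (nat_lit 80) (nat_lit 5) (nat_lit 76) (nat_lit 5) (nat_lit 514) (nat_lit 410) (nat_lit 216))))) (XT.nd (nat_lit 234) (nat_lit 532) (nat_lit 0) (XT.nd (nat_lit 78) (nat_lit 76) (nat_lit 0) (XT.lf (nat_lit 0) (nat_lit 4220280399) (nat_lit 228) (nat_lit 17376639917) (nat_lit 304) (nat_lit 5540967848) (nat_lit 72) (nat_lit 5) (nat_lit 75) (nat_lit 5) (nat_lit 76) (nat_lit 5) (nat_lit 515) (nat_lit 410) (nat_lit 215)) (XT.nd (nat_lit 78) (nat_lit 76) (nat_lit 0) (XT.lf (nat_lit 0) (nat_lit 15757941151) (nat_lit 228) (nat_lit 10563353341) (nat_lit 304) (nat_lit 1212078396) (nat_lit 72) (nat_lit 5) (nat_lit 75) (nat_lit 5) (nat_lit 76) (nat_lit 5) (nat_lit 516) (nat_lit 410) (nat_lit 214)) (XT.lf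 (nat_lit 0) (nat_lit 3155638157) (nat_lit 304) (nat_lit 440192834) (nat_lit 76) (nat_lit 24340638134) (nat_lit 71) (nat_lit 5) (nat_lit 75) (nat_lit 5) (nat_lit 72) (nat_lit 5) (nat_lit 517) (nat_lit 410) (nat_lit 213)))) (XT.nd (nat_lit 156) (nat_lit 228) (nat_lit 0) (XT.nd (nat_lit 78) (nat_lit 0) (nat_lit 0) (XT.lf (nat_lit 0) (nat_lit 7685240344) (nat_lit 380) (nat_lit 17116937053) (nat_lit 76) (nat_lit 3543477409) (nat_lit 67) (nat_lit 5) (nat_lit 72) (nat_lit 5) (nat_lit 68) (nat_lit 5) (nat_lit 518) (nat_lit 410) (nat_lit 212)) (XT.lf (nat_lit 0) (nat_lit 12326629226) (nat_lit 380) (nat_lit 5658666443) (nat_lit 76) (nat_lit 10777307555) (nat_lit 67) (nat_lit 5) (nat_lit 72) (nat_lit 5) (nat_lit 68) (nat_lit 5) (nat_lit 519) (nat_lit 410) (nat_lit 211))) (XT.nd (nat_lit 78) (nat_lit 0) (nat_lit 0) (XT.lf (nat_lit 0) (nat_lit 6100105131) (nat_lit 228) (nat_lit 10994864049) (nat_lit 304) (nat_lit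 12092241824) (nat_lit 64) (nat_lit 5) (nat_lit 67) (nat_lit 5) (nat_lit 68) (nat_lit 5) (nat_lit 520) (nat_lit 410) (nat_lit 210)) (XT.lf (nat_lit 0) (nat_lit 18162145457) (nat_lit 228) (nat_lit 3829072066) (nat_lit 304) (nat_lit 7628445390) (nat_lit 64) (nat_lit 5) (nat_lit 67) (nat_lit 5) (nat_lit 68) (nat_lit 5) (nat_lit 521) (nat_lit 410) (nat_lit 209)))))) (XT.nd (nat_lit 546) (nat_lit 1292) (nat_lit 0) (XT.nd (nat_lit 234) (nat_lit 0) (nat_lit 0) (XT.nd (nat_lit 78) (nat_lit 1368) (nat_lit 0) (XT.lf (nat_lit 0) (nat_lit 1652658438) (nat_lit 0) (nat_lit 1652658438) (nat_lit 1292) (nat_lit 854483711) (nat_lit 442) (nat_lit 5) (nat_lit 442) (nat_lit 3) (nat_lit 459) (nat_lit 3) (nat_lit 411) (nat_lit 411) (nat_lit 318)) (XT.nd (nat_lit 78) (nat_lit 1368) (nat_lit 0) (XT.lf (nat_lit 0) (nat_lit 7086819107) (nat_lit 0) (nat_lit 614358924) (nat_lit 1292) (nat_lit 679909257) (nat_lit 442) (nat_lit 5) (nat_lit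 442) (nat_lit 3) (nat_lit 459) (nat_lit 3) (nat_lit 412) (nat_lit 411) (nat_lit 317)) (XT.lf (nat_lit 0) (nat_lit 368183897) (nat_lit 1368) (nat_lit 5941112823) (nat_lit 1444) (nat_lit 2134423738) (nat_lit 424) (nat_lit 5) (nat_lit 442) (nat_lit 5) (nat_lit 443) (nat_lit 5) (nat_lit 413) (nat_lit 411) (nat_lit 316)))) (XT.nd (nat_lit 156) (nat_lit 0) (nat_lit 76) (XT.nd (nat_lit 78) (nat_lit 0) (nat_lit 0) (XT.lf (nat_lit 0) (nat_lit 1414399429) (nat_lit 1368) (nat_lit 2137479662) (nat_lit 1444) (nat_lit 4955942812) (nat_lit 424) (nat_lit 5) (nat_lit 442) (nat_lit 5) (nat_lit 443) (nat_lit 5) (nat_lit 414) (nat_lit 411) (nat_lit 315)) (XT.lf (nat_lit 76) (nat_lit 1751090698) (nat_lit 0) (nat_lit 715783157) (nat_lit 1444) (nat_lit 6106655013) (nat_lit 425) (nat_lit 5) (nat_lit 424) (nat_lit 5) (nat_lit 443) (nat_lit 5) (nat_lit 415) (nat_lit 411) (nat_lit 314))) (XT.nd (nat_lit 78) (nat_lit 0) (nat_lit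 0) (XT.lf (nat_lit 0) (nat_lit 3543431358) (nat_lit 1368) (nat_lit 2922712095) (nat_lit 1444) (nat_lit 2174375440) (nat_lit 425) (nat_lit 5) (nat_lit 443) (nat_lit 5) (nat_lit 444) (nat_lit 5) (nat_lit 416) (nat_lit 411) (nat_lit 313)) (XT.lf (nat_lit 76) (nat_lit 1049696137) (nat_lit 0) (nat_lit 3578340493) (nat_lit 1444) (nat_lit 4081110769) (nat_lit 426) (nat_lit 5) (nat_lit 425) (nat_lit 5) (nat_lit 444) (nat_lit 5) (nat_lit 417) (nat_lit 411) (nat_lit 312))))) (XT.nd (nat_lit 234) (nat_lit 1368) (nat_lit 0) (XT.nd (nat_lit 78) (nat_lit 0) (nat_lit 76) (XT.lf (nat_lit 76) (nat_lit 5126925969) (nat_lit 0) (nat_lit 602380459) (nat_lit 1444) (nat_lit 3049971040) (nat_lit 426) (nat_lit 5) (nat_lit 425) (nat_lit 5) (nat_lit 444) (nat_lit 5) (nat_lit 418) (nat_lit 411) (nat_lit 311)) (XT.nd (nat_lit 78) (nat_lit 0) (nat_lit 0) (XT.lf (nat_lit 76) (nat_lit 409926634) (nat_lit 0) (nat_lit 6437042598) (nat_lit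 1444) (nat_lit 2003981438) (nat_lit 427) (nat_lit 5) (nat_lit 426) (nat_lit 5) (nat_lit 445) (nat_lit 5) (nat_lit 419) (nat_lit 411) (nat_lit 310)) (XT.lf (nat_lit 76) (nat_lit 4584469706) (nat_lit 0) (nat_lit 3407275199) (nat_lit 1444) (nat_lit 932244577) (nat_lit 427) (nat_lit 5) (nat_lit 426) (nat_lit 5) (nat_lit 445) (nat_lit 5) (nat_lit 420) (nat_lit 411) (nat_lit 309)))) (XT.nd (nat_lit 156) (nat_lit 0) (nat_lit 76) (XT.nd (nat_lit 78) (nat_lit 0) (nat_lit 76) (XT.lf (nat_lit 0) (nat_lit 135388359) (nat_lit 1444) (nat_lit 171531548) (nat_lit 1520) (nat_lit 8692043106) (nat_lit 407) (nat_lit 5) (nat_lit 426) (nat_lit 5) (nat_lit 427) (nat_lit 5) (nat_lit 421) (nat_lit 411) (nat_lit 308)) (XT.lf (nat_lit 0) (nat_lit 1234454919) (nat_lit 1444) (nat_lit 4980704199) (nat_lit 1520) (nat_lit 2859728140) (nat_lit 408) (nat_lit 5) (nat_lit 427) (nat_lit 5) (nat_lit 428) (nat_lit 5) (nat_lit 422) (nat_lit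 411) (nat_lit 307))) (XT.nd (nat_lit 78) (nat_lit 0) (nat_lit 76) (XT.lf (nat_lit 0) (nat_lit 2336139151) (nat_lit 1444) (nat_lit 721466015) (nat_lit 1520) (nat_lit 6095137351) (nat_lit 408) (nat_lit 5) (nat_lit 427) (nat_lit 5) (nat_lit 428) (nat_lit 5) (nat_lit 423) (nat_lit 411) (nat_lit 306)) (XT.lf (nat_lit 0) (nat_lit 3462751560) (nat_lit 1444) (nat_lit 5576868951) (nat_lit 1520) (nat_lit 192501242) (nat_lit 409) (nat_lit 5) (nat_lit 428) (nat_lit 5) (nat_lit 429) (nat_lit 5) (nat_lit 424) (nat_lit 411) (nat_lit 305))))))))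
noncomputable def xc176 : XT := (XT.nd (nat_lit 2106) (nat_lit 8284) (nat_lit 0) (XT.nd (nat_lit 1014) (nat_lit 7600) (nat_lit 0) (XT.nd (nat_lit 468) (nat_lit 1368) (nat_lit 0) (XT.nd (nat_lit 234) (nat_lit 1368) (nat_lit 0) (XT.nd (nat_lit 78) (nat_lit 0) (nat_lit 0) (XT.lf (nat_lit 0) (nat_lit 4615295646) (nat_lit 1444) (nat_lit 1218769635) (nat_lit 1520) (nat_lit 3478979579) (nat_lit 409) (nat_lit 5) (nat_lit 428) (nat_lit 5) (nat_lit 429) (nat_lit 5) (nat_lit 425) (nat_lit 411) (nat_lit 304)) (XT.nd (nat_lit 78) (nat_lit 0) (nat_lit 76) (XT.lf (nat_lit 76) (nat_lit 3254684848) (nat_lit 0) (nat_lit 2536040189) (nat_lit 1520) (nat_lit 3604888504) (nat_lit 410) (nat_lit 5) (nat_lit 409) (nat_lit 5) (nat_lit 429) (nat_lit 5) (nat_lit 426) (nat_lit 411) (nat_lit 303)) (XT.lf (nat_lit 0) (nat_lit 6982340997) (nat_lit 1444) (nat_lit 1665853327) (nat_lit 1520) (nat_lit 831809044) (nat_lit 410) (nat_lit 5)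 (nat_lit 429) (nat_lit 5) (nat_lit 430) (nat_lit 5) (nat_lit 427) (nat_lit 411) (nat_lit 302)))) (XT.nd (nat_lit 78) (nat_lit 1444) (nat_lit 0) (XT.lf (nat_lit 76) (nat_lit 2905443068) (nat_lit 0) (nat_lit 5307485299) (nat_lit 1520) (nat_lit 1352872719) (nat_lit 411) (nat_lit 5) (nat_lit 410) (nat_lit 5) (nat_lit 430) (nat_lit 5) (nat_lit 428) (nat_lit 411) (nat_lit 301)) (XT.nd (nat_lit 78) (nat_lit 1444) (nat_lit 0) (XT.lf (nat_lit 76) (nat_lit 7576251547) (nat_lit 0) (nat_lit 1882842990) (nat_lit 1520) (nat_lit 194423306) (nat_lit 411) (nat_lit 5) (nat_lit 410) (nat_lit 5) (nat_lit 430) (nat_lit 5) (nat_lit 429) (nat_lit 411) (nat_lit 300)) (XT.lf (nat_lit 0) (nat_lit 981876031) (nat_lit 1520) (nat_lit 7142766461) (nat_lit 1596) (nat_lit 1618087244) (nat_lit 391) (nat_lit 5) (nat_lit 411) (nat_lit 5) (nat_lit 412) (nat_lit 5) (nat_lit 430) (nat_lit 411) (nat_lit 299))))) (XT.nd (nat_lit 234) (nat_lit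 1368) (nat_lit 0) (XT.nd (nat_lit 78) (nat_lit 0) (nat_lit 0) (XT.lf (nat_lit 0) (nat_lit 2185965397) (nat_lit 1520) (nat_lit 2463251791) (nat_lit 1596) (nat_lit 5184366764) (nat_lit 391) (nat_lit 5) (nat_lit 411) (nat_lit 5) (nat_lit 412) (nat_lit 5) (nat_lit 431) (nat_lit 411) (nat_lit 298)) (XT.nd (nat_lit 78) (nat_lit 0) (nat_lit 76) (XT.lf (nat_lit 76) (nat_lit 2325796611) (nat_lit 0) (nat_lit 1084189487) (nat_lit 1596) (nat_lit 6516372882) (nat_lit 392) (nat_lit 5) (nat_lit 391) (nat_lit 5) (nat_lit 412) (nat_lit 5) (nat_lit 432) (nat_lit 411) (nat_lit 297)) (XT.lf (nat_lit 0) (nat_lit 4672758311) (nat_lit 1520) (nat_lit 2808215468) (nat_lit 1596) (nat_lit 2539750619) (nat_lit 392) (nat_lit 5) (nat_lit 412) (nat_lit 5) (nat_lit 413) (nat_lit 5) (nat_lit 433) (nat_lit 411) (nat_lit 296)))) (XT.nd (nat_lit 156) (nat_lit 1444) (nat_lit 0) (XT.nd (nat_lit 78) (nat_lit 0) (nat_lit 0) (XT.lf (nat_lit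 76) (nat_lit 2085549768) (nat_lit 0) (nat_lit 3877390108) (nat_lit 1596) (nat_lit 4154014086) (nat_lit 393) (nat_lit 5) (nat_lit 392) (nat_lit 5) (nat_lit 413) (nat_lit 5) (nat_lit 434) (nat_lit 411) (nat_lit 295)) (XT.lf (nat_lit 76) (nat_lit 7100751571) (nat_lit 0) (nat_lit 178721062) (nat_lit 1596) (nat_lit 2935644056) (nat_lit 393) (nat_lit 5) (nat_lit 392) (nat_lit 5) (nat_lit 413) (nat_lit 5) (nat_lit 435) (nat_lit 411) (nat_lit 294))) (XT.nd (nat_lit 78) (nat_lit 0) (nat_lit 0) (XT.lf (nat_lit 0) (nat_lit 1887817201) (nat_lit 1520) (nat_lit 6752195787) (nat_lit 1596) (nat_lit 1674895286) (nat_lit 373) (nat_lit 5) (nat_lit 393) (nat_lit 5) (nat_lit 394) (nat_lit 5) (nat_lit 436) (nat_lit 411) (nat_lit 293)) (XT.lf (nat_lit 0) (nat_lit 7016533618) (nat_lit 1520) (nat_lit 3015648161) (nat_lit 1596) (nat_lit 384444323) (nat_lit 373) (nat_lit 5) (nat_lit 393) (nat_lit 5) (nat_lit 394) (nat_lit 5) (nat_lit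 437) (nat_lit 411) (nat_lit 292)))))) (XT.nd (nat_lit 546) (nat_lit 2432) (nat_lit 0) (XT.nd (nat_lit 234) (nat_lit 1824) (nat_lit 0) (XT.nd (nat_lit 78) (nat_lit 1672) (nat_lit 0) (XT.lf (nat_lit 0) (nat_lit 918679953) (nat_lit 1672) (nat_lit 8796110299) (nat_lit 76) (nat_lit 805503368) (nat_lit 351) (nat_lit 5) (nat_lit 373) (nat_lit 5) (nat_lit 352) (nat_lit 5) (nat_lit 438) (nat_lit 411) (nat_lit 291)) (XT.nd (nat_lit 78) (nat_lit 1672) (nat_lit 0) (XT.lf (nat_lit 0) (nat_lit 2268485476) (nat_lit 1672) (nat_lit 3665988367) (nat_lit 76) (nat_lit 4691012177) (nat_lit 351) (nat_lit 5) (nat_lit 373) (nat_lit 5) (nat_lit 352) (nat_lit 5) (nat_lit 439) (nat_lit 411) (nat_lit 290)) (XT.lf (nat_lit 0) (nat_lit 1572878582) (nat_lit 1672) (nat_lit 2065780468) (nat_lit 1748) (nat_lit 7094273115) (nat_lit 329) (nat_lit 5) (nat_lit 351) (nat_lit 5) (nat_lit 352) (nat_lit 5) (nat_lit 440) (nat_lit 411) (nat_lit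 289)))) (XT.nd (nat_lit 156) (nat_lit 836) (nat_lit 0) (XT.nd (nat_lit 78) (nat_lit 988) (nat_lit 0) (XT.lf (nat_lit 0) (nat_lit 5056618700) (nat_lit 1748) (nat_lit 3902944036) (nat_lit 76) (nat_lit 1882573842) (nat_lit 329) (nat_lit 5) (nat_lit 352) (nat_lit 5) (nat_lit 330) (nat_lit 5) (nat_lit 441) (nat_lit 411) (nat_lit 288)) (XT.lf (nat_lit 0) (nat_lit 1450181587) (nat_lit 988) (nat_lit 5059588340) (nat_lit 1064) (nat_lit 4443635167) (nat_lit 316) (nat_lit 5) (nat_lit 329) (nat_lit 5) (nat_lit 330) (nat_lit 5) (nat_lit 442) (nat_lit 411) (nat_lit 287))) (XT.nd (nat_lit 78) (nat_lit 836) (nat_lit 0) (XT.lf (nat_lit 0) (nat_lit 6948905481) (nat_lit 988) (nat_lit 1053231289) (nat_lit 1064) (nat_lit 3064575497) (nat_lit 316) (nat_lit 5) (nat_lit 329) (nat_lit 5) (nat_lit 330) (nat_lit 5) (nat_lit 443) (nat_lit 411) (nat_lit 286)) (XT.lf (nat_lit 0) (nat_lit 1359019129) (nat_lit 836) (nat_lit 8178136240)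 (nat_lit 912) (nat_lit 1644890141) (nat_lit 305) (nat_lit 5) (nat_lit 316) (nat_lit 5) (nat_lit 317) (nat_lit 5) (nat_lit 444) (nat_lit 411) (nat_lit 285))))) (XT.nd (nat_lit 234) (nat_lit 1520) (nat_lit 0) (XT.nd (nat_lit 78) (nat_lit 912) (nat_lit 0) (XT.lf (nat_lit 0) (nat_lit 6979797679) (nat_lit 836) (nat_lit 4142140376) (nat_lit 912) (nat_lit 177381792) (nat_lit 305) (nat_lit 5) (nat_lit 316) (nat_lit 5) (nat_lit 317) (nat_lit 5) (nat_lit 445) (nat_lit 411) (nat_lit 284)) (XT.nd (nat_lit 78) (nat_lit 0) (nat_lit 0) (XT.lf (nat_lit 0) (nat_lit 1288107374) (nat_lit 836) (nat_lit 7117400) (nat_lit 912) (nat_lit 10123697584) (nat_lit 293) (nat_lit 5) (nat_lit 304) (nat_lit 5) (nat_lit 305) (nat_lit 5) (nat_lit 446) (nat_lit 411) (nat_lit 283)) (XT.lf (nat_lit 0) (nat_lit 2836330953) (nat_lit 912) (nat_lit 4517100691) (nat_lit 76) (nat_lit 4186648172) (nat_lit 293) (nat_lit 5) (nat_lit 305) (nat_lit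 5) (nat_lit 294) (nat_lit 5) (nat_lit 447) (nat_lit 411) (nat_lit 282)))) (XT.nd (nat_lit 156) (nat_lit 760) (nat_lit 0) (XT.nd (nat_lit 78) (nat_lit 0) (nat_lit 0) (XT.lf (nat_lit 0) (nat_lit 1210500468) (nat_lit 760) (nat_lit 3190865414) (nat_lit 836) (nat_lit 7262446914) (nat_lit 283) (nat_lit 5) (nat_lit 293) (nat_lit 5) (nat_lit 294) (nat_lit 5) (nat_lit 448) (nat_lit 411) (nat_lit 281)) (XT.lf (nat_lit 0) (nat_lit 6020465555) (nat_lit 836) (nat_lit 4697012290) (nat_lit 76) (nat_lit 1072101532) (nat_lit 283) (nat_lit 5) (nat_lit 294) (nat_lit 5) (nat_lit 284) (nat_lit 5) (nat_lit 449) (nat_lit 411) (nat_lit 280))) (XT.nd (nat_lit 78) (nat_lit 0) (nat_lit 0) (XT.lf (nat_lit 0) (nat_lit 1154271606) (nat_lit 760) (nat_lit 6531989441) (nat_lit 836) (nat_lit 4231327910) (nat_lit 273) (nat_lit 5) (nat_lit 283) (nat_lit 5) (nat_lit 284) (nat_lit 5) (nat_lit 450) (nat_lit 411) (nat_lit 279)) (XT.lf (nat_lit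 0) (nat_lit 7172194441) (nat_lit 760) (nat_lit 2230574770) (nat_lit 836) (nat_lit 2645055251) (nat_lit 273) (nat_lit 5) (nat_lit 283) (nat_lit 5) (nat_lit 284) (nat_lit 5) (nat_lit 451) (nat_lit 411) (nat_lit 278))))))) (XT.nd (nat_lit 1014) (nat_lit 3420) (nat_lit 0) (XT.nd (nat_lit 468) (nat_lit 2660) (nat_lit 0) (XT.nd (nat_lit 234) (nat_lit 684) (nat_lit 0) (XT.nd (nat_lit 78) (nat_lit 836) (nat_lit 0) (XT.lf (nat_lit 0) (nat_lit 1116377616) (nat_lit 684) (nat_lit 10044636683) (nat_lit 760) (nat_lit 1019515646) (nat_lit 264) (nat_lit 5) (nat_lit 273) (nat_lit 5) (nat_lit 274) (nat_lit 5) (nat_lit 452) (nat_lit 411) (nat_lit 277)) (XT.nd (nat_lit 78) (nat_lit 760) (nat_lit 0) (XT.lf (nat_lit 0) (nat_lit 664098924) (nat_lit 760) (nat_lit 5054228196) (nat_lit 76) (nat_lit 6596813608) (nat_lit 263) (nat_lit 5) (nat_lit 273) (nat_lit 5) (nat_lit 264) (nat_lit 5) (nat_lit 453) (nat_lit 411) (nat_lit 276))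 (XT.lf (nat_lit 0) (nat_lit 1069269865) (nat_lit 760) (nat_lit 1291921675) (nat_lit 836) (nat_lit 10091260896) (nat_lit 253) (nat_lit 5) (nat_lit 263) (nat_lit 5) (nat_lit 264) (nat_lit 5) (nat_lit 454) (nat_lit 411) (nat_lit 275)))) (XT.nd (nat_lit 78) (nat_lit 684) (nat_lit 0) (XT.lf (nat_lit 0) (nat_lit 4133966888) (nat_lit 836) (nat_lit 5243314059) (nat_lit 76) (nat_lit 3214406994) (nat_lit 253) (nat_lit 5) (nat_lit 264) (nat_lit 5) (nat_lit 254) (nat_lit 5) (nat_lit 455) (nat_lit 411) (nat_lit 274)) (XT.nd (nat_lit 78) (nat_lit 0) (nat_lit 0) (XT.lf (nat_lit 0) (nat_lit 1010240884) (nat_lit 684) (nat_lit 4934006888) (nat_lit 760) (nat_lit 6789431521) (nat_lit 244) (nat_lit 5) (nat_lit 253) (nat_lit 5) (nat_lit 254) (nat_lit 5) (nat_lit 456) (nat_lit 411) (nat_lit 273)) (XT.lf (nat_lit 0) (nat_lit 7446227593) (nat_lit 684) (nat_lit 366794317) (nat_lit 760) (nat_lit 5065054711) (nat_lit 244) (nat_lit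 5) (nat_lit 253) (nat_lit 5) (nat_lit 254) (nat_lit 5) (nat_lit 457) (nat_lit 411) (nat_lit 272))))) (XT.nd (nat_lit 234) (nat_lit 1292) (nat_lit 0) (XT.nd (nat_lit 78) (nat_lit 684) (nat_lit 0) (XT.lf (nat_lit 0) (nat_lit 956548163) (nat_lit 684) (nat_lit 8784048822) (nat_lit 760) (nat_lit 3284348068) (nat_lit 235) (nat_lit 5) (nat_lit 244) (nat_lit 5) (nat_lit 245) (nat_lit 5) (nat_lit 458) (nat_lit 411) (nat_lit 271)) (XT.nd (nat_lit 78) (nat_lit 684) (nat_lit 0) (XT.lf (nat_lit 0) (nat_lit 7530267912) (nat_lit 684) (nat_lit 4202828925) (nat_lit 760) (nat_lit 1441137990) (nat_lit 235) (nat_lit 5) (nat_lit 244) (nat_lit 5) (nat_lit 245) (nat_lit 5) (nat_lit 459) (nat_lit 411) (nat_lit 270)) (XT.lf (nat_lit 0) (nat_lit 429815855) (nat_lit 684) (nat_lit 12425253876) (nat_lit 76) (nat_lit 471461936) (nat_lit 226) (nat_lit 5) (nat_lit 235) (nat_lit 5) (nat_lit 227) (nat_lit 5) (nat_lit 460) (nat_lit 411)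 (nat_lit 269)))) (XT.nd (nat_lit 156) (nat_lit 608) (nat_lit 0) (XT.nd (nat_lit 78) (nat_lit 684) (nat_lit 0) (XT.lf (nat_lit 0) (nat_lit 2372677008) (nat_lit 684) (nat_lit 5878491718) (nat_lit 76) (nat_lit 5229450275) (nat_lit 226) (nat_lit 5) (nat_lit 235) (nat_lit 5) (nat_lit 227) (nat_lit 5) (nat_lit 461) (nat_lit 411) (nat_lit 268)) (XT.lf (nat_lit 0) (nat_lit 796237183) (nat_lit 684) (nat_lit 3551375858) (nat_lit 760) (nat_lit 9290321257) (nat_lit 217) (nat_lit 5) (nat_lit 226) (nat_lit 5) (nat_lit 227) (nat_lit 5) (nat_lit 462) (nat_lit 411) (nat_lit 267))) (XT.nd (nat_lit 78) (nat_lit 608) (nat_lit 0) (XT.lf (nat_lit 0) (nat_lit 6398009330) (nat_lit 760) (nat_lit 6135349233) (nat_lit 76) (nat_lit 1264328467) (nat_lit 217) (nat_lit 5) (nat_lit 227) (nat_lit 5) (nat_lit 218) (nat_lit 5) (nat_lit 463) (nat_lit 411) (nat_lit 266)) (XT.lf (nat_lit 0) (nat_lit 677194319) (nat_lit 608) (nat_lit 7828552660)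 (nat_lit 684) (nat_lit 5454571326) (nat_lit 209) (nat_lit 5) (nat_lit 217) (nat_lit 5) (nat_lit 218) (nat_lit 5) (nat_lit 464) (nat_lit 411) (nat_lit 265)))))) (XT.nd (nat_lit 546) (nat_lit 1596) (nat_lit 0) (XT.nd (nat_lit 234) (nat_lit 1140) (nat_lit 0) (XT.nd (nat_lit 78) (nat_lit 684) (nat_lit 0) (XT.lf (nat_lit 0) (nat_lit 7695948709) (nat_lit 608) (nat_lit 2989421052) (nat_lit 684) (nat_lit 3440247794) (nat_lit 209) (nat_lit 5) (nat_lit 217) (nat_lit 5) (nat_lit 218) (nat_lit 5) (nat_lit 465) (nat_lit 411) (nat_lit 264)) (XT.nd (nat_lit 78) (nat_lit 76) (nat_lit 0) (XT.lf (nat_lit 0) (nat_lit 542157746) (nat_lit 608) (nat_lit 12371357279) (nat_lit 684) (nat_lit 1380618925) (nat_lit 201) (nat_lit 5) (nat_lit 209) (nat_lit 5) (nat_lit 210) (nat_lit 5) (nat_lit 466) (nat_lit 411) (nat_lit 263)) (XT.lf (nat_lit 0) (nat_lit 762810981) (nat_lit 684) (nat_lit 6762581759) (nat_lit 76) (nat_lit 6939502717)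 (nat_lit 200) (nat_lit 5) (nat_lit 209) (nat_lit 5) (nat_lit 201) (nat_lit 5) (nat_lit 467) (nat_lit 411) (nat_lit 262)))) (XT.nd (nat_lit 156) (nat_lit 608) (nat_lit 0) (XT.nd (nat_lit 78) (nat_lit 0) (nat_lit 0) (XT.lf (nat_lit 0) (nat_lit 349053462) (nat_lit 532) (nat_lit 2572896590) (nat_lit 608) (nat_lit 11717122282) (nat_lit 193) (nat_lit 5) (nat_lit 200) (nat_lit 5) (nat_lit 201) (nat_lit 5) (nat_lit 468) (nat_lit 411) (nat_lit 261)) (XT.lf (nat_lit 0) (nat_lit 5175207100) (nat_lit 608) (nat_lit 7150737258) (nat_lit 76) (nat_lit 2489778706) (nat_lit 193) (nat_lit 5) (nat_lit 201) (nat_lit 5) (nat_lit 194) (nat_lit 5) (nat_lit 469) (nat_lit 411) (nat_lit 260))) (XT.nd (nat_lit 78) (nat_lit 0) (nat_lit 0) (XT.lf (nat_lit 0) (nat_lit 102787530) (nat_lit 608) (nat_lit 7377821841) (nat_lit 684) (nat_lit 7515164678) (nat_lit 185) (nat_lit 5) (nat_lit 193) (nat_lit 5) (nat_lit 194) (nat_lit 5) (nat_lit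 470) (nat_lit 411) (nat_lit 259)) (XT.lf (nat_lit 0) (nat_lit 7585546006) (nat_lit 608) (nat_lit 2284058028) (nat_lit 684) (nat_lit 5309081001) (nat_lit 185) (nat_lit 5) (nat_lit 193) (nat_lit 5) (nat_lit 194) (nat_lit 5) (nat_lit 471) (nat_lit 411) (nat_lit 258))))) (XT.nd (nat_lit 234) (nat_lit 988) (nat_lit 0) (XT.nd (nat_lit 78) (nat_lit 608) (nat_lit 0) (XT.lf (nat_lit 0) (nat_lit 12314973119) (nat_lit 684) (nat_lit 178915082) (nat_lit 76) (nat_lit 2871202649) (nat_lit 185) (nat_lit 5) (nat_lit 194) (nat_lit 5) (nat_lit 186) (nat_lit 5) (nat_lit 472) (nat_lit 411) (nat_lit 257)) (XT.nd (nat_lit 78) (nat_lit 76) (nat_lit 0) (XT.lf (nat_lit 0) (nat_lit 7453757267) (nat_lit 532) (nat_lit 7408906021) (nat_lit 608) (nat_lit 691501552) (nat_lit 178) (nat_lit 5) (nat_lit 185) (nat_lit 5) (nat_lit 186) (nat_lit 5) (nat_lit 473) (nat_lit 411) (nat_lit 256)) (XT.lf (nat_lit 0) (nat_lit 1682948643) (nat_lit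 608) (nat_lit 529153191) (nat_lit 76) (nat_lit 13534880980) (nat_lit 177) (nat_lit 5) (nat_lit 185) (nat_lit 5) (nat_lit 178) (nat_lit 5) (nat_lit 474) (nat_lit 411) (nat_lit 255)))) (XT.nd (nat_lit 156) (nat_lit 456) (nat_lit 0) (XT.nd (nat_lit 78) (nat_lit 0) (nat_lit 0) (XT.lf (nat_lit 0) (nat_lit 4153366649) (nat_lit 608) (nat_lit 8691167686) (nat_lit 76) (nat_lit 3097884486) (nat_lit 170) (nat_lit 5) (nat_lit 178) (nat_lit 5) (nat_lit 171) (nat_lit 5) (nat_lit 475) (nat_lit 411) (nat_lit 254)) (XT.lf (nat_lit 0) (nat_lit 6681649091) (nat_lit 608) (nat_lit 974316747) (nat_lit 76) (nat_lit 8485636288) (nat_lit 170) (nat_lit 5) (nat_lit 178) (nat_lit 5) (nat_lit 171) (nat_lit 5) (nat_lit 476) (nat_lit 411) (nat_lit 253))) (XT.nd (nat_lit 78) (nat_lit 0) (nat_lit 0) (XT.lf (nat_lit 0) (nat_lit 6976221115) (nat_lit 456) (nat_lit 2319993833) (nat_lit 532) (nat_lit 7047847341) (nat_lit 164) (nat_lit 5)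 (nat_lit 170) (nat_lit 5) (nat_lit 171) (nat_lit 5) (nat_lit 477) (nat_lit 411) (nat_lit 252)) (XT.lf (nat_lit 0) (nat_lit 11980444314) (nat_lit 532) (nat_lit 1484026424) (nat_lit 76) (nat_lit 3085760871) (nat_lit 164) (nat_lit 5) (nat_lit 171) (nat_lit 5) (nat_lit 165) (nat_lit 5) (nat_lit 478) (nat_lit 411) (nat_lit 251))))))))
noncomputable def xc177 : XT := (XT.nd (nat_lit 2106) (nat_lit 1824) (nat_lit 0) (XT.nd (nat_lit 1014) (nat_lit 2280) (nat_lit 0) (XT.nd (nat_lit 468) (nat_lit 1748) (nat_lit 0) (XT.nd (nat_lit 234) (nat_lit 456) (nat_lit 0) (XT.nd (nat_lit 78) (nat_lit 532) (nat_lit 0) (XT.lf (nat_lit 0) (nat_lit 6616877584) (nat_lit 532) (nat_lit 8150508087) (nat_lit 608) (nat_lit 1992165350) (nat_lit 157) (nat_lit 5) (nat_lit 164) (nat_lit 5) (nat_lit 165) (nat_lit 5) (nat_lit 479) (nat_lit 411) (nat_lit 250)) (XT.nd (nat_lit 78) (nat_lit 456) (nat_lit 0) (XT.lf (nat_lit 0) (nat_lit 629418128)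 (nat_lit 608) (nat_lit 2089198892) (nat_lit 76) (nat_lit 14254348784) (nat_lit 156) (nat_lit 5) (nat_lit 164) (nat_lit 5) (nat_lit 157) (nat_lit 5) (nat_lit 480) (nat_lit 411) (nat_lit 249)) (XT.lf (nat_lit 0) (nat_lit 3326494604) (nat_lit 532) (nat_lit 11027024718) (nat_lit 76) (nat_lit 2835878303) (nat_lit 150) (nat_lit 5) (nat_lit 157) (nat_lit 5) (nat_lit 151) (nat_lit 5) (nat_lit 481) (nat_lit 411) (nat_lit 248)))) (XT.nd (nat_lit 78) (nat_lit 456) (nat_lit 0) (XT.lf (nat_lit 0) (nat_lit 6100633638) (nat_lit 532) (nat_lit 2832588455) (nat_lit 76) (nat_lit 8476480271) (nat_lit 150) (nat_lit 5) (nat_lit 157) (nat_lit 5) (nat_lit 151) (nat_lit 5) (nat_lit 482) (nat_lit 411) (nat_lit 247)) (XT.nd (nat_lit 78) (nat_lit 0) (nat_lit 0) (XT.lf (nat_lit 0) (nat_lit 5587339398) (nat_lit 456) (nat_lit 3370373623) (nat_lit 532) (nat_lit 8676157596) (nat_lit 144) (nat_lit 5) (nat_lit 150) (nat_lit 5) (nat_lit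 151) (nat_lit 5) (nat_lit 483) (nat_lit 411) (nat_lit 246)) (XT.lf (nat_lit 0) (nat_lit 11897285174) (nat_lit 532) (nat_lit 3674924484) (nat_lit 76) (nat_lit 2289811993) (nat_lit 144) (nat_lit 5) (nat_lit 151) (nat_lit 5) (nat_lit 145) (nat_lit 5) (nat_lit 484) (nat_lit 411) (nat_lit 245))))) (XT.nd (nat_lit 234) (nat_lit 760) (nat_lit 0) (XT.nd (nat_lit 78) (nat_lit 532) (nat_lit 0) (XT.lf (nat_lit 0) (nat_lit 4894454836) (nat_lit 456) (nat_lit 10046723498) (nat_lit 532) (nat_lit 3152653095) (nat_lit 138) (nat_lit 5) (nat_lit 144) (nat_lit 5) (nat_lit 145) (nat_lit 5) (nat_lit 485) (nat_lit 411) (nat_lit 244)) (XT.nd (nat_lit 78) (nat_lit 532) (nat_lit 0) (XT.lf (nat_lit 0) (nat_lit 13673581322) (nat_lit 456) (nat_lit 4388553518) (nat_lit 532) (nat_lit 267825044) (nat_lit 138) (nat_lit 5) (nat_lit 144) (nat_lit 5) (nat_lit 145) (nat_lit 5) (nat_lit 486) (nat_lit 411) (nat_lit 243)) (XT.lf (nat_lit 0)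 (nat_lit 2667004538) (nat_lit 532) (nat_lit 14497049850) (nat_lit 76) (nat_lit 1405867470) (nat_lit 131) (nat_lit 5) (nat_lit 138) (nat_lit 5) (nat_lit 132) (nat_lit 5) (nat_lit 487) (nat_lit 411) (nat_lit 242)))) (XT.nd (nat_lit 156) (nat_lit 380) (nat_lit 0) (XT.nd (nat_lit 78) (nat_lit 380) (nat_lit 0) (XT.lf (nat_lit 0) (nat_lit 5709166297) (nat_lit 532) (nat_lit 5816700873) (nat_lit 76) (nat_lit 7287741893) (nat_lit 131) (nat_lit 5) (nat_lit 138) (nat_lit 5) (nat_lit 132) (nat_lit 5) (nat_lit 488) (nat_lit 411) (nat_lit 241)) (XT.lf (nat_lit 0) (nat_lit 3066268879) (nat_lit 380) (nat_lit 5757674837) (nat_lit 456) (nat_lit 10237996566) (nat_lit 126) (nat_lit 5) (nat_lit 131) (nat_lit 5) (nat_lit 132) (nat_lit 5) (nat_lit 489) (nat_lit 411) (nat_lit 240))) (XT.nd (nat_lit 78) (nat_lit 380) (nat_lit 0) (XT.lf (nat_lit 0) (nat_lit 12033057080) (nat_lit 456) (nat_lit 7121062100) (nat_lit 76) (nat_lit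 160483747) (nat_lit 126) (nat_lit 5) (nat_lit 132) (nat_lit 5) (nat_lit 127) (nat_lit 5) (nat_lit 490) (nat_lit 411) (nat_lit 239)) (XT.lf (nat_lit 0) (nat_lit 1906865256) (nat_lit 380) (nat_lit 13442088059) (nat_lit 456) (nat_lit 4222518995) (nat_lit 121) (nat_lit 5) (nat_lit 126) (nat_lit 5) (nat_lit 127) (nat_lit 5) (nat_lit 491) (nat_lit 411) (nat_lit 238)))))) (XT.nd (nat_lit 546) (nat_lit 1140) (nat_lit 0) (XT.nd (nat_lit 234) (nat_lit 684) (nat_lit 0) (XT.nd (nat_lit 78) (nat_lit 456) (nat_lit 0) (XT.lf (nat_lit 0) (nat_lit 11200899031) (nat_lit 380) (nat_lit 7570228007) (nat_lit 456) (nat_lit 1061558240) (nat_lit 121) (nat_lit 5) (nat_lit 126) (nat_lit 5) (nat_lit 127) (nat_lit 5) (nat_lit 492) (nat_lit 411) (nat_lit 237)) (XT.nd (nat_lit 78) (nat_lit 0) (nat_lit 0) (XT.lf (nat_lit 0) (nat_lit 564176473) (nat_lit 380) (nat_lit 1566016012) (nat_lit 456) (nat_lit 17968735699) (nat_lit 115) (nat_lit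 5) (nat_lit 120) (nat_lit 5) (nat_lit 121) (nat_lit 5) (nat_lit 493) (nat_lit 411) (nat_lit 236)) (XT.lf (nat_lit 0) (nat_lit 5451811925) (nat_lit 456) (nat_lit 10356220687) (nat_lit 76) (nat_lit 4560723117) (nat_lit 115) (nat_lit 5) (nat_lit 121) (nat_lit 5) (nat_lit 116) (nat_lit 5) (nat_lit 494) (nat_lit 411) (nat_lit 235)))) (XT.nd (nat_lit 156) (nat_lit 304) (nat_lit 0) (XT.nd (nat_lit 78) (nat_lit 380) (nat_lit 0) (XT.lf (nat_lit 0) (nat_lit 8842716945) (nat_lit 456) (nat_lit 1015214156) (nat_lit 76) (nat_lit 10785996640) (nat_lit 115) (nat_lit 5) (nat_lit 121) (nat_lit 5) (nat_lit 116) (nat_lit 5) (nat_lit 495) (nat_lit 411) (nat_lit 234)) (XT.lf (nat_lit 0) (nat_lit 8615087052) (nat_lit 380) (nat_lit 3734917506) (nat_lit 456) (nat_lit 8573632227) (nat_lit 110) (nat_lit 5) (nat_lit 115) (nat_lit 5) (nat_lit 116) (nat_lit 5) (nat_lit 496) (nat_lit 411) (nat_lit 233))) (XT.nd (nat_lit 78) (nat_lit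 304) (nat_lit 0) (XT.lf (nat_lit 0) (nat_lit 15943281734) (nat_lit 456) (nat_lit 2783968191) (nat_lit 76) (nat_lit 2481377993) (nat_lit 110) (nat_lit 5) (nat_lit 116) (nat_lit 5) (nat_lit 111) (nat_lit 5) (nat_lit 497) (nat_lit 411) (nat_lit 232)) (XT.lf (nat_lit 0) (nat_lit 6987647127) (nat_lit 304) (nat_lit 12683709610) (nat_lit 380) (nat_lit 1826708184) (nat_lit 106) (nat_lit 5) (nat_lit 110) (nat_lit 5) (nat_lit 111) (nat_lit 5) (nat_lit 498) (nat_lit 411) (nat_lit 231))))) (XT.nd (nat_lit 234) (nat_lit 684) (nat_lit 0) (XT.nd (nat_lit 78) (nat_lit 380) (nat_lit 0) (XT.lf (nat_lit 0) (nat_lit 1670316955) (nat_lit 380) (nat_lit 4821919661) (nat_lit 76) (nat_lit 15300607171) (nat_lit 105) (nat_lit 5) (nat_lit 110) (nat_lit 5) (nat_lit 106) (nat_lit 5) (nat_lit 499) (nat_lit 411) (nat_lit 230)) (XT.nd (nat_lit 78) (nat_lit 0) (nat_lit 0) (XT.lf (nat_lit 0) (nat_lit 5105009191) (nat_lit 380) (nat_lit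 133973404) (nat_lit 456) (nat_lit 16853775374) (nat_lit 100) (nat_lit 5) (nat_lit 105) (nat_lit 5) (nat_lit 106) (nat_lit 5) (nat_lit 500) (nat_lit 411) (nat_lit 229)) (XT.lf (nat_lit 0) (nat_lit 8945873907) (nat_lit 456) (nat_lit 7153886649) (nat_lit 76) (nat_lit 6297577165) (nat_lit 100) (nat_lit 5) (nat_lit 106) (nat_lit 5) (nat_lit 101) (nat_lit 5) (nat_lit 501) (nat_lit 411) (nat_lit 228)))) (XT.nd (nat_lit 156) (nat_lit 380) (nat_lit 0) (XT.nd (nat_lit 78) (nat_lit 0) (nat_lit 0) (XT.lf (nat_lit 0) (nat_lit 2903800097) (nat_lit 304) (nat_lit 9836022598) (nat_lit 380) (nat_lit 9967932230) (nat_lit 96) (nat_lit 5) (nat_lit 100) (nat_lit 5) (nat_lit 101) (nat_lit 5) (nat_lit 502) (nat_lit 411) (nat_lit 227)) (XT.lf (nat_lit 0) (nat_lit 13249630265) (nat_lit 304) (nat_lit 3401274479) (nat_lit 380) (nat_lit 6372654810) (nat_lit 96) (nat_lit 5) (nat_lit 100) (nat_lit 5) (nat_lit 101) (nat_lit 5) (nat_lit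 503) (nat_lit 411) (nat_lit 226))) (XT.nd (nat_lit 78) (nat_lit 76) (nat_lit 0) (XT.lf (nat_lit 0) (nat_lit 431927373) (nat_lit 304) (nat_lit 20224976082) (nat_lit 380) (nat_lit 2688447005) (nat_lit 92) (nat_lit 5) (nat_lit 96) (nat_lit 5) (nat_lit 97) (nat_lit 5) (nat_lit 504) (nat_lit 411) (nat_lit 225)) (XT.lf (nat_lit 0) (nat_lit 1137345161) (nat_lit 380) (nat_lit 12737709030) (nat_lit 76) (nat_lit 9796749524) (nat_lit 91) (nat_lit 5) (nat_lit 96) (nat_lit 5) (nat_lit 92) (nat_lit 5) (nat_lit 505) (nat_lit 411) (nat_lit 224))))))) (XT.nd (nat_lit 1092) (nat_lit 0) (nat_lit 0) (XT.nd (nat_lit 546) (nat_lit 912) (nat_lit 0) (XT.nd (nat_lit 234) (nat_lit 608) (nat_lit 0) (XT.nd (nat_lit 78) (nat_lit 304) (nat_lit 0) (XT.lf (nat_lit 0) (nat_lit 4997196952) (nat_lit 380) (nat_lit 2386020330) (nat_lit 76) (nat_lit 16621346349) (nat_lit 91) (nat_lit 5) (nat_lit 96) (nat_lit 5) (nat_lit 92) (nat_lit 5) (nat_lit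 506) (nat_lit 411) (nat_lit 223)) (XT.nd (nat_lit 78) (nat_lit 0) (nat_lit 0) (XT.lf (nat_lit 0) (nat_lit 8271641746) (nat_lit 304) (nat_lit 709944737) (nat_lit 380) (nat_lit 15361449222) (nat_lit 87) (nat_lit 5) (nat_lit 91) (nat_lit 5) (nat_lit 92) (nat_lit 5) (nat_lit 507) (nat_lit 411) (nat_lit 222)) (XT.lf (nat_lit 0) (nat_lit 13095044017) (nat_lit 380) (nat_lit 5562437997) (nat_lit 76) (nat_lit 6029811300) (nat_lit 87) (nat_lit 5) (nat_lit 92) (nat_lit 5) (nat_lit 88) (nat_lit 5) (nat_lit 508) (nat_lit 411) (nat_lit 221)))) (XT.nd (nat_lit 156) (nat_lit 304) (nat_lit 0) (XT.nd (nat_lit 78) (nat_lit 0) (nat_lit 0) (XT.lf (nat_lit 0) (nat_lit 5210935124) (nat_lit 304) (nat_lit 12112172298) (nat_lit 380) (nat_lit 7714685546) (nat_lit 83) (nat_lit 5) (nat_lit 87) (nat_lit 5) (nat_lit 88) (nat_lit 5) (nat_lit 509) (nat_lit 411) (nat_lit 220)) (XT.lf (nat_lit 0) (nat_lit 16265835191) (nat_lit 304) (nat_lit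 5401086923) (nat_lit 380) (nat_lit 3727760258) (nat_lit 83) (nat_lit 5) (nat_lit 87) (nat_lit 5) (nat_lit 88) (nat_lit 5) (nat_lit 510) (nat_lit 411) (nat_lit 219))) (XT.nd (nat_lit 78) (nat_lit 0) (nat_lit 0) (XT.lf (nat_lit 0) (nat_lit 349502670) (nat_lit 304) (nat_lit 23972778595) (nat_lit 76) (nat_lit 1436086830) (nat_lit 79) (nat_lit 5) (nat_lit 83) (nat_lit 5) (nat_lit 80) (nat_lit 5) (nat_lit 511) (nat_lit 411) (nat_lit 218)) (XT.lf (nat_lit 0) (nat_lit 4549855396) (nat_lit 304) (nat_lit 13156188676) (nat_lit 76) (nat_lit 8420964817) (nat_lit 79) (nat_lit 5) (nat_lit 83) (nat_lit 5) (nat_lit 80) (nat_lit 5) (nat_lit 512) (nat_lit 411) (nat_lit 217))))) (XT.nd (nat_lit 234) (nat_lit 608) (nat_lit 0) (XT.nd (nat_lit 78) (nat_lit 304) (nat_lit 0) (XT.lf (nat_lit 0) (nat_lit 8828311980) (nat_lit 304) (nat_lit 2132368468) (nat_lit 76) (nat_lit 15542463399) (nat_lit 79) (nat_lit 5) (nat_lit 83) (nat_lit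 5) (nat_lit 80) (nat_lit 5) (nat_lit 513) (nat_lit 411) (nat_lit 216)) (XT.nd (nat_lit 78) (nat_lit 0) (nat_lit 0) (XT.lf (nat_lit 0) (nat_lit 9223979240) (nat_lit 304) (nat_lit 4022459200) (nat_lit 380) (nat_lit 13639284270) (nat_lit 75) (nat_lit 5) (nat_lit 79) (nat_lit 5) (nat_lit 80) (nat_lit 5) (nat_lit 514) (nat_lit 411) (nat_lit 215)) (XT.lf (nat_lit 0) (nat_lit 17781411660) (nat_lit 380) (nat_lit 6468196814) (nat_lit 76) (nat_lit 3025778150) (nat_lit 75) (nat_lit 5) (nat_lit 80) (nat_lit 5) (nat_lit 76) (nat_lit 5) (nat_lit 515) (nat_lit 411) (nat_lit 214)))) (XT.nd (nat_lit 156) (nat_lit 380) (nat_lit 0) (XT.nd (nat_lit 78) (nat_lit 0) (nat_lit 0) (XT.lf (nat_lit 0) (nat_lit 4979097662) (nat_lit 228) (nat_lit 17481314008) (nat_lit 304) (nat_lit 5211368694) (nat_lit 72) (nat_lit 5) (nat_lit 75) (nat_lit 5) (nat_lit 76) (nat_lit 5) (nat_lit 516) (nat_lit 411) (nat_lit 213)) (XT.lf (nat_lit 0) (nat_lit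 16734287871) (nat_lit 228) (nat_lit 10536523637) (nat_lit 304) (nat_lit 804537111) (nat_lit 72) (nat_lit 5) (nat_lit 75) (nat_lit 5) (nat_lit 76) (nat_lit 5) (nat_lit 517) (nat_lit 411) (nat_lit 212))) (XT.nd (nat_lit 78) (nat_lit 0) (nat_lit 0) (XT.lf (nat_lit 0) (nat_lit 207723922) (nat_lit 304) (nat_lit 3430140329) (nat_lit 380) (nat_lit 24848731013) (nat_lit 67) (nat_lit 5) (nat_lit 71) (nat_lit 5) (nat_lit 72) (nat_lit 5) (nat_lit 518) (nat_lit 411) (nat_lit 211)) (XT.lf (nat_lit 0) (nat_lit 8254268213) (nat_lit 380) (nat_lit 16802621285) (nat_lit 76) (nat_lit 3847155299) (nat_lit 67) (nat_lit 5) (nat_lit 72) (nat_lit 5) (nat_lit 68) (nat_lit 5) (nat_lit 519) (nat_lit 411) (nat_lit 210)))))) (XT.nd (nat_lit 51402) (nat_lit 0) (nat_lit 25840) (XT.nd (nat_lit 51090) (nat_lit 0) (nat_lit 27132) (XT.nd (nat_lit 50934) (nat_lit 0) (nat_lit 27056) (XT.lf (nat_lit 0) (nat_lit 12980341283) (nat_lit 380)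 (nat_lit 5128060842) (nat_lit 76) (nat_lit 11221097179) (nat_lit 67) (nat_lit 5) (nat_lit 72) (nat_lit 5) (nat_lit 68) (nat_lit 5) (nat_lit 520) (nat_lit 411) (nat_lit 209)) (XT.nd (nat_lit 78) (nat_lit 0) (nat_lit 0) (XT.lf (nat_lit 0) (nat_lit 165581674) (nat_lit 1444) (nat_lit 2027912097) (nat_lit 1444) (nat_lit 2027912097) (nat_lit 423) (nat_lit 3) (nat_lit 442) (nat_lit 3) (nat_lit 442) (nat_lit 5) (nat_lit 412) (nat_lit 412) (nat_lit 316)) (XT.lf (nat_lit 0) (nat_lit 1326811990) (nat_lit 1444) (nat_lit 288760515) (nat_lit 1444) (nat_lit 6890669901) (nat_lit 423) (nat_lit 3) (nat_lit 442) (nat_lit 3) (nat_lit 442) (nat_lit 5) (nat_lit 413) (nat_lit 412) (nat_lit 315)))) (XT.nd (nat_lit 156) (nat_lit 0) (nat_lit 0) (XT.nd (nat_lit 78) (nat_lit 0) (nat_lit 0) (XT.lf (nat_lit 0) (nat_lit 2347737388) (nat_lit 1368) (nat_lit 4991724140) (nat_lit 1444) (nat_lit 1231403069) (nat_lit 424) (nat_lit 5) (nat_lit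 442) (nat_lit 5) (nat_lit 443) (nat_lit 5) (nat_lit 414) (nat_lit 412) (nat_lit 314)) (XT.lf (nat_lit 0) (nat_lit 3376206842) (nat_lit 1368) (nat_lit 1132963628) (nat_lit 1444) (nat_lit 4127895841) (nat_lit 424) (nat_lit 5) (nat_lit 442) (nat_lit 5) (nat_lit 443) (nat_lit 5) (nat_lit 415) (nat_lit 412) (nat_lit 313))) (XT.nd (nat_lit 78) (nat_lit 0) (nat_lit 76) (XT.lf (nat_lit 76) (nat_lit 2826488233) (nat_lit 0) (nat_lit 1592085187) (nat_lit 1444) (nat_lit 4286181096) (nat_lit 425) (nat_lit 5) (nat_lit 424) (nat_lit 5) (nat_lit 443) (nat_lit 5) (nat_lit 416) (nat_lit 412) (nat_lit 312)) (XT.lf (nat_lit 0) (nat_lit 5473874006) (nat_lit 1368) (nat_lit 1916247476) (nat_lit 1444) (nat_lit 1383861714) (nat_lit 425) (nat_lit 5) (nat_lit 443) (nat_lit 5) (nat_lit 444) (nat_lit 5) (nat_lit 417) (nat_lit 412) (nat_lit 311))))) (XT.nd (nat_lit 234) (nat_lit 1368) (nat_lit 0) (XT.nd (nat_lit 78) (nat_lit 0) (nat_lit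 0) (XT.lf (nat_lit 76) (nat_lit 2128602875) (nat_lit 0) (nat_lit 4421974943) (nat_lit 1444) (nat_lit 2294040570) (nat_lit 426) (nat_lit 5) (nat_lit 425) (nat_lit 5) (nat_lit 444) (nat_lit 5) (nat_lit 418) (nat_lit 412) (nat_lit 310)) (XT.nd (nat_lit 78) (nat_lit 0) (nat_lit 76) (XT.lf (nat_lit 76) (nat_lit 6266633915) (nat_lit 0) (nat_lit 1371357127) (nat_lit 1444) (nat_lit 1278919074) (nat_lit 426) (nat_lit 5) (nat_lit 425) (nat_lit 5) (nat_lit 444) (nat_lit 5) (nat_lit 419) (nat_lit 412) (nat_lit 309)) (XT.lf (nat_lit 76) (nat_lit 1491056474) (nat_lit 0) (nat_lit 7253920287) (nat_lit 1444) (nat_lit 245741236) (nat_lit 427) (nat_lit 5) (nat_lit 426) (nat_lit 5) (nat_lit 445) (nat_lit 5) (nat_lit 420) (nat_lit 412) (nat_lit 308)))) (XT.nd (nat_lit 156) (nat_lit 0) (nat_lit 76) (XT.nd (nat_lit 78) (nat_lit 0) (nat_lit 0) (XT.lf (nat_lit 0) (nat_lit 801517442) (nat_lit 1444) (nat_lit 3343168614) (nat_lit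 1520) (nat_lit 4921156492) (nat_lit 407) (nat_lit 5) (nat_lit 426) (nat_lit 5) (nat_lit 427) (nat_lit 5) (nat_lit 421) (nat_lit 412) (nat_lit 307)) (XT.lf (nat_lit 76) (nat_lit 892595105) (nat_lit 0) (nat_lit 957115778) (nat_lit 1520) (nat_lit 7293085877) (nat_lit 408) (nat_lit 5) (nat_lit 407) (nat_lit 5) (nat_lit 427) (nat_lit 5) (nat_lit 422) (nat_lit 412) (nat_lit 306))) (XT.nd (nat_lit 78) (nat_lit 0) (nat_lit 0) (XT.lf (nat_lit 0) (nat_lit 2934234015) (nat_lit 1444) (nat_lit 3991862400) (nat_lit 1520) (nat_lit 2294911082) (nat_lit 408) (nat_lit 5) (nat_lit 427) (nat_lit 5) (nat_lit 428) (nat_lit 5) (nat_lit 423) (nat_lit 412) (nat_lit 305)) (XT.lf (nat_lit 76) (nat_lit 335619991) (nat_lit 0) (nat_lit 3691666106) (nat_lit 1520) (nat_lit 5273783860) (nat_lit 409) (nat_lit 5) (nat_lit 408) (nat_lit 5) (nat_lit 428) (nat_lit 5) (nat_lit 424) (nat_lit 412) (nat_lit 304))))))))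
noncomputable def xc178 : XT := (XT.nd (nat_lit 2106) (nat_lit 8284) (nat_lit 0) (XT.nd (nat_lit 1014) (nat_lit 7600) (nat_lit 0) (XT.nd (nat_lit 468) (nat_lit 1292) (nat_lit 0) (XT.nd (nat_lit 234) (nat_lit 1368) (nat_lit 0) (XT.nd (nat_lit 78) (nat_lit 0) (nat_lit 76) (XT.lf (nat_lit 76) (nat_lit 4789768606) (nat_lit 0) (nat_lit 357873240) (nat_lit 1520) (nat_lit 4235006768) (nat_lit 409) (nat_lit 5) (nat_lit 408) (nat_lit 5) (nat_lit 428) (nat_lit 5) (nat_lit 425) (nat_lit 412) (nat_lit 303)) (XT.nd (nat_lit 78) (nat_lit 0) (nat_lit 0) (XT.lf (nat_lit 0) (nat_lit 6289279701) (nat_lit 1444) (nat_lit 166821624) (nat_lit 1520) (nat_lit 3009803351) (nat_lit 409) (nat_lit 5) (nat_lit 428) (nat_lit 5) (nat_lit 429) (nat_lit 5) (nat_lit 426) (nat_lit 412) (nat_lit 302)) (XT.lf (nat_lit 76) (nat_lit 4389020874) (nat_lit 0) (nat_lit 3075125739) (nat_lit 1520) (nat_lit 2086494195) (nat_lit 410) (nat_lit 5) (nat_lit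 409) (nat_lit 5) (nat_lit 429) (nat_lit 5) (nat_lit 427) (nat_lit 412) (nat_lit 301)))) (XT.nd (nat_lit 78) (nat_lit 1520) (nat_lit 0) (XT.lf (nat_lit 0) (nat_lit 8645944962) (nat_lit 1444) (nat_lit 615544786) (nat_lit 1520) (nat_lit 375935661) (nat_lit 410) (nat_lit 5) (nat_lit 429) (nat_lit 5) (nat_lit 430) (nat_lit 5) (nat_lit 428) (nat_lit 412) (nat_lit 300)) (XT.nd (nat_lit 78) (nat_lit 0) (nat_lit 0) (XT.lf (nat_lit 0) (nat_lit 150817375) (nat_lit 1520) (nat_lit 5686374034) (nat_lit 1596) (nat_lit 3888218981) (nat_lit 390) (nat_lit 5) (nat_lit 410) (nat_lit 5) (nat_lit 411) (nat_lit 5) (nat_lit 429) (nat_lit 412) (nat_lit 299)) (XT.lf (nat_lit 0) (nat_lit 1287278844) (nat_lit 1520) (nat_lit 1040826283) (nat_lit 1596) (nat_lit 7487248132) (nat_lit 390) (nat_lit 5) (nat_lit 410) (nat_lit 5) (nat_lit 411) (nat_lit 5) (nat_lit 430) (nat_lit 412) (nat_lit 298))))) (XT.nd (nat_lit 234) (nat_lit 1368)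 (nat_lit 0) (XT.nd (nat_lit 78) (nat_lit 0) (nat_lit 0) (XT.lf (nat_lit 0) (nat_lit 2459829488) (nat_lit 1520) (nat_lit 6182680731) (nat_lit 1596) (nat_lit 1264338288) (nat_lit 391) (nat_lit 5) (nat_lit 411) (nat_lit 5) (nat_lit 412) (nat_lit 5) (nat_lit 431) (nat_lit 412) (nat_lit 297)) (XT.nd (nat_lit 78) (nat_lit 0) (nat_lit 0) (XT.lf (nat_lit 0) (nat_lit 3659406211) (nat_lit 1520) (nat_lit 1431202062) (nat_lit 1596) (nat_lit 4909514197) (nat_lit 391) (nat_lit 5) (nat_lit 411) (nat_lit 5) (nat_lit 412) (nat_lit 5) (nat_lit 432) (nat_lit 412) (nat_lit 296)) (XT.lf (nat_lit 76) (nat_lit 3446513395) (nat_lit 0) (nat_lit 1440334601) (nat_lit 1596) (nat_lit 5208356360) (nat_lit 392) (nat_lit 5) (nat_lit 391) (nat_lit 5) (nat_lit 412) (nat_lit 5) (nat_lit 433) (nat_lit 412) (nat_lit 295)))) (XT.nd (nat_lit 156) (nat_lit 1444) (nat_lit 0) (XT.nd (nat_lit 78) (nat_lit 0) (nat_lit 0) (XT.lf (nat_lit 0) (nat_lit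 6145125860) (nat_lit 1520) (nat_lit 1780012915) (nat_lit 1596) (nat_lit 2266942883) (nat_lit 392) (nat_lit 5) (nat_lit 412) (nat_lit 5) (nat_lit 413) (nat_lit 5) (nat_lit 434) (nat_lit 412) (nat_lit 294)) (XT.lf (nat_lit 76) (nat_lit 3204493634) (nat_lit 0) (nat_lit 4236574035) (nat_lit 1596) (nat_lit 2849598011) (nat_lit 393) (nat_lit 5) (nat_lit 392) (nat_lit 5) (nat_lit 413) (nat_lit 5) (nat_lit 435) (nat_lit 412) (nat_lit 293))) (XT.nd (nat_lit 78) (nat_lit 1444) (nat_lit 0) (XT.lf (nat_lit 76) (nat_lit 8298877259) (nat_lit 0) (nat_lit 458409331) (nat_lit 1596) (nat_lit 1634066392) (nat_lit 393) (nat_lit 5) (nat_lit 392) (nat_lit 5) (nat_lit 413) (nat_lit 5) (nat_lit 436) (nat_lit 412) (nat_lit 292)) (XT.lf (nat_lit 0) (nat_lit 3004398421) (nat_lit 1520) (nat_lit 7119764166) (nat_lit 1596) (nat_lit 369423188) (nat_lit 373) (nat_lit 5) (nat_lit 393) (nat_lit 5) (nat_lit 394) (nat_lit 5) (nat_lit 437)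 (nat_lit 412) (nat_lit 291)))))) (XT.nd (nat_lit 546) (nat_lit 3268) (nat_lit 0) (XT.nd (nat_lit 234) (nat_lit 2660) (nat_lit 0) (XT.nd (nat_lit 78) (nat_lit 1596) (nat_lit 0) (XT.lf (nat_lit 0) (nat_lit 908508874) (nat_lit 1596) (nat_lit 2389320837) (nat_lit 76) (nat_lit 7299930290) (nat_lit 372) (nat_lit 5) (nat_lit 393) (nat_lit 5) (nat_lit 373) (nat_lit 5) (nat_lit 438) (nat_lit 412) (nat_lit 290)) (XT.nd (nat_lit 78) (nat_lit 0) (nat_lit 0) (XT.lf (nat_lit 0) (nat_lit 2212742635) (nat_lit 1672) (nat_lit 7874681600) (nat_lit 76) (nat_lit 616448183) (nat_lit 351) (nat_lit 5) (nat_lit 373) (nat_lit 5) (nat_lit 352) (nat_lit 5) (nat_lit 439) (nat_lit 412) (nat_lit 289)) (XT.lf (nat_lit 0) (nat_lit 3564530757) (nat_lit 1672) (nat_lit 2663473913) (nat_lit 76) (nat_lit 4583690017) (nat_lit 351) (nat_lit 5) (nat_lit 373) (nat_lit 5) (nat_lit 352) (nat_lit 5) (nat_lit 440) (nat_lit 412) (nat_lit 288)))) (XT.nd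 (nat_lit 156) (nat_lit 988) (nat_lit 0) (XT.nd (nat_lit 78) (nat_lit 0) (nat_lit 0) (XT.lf (nat_lit 0) (nat_lit 2673092518) (nat_lit 1672) (nat_lit 2271431310) (nat_lit 1748) (nat_lit 5977142853) (nat_lit 329) (nat_lit 5) (nat_lit 351) (nat_lit 5) (nat_lit 352) (nat_lit 5) (nat_lit 441) (nat_lit 412) (nat_lit 287)) (XT.lf (nat_lit 0) (nat_lit 6365618351) (nat_lit 1748) (nat_lit 2906740697) (nat_lit 76) (nat_lit 1761225371) (nat_lit 329) (nat_lit 5) (nat_lit 352) (nat_lit 5) (nat_lit 330) (nat_lit 5) (nat_lit 442) (nat_lit 412) (nat_lit 286))) (XT.nd (nat_lit 78) (nat_lit 0) (nat_lit 0) (XT.lf (nat_lit 0) (nat_lit 2546379925) (nat_lit 988) (nat_lit 5284697942) (nat_lit 1064) (nat_lit 3316359799) (nat_lit 316) (nat_lit 5) (nat_lit 329) (nat_lit 5) (nat_lit 330) (nat_lit 5) (nat_lit 443) (nat_lit 412) (nat_lit 285)) (XT.lf (nat_lit 0) (nat_lit 8134152910) (nat_lit 988) (nat_lit 1195783988) (nat_lit 1064)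 (nat_lit 1933564976) (nat_lit 316) (nat_lit 5) (nat_lit 329) (nat_lit 5) (nat_lit 330) (nat_lit 5) (nat_lit 444) (nat_lit 412) (nat_lit 284))))) (XT.nd (nat_lit 234) (nat_lit 1520) (nat_lit 0) (XT.nd (nat_lit 78) (nat_lit 912) (nat_lit 0) (XT.lf (nat_lit 0) (nat_lit 2450752232) (nat_lit 836) (nat_lit 8428144901) (nat_lit 912) (nat_lit 502603148) (nat_lit 305) (nat_lit 5) (nat_lit 316) (nat_lit 5) (nat_lit 317) (nat_lit 5) (nat_lit 445) (nat_lit 412) (nat_lit 283)) (XT.nd (nat_lit 78) (nat_lit 836) (nat_lit 0) (XT.lf (nat_lit 0) (nat_lit 958474901) (nat_lit 912) (nat_lit 3344827328) (nat_lit 76) (nat_lit 7198165997) (nat_lit 304) (nat_lit 5) (nat_lit 316) (nat_lit 5) (nat_lit 305) (nat_lit 5) (nat_lit 446) (nat_lit 412) (nat_lit 282)) (XT.lf (nat_lit 0) (nat_lit 2366806995) (nat_lit 836) (nat_lit 75895319) (nat_lit 912) (nat_lit 9181068127) (nat_lit 293) (nat_lit 5) (nat_lit 304) (nat_lit 5) (nat_lit 305)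 (nat_lit 5) (nat_lit 447) (nat_lit 412) (nat_lit 281)))) (XT.nd (nat_lit 156) (nat_lit 760) (nat_lit 0) (XT.nd (nat_lit 78) (nat_lit 760) (nat_lit 0) (XT.lf (nat_lit 0) (nat_lit 3992202097) (nat_lit 912) (nat_lit 3551645190) (nat_lit 76) (nat_lit 4203973878) (nat_lit 293) (nat_lit 5) (nat_lit 305) (nat_lit 5) (nat_lit 294) (nat_lit 5) (nat_lit 448) (nat_lit 412) (nat_lit 280)) (XT.lf (nat_lit 0) (nat_lit 2283561957) (nat_lit 760) (nat_lit 3290233754) (nat_lit 836) (nat_lit 6300549058) (nat_lit 283) (nat_lit 5) (nat_lit 293) (nat_lit 5) (nat_lit 294) (nat_lit 5) (nat_lit 449) (nat_lit 412) (nat_lit 279))) (XT.nd (nat_lit 78) (nat_lit 760) (nat_lit 0) (XT.lf (nat_lit 0) (nat_lit 7203788288) (nat_lit 836) (nat_lit 3740142160) (nat_lit 76) (nat_lit 1059146726) (nat_lit 283) (nat_lit 5) (nat_lit 294) (nat_lit 5) (nat_lit 284) (nat_lit 5) (nat_lit 450) (nat_lit 412) (nat_lit 278)) (XT.lf (nat_lit 0) (nat_lit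 2221254188) (nat_lit 760) (nat_lit 6667581735) (nat_lit 836) (nat_lit 3245112602) (nat_lit 273) (nat_lit 5) (nat_lit 283) (nat_lit 5) (nat_lit 284) (nat_lit 5) (nat_lit 451) (nat_lit 412) (nat_lit 277))))))) (XT.nd (nat_lit 1014) (nat_lit 4028) (nat_lit 0) (XT.nd (nat_lit 468) (nat_lit 2052) (nat_lit 0) (XT.nd (nat_lit 234) (nat_lit 1444) (nat_lit 0) (XT.nd (nat_lit 78) (nat_lit 760) (nat_lit 0) (XT.lf (nat_lit 0) (nat_lit 8339066908) (nat_lit 760) (nat_lit 2280041663) (nat_lit 836) (nat_lit 1648111390) (nat_lit 273) (nat_lit 5) (nat_lit 283) (nat_lit 5) (nat_lit 284) (nat_lit 5) (nat_lit 452) (nat_lit 412) (nat_lit 276)) (XT.nd (nat_lit 78) (nat_lit 76) (nat_lit 0) (XT.lf (nat_lit 0) (nat_lit 2176851123) (nat_lit 684) (nat_lit 10222214432) (nat_lit 760) (nat_lit 3802574) (nat_lit 264) (nat_lit 5) (nat_lit 273) (nat_lit 5) (nat_lit 274) (nat_lit 5) (nat_lit 453) (nat_lit 412) (nat_lit 275)) (XT.lf (nat_lit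 0) (nat_lit 1679846298) (nat_lit 760) (nat_lit 4123262467) (nat_lit 76) (nat_lit 6737347566) (nat_lit 263) (nat_lit 5) (nat_lit 273) (nat_lit 5) (nat_lit 264) (nat_lit 5) (nat_lit 454) (nat_lit 412) (nat_lit 274)))) (XT.nd (nat_lit 78) (nat_lit 684) (nat_lit 0) (XT.lf (nat_lit 0) (nat_lit 2115915751) (nat_lit 760) (nat_lit 1281965501) (nat_lit 836) (nat_lit 9282911401) (nat_lit 253) (nat_lit 5) (nat_lit 263) (nat_lit 5) (nat_lit 264) (nat_lit 5) (nat_lit 455) (nat_lit 412) (nat_lit 273)) (XT.nd (nat_lit 78) (nat_lit 684) (nat_lit 0) (XT.lf (nat_lit 0) (nat_lit 5186938662) (nat_lit 836) (nat_lit 4322948067) (nat_lit 76) (nat_lit 3313327638) (nat_lit 253) (nat_lit 5) (nat_lit 264) (nat_lit 5) (nat_lit 254) (nat_lit 5) (nat_lit 456) (nat_lit 412) (nat_lit 272)) (XT.lf (nat_lit 0) (nat_lit 2048933026) (nat_lit 684) (nat_lit 4972079491) (nat_lit 760) (nat_lit 5947298959) (nat_lit 244) (nat_lit 5) (nat_lit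 253) (nat_lit 5) (nat_lit 254) (nat_lit 5) (nat_lit 457) (nat_lit 412) (nat_lit 271))))) (XT.nd (nat_lit 234) (nat_lit 1368) (nat_lit 0) (XT.nd (nat_lit 78) (nat_lit 684) (nat_lit 0) (XT.lf (nat_lit 0) (nat_lit 8593669129) (nat_lit 684) (nat_lit 314711052) (nat_lit 760) (nat_lit 4207609538) (nat_lit 244) (nat_lit 5) (nat_lit 253) (nat_lit 5) (nat_lit 254) (nat_lit 5) (nat_lit 458) (nat_lit 412) (nat_lit 270)) (XT.nd (nat_lit 78) (nat_lit 0) (nat_lit 0) (XT.lf (nat_lit 0) (nat_lit 1986762839) (nat_lit 684) (nat_lit 8876273085) (nat_lit 760) (nat_lit 2403006001) (nat_lit 235) (nat_lit 5) (nat_lit 244) (nat_lit 5) (nat_lit 245) (nat_lit 5) (nat_lit 459) (nat_lit 412) (nat_lit 269)) (XT.lf (nat_lit 0) (nat_lit 8672131812) (nat_lit 684) (nat_lit 4205065196) (nat_lit 760) (nat_lit 541500918) (nat_lit 235) (nat_lit 5) (nat_lit 244) (nat_lit 5) (nat_lit 245) (nat_lit 5) (nat_lit 460) (nat_lit 412) (nat_lit 268))))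 (XT.nd (nat_lit 156) (nat_lit 684) (nat_lit 0) (XT.nd (nat_lit 78) (nat_lit 0) (nat_lit 0) (XT.lf (nat_lit 0) (nat_lit 1343808979) (nat_lit 684) (nat_lit 11657820392) (nat_lit 76) (nat_lit 572524500) (nat_lit 226) (nat_lit 5) (nat_lit 235) (nat_lit 5) (nat_lit 227) (nat_lit 5) (nat_lit 461) (nat_lit 412) (nat_lit 267)) (XT.lf (nat_lit 0) (nat_lit 3307774477) (nat_lit 684) (nat_lit 5000043355) (nat_lit 76) (nat_lit 5423875875) (nat_lit 226) (nat_lit 5) (nat_lit 235) (nat_lit 5) (nat_lit 227) (nat_lit 5) (nat_lit 462) (nat_lit 412) (nat_lit 266))) (XT.nd (nat_lit 78) (nat_lit 0) (nat_lit 0) (XT.lf (nat_lit 0) (nat_lit 1801627373) (nat_lit 684) (nat_lit 3509601341) (nat_lit 760) (nat_lit 8581161594) (nat_lit 217) (nat_lit 5) (nat_lit 226) (nat_lit 5) (nat_lit 227) (nat_lit 5) (nat_lit 463) (nat_lit 412) (nat_lit 265)) (XT.lf (nat_lit 0) (nat_lit 7386161474) (nat_lit 760) (nat_lit 5270766280) (nat_lit 76)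 (nat_lit 1398754856) (nat_lit 217) (nat_lit 5) (nat_lit 227) (nat_lit 5) (nat_lit 218) (nat_lit 5) (nat_lit 464) (nat_lit 412) (nat_lit 264)))))) (XT.nd (nat_lit 546) (nat_lit 1596) (nat_lit 0) (XT.nd (nat_lit 234) (nat_lit 1216) (nat_lit 0) (XT.nd (nat_lit 78) (nat_lit 608) (nat_lit 0) (XT.lf (nat_lit 0) (nat_lit 1671532815) (nat_lit 608) (nat_lit 7854022521) (nat_lit 684) (nat_lit 4696235935) (nat_lit 209) (nat_lit 5) (nat_lit 217) (nat_lit 5) (nat_lit 218) (nat_lit 5) (nat_lit 465) (nat_lit 412) (nat_lit 263)) (XT.nd (nat_lit 78) (nat_lit 608) (nat_lit 0) (XT.lf (nat_lit 0) (nat_lit 8811431026) (nat_lit 608) (nat_lit 2920678893) (nat_lit 684) (nat_lit 2658634301) (nat_lit 209) (nat_lit 5) (nat_lit 217) (nat_lit 5) (nat_lit 218) (nat_lit 5) (nat_lit 466) (nat_lit 412) (nat_lit 262)) (XT.lf (nat_lit 0) (nat_lit 1524680460) (nat_lit 608) (nat_lit 12470930584) (nat_lit 684) (nat_lit 567218257) (nat_lit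 201) (nat_lit 5) (nat_lit 209) (nat_lit 5) (nat_lit 210) (nat_lit 5) (nat_lit 467) (nat_lit 412) (nat_lit 261)))) (XT.nd (nat_lit 156) (nat_lit 608) (nat_lit 0) (XT.nd (nat_lit 78) (nat_lit 532) (nat_lit 0) (XT.lf (nat_lit 0) (nat_lit 1591776033) (nat_lit 684) (nat_lit 5933709401) (nat_lit 76) (nat_lit 7211750543) (nat_lit 200) (nat_lit 5) (nat_lit 209) (nat_lit 5) (nat_lit 201) (nat_lit 5) (nat_lit 468) (nat_lit 412) (nat_lit 260)) (XT.lf (nat_lit 0) (nat_lit 1313815604) (nat_lit 532) (nat_lit 2470545757) (nat_lit 608) (nat_lit 11130743158) (nat_lit 193) (nat_lit 5) (nat_lit 200) (nat_lit 5) (nat_lit 201) (nat_lit 5) (nat_lit 469) (nat_lit 412) (nat_lit 259))) (XT.nd (nat_lit 78) (nat_lit 608) (nat_lit 0) (XT.lf (nat_lit 0) (nat_lit 6067898434) (nat_lit 608) (nat_lit 6339309154) (nat_lit 76) (nat_lit 2688389511) (nat_lit 193) (nat_lit 5) (nat_lit 201) (nat_lit 5) (nat_lit 194) (nat_lit 5) (nat_lit 470)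 (nat_lit 412) (nat_lit 258)) (XT.lf (nat_lit 0) (nat_lit 1053006901) (nat_lit 608) (nat_lit 7357083698) (nat_lit 684) (nat_lit 6869357744) (nat_lit 185) (nat_lit 5) (nat_lit 193) (nat_lit 5) (nat_lit 194) (nat_lit 5) (nat_lit 471) (nat_lit 412) (nat_lit 257))))) (XT.nd (nat_lit 234) (nat_lit 988) (nat_lit 0) (XT.nd (nat_lit 78) (nat_lit 608) (nat_lit 0) (XT.lf (nat_lit 0) (nat_lit 8666829103) (nat_lit 608) (nat_lit 2164744503) (nat_lit 684) (nat_lit 4634762398) (nat_lit 185) (nat_lit 5) (nat_lit 193) (nat_lit 5) (nat_lit 194) (nat_lit 5) (nat_lit 472) (nat_lit 412) (nat_lit 256)) (XT.nd (nat_lit 78) (nat_lit 76) (nat_lit 0) (XT.lf (nat_lit 0) (nat_lit 753291714) (nat_lit 532) (nat_lit 12563507761) (nat_lit 608) (nat_lit 2339863848) (nat_lit 178) (nat_lit 5) (nat_lit 185) (nat_lit 5) (nat_lit 186) (nat_lit 5) (nat_lit 473) (nat_lit 412) (nat_lit 255)) (XT.lf (nat_lit 0) (nat_lit 51320575) (nat_lit 608)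 (nat_lit 7327494833) (nat_lit 76) (nat_lit 8470981507) (nat_lit 177) (nat_lit 5) (nat_lit 185) (nat_lit 5) (nat_lit 178) (nat_lit 5) (nat_lit 474) (nat_lit 412) (nat_lit 254)))) (XT.nd (nat_lit 156) (nat_lit 456) (nat_lit 0) (XT.nd (nat_lit 78) (nat_lit 0) (nat_lit 0) (XT.lf (nat_lit 0) (nat_lit 377311677) (nat_lit 532) (nat_lit 2074492370) (nat_lit 608) (nat_lit 13594831378) (nat_lit 170) (nat_lit 5) (nat_lit 177) (nat_lit 5) (nat_lit 178) (nat_lit 5) (nat_lit 475) (nat_lit 412) (nat_lit 253)) (XT.lf (nat_lit 0) (nat_lit 4961876674) (nat_lit 608) (nat_lit 7945015953) (nat_lit 76) (nat_lit 3339294036) (nat_lit 170) (nat_lit 5) (nat_lit 178) (nat_lit 5) (nat_lit 171) (nat_lit 5) (nat_lit 476) (nat_lit 412) (nat_lit 252))) (XT.nd (nat_lit 78) (nat_lit 456) (nat_lit 0) (XT.lf (nat_lit 0) (nat_lit 7526500398) (nat_lit 608) (nat_lit 91866722) (nat_lit 76) (nat_lit 8831282210) (nat_lit 170) (nat_lit 5) (nat_lit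 178) (nat_lit 5) (nat_lit 171) (nat_lit 5) (nat_lit 477) (nat_lit 412) (nat_lit 251)) (XT.lf (nat_lit 0) (nat_lit 8011748106) (nat_lit 456) (nat_lit 2173481452) (nat_lit 532) (nat_lit 6471102688) (nat_lit 164) (nat_lit 5) (nat_lit 170) (nat_lit 5) (nat_lit 171) (nat_lit 5) (nat_lit 478) (nat_lit 412) (nat_lit 250))))))))
noncomputable def xc179 : XT := (XT.nd (nat_lit 2106) (nat_lit 1900) (nat_lit 0) (XT.nd (nat_lit 1014) (nat_lit 2584) (nat_lit 0) (XT.nd (nat_lit 468) (nat_lit 1368) (nat_lit 0) (XT.nd (nat_lit 234) (nat_lit 912) (nat_lit 0) (XT.nd (nat_lit 78) (nat_lit 608) (nat_lit 0) (XT.lf (nat_lit 0) (nat_lit 12910585382) (nat_lit 532) (nat_lit 622176224) (nat_lit 76) (nat_lit 3334125283) (nat_lit 164) (nat_lit 5) (nat_lit 171) (nat_lit 5) (nat_lit 165) (nat_lit 5) (nat_lit 479) (nat_lit 412) (nat_lit 249)) (XT.nd (nat_lit 78) (nat_lit 76) (nat_lit 0) (XT.lf (nat_lit 0) (nat_lit 7634880530) (nat_lit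 532) (nat_lit 8110595516) (nat_lit 608) (nat_lit 1335082997) (nat_lit 157) (nat_lit 5) (nat_lit 164) (nat_lit 5) (nat_lit 165) (nat_lit 5) (nat_lit 480) (nat_lit 412) (nat_lit 248)) (XT.lf (nat_lit 0) (nat_lit 1316305859) (nat_lit 608) (nat_lit 1253214743) (nat_lit 76) (nat_lit 14728910894) (nat_lit 156) (nat_lit 5) (nat_lit 164) (nat_lit 5) (nat_lit 157) (nat_lit 5) (nat_lit 481) (nat_lit 412) (nat_lit 247)))) (XT.nd (nat_lit 78) (nat_lit 456) (nat_lit 0) (XT.lf (nat_lit 0) (nat_lit 4061096512) (nat_lit 532) (nat_lit 10363072050) (nat_lit 76) (nat_lit 3095157893) (nat_lit 150) (nat_lit 5) (nat_lit 157) (nat_lit 5) (nat_lit 151) (nat_lit 5) (nat_lit 482) (nat_lit 412) (nat_lit 246)) (XT.nd (nat_lit 78) (nat_lit 456) (nat_lit 0) (XT.lf (nat_lit 0) (nat_lit 6877618875) (nat_lit 532) (nat_lit 2022090065) (nat_lit 76) (nat_lit 8844600096) (nat_lit 150) (nat_lit 5) (nat_lit 157) (nat_lit 5) (nat_lit 151) (nat_lit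 5) (nat_lit 483) (nat_lit 412) (nat_lit 245)) (XT.lf (nat_lit 0) (nat_lit 6560531410) (nat_lit 456) (nat_lit 3224058910) (nat_lit 532) (nat_lit 8188524890) (nat_lit 144) (nat_lit 5) (nat_lit 150) (nat_lit 5) (nat_lit 151) (nat_lit 5) (nat_lit 484) (nat_lit 412) (nat_lit 244))))) (XT.nd (nat_lit 234) (nat_lit 836) (nat_lit 0) (XT.nd (nat_lit 78) (nat_lit 532) (nat_lit 0) (XT.lf (nat_lit 0) (nat_lit 12771613882) (nat_lit 532) (nat_lit 2892059820) (nat_lit 76) (nat_lit 2542391743) (nat_lit 144) (nat_lit 5) (nat_lit 151) (nat_lit 5) (nat_lit 145) (nat_lit 5) (nat_lit 485) (nat_lit 412) (nat_lit 243)) (XT.nd (nat_lit 78) (nat_lit 76) (nat_lit 0) (XT.lf (nat_lit 0) (nat_lit 5843073118) (nat_lit 456) (nat_lit 10026357187) (nat_lit 532) (nat_lit 2573229402) (nat_lit 138) (nat_lit 5) (nat_lit 144) (nat_lit 5) (nat_lit 145) (nat_lit 5) (nat_lit 486) (nat_lit 412) (nat_lit 242)) (XT.lf (nat_lit 0) (nat_lit 352019473)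 (nat_lit 532) (nat_lit 3904981329) (nat_lit 76) (nat_lit 14426719460) (nat_lit 137) (nat_lit 5) (nat_lit 144) (nat_lit 5) (nat_lit 138) (nat_lit 5) (nat_lit 487) (nat_lit 412) (nat_lit 241)))) (XT.nd (nat_lit 156) (nat_lit 380) (nat_lit 0) (XT.nd (nat_lit 78) (nat_lit 0) (nat_lit 0) (XT.lf (nat_lit 0) (nat_lit 3336653519) (nat_lit 532) (nat_lit 13938497153) (nat_lit 76) (nat_lit 1653410182) (nat_lit 131) (nat_lit 5) (nat_lit 138) (nat_lit 5) (nat_lit 132) (nat_lit 5) (nat_lit 488) (nat_lit 412) (nat_lit 240)) (XT.lf (nat_lit 0) (nat_lit 6427574025) (nat_lit 532) (nat_lit 5101178328) (nat_lit 76) (nat_lit 7648619635) (nat_lit 131) (nat_lit 5) (nat_lit 138) (nat_lit 5) (nat_lit 132) (nat_lit 5) (nat_lit 489) (nat_lit 412) (nat_lit 239))) (XT.nd (nat_lit 78) (nat_lit 0) (nat_lit 0) (XT.lf (nat_lit 0) (nat_lit 3953978079) (nat_lit 380) (nat_lit 5644186809) (nat_lit 456) (nat_lit 9832642915) (nat_lit 126)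 (nat_lit 5) (nat_lit 131) (nat_lit 5) (nat_lit 132) (nat_lit 5) (nat_lit 490) (nat_lit 412) (nat_lit 238)) (XT.lf (nat_lit 0) (nat_lit 12861195467) (nat_lit 456) (nat_lit 6442629798) (nat_lit 76) (nat_lit 384911902) (nat_lit 126) (nat_lit 5) (nat_lit 132) (nat_lit 5) (nat_lit 127) (nat_lit 5) (nat_lit 491) (nat_lit 412) (nat_lit 237)))))) (XT.nd (nat_lit 546) (nat_lit 1368) (nat_lit 0) (XT.nd (nat_lit 234) (nat_lit 380) (nat_lit 0) (XT.nd (nat_lit 78) (nat_lit 456) (nat_lit 0) (XT.lf (nat_lit 0) (nat_lit 2760455753) (nat_lit 380) (nat_lit 13476729174) (nat_lit 456) (nat_lit 3713691509) (nat_lit 121) (nat_lit 5) (nat_lit 126) (nat_lit 5) (nat_lit 127) (nat_lit 5) (nat_lit 492) (nat_lit 412) (nat_lit 236)) (XT.nd (nat_lit 78) (nat_lit 456) (nat_lit 0) (XT.lf (nat_lit 0) (nat_lit 12224380925) (nat_lit 380) (nat_lit 7492024091) (nat_lit 456) (nat_lit 501144438) (nat_lit 121) (nat_lit 5) (nat_lit 126) (nat_lit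 5) (nat_lit 127) (nat_lit 5) (nat_lit 493) (nat_lit 412) (nat_lit 235)) (XT.lf (nat_lit 0) (nat_lit 1377624670) (nat_lit 380) (nat_lit 1363141209) (nat_lit 456) (nat_lit 17748404295) (nat_lit 115) (nat_lit 5) (nat_lit 120) (nat_lit 5) (nat_lit 121) (nat_lit 5) (nat_lit 494) (nat_lit 412) (nat_lit 234)))) (XT.nd (nat_lit 156) (nat_lit 380) (nat_lit 0) (XT.nd (nat_lit 78) (nat_lit 0) (nat_lit 0) (XT.lf (nat_lit 0) (nat_lit 6119171787) (nat_lit 456) (nat_lit 9766893443) (nat_lit 76) (nat_lit 4878529356) (nat_lit 115) (nat_lit 5) (nat_lit 121) (nat_lit 5) (nat_lit 116) (nat_lit 5) (nat_lit 495) (nat_lit 412) (nat_lit 233)) (XT.lf (nat_lit 0) (nat_lit 9566947385) (nat_lit 456) (nat_lit 254683480) (nat_lit 76) (nat_lit 11223865373) (nat_lit 115) (nat_lit 5) (nat_lit 121) (nat_lit 5) (nat_lit 116) (nat_lit 5) (nat_lit 496) (nat_lit 412) (nat_lit 232))) (XT.nd (nat_lit 78) (nat_lit 0) (nat_lit 0) (XT.lf (nat_lit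 0) (nat_lit 9563086679) (nat_lit 380) (nat_lit 3575597551) (nat_lit 456) (nat_lit 8192236271) (nat_lit 110) (nat_lit 5) (nat_lit 115) (nat_lit 5) (nat_lit 116) (nat_lit 5) (nat_lit 497) (nat_lit 412) (nat_lit 231)) (XT.lf (nat_lit 0) (nat_lit 16794695392) (nat_lit 456) (nat_lit 2069679415) (nat_lit 76) (nat_lit 2757426252) (nat_lit 110) (nat_lit 5) (nat_lit 116) (nat_lit 5) (nat_lit 111) (nat_lit 5) (nat_lit 498) (nat_lit 412) (nat_lit 230))))) (XT.nd (nat_lit 234) (nat_lit 608) (nat_lit 0) (XT.nd (nat_lit 78) (nat_lit 456) (nat_lit 0) (XT.lf (nat_lit 0) (nat_lit 7892302630) (nat_lit 304) (nat_lit 12699553401) (nat_lit 380) (nat_lit 1325287120) (nat_lit 106) (nat_lit 5) (nat_lit 110) (nat_lit 5) (nat_lit 111) (nat_lit 5) (nat_lit 499) (nat_lit 412) (nat_lit 229)) (XT.nd (nat_lit 78) (nat_lit 380) (nat_lit 0) (XT.lf (nat_lit 0) (nat_lit 2224213341) (nat_lit 380) (nat_lit 4161208185) (nat_lit 76) (nat_lit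 15832540976) (nat_lit 105) (nat_lit 5) (nat_lit 110) (nat_lit 5) (nat_lit 106) (nat_lit 5) (nat_lit 500) (nat_lit 412) (nat_lit 228)) (XT.lf (nat_lit 0) (nat_lit 5859581709) (nat_lit 456) (nat_lit 16565361379) (nat_lit 76) (nat_lit 99031729) (nat_lit 100) (nat_lit 5) (nat_lit 106) (nat_lit 5) (nat_lit 101) (nat_lit 5) (nat_lit 501) (nat_lit 412) (nat_lit 227)))) (XT.nd (nat_lit 156) (nat_lit 304) (nat_lit 0) (XT.nd (nat_lit 78) (nat_lit 304) (nat_lit 0) (XT.lf (nat_lit 0) (nat_lit 9631366585) (nat_lit 456) (nat_lit 6550635819) (nat_lit 76) (nat_lit 6652834959) (nat_lit 100) (nat_lit 5) (nat_lit 106) (nat_lit 5) (nat_lit 101) (nat_lit 5) (nat_lit 502) (nat_lit 412) (nat_lit 226)) (XT.lf (nat_lit 0) (nat_lit 3703294606) (nat_lit 304) (nat_lit 9792780677) (nat_lit 380) (nat_lit 9655496198) (nat_lit 96) (nat_lit 5) (nat_lit 100) (nat_lit 5) (nat_lit 101) (nat_lit 5) (nat_lit 503) (nat_lit 412) (nat_lit 225)))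 (XT.nd (nat_lit 78) (nat_lit 304) (nat_lit 0) (XT.lf (nat_lit 0) (nat_lit 14241503759) (nat_lit 304) (nat_lit 3234042740) (nat_lit 380) (nat_lit 5998348420) (nat_lit 96) (nat_lit 5) (nat_lit 100) (nat_lit 5) (nat_lit 101) (nat_lit 5) (nat_lit 504) (nat_lit 412) (nat_lit 224)) (XT.lf (nat_lit 0) (nat_lit 1171216445) (nat_lit 304) (nat_lit 20387050424) (nat_lit 380) (nat_lit 2243928689) (nat_lit 92) (nat_lit 5) (nat_lit 96) (nat_lit 5) (nat_lit 97) (nat_lit 5) (nat_lit 505) (nat_lit 412) (nat_lit 223))))))) (XT.nd (nat_lit 1092) (nat_lit 0) (nat_lit 0) (XT.nd (nat_lit 546) (nat_lit 912) (nat_lit 0) (XT.nd (nat_lit 234) (nat_lit 608) (nat_lit 0) (XT.nd (nat_lit 78) (nat_lit 304) (nat_lit 0) (XT.lf (nat_lit 0) (nat_lit 1642201996) (nat_lit 380) (nat_lit 12269446323) (nat_lit 76) (nat_lit 10223663416) (nat_lit 91) (nat_lit 5) (nat_lit 96) (nat_lit 5) (nat_lit 92) (nat_lit 5) (nat_lit 506) (nat_lit 412) (nat_lit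 222)) (XT.nd (nat_lit 78) (nat_lit 304) (nat_lit 0) (XT.lf (nat_lit 0) (nat_lit 5569797686) (nat_lit 380) (nat_lit 1724900652) (nat_lit 76) (nat_lit 17180223179) (nat_lit 91) (nat_lit 5) (nat_lit 96) (nat_lit 5) (nat_lit 92) (nat_lit 5) (nat_lit 507) (nat_lit 412) (nat_lit 221)) (XT.lf (nat_lit 0) (nat_lit 9141251244) (nat_lit 304) (nat_lit 487927964) (nat_lit 380) (nat_lit 15191083233) (nat_lit 87) (nat_lit 5) (nat_lit 91) (nat_lit 5) (nat_lit 92) (nat_lit 5) (nat_lit 508) (nat_lit 412) (nat_lit 220)))) (XT.nd (nat_lit 156) (nat_lit 304) (nat_lit 0) (XT.nd (nat_lit 78) (nat_lit 304) (nat_lit 0) (XT.lf (nat_lit 0) (nat_lit 13817233785) (nat_lit 380) (nat_lit 4975376001) (nat_lit 76) (nat_lit 6378954248) (nat_lit 87) (nat_lit 5) (nat_lit 92) (nat_lit 5) (nat_lit 88) (nat_lit 5) (nat_lit 509) (nat_lit 412) (nat_lit 219)) (XT.lf (nat_lit 0) (nat_lit 6008870433) (nat_lit 304) (nat_lit 12116466821) (nat_lit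 380) (nat_lit 7403832132) (nat_lit 83) (nat_lit 5) (nat_lit 87) (nat_lit 5) (nat_lit 88) (nat_lit 5) (nat_lit 510) (nat_lit 412) (nat_lit 218))) (XT.nd (nat_lit 78) (nat_lit 304) (nat_lit 0) (XT.lf (nat_lit 0) (nat_lit 17271266215) (nat_lit 304) (nat_lit 5275825404) (nat_lit 380) (nat_lit 3346288870) (nat_lit 83) (nat_lit 5) (nat_lit 87) (nat_lit 5) (nat_lit 88) (nat_lit 5) (nat_lit 511) (nat_lit 412) (nat_lit 217)) (XT.lf (nat_lit 0) (nat_lit 803674408) (nat_lit 304) (nat_lit 23762772250) (nat_lit 76) (nat_lit 1697896310) (nat_lit 79) (nat_lit 5) (nat_lit 83) (nat_lit 5) (nat_lit 80) (nat_lit 5) (nat_lit 512) (nat_lit 412) (nat_lit 216))))) (XT.nd (nat_lit 234) (nat_lit 608) (nat_lit 0) (XT.nd (nat_lit 78) (nat_lit 304) (nat_lit 0) (XT.lf (nat_lit 0) (nat_lit 5079265919) (nat_lit 304) (nat_lit 12743369393) (nat_lit 76) (nat_lit 8817901509) (nat_lit 79) (nat_lit 5) (nat_lit 83) (nat_lit 5) (nat_lit 80)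 (nat_lit 5) (nat_lit 513) (nat_lit 412) (nat_lit 215)) (XT.nd (nat_lit 78) (nat_lit 304) (nat_lit 0) (XT.lf (nat_lit 0) (nat_lit 9434695294) (nat_lit 304) (nat_lit 1512326567) (nat_lit 76) (nat_lit 16077349330) (nat_lit 79) (nat_lit 5) (nat_lit 83) (nat_lit 5) (nat_lit 80) (nat_lit 5) (nat_lit 514) (nat_lit 412) (nat_lit 214)) (XT.lf (nat_lit 0) (nat_lit 10066788298) (nat_lit 304) (nat_lit 3870242512) (nat_lit 380) (nat_lit 13477658582) (nat_lit 75) (nat_lit 5) (nat_lit 79) (nat_lit 5) (nat_lit 80) (nat_lit 5) (nat_lit 515) (nat_lit 412) (nat_lit 213)))) (XT.nd (nat_lit 156) (nat_lit 380) (nat_lit 0) (XT.nd (nat_lit 78) (nat_lit 228) (nat_lit 0) (XT.lf (nat_lit 0) (nat_lit 18555838149) (nat_lit 380) (nat_lit 5945044451) (nat_lit 76) (nat_lit 3311405888) (nat_lit 75) (nat_lit 5) (nat_lit 80) (nat_lit 5) (nat_lit 76) (nat_lit 5) (nat_lit 516) (nat_lit 412) (nat_lit 212)) (XT.lf (nat_lit 0) (nat_lit 5726903045)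 (nat_lit 228) (nat_lit 17597512082) (nat_lit 304) (nat_lit 4892279546) (nat_lit 72) (nat_lit 5) (nat_lit 75) (nat_lit 5) (nat_lit 76) (nat_lit 5) (nat_lit 517) (nat_lit 412) (nat_lit 211))) (XT.nd (nat_lit 78) (nat_lit 380) (nat_lit 0) (XT.lf (nat_lit 0) (nat_lit 17704486795) (nat_lit 228) (nat_lit 10518402926) (nat_lit 304) (nat_lit 405611655) (nat_lit 72) (nat_lit 5) (nat_lit 75) (nat_lit 5) (nat_lit 76) (nat_lit 5) (nat_lit 518) (nat_lit 412) (nat_lit 210)) (XT.lf (nat_lit 0) (nat_lit 848832980) (nat_lit 304) (nat_lit 3267466428) (nat_lit 380) (nat_lit 24931701809) (nat_lit 67) (nat_lit 5) (nat_lit 71) (nat_lit 5) (nat_lit 72) (nat_lit 5) (nat_lit 519) (nat_lit 412) (nat_lit 209)))))) (XT.nd (nat_lit 51480) (nat_lit 0) (nat_lit 25764) (XT.nd (nat_lit 51168) (nat_lit 0) (nat_lit 27132) (XT.nd (nat_lit 51012) (nat_lit 0) (nat_lit 27056) (XT.lf (nat_lit 0) (nat_lit 8818549139) (nat_lit 380) (nat_lit 16507517897)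 (nat_lit 76) (nat_lit 4147866515) (nat_lit 67) (nat_lit 5) (nat_lit 72) (nat_lit 5) (nat_lit 68) (nat_lit 5) (nat_lit 520) (nat_lit 412) (nat_lit 208)) (XT.nd (nat_lit 78) (nat_lit 0) (nat_lit 0) (XT.lf (nat_lit 0) (nat_lit 1154787405) (nat_lit 1444) (nat_lit 1565092731) (nat_lit 1444) (nat_lit 1565092731) (nat_lit 423) (nat_lit 3) (nat_lit 442) (nat_lit 3) (nat_lit 442) (nat_lit 5) (nat_lit 413) (nat_lit 413) (nat_lit 314)) (XT.lf (nat_lit 76) (nat_lit 701681876) (nat_lit 0) (nat_lit 2589347818) (nat_lit 1444) (nat_lit 5344342290) (nat_lit 424) (nat_lit 5) (nat_lit 423) (nat_lit 3) (nat_lit 442) (nat_lit 5) (nat_lit 414) (nat_lit 413) (nat_lit 313)))) (XT.nd (nat_lit 156) (nat_lit 0) (nat_lit 0) (XT.nd (nat_lit 78) (nat_lit 0) (nat_lit 0) (XT.lf (nat_lit 0) (nat_lit 4290299414) (nat_lit 1368) (nat_lit 4064827616) (nat_lit 1444) (nat_lit 347045025) (nat_lit 424) (nat_lit 5) (nat_lit 442) (nat_lit 5) (nat_lit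 443) (nat_lit 5) (nat_lit 415) (nat_lit 413) (nat_lit 312)) (XT.lf (nat_lit 0) (nat_lit 5302169487) (nat_lit 1368) (nat_lit 149023874) (nat_lit 1444) (nat_lit 3319290910) (nat_lit 424) (nat_lit 5) (nat_lit 442) (nat_lit 5) (nat_lit 443) (nat_lit 5) (nat_lit 416) (nat_lit 413) (nat_lit 311))) (XT.nd (nat_lit 78) (nat_lit 0) (nat_lit 76) (XT.lf (nat_lit 76) (nat_lit 3882994662) (nat_lit 0) (nat_lit 2452441276) (nat_lit 1444) (nat_lit 2504731499) (nat_lit 425) (nat_lit 5) (nat_lit 424) (nat_lit 5) (nat_lit 443) (nat_lit 5) (nat_lit 417) (nat_lit 413) (nat_lit 310)) (XT.lf (nat_lit 0) (nat_lit 7370715981) (nat_lit 1368) (nat_lit 931005661) (nat_lit 1444) (nat_lit 609922997) (nat_lit 425) (nat_lit 5) (nat_lit 443) (nat_lit 5) (nat_lit 444) (nat_lit 5) (nat_lit 418) (nat_lit 413) (nat_lit 309))))) (XT.nd (nat_lit 234) (nat_lit 0) (nat_lit 76) (XT.nd (nat_lit 78) (nat_lit 1444) (nat_lit 0) (XT.lf (nat_lit 76)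 (nat_lit 3188007705) (nat_lit 0) (nat_lit 5252501755) (nat_lit 1444) (nat_lit 543792571) (nat_lit 426) (nat_lit 5) (nat_lit 425) (nat_lit 5) (nat_lit 444) (nat_lit 5) (nat_lit 419) (nat_lit 413) (nat_lit 308)) (XT.nd (nat_lit 78) (nat_lit 0) (nat_lit 76) (XT.lf (nat_lit 0) (nat_lit 450427201) (nat_lit 1444) (nat_lit 1672871046) (nat_lit 1520) (nat_lit 6935411663) (nat_lit 406) (nat_lit 5) (nat_lit 425) (nat_lit 5) (nat_lit 426) (nat_lit 5) (nat_lit 420) (nat_lit 413) (nat_lit 307)) (XT.lf (nat_lit 0) (nat_lit 1458450774) (nat_lit 1444) (nat_lit 6592176590) (nat_lit 1520) (nat_lit 1083907933) (nat_lit 407) (nat_lit 5) (nat_lit 426) (nat_lit 5) (nat_lit 427) (nat_lit 5) (nat_lit 421) (nat_lit 413) (nat_lit 306)))) (XT.nd (nat_lit 156) (nat_lit 0) (nat_lit 76) (XT.nd (nat_lit 78) (nat_lit 0) (nat_lit 0) (XT.lf (nat_lit 0) (nat_lit 2489919788) (nat_lit 1444) (nat_lit 2374884203) (nat_lit 1520) (nat_lit 4347032263)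 (nat_lit 407) (nat_lit 5) (nat_lit 426) (nat_lit 5) (nat_lit 427) (nat_lit 5) (nat_lit 422) (nat_lit 413) (nat_lit 305)) (XT.lf (nat_lit 76) (nat_lit 1938784607) (nat_lit 0) (nat_lit 1594177532) (nat_lit 1520) (nat_lit 5757926488) (nat_lit 408) (nat_lit 5) (nat_lit 407) (nat_lit 5) (nat_lit 427) (nat_lit 5) (nat_lit 423) (nat_lit 413) (nat_lit 304))) (XT.nd (nat_lit 78) (nat_lit 0) (nat_lit 0) (XT.lf (nat_lit 0) (nat_lit 4602962908) (nat_lit 1444) (nat_lit 3025509834) (nat_lit 1520) (nat_lit 1742951153) (nat_lit 408) (nat_lit 5) (nat_lit 427) (nat_lit 5) (nat_lit 428) (nat_lit 5) (nat_lit 424) (nat_lit 413) (nat_lit 303)) (XT.lf (nat_lit 76) (nat_lit 1381639378) (nat_lit 0) (nat_lit 4311415030) (nat_lit 1520) (nat_lit 3760564979) (nat_lit 409) (nat_lit 5) (nat_lit 408) (nat_lit 5) (nat_lit 428) (nat_lit 5) (nat_lit 425) (nat_lit 413) (nat_lit 302))))))))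
noncomputable def xc180 : XT := (XT.nd (nat_lit 2106) (nat_lit 8284) (nat_lit 0) (XT.nd (nat_lit 1014) (nat_lit 7524) (nat_lit 0) (XT.nd (nat_lit 468) (nat_lit 1292) (nat_lit 0) (XT.nd (nat_lit 234) (nat_lit 1444) (nat_lit 0) (XT.nd (nat_lit 78) (nat_lit 0) (nat_lit 76) (XT.lf (nat_lit 76) (nat_lit 5904492396) (nat_lit 0) (nat_lit 900242079) (nat_lit 1520) (nat_lit 2732751454) (nat_lit 409) (nat_lit 5) (nat_lit 408) (nat_lit 5) (nat_lit 428) (nat_lit 5) (nat_lit 426) (nat_lit 413) (nat_lit 301)) (XT.nd (nat_lit 78) (nat_lit 0) (nat_lit 0) (XT.lf (nat_lit 76) (nat_lit 875857424) (nat_lit 0) (nat_lit 7065154169) (nat_lit 1520) (nat_lit 1681993366) (nat_lit 410) (nat_lit 5) (nat_lit 409) (nat_lit 5) (nat_lit 429) (nat_lit 5) (nat_lit 427) (nat_lit 413) (nat_lit 300)) (XT.lf (nat_lit 76) (nat_lit 5504523637) (nat_lit 0) (nat_lit 3606029202) (nat_lit 1520) (nat_lit 599492747) (nat_lit 410) (nat_lit 5) (nat_lit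 409) (nat_lit 5) (nat_lit 429) (nat_lit 5) (nat_lit 428) (nat_lit 413) (nat_lit 299)))) (XT.nd (nat_lit 78) (nat_lit 0) (nat_lit 76) (XT.lf (nat_lit 76) (nat_lit 415527849) (nat_lit 0) (nat_lit 65683807) (nat_lit 1596) (nat_lit 9317907522) (nat_lit 390) (nat_lit 5) (nat_lit 389) (nat_lit 5) (nat_lit 410) (nat_lit 5) (nat_lit 429) (nat_lit 413) (nat_lit 298)) (XT.nd (nat_lit 78) (nat_lit 0) (nat_lit 0) (XT.lf (nat_lit 0) (nat_lit 1607745216) (nat_lit 1520) (nat_lit 4744515469) (nat_lit 1596) (nat_lit 3537010178) (nat_lit 390) (nat_lit 5) (nat_lit 410) (nat_lit 5) (nat_lit 411) (nat_lit 5) (nat_lit 430) (nat_lit 413) (nat_lit 297)) (XT.lf (nat_lit 0) (nat_lit 2738427846) (nat_lit 1520) (nat_lit 26754529) (nat_lit 1596) (nat_lit 7216431151) (nat_lit 390) (nat_lit 5) (nat_lit 410) (nat_lit 5) (nat_lit 411) (nat_lit 5) (nat_lit 431) (nat_lit 413) (nat_lit 296))))) (XT.nd (nat_lit 234) (nat_lit 1444) (nat_lit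 0) (XT.nd (nat_lit 78) (nat_lit 0) (nat_lit 0) (XT.lf (nat_lit 0) (nat_lit 3910713828) (nat_lit 1520) (nat_lit 5246221831) (nat_lit 1596) (nat_lit 918507502) (nat_lit 391) (nat_lit 5) (nat_lit 411) (nat_lit 5) (nat_lit 412) (nat_lit 5) (nat_lit 432) (nat_lit 413) (nat_lit 295)) (XT.nd (nat_lit 78) (nat_lit 0) (nat_lit 0) (XT.lf (nat_lit 0) (nat_lit 5106798012) (nat_lit 1520) (nat_lit 420500109) (nat_lit 1596) (nat_lit 4643863743) (nat_lit 391) (nat_lit 5) (nat_lit 411) (nat_lit 5) (nat_lit 412) (nat_lit 5) (nat_lit 433) (nat_lit 413) (nat_lit 294)) (XT.lf (nat_lit 76) (nat_lit 4547931986) (nat_lit 0) (nat_lit 1790615075) (nat_lit 1596) (nat_lit 3930032158) (nat_lit 392) (nat_lit 5) (nat_lit 391) (nat_lit 5) (nat_lit 412) (nat_lit 5) (nat_lit 434) (nat_lit 413) (nat_lit 293)))) (XT.nd (nat_lit 156) (nat_lit 1520) (nat_lit 0) (XT.nd (nat_lit 78) (nat_lit 0) (nat_lit 0) (XT.lf (nat_lit 0) (nat_lit 7593395912)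 (nat_lit 1520) (nat_lit 773353597) (nat_lit 1596) (nat_lit 2001244882) (nat_lit 392) (nat_lit 5) (nat_lit 412) (nat_lit 5) (nat_lit 413) (nat_lit 5) (nat_lit 435) (nat_lit 413) (nat_lit 292)) (XT.lf (nat_lit 76) (nat_lit 4303986112) (nat_lit 0) (nat_lit 4592005367) (nat_lit 1596) (nat_lit 1572971790) (nat_lit 393) (nat_lit 5) (nat_lit 392) (nat_lit 5) (nat_lit 413) (nat_lit 5) (nat_lit 436) (nat_lit 413) (nat_lit 291))) (XT.nd (nat_lit 78) (nat_lit 1520) (nat_lit 0) (XT.lf (nat_lit 76) (nat_lit 9479955398) (nat_lit 0) (nat_lit 732969529) (nat_lit 1596) (nat_lit 359278914) (nat_lit 393) (nat_lit 5) (nat_lit 392) (nat_lit 5) (nat_lit 413) (nat_lit 5) (nat_lit 437) (nat_lit 413) (nat_lit 290)) (XT.lf (nat_lit 0) (nat_lit 898227542) (nat_lit 1596) (nat_lit 6581399583) (nat_lit 76) (nat_lit 3197164059) (nat_lit 372) (nat_lit 5) (nat_lit 393) (nat_lit 5) (nat_lit 373) (nat_lit 5) (nat_lit 438) (nat_lit 413)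 (nat_lit 289)))))) (XT.nd (nat_lit 546) (nat_lit 3268) (nat_lit 0) (XT.nd (nat_lit 234) (nat_lit 2660) (nat_lit 0) (XT.nd (nat_lit 78) (nat_lit 1596) (nat_lit 0) (XT.lf (nat_lit 0) (nat_lit 2171872426) (nat_lit 1596) (nat_lit 1402670972) (nat_lit 76) (nat_lit 7208980394) (nat_lit 372) (nat_lit 5) (nat_lit 393) (nat_lit 5) (nat_lit 373) (nat_lit 5) (nat_lit 439) (nat_lit 413) (nat_lit 288)) (XT.nd (nat_lit 78) (nat_lit 0) (nat_lit 0) (XT.lf (nat_lit 0) (nat_lit 3483150008) (nat_lit 1672) (nat_lit 6977435801) (nat_lit 76) (nat_lit 431578712) (nat_lit 351) (nat_lit 5) (nat_lit 373) (nat_lit 5) (nat_lit 352) (nat_lit 5) (nat_lit 440) (nat_lit 413) (nat_lit 287)) (XT.lf (nat_lit 0) (nat_lit 4837931687) (nat_lit 1672) (nat_lit 1682685125) (nat_lit 76) (nat_lit 4482032018) (nat_lit 351) (nat_lit 5) (nat_lit 373) (nat_lit 5) (nat_lit 352) (nat_lit 5) (nat_lit 441) (nat_lit 413) (nat_lit 286)))) (XT.nd (nat_lit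 156) (nat_lit 988) (nat_lit 0) (XT.nd (nat_lit 78) (nat_lit 0) (nat_lit 0) (XT.lf (nat_lit 0) (nat_lit 3753809620) (nat_lit 1672) (nat_lit 2474813831) (nat_lit 1748) (nat_lit 4886559101) (nat_lit 329) (nat_lit 5) (nat_lit 351) (nat_lit 5) (nat_lit 352) (nat_lit 5) (nat_lit 442) (nat_lit 413) (nat_lit 285)) (XT.lf (nat_lit 0) (nat_lit 7653895037) (nat_lit 1748) (nat_lit 1932328201) (nat_lit 76) (nat_lit 1643624093) (nat_lit 329) (nat_lit 5) (nat_lit 352) (nat_lit 5) (nat_lit 330) (nat_lit 5) (nat_lit 443) (nat_lit 413) (nat_lit 284))) (XT.nd (nat_lit 78) (nat_lit 0) (nat_lit 0) (XT.lf (nat_lit 0) (nat_lit 3623061758) (nat_lit 988) (nat_lit 5509497855) (nat_lit 1064) (nat_lit 2213763436) (nat_lit 316) (nat_lit 5) (nat_lit 329) (nat_lit 5) (nat_lit 330) (nat_lit 5) (nat_lit 444) (nat_lit 413) (nat_lit 283)) (XT.lf (nat_lit 0) (nat_lit 9302477375) (nat_lit 988) (nat_lit 1336470211) (nat_lit 1064) (nat_lit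 826232786) (nat_lit 316) (nat_lit 5) (nat_lit 329) (nat_lit 5) (nat_lit 330) (nat_lit 5) (nat_lit 445) (nat_lit 413) (nat_lit 282))))) (XT.nd (nat_lit 234) (nat_lit 1520) (nat_lit 0) (XT.nd (nat_lit 78) (nat_lit 836) (nat_lit 0) (XT.lf (nat_lit 0) (nat_lit 608805028) (nat_lit 912) (nat_lit 8066906504) (nat_lit 76) (nat_lit 2910091686) (nat_lit 304) (nat_lit 5) (nat_lit 316) (nat_lit 5) (nat_lit 305) (nat_lit 5) (nat_lit 446) (nat_lit 413) (nat_lit 281)) (XT.nd (nat_lit 78) (nat_lit 836) (nat_lit 0) (XT.lf (nat_lit 0) (nat_lit 2070523492) (nat_lit 912) (nat_lit 2392970925) (nat_lit 76) (nat_lit 7245068234) (nat_lit 304) (nat_lit 5) (nat_lit 316) (nat_lit 5) (nat_lit 305) (nat_lit 5) (nat_lit 447) (nat_lit 413) (nat_lit 280)) (XT.lf (nat_lit 0) (nat_lit 3426193762) (nat_lit 836) (nat_lit 143383592) (nat_lit 912) (nat_lit 8264051842) (nat_lit 293) (nat_lit 5) (nat_lit 304) (nat_lit 5) (nat_lit 305) (nat_lit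 5) (nat_lit 448) (nat_lit 413) (nat_lit 279)))) (XT.nd (nat_lit 156) (nat_lit 760) (nat_lit 0) (XT.nd (nat_lit 78) (nat_lit 760) (nat_lit 0) (XT.lf (nat_lit 0) (nat_lit 5128509542) (nat_lit 912) (nat_lit 2607878482) (nat_lit 76) (nat_lit 4224224773) (nat_lit 293) (nat_lit 5) (nat_lit 305) (nat_lit 5) (nat_lit 294) (nat_lit 5) (nat_lit 449) (nat_lit 413) (nat_lit 278)) (XT.lf (nat_lit 0) (nat_lit 3337356494) (nat_lit 760) (nat_lit 3390208970) (nat_lit 836) (nat_lit 5362405105) (nat_lit 283) (nat_lit 5) (nat_lit 293) (nat_lit 5) (nat_lit 294) (nat_lit 5) (nat_lit 450) (nat_lit 413) (nat_lit 277))) (XT.nd (nat_lit 78) (nat_lit 760) (nat_lit 0) (XT.lf (nat_lit 0) (nat_lit 8369503252) (nat_lit 836) (nat_lit 2804938875) (nat_lit 76) (nat_lit 1047268495) (nat_lit 283) (nat_lit 5) (nat_lit 294) (nat_lit 5) (nat_lit 284) (nat_lit 5) (nat_lit 451) (nat_lit 413) (nat_lit 276)) (XT.lf (nat_lit 0) (nat_lit 3269040623)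 (nat_lit 760) (nat_lit 6805693563) (nat_lit 836) (nat_lit 2280755083) (nat_lit 273) (nat_lit 5) (nat_lit 283) (nat_lit 5) (nat_lit 284) (nat_lit 5) (nat_lit 452) (nat_lit 413) (nat_lit 275))))))) (XT.nd (nat_lit 1014) (nat_lit 4028) (nat_lit 0) (XT.nd (nat_lit 468) (nat_lit 2052) (nat_lit 0) (XT.nd (nat_lit 234) (nat_lit 1444) (nat_lit 0) (XT.nd (nat_lit 78) (nat_lit 760) (nat_lit 0) (XT.lf (nat_lit 0) (nat_lit 9489535845) (nat_lit 760) (nat_lit 2330309353) (nat_lit 836) (nat_lit 671995411) (nat_lit 273) (nat_lit 5) (nat_lit 283) (nat_lit 5) (nat_lit 284) (nat_lit 5) (nat_lit 453) (nat_lit 413) (nat_lit 274)) (XT.nd (nat_lit 78) (nat_lit 0) (nat_lit 0) (XT.lf (nat_lit 0) (nat_lit 978981453) (nat_lit 760) (nat_lit 9418698150) (nat_lit 76) (nat_lit 2232670693) (nat_lit 263) (nat_lit 5) (nat_lit 273) (nat_lit 5) (nat_lit 264) (nat_lit 5) (nat_lit 454) (nat_lit 413) (nat_lit 273)) (XT.lf (nat_lit 0) (nat_lit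 2676981666) (nat_lit 760) (nat_lit 3213753193) (nat_lit 76) (nat_lit 6880358345) (nat_lit 263) (nat_lit 5) (nat_lit 273) (nat_lit 5) (nat_lit 264) (nat_lit 5) (nat_lit 455) (nat_lit 413) (nat_lit 272)))) (XT.nd (nat_lit 78) (nat_lit 684) (nat_lit 0) (XT.lf (nat_lit 0) (nat_lit 3143682441) (nat_lit 760) (nat_lit 1273200152) (nat_lit 836) (nat_lit 8497621230) (nat_lit 253) (nat_lit 5) (nat_lit 263) (nat_lit 5) (nat_lit 264) (nat_lit 5) (nat_lit 456) (nat_lit 413) (nat_lit 271)) (XT.nd (nat_lit 78) (nat_lit 684) (nat_lit 0) (XT.lf (nat_lit 0) (nat_lit 6223292233) (nat_lit 836) (nat_lit 3423985774) (nat_lit 76) (nat_lit 3412881873) (nat_lit 253) (nat_lit 5) (nat_lit 264) (nat_lit 5) (nat_lit 254) (nat_lit 5) (nat_lit 457) (nat_lit 413) (nat_lit 270)) (XT.lf (nat_lit 0) (nat_lit 3068849906) (nat_lit 684) (nat_lit 5013267010) (nat_lit 760) (nat_lit 5126297616) (nat_lit 244) (nat_lit 5) (nat_lit 253) (nat_lit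 5) (nat_lit 254) (nat_lit 5) (nat_lit 458) (nat_lit 413) (nat_lit 269))))) (XT.nd (nat_lit 234) (nat_lit 1292) (nat_lit 0) (XT.nd (nat_lit 78) (nat_lit 760) (nat_lit 0) (XT.lf (nat_lit 0) (nat_lit 9725285864) (nat_lit 684) (nat_lit 263893439) (nat_lit 760) (nat_lit 3370244747) (nat_lit 244) (nat_lit 5) (nat_lit 253) (nat_lit 5) (nat_lit 254) (nat_lit 5) (nat_lit 459) (nat_lit 413) (nat_lit 268)) (XT.nd (nat_lit 78) (nat_lit 76) (nat_lit 0) (XT.lf (nat_lit 0) (nat_lit 2998320195) (nat_lit 684) (nat_lit 8973582560) (nat_lit 760) (nat_lit 1540811384) (nat_lit 235) (nat_lit 5) (nat_lit 244) (nat_lit 5) (nat_lit 245) (nat_lit 5) (nat_lit 460) (nat_lit 413) (nat_lit 267)) (XT.lf (nat_lit 0) (nat_lit 335615514) (nat_lit 760) (nat_lit 3872655704) (nat_lit 76) (nat_lit 9460473541) (nat_lit 234) (nat_lit 5) (nat_lit 244) (nat_lit 5) (nat_lit 235) (nat_lit 5) (nat_lit 461) (nat_lit 413) (nat_lit 266)))) (XT.nd (nat_lit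 156) (nat_lit 684) (nat_lit 0) (XT.nd (nat_lit 78) (nat_lit 0) (nat_lit 0) (XT.lf (nat_lit 0) (nat_lit 2240924304) (nat_lit 684) (nat_lit 10914488371) (nat_lit 76) (nat_lit 672050083) (nat_lit 226) (nat_lit 5) (nat_lit 235) (nat_lit 5) (nat_lit 227) (nat_lit 5) (nat_lit 462) (nat_lit 413) (nat_lit 265)) (XT.lf (nat_lit 0) (nat_lit 4227105599) (nat_lit 684) (nat_lit 4142702626) (nat_lit 76) (nat_lit 5618701522) (nat_lit 226) (nat_lit 5) (nat_lit 235) (nat_lit 5) (nat_lit 227) (nat_lit 5) (nat_lit 463) (nat_lit 413) (nat_lit 264))) (XT.nd (nat_lit 78) (nat_lit 0) (nat_lit 0) (XT.lf (nat_lit 0) (nat_lit 2788703218) (nat_lit 684) (nat_lit 3471371573) (nat_lit 760) (nat_lit 7892571362) (nat_lit 217) (nat_lit 5) (nat_lit 226) (nat_lit 5) (nat_lit 227) (nat_lit 5) (nat_lit 464) (nat_lit 413) (nat_lit 263)) (XT.lf (nat_lit 0) (nat_lit 8360674359) (nat_lit 760) (nat_lit 4427229339) (nat_lit 76) (nat_lit 1531631740)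 (nat_lit 217) (nat_lit 5) (nat_lit 227) (nat_lit 5) (nat_lit 218) (nat_lit 5) (nat_lit 465) (nat_lit 413) (nat_lit 262)))))) (XT.nd (nat_lit 546) (nat_lit 1596) (nat_lit 0) (XT.nd (nat_lit 234) (nat_lit 1140) (nat_lit 0) (XT.nd (nat_lit 78) (nat_lit 684) (nat_lit 0) (XT.lf (nat_lit 0) (nat_lit 2647672631) (nat_lit 608) (nat_lit 7885092599) (nat_lit 684) (nat_lit 3956417077) (nat_lit 209) (nat_lit 5) (nat_lit 217) (nat_lit 5) (nat_lit 218) (nat_lit 5) (nat_lit 466) (nat_lit 413) (nat_lit 261)) (XT.nd (nat_lit 78) (nat_lit 684) (nat_lit 0) (XT.lf (nat_lit 0) (nat_lit 9911884312) (nat_lit 608) (nat_lit 2855552889) (nat_lit 684) (nat_lit 1894411324) (nat_lit 209) (nat_lit 5) (nat_lit 217) (nat_lit 5) (nat_lit 218) (nat_lit 5) (nat_lit 467) (nat_lit 413) (nat_lit 260)) (XT.lf (nat_lit 0) (nat_lit 226779087) (nat_lit 684) (nat_lit 12349935805) (nat_lit 76) (nat_lit 2260821232) (nat_lit 200) (nat_lit 5) (nat_lit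 209) (nat_lit 5) (nat_lit 201) (nat_lit 5) (nat_lit 468) (nat_lit 413) (nat_lit 259)))) (XT.nd (nat_lit 156) (nat_lit 608) (nat_lit 0) (XT.nd (nat_lit 78) (nat_lit 532) (nat_lit 0) (XT.lf (nat_lit 0) (nat_lit 2405723081) (nat_lit 684) (nat_lit 5125697705) (nat_lit 76) (nat_lit 7484260997) (nat_lit 200) (nat_lit 5) (nat_lit 209) (nat_lit 5) (nat_lit 201) (nat_lit 5) (nat_lit 469) (nat_lit 413) (nat_lit 258)) (XT.lf (nat_lit 0) (nat_lit 2260681182) (nat_lit 532) (nat_lit 2372120489) (nat_lit 608) (nat_lit 10564506070) (nat_lit 193) (nat_lit 5) (nat_lit 200) (nat_lit 5) (nat_lit 201) (nat_lit 5) (nat_lit 470) (nat_lit 413) (nat_lit 257))) (XT.nd (nat_lit 78) (nat_lit 608) (nat_lit 0) (XT.lf (nat_lit 0) (nat_lit 6947798495) (nat_lit 608) (nat_lit 5548714667) (nat_lit 76) (nat_lit 2885193855) (nat_lit 193) (nat_lit 5) (nat_lit 201) (nat_lit 5) (nat_lit 194) (nat_lit 5) (nat_lit 471) (nat_lit 413) (nat_lit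 256)) (XT.lf (nat_lit 0) (nat_lit 1985412310) (nat_lit 608) (nat_lit 7342465877) (nat_lit 684) (nat_lit 6241548602) (nat_lit 185) (nat_lit 5) (nat_lit 193) (nat_lit 5) (nat_lit 194) (nat_lit 5) (nat_lit 472) (nat_lit 413) (nat_lit 255))))) (XT.nd (nat_lit 234) (nat_lit 988) (nat_lit 0) (XT.nd (nat_lit 78) (nat_lit 608) (nat_lit 0) (XT.lf (nat_lit 0) (nat_lit 9733641441) (nat_lit 608) (nat_lit 2049451653) (nat_lit 684) (nat_lit 3977265197) (nat_lit 185) (nat_lit 5) (nat_lit 193) (nat_lit 5) (nat_lit 194) (nat_lit 5) (nat_lit 473) (nat_lit 413) (nat_lit 254)) (XT.nd (nat_lit 78) (nat_lit 76) (nat_lit 0) (XT.lf (nat_lit 0) (nat_lit 1670136038) (nat_lit 532) (nat_lit 12640342284) (nat_lit 608) (nat_lit 1644176632) (nat_lit 178) (nat_lit 5) (nat_lit 185) (nat_lit 5) (nat_lit 186) (nat_lit 5) (nat_lit 474) (nat_lit 413) (nat_lit 253)) (XT.lf (nat_lit 0) (nat_lit 770726080) (nat_lit 608) (nat_lit 6579829610)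 (nat_lit 76) (nat_lit 8801297901) (nat_lit 177) (nat_lit 5) (nat_lit 185) (nat_lit 5) (nat_lit 178) (nat_lit 5) (nat_lit 475) (nat_lit 413) (nat_lit 252)))) (XT.nd (nat_lit 156) (nat_lit 456) (nat_lit 0) (XT.nd (nat_lit 78) (nat_lit 0) (nat_lit 0) (XT.lf (nat_lit 0) (nat_lit 1273190037) (nat_lit 532) (nat_lit 1937710961) (nat_lit 608) (nat_lit 13141905446) (nat_lit 170) (nat_lit 5) (nat_lit 177) (nat_lit 5) (nat_lit 178) (nat_lit 5) (nat_lit 476) (nat_lit 413) (nat_lit 251)) (XT.lf (nat_lit 0) (nat_lit 5758387075) (nat_lit 608) (nat_lit 7219664938) (nat_lit 76) (nat_lit 3578563443) (nat_lit 170) (nat_lit 5) (nat_lit 178) (nat_lit 5) (nat_lit 171) (nat_lit 5) (nat_lit 477) (nat_lit 413) (nat_lit 250))) (XT.nd (nat_lit 78) (nat_lit 0) (nat_lit 0) (XT.lf (nat_lit 0) (nat_lit 783484555) (nat_lit 456) (nat_lit 7582233602) (nat_lit 532) (nat_lit 8398611696) (nat_lit 164) (nat_lit 5) (nat_lit 170) (nat_lit 5)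 (nat_lit 171) (nat_lit 5) (nat_lit 478) (nat_lit 413) (nat_lit 249)) (XT.lf (nat_lit 0) (nat_lit 9033192764) (nat_lit 456) (nat_lit 2031529841) (nat_lit 532) (nat_lit 5910692370) (nat_lit 164) (nat_lit 5) (nat_lit 170) (nat_lit 5) (nat_lit 171) (nat_lit 5) (nat_lit 479) (nat_lit 413) (nat_lit 248))))))))
noncomputable def xc181 : XT := (XT.nd (nat_lit 2106) (nat_lit 1900) (nat_lit 0) (XT.nd (nat_lit 1014) (nat_lit 2584) (nat_lit 0) (XT.nd (nat_lit 468) (nat_lit 1368) (nat_lit 0) (XT.nd (nat_lit 234) (nat_lit 912) (nat_lit 0) (XT.nd (nat_lit 78) (nat_lit 76) (nat_lit 0) (XT.lf (nat_lit 0) (nat_lit 225245894) (nat_lit 532) (nat_lit 13608731616) (nat_lit 608) (nat_lit 3356425719) (nat_lit 157) (nat_lit 5) (nat_lit 164) (nat_lit 5) (nat_lit 165) (nat_lit 5) (nat_lit 480) (nat_lit 413) (nat_lit 247)) (XT.nd (nat_lit 78) (nat_lit 76) (nat_lit 0) (XT.lf (nat_lit 0) (nat_lit 8638852068) (nat_lit 532) (nat_lit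 8077764431) (nat_lit 608) (nat_lit 691921469) (nat_lit 157) (nat_lit 5) (nat_lit 164) (nat_lit 5) (nat_lit 165) (nat_lit 5) (nat_lit 481) (nat_lit 413) (nat_lit 246)) (XT.lf (nat_lit 0) (nat_lit 1990747478) (nat_lit 608) (nat_lit 434595717) (nat_lit 76) (nat_lit 15205606697) (nat_lit 156) (nat_lit 5) (nat_lit 164) (nat_lit 5) (nat_lit 157) (nat_lit 5) (nat_lit 482) (nat_lit 413) (nat_lit 245)))) (XT.nd (nat_lit 78) (nat_lit 456) (nat_lit 0) (XT.lf (nat_lit 0) (nat_lit 4784448407) (nat_lit 532) (nat_lit 9720186276) (nat_lit 76) (nat_lit 3351757344) (nat_lit 150) (nat_lit 5) (nat_lit 157) (nat_lit 5) (nat_lit 151) (nat_lit 5) (nat_lit 483) (nat_lit 413) (nat_lit 244)) (XT.nd (nat_lit 78) (nat_lit 456) (nat_lit 0) (XT.lf (nat_lit 0) (nat_lit 7644710434) (nat_lit 532) (nat_lit 1229054204) (nat_lit 76) (nat_lit 9212370817) (nat_lit 150) (nat_lit 5) (nat_lit 157) (nat_lit 5) (nat_lit 151) (nat_lit 5) (nat_lit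 484) (nat_lit 413) (nat_lit 243)) (XT.lf (nat_lit 0) (nat_lit 7519736294) (nat_lit 456) (nat_lit 3083116996) (nat_lit 532) (nat_lit 7716813019) (nat_lit 144) (nat_lit 5) (nat_lit 150) (nat_lit 5) (nat_lit 151) (nat_lit 5) (nat_lit 485) (nat_lit 413) (nat_lit 242))))) (XT.nd (nat_lit 234) (nat_lit 836) (nat_lit 0) (XT.nd (nat_lit 78) (nat_lit 532) (nat_lit 0) (XT.lf (nat_lit 0) (nat_lit 13638717637) (nat_lit 532) (nat_lit 2126791488) (nat_lit 76) (nat_lit 2791993433) (nat_lit 144) (nat_lit 5) (nat_lit 151) (nat_lit 5) (nat_lit 145) (nat_lit 5) (nat_lit 486) (nat_lit 413) (nat_lit 241)) (XT.nd (nat_lit 78) (nat_lit 76) (nat_lit 0) (XT.lf (nat_lit 0) (nat_lit 6777628915) (nat_lit 456) (nat_lit 10014176930) (nat_lit 532) (nat_lit 2007165389) (nat_lit 138) (nat_lit 5) (nat_lit 144) (nat_lit 5) (nat_lit 145) (nat_lit 5) (nat_lit 487) (nat_lit 413) (nat_lit 240)) (XT.lf (nat_lit 0) (nat_lit 956539864) (nat_lit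 532) (nat_lit 3173054881) (nat_lit 76) (nat_lit 14915425555) (nat_lit 137) (nat_lit 5) (nat_lit 144) (nat_lit 5) (nat_lit 138) (nat_lit 5) (nat_lit 488) (nat_lit 413) (nat_lit 239)))) (XT.nd (nat_lit 156) (nat_lit 380) (nat_lit 0) (XT.nd (nat_lit 78) (nat_lit 0) (nat_lit 0) (XT.lf (nat_lit 0) (nat_lit 3995763455) (nat_lit 532) (nat_lit 13401721446) (nat_lit 76) (nat_lit 1897383194) (nat_lit 131) (nat_lit 5) (nat_lit 138) (nat_lit 5) (nat_lit 132) (nat_lit 5) (nat_lit 489) (nat_lit 413) (nat_lit 238)) (XT.lf (nat_lit 0) (nat_lit 7136887138) (nat_lit 532) (nat_lit 4403647335) (nat_lit 76) (nat_lit 8008361448) (nat_lit 131) (nat_lit 5) (nat_lit 138) (nat_lit 5) (nat_lit 132) (nat_lit 5) (nat_lit 490) (nat_lit 413) (nat_lit 237))) (XT.nd (nat_lit 78) (nat_lit 0) (nat_lit 0) (XT.lf (nat_lit 0) (nat_lit 4827351972) (nat_lit 380) (nat_lit 5537307449) (nat_lit 456) (nat_lit 9442873646) (nat_lit 126) (nat_lit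 5) (nat_lit 131) (nat_lit 5) (nat_lit 132) (nat_lit 5) (nat_lit 491) (nat_lit 413) (nat_lit 236)) (XT.lf (nat_lit 0) (nat_lit 13683084163) (nat_lit 456) (nat_lit 5782503594) (nat_lit 76) (nat_lit 605238438) (nat_lit 126) (nat_lit 5) (nat_lit 132) (nat_lit 5) (nat_lit 127) (nat_lit 5) (nat_lit 492) (nat_lit 413) (nat_lit 235)))))) (XT.nd (nat_lit 546) (nat_lit 1368) (nat_lit 0) (XT.nd (nat_lit 234) (nat_lit 380) (nat_lit 0) (XT.nd (nat_lit 78) (nat_lit 456) (nat_lit 0) (XT.lf (nat_lit 0) (nat_lit 3599453019) (nat_lit 380) (nat_lit 13521157408) (nat_lit 456) (nat_lit 3217725177) (nat_lit 121) (nat_lit 5) (nat_lit 126) (nat_lit 5) (nat_lit 127) (nat_lit 5) (nat_lit 493) (nat_lit 413) (nat_lit 234)) (XT.nd (nat_lit 78) (nat_lit 380) (nat_lit 0) (XT.lf (nat_lit 0) (nat_lit 47263547) (nat_lit 456) (nat_lit 7373591363) (nat_lit 76) (nat_lit 13189707588) (nat_lit 120) (nat_lit 5) (nat_lit 126) (nat_lit 5) (nat_lit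 121) (nat_lit 5) (nat_lit 494) (nat_lit 413) (nat_lit 233)) (XT.lf (nat_lit 0) (nat_lit 2176192801) (nat_lit 380) (nat_lit 1165302992) (nat_lit 456) (nat_lit 17546176958) (nat_lit 115) (nat_lit 5) (nat_lit 120) (nat_lit 5) (nat_lit 121) (nat_lit 5) (nat_lit 495) (nat_lit 413) (nat_lit 232)))) (XT.nd (nat_lit 156) (nat_lit 0) (nat_lit 0) (XT.nd (nat_lit 78) (nat_lit 380) (nat_lit 0) (XT.lf (nat_lit 0) (nat_lit 6778198459) (nat_lit 456) (nat_lit 9196706842) (nat_lit 76) (nat_lit 5193892885) (nat_lit 115) (nat_lit 5) (nat_lit 121) (nat_lit 5) (nat_lit 116) (nat_lit 5) (nat_lit 496) (nat_lit 413) (nat_lit 231)) (XT.lf (nat_lit 0) (nat_lit 497258672) (nat_lit 380) (nat_lit 9790377014) (nat_lit 456) (nat_lit 11167835032) (nat_lit 110) (nat_lit 5) (nat_lit 115) (nat_lit 5) (nat_lit 116) (nat_lit 5) (nat_lit 497) (nat_lit 413) (nat_lit 230))) (XT.nd (nat_lit 78) (nat_lit 0) (nat_lit 0) (XT.lf (nat_lit 0) (nat_lit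 10499925005) (nat_lit 380) (nat_lit 3422178412) (nat_lit 456) (nat_lit 7824680958) (nat_lit 110) (nat_lit 5) (nat_lit 115) (nat_lit 5) (nat_lit 116) (nat_lit 5) (nat_lit 498) (nat_lit 413) (nat_lit 229)) (XT.lf (nat_lit 0) (nat_lit 17642457834) (nat_lit 456) (nat_lit 1371003664) (nat_lit 76) (nat_lit 3030203284) (nat_lit 110) (nat_lit 5) (nat_lit 116) (nat_lit 5) (nat_lit 111) (nat_lit 5) (nat_lit 499) (nat_lit 413) (nat_lit 228))))) (XT.nd (nat_lit 234) (nat_lit 608) (nat_lit 0) (XT.nd (nat_lit 78) (nat_lit 456) (nat_lit 0) (XT.lf (nat_lit 0) (nat_lit 8785349144) (nat_lit 304) (nat_lit 12724949313) (nat_lit 380) (nat_lit 834727091) (nat_lit 106) (nat_lit 5) (nat_lit 110) (nat_lit 5) (nat_lit 111) (nat_lit 5) (nat_lit 500) (nat_lit 413) (nat_lit 227)) (XT.nd (nat_lit 78) (nat_lit 380) (nat_lit 0) (XT.lf (nat_lit 0) (nat_lit 2768976393) (nat_lit 380) (nat_lit 3516683532) (nat_lit 76) (nat_lit 16366340643)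 (nat_lit 105) (nat_lit 5) (nat_lit 110) (nat_lit 5) (nat_lit 106) (nat_lit 5) (nat_lit 501) (nat_lit 413) (nat_lit 226)) (XT.lf (nat_lit 0) (nat_lit 6473415696) (nat_lit 456) (nat_lit 16164973937) (nat_lit 76) (nat_lit 325822413) (nat_lit 100) (nat_lit 5) (nat_lit 106) (nat_lit 5) (nat_lit 101) (nat_lit 5) (nat_lit 502) (nat_lit 413) (nat_lit 225)))) (XT.nd (nat_lit 156) (nat_lit 304) (nat_lit 0) (XT.nd (nat_lit 78) (nat_lit 304) (nat_lit 0) (XT.lf (nat_lit 0) (nat_lit 10310898184) (nat_lit 456) (nat_lit 5964300820) (nat_lit 76) (nat_lit 7006293667) (nat_lit 100) (nat_lit 5) (nat_lit 106) (nat_lit 5) (nat_lit 101) (nat_lit 5) (nat_lit 503) (nat_lit 413) (nat_lit 224)) (XT.lf (nat_lit 0) (nat_lit 4489988820) (nat_lit 304) (nat_lit 9757991948) (nat_lit 380) (nat_lit 9356685057) (nat_lit 96) (nat_lit 5) (nat_lit 100) (nat_lit 5) (nat_lit 101) (nat_lit 5) (nat_lit 504) (nat_lit 413) (nat_lit 223))) (XT.nd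 (nat_lit 78) (nat_lit 304) (nat_lit 0) (XT.lf (nat_lit 0) (nat_lit 15224989052) (nat_lit 304) (nat_lit 3072601691) (nat_lit 380) (nat_lit 5636039834) (nat_lit 96) (nat_lit 5) (nat_lit 100) (nat_lit 5) (nat_lit 101) (nat_lit 5) (nat_lit 505) (nat_lit 413) (nat_lit 222)) (XT.lf (nat_lit 0) (nat_lit 1896919247) (nat_lit 304) (nat_lit 20561779918) (nat_lit 380) (nat_lit 1809869107) (nat_lit 92) (nat_lit 5) (nat_lit 96) (nat_lit 5) (nat_lit 97) (nat_lit 5) (nat_lit 506) (nat_lit 413) (nat_lit 221))))))) (XT.nd (nat_lit 52104) (nat_lit 0) (nat_lit 25688) (XT.nd (nat_lit 546) (nat_lit 912) (nat_lit 0) (XT.nd (nat_lit 234) (nat_lit 608) (nat_lit 0) (XT.nd (nat_lit 78) (nat_lit 304) (nat_lit 0) (XT.lf (nat_lit 0) (nat_lit 2138435050) (nat_lit 380) (nat_lit 11819893989) (nat_lit 76) (nat_lit 10650146393) (nat_lit 91) (nat_lit 5) (nat_lit 96) (nat_lit 5) (nat_lit 92) (nat_lit 5) (nat_lit 507) (nat_lit 413) (nat_lit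 220)) (XT.nd (nat_lit 78) (nat_lit 304) (nat_lit 0) (XT.lf (nat_lit 0) (nat_lit 6135496595) (nat_lit 380) (nat_lit 1078083704) (nat_lit 76) (nat_lit 17741484220) (nat_lit 91) (nat_lit 5) (nat_lit 96) (nat_lit 5) (nat_lit 92) (nat_lit 5) (nat_lit 508) (nat_lit 413) (nat_lit 219)) (XT.lf (nat_lit 0) (nat_lit 10000908895) (nat_lit 304) (nat_lit 270643399) (nat_lit 380) (nat_lit 15035855519) (nat_lit 87) (nat_lit 5) (nat_lit 91) (nat_lit 5) (nat_lit 92) (nat_lit 5) (nat_lit 509) (nat_lit 413) (nat_lit 218)))) (XT.nd (nat_lit 156) (nat_lit 304) (nat_lit 0) (XT.nd (nat_lit 78) (nat_lit 304) (nat_lit 0) (XT.lf (nat_lit 0) (nat_lit 14535993770) (nat_lit 380) (nat_lit 4403689022) (nat_lit 76) (nat_lit 6726205306) (nat_lit 87) (nat_lit 5) (nat_lit 92) (nat_lit 5) (nat_lit 88) (nat_lit 5) (nat_lit 510) (nat_lit 413) (nat_lit 217)) (XT.lf (nat_lit 0) (nat_lit 6795826587) (nat_lit 304) (nat_lit 12130087081) (nat_lit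 380) (nat_lit 7104823880) (nat_lit 83) (nat_lit 5) (nat_lit 87) (nat_lit 5) (nat_lit 88) (nat_lit 5) (nat_lit 511) (nat_lit 413) (nat_lit 216))) (XT.nd (nat_lit 78) (nat_lit 304) (nat_lit 0) (XT.lf (nat_lit 0) (nat_lit 18270396191) (nat_lit 304) (nat_lit 5157117327) (nat_lit 380) (nat_lit 2974896123) (nat_lit 83) (nat_lit 5) (nat_lit 87) (nat_lit 5) (nat_lit 88) (nat_lit 5) (nat_lit 512) (nat_lit 413) (nat_lit 215)) (XT.lf (nat_lit 0) (nat_lit 1249564970) (nat_lit 304) (nat_lit 23575338424) (nat_lit 76) (nat_lit 1955890899) (nat_lit 79) (nat_lit 5) (nat_lit 83) (nat_lit 5) (nat_lit 80) (nat_lit 5) (nat_lit 513) (nat_lit 413) (nat_lit 214))))) (XT.nd (nat_lit 234) (nat_lit 608) (nat_lit 0) (XT.nd (nat_lit 78) (nat_lit 304) (nat_lit 0) (XT.lf (nat_lit 0) (nat_lit 5602240526) (nat_lit 304) (nat_lit 12348541418) (nat_lit 76) (nat_lit 9213903327) (nat_lit 79) (nat_lit 5) (nat_lit 83) (nat_lit 5) (nat_lit 80)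 (nat_lit 5) (nat_lit 514) (nat_lit 413) (nat_lit 213)) (XT.nd (nat_lit 78) (nat_lit 304) (nat_lit 0) (XT.lf (nat_lit 0) (nat_lit 10036515953) (nat_lit 304) (nat_lit 905616860) (nat_lit 76) (nat_lit 16614233362) (nat_lit 79) (nat_lit 5) (nat_lit 83) (nat_lit 5) (nat_lit 80) (nat_lit 5) (nat_lit 515) (nat_lit 413) (nat_lit 212)) (XT.lf (nat_lit 0) (nat_lit 10900889800) (nat_lit 304) (nat_lit 3724016189) (nat_lit 380) (nat_lit 13329669102) (nat_lit 75) (nat_lit 5) (nat_lit 79) (nat_lit 5) (nat_lit 80) (nat_lit 5) (nat_lit 516) (nat_lit 413) (nat_lit 211)))) (XT.nd (nat_lit 156) (nat_lit 380) (nat_lit 0) (XT.nd (nat_lit 78) (nat_lit 228) (nat_lit 0) (XT.lf (nat_lit 0) (nat_lit 19329490722) (nat_lit 380) (nat_lit 5436767044) (nat_lit 76) (nat_lit 3594004800) (nat_lit 75) (nat_lit 5) (nat_lit 80) (nat_lit 5) (nat_lit 76) (nat_lit 5) (nat_lit 517) (nat_lit 413) (nat_lit 210)) (XT.lf (nat_lit 0) (nat_lit 6464493229)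 (nat_lit 228) (nat_lit 17725098418) (nat_lit 304) (nat_lit 4583246511) (nat_lit 72) (nat_lit 5) (nat_lit 75) (nat_lit 5) (nat_lit 76) (nat_lit 5) (nat_lit 518) (nat_lit 413) (nat_lit 209))) (XT.nd (nat_lit 78) (nat_lit 380) (nat_lit 0) (XT.lf (nat_lit 0) (nat_lit 18669411946) (nat_lit 228) (nat_lit 10508806372) (nat_lit 304) (nat_lit 14823274) (nat_lit 72) (nat_lit 5) (nat_lit 75) (nat_lit 5) (nat_lit 76) (nat_lit 5) (nat_lit 519) (nat_lit 413) (nat_lit 208)) (XT.lf (nat_lit 0) (nat_lit 1478030496) (nat_lit 304) (nat_lit 3110519805) (nat_lit 380) (nat_lit 25032408294) (nat_lit 67) (nat_lit 5) (nat_lit 71) (nat_lit 5) (nat_lit 72) (nat_lit 5) (nat_lit 520) (nat_lit 413) (nat_lit 207)))))) (XT.nd (nat_lit 546) (nat_lit 0) (nat_lit 76) (XT.nd (nat_lit 234) (nat_lit 1368) (nat_lit 0) (XT.nd (nat_lit 78) (nat_lit 0) (nat_lit 0) (XT.lf (nat_lit 0) (nat_lit 2125493781) (nat_lit 1444) (nat_lit 1112563743) (nat_lit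 1444) (nat_lit 1112563743) (nat_lit 423) (nat_lit 3) (nat_lit 442) (nat_lit 3) (nat_lit 442) (nat_lit 5) (nat_lit 414) (nat_lit 414) (nat_lit 312)) (XT.nd (nat_lit 78) (nat_lit 0) (nat_lit 0) (XT.lf (nat_lit 76) (nat_lit 1677011002) (nat_lit 0) (nat_lit 3544140708) (nat_lit 1444) (nat_lit 3547487089) (nat_lit 424) (nat_lit 5) (nat_lit 423) (nat_lit 3) (nat_lit 442) (nat_lit 5) (nat_lit 415) (nat_lit 414) (nat_lit 311)) (XT.lf (nat_lit 76) (nat_lit 5674913318) (nat_lit 0) (nat_lit 526609722) (nat_lit 1444) (nat_lit 2636071755) (nat_lit 424) (nat_lit 5) (nat_lit 423) (nat_lit 3) (nat_lit 442) (nat_lit 5) (nat_lit 416) (nat_lit 414) (nat_lit 310)))) (XT.nd (nat_lit 156) (nat_lit 1444) (nat_lit 0) (XT.nd (nat_lit 78) (nat_lit 0) (nat_lit 0) (XT.lf (nat_lit 76) (nat_lit 826344869) (nat_lit 0) (nat_lit 6373506264) (nat_lit 1444) (nat_lit 1708139129) (nat_lit 425) (nat_lit 5) (nat_lit 424) (nat_lit 5) (nat_lit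 443) (nat_lit 5) (nat_lit 417) (nat_lit 414) (nat_lit 309)) (XT.lf (nat_lit 76) (nat_lit 4921800907) (nat_lit 0) (nat_lit 3297832264) (nat_lit 1444) (nat_lit 760157521) (nat_lit 425) (nat_lit 5) (nat_lit 424) (nat_lit 5) (nat_lit 443) (nat_lit 5) (nat_lit 418) (nat_lit 414) (nat_lit 308))) (XT.nd (nat_lit 78) (nat_lit 0) (nat_lit 76) (XT.lf (nat_lit 76) (nat_lit 32452391) (nat_lit 0) (nat_lit 148907959) (nat_lit 1520) (nat_lit 8872119918) (nat_lit 406) (nat_lit 5) (nat_lit 405) (nat_lit 5) (nat_lit 425) (nat_lit 5) (nat_lit 419) (nat_lit 414) (nat_lit 307)) (XT.lf (nat_lit 0) (nat_lit 1156347270) (nat_lit 1444) (nat_lit 4906715979) (nat_lit 1520) (nat_lit 3065008806) (nat_lit 406) (nat_lit 5) (nat_lit 425) (nat_lit 5) (nat_lit 426) (nat_lit 5) (nat_lit 420) (nat_lit 414) (nat_lit 306))))) (XT.nd (nat_lit 234) (nat_lit 0) (nat_lit 76) (XT.nd (nat_lit 78) (nat_lit 0) (nat_lit 76) (XT.lf (nat_lit 0) (nat_lit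 2129770174) (nat_lit 1444) (nat_lit 724070664) (nat_lit 1520) (nat_lit 6350760876) (nat_lit 406) (nat_lit 5) (nat_lit 425) (nat_lit 5) (nat_lit 426) (nat_lit 5) (nat_lit 421) (nat_lit 414) (nat_lit 305)) (XT.nd (nat_lit 78) (nat_lit 0) (nat_lit 0) (XT.lf (nat_lit 0) (nat_lit 3127200179) (nat_lit 1444) (nat_lit 5709169354) (nat_lit 1520) (nat_lit 446225936) (nat_lit 407) (nat_lit 5) (nat_lit 426) (nat_lit 5) (nat_lit 427) (nat_lit 5) (nat_lit 422) (nat_lit 414) (nat_lit 304)) (XT.lf (nat_lit 0) (nat_lit 4147149938) (nat_lit 1444) (nat_lit 1427430154) (nat_lit 1520) (nat_lit 3787541383) (nat_lit 407) (nat_lit 5) (nat_lit 426) (nat_lit 5) (nat_lit 427) (nat_lit 5) (nat_lit 423) (nat_lit 414) (nat_lit 303)))) (XT.nd (nat_lit 156) (nat_lit 0) (nat_lit 76) (XT.nd (nat_lit 78) (nat_lit 0) (nat_lit 76) (XT.lf (nat_lit 76) (nat_lit 2965966298) (nat_lit 0) (nat_lit 2219985956) (nat_lit 1520) (nat_lit 4257340009)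 (nat_lit 408) (nat_lit 5) (nat_lit 407) (nat_lit 5) (nat_lit 427) (nat_lit 5) (nat_lit 424) (nat_lit 414) (nat_lit 302)) (XT.lf (nat_lit 0) (nat_lit 6242546399) (nat_lit 1444) (nat_lit 2080455042) (nat_lit 1520) (nat_lit 1203167586) (nat_lit 408) (nat_lit 5) (nat_lit 427) (nat_lit 5) (nat_lit 428) (nat_lit 5) (nat_lit 425) (nat_lit 414) (nat_lit 301))) (XT.nd (nat_lit 78) (nat_lit 0) (nat_lit 0) (XT.lf (nat_lit 76) (nat_lit 2408221595) (nat_lit 0) (nat_lit 4922360363) (nat_lit 1520) (nat_lit 2279937602) (nat_lit 409) (nat_lit 5) (nat_lit 408) (nat_lit 5) (nat_lit 428) (nat_lit 5) (nat_lit 426) (nat_lit 414) (nat_lit 300)) (XT.lf (nat_lit 76) (nat_lit 7001944430) (nat_lit 0) (nat_lit 1432675384) (nat_lit 1520) (nat_lit 1262074447) (nat_lit 409) (nat_lit 5) (nat_lit 408) (nat_lit 5) (nat_lit 428) (nat_lit 5) (nat_lit 427) (nat_lit 414) (nat_lit 299))))))))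
noncomputable def xc182 : XT := (XT.nd (nat_lit 2106) (nat_lit 8740) (nat_lit 0) (XT.nd (nat_lit 1014) (nat_lit 7524) (nat_lit 0) (XT.nd (nat_lit 468) (nat_lit 1368) (nat_lit 0) (XT.nd (nat_lit 234) (nat_lit 0) (nat_lit 76) (XT.nd (nat_lit 78) (nat_lit 1520) (nat_lit 0) (XT.lf (nat_lit 76) (nat_lit 1900945500) (nat_lit 0) (nat_lit 7666654261) (nat_lit 1520) (nat_lit 216877025) (nat_lit 410) (nat_lit 5) (nat_lit 409) (nat_lit 5) (nat_lit 429) (nat_lit 5) (nat_lit 428) (nat_lit 414) (nat_lit 298)) (XT.nd (nat_lit 78) (nat_lit 0) (nat_lit 0) (XT.lf (nat_lit 0) (nat_lit 846634897) (nat_lit 1520) (nat_lit 3277007060) (nat_lit 1596) (nat_lit 5750112481) (nat_lit 389) (nat_lit 5) (nat_lit 409) (nat_lit 5) (nat_lit 410) (nat_lit 5) (nat_lit 429) (nat_lit 414) (nat_lit 297)) (XT.lf (nat_lit 76) (nat_lit 1425857694) (nat_lit 0) (nat_lit 493148474) (nat_lit 1596) (nat_lit 8045993256) (nat_lit 390) (nat_lit 5) (nat_lit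 389) (nat_lit 5) (nat_lit 410) (nat_lit 5) (nat_lit 430) (nat_lit 414) (nat_lit 296)))) (XT.nd (nat_lit 78) (nat_lit 0) (nat_lit 0) (XT.lf (nat_lit 0) (nat_lit 3037354457) (nat_lit 1520) (nat_lit 3824809426) (nat_lit 1596) (nat_lit 3195434750) (nat_lit 390) (nat_lit 5) (nat_lit 410) (nat_lit 5) (nat_lit 411) (nat_lit 5) (nat_lit 431) (nat_lit 414) (nat_lit 295)) (XT.nd (nat_lit 78) (nat_lit 0) (nat_lit 76) (XT.lf (nat_lit 76) (nat_lit 980269092) (nat_lit 0) (nat_lit 3189345139) (nat_lit 1596) (nat_lit 5982624227) (nat_lit 391) (nat_lit 5) (nat_lit 390) (nat_lit 5) (nat_lit 411) (nat_lit 5) (nat_lit 432) (nat_lit 414) (nat_lit 294)) (XT.lf (nat_lit 0) (nat_lit 5336186612) (nat_lit 1520) (nat_lit 4332199215) (nat_lit 1596) (nat_lit 580171047) (nat_lit 391) (nat_lit 5) (nat_lit 411) (nat_lit 5) (nat_lit 412) (nat_lit 5) (nat_lit 433) (nat_lit 414) (nat_lit 293))))) (XT.nd (nat_lit 234) (nat_lit 1520) (nat_lit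 0) (XT.nd (nat_lit 78) (nat_lit 0) (nat_lit 0) (XT.lf (nat_lit 76) (nat_lit 577633352) (nat_lit 0) (nat_lit 5955892672) (nat_lit 1596) (nat_lit 3813145686) (nat_lit 392) (nat_lit 5) (nat_lit 391) (nat_lit 5) (nat_lit 412) (nat_lit 5) (nat_lit 434) (nat_lit 414) (nat_lit 292)) (XT.nd (nat_lit 78) (nat_lit 0) (nat_lit 76) (XT.lf (nat_lit 76) (nat_lit 5631286169) (nat_lit 0) (nat_lit 2135417941) (nat_lit 1596) (nat_lit 2679825295) (nat_lit 392) (nat_lit 5) (nat_lit 391) (nat_lit 5) (nat_lit 412) (nat_lit 5) (nat_lit 435) (nat_lit 414) (nat_lit 291)) (XT.lf (nat_lit 76) (nat_lit 215796911) (nat_lit 0) (nat_lit 8804769912) (nat_lit 1596) (nat_lit 1527915045) (nat_lit 393) (nat_lit 5) (nat_lit 392) (nat_lit 5) (nat_lit 413) (nat_lit 5) (nat_lit 436) (nat_lit 414) (nat_lit 290)))) (XT.nd (nat_lit 156) (nat_lit 0) (nat_lit 76) (XT.nd (nat_lit 78) (nat_lit 1596) (nat_lit 0) (XT.lf (nat_lit 76) (nat_lit 5385262494)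 (nat_lit 0) (nat_lit 4944033720) (nat_lit 1596) (nat_lit 322599063) (nat_lit 393) (nat_lit 5) (nat_lit 392) (nat_lit 5) (nat_lit 413) (nat_lit 5) (nat_lit 437) (nat_lit 414) (nat_lit 289)) (XT.lf (nat_lit 0) (nat_lit 878558130) (nat_lit 1596) (nat_lit 118261717) (nat_lit 1672) (nat_lit 9760783788) (nat_lit 371) (nat_lit 5) (nat_lit 392) (nat_lit 5) (nat_lit 393) (nat_lit 5) (nat_lit 438) (nat_lit 414) (nat_lit 288))) (XT.nd (nat_lit 78) (nat_lit 0) (nat_lit 0) (XT.lf (nat_lit 0) (nat_lit 2136969911) (nat_lit 1596) (nat_lit 5698874357) (nat_lit 76) (nat_lit 3028804887) (nat_lit 372) (nat_lit 5) (nat_lit 393) (nat_lit 5) (nat_lit 373) (nat_lit 5) (nat_lit 439) (nat_lit 414) (nat_lit 287)) (XT.lf (nat_lit 0) (nat_lit 3412150873) (nat_lit 1596) (nat_lit 436456531) (nat_lit 76) (nat_lit 7125412500) (nat_lit 372) (nat_lit 5) (nat_lit 393) (nat_lit 5) (nat_lit 373) (nat_lit 5) (nat_lit 440) (nat_lit 414) (nat_lit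 286)))))) (XT.nd (nat_lit 546) (nat_lit 2432) (nat_lit 0) (XT.nd (nat_lit 234) (nat_lit 1900) (nat_lit 0) (XT.nd (nat_lit 78) (nat_lit 1672) (nat_lit 0) (XT.lf (nat_lit 0) (nat_lit 4731352533) (nat_lit 1672) (nat_lit 6103201902) (nat_lit 76) (nat_lit 250669307) (nat_lit 351) (nat_lit 5) (nat_lit 373) (nat_lit 5) (nat_lit 352) (nat_lit 5) (nat_lit 441) (nat_lit 414) (nat_lit 285)) (XT.nd (nat_lit 78) (nat_lit 1672) (nat_lit 0) (XT.lf (nat_lit 0) (nat_lit 6090121226) (nat_lit 1672) (nat_lit 722434304) (nat_lit 76) (nat_lit 4385848168) (nat_lit 351) (nat_lit 5) (nat_lit 373) (nat_lit 5) (nat_lit 352) (nat_lit 5) (nat_lit 442) (nat_lit 414) (nat_lit 284)) (XT.lf (nat_lit 0) (nat_lit 4816251490) (nat_lit 1672) (nat_lit 2676130460) (nat_lit 1748) (nat_lit 3821154366) (nat_lit 329) (nat_lit 5) (nat_lit 351) (nat_lit 5) (nat_lit 352) (nat_lit 5) (nat_lit 443) (nat_lit 414) (nat_lit 283)))) (XT.nd (nat_lit 156)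 (nat_lit 912) (nat_lit 0) (XT.nd (nat_lit 78) (nat_lit 988) (nat_lit 0) (XT.lf (nat_lit 0) (nat_lit 8922855597) (nat_lit 1748) (nat_lit 978522527) (nat_lit 76) (nat_lit 1529605201) (nat_lit 329) (nat_lit 5) (nat_lit 352) (nat_lit 5) (nat_lit 330) (nat_lit 5) (nat_lit 444) (nat_lit 414) (nat_lit 282)) (XT.lf (nat_lit 0) (nat_lit 4681445941) (nat_lit 988) (nat_lit 5734168738) (nat_lit 1064) (nat_lit 1134505872) (nat_lit 316) (nat_lit 5) (nat_lit 329) (nat_lit 5) (nat_lit 330) (nat_lit 5) (nat_lit 445) (nat_lit 414) (nat_lit 281))) (XT.nd (nat_lit 78) (nat_lit 836) (nat_lit 0) (XT.lf (nat_lit 0) (nat_lit 255351843) (nat_lit 1064) (nat_lit 1218370428) (nat_lit 76) (nat_lit 10198052659) (nat_lit 315) (nat_lit 5) (nat_lit 329) (nat_lit 5) (nat_lit 316) (nat_lit 5) (nat_lit 446) (nat_lit 414) (nat_lit 280)) (XT.lf (nat_lit 0) (nat_lit 1692431220) (nat_lit 912) (nat_lit 7229467233) (nat_lit 76) (nat_lit 2873135596)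 (nat_lit 304) (nat_lit 5) (nat_lit 316) (nat_lit 5) (nat_lit 305) (nat_lit 5) (nat_lit 447) (nat_lit 414) (nat_lit 279))))) (XT.nd (nat_lit 234) (nat_lit 1596) (nat_lit 0) (XT.nd (nat_lit 78) (nat_lit 836) (nat_lit 0) (XT.lf (nat_lit 0) (nat_lit 3162375228) (nat_lit 912) (nat_lit 1461636813) (nat_lit 76) (nat_lit 7296677517) (nat_lit 304) (nat_lit 5) (nat_lit 316) (nat_lit 5) (nat_lit 305) (nat_lit 5) (nat_lit 448) (nat_lit 414) (nat_lit 278)) (XT.nd (nat_lit 78) (nat_lit 0) (nat_lit 0) (XT.lf (nat_lit 0) (nat_lit 4467469106) (nat_lit 836) (nat_lit 209659921) (nat_lit 912) (nat_lit 7371434333) (nat_lit 293) (nat_lit 5) (nat_lit 304) (nat_lit 5) (nat_lit 305) (nat_lit 5) (nat_lit 449) (nat_lit 414) (nat_lit 277)) (XT.lf (nat_lit 0) (nat_lit 6246519375) (nat_lit 912) (nat_lit 1684642346) (nat_lit 76) (nat_lit 4247359228) (nat_lit 293) (nat_lit 5) (nat_lit 305) (nat_lit 5) (nat_lit 294) (nat_lit 5) (nat_lit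 450) (nat_lit 414) (nat_lit 276)))) (XT.nd (nat_lit 156) (nat_lit 836) (nat_lit 0) (XT.nd (nat_lit 78) (nat_lit 0) (nat_lit 0) (XT.lf (nat_lit 0) (nat_lit 4373080266) (nat_lit 760) (nat_lit 3490856808) (nat_lit 836) (nat_lit 4446820706) (nat_lit 283) (nat_lit 5) (nat_lit 293) (nat_lit 5) (nat_lit 294) (nat_lit 5) (nat_lit 451) (nat_lit 414) (nat_lit 275)) (XT.lf (nat_lit 0) (nat_lit 9518861020) (nat_lit 836) (nat_lit 1890251293) (nat_lit 76) (nat_lit 1036436505) (nat_lit 283) (nat_lit 5) (nat_lit 294) (nat_lit 5) (nat_lit 284) (nat_lit 5) (nat_lit 452) (nat_lit 414) (nat_lit 274))) (XT.nd (nat_lit 78) (nat_lit 76) (nat_lit 0) (XT.lf (nat_lit 0) (nat_lit 4298821042) (nat_lit 760) (nat_lit 6946382784) (nat_lit 836) (nat_lit 1337077825) (nat_lit 273) (nat_lit 5) (nat_lit 283) (nat_lit 5) (nat_lit 284) (nat_lit 5) (nat_lit 453) (nat_lit 414) (nat_lit 273)) (XT.lf (nat_lit 0) (nat_lit 280728417) (nat_lit 836)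 (nat_lit 2098788923) (nat_lit 76) (nat_lit 10342204119) (nat_lit 272) (nat_lit 5) (nat_lit 283) (nat_lit 5) (nat_lit 273) (nat_lit 5) (nat_lit 454) (nat_lit 414) (nat_lit 272))))))) (XT.nd (nat_lit 1092) (nat_lit 3952) (nat_lit 0) (XT.nd (nat_lit 546) (nat_lit 1976) (nat_lit 0) (XT.nd (nat_lit 234) (nat_lit 1368) (nat_lit 0) (XT.nd (nat_lit 78) (nat_lit 760) (nat_lit 0) (XT.lf (nat_lit 0) (nat_lit 1943206614) (nat_lit 760) (nat_lit 8634548071) (nat_lit 76) (nat_lit 2285425898) (nat_lit 263) (nat_lit 5) (nat_lit 273) (nat_lit 5) (nat_lit 264) (nat_lit 5) (nat_lit 455) (nat_lit 414) (nat_lit 271)) (XT.nd (nat_lit 78) (nat_lit 760) (nat_lit 0) (XT.lf (nat_lit 0) (nat_lit 3656644369) (nat_lit 760) (nat_lit 2324573314) (nat_lit 76) (nat_lit 7025908445) (nat_lit 263) (nat_lit 5) (nat_lit 273) (nat_lit 5) (nat_lit 264) (nat_lit 5) (nat_lit 456) (nat_lit 414) (nat_lit 270)) (XT.lf (nat_lit 0) (nat_lit 4153738303)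 (nat_lit 760) (nat_lit 1265595471) (nat_lit 836) (nat_lit 7734328366) (nat_lit 253) (nat_lit 5) (nat_lit 263) (nat_lit 5) (nat_lit 264) (nat_lit 5) (nat_lit 457) (nat_lit 414) (nat_lit 269)))) (XT.nd (nat_lit 156) (nat_lit 684) (nat_lit 0) (XT.nd (nat_lit 78) (nat_lit 684) (nat_lit 0) (XT.lf (nat_lit 0) (nat_lit 7244158306) (nat_lit 836) (nat_lit 2545309343) (nat_lit 76) (nat_lit 3513134591) (nat_lit 253) (nat_lit 5) (nat_lit 264) (nat_lit 5) (nat_lit 254) (nat_lit 5) (nat_lit 458) (nat_lit 414) (nat_lit 268)) (XT.lf (nat_lit 0) (nat_lit 4071151760) (nat_lit 684) (nat_lit 5057540357) (nat_lit 760) (nat_lit 4325375548) (nat_lit 244) (nat_lit 5) (nat_lit 253) (nat_lit 5) (nat_lit 254) (nat_lit 5) (nat_lit 459) (nat_lit 414) (nat_lit 267))) (XT.nd (nat_lit 78) (nat_lit 684) (nat_lit 0) (XT.lf (nat_lit 0) (nat_lit 10842266930) (nat_lit 684) (nat_lit 214277196) (nat_lit 760) (nat_lit 2551916288) (nat_lit 244)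 (nat_lit 5) (nat_lit 253) (nat_lit 5) (nat_lit 254) (nat_lit 5) (nat_lit 460) (nat_lit 414) (nat_lit 266)) (XT.lf (nat_lit 0) (nat_lit 3992371662) (nat_lit 684) (nat_lit 9075953109) (nat_lit 760) (nat_lit 696719175) (nat_lit 235) (nat_lit 5) (nat_lit 244) (nat_lit 5) (nat_lit 245) (nat_lit 5) (nat_lit 461) (nat_lit 414) (nat_lit 265))))) (XT.nd (nat_lit 234) (nat_lit 1292) (nat_lit 0) (XT.nd (nat_lit 78) (nat_lit 608) (nat_lit 0) (XT.lf (nat_lit 0) (nat_lit 1188831604) (nat_lit 760) (nat_lit 3022335237) (nat_lit 76) (nat_lit 9713268417) (nat_lit 234) (nat_lit 5) (nat_lit 244) (nat_lit 5) (nat_lit 235) (nat_lit 5) (nat_lit 462) (nat_lit 414) (nat_lit 264)) (XT.nd (nat_lit 78) (nat_lit 0) (nat_lit 0) (XT.lf (nat_lit 0) (nat_lit 3122189488) (nat_lit 684) (nat_lit 10194207946) (nat_lit 76) (nat_lit 770146114) (nat_lit 226) (nat_lit 5) (nat_lit 235) (nat_lit 5) (nat_lit 227) (nat_lit 5) (nat_lit 463) (nat_lit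 414) (nat_lit 263)) (XT.lf (nat_lit 0) (nat_lit 5131693494) (nat_lit 684) (nat_lit 3305389822) (nat_lit 76) (nat_lit 5814070680) (nat_lit 226) (nat_lit 5) (nat_lit 235) (nat_lit 5) (nat_lit 227) (nat_lit 5) (nat_lit 464) (nat_lit 414) (nat_lit 262)))) (XT.nd (nat_lit 156) (nat_lit 608) (nat_lit 0) (XT.nd (nat_lit 78) (nat_lit 0) (nat_lit 0) (XT.lf (nat_lit 0) (nat_lit 3758590409) (nat_lit 684) (nat_lit 3436587361) (nat_lit 760) (nat_lit 7223612463) (nat_lit 217) (nat_lit 5) (nat_lit 226) (nat_lit 5) (nat_lit 227) (nat_lit 5) (nat_lit 465) (nat_lit 414) (nat_lit 261)) (XT.lf (nat_lit 0) (nat_lit 9322572252) (nat_lit 760) (nat_lit 3603670632) (nat_lit 76) (nat_lit 1663092698) (nat_lit 217) (nat_lit 5) (nat_lit 227) (nat_lit 5) (nat_lit 218) (nat_lit 5) (nat_lit 466) (nat_lit 414) (nat_lit 260))) (XT.nd (nat_lit 78) (nat_lit 0) (nat_lit 0) (XT.lf (nat_lit 0) (nat_lit 3606728698) (nat_lit 608) (nat_lit 7921677214)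 (nat_lit 684) (nat_lit 3234177121) (nat_lit 209) (nat_lit 5) (nat_lit 217) (nat_lit 5) (nat_lit 218) (nat_lit 5) (nat_lit 467) (nat_lit 414) (nat_lit 259)) (XT.lf (nat_lit 0) (nat_lit 10998457895) (nat_lit 608) (nat_lit 2793921558) (nat_lit 684) (nat_lit 1146644356) (nat_lit 209) (nat_lit 5) (nat_lit 217) (nat_lit 5) (nat_lit 218) (nat_lit 5) (nat_lit 468) (nat_lit 414) (nat_lit 258)))))) (XT.nd (nat_lit 546) (nat_lit 1596) (nat_lit 0) (XT.nd (nat_lit 234) (nat_lit 1140) (nat_lit 0) (XT.nd (nat_lit 78) (nat_lit 532) (nat_lit 0) (XT.lf (nat_lit 0) (nat_lit 998090676) (nat_lit 684) (nat_lit 11688418949) (nat_lit 76) (nat_lit 2431797896) (nat_lit 200) (nat_lit 5) (nat_lit 209) (nat_lit 5) (nat_lit 201) (nat_lit 5) (nat_lit 469) (nat_lit 414) (nat_lit 257)) (XT.nd (nat_lit 78) (nat_lit 532) (nat_lit 0) (XT.lf (nat_lit 0) (nat_lit 3205578726) (nat_lit 684) (nat_lit 4337510118) (nat_lit 76) (nat_lit 7757240569)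 (nat_lit 200) (nat_lit 5) (nat_lit 209) (nat_lit 5) (nat_lit 201) (nat_lit 5) (nat_lit 470) (nat_lit 414) (nat_lit 256)) (XT.lf (nat_lit 0) (nat_lit 3190736468) (nat_lit 532) (nat_lit 2277467375) (nat_lit 608) (nat_lit 10017576323) (nat_lit 193) (nat_lit 5) (nat_lit 200) (nat_lit 5) (nat_lit 201) (nat_lit 5) (nat_lit 471) (nat_lit 414) (nat_lit 255)))) (XT.nd (nat_lit 156) (nat_lit 532) (nat_lit 0) (XT.nd (nat_lit 78) (nat_lit 608) (nat_lit 0) (XT.lf (nat_lit 0) (nat_lit 7815841442) (nat_lit 608) (nat_lit 4777931300) (nat_lit 76) (nat_lit 3080380002) (nat_lit 193) (nat_lit 5) (nat_lit 201) (nat_lit 5) (nat_lit 194) (nat_lit 5) (nat_lit 472) (nat_lit 414) (nat_lit 254)) (XT.lf (nat_lit 0) (nat_lit 2901077179) (nat_lit 608) (nat_lit 7333837017) (nat_lit 684) (nat_lit 5630896781) (nat_lit 185) (nat_lit 5) (nat_lit 193) (nat_lit 5) (nat_lit 194) (nat_lit 5) (nat_lit 473) (nat_lit 414) (nat_lit 253))) (XT.nd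 (nat_lit 78) (nat_lit 532) (nat_lit 0) (XT.lf (nat_lit 0) (nat_lit 10787095273) (nat_lit 608) (nat_lit 1938011100) (nat_lit 684) (nat_lit 3335748940) (nat_lit 185) (nat_lit 5) (nat_lit 193) (nat_lit 5) (nat_lit 194) (nat_lit 5) (nat_lit 474) (nat_lit 414) (nat_lit 252)) (XT.lf (nat_lit 0) (nat_lit 2570300091) (nat_lit 532) (nat_lit 12725487046) (nat_lit 608) (nat_lit 963407250) (nat_lit 178) (nat_lit 5) (nat_lit 185) (nat_lit 5) (nat_lit 186) (nat_lit 5) (nat_lit 475) (nat_lit 414) (nat_lit 251))))) (XT.nd (nat_lit 234) (nat_lit 988) (nat_lit 0) (XT.nd (nat_lit 78) (nat_lit 532) (nat_lit 0) (XT.lf (nat_lit 0) (nat_lit 1476624159) (nat_lit 608) (nat_lit 5851934545) (nat_lit 76) (nat_lit 9131972805) (nat_lit 177) (nat_lit 5) (nat_lit 185) (nat_lit 5) (nat_lit 178) (nat_lit 5) (nat_lit 476) (nat_lit 414) (nat_lit 250)) (XT.nd (nat_lit 78) (nat_lit 0) (nat_lit 0) (XT.lf (nat_lit 0) (nat_lit 2152490944) (nat_lit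 532) (nat_lit 1805116415) (nat_lit 608) (nat_lit 12708066739) (nat_lit 170) (nat_lit 5) (nat_lit 177) (nat_lit 5) (nat_lit 178) (nat_lit 5) (nat_lit 477) (nat_lit 414) (nat_lit 249)) (XT.lf (nat_lit 0) (nat_lit 6543751729) (nat_lit 608) (nat_lit 6514143460) (nat_lit 76) (nat_lit 3815920492) (nat_lit 170) (nat_lit 5) (nat_lit 178) (nat_lit 5) (nat_lit 171) (nat_lit 5) (nat_lit 478) (nat_lit 414) (nat_lit 248)))) (XT.nd (nat_lit 156) (nat_lit 532) (nat_lit 0) (XT.nd (nat_lit 78) (nat_lit 0) (nat_lit 0) (XT.lf (nat_lit 0) (nat_lit 1643477479) (nat_lit 456) (nat_lit 7552092745) (nat_lit 532) (nat_lit 7890277683) (nat_lit 164) (nat_lit 5) (nat_lit 170) (nat_lit 5) (nat_lit 171) (nat_lit 5) (nat_lit 479) (nat_lit 414) (nat_lit 247)) (XT.lf (nat_lit 0) (nat_lit 10041624494) (nat_lit 456) (nat_lit 1893939331) (nat_lit 532) (nat_lit 5365860878) (nat_lit 164) (nat_lit 5) (nat_lit 170) (nat_lit 5) (nat_lit 171)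 (nat_lit 5) (nat_lit 480) (nat_lit 414) (nat_lit 246))) (XT.nd (nat_lit 78) (nat_lit 0) (nat_lit 0) (XT.lf (nat_lit 0) (nat_lit 1064333094) (nat_lit 532) (nat_lit 13689687625) (nat_lit 608) (nat_lit 2766825618) (nat_lit 157) (nat_lit 5) (nat_lit 164) (nat_lit 5) (nat_lit 165) (nat_lit 5) (nat_lit 481) (nat_lit 414) (nat_lit 245)) (XT.lf (nat_lit 0) (nat_lit 9629847034) (nat_lit 532) (nat_lit 8051850481) (nat_lit 608) (nat_lit 61908315) (nat_lit 157) (nat_lit 5) (nat_lit 164) (nat_lit 5) (nat_lit 165) (nat_lit 5) (nat_lit 482) (nat_lit 414) (nat_lit 244))))))))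
noncomputable def xc183 : XT := (XT.nd (nat_lit 2106) (nat_lit 1520) (nat_lit 0) (XT.nd (nat_lit 1014) (nat_lit 2204) (nat_lit 0) (XT.nd (nat_lit 468) (nat_lit 1368) (nat_lit 0) (XT.nd (nat_lit 234) (nat_lit 912) (nat_lit 0) (XT.nd (nat_lit 78) (nat_lit 0) (nat_lit 0) (XT.lf (nat_lit 0) (nat_lit 372520105) (nat_lit 456) (nat_lit 2283409356) (nat_lit 532) (nat_lit 15314663109) (nat_lit 150) (nat_lit 5) (nat_lit 156) (nat_lit 5) (nat_lit 157) (nat_lit 5) (nat_lit 483) (nat_lit 414) (nat_lit 243)) (XT.nd (nat_lit 78) (nat_lit 0) (nat_lit 0) (XT.lf (nat_lit 0) (nat_lit 5497332651) (nat_lit 532) (nat_lit 9097455039) (nat_lit 76) (nat_lit 3605928489) (nat_lit 150) (nat_lit 5) (nat_lit 157) (nat_lit 5) (nat_lit 151) (nat_lit 5) (nat_lit 484) (nat_lit 414) (nat_lit 242)) (XT.lf (nat_lit 0) (nat_lit 8402698050) (nat_lit 532) (nat_lit 452522580) (nat_lit 76) (nat_lit 9580084898) (nat_lit 150) (nat_lit 5) (nat_lit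 157) (nat_lit 5) (nat_lit 151) (nat_lit 5) (nat_lit 485) (nat_lit 414) (nat_lit 241)))) (XT.nd (nat_lit 78) (nat_lit 456) (nat_lit 0) (XT.lf (nat_lit 0) (nat_lit 8465973250) (nat_lit 456) (nat_lit 2947333072) (nat_lit 532) (nat_lit 7260343464) (nat_lit 144) (nat_lit 5) (nat_lit 150) (nat_lit 5) (nat_lit 151) (nat_lit 5) (nat_lit 486) (nat_lit 414) (nat_lit 240)) (XT.nd (nat_lit 78) (nat_lit 456) (nat_lit 0) (XT.lf (nat_lit 0) (nat_lit 14499411518) (nat_lit 532) (nat_lit 1378180135) (nat_lit 76) (nat_lit 3038869301) (nat_lit 144) (nat_lit 5) (nat_lit 151) (nat_lit 5) (nat_lit 145) (nat_lit 5) (nat_lit 487) (nat_lit 414) (nat_lit 239)) (XT.lf (nat_lit 0) (nat_lit 7699123759) (nat_lit 456) (nat_lit 10010012755) (nat_lit 532) (nat_lit 1453759485) (nat_lit 138) (nat_lit 5) (nat_lit 144) (nat_lit 5) (nat_lit 145) (nat_lit 5) (nat_lit 488) (nat_lit 414) (nat_lit 238))))) (XT.nd (nat_lit 234) (nat_lit 836) (nat_lit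 0) (XT.nd (nat_lit 78) (nat_lit 456) (nat_lit 0) (XT.lf (nat_lit 0) (nat_lit 1549949786) (nat_lit 532) (nat_lit 2457944204) (nat_lit 76) (nat_lit 15406132860) (nat_lit 137) (nat_lit 5) (nat_lit 144) (nat_lit 5) (nat_lit 138) (nat_lit 5) (nat_lit 489) (nat_lit 414) (nat_lit 237)) (XT.nd (nat_lit 78) (nat_lit 0) (nat_lit 0) (XT.lf (nat_lit 0) (nat_lit 4645052874) (nat_lit 532) (nat_lit 12885878856) (nat_lit 76) (nat_lit 2138045975) (nat_lit 131) (nat_lit 5) (nat_lit 138) (nat_lit 5) (nat_lit 132) (nat_lit 5) (nat_lit 490) (nat_lit 414) (nat_lit 236)) (XT.lf (nat_lit 0) (nat_lit 7837834832) (nat_lit 532) (nat_lit 3723213401) (nat_lit 76) (nat_lit 8367268988) (nat_lit 131) (nat_lit 5) (nat_lit 138) (nat_lit 5) (nat_lit 132) (nat_lit 5) (nat_lit 491) (nat_lit 414) (nat_lit 235)))) (XT.nd (nat_lit 156) (nat_lit 456) (nat_lit 0) (XT.nd (nat_lit 78) (nat_lit 0) (nat_lit 0) (XT.lf (nat_lit 0) (nat_lit 5687349926)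 (nat_lit 380) (nat_lit 5436824171) (nat_lit 456) (nat_lit 9068080476) (nat_lit 126) (nat_lit 5) (nat_lit 131) (nat_lit 5) (nat_lit 132) (nat_lit 5) (nat_lit 492) (nat_lit 414) (nat_lit 234)) (XT.lf (nat_lit 0) (nat_lit 14499484012) (nat_lit 456) (nat_lit 5139811873) (nat_lit 76) (nat_lit 821714889) (nat_lit 126) (nat_lit 5) (nat_lit 132) (nat_lit 5) (nat_lit 127) (nat_lit 5) (nat_lit 493) (nat_lit 414) (nat_lit 233))) (XT.nd (nat_lit 78) (nat_lit 76) (nat_lit 0) (XT.lf (nat_lit 0) (nat_lit 4424794781) (nat_lit 380) (nat_lit 13575215361) (nat_lit 456) (nat_lit 2733982638) (nat_lit 121) (nat_lit 5) (nat_lit 126) (nat_lit 5) (nat_lit 127) (nat_lit 5) (nat_lit 494) (nat_lit 414) (nat_lit 232)) (XT.lf (nat_lit 0) (nat_lit 578511417) (nat_lit 456) (nat_lit 6775079241) (nat_lit 76) (nat_lit 13658221611) (nat_lit 120) (nat_lit 5) (nat_lit 126) (nat_lit 5) (nat_lit 121) (nat_lit 5) (nat_lit 495) (nat_lit 414)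 (nat_lit 231)))))) (XT.nd (nat_lit 546) (nat_lit 1064) (nat_lit 0) (XT.nd (nat_lit 234) (nat_lit 380) (nat_lit 0) (XT.nd (nat_lit 78) (nat_lit 380) (nat_lit 0) (XT.lf (nat_lit 0) (nat_lit 2960792817) (nat_lit 380) (nat_lit 972248959) (nat_lit 456) (nat_lit 17361541651) (nat_lit 115) (nat_lit 5) (nat_lit 120) (nat_lit 5) (nat_lit 121) (nat_lit 5) (nat_lit 496) (nat_lit 414) (nat_lit 230)) (XT.nd (nat_lit 78) (nat_lit 380) (nat_lit 0) (XT.lf (nat_lit 0) (nat_lit 7429567153) (nat_lit 456) (nat_lit 8644842758) (nat_lit 76) (nat_lit 5507106518) (nat_lit 115) (nat_lit 5) (nat_lit 121) (nat_lit 5) (nat_lit 116) (nat_lit 5) (nat_lit 497) (nat_lit 414) (nat_lit 229)) (XT.lf (nat_lit 0) (nat_lit 1238161289) (nat_lit 380) (nat_lit 9765663878) (nat_lit 456) (nat_lit 10870211303) (nat_lit 110) (nat_lit 5) (nat_lit 115) (nat_lit 5) (nat_lit 116) (nat_lit 5) (nat_lit 498) (nat_lit 414) (nat_lit 228)))) (XT.nd (nat_lit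 156) (nat_lit 380) (nat_lit 0) (XT.nd (nat_lit 78) (nat_lit 0) (nat_lit 0) (XT.lf (nat_lit 0) (nat_lit 11426548450) (nat_lit 380) (nat_lit 3274425240) (nat_lit 456) (nat_lit 7470409450) (nat_lit 110) (nat_lit 5) (nat_lit 115) (nat_lit 5) (nat_lit 116) (nat_lit 5) (nat_lit 499) (nat_lit 414) (nat_lit 227)) (XT.lf (nat_lit 0) (nat_lit 18487299046) (nat_lit 456) (nat_lit 687092193) (nat_lit 76) (nat_lit 3299985077) (nat_lit 110) (nat_lit 5) (nat_lit 116) (nat_lit 5) (nat_lit 111) (nat_lit 5) (nat_lit 500) (nat_lit 414) (nat_lit 226))) (XT.nd (nat_lit 78) (nat_lit 76) (nat_lit 0) (XT.lf (nat_lit 0) (nat_lit 9667707859) (nat_lit 304) (nat_lit 12759729772) (nat_lit 380) (nat_lit 354434156) (nat_lit 106) (nat_lit 5) (nat_lit 110) (nat_lit 5) (nat_lit 111) (nat_lit 5) (nat_lit 501) (nat_lit 414) (nat_lit 225)) (XT.lf (nat_lit 0) (nat_lit 3305208271) (nat_lit 380) (nat_lit 2887527759) (nat_lit 76) (nat_lit 16902384149)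 (nat_lit 105) (nat_lit 5) (nat_lit 110) (nat_lit 5) (nat_lit 106) (nat_lit 5) (nat_lit 502) (nat_lit 414) (nat_lit 224))))) (XT.nd (nat_lit 234) (nat_lit 380) (nat_lit 0) (XT.nd (nat_lit 78) (nat_lit 304) (nat_lit 0) (XT.lf (nat_lit 0) (nat_lit 7080241135) (nat_lit 456) (nat_lit 15784991342) (nat_lit 76) (nat_lit 548419263) (nat_lit 100) (nat_lit 5) (nat_lit 106) (nat_lit 5) (nat_lit 101) (nat_lit 5) (nat_lit 503) (nat_lit 414) (nat_lit 223)) (XT.nd (nat_lit 78) (nat_lit 304) (nat_lit 0) (XT.lf (nat_lit 0) (nat_lit 10985113329) (nat_lit 456) (nat_lit 5394094607) (nat_lit 76) (nat_lit 7358263071) (nat_lit 100) (nat_lit 5) (nat_lit 106) (nat_lit 5) (nat_lit 101) (nat_lit 5) (nat_lit 504) (nat_lit 414) (nat_lit 222)) (XT.lf (nat_lit 0) (nat_lit 5264744693) (nat_lit 304) (nat_lit 9731463646) (nat_lit 380) (nat_lit 9070999587) (nat_lit 96) (nat_lit 5) (nat_lit 100) (nat_lit 5) (nat_lit 101) (nat_lit 5) (nat_lit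 505) (nat_lit 414) (nat_lit 221)))) (XT.nd (nat_lit 156) (nat_lit 76) (nat_lit 0) (XT.nd (nat_lit 78) (nat_lit 304) (nat_lit 0) (XT.lf (nat_lit 0) (nat_lit 16201014417) (nat_lit 304) (nat_lit 2916712410) (nat_lit 380) (nat_lit 5285212424) (nat_lit 96) (nat_lit 5) (nat_lit 100) (nat_lit 5) (nat_lit 101) (nat_lit 5) (nat_lit 506) (nat_lit 414) (nat_lit 220)) (XT.lf (nat_lit 0) (nat_lit 2609865777) (nat_lit 304) (nat_lit 20749052123) (nat_lit 380) (nat_lit 1385726087) (nat_lit 92) (nat_lit 5) (nat_lit 96) (nat_lit 5) (nat_lit 97) (nat_lit 5) (nat_lit 507) (nat_lit 414) (nat_lit 219))) (XT.nd (nat_lit 78) (nat_lit 0) (nat_lit 0) (XT.lf (nat_lit 0) (nat_lit 2626598806) (nat_lit 380) (nat_lit 11388336025) (nat_lit 76) (nat_lit 11076538122) (nat_lit 91) (nat_lit 5) (nat_lit 96) (nat_lit 5) (nat_lit 92) (nat_lit 5) (nat_lit 508) (nat_lit 414) (nat_lit 218)) (XT.lf (nat_lit 0) (nat_lit 6694868345) (nat_lit 380)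 (nat_lit 444786707) (nat_lit 76) (nat_lit 18305518611) (nat_lit 91) (nat_lit 5) (nat_lit 96) (nat_lit 5) (nat_lit 92) (nat_lit 5) (nat_lit 509) (nat_lit 414) (nat_lit 217))))))) (XT.nd (nat_lit 52182) (nat_lit 0) (nat_lit 24092) (XT.nd (nat_lit 546) (nat_lit 608) (nat_lit 0) (XT.nd (nat_lit 234) (nat_lit 304) (nat_lit 0) (XT.nd (nat_lit 78) (nat_lit 304) (nat_lit 0) (XT.lf (nat_lit 0) (nat_lit 10851477463) (nat_lit 304) (nat_lit 57829503) (nat_lit 380) (nat_lit 14895348698) (nat_lit 87) (nat_lit 5) (nat_lit 91) (nat_lit 5) (nat_lit 92) (nat_lit 5) (nat_lit 510) (nat_lit 414) (nat_lit 216)) (XT.nd (nat_lit 78) (nat_lit 304) (nat_lit 0) (XT.lf (nat_lit 0) (nat_lit 15251949429) (nat_lit 380) (nat_lit 3846631604) (nat_lit 76) (nat_lit 7071871256) (nat_lit 87) (nat_lit 5) (nat_lit 92) (nat_lit 5) (nat_lit 88) (nat_lit 5) (nat_lit 511) (nat_lit 414) (nat_lit 215)) (XT.lf (nat_lit 0) (nat_lit 7572630033) (nat_lit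 304) (nat_lit 12152860799) (nat_lit 380) (nat_lit 6817196314) (nat_lit 83) (nat_lit 5) (nat_lit 87) (nat_lit 5) (nat_lit 88) (nat_lit 5) (nat_lit 512) (nat_lit 414) (nat_lit 214)))) (XT.nd (nat_lit 156) (nat_lit 0) (nat_lit 0) (XT.nd (nat_lit 78) (nat_lit 304) (nat_lit 0) (XT.lf (nat_lit 0) (nat_lit 19264124619) (nat_lit 304) (nat_lit 5044742003) (nat_lit 380) (nat_lit 2613095964) (nat_lit 83) (nat_lit 5) (nat_lit 87) (nat_lit 5) (nat_lit 88) (nat_lit 5) (nat_lit 513) (nat_lit 414) (nat_lit 213)) (XT.lf (nat_lit 0) (nat_lit 1687683023) (nat_lit 304) (nat_lit 23409888954) (nat_lit 76) (nat_lit 2210345763) (nat_lit 79) (nat_lit 5) (nat_lit 83) (nat_lit 5) (nat_lit 80) (nat_lit 5) (nat_lit 514) (nat_lit 414) (nat_lit 212))) (XT.nd (nat_lit 78) (nat_lit 0) (nat_lit 0) (XT.lf (nat_lit 0) (nat_lit 6119311566) (nat_lit 304) (nat_lit 11971045346) (nat_lit 76) (nat_lit 9609296144) (nat_lit 79) (nat_lit 5) (nat_lit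 83) (nat_lit 5) (nat_lit 80) (nat_lit 5) (nat_lit 515) (nat_lit 414) (nat_lit 211)) (XT.lf (nat_lit 0) (nat_lit 10634330810) (nat_lit 304) (nat_lit 311506746) (nat_lit 76) (nat_lit 17153493276) (nat_lit 79) (nat_lit 5) (nat_lit 83) (nat_lit 5) (nat_lit 80) (nat_lit 5) (nat_lit 516) (nat_lit 414) (nat_lit 210))))) (XT.nd (nat_lit 234) (nat_lit 76) (nat_lit 0) (XT.nd (nat_lit 78) (nat_lit 228) (nat_lit 0) (XT.lf (nat_lit 0) (nat_lit 11727102269) (nat_lit 304) (nat_lit 3583549210) (nat_lit 380) (nat_lit 13194933523) (nat_lit 75) (nat_lit 5) (nat_lit 79) (nat_lit 5) (nat_lit 80) (nat_lit 5) (nat_lit 517) (nat_lit 414) (nat_lit 209)) (XT.nd (nat_lit 78) (nat_lit 228) (nat_lit 0) (XT.lf (nat_lit 0) (nat_lit 20102985389) (nat_lit 380) (nat_lit 4942678186) (nat_lit 76) (nat_lit 3873853748) (nat_lit 75) (nat_lit 5) (nat_lit 80) (nat_lit 5) (nat_lit 76) (nat_lit 5) (nat_lit 518) (nat_lit 414) (nat_lit 208)) (XT.lf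 (nat_lit 0) (nat_lit 7192641344) (nat_lit 228) (nat_lit 17863948805) (nat_lit 304) (nat_lit 4283832408) (nat_lit 72) (nat_lit 5) (nat_lit 75) (nat_lit 5) (nat_lit 76) (nat_lit 5) (nat_lit 519) (nat_lit 414) (nat_lit 207)))) (XT.nd (nat_lit 51246) (nat_lit 0) (nat_lit 26752) (XT.nd (nat_lit 51168) (nat_lit 0) (nat_lit 26752) (XT.lf (nat_lit 0) (nat_lit 363460872) (nat_lit 304) (nat_lit 10141659494) (nat_lit 76) (nat_lit 19264016229) (nat_lit 71) (nat_lit 5) (nat_lit 75) (nat_lit 5) (nat_lit 72) (nat_lit 5) (nat_lit 520) (nat_lit 414) (nat_lit 206)) (XT.lf (nat_lit 0) (nat_lit 3078817408) (nat_lit 1444) (nat_lit 669771917) (nat_lit 1444) (nat_lit 669771917) (nat_lit 423) (nat_lit 3) (nat_lit 442) (nat_lit 3) (nat_lit 442) (nat_lit 5) (nat_lit 415) (nat_lit 415) (nat_lit 310))) (XT.nd (nat_lit 78) (nat_lit 0) (nat_lit 0) (XT.lf (nat_lit 76) (nat_lit 2634518435) (nat_lit 0) (nat_lit 4482964635) (nat_lit 1444)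 (nat_lit 1788619409) (nat_lit 424) (nat_lit 5) (nat_lit 423) (nat_lit 3) (nat_lit 442) (nat_lit 5) (nat_lit 416) (nat_lit 415) (nat_lit 309)) (XT.lf (nat_lit 76) (nat_lit 6694261793) (nat_lit 0) (nat_lit 1388064575) (nat_lit 1444) (nat_lit 894854540) (nat_lit 424) (nat_lit 5) (nat_lit 423) (nat_lit 3) (nat_lit 442) (nat_lit 5) (nat_lit 417) (nat_lit 415) (nat_lit 308)))))) (XT.nd (nat_lit 546) (nat_lit 1292) (nat_lit 0) (XT.nd (nat_lit 234) (nat_lit 0) (nat_lit 76) (XT.nd (nat_lit 78) (nat_lit 0) (nat_lit 0) (XT.lf (nat_lit 0) (nat_lit 16951833) (nat_lit 1444) (nat_lit 7264638409) (nat_lit 1520) (nat_lit 1768106521) (nat_lit 405) (nat_lit 5) (nat_lit 424) (nat_lit 5) (nat_lit 425) (nat_lit 5) (nat_lit 418) (nat_lit 415) (nat_lit 307)) (XT.nd (nat_lit 78) (nat_lit 0) (nat_lit 0) (XT.lf (nat_lit 0) (nat_lit 937164345) (nat_lit 1444) (nat_lit 3185754922) (nat_lit 1520) (nat_lit 5000607581) (nat_lit 405)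 (nat_lit 5) (nat_lit 424) (nat_lit 5) (nat_lit 425) (nat_lit 5) (nat_lit 419) (nat_lit 415) (nat_lit 306)) (XT.lf (nat_lit 76) (nat_lit 975222727) (nat_lit 0) (nat_lit 884858199) (nat_lit 1520) (nat_lit 7339091374) (nat_lit 406) (nat_lit 5) (nat_lit 405) (nat_lit 5) (nat_lit 425) (nat_lit 5) (nat_lit 420) (nat_lit 415) (nat_lit 305)))) (XT.nd (nat_lit 156) (nat_lit 0) (nat_lit 0) (XT.nd (nat_lit 78) (nat_lit 0) (nat_lit 0) (XT.lf (nat_lit 0) (nat_lit 2817056988) (nat_lit 1444) (nat_lit 4041852454) (nat_lit 1520) (nat_lit 2417133472) (nat_lit 406) (nat_lit 5) (nat_lit 425) (nat_lit 5) (nat_lit 426) (nat_lit 5) (nat_lit 421) (nat_lit 415) (nat_lit 304)) (XT.lf (nat_lit 76) (nat_lit 208295286) (nat_lit 0) (nat_lit 3570895989) (nat_lit 1520) (nat_lit 5575563090) (nat_lit 407) (nat_lit 5) (nat_lit 406) (nat_lit 5) (nat_lit 426) (nat_lit 5) (nat_lit 422) (nat_lit 415) (nat_lit 303))) (XT.nd (nat_lit 78) (nat_lit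 0) (nat_lit 76) (XT.lf (nat_lit 76) (nat_lit 4585853185) (nat_lit 0) (nat_lit 180979520) (nat_lit 1520) (nat_lit 4668105383) (nat_lit 407) (nat_lit 5) (nat_lit 406) (nat_lit 5) (nat_lit 426) (nat_lit 5) (nat_lit 423) (nat_lit 415) (nat_lit 302)) (XT.lf (nat_lit 0) (nat_lit 5775106157) (nat_lit 1444) (nat_lit 499662212) (nat_lit 1520) (nat_lit 3241962409) (nat_lit 407) (nat_lit 5) (nat_lit 426) (nat_lit 5) (nat_lit 427) (nat_lit 5) (nat_lit 424) (nat_lit 415) (nat_lit 301))))) (XT.nd (nat_lit 234) (nat_lit 1444) (nat_lit 0) (XT.nd (nat_lit 78) (nat_lit 0) (nat_lit 76) (XT.lf (nat_lit 76) (nat_lit 3975310612) (nat_lit 0) (nat_lit 2835247722) (nat_lit 1520) (nat_lit 2789483149) (nat_lit 408) (nat_lit 5) (nat_lit 407) (nat_lit 5) (nat_lit 427) (nat_lit 5) (nat_lit 425) (nat_lit 415) (nat_lit 300)) (XT.nd (nat_lit 78) (nat_lit 0) (nat_lit 0) (XT.lf (nat_lit 0) (nat_lit 7854829308) (nat_lit 1444) (nat_lit 1155546468)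 (nat_lit 1520) (nat_lit 674902419) (nat_lit 408) (nat_lit 5) (nat_lit 427) (nat_lit 5) (nat_lit 428) (nat_lit 5) (nat_lit 426) (nat_lit 415) (nat_lit 299)) (XT.lf (nat_lit 76) (nat_lit 3416545033) (nat_lit 0) (nat_lit 5525149202) (nat_lit 1520) (nat_lit 830112790) (nat_lit 409) (nat_lit 5) (nat_lit 408) (nat_lit 5) (nat_lit 428) (nat_lit 5) (nat_lit 427) (nat_lit 415) (nat_lit 298)))) (XT.nd (nat_lit 156) (nat_lit 0) (nat_lit 76) (XT.nd (nat_lit 78) (nat_lit 0) (nat_lit 76) (XT.lf (nat_lit 0) (nat_lit 176440791) (nat_lit 1520) (nat_lit 1778156669) (nat_lit 1596) (nat_lit 7905690876) (nat_lit 388) (nat_lit 5) (nat_lit 408) (nat_lit 5) (nat_lit 409) (nat_lit 5) (nat_lit 428) (nat_lit 415) (nat_lit 297)) (XT.lf (nat_lit 0) (nat_lit 1203351208) (nat_lit 1520) (nat_lit 7050888016) (nat_lit 1596) (nat_lit 1695983802) (nat_lit 389) (nat_lit 5) (nat_lit 409) (nat_lit 5) (nat_lit 410) (nat_lit 5) (nat_lit 429)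 (nat_lit 415) (nat_lit 296))) (XT.nd (nat_lit 78) (nat_lit 0) (nat_lit 0) (XT.lf (nat_lit 0) (nat_lit 2257356326) (nat_lit 1520) (nat_lit 2373059334) (nat_lit 1596) (nat_lit 5411429533) (nat_lit 389) (nat_lit 5) (nat_lit 409) (nat_lit 5) (nat_lit 410) (nat_lit 5) (nat_lit 430) (nat_lit 415) (nat_lit 295)) (XT.lf (nat_lit 76) (nat_lit 2417484506) (nat_lit 0) (nat_lit 912614472) (nat_lit 1596) (nat_lit 6805267200) (nat_lit 390) (nat_lit 5) (nat_lit 389) (nat_lit 5) (nat_lit 410) (nat_lit 5) (nat_lit 431) (nat_lit 415) (nat_lit 294))))))))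
noncomputable def xc184 : XT := (XT.nd (nat_lit 2106) (nat_lit 7828) (nat_lit 0) (XT.nd (nat_lit 1014) (nat_lit 5776) (nat_lit 0) (XT.nd (nat_lit 468) (nat_lit 4636) (nat_lit 0) (XT.nd (nat_lit 234) (nat_lit 0) (nat_lit 76) (XT.nd (nat_lit 78) (nat_lit 0) (nat_lit 0) (XT.lf (nat_lit 0) (nat_lit 4441291029) (nat_lit 1520) (nat_lit 2926107274) (nat_lit 1596) (nat_lit 2863038532) (nat_lit 390) (nat_lit 5) (nat_lit 410) (nat_lit 5) (nat_lit 411) (nat_lit 5) (nat_lit 432) (nat_lit 415) (nat_lit 293)) (XT.nd (nat_lit 78) (nat_lit 0) (nat_lit 76) (XT.lf (nat_lit 76) (nat_lit 1968657035) (nat_lit 0) (nat_lit 3607491893) (nat_lit 1596) (nat_lit 4751249901) (nat_lit 391) (nat_lit 5) (nat_lit 390) (nat_lit 5) (nat_lit 411) (nat_lit 5) (nat_lit 433) (nat_lit 415) (nat_lit 292)) (XT.lf (nat_lit 0) (nat_lit 6737853161) (nat_lit 1520) (nat_lit 3439463102) (nat_lit 1596) (nat_lit 248919215) (nat_lit 391) (nat_lit 5)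 (nat_lit 411) (nat_lit 5) (nat_lit 412) (nat_lit 5) (nat_lit 434) (nat_lit 415) (nat_lit 291)))) (XT.nd (nat_lit 78) (nat_lit 0) (nat_lit 0) (XT.lf (nat_lit 76) (nat_lit 1562122826) (nat_lit 0) (nat_lit 6377942451) (nat_lit 1596) (nat_lit 2586656143) (nat_lit 392) (nat_lit 5) (nat_lit 391) (nat_lit 5) (nat_lit 412) (nat_lit 5) (nat_lit 435) (nat_lit 415) (nat_lit 290)) (XT.nd (nat_lit 78) (nat_lit 0) (nat_lit 76) (XT.lf (nat_lit 76) (nat_lit 6697771507) (nat_lit 0) (nat_lit 2475118384) (nat_lit 1596) (nat_lit 1456213510) (nat_lit 392) (nat_lit 5) (nat_lit 391) (nat_lit 5) (nat_lit 412) (nat_lit 5) (nat_lit 436) (nat_lit 415) (nat_lit 289)) (XT.lf (nat_lit 76) (nat_lit 1195795850) (nat_lit 0) (nat_lit 9235951826) (nat_lit 1596) (nat_lit 301775148) (nat_lit 393) (nat_lit 5) (nat_lit 392) (nat_lit 5) (nat_lit 413) (nat_lit 5) (nat_lit 437) (nat_lit 415) (nat_lit 288))))) (XT.nd (nat_lit 234) (nat_lit 3192)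 (nat_lit 0) (XT.nd (nat_lit 78) (nat_lit 0) (nat_lit 0) (XT.lf (nat_lit 0) (nat_lit 891162926) (nat_lit 1596) (nat_lit 4395856115) (nat_lit 1672) (nat_lit 5552376606) (nat_lit 371) (nat_lit 5) (nat_lit 392) (nat_lit 5) (nat_lit 393) (nat_lit 5) (nat_lit 438) (nat_lit 415) (nat_lit 287)) (XT.nd (nat_lit 78) (nat_lit 0) (nat_lit 76) (XT.lf (nat_lit 76) (nat_lit 845335169) (nat_lit 0) (nat_lit 1248339862) (nat_lit 1672) (nat_lit 8853892217) (nat_lit 372) (nat_lit 5) (nat_lit 371) (nat_lit 5) (nat_lit 393) (nat_lit 5) (nat_lit 439) (nat_lit 415) (nat_lit 286)) (XT.lf (nat_lit 0) (nat_lit 3353082837) (nat_lit 1596) (nat_lit 4838079432) (nat_lit 76) (nat_lit 2866099119) (nat_lit 372) (nat_lit 5) (nat_lit 393) (nat_lit 5) (nat_lit 373) (nat_lit 5) (nat_lit 440) (nat_lit 415) (nat_lit 285)))) (XT.nd (nat_lit 156) (nat_lit 1672) (nat_lit 0) (XT.nd (nat_lit 78) (nat_lit 0) (nat_lit 0) (XT.lf (nat_lit 0) (nat_lit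 517257490) (nat_lit 1596) (nat_lit 4116860982) (nat_lit 1672) (nat_lit 6535117848) (nat_lit 351) (nat_lit 5) (nat_lit 372) (nat_lit 5) (nat_lit 373) (nat_lit 5) (nat_lit 441) (nat_lit 415) (nat_lit 284)) (XT.lf (nat_lit 0) (nat_lit 5958754981) (nat_lit 1672) (nat_lit 5250849741) (nat_lit 76) (nat_lit 73501820) (nat_lit 351) (nat_lit 5) (nat_lit 373) (nat_lit 5) (nat_lit 352) (nat_lit 5) (nat_lit 442) (nat_lit 415) (nat_lit 283))) (XT.nd (nat_lit 78) (nat_lit 0) (nat_lit 0) (XT.lf (nat_lit 0) (nat_lit 221329789) (nat_lit 1672) (nat_lit 7102594997) (nat_lit 1748) (nat_lit 4075063664) (nat_lit 329) (nat_lit 5) (nat_lit 351) (nat_lit 5) (nat_lit 352) (nat_lit 5) (nat_lit 443) (nat_lit 415) (nat_lit 282)) (XT.lf (nat_lit 0) (nat_lit 5861601586) (nat_lit 1672) (nat_lit 2875578053) (nat_lit 1748) (nat_lit 2779607521) (nat_lit 329) (nat_lit 5) (nat_lit 351) (nat_lit 5) (nat_lit 352) (nat_lit 5) (nat_lit 444)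 (nat_lit 415) (nat_lit 281)))))) (XT.nd (nat_lit 546) (nat_lit 3040) (nat_lit 0) (XT.nd (nat_lit 234) (nat_lit 1672) (nat_lit 0) (XT.nd (nat_lit 78) (nat_lit 1064) (nat_lit 0) (XT.lf (nat_lit 0) (nat_lit 10173864284) (nat_lit 1748) (nat_lit 44178869) (nat_lit 76) (nat_lit 1419009902) (nat_lit 329) (nat_lit 5) (nat_lit 352) (nat_lit 5) (nat_lit 330) (nat_lit 5) (nat_lit 445) (nat_lit 415) (nat_lit 280)) (XT.nd (nat_lit 78) (nat_lit 76) (nat_lit 0) (XT.lf (nat_lit 0) (nat_lit 5722713218) (nat_lit 988) (nat_lit 5958887604) (nat_lit 1064) (nat_lit 77291306) (nat_lit 316) (nat_lit 5) (nat_lit 329) (nat_lit 5) (nat_lit 330) (nat_lit 5) (nat_lit 446) (nat_lit 415) (nat_lit 279)) (XT.lf (nat_lit 0) (nat_lit 1305303526) (nat_lit 1064) (nat_lit 298759665) (nat_lit 76) (nat_lit 10279214822) (nat_lit 315) (nat_lit 5) (nat_lit 329) (nat_lit 5) (nat_lit 316) (nat_lit 5) (nat_lit 447) (nat_lit 415) (nat_lit 278))))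 (XT.nd (nat_lit 156) (nat_lit 836) (nat_lit 0) (XT.nd (nat_lit 78) (nat_lit 0) (nat_lit 0) (XT.lf (nat_lit 0) (nat_lit 2756124222) (nat_lit 912) (nat_lit 6414062919) (nat_lit 76) (nat_lit 2839135482) (nat_lit 304) (nat_lit 5) (nat_lit 316) (nat_lit 5) (nat_lit 305) (nat_lit 5) (nat_lit 448) (nat_lit 415) (nat_lit 277)) (XT.lf (nat_lit 0) (nat_lit 4235274083) (nat_lit 912) (nat_lit 549699296) (nat_lit 76) (nat_lit 7352941630) (nat_lit 304) (nat_lit 5) (nat_lit 316) (nat_lit 5) (nat_lit 305) (nat_lit 5) (nat_lit 449) (nat_lit 415) (nat_lit 276))) (XT.nd (nat_lit 78) (nat_lit 0) (nat_lit 0) (XT.lf (nat_lit 0) (nat_lit 5491796831) (nat_lit 836) (nat_lit 274799542) (nat_lit 912) (nat_lit 6502043963) (nat_lit 293) (nat_lit 5) (nat_lit 304) (nat_lit 5) (nat_lit 305) (nat_lit 5) (nat_lit 450) (nat_lit 415) (nat_lit 275)) (XT.lf (nat_lit 0) (nat_lit 7347458645) (nat_lit 912) (nat_lit 780817214) (nat_lit 76) (nat_lit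 4273338669) (nat_lit 293) (nat_lit 5) (nat_lit 305) (nat_lit 5) (nat_lit 294) (nat_lit 5) (nat_lit 451) (nat_lit 415) (nat_lit 274))))) (XT.nd (nat_lit 234) (nat_lit 1520) (nat_lit 0) (XT.nd (nat_lit 78) (nat_lit 760) (nat_lit 0) (XT.lf (nat_lit 0) (nat_lit 5391891969) (nat_lit 760) (nat_lit 3592242243) (nat_lit 836) (nat_lit 3552642451) (nat_lit 283) (nat_lit 5) (nat_lit 293) (nat_lit 5) (nat_lit 294) (nat_lit 5) (nat_lit 452) (nat_lit 415) (nat_lit 273)) (XT.nd (nat_lit 78) (nat_lit 760) (nat_lit 0) (XT.lf (nat_lit 0) (nat_lit 10653074941) (nat_lit 836) (nat_lit 994966777) (nat_lit 76) (nat_lit 1026621828) (nat_lit 283) (nat_lit 5) (nat_lit 294) (nat_lit 5) (nat_lit 284) (nat_lit 5) (nat_lit 453) (nat_lit 415) (nat_lit 272)) (XT.lf (nat_lit 0) (nat_lit 5311748257) (nat_lit 760) (nat_lit 7089708122) (nat_lit 836) (nat_lit 412942450) (nat_lit 273) (nat_lit 5) (nat_lit 283) (nat_lit 5) (nat_lit 284) (nat_lit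 5) (nat_lit 454) (nat_lit 415) (nat_lit 271)))) (XT.nd (nat_lit 156) (nat_lit 760) (nat_lit 0) (XT.nd (nat_lit 78) (nat_lit 684) (nat_lit 0) (XT.lf (nat_lit 0) (nat_lit 1206348878) (nat_lit 836) (nat_lit 1218896539) (nat_lit 76) (nat_lit 10531643875) (nat_lit 272) (nat_lit 5) (nat_lit 283) (nat_lit 5) (nat_lit 273) (nat_lit 5) (nat_lit 455) (nat_lit 415) (nat_lit 270)) (XT.lf (nat_lit 0) (nat_lit 2890034540) (nat_lit 760) (nat_lit 7872479284) (nat_lit 76) (nat_lit 2338921606) (nat_lit 263) (nat_lit 5) (nat_lit 273) (nat_lit 5) (nat_lit 264) (nat_lit 5) (nat_lit 456) (nat_lit 415) (nat_lit 269))) (XT.nd (nat_lit 78) (nat_lit 760) (nat_lit 0) (XT.lf (nat_lit 0) (nat_lit 4619937839) (nat_lit 760) (nat_lit 1454633654) (nat_lit 76) (nat_lit 7174061114) (nat_lit 263) (nat_lit 5) (nat_lit 273) (nat_lit 5) (nat_lit 264) (nat_lit 5) (nat_lit 457) (nat_lit 415) (nat_lit 268)) (XT.lf (nat_lit 0) (nat_lit 5147215043)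 (nat_lit 760) (nat_lit 1259122794) (nat_lit 836) (nat_lit 6992008696) (nat_lit 253) (nat_lit 5) (nat_lit 263) (nat_lit 5) (nat_lit 264) (nat_lit 5) (nat_lit 458) (nat_lit 415) (nat_lit 267))))))) (XT.nd (nat_lit 1014) (nat_lit 3800) (nat_lit 0) (XT.nd (nat_lit 468) (nat_lit 1976) (nat_lit 0) (XT.nd (nat_lit 234) (nat_lit 1368) (nat_lit 0) (XT.nd (nat_lit 78) (nat_lit 684) (nat_lit 0) (XT.lf (nat_lit 0) (nat_lit 8250633387) (nat_lit 836) (nat_lit 1685838612) (nat_lit 76) (nat_lit 3614149955) (nat_lit 253) (nat_lit 5) (nat_lit 264) (nat_lit 5) (nat_lit 254) (nat_lit 5) (nat_lit 459) (nat_lit 415) (nat_lit 266)) (XT.nd (nat_lit 78) (nat_lit 0) (nat_lit 0) (XT.lf (nat_lit 0) (nat_lit 5056962392) (nat_lit 684) (nat_lit 5104873407) (nat_lit 760) (nat_lit 3543517025) (nat_lit 244) (nat_lit 5) (nat_lit 253) (nat_lit 5) (nat_lit 254) (nat_lit 5) (nat_lit 460) (nat_lit 415) (nat_lit 265)) (XT.lf (nat_lit 0) (nat_lit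 11945766776) (nat_lit 684) (nat_lit 165800234) (nat_lit 760) (nat_lit 1751615365) (nat_lit 244) (nat_lit 5) (nat_lit 253) (nat_lit 5) (nat_lit 254) (nat_lit 5) (nat_lit 461) (nat_lit 415) (nat_lit 264)))) (XT.nd (nat_lit 78) (nat_lit 608) (nat_lit 0) (XT.lf (nat_lit 0) (nat_lit 128572455) (nat_lit 760) (nat_lit 9053929754) (nat_lit 76) (nat_lit 4840597253) (nat_lit 234) (nat_lit 5) (nat_lit 244) (nat_lit 5) (nat_lit 235) (nat_lit 5) (nat_lit 462) (nat_lit 415) (nat_lit 263)) (XT.nd (nat_lit 78) (nat_lit 608) (nat_lit 0) (XT.lf (nat_lit 0) (nat_lit 2026241242) (nat_lit 760) (nat_lit 2191034939) (nat_lit 76) (nat_lit 9968650091) (nat_lit 234) (nat_lit 5) (nat_lit 244) (nat_lit 5) (nat_lit 235) (nat_lit 5) (nat_lit 463) (nat_lit 415) (nat_lit 262)) (XT.lf (nat_lit 0) (nat_lit 3988599732) (nat_lit 684) (nat_lit 9495967736) (nat_lit 76) (nat_lit 866916807) (nat_lit 226) (nat_lit 5) (nat_lit 235) (nat_lit 5)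 (nat_lit 227) (nat_lit 5) (nat_lit 464) (nat_lit 415) (nat_lit 261))))) (XT.nd (nat_lit 234) (nat_lit 1292) (nat_lit 0) (XT.nd (nat_lit 78) (nat_lit 684) (nat_lit 0) (XT.lf (nat_lit 0) (nat_lit 6022529770) (nat_lit 684) (nat_lit 2487061963) (nat_lit 76) (nat_lit 6010124418) (nat_lit 226) (nat_lit 5) (nat_lit 235) (nat_lit 5) (nat_lit 227) (nat_lit 5) (nat_lit 465) (nat_lit 415) (nat_lit 260)) (XT.nd (nat_lit 78) (nat_lit 0) (nat_lit 0) (XT.lf (nat_lit 0) (nat_lit 4712379217) (nat_lit 684) (nat_lit 3405154129) (nat_lit 760) (nat_lit 6573380438) (nat_lit 217) (nat_lit 5) (nat_lit 226) (nat_lit 5) (nat_lit 227) (nat_lit 5) (nat_lit 466) (nat_lit 415) (nat_lit 259)) (XT.lf (nat_lit 0) (nat_lit 10272849539) (nat_lit 760) (nat_lit 2799058833) (nat_lit 76) (nat_lit 1793267589) (nat_lit 217) (nat_lit 5) (nat_lit 227) (nat_lit 5) (nat_lit 218) (nat_lit 5) (nat_lit 467) (nat_lit 415) (nat_lit 258)))) (XT.nd (nat_lit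 156) (nat_lit 684) (nat_lit 0) (XT.nd (nat_lit 78) (nat_lit 0) (nat_lit 0) (XT.lf (nat_lit 0) (nat_lit 4549780817) (nat_lit 608) (nat_lit 7963696652) (nat_lit 684) (nat_lit 2528610473) (nat_lit 209) (nat_lit 5) (nat_lit 217) (nat_lit 5) (nat_lit 218) (nat_lit 5) (nat_lit 468) (nat_lit 415) (nat_lit 257)) (XT.lf (nat_lit 0) (nat_lit 12072267783) (nat_lit 608) (nat_lit 2735668513) (nat_lit 684) (nat_lit 414429998) (nat_lit 209) (nat_lit 5) (nat_lit 217) (nat_lit 5) (nat_lit 218) (nat_lit 5) (nat_lit 469) (nat_lit 415) (nat_lit 256))) (XT.nd (nat_lit 78) (nat_lit 0) (nat_lit 0) (XT.lf (nat_lit 0) (nat_lit 1755053649) (nat_lit 684) (nat_lit 11048950522) (nat_lit 76) (nat_lit 2601310669) (nat_lit 200) (nat_lit 5) (nat_lit 209) (nat_lit 5) (nat_lit 201) (nat_lit 5) (nat_lit 470) (nat_lit 415) (nat_lit 255)) (XT.lf (nat_lit 0) (nat_lit 3992240457) (nat_lit 684) (nat_lit 3568145806) (nat_lit 76) (nat_lit 8030892062)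 (nat_lit 200) (nat_lit 5) (nat_lit 209) (nat_lit 5) (nat_lit 201) (nat_lit 5) (nat_lit 471) (nat_lit 415) (nat_lit 254)))))) (XT.nd (nat_lit 546) (nat_lit 1520) (nat_lit 0) (XT.nd (nat_lit 234) (nat_lit 1140) (nat_lit 0) (XT.nd (nat_lit 78) (nat_lit 608) (nat_lit 0) (XT.lf (nat_lit 0) (nat_lit 4105033380) (nat_lit 532) (nat_lit 2186438941) (nat_lit 608) (nat_lit 9489150583) (nat_lit 193) (nat_lit 5) (nat_lit 200) (nat_lit 5) (nat_lit 201) (nat_lit 5) (nat_lit 472) (nat_lit 415) (nat_lit 253)) (XT.nd (nat_lit 78) (nat_lit 608) (nat_lit 0) (XT.lf (nat_lit 0) (nat_lit 8672933913) (nat_lit 608) (nat_lit 4025971990) (nat_lit 76) (nat_lit 3274131268) (nat_lit 193) (nat_lit 5) (nat_lit 201) (nat_lit 5) (nat_lit 194) (nat_lit 5) (nat_lit 473) (nat_lit 415) (nat_lit 252)) (XT.lf (nat_lit 0) (nat_lit 3801040883) (nat_lit 608) (nat_lit 7331072987) (nat_lit 684) (nat_lit 5036591617) (nat_lit 185) (nat_lit 5) (nat_lit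 193) (nat_lit 5) (nat_lit 194) (nat_lit 5) (nat_lit 474) (nat_lit 415) (nat_lit 251)))) (XT.nd (nat_lit 156) (nat_lit 608) (nat_lit 0) (XT.nd (nat_lit 78) (nat_lit 532) (nat_lit 0) (XT.lf (nat_lit 0) (nat_lit 11828270668) (nat_lit 608) (nat_lit 1830260763) (nat_lit 684) (nat_lit 2709402056) (nat_lit 185) (nat_lit 5) (nat_lit 193) (nat_lit 5) (nat_lit 194) (nat_lit 5) (nat_lit 475) (nat_lit 415) (nat_lit 250)) (XT.lf (nat_lit 0) (nat_lit 3454810025) (nat_lit 532) (nat_lit 12818845227) (nat_lit 608) (nat_lit 296734493) (nat_lit 178) (nat_lit 5) (nat_lit 185) (nat_lit 5) (nat_lit 186) (nat_lit 5) (nat_lit 476) (nat_lit 415) (nat_lit 249))) (XT.nd (nat_lit 78) (nat_lit 532) (nat_lit 0) (XT.lf (nat_lit 0) (nat_lit 2169827881) (nat_lit 608) (nat_lit 5142856687) (nat_lit 76) (nat_lit 9463256001) (nat_lit 177) (nat_lit 5) (nat_lit 185) (nat_lit 5) (nat_lit 178) (nat_lit 5) (nat_lit 477) (nat_lit 415) (nat_lit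 248)) (XT.lf (nat_lit 0) (nat_lit 3016222335) (nat_lit 532) (nat_lit 1676523659) (nat_lit 608) (nat_lit 12292604068) (nat_lit 170) (nat_lit 5) (nat_lit 177) (nat_lit 5) (nat_lit 178) (nat_lit 5) (nat_lit 478) (nat_lit 415) (nat_lit 247))))) (XT.nd (nat_lit 234) (nat_lit 1064) (nat_lit 0) (XT.nd (nat_lit 78) (nat_lit 456) (nat_lit 0) (XT.lf (nat_lit 0) (nat_lit 7318799113) (nat_lit 608) (nat_lit 5827514779) (nat_lit 76) (nat_lit 4051587019) (nat_lit 170) (nat_lit 5) (nat_lit 178) (nat_lit 5) (nat_lit 171) (nat_lit 5) (nat_lit 479) (nat_lit 415) (nat_lit 246)) (XT.nd (nat_lit 78) (nat_lit 0) (nat_lit 0) (XT.lf (nat_lit 0) (nat_lit 2487884160) (nat_lit 456) (nat_lit 7528408025) (nat_lit 532) (nat_lit 7398038786) (nat_lit 164) (nat_lit 5) (nat_lit 170) (nat_lit 5) (nat_lit 171) (nat_lit 5) (nat_lit 480) (nat_lit 415) (nat_lit 245)) (XT.lf (nat_lit 0) (nat_lit 11038081623) (nat_lit 456) (nat_lit 1760517554)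 (nat_lit 532) (nat_lit 4835879614) (nat_lit 164) (nat_lit 5) (nat_lit 170) (nat_lit 5) (nat_lit 171) (nat_lit 5) (nat_lit 481) (nat_lit 415) (nat_lit 244)))) (XT.nd (nat_lit 156) (nat_lit 456) (nat_lit 0) (XT.nd (nat_lit 78) (nat_lit 76) (nat_lit 0) (XT.lf (nat_lit 0) (nat_lit 1887794191) (nat_lit 532) (nat_lit 13779688006) (nat_lit 608) (nat_lit 2190935087) (nat_lit 157) (nat_lit 5) (nat_lit 164) (nat_lit 5) (nat_lit 165) (nat_lit 5) (nat_lit 482) (nat_lit 415) (nat_lit 243)) (XT.lf (nat_lit 0) (nat_lit 548415408) (nat_lit 608) (nat_lit 7480602346) (nat_lit 76) (nat_lit 10056793934) (nat_lit 156) (nat_lit 5) (nat_lit 164) (nat_lit 5) (nat_lit 157) (nat_lit 5) (nat_lit 483) (nat_lit 415) (nat_lit 242))) (XT.nd (nat_lit 78) (nat_lit 0) (nat_lit 0) (XT.lf (nat_lit 0) (nat_lit 1169761739) (nat_lit 456) (nat_lit 2143172702) (nat_lit 532) (nat_lit 15004541486) (nat_lit 150) (nat_lit 5) (nat_lit 156) (nat_lit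 5) (nat_lit 157) (nat_lit 5) (nat_lit 484) (nat_lit 415) (nat_lit 241)) (XT.lf (nat_lit 0) (nat_lit 6200508135) (nat_lit 532) (nat_lit 8493999523) (nat_lit 76) (nat_lit 3857916339) (nat_lit 150) (nat_lit 5) (nat_lit 157) (nat_lit 5) (nat_lit 151) (nat_lit 5) (nat_lit 485) (nat_lit 415) (nat_lit 240))))))))
noncomputable def xc185 : XT := (XT.nd (nat_lit 2106) (nat_lit 912) (nat_lit 0) (XT.nd (nat_lit 1014) (nat_lit 2128) (nat_lit 0) (XT.nd (nat_lit 468) (nat_lit 1216) (nat_lit 0) (XT.nd (nat_lit 234) (nat_lit 988) (nat_lit 0) (XT.nd (nat_lit 78) (nat_lit 0) (nat_lit 0) (XT.lf (nat_lit 0) (nat_lit 312530386) (nat_lit 456) (nat_lit 8841847673) (nat_lit 532) (nat_lit 9637527796) (nat_lit 144) (nat_lit 5) (nat_lit 150) (nat_lit 5) (nat_lit 151) (nat_lit 5) (nat_lit 486) (nat_lit 415) (nat_lit 239)) (XT.nd (nat_lit 78) (nat_lit 0) (nat_lit 0) (XT.lf (nat_lit 0) (nat_lit 9400231422) (nat_lit 456) (nat_lit 2816500549)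 (nat_lit 532) (nat_lit 6818462853) (nat_lit 144) (nat_lit 5) (nat_lit 150) (nat_lit 5) (nat_lit 151) (nat_lit 5) (nat_lit 487) (nat_lit 415) (nat_lit 238)) (XT.lf (nat_lit 0) (nat_lit 15354489645) (nat_lit 532) (nat_lit 645317765) (nat_lit 76) (nat_lit 3283264527) (nat_lit 144) (nat_lit 5) (nat_lit 151) (nat_lit 5) (nat_lit 145) (nat_lit 5) (nat_lit 488) (nat_lit 415) (nat_lit 237)))) (XT.nd (nat_lit 78) (nat_lit 532) (nat_lit 0) (XT.lf (nat_lit 0) (nat_lit 8608529405) (nat_lit 456) (nat_lit 10013704250) (nat_lit 532) (nat_lit 912333702) (nat_lit 138) (nat_lit 5) (nat_lit 144) (nat_lit 5) (nat_lit 145) (nat_lit 5) (nat_lit 489) (nat_lit 415) (nat_lit 236)) (XT.nd (nat_lit 78) (nat_lit 456) (nat_lit 0) (XT.lf (nat_lit 0) (nat_lit 2132927948) (nat_lit 532) (nat_lit 1758764204) (nat_lit 76) (nat_lit 15899183232) (nat_lit 137) (nat_lit 5) (nat_lit 144) (nat_lit 5) (nat_lit 138) (nat_lit 5) (nat_lit 490) (nat_lit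 415) (nat_lit 235)) (XT.lf (nat_lit 0) (nat_lit 5285218589) (nat_lit 532) (nat_lit 12390158315) (nat_lit 76) (nat_lit 2375650337) (nat_lit 131) (nat_lit 5) (nat_lit 138) (nat_lit 5) (nat_lit 132) (nat_lit 5) (nat_lit 491) (nat_lit 415) (nat_lit 234))))) (XT.nd (nat_lit 234) (nat_lit 836) (nat_lit 0) (XT.nd (nat_lit 78) (nat_lit 380) (nat_lit 0) (XT.lf (nat_lit 0) (nat_lit 8531125506) (nat_lit 532) (nat_lit 3059012847) (nat_lit 76) (nat_lit 8725637350) (nat_lit 131) (nat_lit 5) (nat_lit 138) (nat_lit 5) (nat_lit 132) (nat_lit 5) (nat_lit 492) (nat_lit 415) (nat_lit 233)) (XT.nd (nat_lit 78) (nat_lit 0) (nat_lit 0) (XT.lf (nat_lit 0) (nat_lit 6534902110) (nat_lit 380) (nat_lit 5342533523) (nat_lit 456) (nat_lit 8707678685) (nat_lit 126) (nat_lit 5) (nat_lit 131) (nat_lit 5) (nat_lit 132) (nat_lit 5) (nat_lit 493) (nat_lit 415) (nat_lit 232)) (XT.lf (nat_lit 0) (nat_lit 15311136673) (nat_lit 456) (nat_lit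 4513713655) (nat_lit 76) (nat_lit 1034584867) (nat_lit 126) (nat_lit 5) (nat_lit 132) (nat_lit 5) (nat_lit 127) (nat_lit 5) (nat_lit 494) (nat_lit 415) (nat_lit 231)))) (XT.nd (nat_lit 156) (nat_lit 380) (nat_lit 0) (XT.nd (nat_lit 78) (nat_lit 76) (nat_lit 0) (XT.lf (nat_lit 0) (nat_lit 5237389774) (nat_lit 380) (nat_lit 13638756197) (nat_lit 456) (nat_lit 2261848525) (nat_lit 121) (nat_lit 5) (nat_lit 126) (nat_lit 5) (nat_lit 127) (nat_lit 5) (nat_lit 495) (nat_lit 415) (nat_lit 230)) (XT.lf (nat_lit 0) (nat_lit 1099791948) (nat_lit 456) (nat_lit 6193564343) (nat_lit 76) (nat_lit 14128156393) (nat_lit 120) (nat_lit 5) (nat_lit 126) (nat_lit 5) (nat_lit 121) (nat_lit 5) (nat_lit 496) (nat_lit 415) (nat_lit 229))) (XT.nd (nat_lit 78) (nat_lit 0) (nat_lit 0) (XT.lf (nat_lit 0) (nat_lit 3732307942) (nat_lit 380) (nat_lit 783735371) (nat_lit 456) (nat_lit 17194010041) (nat_lit 115) (nat_lit 5) (nat_lit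 120) (nat_lit 5) (nat_lit 121) (nat_lit 5) (nat_lit 497) (nat_lit 415) (nat_lit 228)) (XT.lf (nat_lit 0) (nat_lit 8073933896) (nat_lit 456) (nat_lit 8110513333) (nat_lit 76) (nat_lit 5818455662) (nat_lit 115) (nat_lit 5) (nat_lit 121) (nat_lit 5) (nat_lit 116) (nat_lit 5) (nat_lit 498) (nat_lit 415) (nat_lit 227)))))) (XT.nd (nat_lit 546) (nat_lit 988) (nat_lit 0) (XT.nd (nat_lit 234) (nat_lit 760) (nat_lit 0) (XT.nd (nat_lit 78) (nat_lit 0) (nat_lit 0) (XT.lf (nat_lit 0) (nat_lit 1965497990) (nat_lit 380) (nat_lit 9749019567) (nat_lit 456) (nat_lit 10586865405) (nat_lit 110) (nat_lit 5) (nat_lit 115) (nat_lit 5) (nat_lit 116) (nat_lit 5) (nat_lit 499) (nat_lit 415) (nat_lit 226)) (XT.nd (nat_lit 78) (nat_lit 0) (nat_lit 0) (XT.lf (nat_lit 0) (nat_lit 12343876944) (nat_lit 380) (nat_lit 3132112187) (nat_lit 456) (nat_lit 7128886144) (nat_lit 110) (nat_lit 5) (nat_lit 115) (nat_lit 5) (nat_lit 116) (nat_lit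 5) (nat_lit 500) (nat_lit 415) (nat_lit 225)) (XT.lf (nat_lit 0) (nat_lit 19329932431) (nat_lit 456) (nat_lit 17124363) (nat_lit 76) (nat_lit 3567039879) (nat_lit 110) (nat_lit 5) (nat_lit 116) (nat_lit 5) (nat_lit 111) (nat_lit 5) (nat_lit 501) (nat_lit 415) (nat_lit 224)))) (XT.nd (nat_lit 156) (nat_lit 380) (nat_lit 0) (XT.nd (nat_lit 78) (nat_lit 0) (nat_lit 0) (XT.lf (nat_lit 0) (nat_lit 114642469) (nat_lit 380) (nat_lit 12688325997) (nat_lit 76) (nat_lit 10424861819) (nat_lit 105) (nat_lit 5) (nat_lit 110) (nat_lit 5) (nat_lit 106) (nat_lit 5) (nat_lit 502) (nat_lit 415) (nat_lit 223)) (XT.lf (nat_lit 0) (nat_lit 3833492703) (nat_lit 380) (nat_lit 2272950898) (nat_lit 76) (nat_lit 17441043802) (nat_lit 105) (nat_lit 5) (nat_lit 110) (nat_lit 5) (nat_lit 106) (nat_lit 5) (nat_lit 503) (nat_lit 415) (nat_lit 222))) (XT.nd (nat_lit 78) (nat_lit 0) (nat_lit 0) (XT.lf (nat_lit 0) (nat_lit 7680666723)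 (nat_lit 456) (nat_lit 15424718395) (nat_lit 76) (nat_lit 767077384) (nat_lit 100) (nat_lit 5) (nat_lit 106) (nat_lit 5) (nat_lit 101) (nat_lit 5) (nat_lit 504) (nat_lit 415) (nat_lit 221)) (XT.lf (nat_lit 0) (nat_lit 11654639876) (nat_lit 456) (nat_lit 4839258094) (nat_lit 76) (nat_lit 7709045720) (nat_lit 100) (nat_lit 5) (nat_lit 106) (nat_lit 5) (nat_lit 101) (nat_lit 5) (nat_lit 505) (nat_lit 415) (nat_lit 220))))) (XT.nd (nat_lit 234) (nat_lit 380) (nat_lit 0) (XT.nd (nat_lit 78) (nat_lit 304) (nat_lit 0) (XT.lf (nat_lit 0) (nat_lit 6028398003) (nat_lit 304) (nat_lit 9713013199) (nat_lit 380) (nat_lit 8797960553) (nat_lit 96) (nat_lit 5) (nat_lit 100) (nat_lit 5) (nat_lit 101) (nat_lit 5) (nat_lit 506) (nat_lit 415) (nat_lit 219)) (XT.nd (nat_lit 78) (nat_lit 304) (nat_lit 0) (XT.lf (nat_lit 0) (nat_lit 17170484133) (nat_lit 304) (nat_lit 2766144972) (nat_lit 380) (nat_lit 4945368608) (nat_lit 96)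 (nat_lit 5) (nat_lit 100) (nat_lit 5) (nat_lit 101) (nat_lit 5) (nat_lit 507) (nat_lit 415) (nat_lit 218)) (XT.lf (nat_lit 0) (nat_lit 3310859848) (nat_lit 304) (nat_lit 20948766543) (nat_lit 380) (nat_lit 970975784) (nat_lit 92) (nat_lit 5) (nat_lit 96) (nat_lit 5) (nat_lit 97) (nat_lit 5) (nat_lit 508) (nat_lit 415) (nat_lit 217)))) (XT.nd (nat_lit 156) (nat_lit 0) (nat_lit 0) (XT.nd (nat_lit 78) (nat_lit 304) (nat_lit 0) (XT.lf (nat_lit 0) (nat_lit 3107230604) (nat_lit 380) (nat_lit 10974084441) (nat_lit 76) (nat_lit 11503171538) (nat_lit 91) (nat_lit 5) (nat_lit 96) (nat_lit 5) (nat_lit 92) (nat_lit 5) (nat_lit 509) (nat_lit 415) (nat_lit 216)) (XT.lf (nat_lit 0) (nat_lit 178082857) (nat_lit 304) (nat_lit 7071544794) (nat_lit 380) (nat_lit 18695783391) (nat_lit 87) (nat_lit 5) (nat_lit 91) (nat_lit 5) (nat_lit 92) (nat_lit 5) (nat_lit 510) (nat_lit 415) (nat_lit 215))) (XT.nd (nat_lit 78) (nat_lit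 0) (nat_lit 0) (XT.lf (nat_lit 0) (nat_lit 11544007956) (nat_lit 380) (nat_lit 14619377222) (nat_lit 76) (nat_lit 148789326) (nat_lit 87) (nat_lit 5) (nat_lit 92) (nat_lit 5) (nat_lit 88) (nat_lit 5) (nat_lit 511) (nat_lit 415) (nat_lit 214)) (XT.lf (nat_lit 0) (nat_lit 15965711777) (nat_lit 380) (nat_lit 3303484269) (nat_lit 76) (nat_lit 7416251630) (nat_lit 87) (nat_lit 5) (nat_lit 92) (nat_lit 5) (nat_lit 88) (nat_lit 5) (nat_lit 512) (nat_lit 415) (nat_lit 213))))))) (XT.nd (nat_lit 52338) (nat_lit 0) (nat_lit 23788) (XT.nd (nat_lit 51792) (nat_lit 0) (nat_lit 25004) (XT.nd (nat_lit 234) (nat_lit 304) (nat_lit 0) (XT.nd (nat_lit 78) (nat_lit 304) (nat_lit 0) (XT.lf (nat_lit 0) (nat_lit 8340083128) (nat_lit 304) (nat_lit 12184626181) (nat_lit 380) (nat_lit 6540502905) (nat_lit 83) (nat_lit 5) (nat_lit 87) (nat_lit 5) (nat_lit 88) (nat_lit 5) (nat_lit 513) (nat_lit 415) (nat_lit 212)) (XT.nd (nat_lit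 78) (nat_lit 304) (nat_lit 0) (XT.lf (nat_lit 0) (nat_lit 20253329164) (nat_lit 304) (nat_lit 4938487987) (nat_lit 380) (nat_lit 2260419319) (nat_lit 83) (nat_lit 5) (nat_lit 87) (nat_lit 5) (nat_lit 88) (nat_lit 5) (nat_lit 514) (nat_lit 415) (nat_lit 211)) (XT.lf (nat_lit 0) (nat_lit 2118521222) (nat_lit 304) (nat_lit 23265864282) (nat_lit 76) (nat_lit 2461527925) (nat_lit 79) (nat_lit 5) (nat_lit 83) (nat_lit 5) (nat_lit 80) (nat_lit 5) (nat_lit 515) (nat_lit 415) (nat_lit 210)))) (XT.nd (nat_lit 156) (nat_lit 0) (nat_lit 0) (XT.nd (nat_lit 78) (nat_lit 304) (nat_lit 0) (XT.lf (nat_lit 0) (nat_lit 6630996364) (nat_lit 304) (nat_lit 11610248163) (nat_lit 76) (nat_lit 10004398975) (nat_lit 79) (nat_lit 5) (nat_lit 83) (nat_lit 5) (nat_lit 80) (nat_lit 5) (nat_lit 516) (nat_lit 415) (nat_lit 209)) (XT.lf (nat_lit 0) (nat_lit 274309849) (nat_lit 304) (nat_lit 10956153840) (nat_lit 380) (nat_lit 17422972438)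 (nat_lit 75) (nat_lit 5) (nat_lit 79) (nat_lit 5) (nat_lit 80) (nat_lit 5) (nat_lit 517) (nat_lit 415) (nat_lit 208))) (XT.nd (nat_lit 78) (nat_lit 0) (nat_lit 0) (XT.lf (nat_lit 0) (nat_lit 12546222046) (nat_lit 304) (nat_lit 3448619558) (nat_lit 380) (nat_lit 13073087326) (nat_lit 75) (nat_lit 5) (nat_lit 79) (nat_lit 5) (nat_lit 80) (nat_lit 5) (nat_lit 518) (nat_lit 415) (nat_lit 207)) (XT.lf (nat_lit 0) (nat_lit 20876925963) (nat_lit 380) (nat_lit 4462115949) (nat_lit 76) (nat_lit 4151223992) (nat_lit 75) (nat_lit 5) (nat_lit 80) (nat_lit 5) (nat_lit 76) (nat_lit 5) (nat_lit 519) (nat_lit 415) (nat_lit 206))))) (XT.nd (nat_lit 234) (nat_lit 0) (nat_lit 76) (XT.nd (nat_lit 78) (nat_lit 1444) (nat_lit 0) (XT.lf (nat_lit 0) (nat_lit 4015839501) (nat_lit 1444) (nat_lit 236182445) (nat_lit 1444) (nat_lit 236182445) (nat_lit 423) (nat_lit 3) (nat_lit 442) (nat_lit 3) (nat_lit 442) (nat_lit 5) (nat_lit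 416) (nat_lit 416) (nat_lit 308)) (XT.nd (nat_lit 78) (nat_lit 1444) (nat_lit 0) (XT.lf (nat_lit 76) (nat_lit 3575297244) (nat_lit 0) (nat_lit 5406861829) (nat_lit 1444) (nat_lit 65628415) (nat_lit 424) (nat_lit 5) (nat_lit 423) (nat_lit 3) (nat_lit 442) (nat_lit 5) (nat_lit 417) (nat_lit 416) (nat_lit 307)) (XT.lf (nat_lit 0) (nat_lit 800882881) (nat_lit 1444) (nat_lit 1427448935) (nat_lit 1520) (nat_lit 6892564744) (nat_lit 404) (nat_lit 5) (nat_lit 423) (nat_lit 3) (nat_lit 424) (nat_lit 5) (nat_lit 418) (nat_lit 416) (nat_lit 306)))) (XT.nd (nat_lit 156) (nat_lit 0) (nat_lit 0) (XT.nd (nat_lit 78) (nat_lit 0) (nat_lit 0) (XT.lf (nat_lit 0) (nat_lit 1686267363) (nat_lit 1444) (nat_lit 6480165979) (nat_lit 1520) (nat_lit 1029002122) (nat_lit 405) (nat_lit 5) (nat_lit 424) (nat_lit 5) (nat_lit 425) (nat_lit 5) (nat_lit 419) (nat_lit 416) (nat_lit 305)) (XT.lf (nat_lit 0) (nat_lit 2592159096) (nat_lit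 1444) (nat_lit 2337935513) (nat_lit 1520) (nat_lit 4341338822) (nat_lit 405) (nat_lit 5) (nat_lit 424) (nat_lit 5) (nat_lit 425) (nat_lit 5) (nat_lit 420) (nat_lit 416) (nat_lit 304))) (XT.nd (nat_lit 78) (nat_lit 0) (nat_lit 76) (XT.lf (nat_lit 76) (nat_lit 1900264753) (nat_lit 0) (nat_lit 1607065245) (nat_lit 1520) (nat_lit 5841821931) (nat_lit 406) (nat_lit 5) (nat_lit 405) (nat_lit 5) (nat_lit 425) (nat_lit 5) (nat_lit 421) (nat_lit 416) (nat_lit 303)) (XT.lf (nat_lit 0) (nat_lit 4447391566) (nat_lit 1444) (nat_lit 3197086038) (nat_lit 1520) (nat_lit 1783838781) (nat_lit 406) (nat_lit 5) (nat_lit 425) (nat_lit 5) (nat_lit 426) (nat_lit 5) (nat_lit 422) (nat_lit 416) (nat_lit 302)))))) (XT.nd (nat_lit 546) (nat_lit 0) (nat_lit 76) (XT.nd (nat_lit 234) (nat_lit 1368) (nat_lit 0) (XT.nd (nat_lit 78) (nat_lit 0) (nat_lit 0) (XT.lf (nat_lit 76) (nat_lit 1131975160) (nat_lit 0) (nat_lit 4271900856) (nat_lit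 1520) (nat_lit 4105258556) (nat_lit 407) (nat_lit 5) (nat_lit 406) (nat_lit 5) (nat_lit 426) (nat_lit 5) (nat_lit 423) (nat_lit 416) (nat_lit 301)) (XT.nd (nat_lit 78) (nat_lit 0) (nat_lit 76) (XT.lf (nat_lit 76) (nat_lit 5579054532) (nat_lit 0) (nat_lit 801841216) (nat_lit 1520) (nat_lit 3210667690) (nat_lit 407) (nat_lit 5) (nat_lit 406) (nat_lit 5) (nat_lit 426) (nat_lit 5) (nat_lit 424) (nat_lit 416) (nat_lit 300)) (XT.lf (nat_lit 76) (nat_lit 414968538) (nat_lit 0) (nat_lit 6963352467) (nat_lit 1520) (nat_lit 2297324562) (nat_lit 408) (nat_lit 5) (nat_lit 407) (nat_lit 5) (nat_lit 427) (nat_lit 5) (nat_lit 425) (nat_lit 416) (nat_lit 299)))) (XT.nd (nat_lit 156) (nat_lit 1444) (nat_lit 0) (XT.nd (nat_lit 78) (nat_lit 0) (nat_lit 76) (XT.lf (nat_lit 76) (nat_lit 4967951185) (nat_lit 0) (nat_lit 3440647455) (nat_lit 1520) (nat_lit 1352574176) (nat_lit 408) (nat_lit 5) (nat_lit 407) (nat_lit 5) (nat_lit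 427) (nat_lit 5) (nat_lit 426) (nat_lit 416) (nat_lit 298)) (XT.lf (nat_lit 0) (nat_lit 9441599078) (nat_lit 1444) (nat_lit 249670781) (nat_lit 1520) (nat_lit 157519539) (nat_lit 408) (nat_lit 5) (nat_lit 427) (nat_lit 5) (nat_lit 428) (nat_lit 5) (nat_lit 427) (nat_lit 416) (nat_lit 297))) (XT.nd (nat_lit 78) (nat_lit 0) (nat_lit 0) (XT.lf (nat_lit 0) (nat_lit 582893056) (nat_lit 1520) (nat_lit 5533605041) (nat_lit 1596) (nat_lit 3820946220) (nat_lit 388) (nat_lit 5) (nat_lit 408) (nat_lit 5) (nat_lit 409) (nat_lit 5) (nat_lit 428) (nat_lit 416) (nat_lit 296)) (XT.lf (nat_lit 0) (nat_lit 1570659100) (nat_lit 1520) (nat_lit 888950435) (nat_lit 1596) (nat_lit 7568562218) (nat_lit 388) (nat_lit 5) (nat_lit 408) (nat_lit 5) (nat_lit 409) (nat_lit 5) (nat_lit 429) (nat_lit 416) (nat_lit 295))))) (XT.nd (nat_lit 234) (nat_lit 0) (nat_lit 76) (XT.nd (nat_lit 78) (nat_lit 0) (nat_lit 0) (XT.lf (nat_lit 0) (nat_lit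 2593877772) (nat_lit 1520) (nat_lit 6241427475) (nat_lit 1596) (nat_lit 1285114068) (nat_lit 389) (nat_lit 5) (nat_lit 409) (nat_lit 5) (nat_lit 410) (nat_lit 5) (nat_lit 430) (nat_lit 416) (nat_lit 294)) (XT.nd (nat_lit 78) (nat_lit 0) (nat_lit 0) (XT.lf (nat_lit 0) (nat_lit 3642169668) (nat_lit 1520) (nat_lit 1488679049) (nat_lit 1596) (nat_lit 5083590075) (nat_lit 389) (nat_lit 5) (nat_lit 409) (nat_lit 5) (nat_lit 410) (nat_lit 5) (nat_lit 431) (nat_lit 416) (nat_lit 293)) (XT.lf (nat_lit 76) (nat_lit 3391545132) (nat_lit 0) (nat_lit 1324564406) (nat_lit 1596) (nat_lit 5594154243) (nat_lit 390) (nat_lit 5) (nat_lit 389) (nat_lit 5) (nat_lit 410) (nat_lit 5) (nat_lit 432) (nat_lit 416) (nat_lit 292)))) (XT.nd (nat_lit 156) (nat_lit 0) (nat_lit 0) (XT.nd (nat_lit 78) (nat_lit 0) (nat_lit 0) (XT.lf (nat_lit 0) (nat_lit 5821148647) (nat_lit 1520) (nat_lit 2047299219) (nat_lit 1596) (nat_lit 2539383392)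 (nat_lit 390) (nat_lit 5) (nat_lit 410) (nat_lit 5) (nat_lit 411) (nat_lit 5) (nat_lit 433) (nat_lit 416) (nat_lit 291)) (XT.lf (nat_lit 76) (nat_lit 2939193730) (nat_lit 0) (nat_lit 4020241357) (nat_lit 1596) (nat_lit 3547710105) (nat_lit 391) (nat_lit 5) (nat_lit 390) (nat_lit 5) (nat_lit 411) (nat_lit 5) (nat_lit 434) (nat_lit 416) (nat_lit 290))) (XT.nd (nat_lit 78) (nat_lit 0) (nat_lit 76) (XT.lf (nat_lit 76) (nat_lit 8041117056) (nat_lit 0) (nat_lit 76649436) (nat_lit 1596) (nat_lit 2490751012) (nat_lit 391) (nat_lit 5) (nat_lit 390) (nat_lit 5) (nat_lit 411) (nat_lit 5) (nat_lit 435) (nat_lit 416) (nat_lit 289)) (XT.lf (nat_lit 76) (nat_lit 2528521768) (nat_lit 0) (nat_lit 6796670010) (nat_lit 1596) (nat_lit 1386224275) (nat_lit 392) (nat_lit 5) (nat_lit 391) (nat_lit 5) (nat_lit 412) (nat_lit 5) (nat_lit 436) (nat_lit 416) (nat_lit 288))))))))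
noncomputable def xc186 : XT := (XT.nd (nat_lit 2106) (nat_lit 7372) (nat_lit 0) (XT.nd (nat_lit 1014) (nat_lit 5320) (nat_lit 0) (XT.nd (nat_lit 468) (nat_lit 3572) (nat_lit 0) (XT.nd (nat_lit 234) (nat_lit 1520) (nat_lit 0) (XT.nd (nat_lit 78) (nat_lit 1520) (nat_lit 0) (XT.lf (nat_lit 76) (nat_lit 7748547021) (nat_lit 0) (nat_lit 2810080270) (nat_lit 1596) (nat_lit 257725044) (nat_lit 392) (nat_lit 5) (nat_lit 391) (nat_lit 5) (nat_lit 412) (nat_lit 5) (nat_lit 437) (nat_lit 416) (nat_lit 287)) (XT.nd (nat_lit 78) (nat_lit 0) (nat_lit 0) (XT.lf (nat_lit 0) (nat_lit 888283602) (nat_lit 1596) (nat_lit 8771607604) (nat_lit 1672) (nat_lit 1263263353) (nat_lit 371) (nat_lit 5) (nat_lit 392) (nat_lit 5) (nat_lit 393) (nat_lit 5) (nat_lit 438) (nat_lit 416) (nat_lit 286)) (XT.lf (nat_lit 0) (nat_lit 2077669775) (nat_lit 1596) (nat_lit 3547620886) (nat_lit 1672) (nat_lit 5406305948) (nat_lit 371) (nat_lit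 5) (nat_lit 392) (nat_lit 5) (nat_lit 393) (nat_lit 5) (nat_lit 439) (nat_lit 416) (nat_lit 285)))) (XT.nd (nat_lit 78) (nat_lit 1520) (nat_lit 0) (XT.lf (nat_lit 76) (nat_lit 1792235327) (nat_lit 0) (nat_lit 1495119565) (nat_lit 1672) (nat_lit 7854938085) (nat_lit 372) (nat_lit 5) (nat_lit 371) (nat_lit 5) (nat_lit 393) (nat_lit 5) (nat_lit 440) (nat_lit 416) (nat_lit 284)) (XT.nd (nat_lit 78) (nat_lit 1596) (nat_lit 0) (XT.lf (nat_lit 0) (nat_lit 4547954497) (nat_lit 1596) (nat_lit 3997920209) (nat_lit 76) (nat_lit 2708809543) (nat_lit 372) (nat_lit 5) (nat_lit 393) (nat_lit 5) (nat_lit 373) (nat_lit 5) (nat_lit 441) (nat_lit 416) (nat_lit 283)) (XT.lf (nat_lit 0) (nat_lit 1458359499) (nat_lit 1596) (nat_lit 4380180516) (nat_lit 1672) (nat_lit 5530702948) (nat_lit 351) (nat_lit 5) (nat_lit 372) (nat_lit 5) (nat_lit 373) (nat_lit 5) (nat_lit 442) (nat_lit 416) (nat_lit 282))))) (XT.nd (nat_lit 234) (nat_lit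 1900) (nat_lit 0) (XT.nd (nat_lit 78) (nat_lit 1672) (nat_lit 0) (XT.lf (nat_lit 0) (nat_lit 7065911763) (nat_lit 1596) (nat_lit 101465447) (nat_lit 1672) (nat_lit 4318481638) (nat_lit 351) (nat_lit 5) (nat_lit 372) (nat_lit 5) (nat_lit 373) (nat_lit 5) (nat_lit 443) (nat_lit 416) (nat_lit 281)) (XT.nd (nat_lit 78) (nat_lit 0) (nat_lit 0) (XT.lf (nat_lit 0) (nat_lit 1156173115) (nat_lit 1672) (nat_lit 7387710606) (nat_lit 1748) (nat_lit 3060515984) (nat_lit 329) (nat_lit 5) (nat_lit 351) (nat_lit 5) (nat_lit 352) (nat_lit 5) (nat_lit 444) (nat_lit 416) (nat_lit 280)) (XT.lf (nat_lit 0) (nat_lit 6891006883) (nat_lit 1672) (nat_lit 3073348152) (nat_lit 1748) (nat_lit 1760641874) (nat_lit 329) (nat_lit 5) (nat_lit 351) (nat_lit 5) (nat_lit 352) (nat_lit 5) (nat_lit 445) (nat_lit 416) (nat_lit 279)))) (XT.nd (nat_lit 156) (nat_lit 836) (nat_lit 0) (XT.nd (nat_lit 78) (nat_lit 76) (nat_lit 0) (XT.lf (nat_lit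 0) (nat_lit 883395911) (nat_lit 988) (nat_lit 10530584342) (nat_lit 1064) (nat_lit 434024857) (nat_lit 316) (nat_lit 5) (nat_lit 329) (nat_lit 5) (nat_lit 330) (nat_lit 5) (nat_lit 446) (nat_lit 416) (nat_lit 278)) (XT.lf (nat_lit 0) (nat_lit 946554327) (nat_lit 1064) (nat_lit 5230921830) (nat_lit 76) (nat_lit 5795101683) (nat_lit 315) (nat_lit 5) (nat_lit 329) (nat_lit 5) (nat_lit 316) (nat_lit 5) (nat_lit 447) (nat_lit 416) (nat_lit 277))) (XT.nd (nat_lit 78) (nat_lit 0) (nat_lit 0) (XT.lf (nat_lit 0) (nat_lit 610595559) (nat_lit 836) (nat_lit 1729050484) (nat_lit 912) (nat_lit 9760137490) (nat_lit 304) (nat_lit 5) (nat_lit 315) (nat_lit 5) (nat_lit 316) (nat_lit 5) (nat_lit 448) (nat_lit 416) (nat_lit 276)) (XT.lf (nat_lit 0) (nat_lit 3801100972) (nat_lit 912) (nat_lit 5619628244) (nat_lit 76) (nat_lit 2808006979) (nat_lit 304) (nat_lit 5) (nat_lit 316) (nat_lit 5) (nat_lit 305) (nat_lit 5) (nat_lit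 449) (nat_lit 416) (nat_lit 275)))))) (XT.nd (nat_lit 546) (nat_lit 2888) (nat_lit 0) (XT.nd (nat_lit 234) (nat_lit 836) (nat_lit 0) (XT.nd (nat_lit 78) (nat_lit 760) (nat_lit 0) (XT.lf (nat_lit 0) (nat_lit 348500833) (nat_lit 836) (nat_lit 4944186789) (nat_lit 912) (nat_lit 7067574865) (nat_lit 293) (nat_lit 5) (nat_lit 304) (nat_lit 5) (nat_lit 305) (nat_lit 5) (nat_lit 450) (nat_lit 416) (nat_lit 274)) (XT.nd (nat_lit 78) (nat_lit 760) (nat_lit 0) (XT.lf (nat_lit 0) (nat_lit 6500304762) (nat_lit 836) (nat_lit 338875331) (nat_lit 912) (nat_lit 5654750110) (nat_lit 293) (nat_lit 5) (nat_lit 304) (nat_lit 5) (nat_lit 305) (nat_lit 5) (nat_lit 451) (nat_lit 416) (nat_lit 273)) (XT.lf (nat_lit 0) (nat_lit 106070590) (nat_lit 760) (nat_lit 8327135177) (nat_lit 836) (nat_lit 4196745578) (nat_lit 283) (nat_lit 5) (nat_lit 293) (nat_lit 5) (nat_lit 294) (nat_lit 5) (nat_lit 452) (nat_lit 416) (nat_lit 272))))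 (XT.nd (nat_lit 156) (nat_lit 836) (nat_lit 0) (XT.nd (nat_lit 78) (nat_lit 0) (nat_lit 0) (XT.lf (nat_lit 0) (nat_lit 6394914447) (nat_lit 760) (nat_lit 3694429551) (nat_lit 836) (nat_lit 2678756172) (nat_lit 283) (nat_lit 5) (nat_lit 293) (nat_lit 5) (nat_lit 294) (nat_lit 5) (nat_lit 453) (nat_lit 416) (nat_lit 271)) (XT.lf (nat_lit 0) (nat_lit 11773322810) (nat_lit 836) (nat_lit 118009575) (nat_lit 76) (nat_lit 1017796896) (nat_lit 283) (nat_lit 5) (nat_lit 294) (nat_lit 5) (nat_lit 284) (nat_lit 5) (nat_lit 454) (nat_lit 416) (nat_lit 270))) (XT.nd (nat_lit 78) (nat_lit 0) (nat_lit 0) (XT.lf (nat_lit 0) (nat_lit 486289391) (nat_lit 836) (nat_lit 6746176551) (nat_lit 76) (nat_lit 5819386739) (nat_lit 272) (nat_lit 5) (nat_lit 283) (nat_lit 5) (nat_lit 273) (nat_lit 5) (nat_lit 455) (nat_lit 416) (nat_lit 269)) (XT.lf (nat_lit 0) (nat_lit 2114756797) (nat_lit 836) (nat_lit 357203573) (nat_lit 76) (nat_lit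 10725548257) (nat_lit 272) (nat_lit 5) (nat_lit 283) (nat_lit 5) (nat_lit 273) (nat_lit 5) (nat_lit 456) (nat_lit 416) (nat_lit 268))))) (XT.nd (nat_lit 234) (nat_lit 1444) (nat_lit 0) (XT.nd (nat_lit 78) (nat_lit 760) (nat_lit 0) (XT.lf (nat_lit 0) (nat_lit 3820541685) (nat_lit 760) (nat_lit 7131466982) (nat_lit 76) (nat_lit 2393184841) (nat_lit 263) (nat_lit 5) (nat_lit 273) (nat_lit 5) (nat_lit 264) (nat_lit 5) (nat_lit 457) (nat_lit 416) (nat_lit 267)) (XT.nd (nat_lit 78) (nat_lit 760) (nat_lit 0) (XT.lf (nat_lit 0) (nat_lit 5567931158) (nat_lit 760) (nat_lit 602881339) (nat_lit 76) (nat_lit 7324880378) (nat_lit 263) (nat_lit 5) (nat_lit 273) (nat_lit 5) (nat_lit 264) (nat_lit 5) (nat_lit 458) (nat_lit 416) (nat_lit 266)) (XT.lf (nat_lit 0) (nat_lit 6125209299) (nat_lit 760) (nat_lit 1253754897) (nat_lit 836) (nat_lit 6269674479) (nat_lit 253) (nat_lit 5) (nat_lit 263) (nat_lit 5) (nat_lit 264) (nat_lit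 5) (nat_lit 459) (nat_lit 416) (nat_lit 265)))) (XT.nd (nat_lit 156) (nat_lit 760) (nat_lit 0) (XT.nd (nat_lit 78) (nat_lit 684) (nat_lit 0) (XT.lf (nat_lit 0) (nat_lit 9243781306) (nat_lit 836) (nat_lit 844529510) (nat_lit 76) (nat_lit 3715991463) (nat_lit 253) (nat_lit 5) (nat_lit 264) (nat_lit 5) (nat_lit 254) (nat_lit 5) (nat_lit 460) (nat_lit 416) (nat_lit 264)) (XT.lf (nat_lit 0) (nat_lit 6027370764) (nat_lit 684) (nat_lit 5155242928) (nat_lit 760) (nat_lit 2779741043) (nat_lit 244) (nat_lit 5) (nat_lit 253) (nat_lit 5) (nat_lit 254) (nat_lit 5) (nat_lit 461) (nat_lit 416) (nat_lit 263))) (XT.nd (nat_lit 78) (nat_lit 760) (nat_lit 0) (XT.lf (nat_lit 0) (nat_lit 13036906743) (nat_lit 684) (nat_lit 118402564) (nat_lit 760) (nat_lit 968366964) (nat_lit 244) (nat_lit 5) (nat_lit 253) (nat_lit 5) (nat_lit 254) (nat_lit 5) (nat_lit 462) (nat_lit 416) (nat_lit 262)) (XT.lf (nat_lit 0) (nat_lit 928823322)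 (nat_lit 760) (nat_lit 8360746582) (nat_lit 76) (nat_lit 4997327145) (nat_lit 234) (nat_lit 5) (nat_lit 244) (nat_lit 5) (nat_lit 235) (nat_lit 5) (nat_lit 463) (nat_lit 416) (nat_lit 261))))))) (XT.nd (nat_lit 1092) (nat_lit 3040) (nat_lit 0) (XT.nd (nat_lit 546) (nat_lit 2356) (nat_lit 0) (XT.nd (nat_lit 234) (nat_lit 1368) (nat_lit 0) (XT.nd (nat_lit 78) (nat_lit 608) (nat_lit 0) (XT.lf (nat_lit 0) (nat_lit 2848804711) (nat_lit 760) (nat_lit 1377736259) (nat_lit 76) (nat_lit 10226766178) (nat_lit 234) (nat_lit 5) (nat_lit 244) (nat_lit 5) (nat_lit 235) (nat_lit 5) (nat_lit 464) (nat_lit 416) (nat_lit 260)) (XT.nd (nat_lit 78) (nat_lit 0) (nat_lit 0) (XT.lf (nat_lit 0) (nat_lit 4841119183) (nat_lit 684) (nat_lit 8818793311) (nat_lit 76) (nat_lit 962463305) (nat_lit 226) (nat_lit 5) (nat_lit 235) (nat_lit 5) (nat_lit 227) (nat_lit 5) (nat_lit 465) (nat_lit 416) (nat_lit 259)) (XT.lf (nat_lit 0) (nat_lit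 6900575911) (nat_lit 684) (nat_lit 1686711261) (nat_lit 76) (nat_lit 6207001575) (nat_lit 226) (nat_lit 5) (nat_lit 235) (nat_lit 5) (nat_lit 227) (nat_lit 5) (nat_lit 466) (nat_lit 416) (nat_lit 258)))) (XT.nd (nat_lit 156) (nat_lit 684) (nat_lit 0) (XT.nd (nat_lit 78) (nat_lit 0) (nat_lit 0) (XT.lf (nat_lit 0) (nat_lit 5651126032) (nat_lit 684) (nat_lit 3376981761) (nat_lit 760) (nat_lit 5941003108) (nat_lit 217) (nat_lit 5) (nat_lit 226) (nat_lit 5) (nat_lit 227) (nat_lit 5) (nat_lit 467) (nat_lit 416) (nat_lit 257)) (XT.lf (nat_lit 0) (nat_lit 11212472083) (nat_lit 760) (nat_lit 2012397554) (nat_lit 76) (nat_lit 1922282725) (nat_lit 217) (nat_lit 5) (nat_lit 227) (nat_lit 5) (nat_lit 218) (nat_lit 5) (nat_lit 468) (nat_lit 416) (nat_lit 256))) (XT.nd (nat_lit 78) (nat_lit 76) (nat_lit 0) (XT.lf (nat_lit 0) (nat_lit 5477875189) (nat_lit 608) (nat_lit 8011076980) (nat_lit 684) (nat_lit 1838842246) (nat_lit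 209) (nat_lit 5) (nat_lit 217) (nat_lit 5) (nat_lit 218) (nat_lit 5) (nat_lit 469) (nat_lit 416) (nat_lit 255)) (XT.lf (nat_lit 0) (nat_lit 299130077) (nat_lit 684) (nat_lit 2379544873) (nat_lit 76) (nat_lit 12833260796) (nat_lit 208) (nat_lit 5) (nat_lit 217) (nat_lit 5) (nat_lit 209) (nat_lit 5) (nat_lit 470) (nat_lit 416) (nat_lit 254))))) (XT.nd (nat_lit 234) (nat_lit 1216) (nat_lit 0) (XT.nd (nat_lit 78) (nat_lit 532) (nat_lit 0) (XT.lf (nat_lit 0) (nat_lit 2498537229) (nat_lit 684) (nat_lit 10430601577) (nat_lit 76) (nat_lit 2769519904) (nat_lit 200) (nat_lit 5) (nat_lit 209) (nat_lit 5) (nat_lit 201) (nat_lit 5) (nat_lit 471) (nat_lit 416) (nat_lit 253)) (XT.nd (nat_lit 78) (nat_lit 532) (nat_lit 0) (XT.lf (nat_lit 0) (nat_lit 4766577920) (nat_lit 684) (nat_lit 2816638177) (nat_lit 76) (nat_lit 8305414826) (nat_lit 200) (nat_lit 5) (nat_lit 209) (nat_lit 5) (nat_lit 201) (nat_lit 5) (nat_lit 472)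 (nat_lit 416) (nat_lit 252)) (XT.lf (nat_lit 0) (nat_lit 5004590971) (nat_lit 532) (nat_lit 2098893421) (nat_lit 608) (nat_lit 8978455637) (nat_lit 193) (nat_lit 5) (nat_lit 200) (nat_lit 5) (nat_lit 201) (nat_lit 5) (nat_lit 473) (nat_lit 416) (nat_lit 251)))) (XT.nd (nat_lit 156) (nat_lit 608) (nat_lit 0) (XT.nd (nat_lit 78) (nat_lit 608) (nat_lit 0) (XT.lf (nat_lit 0) (nat_lit 9519956261) (nat_lit 608) (nat_lit 3291883649) (nat_lit 76) (nat_lit 3466626259) (nat_lit 193) (nat_lit 5) (nat_lit 201) (nat_lit 5) (nat_lit 194) (nat_lit 5) (nat_lit 474) (nat_lit 416) (nat_lit 250)) (XT.lf (nat_lit 0) (nat_lit 4686310220) (nat_lit 608) (nat_lit 7334056644) (nat_lit 684) (nat_lit 4457851035) (nat_lit 185) (nat_lit 5) (nat_lit 193) (nat_lit 5) (nat_lit 194) (nat_lit 5) (nat_lit 475) (nat_lit 416) (nat_lit 249))) (XT.nd (nat_lit 78) (nat_lit 608) (nat_lit 0) (XT.lf (nat_lit 0) (nat_lit 12858216984) (nat_lit 608)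 (nat_lit 1726044603) (nat_lit 684) (nat_lit 2097440672) (nat_lit 185) (nat_lit 5) (nat_lit 193) (nat_lit 5) (nat_lit 194) (nat_lit 5) (nat_lit 476) (nat_lit 416) (nat_lit 248)) (XT.lf (nat_lit 0) (nat_lit 351958455) (nat_lit 608) (nat_lit 12566008000) (nat_lit 76) (nat_lit 3970339436) (nat_lit 177) (nat_lit 5) (nat_lit 185) (nat_lit 5) (nat_lit 178) (nat_lit 5) (nat_lit 477) (nat_lit 416) (nat_lit 247)))))) (XT.nd (nat_lit 546) (nat_lit 1444) (nat_lit 0) (XT.nd (nat_lit 234) (nat_lit 1064) (nat_lit 0) (XT.nd (nat_lit 78) (nat_lit 532) (nat_lit 0) (XT.lf (nat_lit 0) (nat_lit 2851124515) (nat_lit 608) (nat_lit 4451676385) (nat_lit 76) (nat_lit 9795392842) (nat_lit 177) (nat_lit 5) (nat_lit 185) (nat_lit 5) (nat_lit 178) (nat_lit 5) (nat_lit 478) (nat_lit 416) (nat_lit 246)) (XT.nd (nat_lit 78) (nat_lit 0) (nat_lit 0) (XT.lf (nat_lit 0) (nat_lit 3865360287) (nat_lit 532) (nat_lit 1551754358) (nat_lit 608)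 (nat_lit 11894834459) (nat_lit 170) (nat_lit 5) (nat_lit 177) (nat_lit 5) (nat_lit 178) (nat_lit 5) (nat_lit 479) (nat_lit 416) (nat_lit 245)) (XT.lf (nat_lit 0) (nat_lit 8084333447) (nat_lit 608) (nat_lit 5158875196) (nat_lit 76) (nat_lit 4285779194) (nat_lit 170) (nat_lit 5) (nat_lit 178) (nat_lit 5) (nat_lit 171) (nat_lit 5) (nat_lit 480) (nat_lit 416) (nat_lit 244)))) (XT.nd (nat_lit 156) (nat_lit 608) (nat_lit 0) (XT.nd (nat_lit 78) (nat_lit 0) (nat_lit 0) (XT.lf (nat_lit 0) (nat_lit 3317665999) (nat_lit 456) (nat_lit 7511034455) (nat_lit 532) (nat_lit 6921197129) (nat_lit 164) (nat_lit 5) (nat_lit 170) (nat_lit 5) (nat_lit 171) (nat_lit 5) (nat_lit 481) (nat_lit 416) (nat_lit 243)) (XT.lf (nat_lit 0) (nat_lit 12023572821) (nat_lit 456) (nat_lit 1631079150) (nat_lit 532) (nat_lit 4320045802) (nat_lit 164) (nat_lit 5) (nat_lit 170) (nat_lit 5) (nat_lit 171) (nat_lit 5) (nat_lit 482) (nat_lit 416)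 (nat_lit 242))) (XT.nd (nat_lit 78) (nat_lit 76) (nat_lit 0) (XT.lf (nat_lit 0) (nat_lit 2696575099) (nat_lit 532) (nat_lit 13878625316) (nat_lit 608) (nat_lit 1628038062) (nat_lit 157) (nat_lit 5) (nat_lit 164) (nat_lit 5) (nat_lit 165) (nat_lit 5) (nat_lit 483) (nat_lit 416) (nat_lit 241)) (XT.lf (nat_lit 0) (nat_lit 1146401894) (nat_lit 608) (nat_lit 6866064416) (nat_lit 76) (nat_lit 10422879320) (nat_lit 156) (nat_lit 5) (nat_lit 164) (nat_lit 5) (nat_lit 157) (nat_lit 5) (nat_lit 484) (nat_lit 416) (nat_lit 240))))) (XT.nd (nat_lit 234) (nat_lit 532) (nat_lit 0) (XT.nd (nat_lit 78) (nat_lit 456) (nat_lit 0) (XT.lf (nat_lit 0) (nat_lit 1952279649) (nat_lit 456) (nat_lit 2007350226) (nat_lit 532) (nat_lit 14712153572) (nat_lit 150) (nat_lit 5) (nat_lit 156) (nat_lit 5) (nat_lit 157) (nat_lit 5) (nat_lit 485) (nat_lit 416) (nat_lit 239)) (XT.nd (nat_lit 78) (nat_lit 456) (nat_lit 0) (XT.lf (nat_lit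 0) (nat_lit 6894711331) (nat_lit 532) (nat_lit 7908973116) (nat_lit 76) (nat_lit 4107959402) (nat_lit 150) (nat_lit 5) (nat_lit 157) (nat_lit 5) (nat_lit 151) (nat_lit 5) (nat_lit 486) (nat_lit 416) (nat_lit 238)) (XT.lf (nat_lit 0) (nat_lit 1068720902) (nat_lit 456) (nat_lit 8832626603) (nat_lit 532) (nat_lit 9254702391) (nat_lit 144) (nat_lit 5) (nat_lit 150) (nat_lit 5) (nat_lit 151) (nat_lit 5) (nat_lit 487) (nat_lit 416) (nat_lit 237)))) (XT.nd (nat_lit 156) (nat_lit 76) (nat_lit 0) (XT.nd (nat_lit 78) (nat_lit 456) (nat_lit 0) (XT.lf (nat_lit 0) (nat_lit 10323471254) (nat_lit 456) (nat_lit 2690420733) (nat_lit 532) (nat_lit 6390541952) (nat_lit 144) (nat_lit 5) (nat_lit 150) (nat_lit 5) (nat_lit 151) (nat_lit 5) (nat_lit 488) (nat_lit 416) (nat_lit 236)) (XT.lf (nat_lit 0) (nat_lit 73639378) (nat_lit 456) (nat_lit 16131564942) (nat_lit 532) (nat_lit 3452256290) (nat_lit 138) (nat_lit 5) (nat_lit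 144) (nat_lit 5) (nat_lit 145) (nat_lit 5) (nat_lit 489) (nat_lit 416) (nat_lit 235))) (XT.nd (nat_lit 78) (nat_lit 76) (nat_lit 0) (XT.lf (nat_lit 0) (nat_lit 9506789161) (nat_lit 456) (nat_lit 10025100250) (nat_lit 532) (nat_lit 382232652) (nat_lit 138) (nat_lit 5) (nat_lit 144) (nat_lit 5) (nat_lit 145) (nat_lit 5) (nat_lit 490) (nat_lit 416) (nat_lit 234)) (XT.lf (nat_lit 0) (nat_lit 2706131649) (nat_lit 532) (nat_lit 1074659515) (nat_lit 76) (nat_lit 16394913642) (nat_lit 137) (nat_lit 5) (nat_lit 144) (nat_lit 5) (nat_lit 138) (nat_lit 5) (nat_lit 491) (nat_lit 416) (nat_lit 233))))))))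
noncomputable def xc187 : XT := (XT.nd (nat_lit 2106) (nat_lit 0) (nat_lit 0) (XT.nd (nat_lit 1014) (nat_lit 2280) (nat_lit 0) (XT.nd (nat_lit 468) (nat_lit 1140) (nat_lit 0) (XT.nd (nat_lit 234) (nat_lit 456) (nat_lit 0) (XT.nd (nat_lit 78) (nat_lit 380) (nat_lit 0) (XT.lf (nat_lit 0) (nat_lit 5916936664) (nat_lit 532) (nat_lit 11913780283) (nat_lit 76) (nat_lit 2610440778) (nat_lit 131) (nat_lit 5) (nat_lit 138) (nat_lit 5) (nat_lit 132) (nat_lit 5) (nat_lit 492) (nat_lit 416) (nat_lit 232)) (XT.nd (nat_lit 78) (nat_lit 380) (nat_lit 0) (XT.lf (nat_lit 0) (nat_lit 9217447726) (nat_lit 532) (nat_lit 2410211538) (nat_lit 76) (nat_lit 9083755425) (nat_lit 131) (nat_lit 5) (nat_lit 138) (nat_lit 5) (nat_lit 132) (nat_lit 5) (nat_lit 493) (nat_lit 416) (nat_lit 231)) (XT.lf (nat_lit 0) (nat_lit 7370910787) (nat_lit 380) (nat_lit 5254240853) (nat_lit 456) (nat_lit 8361106191) (nat_lit 126) (nat_lit 5) (nat_lit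 131) (nat_lit 5) (nat_lit 132) (nat_lit 5) (nat_lit 494) (nat_lit 416) (nat_lit 230)))) (XT.nd (nat_lit 78) (nat_lit 456) (nat_lit 0) (XT.lf (nat_lit 0) (nat_lit 16118765578) (nat_lit 456) (nat_lit 3903397332) (nat_lit 76) (nat_lit 1244084407) (nat_lit 126) (nat_lit 5) (nat_lit 132) (nat_lit 5) (nat_lit 127) (nat_lit 5) (nat_lit 495) (nat_lit 416) (nat_lit 229)) (XT.nd (nat_lit 78) (nat_lit 76) (nat_lit 0) (XT.lf (nat_lit 0) (nat_lit 6038119017) (nat_lit 380) (nat_lit 13711643325) (nat_lit 456) (nat_lit 1800728550) (nat_lit 121) (nat_lit 5) (nat_lit 126) (nat_lit 5) (nat_lit 127) (nat_lit 5) (nat_lit 496) (nat_lit 416) (nat_lit 228)) (XT.lf (nat_lit 0) (nat_lit 1611705418) (nat_lit 456) (nat_lit 5628261770) (nat_lit 76) (nat_lit 14599849037) (nat_lit 120) (nat_lit 5) (nat_lit 126) (nat_lit 5) (nat_lit 121) (nat_lit 5) (nat_lit 497) (nat_lit 416) (nat_lit 227))))) (XT.nd (nat_lit 234) (nat_lit 380) (nat_lit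 0) (XT.nd (nat_lit 78) (nat_lit 380) (nat_lit 0) (XT.lf (nat_lit 0) (nat_lit 4491593922) (nat_lit 380) (nat_lit 599526796) (nat_lit 456) (nat_lit 17043116652) (nat_lit 115) (nat_lit 5) (nat_lit 120) (nat_lit 5) (nat_lit 121) (nat_lit 5) (nat_lit 498) (nat_lit 416) (nat_lit 226)) (XT.nd (nat_lit 78) (nat_lit 380) (nat_lit 0) (XT.lf (nat_lit 0) (nat_lit 8711936410) (nat_lit 456) (nat_lit 7592959779) (nat_lit 76) (nat_lit 6128218674) (nat_lit 115) (nat_lit 5) (nat_lit 121) (nat_lit 5) (nat_lit 116) (nat_lit 5) (nat_lit 499) (nat_lit 416) (nat_lit 225)) (XT.lf (nat_lit 0) (nat_lit 2680099640) (nat_lit 380) (nat_lit 9740272941) (nat_lit 456) (nat_lit 10317297325) (nat_lit 110) (nat_lit 5) (nat_lit 115) (nat_lit 5) (nat_lit 116) (nat_lit 5) (nat_lit 500) (nat_lit 416) (nat_lit 224)))) (XT.nd (nat_lit 156) (nat_lit 76) (nat_lit 0) (XT.nd (nat_lit 78) (nat_lit 304) (nat_lit 0) (XT.lf (nat_lit 0) (nat_lit 13252805160)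 (nat_lit 380) (nat_lit 2995022061) (nat_lit 456) (nat_lit 6799595841) (nat_lit 110) (nat_lit 5) (nat_lit 115) (nat_lit 5) (nat_lit 116) (nat_lit 5) (nat_lit 501) (nat_lit 416) (nat_lit 223)) (XT.lf (nat_lit 0) (nat_lit 648194733) (nat_lit 304) (nat_lit 19527069466) (nat_lit 380) (nat_lit 3187642340) (nat_lit 106) (nat_lit 5) (nat_lit 110) (nat_lit 5) (nat_lit 111) (nat_lit 5) (nat_lit 502) (nat_lit 416) (nat_lit 222))) (XT.nd (nat_lit 78) (nat_lit 0) (nat_lit 0) (XT.lf (nat_lit 0) (nat_lit 570053228) (nat_lit 380) (nat_lit 12282947991) (nat_lit 76) (nat_lit 10830037457) (nat_lit 105) (nat_lit 5) (nat_lit 110) (nat_lit 5) (nat_lit 106) (nat_lit 5) (nat_lit 503) (nat_lit 416) (nat_lit 221)) (XT.lf (nat_lit 0) (nat_lit 4354395801) (nat_lit 380) (nat_lit 1672189793) (nat_lit 76) (nat_lit 17982686640) (nat_lit 105) (nat_lit 5) (nat_lit 110) (nat_lit 5) (nat_lit 106) (nat_lit 5) (nat_lit 504) (nat_lit 416)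 (nat_lit 220)))))) (XT.nd (nat_lit 546) (nat_lit 912) (nat_lit 0) (XT.nd (nat_lit 234) (nat_lit 684) (nat_lit 0) (XT.nd (nat_lit 78) (nat_lit 304) (nat_lit 0) (XT.lf (nat_lit 0) (nat_lit 8275284254) (nat_lit 456) (nat_lit 15083488836) (nat_lit 76) (nat_lit 982043822) (nat_lit 100) (nat_lit 5) (nat_lit 106) (nat_lit 5) (nat_lit 101) (nat_lit 5) (nat_lit 505) (nat_lit 416) (nat_lit 219)) (XT.nd (nat_lit 78) (nat_lit 304) (nat_lit 0) (XT.lf (nat_lit 0) (nat_lit 12320089728) (nat_lit 456) (nat_lit 4299059014) (nat_lit 76) (nat_lit 8058937312) (nat_lit 100) (nat_lit 5) (nat_lit 106) (nat_lit 5) (nat_lit 101) (nat_lit 5) (nat_lit 506) (nat_lit 416) (nat_lit 218)) (XT.lf (nat_lit 0) (nat_lit 6781759519) (nat_lit 304) (nat_lit 9702467888) (nat_lit 380) (nat_lit 8537107935) (nat_lit 96) (nat_lit 5) (nat_lit 100) (nat_lit 5) (nat_lit 101) (nat_lit 5) (nat_lit 507) (nat_lit 416) (nat_lit 217)))) (XT.nd (nat_lit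 156) (nat_lit 380) (nat_lit 0) (XT.nd (nat_lit 78) (nat_lit 304) (nat_lit 0) (XT.lf (nat_lit 0) (nat_lit 18134279655) (nat_lit 304) (nat_lit 2620678092) (nat_lit 380) (nat_lit 4616029089) (nat_lit 96) (nat_lit 5) (nat_lit 100) (nat_lit 5) (nat_lit 101) (nat_lit 5) (nat_lit 508) (nat_lit 416) (nat_lit 216)) (XT.lf (nat_lit 0) (nat_lit 4000680232) (nat_lit 304) (nat_lit 21160834317) (nat_lit 380) (nat_lit 565111925) (nat_lit 92) (nat_lit 5) (nat_lit 96) (nat_lit 5) (nat_lit 97) (nat_lit 5) (nat_lit 509) (nat_lit 416) (nat_lit 215))) (XT.nd (nat_lit 78) (nat_lit 304) (nat_lit 0) (XT.lf (nat_lit 0) (nat_lit 3580851400) (nat_lit 380) (nat_lit 10576478178) (nat_lit 76) (nat_lit 11930373237) (nat_lit 91) (nat_lit 5) (nat_lit 96) (nat_lit 5) (nat_lit 92) (nat_lit 5) (nat_lit 510) (nat_lit 416) (nat_lit 214)) (XT.lf (nat_lit 0) (nat_lit 794672676) (nat_lit 304) (nat_lit 7007335737) (nat_lit 380) (nat_lit 18653923894)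 (nat_lit 87) (nat_lit 5) (nat_lit 91) (nat_lit 5) (nat_lit 92) (nat_lit 5) (nat_lit 511) (nat_lit 416) (nat_lit 213))))) (XT.nd (nat_lit 234) (nat_lit 608) (nat_lit 0) (XT.nd (nat_lit 78) (nat_lit 304) (nat_lit 0) (XT.lf (nat_lit 0) (nat_lit 12175597291) (nat_lit 380) (nat_lit 14303843230) (nat_lit 76) (nat_lit 350728788) (nat_lit 87) (nat_lit 5) (nat_lit 92) (nat_lit 5) (nat_lit 88) (nat_lit 5) (nat_lit 512) (nat_lit 416) (nat_lit 212)) (XT.nd (nat_lit 78) (nat_lit 304) (nat_lit 0) (XT.lf (nat_lit 0) (nat_lit 16677878147) (nat_lit 380) (nat_lit 2773552448) (nat_lit 76) (nat_lit 7759639089) (nat_lit 87) (nat_lit 5) (nat_lit 92) (nat_lit 5) (nat_lit 88) (nat_lit 5) (nat_lit 513) (nat_lit 416) (nat_lit 211)) (XT.lf (nat_lit 0) (nat_lit 9098965234) (nat_lit 304) (nat_lit 12225231590) (nat_lit 380) (nat_lit 6274314371) (nat_lit 83) (nat_lit 5) (nat_lit 87) (nat_lit 5) (nat_lit 88) (nat_lit 5) (nat_lit 514)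 (nat_lit 416) (nat_lit 210)))) (XT.nd (nat_lit 156) (nat_lit 304) (nat_lit 0) (XT.nd (nat_lit 78) (nat_lit 304) (nat_lit 0) (XT.lf (nat_lit 0) (nat_lit 21238866771) (nat_lit 304) (nat_lit 4838152732) (nat_lit 380) (nat_lit 1916413399) (nat_lit 83) (nat_lit 5) (nat_lit 87) (nat_lit 5) (nat_lit 88) (nat_lit 5) (nat_lit 515) (nat_lit 416) (nat_lit 209)) (XT.lf (nat_lit 0) (nat_lit 2542556907) (nat_lit 304) (nat_lit 23142732460) (nat_lit 76) (nat_lit 2709696628) (nat_lit 79) (nat_lit 5) (nat_lit 83) (nat_lit 5) (nat_lit 80) (nat_lit 5) (nat_lit 516) (nat_lit 416) (nat_lit 208))) (XT.nd (nat_lit 78) (nat_lit 304) (nat_lit 0) (XT.lf (nat_lit 0) (nat_lit 7137797920) (nat_lit 304) (nat_lit 11265542237) (nat_lit 76) (nat_lit 10399524352) (nat_lit 79) (nat_lit 5) (nat_lit 83) (nat_lit 5) (nat_lit 80) (nat_lit 5) (nat_lit 517) (nat_lit 416) (nat_lit 207)) (XT.lf (nat_lit 0) (nat_lit 852911469) (nat_lit 304) (nat_lit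 10972727273) (nat_lit 380) (nat_lit 17393250644) (nat_lit 75) (nat_lit 5) (nat_lit 79) (nat_lit 5) (nat_lit 80) (nat_lit 5) (nat_lit 518) (nat_lit 416) (nat_lit 206))))))) (XT.nd (nat_lit 52416) (nat_lit 0) (nat_lit 20976) (XT.nd (nat_lit 51870) (nat_lit 0) (nat_lit 23712) (XT.nd (nat_lit 51558) (nat_lit 0) (nat_lit 25004) (XT.nd (nat_lit 51402) (nat_lit 0) (nat_lit 25004) (XT.lf (nat_lit 0) (nat_lit 13359024353) (nat_lit 304) (nat_lit 3319013867) (nat_lit 380) (nat_lit 12963783147) (nat_lit 75) (nat_lit 5) (nat_lit 79) (nat_lit 5) (nat_lit 80) (nat_lit 5) (nat_lit 519) (nat_lit 416) (nat_lit 205)) (XT.nd (nat_lit 78) (nat_lit 0) (nat_lit 0) (XT.lf (nat_lit 0) (nat_lit 187480255) (nat_lit 0) (nat_lit 187480255) (nat_lit 1444) (nat_lit 4185104851) (nat_lit 404) (nat_lit 5) (nat_lit 404) (nat_lit 3) (nat_lit 423) (nat_lit 3) (nat_lit 417) (nat_lit 417) (nat_lit 306)) (XT.lf (nat_lit 0) (nat_lit 1602234617)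 (nat_lit 1444) (nat_lit 4703856037) (nat_lit 1520) (nat_lit 2887419618) (nat_lit 404) (nat_lit 5) (nat_lit 423) (nat_lit 3) (nat_lit 424) (nat_lit 5) (nat_lit 418) (nat_lit 417) (nat_lit 305)))) (XT.nd (nat_lit 156) (nat_lit 0) (nat_lit 76) (XT.nd (nat_lit 78) (nat_lit 0) (nat_lit 76) (XT.lf (nat_lit 0) (nat_lit 2452486478) (nat_lit 1444) (nat_lit 595557338) (nat_lit 1520) (nat_lit 6220720029) (nat_lit 404) (nat_lit 5) (nat_lit 423) (nat_lit 3) (nat_lit 424) (nat_lit 5) (nat_lit 419) (nat_lit 417) (nat_lit 304)) (XT.lf (nat_lit 0) (nat_lit 3324160812) (nat_lit 1444) (nat_lit 5716108016) (nat_lit 1520) (nat_lit 305189114) (nat_lit 405) (nat_lit 5) (nat_lit 424) (nat_lit 5) (nat_lit 425) (nat_lit 5) (nat_lit 420) (nat_lit 417) (nat_lit 303))) (XT.nd (nat_lit 78) (nat_lit 0) (nat_lit 0) (XT.lf (nat_lit 0) (nat_lit 4216716103) (nat_lit 1444) (nat_lit 1508555710) (nat_lit 1520) (nat_lit 3698368490) (nat_lit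 405) (nat_lit 5) (nat_lit 424) (nat_lit 5) (nat_lit 425) (nat_lit 5) (nat_lit 421) (nat_lit 417) (nat_lit 302)) (XT.lf (nat_lit 76) (nat_lit 2808644491) (nat_lit 0) (nat_lit 2316359454) (nat_lit 1520) (nat_lit 4378447614) (nat_lit 406) (nat_lit 5) (nat_lit 405) (nat_lit 5) (nat_lit 425) (nat_lit 5) (nat_lit 422) (nat_lit 417) (nat_lit 301))))) (XT.nd (nat_lit 234) (nat_lit 1444) (nat_lit 0) (XT.nd (nat_lit 78) (nat_lit 0) (nat_lit 0) (XT.lf (nat_lit 0) (nat_lit 6049212752) (nat_lit 1444) (nat_lit 2371366604) (nat_lit 1520) (nat_lit 1164347006) (nat_lit 406) (nat_lit 5) (nat_lit 425) (nat_lit 5) (nat_lit 426) (nat_lit 5) (nat_lit 423) (nat_lit 417) (nat_lit 300)) (XT.nd (nat_lit 78) (nat_lit 0) (nat_lit 0) (XT.lf (nat_lit 76) (nat_lit 2038422784) (nat_lit 0) (nat_lit 4962478192) (nat_lit 1520) (nat_lit 2666971766) (nat_lit 407) (nat_lit 5) (nat_lit 406) (nat_lit 5) (nat_lit 426) (nat_lit 5) (nat_lit 424)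 (nat_lit 417) (nat_lit 299)) (XT.lf (nat_lit 76) (nat_lit 6557114172) (nat_lit 0) (nat_lit 1411151883) (nat_lit 1520) (nat_lit 1784300690) (nat_lit 407) (nat_lit 5) (nat_lit 406) (nat_lit 5) (nat_lit 426) (nat_lit 5) (nat_lit 425) (nat_lit 417) (nat_lit 298)))) (XT.nd (nat_lit 156) (nat_lit 0) (nat_lit 0) (XT.nd (nat_lit 78) (nat_lit 1520) (nat_lit 0) (XT.lf (nat_lit 76) (nat_lit 1318497674) (nat_lit 0) (nat_lit 7640555573) (nat_lit 1520) (nat_lit 879841019) (nat_lit 408) (nat_lit 5) (nat_lit 407) (nat_lit 5) (nat_lit 427) (nat_lit 5) (nat_lit 426) (nat_lit 417) (nat_lit 297)) (XT.lf (nat_lit 0) (nat_lit 54386894) (nat_lit 1520) (nat_lit 3982096835) (nat_lit 1596) (nat_lit 5890234590) (nat_lit 387) (nat_lit 5) (nat_lit 407) (nat_lit 5) (nat_lit 408) (nat_lit 5) (nat_lit 427) (nat_lit 417) (nat_lit 296))) (XT.nd (nat_lit 78) (nat_lit 0) (nat_lit 76) (XT.lf (nat_lit 76) (nat_lit 637885770) (nat_lit 0) (nat_lit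 343460229) (nat_lit 1596) (nat_lit 9035139900) (nat_lit 388) (nat_lit 5) (nat_lit 387) (nat_lit 5) (nat_lit 408) (nat_lit 5) (nat_lit 428) (nat_lit 417) (nat_lit 295)) (XT.lf (nat_lit 0) (nat_lit 1957971988) (nat_lit 1520) (nat_lit 4737640507) (nat_lit 1596) (nat_lit 3411833306) (nat_lit 388) (nat_lit 5) (nat_lit 408) (nat_lit 5) (nat_lit 409) (nat_lit 5) (nat_lit 429) (nat_lit 417) (nat_lit 294)))))) (XT.nd (nat_lit 546) (nat_lit 2812) (nat_lit 0) (XT.nd (nat_lit 234) (nat_lit 0) (nat_lit 76) (XT.nd (nat_lit 78) (nat_lit 0) (nat_lit 76) (XT.lf (nat_lit 0) (nat_lit 2938759606) (nat_lit 1520) (nat_lit 17869997) (nat_lit 1596) (nat_lit 7243921856) (nat_lit 388) (nat_lit 5) (nat_lit 408) (nat_lit 5) (nat_lit 409) (nat_lit 5) (nat_lit 430) (nat_lit 417) (nat_lit 293)) (XT.nd (nat_lit 78) (nat_lit 0) (nat_lit 0) (XT.lf (nat_lit 0) (nat_lit 3959153578) (nat_lit 1520) (nat_lit 5452685953) (nat_lit 1596) (nat_lit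 883298654) (nat_lit 389) (nat_lit 5) (nat_lit 409) (nat_lit 5) (nat_lit 410) (nat_lit 5) (nat_lit 431) (nat_lit 417) (nat_lit 292)) (XT.lf (nat_lit 0) (nat_lit 5002658405) (nat_lit 1520) (nat_lit 622795698) (nat_lit 1596) (nat_lit 4766126881) (nat_lit 389) (nat_lit 5) (nat_lit 409) (nat_lit 5) (nat_lit 410) (nat_lit 5) (nat_lit 432) (nat_lit 417) (nat_lit 291)))) (XT.nd (nat_lit 156) (nat_lit 0) (nat_lit 76) (XT.nd (nat_lit 78) (nat_lit 0) (nat_lit 76) (XT.lf (nat_lit 76) (nat_lit 4349140487) (nat_lit 0) (nat_lit 1729465578) (nat_lit 1596) (nat_lit 4411133154) (nat_lit 390) (nat_lit 5) (nat_lit 389) (nat_lit 5) (nat_lit 410) (nat_lit 5) (nat_lit 433) (nat_lit 417) (nat_lit 290)) (XT.lf (nat_lit 0) (nat_lit 7178471080) (nat_lit 1520) (nat_lit 1187312678) (nat_lit 1596) (nat_lit 2224046579) (nat_lit 390) (nat_lit 5) (nat_lit 410) (nat_lit 5) (nat_lit 411) (nat_lit 5) (nat_lit 434) (nat_lit 417) (nat_lit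 289))) (XT.nd (nat_lit 78) (nat_lit 0) (nat_lit 0) (XT.lf (nat_lit 76) (nat_lit 3892982943) (nat_lit 0) (nat_lit 4428019912) (nat_lit 1596) (nat_lit 2370524368) (nat_lit 391) (nat_lit 5) (nat_lit 390) (nat_lit 5) (nat_lit 411) (nat_lit 5) (nat_lit 435) (nat_lit 417) (nat_lit 288)) (XT.lf (nat_lit 76) (nat_lit 9079395611) (nat_lit 0) (nat_lit 399137060) (nat_lit 1596) (nat_lit 1316899424) (nat_lit 391) (nat_lit 5) (nat_lit 390) (nat_lit 5) (nat_lit 411) (nat_lit 5) (nat_lit 436) (nat_lit 417) (nat_lit 287))))) (XT.nd (nat_lit 234) (nat_lit 1444) (nat_lit 0) (XT.nd (nat_lit 78) (nat_lit 1596) (nat_lit 0) (XT.lf (nat_lit 76) (nat_lit 3477935422) (nat_lit 0) (nat_lit 7212465684) (nat_lit 1596) (nat_lit 210406862) (nat_lit 392) (nat_lit 5) (nat_lit 391) (nat_lit 5) (nat_lit 412) (nat_lit 5) (nat_lit 437) (nat_lit 417) (nat_lit 286)) (XT.nd (nat_lit 78) (nat_lit 0) (nat_lit 76) (XT.lf (nat_lit 0) (nat_lit 905036039)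 (nat_lit 1596) (nat_lit 2229547346) (nat_lit 1672) (nat_lit 7873627495) (nat_lit 370) (nat_lit 5) (nat_lit 391) (nat_lit 5) (nat_lit 392) (nat_lit 5) (nat_lit 438) (nat_lit 417) (nat_lit 285)) (XT.lf (nat_lit 0) (nat_lit 2051817500) (nat_lit 1596) (nat_lit 8029243333) (nat_lit 1672) (nat_lit 1036451963) (nat_lit 371) (nat_lit 5) (nat_lit 392) (nat_lit 5) (nat_lit 393) (nat_lit 5) (nat_lit 439) (nat_lit 417) (nat_lit 284)))) (XT.nd (nat_lit 156) (nat_lit 1520) (nat_lit 0) (XT.nd (nat_lit 78) (nat_lit 0) (nat_lit 0) (XT.lf (nat_lit 0) (nat_lit 3242525352) (nat_lit 1596) (nat_lit 2718772888) (nat_lit 1672) (nat_lit 5267298090) (nat_lit 371) (nat_lit 5) (nat_lit 392) (nat_lit 5) (nat_lit 393) (nat_lit 5) (nat_lit 440) (nat_lit 417) (nat_lit 283)) (XT.lf (nat_lit 76) (nat_lit 2721960708) (nat_lit 0) (nat_lit 1738221596) (nat_lit 1672) (nat_lit 6881671624) (nat_lit 372) (nat_lit 5) (nat_lit 371) (nat_lit 5)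 (nat_lit 393) (nat_lit 5) (nat_lit 441) (nat_lit 417) (nat_lit 282))) (XT.nd (nat_lit 78) (nat_lit 1596) (nat_lit 0) (XT.lf (nat_lit 0) (nat_lit 5722929354) (nat_lit 1596) (nat_lit 3177339579) (nat_lit 76) (nat_lit 2556707804) (nat_lit 372) (nat_lit 5) (nat_lit 393) (nat_lit 5) (nat_lit 373) (nat_lit 5) (nat_lit 442) (nat_lit 417) (nat_lit 281)) (XT.lf (nat_lit 0) (nat_lit 2382141125) (nat_lit 1596) (nat_lit 4641738676) (nat_lit 1672) (nat_lit 4550277737) (nat_lit 351) (nat_lit 5) (nat_lit 372) (nat_lit 5) (nat_lit 373) (nat_lit 5) (nat_lit 443) (nat_lit 417) (nat_lit 280))))))))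
noncomputable def xc188 : XT := (XT.nd (nat_lit 2106) (nat_lit 6688) (nat_lit 0) (XT.nd (nat_lit 1014) (nat_lit 4788) (nat_lit 0) (XT.nd (nat_lit 468) (nat_lit 2432) (nat_lit 0) (XT.nd (nat_lit 234) (nat_lit 1900) (nat_lit 0) (XT.nd (nat_lit 78) (nat_lit 1672) (nat_lit 0) (XT.lf (nat_lit 0) (nat_lit 8084302974) (nat_lit 1596) (nat_lit 274038433) (nat_lit 1672) (nat_lit 3335204927) (nat_lit 351) (nat_lit 5) (nat_lit 372) (nat_lit 5) (nat_lit 373) (nat_lit 5) (nat_lit 444) (nat_lit 417) (nat_lit 279)) (XT.nd (nat_lit 78) (nat_lit 0) (nat_lit 0) (XT.lf (nat_lit 0) (nat_lit 2073584093) (nat_lit 1672) (nat_lit 7672973189) (nat_lit 1748) (nat_lit 2068238267) (nat_lit 329) (nat_lit 5) (nat_lit 351) (nat_lit 5) (nat_lit 352) (nat_lit 5) (nat_lit 445) (nat_lit 417) (nat_lit 278)) (XT.lf (nat_lit 0) (nat_lit 7905579487) (nat_lit 1672) (nat_lit 3269627244) (nat_lit 1748) (nat_lit 763023302) (nat_lit 329) (nat_lit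 5) (nat_lit 351) (nat_lit 5) (nat_lit 352) (nat_lit 5) (nat_lit 446) (nat_lit 417) (nat_lit 277)))) (XT.nd (nat_lit 78) (nat_lit 836) (nat_lit 0) (XT.lf (nat_lit 0) (nat_lit 567372860) (nat_lit 1064) (nat_lit 10273704698) (nat_lit 76) (nat_lit 1222864387) (nat_lit 315) (nat_lit 5) (nat_lit 329) (nat_lit 5) (nat_lit 316) (nat_lit 5) (nat_lit 447) (nat_lit 417) (nat_lit 276)) (XT.nd (nat_lit 78) (nat_lit 836) (nat_lit 0) (XT.lf (nat_lit 0) (nat_lit 1950065860) (nat_lit 1064) (nat_lit 4446008552) (nat_lit 76) (nat_lit 5795287579) (nat_lit 315) (nat_lit 5) (nat_lit 329) (nat_lit 5) (nat_lit 316) (nat_lit 5) (nat_lit 448) (nat_lit 417) (nat_lit 275)) (XT.lf (nat_lit 0) (nat_lit 1506487002) (nat_lit 836) (nat_lit 1850964343) (nat_lit 912) (nat_lit 8963950949) (nat_lit 304) (nat_lit 5) (nat_lit 315) (nat_lit 5) (nat_lit 316) (nat_lit 5) (nat_lit 449) (nat_lit 417) (nat_lit 274))))) (XT.nd (nat_lit 234) (nat_lit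 1596) (nat_lit 0) (XT.nd (nat_lit 78) (nat_lit 836) (nat_lit 0) (XT.lf (nat_lit 0) (nat_lit 4828540010) (nat_lit 912) (nat_lit 4845135059) (nat_lit 76) (nat_lit 2779669606) (nat_lit 304) (nat_lit 5) (nat_lit 316) (nat_lit 5) (nat_lit 305) (nat_lit 5) (nat_lit 450) (nat_lit 417) (nat_lit 273)) (XT.nd (nat_lit 78) (nat_lit 0) (nat_lit 0) (XT.lf (nat_lit 0) (nat_lit 1236521825) (nat_lit 836) (nat_lit 5100501699) (nat_lit 912) (nat_lit 6250755055) (nat_lit 293) (nat_lit 5) (nat_lit 304) (nat_lit 5) (nat_lit 305) (nat_lit 5) (nat_lit 451) (nat_lit 417) (nat_lit 272)) (XT.lf (nat_lit 0) (nat_lit 7494086324) (nat_lit 836) (nat_lit 401957911) (nat_lit 912) (nat_lit 4828461478) (nat_lit 293) (nat_lit 5) (nat_lit 304) (nat_lit 5) (nat_lit 305) (nat_lit 5) (nat_lit 452) (nat_lit 417) (nat_lit 271)))) (XT.nd (nat_lit 156) (nat_lit 836) (nat_lit 0) (XT.nd (nat_lit 78) (nat_lit 0) (nat_lit 0) (XT.lf (nat_lit 0) (nat_lit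 985824000) (nat_lit 760) (nat_lit 8523425394) (nat_lit 836) (nat_lit 3354269580) (nat_lit 283) (nat_lit 5) (nat_lit 293) (nat_lit 5) (nat_lit 294) (nat_lit 5) (nat_lit 453) (nat_lit 417) (nat_lit 270)) (XT.lf (nat_lit 0) (nat_lit 7383236264) (nat_lit 760) (nat_lit 3797482370) (nat_lit 836) (nat_lit 1824085305) (nat_lit 283) (nat_lit 5) (nat_lit 293) (nat_lit 5) (nat_lit 294) (nat_lit 5) (nat_lit 454) (nat_lit 417) (nat_lit 269))) (XT.nd (nat_lit 78) (nat_lit 76) (nat_lit 0) (XT.lf (nat_lit 0) (nat_lit 751517018) (nat_lit 760) (nat_lit 12134110813) (nat_lit 836) (nat_lit 263297776) (nat_lit 273) (nat_lit 5) (nat_lit 283) (nat_lit 5) (nat_lit 284) (nat_lit 5) (nat_lit 455) (nat_lit 417) (nat_lit 268)) (XT.lf (nat_lit 0) (nat_lit 1362957279) (nat_lit 836) (nat_lit 6012403123) (nat_lit 76) (nat_lit 5919373988) (nat_lit 272) (nat_lit 5) (nat_lit 283) (nat_lit 5) (nat_lit 273) (nat_lit 5) (nat_lit 456) (nat_lit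 417) (nat_lit 267)))))) (XT.nd (nat_lit 546) (nat_lit 2660) (nat_lit 0) (XT.nd (nat_lit 234) (nat_lit 684) (nat_lit 0) (XT.nd (nat_lit 78) (nat_lit 760) (nat_lit 0) (XT.lf (nat_lit 0) (nat_lit 493792213) (nat_lit 684) (nat_lit 2516408981) (nat_lit 760) (nat_lit 10433394128) (nat_lit 263) (nat_lit 5) (nat_lit 272) (nat_lit 5) (nat_lit 273) (nat_lit 5) (nat_lit 457) (nat_lit 417) (nat_lit 266)) (XT.nd (nat_lit 78) (nat_lit 760) (nat_lit 0) (XT.lf (nat_lit 0) (nat_lit 4735770717) (nat_lit 760) (nat_lit 6410522804) (nat_lit 76) (nat_lit 2448242697) (nat_lit 263) (nat_lit 5) (nat_lit 273) (nat_lit 5) (nat_lit 264) (nat_lit 5) (nat_lit 458) (nat_lit 417) (nat_lit 265)) (XT.lf (nat_lit 0) (nat_lit 234780931) (nat_lit 760) (nat_lit 6268403986) (nat_lit 836) (nat_lit 7245174505) (nat_lit 253) (nat_lit 5) (nat_lit 263) (nat_lit 5) (nat_lit 264) (nat_lit 5) (nat_lit 459) (nat_lit 417) (nat_lit 264)))) (XT.nd (nat_lit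 156) (nat_lit 684) (nat_lit 0) (XT.nd (nat_lit 78) (nat_lit 0) (nat_lit 0) (XT.lf (nat_lit 0) (nat_lit 7088784185) (nat_lit 760) (nat_lit 1249465950) (nat_lit 836) (nat_lit 5566372859) (nat_lit 253) (nat_lit 5) (nat_lit 263) (nat_lit 5) (nat_lit 264) (nat_lit 5) (nat_lit 460) (nat_lit 417) (nat_lit 263)) (XT.lf (nat_lit 0) (nat_lit 10224634682) (nat_lit 836) (nat_lit 20372548) (nat_lit 76) (nat_lit 3818722009) (nat_lit 253) (nat_lit 5) (nat_lit 264) (nat_lit 5) (nat_lit 254) (nat_lit 5) (nat_lit 461) (nat_lit 417) (nat_lit 262))) (XT.nd (nat_lit 78) (nat_lit 0) (nat_lit 0) (XT.lf (nat_lit 0) (nat_lit 6983432524) (nat_lit 684) (nat_lit 5208628498) (nat_lit 760) (nat_lit 2033099876) (nat_lit 244) (nat_lit 5) (nat_lit 253) (nat_lit 5) (nat_lit 254) (nat_lit 5) (nat_lit 462) (nat_lit 417) (nat_lit 261)) (XT.lf (nat_lit 0) (nat_lit 14116776588) (nat_lit 684) (nat_lit 72026215) (nat_lit 760) (nat_lit 201228433)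 (nat_lit 244) (nat_lit 5) (nat_lit 253) (nat_lit 5) (nat_lit 254) (nat_lit 5) (nat_lit 463) (nat_lit 417) (nat_lit 260))))) (XT.nd (nat_lit 234) (nat_lit 1292) (nat_lit 0) (XT.nd (nat_lit 78) (nat_lit 608) (nat_lit 0) (XT.lf (nat_lit 0) (nat_lit 1714104342) (nat_lit 760) (nat_lit 7687648397) (nat_lit 76) (nat_lit 5154864947) (nat_lit 234) (nat_lit 5) (nat_lit 244) (nat_lit 5) (nat_lit 235) (nat_lit 5) (nat_lit 464) (nat_lit 417) (nat_lit 259)) (XT.nd (nat_lit 78) (nat_lit 608) (nat_lit 0) (XT.lf (nat_lit 0) (nat_lit 3657451936) (nat_lit 760) (nat_lit 581454595) (nat_lit 76) (nat_lit 10487763521) (nat_lit 234) (nat_lit 5) (nat_lit 244) (nat_lit 5) (nat_lit 235) (nat_lit 5) (nat_lit 465) (nat_lit 417) (nat_lit 258)) (XT.lf (nat_lit 0) (nat_lit 5680682298) (nat_lit 684) (nat_lit 8161745705) (nat_lit 76) (nat_lit 1056883815) (nat_lit 226) (nat_lit 5) (nat_lit 235) (nat_lit 5) (nat_lit 227) (nat_lit 5) (nat_lit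 466) (nat_lit 417) (nat_lit 257)))) (XT.nd (nat_lit 156) (nat_lit 608) (nat_lit 0) (XT.nd (nat_lit 78) (nat_lit 684) (nat_lit 0) (XT.lf (nat_lit 0) (nat_lit 7766764616) (nat_lit 684) (nat_lit 903363652) (nat_lit 76) (nat_lit 6404838903) (nat_lit 226) (nat_lit 5) (nat_lit 235) (nat_lit 5) (nat_lit 227) (nat_lit 5) (nat_lit 467) (nat_lit 417) (nat_lit 256)) (XT.lf (nat_lit 0) (nat_lit 6575854849) (nat_lit 684) (nat_lit 3351984439) (nat_lit 760) (nat_lit 5325639262) (nat_lit 217) (nat_lit 5) (nat_lit 226) (nat_lit 5) (nat_lit 227) (nat_lit 5) (nat_lit 468) (nat_lit 417) (nat_lit 255))) (XT.nd (nat_lit 78) (nat_lit 608) (nat_lit 0) (XT.lf (nat_lit 0) (nat_lit 12142378534) (nat_lit 760) (nat_lit 1242723883) (nat_lit 76) (nat_lit 2050261045) (nat_lit 217) (nat_lit 5) (nat_lit 227) (nat_lit 5) (nat_lit 218) (nat_lit 5) (nat_lit 469) (nat_lit 417) (nat_lit 254)) (XT.lf (nat_lit 0) (nat_lit 6392025883) (nat_lit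 608) (nat_lit 8063749880) (nat_lit 684) (nat_lit 1164026976) (nat_lit 209) (nat_lit 5) (nat_lit 217) (nat_lit 5) (nat_lit 218) (nat_lit 5) (nat_lit 470) (nat_lit 417) (nat_lit 253))))))) (XT.nd (nat_lit 1014) (nat_lit 3268) (nat_lit 0) (XT.nd (nat_lit 468) (nat_lit 1596) (nat_lit 0) (XT.nd (nat_lit 234) (nat_lit 1140) (nat_lit 0) (XT.nd (nat_lit 78) (nat_lit 608) (nat_lit 0) (XT.lf (nat_lit 0) (nat_lit 993602342) (nat_lit 684) (nat_lit 1628586136) (nat_lit 76) (nat_lit 13185633074) (nat_lit 208) (nat_lit 5) (nat_lit 217) (nat_lit 5) (nat_lit 209) (nat_lit 5) (nat_lit 471) (nat_lit 417) (nat_lit 252)) (XT.nd (nat_lit 78) (nat_lit 0) (nat_lit 0) (XT.lf (nat_lit 0) (nat_lit 3229383124) (nat_lit 684) (nat_lit 9832477780) (nat_lit 76) (nat_lit 2936581795) (nat_lit 200) (nat_lit 5) (nat_lit 209) (nat_lit 5) (nat_lit 201) (nat_lit 5) (nat_lit 472) (nat_lit 417) (nat_lit 251)) (XT.lf (nat_lit 0) (nat_lit 5529434136)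 (nat_lit 684) (nat_lit 2082053462) (nat_lit 76) (nat_lit 8581004979) (nat_lit 200) (nat_lit 5) (nat_lit 209) (nat_lit 5) (nat_lit 201) (nat_lit 5) (nat_lit 473) (nat_lit 417) (nat_lit 250)))) (XT.nd (nat_lit 78) (nat_lit 608) (nat_lit 0) (XT.lf (nat_lit 0) (nat_lit 5890396865) (nat_lit 532) (nat_lit 2014694530) (nat_lit 608) (nat_lit 8484747205) (nat_lit 193) (nat_lit 5) (nat_lit 200) (nat_lit 5) (nat_lit 201) (nat_lit 5) (nat_lit 474) (nat_lit 417) (nat_lit 249)) (XT.nd (nat_lit 78) (nat_lit 608) (nat_lit 0) (XT.lf (nat_lit 0) (nat_lit 10357763758) (nat_lit 608) (nat_lit 2574745753) (nat_lit 76) (nat_lit 3658039106) (nat_lit 193) (nat_lit 5) (nat_lit 201) (nat_lit 5) (nat_lit 194) (nat_lit 5) (nat_lit 475) (nat_lit 417) (nat_lit 248)) (XT.lf (nat_lit 0) (nat_lit 5557860838) (nat_lit 608) (nat_lit 7342677605) (nat_lit 684) (nat_lit 3893920384) (nat_lit 185) (nat_lit 5) (nat_lit 193) (nat_lit 5) (nat_lit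 194) (nat_lit 5) (nat_lit 476) (nat_lit 417) (nat_lit 247))))) (XT.nd (nat_lit 234) (nat_lit 988) (nat_lit 0) (XT.nd (nat_lit 78) (nat_lit 608) (nat_lit 0) (XT.lf (nat_lit 0) (nat_lit 13877954278) (nat_lit 608) (nat_lit 1625212386) (nat_lit 684) (nat_lit 1499107454) (nat_lit 185) (nat_lit 5) (nat_lit 193) (nat_lit 5) (nat_lit 194) (nat_lit 5) (nat_lit 477) (nat_lit 417) (nat_lit 246)) (XT.nd (nat_lit 78) (nat_lit 0) (nat_lit 0) (XT.lf (nat_lit 0) (nat_lit 984389855) (nat_lit 608) (nat_lit 12038860086) (nat_lit 76) (nat_lit 4189816540) (nat_lit 177) (nat_lit 5) (nat_lit 185) (nat_lit 5) (nat_lit 178) (nat_lit 5) (nat_lit 478) (nat_lit 417) (nat_lit 245)) (XT.lf (nat_lit 0) (nat_lit 3521276644) (nat_lit 608) (nat_lit 3777505918) (nat_lit 76) (nat_lit 10128624537) (nat_lit 177) (nat_lit 5) (nat_lit 185) (nat_lit 5) (nat_lit 178) (nat_lit 5) (nat_lit 479) (nat_lit 417) (nat_lit 244)))) (XT.nd (nat_lit 156)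 (nat_lit 456) (nat_lit 0) (XT.nd (nat_lit 78) (nat_lit 0) (nat_lit 0) (XT.lf (nat_lit 0) (nat_lit 4700850409) (nat_lit 532) (nat_lit 1430636645) (nat_lit 608) (nat_lit 11514102073) (nat_lit 170) (nat_lit 5) (nat_lit 177) (nat_lit 5) (nat_lit 178) (nat_lit 5) (nat_lit 480) (nat_lit 417) (nat_lit 243)) (XT.lf (nat_lit 0) (nat_lit 8841135795) (nat_lit 608) (nat_lit 4507352701) (nat_lit 76) (nat_lit 4518707807) (nat_lit 170) (nat_lit 5) (nat_lit 178) (nat_lit 5) (nat_lit 171) (nat_lit 5) (nat_lit 481) (nat_lit 417) (nat_lit 242))) (XT.nd (nat_lit 78) (nat_lit 0) (nat_lit 0) (XT.lf (nat_lit 0) (nat_lit 4133754187) (nat_lit 456) (nat_lit 7499834797) (nat_lit 532) (nat_lit 6459080479) (nat_lit 164) (nat_lit 5) (nat_lit 170) (nat_lit 5) (nat_lit 171) (nat_lit 5) (nat_lit 482) (nat_lit 417) (nat_lit 241)) (XT.lf (nat_lit 0) (nat_lit 12999078461) (nat_lit 456) (nat_lit 1505445490) (nat_lit 532) (nat_lit 3817681431)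 (nat_lit 164) (nat_lit 5) (nat_lit 170) (nat_lit 5) (nat_lit 171) (nat_lit 5) (nat_lit 483) (nat_lit 417) (nat_lit 240)))))) (XT.nd (nat_lit 546) (nat_lit 1292) (nat_lit 0) (XT.nd (nat_lit 234) (nat_lit 912) (nat_lit 0) (XT.nd (nat_lit 78) (nat_lit 532) (nat_lit 0) (XT.lf (nat_lit 0) (nat_lit 3491591784) (nat_lit 532) (nat_lit 13986401157) (nat_lit 608) (nat_lit 1077442606) (nat_lit 157) (nat_lit 5) (nat_lit 164) (nat_lit 5) (nat_lit 165) (nat_lit 5) (nat_lit 484) (nat_lit 417) (nat_lit 239)) (XT.nd (nat_lit 78) (nat_lit 456) (nat_lit 0) (XT.lf (nat_lit 0) (nat_lit 1733553479) (nat_lit 608) (nat_lit 6268908602) (nat_lit 76) (nat_lit 10789881223) (nat_lit 156) (nat_lit 5) (nat_lit 164) (nat_lit 5) (nat_lit 157) (nat_lit 5) (nat_lit 485) (nat_lit 417) (nat_lit 238)) (XT.lf (nat_lit 0) (nat_lit 2720970258) (nat_lit 456) (nat_lit 1875749894) (nat_lit 532) (nat_lit 14436924571) (nat_lit 150) (nat_lit 5) (nat_lit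 156) (nat_lit 5) (nat_lit 157) (nat_lit 5) (nat_lit 486) (nat_lit 417) (nat_lit 237)))) (XT.nd (nat_lit 156) (nat_lit 456) (nat_lit 0) (XT.nd (nat_lit 78) (nat_lit 456) (nat_lit 0) (XT.lf (nat_lit 0) (nat_lit 7580657300) (nat_lit 532) (nat_lit 7341560116) (nat_lit 76) (nat_lit 4356290002) (nat_lit 150) (nat_lit 5) (nat_lit 157) (nat_lit 5) (nat_lit 151) (nat_lit 5) (nat_lit 487) (nat_lit 417) (nat_lit 236)) (XT.lf (nat_lit 0) (nat_lit 1810914147) (nat_lit 456) (nat_lit 8830445971) (nat_lit 532) (nat_lit 8886570794) (nat_lit 144) (nat_lit 5) (nat_lit 150) (nat_lit 5) (nat_lit 151) (nat_lit 5) (nat_lit 488) (nat_lit 417) (nat_lit 235))) (XT.nd (nat_lit 78) (nat_lit 456) (nat_lit 0) (XT.lf (nat_lit 0) (nat_lit 11236625805) (nat_lit 456) (nat_lit 2568902516) (nat_lit 532) (nat_lit 5975974708) (nat_lit 144) (nat_lit 5) (nat_lit 150) (nat_lit 5) (nat_lit 151) (nat_lit 5) (nat_lit 489) (nat_lit 417) (nat_lit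 234)) (XT.lf (nat_lit 0) (nat_lit 786964291) (nat_lit 456) (nat_lit 16269021648) (nat_lit 532) (nat_lit 2983705607) (nat_lit 138) (nat_lit 5) (nat_lit 144) (nat_lit 5) (nat_lit 145) (nat_lit 5) (nat_lit 490) (nat_lit 417) (nat_lit 233))))) (XT.nd (nat_lit 234) (nat_lit 760) (nat_lit 0) (XT.nd (nat_lit 78) (nat_lit 456) (nat_lit 0) (XT.lf (nat_lit 0) (nat_lit 135378302) (nat_lit 532) (nat_lit 9907771774) (nat_lit 76) (nat_lit 10258532424) (nat_lit 137) (nat_lit 5) (nat_lit 144) (nat_lit 5) (nat_lit 138) (nat_lit 5) (nat_lit 491) (nat_lit 417) (nat_lit 232)) (XT.nd (nat_lit 78) (nat_lit 456) (nat_lit 0) (XT.lf (nat_lit 0) (nat_lit 3270197711) (nat_lit 532) (nat_lit 404803250) (nat_lit 76) (nat_lit 16893656538) (nat_lit 137) (nat_lit 5) (nat_lit 144) (nat_lit 5) (nat_lit 138) (nat_lit 5) (nat_lit 492) (nat_lit 417) (nat_lit 231)) (XT.lf (nat_lit 0) (nat_lit 6540863348) (nat_lit 532) (nat_lit 11455995530)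 (nat_lit 76) (nat_lit 2842654816) (nat_lit 131) (nat_lit 5) (nat_lit 138) (nat_lit 5) (nat_lit 132) (nat_lit 5) (nat_lit 493) (nat_lit 417) (nat_lit 230)))) (XT.nd (nat_lit 156) (nat_lit 380) (nat_lit 0) (XT.nd (nat_lit 78) (nat_lit 380) (nat_lit 0) (XT.lf (nat_lit 0) (nat_lit 9897471142) (nat_lit 532) (nat_lit 1776003651) (nat_lit 76) (nat_lit 9441906242) (nat_lit 131) (nat_lit 5) (nat_lit 138) (nat_lit 5) (nat_lit 132) (nat_lit 5) (nat_lit 494) (nat_lit 417) (nat_lit 229)) (XT.lf (nat_lit 0) (nat_lit 8196251567) (nat_lit 380) (nat_lit 5171759984) (nat_lit 456) (nat_lit 8027822675) (nat_lit 126) (nat_lit 5) (nat_lit 131) (nat_lit 5) (nat_lit 132) (nat_lit 5) (nat_lit 495) (nat_lit 417) (nat_lit 228))) (XT.nd (nat_lit 78) (nat_lit 380) (nat_lit 0) (XT.lf (nat_lit 0) (nat_lit 16923076849) (nat_lit 456) (nat_lit 3308079469) (nat_lit 76) (nat_lit 1450442300) (nat_lit 126) (nat_lit 5) (nat_lit 132) (nat_lit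 5) (nat_lit 127) (nat_lit 5) (nat_lit 496) (nat_lit 417) (nat_lit 227)) (XT.lf (nat_lit 0) (nat_lit 6827837037) (nat_lit 380) (nat_lit 13793750090) (nat_lit 456) (nat_lit 1350048633) (nat_lit 121) (nat_lit 5) (nat_lit 126) (nat_lit 5) (nat_lit 127) (nat_lit 5) (nat_lit 497) (nat_lit 417) (nat_lit 226))))))))
noncomputable def xc189 : XT := (XT.nd (nat_lit 53508) (nat_lit 0) (nat_lit 17404) (XT.nd (nat_lit 1014) (nat_lit 1292) (nat_lit 0) (XT.nd (nat_lit 468) (nat_lit 1064) (nat_lit 0) (XT.nd (nat_lit 234) (nat_lit 684) (nat_lit 0) (XT.nd (nat_lit 78) (nat_lit 380) (nat_lit 0) (XT.lf (nat_lit 0) (nat_lit 2114833058) (nat_lit 456) (nat_lit 5078414607) (nat_lit 76) (nat_lit 15073631405) (nat_lit 120) (nat_lit 5) (nat_lit 126) (nat_lit 5) (nat_lit 121) (nat_lit 5) (nat_lit 498) (nat_lit 417) (nat_lit 225)) (XT.nd (nat_lit 78) (nat_lit 0) (nat_lit 0) (XT.lf (nat_lit 0) (nat_lit 5239480222) (nat_lit 380) (nat_lit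 419395761) (nat_lit 456) (nat_lit 16908418057) (nat_lit 115) (nat_lit 5) (nat_lit 120) (nat_lit 5) (nat_lit 121) (nat_lit 5) (nat_lit 499) (nat_lit 417) (nat_lit 224)) (XT.lf (nat_lit 0) (nat_lit 9344194973) (nat_lit 456) (nat_lit 7091451211) (nat_lit 76) (nat_lit 6436667226) (nat_lit 115) (nat_lit 5) (nat_lit 121) (nat_lit 5) (nat_lit 116) (nat_lit 5) (nat_lit 500) (nat_lit 417) (nat_lit 223)))) (XT.nd (nat_lit 78) (nat_lit 304) (nat_lit 0) (XT.lf (nat_lit 0) (nat_lit 3382770925) (nat_lit 380) (nat_lit 9739262351) (nat_lit 456) (nat_lit 10061027560) (nat_lit 110) (nat_lit 5) (nat_lit 115) (nat_lit 5) (nat_lit 116) (nat_lit 5) (nat_lit 501) (nat_lit 417) (nat_lit 222)) (XT.nd (nat_lit 78) (nat_lit 304) (nat_lit 0) (XT.lf (nat_lit 0) (nat_lit 14154203706) (nat_lit 380) (nat_lit 2862945983) (nat_lit 456) (nat_lit 6482042941) (nat_lit 110) (nat_lit 5) (nat_lit 115) (nat_lit 5) (nat_lit 116) (nat_lit 5) (nat_lit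 502) (nat_lit 417) (nat_lit 221)) (XT.lf (nat_lit 0) (nat_lit 1301194873) (nat_lit 304) (nat_lit 19718605016) (nat_lit 380) (nat_lit 2801258317) (nat_lit 106) (nat_lit 5) (nat_lit 110) (nat_lit 5) (nat_lit 111) (nat_lit 5) (nat_lit 503) (nat_lit 417) (nat_lit 220))))) (XT.nd (nat_lit 234) (nat_lit 608) (nat_lit 0) (XT.nd (nat_lit 78) (nat_lit 380) (nat_lit 0) (XT.lf (nat_lit 0) (nat_lit 1016977080) (nat_lit 380) (nat_lit 11895057811) (nat_lit 76) (nat_lit 11235679345) (nat_lit 105) (nat_lit 5) (nat_lit 110) (nat_lit 5) (nat_lit 106) (nat_lit 5) (nat_lit 504) (nat_lit 417) (nat_lit 219)) (XT.nd (nat_lit 78) (nat_lit 380) (nat_lit 0) (XT.lf (nat_lit 0) (nat_lit 4868466843) (nat_lit 380) (nat_lit 1084506981) (nat_lit 76) (nat_lit 18527674824) (nat_lit 105) (nat_lit 5) (nat_lit 110) (nat_lit 5) (nat_lit 106) (nat_lit 5) (nat_lit 505) (nat_lit 417) (nat_lit 218)) (XT.lf (nat_lit 0) (nat_lit 8864669405) (nat_lit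 456) (nat_lit 14760664258) (nat_lit 76) (nat_lit 1193557911) (nat_lit 100) (nat_lit 5) (nat_lit 106) (nat_lit 5) (nat_lit 101) (nat_lit 5) (nat_lit 506) (nat_lit 417) (nat_lit 217)))) (XT.nd (nat_lit 156) (nat_lit 304) (nat_lit 0) (XT.nd (nat_lit 78) (nat_lit 304) (nat_lit 0) (XT.lf (nat_lit 0) (nat_lit 12982059627) (nat_lit 456) (nat_lit 3772790826) (nat_lit 76) (nat_lit 8408227051) (nat_lit 100) (nat_lit 5) (nat_lit 106) (nat_lit 5) (nat_lit 101) (nat_lit 5) (nat_lit 507) (nat_lit 417) (nat_lit 216)) (XT.lf (nat_lit 0) (nat_lit 7525616121) (nat_lit 304) (nat_lit 9699664521) (nat_lit 380) (nat_lit 8288000202) (nat_lit 96) (nat_lit 5) (nat_lit 100) (nat_lit 5) (nat_lit 101) (nat_lit 5) (nat_lit 508) (nat_lit 417) (nat_lit 215))) (XT.nd (nat_lit 78) (nat_lit 304) (nat_lit 0) (XT.lf (nat_lit 0) (nat_lit 19093260750) (nat_lit 304) (nat_lit 2480098787) (nat_lit 380) (nat_lit 4296732129) (nat_lit 96) (nat_lit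 5) (nat_lit 100) (nat_lit 5) (nat_lit 101) (nat_lit 5) (nat_lit 509) (nat_lit 417) (nat_lit 214)) (XT.lf (nat_lit 0) (nat_lit 4680081752) (nat_lit 304) (nat_lit 21385177920) (nat_lit 380) (nat_lit 167645059) (nat_lit 92) (nat_lit 5) (nat_lit 96) (nat_lit 5) (nat_lit 97) (nat_lit 5) (nat_lit 510) (nat_lit 417) (nat_lit 213)))))) (XT.nd (nat_lit 546) (nat_lit 304) (nat_lit 0) (XT.nd (nat_lit 234) (nat_lit 608) (nat_lit 0) (XT.nd (nat_lit 78) (nat_lit 304) (nat_lit 0) (XT.lf (nat_lit 0) (nat_lit 4047966490) (nat_lit 380) (nat_lit 10194882068) (nat_lit 76) (nat_lit 12358463851) (nat_lit 91) (nat_lit 5) (nat_lit 96) (nat_lit 5) (nat_lit 92) (nat_lit 5) (nat_lit 511) (nat_lit 417) (nat_lit 212)) (XT.nd (nat_lit 78) (nat_lit 0) (nat_lit 0) (XT.lf (nat_lit 0) (nat_lit 1399789662) (nat_lit 304) (nat_lit 6949827748) (nat_lit 380) (nat_lit 18627372263) (nat_lit 87) (nat_lit 5) (nat_lit 91) (nat_lit 5) (nat_lit 92)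 (nat_lit 5) (nat_lit 512) (nat_lit 417) (nat_lit 211)) (XT.lf (nat_lit 0) (nat_lit 12804258388) (nat_lit 380) (nat_lit 14005604892) (nat_lit 76) (nat_lit 548981037) (nat_lit 87) (nat_lit 5) (nat_lit 92) (nat_lit 5) (nat_lit 88) (nat_lit 5) (nat_lit 513) (nat_lit 417) (nat_lit 210)))) (XT.nd (nat_lit 156) (nat_lit 304) (nat_lit 0) (XT.nd (nat_lit 78) (nat_lit 304) (nat_lit 0) (XT.lf (nat_lit 0) (nat_lit 17389032916) (nat_lit 380) (nat_lit 2256165455) (nat_lit 76) (nat_lit 8102319785) (nat_lit 87) (nat_lit 5) (nat_lit 92) (nat_lit 5) (nat_lit 88) (nat_lit 5) (nat_lit 514) (nat_lit 417) (nat_lit 209)) (XT.lf (nat_lit 0) (nat_lit 9850033778) (nat_lit 304) (nat_lit 12274535228) (nat_lit 380) (nat_lit 6018218005) (nat_lit 83) (nat_lit 5) (nat_lit 87) (nat_lit 5) (nat_lit 88) (nat_lit 5) (nat_lit 515) (nat_lit 417) (nat_lit 208))) (XT.nd (nat_lit 78) (nat_lit 304) (nat_lit 0) (XT.lf (nat_lit 0) (nat_lit 22221574733)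 (nat_lit 304) (nat_lit 4743542263) (nat_lit 380) (nat_lit 1580641027) (nat_lit 83) (nat_lit 5) (nat_lit 87) (nat_lit 5) (nat_lit 88) (nat_lit 5) (nat_lit 516) (nat_lit 417) (nat_lit 207)) (XT.lf (nat_lit 0) (nat_lit 2960252780) (nat_lit 304) (nat_lit 23039988198) (nat_lit 76) (nat_lit 2955103695) (nat_lit 79) (nat_lit 5) (nat_lit 83) (nat_lit 5) (nat_lit 80) (nat_lit 5) (nat_lit 517) (nat_lit 417) (nat_lit 206))))) (XT.nd (nat_lit 51636) (nat_lit 0) (nat_lit 25004) (XT.nd (nat_lit 78) (nat_lit 304) (nat_lit 0) (XT.lf (nat_lit 0) (nat_lit 7640205578) (nat_lit 304) (nat_lit 10936344345) (nat_lit 76) (nat_lit 10794978696) (nat_lit 79) (nat_lit 5) (nat_lit 83) (nat_lit 5) (nat_lit 80) (nat_lit 5) (nat_lit 518) (nat_lit 417) (nat_lit 205)) (XT.nd (nat_lit 51480) (nat_lit 0) (nat_lit 25004) (XT.lf (nat_lit 0) (nat_lit 1420830352) (nat_lit 304) (nat_lit 10997497425) (nat_lit 380) (nat_lit 17377619652) (nat_lit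 75) (nat_lit 5) (nat_lit 79) (nat_lit 5) (nat_lit 80) (nat_lit 5) (nat_lit 519) (nat_lit 417) (nat_lit 204)) (XT.lf (nat_lit 0) (nat_lit 601458082) (nat_lit 0) (nat_lit 601458082) (nat_lit 1444) (nat_lit 3431021912) (nat_lit 404) (nat_lit 5) (nat_lit 404) (nat_lit 3) (nat_lit 423) (nat_lit 3) (nat_lit 418) (nat_lit 418) (nat_lit 304)))) (XT.nd (nat_lit 156) (nat_lit 0) (nat_lit 0) (XT.nd (nat_lit 78) (nat_lit 0) (nat_lit 0) (XT.lf (nat_lit 0) (nat_lit 3237794937) (nat_lit 1444) (nat_lit 3954363966) (nat_lit 1520) (nat_lit 2151348393) (nat_lit 404) (nat_lit 5) (nat_lit 423) (nat_lit 3) (nat_lit 424) (nat_lit 5) (nat_lit 419) (nat_lit 418) (nat_lit 303)) (XT.lf (nat_lit 76) (nat_lit 222477972) (nat_lit 0) (nat_lit 3852576855) (nat_lit 1520) (nat_lit 5345846405) (nat_lit 405) (nat_lit 5) (nat_lit 404) (nat_lit 5) (nat_lit 424) (nat_lit 5) (nat_lit 420) (nat_lit 418) (nat_lit 302))) (XT.nd (nat_lit 78) (nat_lit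 0) (nat_lit 76) (XT.lf (nat_lit 76) (nat_lit 4525613506) (nat_lit 0) (nat_lit 409565995) (nat_lit 1520) (nat_lit 4564564028) (nat_lit 405) (nat_lit 5) (nat_lit 404) (nat_lit 5) (nat_lit 424) (nat_lit 5) (nat_lit 421) (nat_lit 418) (nat_lit 301)) (XT.lf (nat_lit 0) (nat_lit 5812693856) (nat_lit 1444) (nat_lit 696609838) (nat_lit 1520) (nat_lit 3070877663) (nat_lit 405) (nat_lit 5) (nat_lit 424) (nat_lit 5) (nat_lit 425) (nat_lit 5) (nat_lit 422) (nat_lit 418) (nat_lit 300))))))) (XT.nd (nat_lit 1092) (nat_lit 6308) (nat_lit 0) (XT.nd (nat_lit 546) (nat_lit 0) (nat_lit 76) (XT.nd (nat_lit 234) (nat_lit 1368) (nat_lit 0) (XT.nd (nat_lit 78) (nat_lit 0) (nat_lit 76) (XT.lf (nat_lit 76) (nat_lit 3701394124) (nat_lit 0) (nat_lit 3013544875) (nat_lit 1520) (nat_lit 2947167319) (nat_lit 406) (nat_lit 5) (nat_lit 405) (nat_lit 5) (nat_lit 425) (nat_lit 5) (nat_lit 423) (nat_lit 418) (nat_lit 299)) (XT.nd (nat_lit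 78) (nat_lit 0) (nat_lit 0) (XT.lf (nat_lit 0) (nat_lit 7624323645) (nat_lit 1444) (nat_lit 1563679408) (nat_lit 1520) (nat_lit 557906388) (nat_lit 406) (nat_lit 5) (nat_lit 425) (nat_lit 5) (nat_lit 426) (nat_lit 5) (nat_lit 424) (nat_lit 418) (nat_lit 298)) (XT.lf (nat_lit 76) (nat_lit 2928680014) (nat_lit 0) (nat_lit 5643368778) (nat_lit 1520) (nat_lit 1258957913) (nat_lit 407) (nat_lit 5) (nat_lit 406) (nat_lit 5) (nat_lit 426) (nat_lit 5) (nat_lit 425) (nat_lit 418) (nat_lit 297)))) (XT.nd (nat_lit 156) (nat_lit 0) (nat_lit 0) (XT.nd (nat_lit 78) (nat_lit 1444) (nat_lit 0) (XT.lf (nat_lit 76) (nat_lit 7521088587) (nat_lit 0) (nat_lit 2009611216) (nat_lit 1520) (nat_lit 387287402) (nat_lit 407) (nat_lit 5) (nat_lit 406) (nat_lit 5) (nat_lit 426) (nat_lit 5) (nat_lit 426) (nat_lit 418) (nat_lit 296)) (XT.lf (nat_lit 0) (nat_lit 502487627) (nat_lit 1520) (nat_lit 7804554445) (nat_lit 1596) (nat_lit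 1699474946) (nat_lit 387) (nat_lit 5) (nat_lit 407) (nat_lit 5) (nat_lit 408) (nat_lit 5) (nat_lit 427) (nat_lit 418) (nat_lit 295))) (XT.nd (nat_lit 78) (nat_lit 0) (nat_lit 0) (XT.lf (nat_lit 0) (nat_lit 1416411307) (nat_lit 1520) (nat_lit 3198578657) (nat_lit 1596) (nat_lit 5481565008) (nat_lit 387) (nat_lit 5) (nat_lit 407) (nat_lit 5) (nat_lit 408) (nat_lit 5) (nat_lit 428) (nat_lit 418) (nat_lit 294)) (XT.lf (nat_lit 76) (nat_lit 1508124916) (nat_lit 0) (nat_lit 832666984) (nat_lit 1596) (nat_lit 7847777357) (nat_lit 388) (nat_lit 5) (nat_lit 387) (nat_lit 5) (nat_lit 408) (nat_lit 5) (nat_lit 429) (nat_lit 418) (nat_lit 293))))) (XT.nd (nat_lit 234) (nat_lit 0) (nat_lit 76) (XT.nd (nat_lit 78) (nat_lit 0) (nat_lit 0) (XT.lf (nat_lit 0) (nat_lit 3307609197) (nat_lit 1520) (nat_lit 3960962487) (nat_lit 1596) (nat_lit 3013391927) (nat_lit 388) (nat_lit 5) (nat_lit 408) (nat_lit 5) (nat_lit 409) (nat_lit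 5) (nat_lit 430) (nat_lit 418) (nat_lit 292)) (XT.nd (nat_lit 78) (nat_lit 0) (nat_lit 76) (XT.lf (nat_lit 76) (nat_lit 847228101) (nat_lit 0) (nat_lit 3440589590) (nat_lit 1596) (nat_lit 6089545463) (nat_lit 389) (nat_lit 5) (nat_lit 388) (nat_lit 5) (nat_lit 409) (nat_lit 5) (nat_lit 431) (nat_lit 418) (nat_lit 291)) (XT.lf (nat_lit 0) (nat_lit 5300734045) (nat_lit 1520) (nat_lit 4683644641) (nat_lit 1596) (nat_lit 490047966) (nat_lit 389) (nat_lit 5) (nat_lit 409) (nat_lit 5) (nat_lit 410) (nat_lit 5) (nat_lit 432) (nat_lit 418) (nat_lit 290)))) (XT.nd (nat_lit 156) (nat_lit 0) (nat_lit 76) (XT.nd (nat_lit 78) (nat_lit 0) (nat_lit 0) (XT.lf (nat_lit 76) (nat_lit 228624318) (nat_lit 0) (nat_lit 6113216141) (nat_lit 1596) (nat_lit 4231450008) (nat_lit 390) (nat_lit 5) (nat_lit 389) (nat_lit 5) (nat_lit 410) (nat_lit 5) (nat_lit 433) (nat_lit 418) (nat_lit 289)) (XT.lf (nat_lit 76) (nat_lit 5291337111)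 (nat_lit 0) (nat_lit 2127770657) (nat_lit 1596) (nat_lit 3254734352) (nat_lit 390) (nat_lit 5) (nat_lit 389) (nat_lit 5) (nat_lit 410) (nat_lit 5) (nat_lit 434) (nat_lit 418) (nat_lit 288))) (XT.nd (nat_lit 78) (nat_lit 0) (nat_lit 0) (XT.lf (nat_lit 0) (nat_lit 8514754323) (nat_lit 1520) (nat_lit 345110713) (nat_lit 1596) (nat_lit 1916620089) (nat_lit 390) (nat_lit 5) (nat_lit 410) (nat_lit 5) (nat_lit 411) (nat_lit 5) (nat_lit 435) (nat_lit 418) (nat_lit 287)) (XT.lf (nat_lit 76) (nat_lit 4831093792) (nat_lit 0) (nat_lit 4831241717) (nat_lit 1596) (nat_lit 1218261710) (nat_lit 391) (nat_lit 5) (nat_lit 390) (nat_lit 5) (nat_lit 411) (nat_lit 5) (nat_lit 436) (nat_lit 418) (nat_lit 286)))))) (XT.nd (nat_lit 546) (nat_lit 5016) (nat_lit 0) (XT.nd (nat_lit 234) (nat_lit 0) (nat_lit 76) (XT.nd (nat_lit 78) (nat_lit 1520) (nat_lit 0) (XT.lf (nat_lit 76) (nat_lit 10104367043) (nat_lit 0) (nat_lit 715611376)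 (nat_lit 1596) (nat_lit 167087271) (nat_lit 391) (nat_lit 5) (nat_lit 390) (nat_lit 5) (nat_lit 411) (nat_lit 5) (nat_lit 437) (nat_lit 418) (nat_lit 285)) (XT.nd (nat_lit 78) (nat_lit 0) (nat_lit 0) (XT.lf (nat_lit 0) (nat_lit 929834883) (nat_lit 1596) (nat_lit 6689635313) (nat_lit 1672) (nat_lit 3475359607) (nat_lit 370) (nat_lit 5) (nat_lit 391) (nat_lit 5) (nat_lit 392) (nat_lit 5) (nat_lit 438) (nat_lit 418) (nat_lit 284)) (XT.lf (nat_lit 0) (nat_lit 2042386926) (nat_lit 1596) (nat_lit 1411097841) (nat_lit 1672) (nat_lit 7751339162) (nat_lit 370) (nat_lit 5) (nat_lit 391) (nat_lit 5) (nat_lit 392) (nat_lit 5) (nat_lit 439) (nat_lit 418) (nat_lit 283)))) (XT.nd (nat_lit 156) (nat_lit 0) (nat_lit 0) (XT.nd (nat_lit 78) (nat_lit 0) (nat_lit 0) (XT.lf (nat_lit 0) (nat_lit 3194130500) (nat_lit 1596) (nat_lit 7307670931) (nat_lit 1672) (nat_lit 814892790) (nat_lit 371) (nat_lit 5) (nat_lit 392) (nat_lit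 5) (nat_lit 393) (nat_lit 5) (nat_lit 440) (nat_lit 418) (nat_lit 282)) (XT.lf (nat_lit 0) (nat_lit 4387058849) (nat_lit 1596) (nat_lit 1908288278) (nat_lit 1672) (nat_lit 5135106588) (nat_lit 371) (nat_lit 5) (nat_lit 392) (nat_lit 5) (nat_lit 393) (nat_lit 5) (nat_lit 441) (nat_lit 418) (nat_lit 281))) (XT.nd (nat_lit 78) (nat_lit 0) (nat_lit 76) (XT.lf (nat_lit 76) (nat_lit 3635570122) (nat_lit 0) (nat_lit 1977906867) (nat_lit 1672) (nat_lit 5932833294) (nat_lit 372) (nat_lit 5) (nat_lit 371) (nat_lit 5) (nat_lit 393) (nat_lit 5) (nat_lit 442) (nat_lit 418) (nat_lit 280)) (XT.lf (nat_lit 0) (nat_lit 6879310054) (nat_lit 1596) (nat_lit 2375316364) (nat_lit 76) (nat_lit 2409574054) (nat_lit 372) (nat_lit 5) (nat_lit 393) (nat_lit 5) (nat_lit 373) (nat_lit 5) (nat_lit 443) (nat_lit 418) (nat_lit 279))))) (XT.nd (nat_lit 234) (nat_lit 1900) (nat_lit 0) (XT.nd (nat_lit 78) (nat_lit 1672) (nat_lit 0) (XT.lf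 (nat_lit 0) (nat_lit 3289659414) (nat_lit 1596) (nat_lit 4901773133) (nat_lit 1672) (nat_lit 3592610406) (nat_lit 351) (nat_lit 5) (nat_lit 372) (nat_lit 5) (nat_lit 373) (nat_lit 5) (nat_lit 444) (nat_lit 418) (nat_lit 278)) (XT.nd (nat_lit 78) (nat_lit 1672) (nat_lit 0) (XT.lf (nat_lit 0) (nat_lit 9089004197) (nat_lit 1596) (nat_lit 443440459) (nat_lit 1672) (nat_lit 2373798354) (nat_lit 351) (nat_lit 5) (nat_lit 372) (nat_lit 5) (nat_lit 373) (nat_lit 5) (nat_lit 445) (nat_lit 418) (nat_lit 277)) (XT.lf (nat_lit 0) (nat_lit 2974617016) (nat_lit 1672) (nat_lit 7958601406) (nat_lit 1748) (nat_lit 1097023220) (nat_lit 329) (nat_lit 5) (nat_lit 351) (nat_lit 5) (nat_lit 352) (nat_lit 5) (nat_lit 446) (nat_lit 418) (nat_lit 276)))) (XT.nd (nat_lit 156) (nat_lit 836) (nat_lit 0) (XT.nd (nat_lit 78) (nat_lit 988) (nat_lit 0) (XT.lf (nat_lit 0) (nat_lit 211629097) (nat_lit 1748) (nat_lit 3251547757) (nat_lit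 76) (nat_lit 8693348935) (nat_lit 328) (nat_lit 5) (nat_lit 351) (nat_lit 5) (nat_lit 329) (nat_lit 5) (nat_lit 447) (nat_lit 418) (nat_lit 275)) (XT.lf (nat_lit 0) (nat_lit 1543995265) (nat_lit 1064) (nat_lit 9607088876) (nat_lit 76) (nat_lit 1133874482) (nat_lit 315) (nat_lit 5) (nat_lit 329) (nat_lit 5) (nat_lit 316) (nat_lit 5) (nat_lit 448) (nat_lit 418) (nat_lit 274))) (XT.nd (nat_lit 78) (nat_lit 836) (nat_lit 0) (XT.lf (nat_lit 0) (nat_lit 2935415165) (nat_lit 1064) (nat_lit 3679938609) (nat_lit 76) (nat_lit 5799970593) (nat_lit 315) (nat_lit 5) (nat_lit 329) (nat_lit 5) (nat_lit 316) (nat_lit 5) (nat_lit 449) (nat_lit 418) (nat_lit 273)) (XT.lf (nat_lit 0) (nat_lit 2385981921) (nat_lit 836) (nat_lit 1971925238) (nat_lit 912) (nat_lit 8190337531) (nat_lit 304) (nat_lit 5) (nat_lit 315) (nat_lit 5) (nat_lit 316) (nat_lit 5) (nat_lit 450) (nat_lit 418) (nat_lit 272))))))))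
noncomputable def xc190 : XT := (XT.nd (nat_lit 2106) (nat_lit 6080) (nat_lit 0) (XT.nd (nat_lit 1014) (nat_lit 4484) (nat_lit 0) (XT.nd (nat_lit 468) (nat_lit 2128) (nat_lit 0) (XT.nd (nat_lit 234) (nat_lit 1596) (nat_lit 0) (XT.nd (nat_lit 78) (nat_lit 836) (nat_lit 0) (XT.lf (nat_lit 0) (nat_lit 5839583146) (nat_lit 912) (nat_lit 4089590865) (nat_lit 76) (nat_lit 2754046626) (nat_lit 304) (nat_lit 5) (nat_lit 316) (nat_lit 5) (nat_lit 305) (nat_lit 5) (nat_lit 451) (nat_lit 418) (nat_lit 271)) (XT.nd (nat_lit 78) (nat_lit 0) (nat_lit 0) (XT.lf (nat_lit 0) (nat_lit 2108090953) (nat_lit 836) (nat_lit 5257712785) (nat_lit 912) (nat_lit 5454805809) (nat_lit 293) (nat_lit 5) (nat_lit 304) (nat_lit 5) (nat_lit 305) (nat_lit 5) (nat_lit 452) (nat_lit 418) (nat_lit 270)) (XT.lf (nat_lit 0) (nat_lit 8474202062) (nat_lit 836) (nat_lit 464115747) (nat_lit 912) (nat_lit 4022124484) (nat_lit 293) (nat_lit 5) (nat_lit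 304) (nat_lit 5) (nat_lit 305) (nat_lit 5) (nat_lit 453) (nat_lit 418) (nat_lit 269)))) (XT.nd (nat_lit 78) (nat_lit 836) (nat_lit 0) (XT.lf (nat_lit 0) (nat_lit 1849092958) (nat_lit 760) (nat_lit 8722486282) (nat_lit 836) (nat_lit 2530917726) (nat_lit 283) (nat_lit 5) (nat_lit 293) (nat_lit 5) (nat_lit 294) (nat_lit 5) (nat_lit 454) (nat_lit 418) (nat_lit 268)) (XT.nd (nat_lit 78) (nat_lit 836) (nat_lit 0) (XT.lf (nat_lit 0) (nat_lit 8357913223) (nat_lit 760) (nat_lit 3901463763) (nat_lit 836) (nat_lit 987589320) (nat_lit 283) (nat_lit 5) (nat_lit 293) (nat_lit 5) (nat_lit 294) (nat_lit 5) (nat_lit 455) (nat_lit 418) (nat_lit 267)) (XT.lf (nat_lit 0) (nat_lit 584901765) (nat_lit 836) (nat_lit 11791949382) (nat_lit 76) (nat_lit 1017288489) (nat_lit 272) (nat_lit 5) (nat_lit 283) (nat_lit 5) (nat_lit 273) (nat_lit 5) (nat_lit 456) (nat_lit 418) (nat_lit 266))))) (XT.nd (nat_lit 234) (nat_lit 1444) (nat_lit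 0) (XT.nd (nat_lit 78) (nat_lit 684) (nat_lit 0) (XT.lf (nat_lit 0) (nat_lit 2223494106) (nat_lit 836) (nat_lit 5297686789) (nat_lit 76) (nat_lit 6021997833) (nat_lit 272) (nat_lit 5) (nat_lit 283) (nat_lit 5) (nat_lit 273) (nat_lit 5) (nat_lit 457) (nat_lit 418) (nat_lit 265)) (XT.nd (nat_lit 78) (nat_lit 0) (nat_lit 0) (XT.lf (nat_lit 0) (nat_lit 1333139267) (nat_lit 684) (nat_lit 2559590331) (nat_lit 760) (nat_lit 9802521734) (nat_lit 263) (nat_lit 5) (nat_lit 272) (nat_lit 5) (nat_lit 273) (nat_lit 5) (nat_lit 458) (nat_lit 418) (nat_lit 264)) (XT.lf (nat_lit 0) (nat_lit 5636731996) (nat_lit 760) (nat_lit 5708693354) (nat_lit 76) (nat_lit 2504122352) (nat_lit 263) (nat_lit 5) (nat_lit 273) (nat_lit 5) (nat_lit 264) (nat_lit 5) (nat_lit 459) (nat_lit 418) (nat_lit 263)))) (XT.nd (nat_lit 156) (nat_lit 684) (nat_lit 0) (XT.nd (nat_lit 78) (nat_lit 0) (nat_lit 0) (XT.lf (nat_lit 0) (nat_lit 1064055667)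 (nat_lit 760) (nat_lit 6364983786) (nat_lit 836) (nat_lit 6577631810) (nat_lit 253) (nat_lit 5) (nat_lit 263) (nat_lit 5) (nat_lit 264) (nat_lit 5) (nat_lit 460) (nat_lit 418) (nat_lit 262)) (XT.lf (nat_lit 0) (nat_lit 8038970767) (nat_lit 760) (nat_lit 1246231466) (nat_lit 836) (nat_lit 4881184448) (nat_lit 253) (nat_lit 5) (nat_lit 263) (nat_lit 5) (nat_lit 264) (nat_lit 5) (nat_lit 461) (nat_lit 418) (nat_lit 261))) (XT.nd (nat_lit 78) (nat_lit 0) (nat_lit 0) (XT.lf (nat_lit 0) (nat_lit 798075555) (nat_lit 684) (nat_lit 10401302420) (nat_lit 760) (nat_lit 3129510023) (nat_lit 244) (nat_lit 5) (nat_lit 253) (nat_lit 5) (nat_lit 254) (nat_lit 5) (nat_lit 462) (nat_lit 418) (nat_lit 260)) (XT.lf (nat_lit 0) (nat_lit 7926171479) (nat_lit 684) (nat_lit 5265012441) (nat_lit 760) (nat_lit 1302677687) (nat_lit 244) (nat_lit 5) (nat_lit 253) (nat_lit 5) (nat_lit 254) (nat_lit 5) (nat_lit 463) (nat_lit 418)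 (nat_lit 259)))))) (XT.nd (nat_lit 546) (nat_lit 2432) (nat_lit 0) (XT.nd (nat_lit 234) (nat_lit 684) (nat_lit 0) (XT.nd (nat_lit 78) (nat_lit 608) (nat_lit 0) (XT.lf (nat_lit 0) (nat_lit 527438608) (nat_lit 684) (nat_lit 19475075) (nat_lit 760) (nat_lit 14115285520) (nat_lit 234) (nat_lit 5) (nat_lit 243) (nat_lit 5) (nat_lit 244) (nat_lit 5) (nat_lit 464) (nat_lit 418) (nat_lit 258)) (XT.nd (nat_lit 78) (nat_lit 608) (nat_lit 0) (XT.lf (nat_lit 0) (nat_lit 2485318910) (nat_lit 760) (nat_lit 7033718630) (nat_lit 76) (nat_lit 5313317168) (nat_lit 234) (nat_lit 5) (nat_lit 244) (nat_lit 5) (nat_lit 235) (nat_lit 5) (nat_lit 465) (nat_lit 418) (nat_lit 257)) (XT.lf (nat_lit 0) (nat_lit 201403575) (nat_lit 608) (nat_lit 4252987870) (nat_lit 684) (nat_lit 10551692392) (nat_lit 226) (nat_lit 5) (nat_lit 234) (nat_lit 5) (nat_lit 235) (nat_lit 5) (nat_lit 466) (nat_lit 418) (nat_lit 256)))) (XT.nd (nat_lit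 156) (nat_lit 684) (nat_lit 0) (XT.nd (nat_lit 78) (nat_lit 0) (nat_lit 0) (XT.lf (nat_lit 0) (nat_lit 6508195147) (nat_lit 684) (nat_lit 7523919997) (nat_lit 76) (nat_lit 1150273743) (nat_lit 226) (nat_lit 5) (nat_lit 235) (nat_lit 5) (nat_lit 227) (nat_lit 5) (nat_lit 467) (nat_lit 418) (nat_lit 255)) (XT.lf (nat_lit 0) (nat_lit 8622001088) (nat_lit 684) (nat_lit 136077373) (nat_lit 76) (nat_lit 6603771223) (nat_lit 226) (nat_lit 5) (nat_lit 235) (nat_lit 5) (nat_lit 227) (nat_lit 5) (nat_lit 468) (nat_lit 418) (nat_lit 254))) (XT.nd (nat_lit 78) (nat_lit 0) (nat_lit 0) (XT.lf (nat_lit 0) (nat_lit 7487558698) (nat_lit 684) (nat_lit 3330080493) (nat_lit 760) (nat_lit 4726477395) (nat_lit 217) (nat_lit 5) (nat_lit 226) (nat_lit 5) (nat_lit 227) (nat_lit 5) (nat_lit 469) (nat_lit 418) (nat_lit 253)) (XT.lf (nat_lit 0) (nat_lit 13063481594) (nat_lit 760) (nat_lit 489106982) (nat_lit 76) (nat_lit 2177322269)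 (nat_lit 217) (nat_lit 5) (nat_lit 227) (nat_lit 5) (nat_lit 218) (nat_lit 5) (nat_lit 470) (nat_lit 418) (nat_lit 252))))) (XT.nd (nat_lit 234) (nat_lit 1140) (nat_lit 0) (XT.nd (nat_lit 78) (nat_lit 684) (nat_lit 0) (XT.lf (nat_lit 0) (nat_lit 7293216257) (nat_lit 608) (nat_lit 8121652482) (nat_lit 684) (nat_lit 503347390) (nat_lit 209) (nat_lit 5) (nat_lit 217) (nat_lit 5) (nat_lit 218) (nat_lit 5) (nat_lit 471) (nat_lit 418) (nat_lit 251)) (XT.nd (nat_lit 78) (nat_lit 608) (nat_lit 0) (XT.lf (nat_lit 0) (nat_lit 1675229159) (nat_lit 684) (nat_lit 893616880) (nat_lit 76) (nat_lit 13541336376) (nat_lit 208) (nat_lit 5) (nat_lit 217) (nat_lit 5) (nat_lit 209) (nat_lit 5) (nat_lit 472) (nat_lit 418) (nat_lit 250)) (XT.lf (nat_lit 0) (nat_lit 3948406725) (nat_lit 684) (nat_lit 9253718043) (nat_lit 76) (nat_lit 3102648583) (nat_lit 200) (nat_lit 5) (nat_lit 209) (nat_lit 5) (nat_lit 201) (nat_lit 5) (nat_lit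 473) (nat_lit 418) (nat_lit 249)))) (XT.nd (nat_lit 156) (nat_lit 608) (nat_lit 0) (XT.nd (nat_lit 78) (nat_lit 532) (nat_lit 0) (XT.lf (nat_lit 0) (nat_lit 6281626680) (nat_lit 684) (nat_lit 1363489342) (nat_lit 76) (nat_lit 8857855620) (nat_lit 200) (nat_lit 5) (nat_lit 209) (nat_lit 5) (nat_lit 201) (nat_lit 5) (nat_lit 474) (nat_lit 418) (nat_lit 248)) (XT.lf (nat_lit 0) (nat_lit 6763408641) (nat_lit 532) (nat_lit 1933711260) (nat_lit 608) (nat_lit 8007308792) (nat_lit 193) (nat_lit 5) (nat_lit 200) (nat_lit 5) (nat_lit 201) (nat_lit 5) (nat_lit 475) (nat_lit 418) (nat_lit 247))) (XT.nd (nat_lit 78) (nat_lit 608) (nat_lit 0) (XT.lf (nat_lit 0) (nat_lit 11187187748) (nat_lit 608) (nat_lit 1873668995) (nat_lit 76) (nat_lit 3848539682) (nat_lit 193) (nat_lit 5) (nat_lit 201) (nat_lit 5) (nat_lit 194) (nat_lit 5) (nat_lit 476) (nat_lit 418) (nat_lit 246)) (XT.lf (nat_lit 0) (nat_lit 6416638599) (nat_lit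 608) (nat_lit 7356832030) (nat_lit 684) (nat_lit 3344071310) (nat_lit 185) (nat_lit 5) (nat_lit 193) (nat_lit 5) (nat_lit 194) (nat_lit 5) (nat_lit 477) (nat_lit 418) (nat_lit 245))))))) (XT.nd (nat_lit 1092) (nat_lit 2508) (nat_lit 0) (XT.nd (nat_lit 546) (nat_lit 1976) (nat_lit 0) (XT.nd (nat_lit 234) (nat_lit 988) (nat_lit 0) (XT.nd (nat_lit 78) (nat_lit 608) (nat_lit 0) (XT.lf (nat_lit 0) (nat_lit 14888474681) (nat_lit 608) (nat_lit 1527619450) (nat_lit 684) (nat_lit 913670504) (nat_lit 185) (nat_lit 5) (nat_lit 193) (nat_lit 5) (nat_lit 194) (nat_lit 5) (nat_lit 478) (nat_lit 418) (nat_lit 244)) (XT.nd (nat_lit 78) (nat_lit 0) (nat_lit 0) (XT.lf (nat_lit 0) (nat_lit 1605185141) (nat_lit 608) (nat_lit 11531398077) (nat_lit 76) (nat_lit 4408244085) (nat_lit 177) (nat_lit 5) (nat_lit 185) (nat_lit 5) (nat_lit 178) (nat_lit 5) (nat_lit 479) (nat_lit 418) (nat_lit 243)) (XT.lf (nat_lit 0) (nat_lit 4181023244)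 (nat_lit 608) (nat_lit 3119488183) (nat_lit 76) (nat_lit 10463188415) (nat_lit 177) (nat_lit 5) (nat_lit 185) (nat_lit 5) (nat_lit 178) (nat_lit 5) (nat_lit 480) (nat_lit 418) (nat_lit 242)))) (XT.nd (nat_lit 156) (nat_lit 456) (nat_lit 0) (XT.nd (nat_lit 78) (nat_lit 0) (nat_lit 0) (XT.lf (nat_lit 0) (nat_lit 5523609166) (nat_lit 532) (nat_lit 1313004856) (nat_lit 608) (nat_lit 11149777160) (nat_lit 170) (nat_lit 5) (nat_lit 177) (nat_lit 5) (nat_lit 178) (nat_lit 5) (nat_lit 481) (nat_lit 418) (nat_lit 241)) (XT.lf (nat_lit 0) (nat_lit 9589965122) (nat_lit 608) (nat_lit 3872105677) (nat_lit 76) (nat_lit 4750578530) (nat_lit 170) (nat_lit 5) (nat_lit 178) (nat_lit 5) (nat_lit 171) (nat_lit 5) (nat_lit 482) (nat_lit 418) (nat_lit 240))) (XT.nd (nat_lit 78) (nat_lit 0) (nat_lit 0) (XT.lf (nat_lit 0) (nat_lit 4937051019) (nat_lit 456) (nat_lit 7494679294) (nat_lit 532) (nat_lit 6011041219) (nat_lit 164)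 (nat_lit 5) (nat_lit 170) (nat_lit 5) (nat_lit 171) (nat_lit 5) (nat_lit 483) (nat_lit 418) (nat_lit 239)) (XT.lf (nat_lit 0) (nat_lit 13965551940) (nat_lit 456) (nat_lit 1383444401) (nat_lit 532) (nat_lit 3328132246) (nat_lit 164) (nat_lit 5) (nat_lit 170) (nat_lit 5) (nat_lit 171) (nat_lit 5) (nat_lit 484) (nat_lit 418) (nat_lit 238))))) (XT.nd (nat_lit 234) (nat_lit 912) (nat_lit 0) (XT.nd (nat_lit 78) (nat_lit 532) (nat_lit 0) (XT.lf (nat_lit 0) (nat_lit 4273731561) (nat_lit 532) (nat_lit 14102925926) (nat_lit 608) (nat_lit 538479909) (nat_lit 157) (nat_lit 5) (nat_lit 164) (nat_lit 5) (nat_lit 165) (nat_lit 5) (nat_lit 485) (nat_lit 418) (nat_lit 237)) (XT.nd (nat_lit 78) (nat_lit 456) (nat_lit 0) (XT.lf (nat_lit 0) (nat_lit 2310538608) (nat_lit 608) (nat_lit 5688330312) (nat_lit 76) (nat_lit 11158066696) (nat_lit 156) (nat_lit 5) (nat_lit 164) (nat_lit 5) (nat_lit 157) (nat_lit 5) (nat_lit 486)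 (nat_lit 418) (nat_lit 236)) (XT.lf (nat_lit 0) (nat_lit 3476701674) (nat_lit 456) (nat_lit 1748186713) (nat_lit 532) (nat_lit 14178304285) (nat_lit 150) (nat_lit 5) (nat_lit 156) (nat_lit 5) (nat_lit 157) (nat_lit 5) (nat_lit 487) (nat_lit 418) (nat_lit 235)))) (XT.nd (nat_lit 156) (nat_lit 456) (nat_lit 0) (XT.nd (nat_lit 78) (nat_lit 456) (nat_lit 0) (XT.lf (nat_lit 0) (nat_lit 8259040671) (nat_lit 532) (nat_lit 6790974496) (nat_lit 76) (nat_lit 4603134575) (nat_lit 150) (nat_lit 5) (nat_lit 157) (nat_lit 5) (nat_lit 151) (nat_lit 5) (nat_lit 488) (nat_lit 418) (nat_lit 234)) (XT.lf (nat_lit 0) (nat_lit 2539960984) (nat_lit 456) (nat_lit 8835166036) (nat_lit 532) (nat_lit 8532558990) (nat_lit 144) (nat_lit 5) (nat_lit 150) (nat_lit 5) (nat_lit 151) (nat_lit 5) (nat_lit 489) (nat_lit 418) (nat_lit 233))) (XT.nd (nat_lit 78) (nat_lit 456) (nat_lit 0) (XT.lf (nat_lit 0) (nat_lit 12140602001) (nat_lit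 456) (nat_lit 2451762082) (nat_lit 532) (nat_lit 5574177320) (nat_lit 144) (nat_lit 5) (nat_lit 150) (nat_lit 5) (nat_lit 151) (nat_lit 5) (nat_lit 490) (nat_lit 418) (nat_lit 232)) (XT.lf (nat_lit 0) (nat_lit 1486913617) (nat_lit 456) (nat_lit 16416418042) (nat_lit 532) (nat_lit 2526659411) (nat_lit 138) (nat_lit 5) (nat_lit 144) (nat_lit 5) (nat_lit 145) (nat_lit 5) (nat_lit 491) (nat_lit 418) (nat_lit 231)))))) (XT.nd (nat_lit 546) (nat_lit 1216) (nat_lit 0) (XT.nd (nat_lit 234) (nat_lit 760) (nat_lit 0) (XT.nd (nat_lit 78) (nat_lit 456) (nat_lit 0) (XT.lf (nat_lit 0) (nat_lit 638030405) (nat_lit 532) (nat_lit 9428133626) (nat_lit 76) (nat_lit 10631197801) (nat_lit 137) (nat_lit 5) (nat_lit 144) (nat_lit 5) (nat_lit 138) (nat_lit 5) (nat_lit 492) (nat_lit 418) (nat_lit 230)) (XT.nd (nat_lit 78) (nat_lit 0) (nat_lit 0) (XT.lf (nat_lit 0) (nat_lit 254947884) (nat_lit 456) (nat_lit 3572450774) (nat_lit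 532) (nat_lit 17142447593) (nat_lit 131) (nat_lit 5) (nat_lit 137) (nat_lit 5) (nat_lit 138) (nat_lit 5) (nat_lit 493) (nat_lit 418) (nat_lit 229)) (XT.lf (nat_lit 0) (nat_lit 7157635969) (nat_lit 532) (nat_lit 11016083953) (nat_lit 76) (nat_lit 3072523313) (nat_lit 131) (nat_lit 5) (nat_lit 138) (nat_lit 5) (nat_lit 132) (nat_lit 5) (nat_lit 494) (nat_lit 418) (nat_lit 228)))) (XT.nd (nat_lit 156) (nat_lit 380) (nat_lit 0) (XT.nd (nat_lit 78) (nat_lit 380) (nat_lit 0) (XT.lf (nat_lit 0) (nat_lit 10571847383) (nat_lit 532) (nat_lit 1155610502) (nat_lit 76) (nat_lit 9800367309) (nat_lit 131) (nat_lit 5) (nat_lit 138) (nat_lit 5) (nat_lit 132) (nat_lit 5) (nat_lit 495) (nat_lit 418) (nat_lit 227)) (XT.lf (nat_lit 0) (nat_lit 9011774602) (nat_lit 380) (nat_lit 5094912901) (nat_lit 456) (nat_lit 7707308732) (nat_lit 126) (nat_lit 5) (nat_lit 131) (nat_lit 5) (nat_lit 132) (nat_lit 5) (nat_lit 496) (nat_lit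 418) (nat_lit 226))) (XT.nd (nat_lit 78) (nat_lit 380) (nat_lit 0) (XT.lf (nat_lit 0) (nat_lit 17724760184) (nat_lit 456) (nat_lit 2727003641) (nat_lit 76) (nat_lit 1653880408) (nat_lit 126) (nat_lit 5) (nat_lit 132) (nat_lit 5) (nat_lit 127) (nat_lit 5) (nat_lit 497) (nat_lit 418) (nat_lit 225)) (XT.lf (nat_lit 0) (nat_lit 7607373055) (nat_lit 380) (nat_lit 13884959481) (nat_lit 456) (nat_lit 909254057) (nat_lit 121) (nat_lit 5) (nat_lit 126) (nat_lit 5) (nat_lit 127) (nat_lit 5) (nat_lit 498) (nat_lit 418) (nat_lit 224))))) (XT.nd (nat_lit 234) (nat_lit 760) (nat_lit 0) (XT.nd (nat_lit 78) (nat_lit 380) (nat_lit 0) (XT.lf (nat_lit 0) (nat_lit 2609737881) (nat_lit 456) (nat_lit 4543292782) (nat_lit 76) (nat_lit 15549830472) (nat_lit 120) (nat_lit 5) (nat_lit 126) (nat_lit 5) (nat_lit 121) (nat_lit 5) (nat_lit 499) (nat_lit 418) (nat_lit 223)) (XT.nd (nat_lit 78) (nat_lit 0) (nat_lit 0) (XT.lf (nat_lit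 0) (nat_lit 5976771194) (nat_lit 380) (nat_lit 243122420) (nat_lit 456) (nat_lit 16789492100) (nat_lit 115) (nat_lit 5) (nat_lit 120) (nat_lit 5) (nat_lit 121) (nat_lit 5) (nat_lit 500) (nat_lit 418) (nat_lit 222)) (XT.lf (nat_lit 0) (nat_lit 9971313239) (nat_lit 456) (nat_lit 6605283538) (nat_lit 76) (nat_lit 6744066640) (nat_lit 115) (nat_lit 5) (nat_lit 121) (nat_lit 5) (nat_lit 116) (nat_lit 5) (nat_lit 501) (nat_lit 418) (nat_lit 221)))) (XT.nd (nat_lit 156) (nat_lit 380) (nat_lit 0) (XT.nd (nat_lit 78) (nat_lit 0) (nat_lit 0) (XT.lf (nat_lit 0) (nat_lit 4074291483) (nat_lit 380) (nat_lit 9745835324) (nat_lit 456) (nat_lit 9817596330) (nat_lit 110) (nat_lit 5) (nat_lit 115) (nat_lit 5) (nat_lit 116) (nat_lit 5) (nat_lit 502) (nat_lit 418) (nat_lit 220)) (XT.lf (nat_lit 0) (nat_lit 15048920270) (nat_lit 380) (nat_lit 2735683066) (nat_lit 456) (nat_lit 6175750682) (nat_lit 110) (nat_lit 5) (nat_lit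 115) (nat_lit 5) (nat_lit 116) (nat_lit 5) (nat_lit 503) (nat_lit 418) (nat_lit 219))) (XT.nd (nat_lit 78) (nat_lit 76) (nat_lit 0) (XT.lf (nat_lit 0) (nat_lit 1942401628) (nat_lit 304) (nat_lit 19921698915) (nat_lit 380) (nat_lit 2424625977) (nat_lit 106) (nat_lit 5) (nat_lit 110) (nat_lit 5) (nat_lit 111) (nat_lit 5) (nat_lit 504) (nat_lit 418) (nat_lit 218)) (XT.lf (nat_lit 0) (nat_lit 1455927529) (nat_lit 380) (nat_lit 11524011313) (nat_lit 76) (nat_lit 11642093374) (nat_lit 105) (nat_lit 5) (nat_lit 110) (nat_lit 5) (nat_lit 106) (nat_lit 5) (nat_lit 505) (nat_lit 418) (nat_lit 217))))))))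
noncomputable def xc191 : XT := (XT.nd (nat_lit 53586) (nat_lit 0) (nat_lit 13984) (XT.nd (nat_lit 1014) (nat_lit 0) (nat_lit 0) (XT.nd (nat_lit 468) (nat_lit 912) (nat_lit 0) (XT.nd (nat_lit 234) (nat_lit 684) (nat_lit 0) (XT.nd (nat_lit 78) (nat_lit 380) (nat_lit 0) (XT.lf (nat_lit 0) (nat_lit 5376239030) (nat_lit 380) (nat_lit 509189616) (nat_lit 76) (nat_lit 19076366008) (nat_lit 105) (nat_lit 5) (nat_lit 110) (nat_lit 5) (nat_lit 106) (nat_lit 5) (nat_lit 506) (nat_lit 418) (nat_lit 216)) (XT.nd (nat_lit 78) (nat_lit 0) (nat_lit 0) (XT.lf (nat_lit 0) (nat_lit 9449382503) (nat_lit 456) (nat_lit 14455633065) (nat_lit 76) (nat_lit 1401851611) (nat_lit 100) (nat_lit 5) (nat_lit 106) (nat_lit 5) (nat_lit 101) (nat_lit 5) (nat_lit 507) (nat_lit 418) (nat_lit 215)) (XT.lf (nat_lit 0) (nat_lit 13641131907) (nat_lit 456) (nat_lit 3259771664) (nat_lit 76) (nat_lit 8757198005) (nat_lit 100) (nat_lit 5) (nat_lit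 106) (nat_lit 5) (nat_lit 101) (nat_lit 5) (nat_lit 508) (nat_lit 418) (nat_lit 214)))) (XT.nd (nat_lit 78) (nat_lit 380) (nat_lit 0) (XT.lf (nat_lit 0) (nat_lit 8260731876) (nat_lit 304) (nat_lit 9704449118) (nat_lit 380) (nat_lit 8050213596) (nat_lit 96) (nat_lit 5) (nat_lit 100) (nat_lit 5) (nat_lit 101) (nat_lit 5) (nat_lit 509) (nat_lit 418) (nat_lit 213)) (XT.nd (nat_lit 78) (nat_lit 380) (nat_lit 0) (XT.lf (nat_lit 0) (nat_lit 20048266585) (nat_lit 304) (nat_lit 2344202043) (nat_lit 380) (nat_lit 3987032841) (nat_lit 96) (nat_lit 5) (nat_lit 100) (nat_lit 5) (nat_lit 101) (nat_lit 5) (nat_lit 510) (nat_lit 418) (nat_lit 212)) (XT.lf (nat_lit 0) (nat_lit 218987906) (nat_lit 380) (nat_lit 21401273448) (nat_lit 76) (nat_lit 5129338909) (nat_lit 91) (nat_lit 5) (nat_lit 96) (nat_lit 5) (nat_lit 92) (nat_lit 5) (nat_lit 511) (nat_lit 418) (nat_lit 211))))) (XT.nd (nat_lit 234) (nat_lit 608) (nat_lit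 0) (XT.nd (nat_lit 78) (nat_lit 304) (nat_lit 0) (XT.lf (nat_lit 0) (nat_lit 4509066210) (nat_lit 380) (nat_lit 9828685828) (nat_lit 76) (nat_lit 12787758415) (nat_lit 91) (nat_lit 5) (nat_lit 96) (nat_lit 5) (nat_lit 92) (nat_lit 5) (nat_lit 512) (nat_lit 418) (nat_lit 210)) (XT.nd (nat_lit 78) (nat_lit 0) (nat_lit 0) (XT.lf (nat_lit 0) (nat_lit 1994128719) (nat_lit 304) (nat_lit 6898844773) (nat_lit 380) (nat_lit 18615807724) (nat_lit 87) (nat_lit 5) (nat_lit 91) (nat_lit 5) (nat_lit 92) (nat_lit 5) (nat_lit 513) (nat_lit 418) (nat_lit 209)) (XT.lf (nat_lit 0) (nat_lit 13430536895) (nat_lit 380) (nat_lit 13724091459) (nat_lit 76) (nat_lit 743772338) (nat_lit 87) (nat_lit 5) (nat_lit 92) (nat_lit 5) (nat_lit 88) (nat_lit 5) (nat_lit 514) (nat_lit 418) (nat_lit 208)))) (XT.nd (nat_lit 156) (nat_lit 304) (nat_lit 0) (XT.nd (nat_lit 78) (nat_lit 304) (nat_lit 0) (XT.lf (nat_lit 0) (nat_lit 18099748221)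 (nat_lit 380) (nat_lit 1750675498) (nat_lit 76) (nat_lit 8444573711) (nat_lit 87) (nat_lit 5) (nat_lit 92) (nat_lit 5) (nat_lit 88) (nat_lit 5) (nat_lit 515) (nat_lit 418) (nat_lit 207)) (XT.lf (nat_lit 0) (nat_lit 10594025264) (nat_lit 304) (nat_lit 12332404831) (nat_lit 380) (nat_lit 5771817032) (nat_lit 83) (nat_lit 5) (nat_lit 87) (nat_lit 5) (nat_lit 88) (nat_lit 5) (nat_lit 516) (nat_lit 418) (nat_lit 206))) (XT.nd (nat_lit 78) (nat_lit 304) (nat_lit 0) (XT.lf (nat_lit 0) (nat_lit 23202271728) (nat_lit 304) (nat_lit 4654470852) (nat_lit 380) (nat_lit 1252679991) (nat_lit 83) (nat_lit 5) (nat_lit 87) (nat_lit 5) (nat_lit 88) (nat_lit 5) (nat_lit 517) (nat_lit 418) (nat_lit 205)) (XT.lf (nat_lit 0) (nat_lit 3372057542) (nat_lit 304) (nat_lit 22957151945) (nat_lit 76) (nat_lit 3197993865) (nat_lit 79) (nat_lit 5) (nat_lit 83) (nat_lit 5) (nat_lit 80) (nat_lit 5) (nat_lit 518) (nat_lit 418) (nat_lit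 204)))))) (XT.nd (nat_lit 52026) (nat_lit 0) (nat_lit 23332) (XT.nd (nat_lit 51714) (nat_lit 0) (nat_lit 24700) (XT.nd (nat_lit 51558) (nat_lit 0) (nat_lit 24700) (XT.lf (nat_lit 0) (nat_lit 8138695676) (nat_lit 304) (nat_lit 10622094745) (nat_lit 76) (nat_lit 11191062677) (nat_lit 79) (nat_lit 5) (nat_lit 83) (nat_lit 5) (nat_lit 80) (nat_lit 5) (nat_lit 519) (nat_lit 418) (nat_lit 203)) (XT.nd (nat_lit 78) (nat_lit 0) (nat_lit 0) (XT.lf (nat_lit 0) (nat_lit 1007785804) (nat_lit 0) (nat_lit 1007785804) (nat_lit 1444) (nat_lit 2694389529) (nat_lit 404) (nat_lit 5) (nat_lit 404) (nat_lit 3) (nat_lit 423) (nat_lit 3) (nat_lit 419) (nat_lit 419) (nat_lit 302)) (XT.lf (nat_lit 0) (nat_lit 4843799996) (nat_lit 1444) (nat_lit 3222638873) (nat_lit 1520) (nat_lit 1431380726) (nat_lit 404) (nat_lit 5) (nat_lit 423) (nat_lit 3) (nat_lit 424) (nat_lit 5) (nat_lit 420) (nat_lit 419) (nat_lit 301)))) (XT.nd (nat_lit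 156) (nat_lit 0) (nat_lit 76) (XT.nd (nat_lit 78) (nat_lit 0) (nat_lit 0) (XT.lf (nat_lit 76) (nat_lit 1032405611) (nat_lit 0) (nat_lit 4640408599) (nat_lit 1520) (nat_lit 3904480996) (nat_lit 405) (nat_lit 5) (nat_lit 404) (nat_lit 5) (nat_lit 424) (nat_lit 5) (nat_lit 421) (nat_lit 419) (nat_lit 300)) (XT.lf (nat_lit 76) (nat_lit 5405810168) (nat_lit 0) (nat_lit 1114600656) (nat_lit 1520) (nat_lit 3137931449) (nat_lit 405) (nat_lit 5) (nat_lit 404) (nat_lit 5) (nat_lit 424) (nat_lit 5) (nat_lit 422) (nat_lit 419) (nat_lit 299))) (XT.nd (nat_lit 78) (nat_lit 0) (nat_lit 0) (XT.lf (nat_lit 76) (nat_lit 100188511) (nat_lit 0) (nat_lit 7282354185) (nat_lit 1520) (nat_lit 2358537474) (nat_lit 406) (nat_lit 5) (nat_lit 405) (nat_lit 5) (nat_lit 425) (nat_lit 5) (nat_lit 423) (nat_lit 419) (nat_lit 298)) (XT.lf (nat_lit 76) (nat_lit 4579513454) (nat_lit 0) (nat_lit 3699400385) (nat_lit 1520) (nat_lit 1546240187)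 (nat_lit 406) (nat_lit 5) (nat_lit 405) (nat_lit 5) (nat_lit 425) (nat_lit 5) (nat_lit 424) (nat_lit 419) (nat_lit 297))))) (XT.nd (nat_lit 234) (nat_lit 0) (nat_lit 76) (XT.nd (nat_lit 78) (nat_lit 1444) (nat_lit 0) (XT.lf (nat_lit 76) (nat_lit 9138018306) (nat_lit 0) (nat_lit 36691163) (nat_lit 1520) (nat_lit 736590667) (nat_lit 406) (nat_lit 5) (nat_lit 405) (nat_lit 5) (nat_lit 425) (nat_lit 5) (nat_lit 425) (nat_lit 419) (nat_lit 296)) (XT.nd (nat_lit 78) (nat_lit 0) (nat_lit 0) (XT.lf (nat_lit 0) (nat_lit 118890100) (nat_lit 1520) (nat_lit 6195603430) (nat_lit 1596) (nat_lit 3684067789) (nat_lit 386) (nat_lit 5) (nat_lit 406) (nat_lit 5) (nat_lit 407) (nat_lit 5) (nat_lit 426) (nat_lit 419) (nat_lit 295)) (XT.lf (nat_lit 0) (nat_lit 969153156) (nat_lit 1520) (nat_lit 1622240082) (nat_lit 1596) (nat_lit 7496345920) (nat_lit 386) (nat_lit 5) (nat_lit 406) (nat_lit 5) (nat_lit 407) (nat_lit 5) (nat_lit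 427) (nat_lit 419) (nat_lit 294)))) (XT.nd (nat_lit 156) (nat_lit 0) (nat_lit 0) (XT.nd (nat_lit 78) (nat_lit 0) (nat_lit 0) (XT.lf (nat_lit 0) (nat_lit 1846789021) (nat_lit 1520) (nat_lit 7114410127) (nat_lit 1596) (nat_lit 1217313196) (nat_lit 387) (nat_lit 5) (nat_lit 407) (nat_lit 5) (nat_lit 408) (nat_lit 5) (nat_lit 428) (nat_lit 419) (nat_lit 293)) (XT.lf (nat_lit 0) (nat_lit 2752829378) (nat_lit 1520) (nat_lit 2432907674) (nat_lit 1596) (nat_lit 5085165672) (nat_lit 387) (nat_lit 5) (nat_lit 407) (nat_lit 5) (nat_lit 408) (nat_lit 5) (nat_lit 429) (nat_lit 419) (nat_lit 292))) (XT.nd (nat_lit 78) (nat_lit 0) (nat_lit 76) (XT.lf (nat_lit 76) (nat_lit 2362471795) (nat_lit 0) (nat_lit 1312928119) (nat_lit 1596) (nat_lit 6689791208) (nat_lit 388) (nat_lit 5) (nat_lit 387) (nat_lit 5) (nat_lit 408) (nat_lit 5) (nat_lit 430) (nat_lit 419) (nat_lit 291)) (XT.lf (nat_lit 0) (nat_lit 4633351702) (nat_lit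 1520) (nat_lit 3202589629) (nat_lit 1596) (nat_lit 2625103398) (nat_lit 388) (nat_lit 5) (nat_lit 408) (nat_lit 5) (nat_lit 409) (nat_lit 5) (nat_lit 431) (nat_lit 419) (nat_lit 290))))))) (XT.nd (nat_lit 1092) (nat_lit 6688) (nat_lit 0) (XT.nd (nat_lit 546) (nat_lit 1368) (nat_lit 0) (XT.nd (nat_lit 234) (nat_lit 1444) (nat_lit 0) (XT.nd (nat_lit 78) (nat_lit 0) (nat_lit 76) (XT.lf (nat_lit 76) (nat_lit 1696254298) (nat_lit 0) (nat_lit 3917614645) (nat_lit 1596) (nat_lit 4944896019) (nat_lit 389) (nat_lit 5) (nat_lit 388) (nat_lit 5) (nat_lit 409) (nat_lit 5) (nat_lit 432) (nat_lit 419) (nat_lit 289)) (XT.nd (nat_lit 78) (nat_lit 0) (nat_lit 0) (XT.lf (nat_lit 0) (nat_lit 6620125692) (nat_lit 1520) (nat_lit 3933320003) (nat_lit 1596) (nat_lit 104888658) (nat_lit 389) (nat_lit 5) (nat_lit 409) (nat_lit 5) (nat_lit 410) (nat_lit 5) (nat_lit 433) (nat_lit 419) (nat_lit 288)) (XT.lf (nat_lit 76) (nat_lit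 1071641720) (nat_lit 0) (nat_lit 6592064549) (nat_lit 1596) (nat_lit 3095861885) (nat_lit 390) (nat_lit 5) (nat_lit 389) (nat_lit 5) (nat_lit 410) (nat_lit 5) (nat_lit 434) (nat_lit 419) (nat_lit 287)))) (XT.nd (nat_lit 156) (nat_lit 1520) (nat_lit 0) (XT.nd (nat_lit 78) (nat_lit 0) (nat_lit 76) (XT.lf (nat_lit 76) (nat_lit 6219168673) (nat_lit 0) (nat_lit 2519918312) (nat_lit 1596) (nat_lit 2123537741) (nat_lit 390) (nat_lit 5) (nat_lit 389) (nat_lit 5) (nat_lit 410) (nat_lit 5) (nat_lit 435) (nat_lit 419) (nat_lit 286)) (XT.lf (nat_lit 76) (nat_lit 486692525) (nat_lit 0) (nat_lit 9347916104) (nat_lit 1596) (nat_lit 1133177469) (nat_lit 391) (nat_lit 5) (nat_lit 390) (nat_lit 5) (nat_lit 411) (nat_lit 5) (nat_lit 436) (nat_lit 419) (nat_lit 285))) (XT.nd (nat_lit 78) (nat_lit 1596) (nat_lit 0) (XT.lf (nat_lit 76) (nat_lit 5754562256) (nat_lit 0) (nat_lit 5230309272) (nat_lit 1596) (nat_lit 89538570)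 (nat_lit 391) (nat_lit 5) (nat_lit 390) (nat_lit 5) (nat_lit 411) (nat_lit 5) (nat_lit 437) (nat_lit 419) (nat_lit 284)) (XT.lf (nat_lit 0) (nat_lit 947458556) (nat_lit 1596) (nat_lit 72619574) (nat_lit 1672) (nat_lit 10163271792) (nat_lit 369) (nat_lit 5) (nat_lit 390) (nat_lit 5) (nat_lit 391) (nat_lit 5) (nat_lit 438) (nat_lit 419) (nat_lit 283))))) (XT.nd (nat_lit 234) (nat_lit 1444) (nat_lit 0) (XT.nd (nat_lit 78) (nat_lit 0) (nat_lit 0) (XT.lf (nat_lit 0) (nat_lit 2045735665) (nat_lit 1596) (nat_lit 5977309928) (nat_lit 1672) (nat_lit 3270591424) (nat_lit 370) (nat_lit 5) (nat_lit 391) (nat_lit 5) (nat_lit 392) (nat_lit 5) (nat_lit 439) (nat_lit 419) (nat_lit 282)) (XT.nd (nat_lit 78) (nat_lit 0) (nat_lit 76) (XT.lf (nat_lit 0) (nat_lit 3159022982) (nat_lit 1596) (nat_lit 609792258) (nat_lit 1672) (nat_lit 7637468519) (nat_lit 370) (nat_lit 5) (nat_lit 391) (nat_lit 5) (nat_lit 392) (nat_lit 5)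 (nat_lit 440) (nat_lit 419) (nat_lit 281)) (XT.lf (nat_lit 0) (nat_lit 4316525844) (nat_lit 1596) (nat_lit 6605922322) (nat_lit 1672) (nat_lit 598310779) (nat_lit 371) (nat_lit 5) (nat_lit 392) (nat_lit 5) (nat_lit 393) (nat_lit 5) (nat_lit 441) (nat_lit 419) (nat_lit 280)))) (XT.nd (nat_lit 156) (nat_lit 1520) (nat_lit 0) (XT.nd (nat_lit 78) (nat_lit 0) (nat_lit 0) (XT.lf (nat_lit 0) (nat_lit 5512557609) (nat_lit 1596) (nat_lit 1115177546) (nat_lit 1672) (nat_lit 5009495125) (nat_lit 371) (nat_lit 5) (nat_lit 392) (nat_lit 5) (nat_lit 393) (nat_lit 5) (nat_lit 442) (nat_lit 419) (nat_lit 279)) (XT.lf (nat_lit 76) (nat_lit 4534089097) (nat_lit 0) (nat_lit 2214428517) (nat_lit 1672) (nat_lit 5007207220) (nat_lit 372) (nat_lit 5) (nat_lit 371) (nat_lit 5) (nat_lit 393) (nat_lit 5) (nat_lit 443) (nat_lit 419) (nat_lit 278))) (XT.nd (nat_lit 78) (nat_lit 1596) (nat_lit 0) (XT.lf (nat_lit 0) (nat_lit 8018359263)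 (nat_lit 1596) (nat_lit 1590863823) (nat_lit 76) (nat_lit 2267196613) (nat_lit 372) (nat_lit 5) (nat_lit 393) (nat_lit 5) (nat_lit 373) (nat_lit 5) (nat_lit 444) (nat_lit 419) (nat_lit 277)) (XT.lf (nat_lit 0) (nat_lit 4181938057) (nat_lit 1596) (nat_lit 5160515711) (nat_lit 1672) (nat_lit 2656510975) (nat_lit 351) (nat_lit 5) (nat_lit 372) (nat_lit 5) (nat_lit 373) (nat_lit 5) (nat_lit 445) (nat_lit 419) (nat_lit 276)))))) (XT.nd (nat_lit 546) (nat_lit 3116) (nat_lit 0) (XT.nd (nat_lit 234) (nat_lit 1824) (nat_lit 0) (XT.nd (nat_lit 78) (nat_lit 1748) (nat_lit 0) (XT.lf (nat_lit 0) (nat_lit 10081064139) (nat_lit 1596) (nat_lit 609865264) (nat_lit 1672) (nat_lit 1433086439) (nat_lit 351) (nat_lit 5) (nat_lit 372) (nat_lit 5) (nat_lit 373) (nat_lit 5) (nat_lit 446) (nat_lit 419) (nat_lit 275)) (XT.nd (nat_lit 78) (nat_lit 76) (nat_lit 0) (XT.lf (nat_lit 0) (nat_lit 3860292787) (nat_lit 1672) (nat_lit 8244809914)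 (nat_lit 1748) (nat_lit 145703580) (nat_lit 329) (nat_lit 5) (nat_lit 351) (nat_lit 5) (nat_lit 352) (nat_lit 5) (nat_lit 447) (nat_lit 419) (nat_lit 274)) (XT.lf (nat_lit 0) (nat_lit 1157524055) (nat_lit 1748) (nat_lit 2493142855) (nat_lit 76) (nat_lit 8729218244) (nat_lit 328) (nat_lit 5) (nat_lit 351) (nat_lit 5) (nat_lit 329) (nat_lit 5) (nat_lit 448) (nat_lit 419) (nat_lit 273)))) (XT.nd (nat_lit 156) (nat_lit 836) (nat_lit 0) (XT.nd (nat_lit 78) (nat_lit 0) (nat_lit 0) (XT.lf (nat_lit 0) (nat_lit 2502667315) (nat_lit 1064) (nat_lit 8961005052) (nat_lit 76) (nat_lit 1047510071) (nat_lit 315) (nat_lit 5) (nat_lit 329) (nat_lit 5) (nat_lit 316) (nat_lit 5) (nat_lit 449) (nat_lit 419) (nat_lit 272)) (XT.lf (nat_lit 0) (nat_lit 3903723611) (nat_lit 1064) (nat_lit 2931747576) (nat_lit 76) (nat_lit 5809066180) (nat_lit 315) (nat_lit 5) (nat_lit 329) (nat_lit 5) (nat_lit 316) (nat_lit 5) (nat_lit 450) (nat_lit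 419) (nat_lit 271))) (XT.nd (nat_lit 78) (nat_lit 0) (nat_lit 0) (XT.lf (nat_lit 0) (nat_lit 3250084853) (nat_lit 836) (nat_lit 2092045796) (nat_lit 912) (nat_lit 7438253819) (nat_lit 304) (nat_lit 5) (nat_lit 315) (nat_lit 5) (nat_lit 316) (nat_lit 5) (nat_lit 451) (nat_lit 419) (nat_lit 270)) (XT.lf (nat_lit 0) (nat_lit 6835337069) (nat_lit 912) (nat_lit 3352037338) (nat_lit 76) (nat_lit 2731064918) (nat_lit 304) (nat_lit 5) (nat_lit 316) (nat_lit 5) (nat_lit 305) (nat_lit 5) (nat_lit 452) (nat_lit 419) (nat_lit 269))))) (XT.nd (nat_lit 234) (nat_lit 1520) (nat_lit 0) (XT.nd (nat_lit 78) (nat_lit 760) (nat_lit 0) (XT.lf (nat_lit 0) (nat_lit 2964207686) (nat_lit 836) (nat_lit 5415924569) (nat_lit 912) (nat_lit 4678699746) (nat_lit 293) (nat_lit 5) (nat_lit 304) (nat_lit 5) (nat_lit 305) (nat_lit 5) (nat_lit 453) (nat_lit 419) (nat_lit 268)) (XT.nd (nat_lit 78) (nat_lit 760) (nat_lit 0) (XT.lf (nat_lit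 0) (nat_lit 9441681116) (nat_lit 836) (nat_lit 525415247) (nat_lit 912) (nat_lit 3234721700) (nat_lit 293) (nat_lit 5) (nat_lit 304) (nat_lit 5) (nat_lit 305) (nat_lit 5) (nat_lit 454) (nat_lit 419) (nat_lit 267)) (XT.lf (nat_lit 0) (nat_lit 2696871125) (nat_lit 760) (nat_lit 8924418112) (nat_lit 836) (nat_lit 1725675599) (nat_lit 283) (nat_lit 5) (nat_lit 293) (nat_lit 5) (nat_lit 294) (nat_lit 5) (nat_lit 455) (nat_lit 419) (nat_lit 266)))) (XT.nd (nat_lit 156) (nat_lit 684) (nat_lit 0) (XT.nd (nat_lit 78) (nat_lit 836) (nat_lit 0) (XT.lf (nat_lit 0) (nat_lit 9319969829) (nat_lit 760) (nat_lit 4006436277) (nat_lit 836) (nat_lit 168262203) (nat_lit 283) (nat_lit 5) (nat_lit 293) (nat_lit 5) (nat_lit 294) (nat_lit 5) (nat_lit 456) (nat_lit 419) (nat_lit 265)) (XT.lf (nat_lit 0) (nat_lit 1413538703) (nat_lit 836) (nat_lit 11209195824) (nat_lit 76) (nat_lit 1022179715) (nat_lit 272) (nat_lit 5) (nat_lit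 283) (nat_lit 5) (nat_lit 273) (nat_lit 5) (nat_lit 457) (nat_lit 419) (nat_lit 264))) (XT.nd (nat_lit 78) (nat_lit 684) (nat_lit 0) (XT.lf (nat_lit 0) (nat_lit 3068884482) (nat_lit 836) (nat_lit 4601098813) (nat_lit 76) (nat_lit 6127286276) (nat_lit 272) (nat_lit 5) (nat_lit 283) (nat_lit 5) (nat_lit 273) (nat_lit 5) (nat_lit 458) (nat_lit 419) (nat_lit 263)) (XT.lf (nat_lit 0) (nat_lit 2157063884) (nat_lit 684) (nat_lit 2603912829) (nat_lit 760) (nat_lit 9191632264) (nat_lit 263) (nat_lit 5) (nat_lit 272) (nat_lit 5) (nat_lit 273) (nat_lit 5) (nat_lit 459) (nat_lit 419) (nat_lit 262))))))))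
noncomputable def xc192 : XT := (XT.nd (nat_lit 2106) (nat_lit 5016) (nat_lit 0) (XT.nd (nat_lit 1014) (nat_lit 3876) (nat_lit 0) (XT.nd (nat_lit 468) (nat_lit 1976) (nat_lit 0) (XT.nd (nat_lit 234) (nat_lit 1444) (nat_lit 0) (XT.nd (nat_lit 78) (nat_lit 760) (nat_lit 0) (XT.lf (nat_lit 0) (nat_lit 6524404992) (nat_lit 760) (nat_lit 5025058776) (nat_lit 76) (nat_lit 2560851091) (nat_lit 263) (nat_lit 5) (nat_lit 273) (nat_lit 5) (nat_lit 264) (nat_lit 5) (nat_lit 460) (nat_lit 419) (nat_lit 261)) (XT.nd (nat_lit 78) (nat_lit 0) (nat_lit 0) (XT.lf (nat_lit 0) (nat_lit 1877896485) (nat_lit 760) (nat_lit 6464613066) (nat_lit 836) (nat_lit 5928286536) (nat_lit 253) (nat_lit 5) (nat_lit 263) (nat_lit 5) (nat_lit 264) (nat_lit 5) (nat_lit 461) (nat_lit 419) (nat_lit 260)) (XT.lf (nat_lit 0) (nat_lit 8976769501) (nat_lit 760) (nat_lit 1244028256) (nat_lit 836) (nat_lit 4213221951) (nat_lit 253) (nat_lit 5) (nat_lit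 263) (nat_lit 5) (nat_lit 264) (nat_lit 5) (nat_lit 462) (nat_lit 419) (nat_lit 259)))) (XT.nd (nat_lit 78) (nat_lit 760) (nat_lit 0) (XT.lf (nat_lit 0) (nat_lit 1601360894) (nat_lit 684) (nat_lit 10562476873) (nat_lit 760) (nat_lit 2436135334) (nat_lit 244) (nat_lit 5) (nat_lit 253) (nat_lit 5) (nat_lit 254) (nat_lit 5) (nat_lit 463) (nat_lit 419) (nat_lit 258)) (XT.nd (nat_lit 78) (nat_lit 760) (nat_lit 0) (XT.lf (nat_lit 0) (nat_lit 8856581014) (nat_lit 684) (nat_lit 5324379752) (nat_lit 760) (nat_lit 587589192) (nat_lit 244) (nat_lit 5) (nat_lit 253) (nat_lit 5) (nat_lit 254) (nat_lit 5) (nat_lit 464) (nat_lit 419) (nat_lit 257)) (XT.lf (nat_lit 0) (nat_lit 1280205807) (nat_lit 760) (nat_lit 13625481015) (nat_lit 76) (nat_lit 34665481) (nat_lit 234) (nat_lit 5) (nat_lit 244) (nat_lit 5) (nat_lit 235) (nat_lit 5) (nat_lit 465) (nat_lit 419) (nat_lit 256))))) (XT.nd (nat_lit 234) (nat_lit 1368) (nat_lit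 0) (XT.nd (nat_lit 78) (nat_lit 608) (nat_lit 0) (XT.lf (nat_lit 0) (nat_lit 3243341783) (nat_lit 760) (nat_lit 6398073573) (nat_lit 76) (nat_lit 5472788933) (nat_lit 234) (nat_lit 5) (nat_lit 244) (nat_lit 5) (nat_lit 235) (nat_lit 5) (nat_lit 466) (nat_lit 419) (nat_lit 255)) (XT.nd (nat_lit 78) (nat_lit 0) (nat_lit 0) (XT.lf (nat_lit 0) (nat_lit 976643711) (nat_lit 608) (nat_lit 4266270719) (nat_lit 684) (nat_lit 10048683574) (nat_lit 226) (nat_lit 5) (nat_lit 234) (nat_lit 5) (nat_lit 235) (nat_lit 5) (nat_lit 467) (nat_lit 419) (nat_lit 254)) (XT.lf (nat_lit 0) (nat_lit 7324536678) (nat_lit 684) (nat_lit 6904443935) (nat_lit 76) (nat_lit 1242725827) (nat_lit 226) (nat_lit 5) (nat_lit 235) (nat_lit 5) (nat_lit 227) (nat_lit 5) (nat_lit 468) (nat_lit 419) (nat_lit 253)))) (XT.nd (nat_lit 156) (nat_lit 684) (nat_lit 0) (XT.nd (nat_lit 78) (nat_lit 0) (nat_lit 0) (XT.lf (nat_lit 0) (nat_lit 624245486)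 (nat_lit 684) (nat_lit 8846971803) (nat_lit 760) (nat_lit 6183739088) (nat_lit 217) (nat_lit 5) (nat_lit 226) (nat_lit 5) (nat_lit 227) (nat_lit 5) (nat_lit 469) (nat_lit 419) (nat_lit 252)) (XT.lf (nat_lit 0) (nat_lit 8387201021) (nat_lit 684) (nat_lit 3311192257) (nat_lit 760) (nat_lit 4142734497) (nat_lit 217) (nat_lit 5) (nat_lit 226) (nat_lit 5) (nat_lit 227) (nat_lit 5) (nat_lit 470) (nat_lit 419) (nat_lit 251))) (XT.nd (nat_lit 78) (nat_lit 76) (nat_lit 0) (XT.lf (nat_lit 0) (nat_lit 252667037) (nat_lit 608) (nat_lit 13725642671) (nat_lit 684) (nat_lit 2052556502) (nat_lit 209) (nat_lit 5) (nat_lit 217) (nat_lit 5) (nat_lit 218) (nat_lit 5) (nat_lit 471) (nat_lit 419) (nat_lit 250)) (XT.lf (nat_lit 0) (nat_lit 142098370) (nat_lit 684) (nat_lit 8041675288) (nat_lit 76) (nat_lit 8039348396) (nat_lit 208) (nat_lit 5) (nat_lit 217) (nat_lit 5) (nat_lit 209) (nat_lit 5) (nat_lit 472) (nat_lit 419) (nat_lit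 249)))))) (XT.nd (nat_lit 546) (nat_lit 2128) (nat_lit 0) (XT.nd (nat_lit 234) (nat_lit 1140) (nat_lit 0) (XT.nd (nat_lit 78) (nat_lit 608) (nat_lit 0) (XT.lf (nat_lit 0) (nat_lit 2344791768) (nat_lit 684) (nat_lit 173752791) (nat_lit 76) (nat_lit 13900581636) (nat_lit 208) (nat_lit 5) (nat_lit 217) (nat_lit 5) (nat_lit 209) (nat_lit 5) (nat_lit 473) (nat_lit 419) (nat_lit 248)) (XT.nd (nat_lit 78) (nat_lit 0) (nat_lit 0) (XT.lf (nat_lit 0) (nat_lit 4656398254) (nat_lit 684) (nat_lit 8693493199) (nat_lit 76) (nat_lit 3267868753) (nat_lit 200) (nat_lit 5) (nat_lit 209) (nat_lit 5) (nat_lit 201) (nat_lit 5) (nat_lit 474) (nat_lit 419) (nat_lit 247)) (XT.lf (nat_lit 0) (nat_lit 7023948815) (nat_lit 684) (nat_lit 660073634) (nat_lit 76) (nat_lit 9136157044) (nat_lit 200) (nat_lit 5) (nat_lit 209) (nat_lit 5) (nat_lit 201) (nat_lit 5) (nat_lit 475) (nat_lit 419) (nat_lit 246)))) (XT.nd (nat_lit 156) (nat_lit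 608) (nat_lit 0) (XT.nd (nat_lit 78) (nat_lit 0) (nat_lit 0) (XT.lf (nat_lit 0) (nat_lit 7624555168) (nat_lit 532) (nat_lit 1855817663) (nat_lit 608) (nat_lit 7545450588) (nat_lit 193) (nat_lit 5) (nat_lit 200) (nat_lit 5) (nat_lit 201) (nat_lit 5) (nat_lit 476) (nat_lit 419) (nat_lit 245)) (XT.lf (nat_lit 0) (nat_lit 12009036766) (nat_lit 608) (nat_lit 1187793977) (nat_lit 76) (nat_lit 4038293822) (nat_lit 193) (nat_lit 5) (nat_lit 201) (nat_lit 5) (nat_lit 194) (nat_lit 5) (nat_lit 477) (nat_lit 419) (nat_lit 244))) (XT.nd (nat_lit 78) (nat_lit 0) (nat_lit 0) (XT.lf (nat_lit 0) (nat_lit 7263560897) (nat_lit 608) (nat_lit 7376422413) (nat_lit 684) (nat_lit 2807600678) (nat_lit 185) (nat_lit 5) (nat_lit 193) (nat_lit 5) (nat_lit 194) (nat_lit 5) (nat_lit 478) (nat_lit 419) (nat_lit 243)) (XT.lf (nat_lit 0) (nat_lit 15890743710) (nat_lit 608) (nat_lit 1433126488) (nat_lit 684) (nat_lit 340422288) (nat_lit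 185) (nat_lit 5) (nat_lit 193) (nat_lit 5) (nat_lit 194) (nat_lit 5) (nat_lit 479) (nat_lit 419) (nat_lit 242))))) (XT.nd (nat_lit 234) (nat_lit 988) (nat_lit 0) (XT.nd (nat_lit 78) (nat_lit 532) (nat_lit 0) (XT.lf (nat_lit 0) (nat_lit 2215054597) (nat_lit 608) (nat_lit 11042841868) (nat_lit 76) (nat_lit 4625812287) (nat_lit 177) (nat_lit 5) (nat_lit 185) (nat_lit 5) (nat_lit 178) (nat_lit 5) (nat_lit 480) (nat_lit 419) (nat_lit 241)) (XT.nd (nat_lit 78) (nat_lit 532) (nat_lit 0) (XT.lf (nat_lit 0) (nat_lit 4831080721) (nat_lit 608) (nat_lit 2476795427) (nat_lit 76) (nat_lit 10799318183) (nat_lit 177) (nat_lit 5) (nat_lit 185) (nat_lit 5) (nat_lit 178) (nat_lit 5) (nat_lit 481) (nat_lit 419) (nat_lit 240)) (XT.lf (nat_lit 0) (nat_lit 6334525168) (nat_lit 532) (nat_lit 1198699284) (nat_lit 608) (nat_lit 10801255062) (nat_lit 170) (nat_lit 5) (nat_lit 177) (nat_lit 5) (nat_lit 178) (nat_lit 5) (nat_lit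 482) (nat_lit 419) (nat_lit 239)))) (XT.nd (nat_lit 156) (nat_lit 532) (nat_lit 0) (XT.nd (nat_lit 78) (nat_lit 456) (nat_lit 0) (XT.lf (nat_lit 0) (nat_lit 10331559322) (nat_lit 608) (nat_lit 3252321648) (nat_lit 76) (nat_lit 4981592184) (nat_lit 170) (nat_lit 5) (nat_lit 178) (nat_lit 5) (nat_lit 171) (nat_lit 5) (nat_lit 483) (nat_lit 419) (nat_lit 238)) (XT.lf (nat_lit 0) (nat_lit 5728431167) (nat_lit 456) (nat_lit 7495445430) (nat_lit 532) (nat_lit 5576455364) (nat_lit 164) (nat_lit 5) (nat_lit 170) (nat_lit 5) (nat_lit 171) (nat_lit 5) (nat_lit 484) (nat_lit 419) (nat_lit 237))) (XT.nd (nat_lit 78) (nat_lit 532) (nat_lit 0) (XT.lf (nat_lit 0) (nat_lit 14923920948) (nat_lit 456) (nat_lit 1264909907) (nat_lit 532) (nat_lit 2850766774) (nat_lit 164) (nat_lit 5) (nat_lit 170) (nat_lit 5) (nat_lit 171) (nat_lit 5) (nat_lit 485) (nat_lit 419) (nat_lit 236)) (XT.lf (nat_lit 0) (nat_lit 5043854349) (nat_lit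 532) (nat_lit 14228118572) (nat_lit 608) (nat_lit 10503304) (nat_lit 157) (nat_lit 5) (nat_lit 164) (nat_lit 5) (nat_lit 165) (nat_lit 5) (nat_lit 486) (nat_lit 419) (nat_lit 235))))))) (XT.nd (nat_lit 1014) (nat_lit 2280) (nat_lit 0) (XT.nd (nat_lit 468) (nat_lit 1292) (nat_lit 0) (XT.nd (nat_lit 234) (nat_lit 912) (nat_lit 0) (XT.nd (nat_lit 78) (nat_lit 456) (nat_lit 0) (XT.lf (nat_lit 0) (nat_lit 2878004723) (nat_lit 608) (nat_lit 5123553606) (nat_lit 76) (nat_lit 11527698472) (nat_lit 156) (nat_lit 5) (nat_lit 164) (nat_lit 5) (nat_lit 157) (nat_lit 5) (nat_lit 487) (nat_lit 419) (nat_lit 234)) (XT.nd (nat_lit 78) (nat_lit 0) (nat_lit 0) (XT.lf (nat_lit 0) (nat_lit 4220314919) (nat_lit 456) (nat_lit 1624482456) (nat_lit 532) (nat_lit 13935766202) (nat_lit 150) (nat_lit 5) (nat_lit 156) (nat_lit 5) (nat_lit 157) (nat_lit 5) (nat_lit 488) (nat_lit 419) (nat_lit 233)) (XT.lf (nat_lit 0) (nat_lit 8930536579)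 (nat_lit 532) (nat_lit 6256458708) (nat_lit 76) (nat_lit 4848713965) (nat_lit 150) (nat_lit 5) (nat_lit 157) (nat_lit 5) (nat_lit 151) (nat_lit 5) (nat_lit 489) (nat_lit 419) (nat_lit 232)))) (XT.nd (nat_lit 78) (nat_lit 456) (nat_lit 0) (XT.lf (nat_lit 0) (nat_lit 3256685381) (nat_lit 456) (nat_lit 8846655156) (nat_lit 532) (nat_lit 8192115188) (nat_lit 144) (nat_lit 5) (nat_lit 150) (nat_lit 5) (nat_lit 151) (nat_lit 5) (nat_lit 490) (nat_lit 419) (nat_lit 231)) (XT.nd (nat_lit 78) (nat_lit 456) (nat_lit 0) (XT.lf (nat_lit 0) (nat_lit 13036281862) (nat_lit 456) (nat_lit 2338822617) (nat_lit 532) (nat_lit 5184587355) (nat_lit 144) (nat_lit 5) (nat_lit 150) (nat_lit 5) (nat_lit 151) (nat_lit 5) (nat_lit 491) (nat_lit 419) (nat_lit 230)) (XT.lf (nat_lit 0) (nat_lit 2174293220) (nat_lit 456) (nat_lit 16573673702) (nat_lit 532) (nat_lit 2080537171) (nat_lit 138) (nat_lit 5) (nat_lit 144) (nat_lit 5) (nat_lit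 145) (nat_lit 5) (nat_lit 492) (nat_lit 419) (nat_lit 229))))) (XT.nd (nat_lit 234) (nat_lit 760) (nat_lit 0) (XT.nd (nat_lit 78) (nat_lit 456) (nat_lit 0) (XT.lf (nat_lit 0) (nat_lit 1131322095) (nat_lit 532) (nat_lit 8965222266) (nat_lit 76) (nat_lit 11004812461) (nat_lit 137) (nat_lit 5) (nat_lit 144) (nat_lit 5) (nat_lit 138) (nat_lit 5) (nat_lit 493) (nat_lit 419) (nat_lit 228)) (XT.nd (nat_lit 78) (nat_lit 0) (nat_lit 0) (XT.lf (nat_lit 0) (nat_lit 907234861) (nat_lit 456) (nat_lit 3472022648) (nat_lit 532) (nat_lit 17000144523) (nat_lit 131) (nat_lit 5) (nat_lit 137) (nat_lit 5) (nat_lit 138) (nat_lit 5) (nat_lit 494) (nat_lit 419) (nat_lit 227)) (XT.lf (nat_lit 0) (nat_lit 7767873804) (nat_lit 532) (nat_lit 10593353453) (nat_lit 76) (nat_lit 3300270782) (nat_lit 131) (nat_lit 5) (nat_lit 138) (nat_lit 5) (nat_lit 132) (nat_lit 5) (nat_lit 495) (nat_lit 419) (nat_lit 226)))) (XT.nd (nat_lit 156)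 (nat_lit 380) (nat_lit 0) (XT.nd (nat_lit 78) (nat_lit 380) (nat_lit 0) (XT.lf (nat_lit 0) (nat_lit 11241210915) (nat_lit 532) (nat_lit 548279398) (nat_lit 76) (nat_lit 10159410932) (nat_lit 131) (nat_lit 5) (nat_lit 138) (nat_lit 5) (nat_lit 132) (nat_lit 5) (nat_lit 496) (nat_lit 419) (nat_lit 225)) (XT.lf (nat_lit 0) (nat_lit 9818305754) (nat_lit 380) (nat_lit 5023529458) (nat_lit 456) (nat_lit 7399065061) (nat_lit 126) (nat_lit 5) (nat_lit 131) (nat_lit 5) (nat_lit 132) (nat_lit 5) (nat_lit 497) (nat_lit 419) (nat_lit 224))) (XT.nd (nat_lit 78) (nat_lit 380) (nat_lit 0) (XT.lf (nat_lit 0) (nat_lit 18524489719) (nat_lit 456) (nat_lit 2159439314) (nat_lit 76) (nat_lit 1854613978) (nat_lit 126) (nat_lit 5) (nat_lit 132) (nat_lit 5) (nat_lit 127) (nat_lit 5) (nat_lit 498) (nat_lit 419) (nat_lit 223)) (XT.lf (nat_lit 0) (nat_lit 8377532124) (nat_lit 380) (nat_lit 13985163850) (nat_lit 456) (nat_lit 477808662)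 (nat_lit 121) (nat_lit 5) (nat_lit 126) (nat_lit 5) (nat_lit 127) (nat_lit 5) (nat_lit 499) (nat_lit 419) (nat_lit 222)))))) (XT.nd (nat_lit 546) (nat_lit 1064) (nat_lit 0) (XT.nd (nat_lit 234) (nat_lit 760) (nat_lit 0) (XT.nd (nat_lit 78) (nat_lit 380) (nat_lit 0) (XT.lf (nat_lit 0) (nat_lit 3096965474) (nat_lit 456) (nat_lit 4022191973) (nat_lit 76) (nat_lit 16028768680) (nat_lit 120) (nat_lit 5) (nat_lit 126) (nat_lit 5) (nat_lit 121) (nat_lit 5) (nat_lit 500) (nat_lit 419) (nat_lit 221)) (XT.nd (nat_lit 78) (nat_lit 0) (nat_lit 0) (XT.lf (nat_lit 0) (nat_lit 6704247186) (nat_lit 380) (nat_lit 70494234) (nat_lit 456) (nat_lit 16685937153) (nat_lit 115) (nat_lit 5) (nat_lit 120) (nat_lit 5) (nat_lit 121) (nat_lit 5) (nat_lit 501) (nat_lit 419) (nat_lit 220)) (XT.lf (nat_lit 0) (nat_lit 10593879034) (nat_lit 456) (nat_lit 6133778389) (nat_lit 76) (nat_lit 7050676221) (nat_lit 115) (nat_lit 5) (nat_lit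 121) (nat_lit 5) (nat_lit 116) (nat_lit 5) (nat_lit 502) (nat_lit 419) (nat_lit 219)))) (XT.nd (nat_lit 156) (nat_lit 380) (nat_lit 0) (XT.nd (nat_lit 78) (nat_lit 0) (nat_lit 0) (XT.lf (nat_lit 0) (nat_lit 4755417009) (nat_lit 380) (nat_lit 9759848269) (nat_lit 456) (nat_lit 9586562847) (nat_lit 110) (nat_lit 5) (nat_lit 115) (nat_lit 5) (nat_lit 116) (nat_lit 5) (nat_lit 503) (nat_lit 419) (nat_lit 218)) (XT.lf (nat_lit 0) (nat_lit 15937780730) (nat_lit 380) (nat_lit 2613040099) (nat_lit 456) (nat_lit 5880260392) (nat_lit 110) (nat_lit 5) (nat_lit 115) (nat_lit 5) (nat_lit 116) (nat_lit 5) (nat_lit 504) (nat_lit 419) (nat_lit 217))) (XT.nd (nat_lit 78) (nat_lit 76) (nat_lit 0) (XT.lf (nat_lit 0) (nat_lit 2572544218) (nat_lit 304) (nat_lit 20136282259) (nat_lit 380) (nat_lit 2057261608) (nat_lit 106) (nat_lit 5) (nat_lit 110) (nat_lit 5) (nat_lit 111) (nat_lit 5) (nat_lit 505) (nat_lit 419) (nat_lit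 216)) (XT.lf (nat_lit 0) (nat_lit 1887401816) (nat_lit 380) (nat_lit 11169190064) (nat_lit 76) (nat_lit 12049580034) (nat_lit 105) (nat_lit 5) (nat_lit 110) (nat_lit 5) (nat_lit 106) (nat_lit 5) (nat_lit 506) (nat_lit 419) (nat_lit 215))))) (XT.nd (nat_lit 234) (nat_lit 684) (nat_lit 0) (XT.nd (nat_lit 78) (nat_lit 0) (nat_lit 0) (XT.lf (nat_lit 0) (nat_lit 55175199) (nat_lit 380) (nat_lit 5823413253) (nat_lit 456) (nat_lit 19574296748) (nat_lit 100) (nat_lit 5) (nat_lit 105) (nat_lit 5) (nat_lit 106) (nat_lit 5) (nat_lit 507) (nat_lit 419) (nat_lit 214)) (XT.nd (nat_lit 78) (nat_lit 0) (nat_lit 0) (XT.lf (nat_lit 0) (nat_lit 10029969259) (nat_lit 456) (nat_lit 14167809472) (nat_lit 76) (nat_lit 1607149833) (nat_lit 100) (nat_lit 5) (nat_lit 106) (nat_lit 5) (nat_lit 101) (nat_lit 5) (nat_lit 508) (nat_lit 419) (nat_lit 213)) (XT.lf (nat_lit 0) (nat_lit 14297875237) (nat_lit 456) (nat_lit 2759343320)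 (nat_lit 76) (nat_lit 9106127445) (nat_lit 100) (nat_lit 5) (nat_lit 106) (nat_lit 5) (nat_lit 101) (nat_lit 5) (nat_lit 509) (nat_lit 419) (nat_lit 212)))) (XT.nd (nat_lit 156) (nat_lit 380) (nat_lit 0) (XT.nd (nat_lit 78) (nat_lit 0) (nat_lit 0) (XT.lf (nat_lit 0) (nat_lit 8987849082) (nat_lit 304) (nat_lit 9716676611) (nat_lit 380) (nat_lit 7823341465) (nat_lit 96) (nat_lit 5) (nat_lit 100) (nat_lit 5) (nat_lit 101) (nat_lit 5) (nat_lit 510) (nat_lit 419) (nat_lit 211)) (XT.lf (nat_lit 0) (nat_lit 21000116788) (nat_lit 304) (nat_lit 2212790506) (nat_lit 380) (nat_lit 3686502514) (nat_lit 96) (nat_lit 5) (nat_lit 100) (nat_lit 5) (nat_lit 101) (nat_lit 5) (nat_lit 511) (nat_lit 419) (nat_lit 210))) (XT.nd (nat_lit 78) (nat_lit 0) (nat_lit 0) (XT.lf (nat_lit 0) (nat_lit 596054321) (nat_lit 380) (nat_lit 21270383347) (nat_lit 76) (nat_lit 5410479890) (nat_lit 91) (nat_lit 5) (nat_lit 96) (nat_lit 5) (nat_lit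 92) (nat_lit 5) (nat_lit 512) (nat_lit 419) (nat_lit 209)) (XT.lf (nat_lit 0) (nat_lit 4964626610) (nat_lit 380) (nat_lit 9477303103) (nat_lit 76) (nat_lit 13218566723) (nat_lit 91) (nat_lit 5) (nat_lit 96) (nat_lit 5) (nat_lit 92) (nat_lit 5) (nat_lit 513) (nat_lit 419) (nat_lit 208))))))))
noncomputable def xc193 : XT := (XT.nd (nat_lit 53742) (nat_lit 0) (nat_lit 10868) (XT.nd (nat_lit 52650) (nat_lit 0) (nat_lit 21736) (XT.nd (nat_lit 52104) (nat_lit 0) (nat_lit 22952) (XT.nd (nat_lit 234) (nat_lit 304) (nat_lit 0) (XT.nd (nat_lit 78) (nat_lit 0) (nat_lit 0) (XT.lf (nat_lit 0) (nat_lit 2578362757) (nat_lit 304) (nat_lit 6854219274) (nat_lit 380) (nat_lit 18618927430) (nat_lit 87) (nat_lit 5) (nat_lit 91) (nat_lit 5) (nat_lit 92) (nat_lit 5) (nat_lit 514) (nat_lit 419) (nat_lit 207)) (XT.nd (nat_lit 78) (nat_lit 0) (nat_lit 0) (XT.lf (nat_lit 0) (nat_lit 14054965915) (nat_lit 380) (nat_lit 13458756361)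 (nat_lit 76) (nat_lit 935321834) (nat_lit 87) (nat_lit 5) (nat_lit 92) (nat_lit 5) (nat_lit 88) (nat_lit 5) (nat_lit 515) (nat_lit 419) (nat_lit 206)) (XT.lf (nat_lit 0) (nat_lit 18810584638) (nat_lit 380) (nat_lit 1256456727) (nat_lit 76) (nat_lit 8786675038) (nat_lit 87) (nat_lit 5) (nat_lit 92) (nat_lit 5) (nat_lit 88) (nat_lit 5) (nat_lit 516) (nat_lit 419) (nat_lit 205)))) (XT.nd (nat_lit 78) (nat_lit 0) (nat_lit 0) (XT.lf (nat_lit 0) (nat_lit 11331656259) (nat_lit 304) (nat_lit 12398717381) (nat_lit 380) (nat_lit 5534729984) (nat_lit 83) (nat_lit 5) (nat_lit 87) (nat_lit 5) (nat_lit 88) (nat_lit 5) (nat_lit 517) (nat_lit 419) (nat_lit 204)) (XT.nd (nat_lit 51714) (nat_lit 0) (nat_lit 24396) (XT.lf (nat_lit 0) (nat_lit 24181758820) (nat_lit 304) (nat_lit 4570760714) (nat_lit 380) (nat_lit 932122426) (nat_lit 83) (nat_lit 5) (nat_lit 87) (nat_lit 5) (nat_lit 88) (nat_lit 5) (nat_lit 518) (nat_lit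 419) (nat_lit 203)) (XT.lf (nat_lit 0) (nat_lit 1406928986) (nat_lit 0) (nat_lit 1406928986) (nat_lit 1444) (nat_lit 1974293446) (nat_lit 404) (nat_lit 5) (nat_lit 404) (nat_lit 3) (nat_lit 423) (nat_lit 3) (nat_lit 420) (nat_lit 420) (nat_lit 300))))) (XT.nd (nat_lit 234) (nat_lit 1444) (nat_lit 0) (XT.nd (nat_lit 78) (nat_lit 0) (nat_lit 0) (XT.lf (nat_lit 0) (nat_lit 6422076574) (nat_lit 1444) (nat_lit 2507764112) (nat_lit 1520) (nat_lit 726641718) (nat_lit 404) (nat_lit 5) (nat_lit 423) (nat_lit 3) (nat_lit 424) (nat_lit 5) (nat_lit 421) (nat_lit 420) (nat_lit 299)) (XT.nd (nat_lit 78) (nat_lit 0) (nat_lit 0) (XT.lf (nat_lit 76) (nat_lit 1827254107) (nat_lit 0) (nat_lit 5416396517) (nat_lit 1520) (nat_lit 2494409969) (nat_lit 405) (nat_lit 5) (nat_lit 404) (nat_lit 5) (nat_lit 424) (nat_lit 5) (nat_lit 422) (nat_lit 420) (nat_lit 298)) (XT.lf (nat_lit 76) (nat_lit 6272946356) (nat_lit 0) (nat_lit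 1806676733) (nat_lit 1520) (nat_lit 1741709052) (nat_lit 405) (nat_lit 5) (nat_lit 404) (nat_lit 5) (nat_lit 424) (nat_lit 5) (nat_lit 423) (nat_lit 420) (nat_lit 297)))) (XT.nd (nat_lit 156) (nat_lit 1520) (nat_lit 0) (XT.nd (nat_lit 78) (nat_lit 0) (nat_lit 0) (XT.lf (nat_lit 76) (nat_lit 890517231) (nat_lit 0) (nat_lit 8041319517) (nat_lit 1520) (nat_lit 974462656) (nat_lit 406) (nat_lit 5) (nat_lit 405) (nat_lit 5) (nat_lit 425) (nat_lit 5) (nat_lit 424) (nat_lit 420) (nat_lit 296)) (XT.lf (nat_lit 76) (nat_lit 5443971321) (nat_lit 0) (nat_lit 4374680793) (nat_lit 1520) (nat_lit 173983061) (nat_lit 406) (nat_lit 5) (nat_lit 405) (nat_lit 5) (nat_lit 425) (nat_lit 5) (nat_lit 425) (nat_lit 420) (nat_lit 295))) (XT.nd (nat_lit 78) (nat_lit 0) (nat_lit 76) (XT.lf (nat_lit 0) (nat_lit 616157665) (nat_lit 1520) (nat_lit 6634932) (nat_lit 1596) (nat_lit 9458199595) (nat_lit 385) (nat_lit 5) (nat_lit 405)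 (nat_lit 5) (nat_lit 406) (nat_lit 5) (nat_lit 426) (nat_lit 420) (nat_lit 294)) (XT.lf (nat_lit 0) (nat_lit 1453626113) (nat_lit 1520) (nat_lit 5515562860) (nat_lit 1596) (nat_lit 3201246427) (nat_lit 386) (nat_lit 5) (nat_lit 406) (nat_lit 5) (nat_lit 407) (nat_lit 5) (nat_lit 427) (nat_lit 420) (nat_lit 293)))))) (XT.nd (nat_lit 546) (nat_lit 1292) (nat_lit 0) (XT.nd (nat_lit 234) (nat_lit 0) (nat_lit 76) (XT.nd (nat_lit 78) (nat_lit 0) (nat_lit 76) (XT.lf (nat_lit 0) (nat_lit 2294769760) (nat_lit 1520) (nat_lit 866496022) (nat_lit 1596) (nat_lit 7100681939) (nat_lit 386) (nat_lit 5) (nat_lit 406) (nat_lit 5) (nat_lit 407) (nat_lit 5) (nat_lit 428) (nat_lit 420) (nat_lit 292)) (XT.nd (nat_lit 78) (nat_lit 0) (nat_lit 0) (XT.lf (nat_lit 0) (nat_lit 3166165826) (nat_lit 1520) (nat_lit 6443323275) (nat_lit 1596) (nat_lit 745550993) (nat_lit 387) (nat_lit 5) (nat_lit 407) (nat_lit 5) (nat_lit 408) (nat_lit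 5) (nat_lit 429) (nat_lit 420) (nat_lit 291)) (XT.lf (nat_lit 0) (nat_lit 4065181087) (nat_lit 1520) (nat_lit 1684139303) (nat_lit 1596) (nat_lit 4700488136) (nat_lit 387) (nat_lit 5) (nat_lit 407) (nat_lit 5) (nat_lit 408) (nat_lit 5) (nat_lit 430) (nat_lit 420) (nat_lit 290)))) (XT.nd (nat_lit 156) (nat_lit 0) (nat_lit 76) (XT.nd (nat_lit 78) (nat_lit 0) (nat_lit 76) (XT.lf (nat_lit 76) (nat_lit 3201901528) (nat_lit 0) (nat_lit 1784792020) (nat_lit 1596) (nat_lit 5559706125) (nat_lit 388) (nat_lit 5) (nat_lit 387) (nat_lit 5) (nat_lit 408) (nat_lit 5) (nat_lit 431) (nat_lit 420) (nat_lit 289)) (XT.lf (nat_lit 0) (nat_lit 5936697629) (nat_lit 1520) (nat_lit 2461574035) (nat_lit 1596) (nat_lit 2246467088) (nat_lit 388) (nat_lit 5) (nat_lit 408) (nat_lit 5) (nat_lit 409) (nat_lit 5) (nat_lit 432) (nat_lit 420) (nat_lit 288))) (XT.nd (nat_lit 78) (nat_lit 0) (nat_lit 0) (XT.lf (nat_lit 76) (nat_lit 2529950274)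 (nat_lit 0) (nat_lit 4388328782) (nat_lit 1596) (nat_lit 3826531008) (nat_lit 389) (nat_lit 5) (nat_lit 388) (nat_lit 5) (nat_lit 409) (nat_lit 5) (nat_lit 433) (nat_lit 420) (nat_lit 287)) (XT.lf (nat_lit 76) (nat_lit 7644321681) (nat_lit 0) (nat_lit 276260250) (nat_lit 1596) (nat_lit 2926295739) (nat_lit 389) (nat_lit 5) (nat_lit 388) (nat_lit 5) (nat_lit 409) (nat_lit 5) (nat_lit 434) (nat_lit 420) (nat_lit 286))))) (XT.nd (nat_lit 234) (nat_lit 1520) (nat_lit 0) (XT.nd (nat_lit 78) (nat_lit 0) (nat_lit 0) (XT.lf (nat_lit 76) (nat_lit 1898961633) (nat_lit 0) (nat_lit 7066643331) (nat_lit 1596) (nat_lit 1984944517) (nat_lit 390) (nat_lit 5) (nat_lit 389) (nat_lit 5) (nat_lit 410) (nat_lit 5) (nat_lit 435) (nat_lit 420) (nat_lit 285)) (XT.nd (nat_lit 78) (nat_lit 0) (nat_lit 76) (XT.lf (nat_lit 76) (nat_lit 7133637417) (nat_lit 0) (nat_lit 2906333826) (nat_lit 1596) (nat_lit 1016170648) (nat_lit 390)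 (nat_lit 5) (nat_lit 389) (nat_lit 5) (nat_lit 410) (nat_lit 5) (nat_lit 436) (nat_lit 420) (nat_lit 284)) (XT.lf (nat_lit 76) (nat_lit 1307060285) (nat_lit 0) (nat_lit 9831386898) (nat_lit 1596) (nat_lit 25362220) (nat_lit 391) (nat_lit 5) (nat_lit 390) (nat_lit 5) (nat_lit 411) (nat_lit 5) (nat_lit 437) (nat_lit 420) (nat_lit 283)))) (XT.nd (nat_lit 156) (nat_lit 0) (nat_lit 76) (XT.nd (nat_lit 78) (nat_lit 0) (nat_lit 0) (XT.lf (nat_lit 0) (nat_lit 1003645287) (nat_lit 1596) (nat_lit 4615233683) (nat_lit 1672) (nat_lit 5654012352) (nat_lit 369) (nat_lit 5) (nat_lit 390) (nat_lit 5) (nat_lit 391) (nat_lit 5) (nat_lit 438) (nat_lit 420) (nat_lit 282)) (XT.lf (nat_lit 76) (nat_lit 730030104) (nat_lit 0) (nat_lit 1313447687) (nat_lit 1672) (nat_lit 9340876845) (nat_lit 370) (nat_lit 5) (nat_lit 369) (nat_lit 5) (nat_lit 391) (nat_lit 5) (nat_lit 439) (nat_lit 420) (nat_lit 281))) (XT.nd (nat_lit 78) (nat_lit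 0) (nat_lit 0) (XT.lf (nat_lit 0) (nat_lit 3141344808) (nat_lit 1596) (nat_lit 5283593833) (nat_lit 1672) (nat_lit 3072378324) (nat_lit 370) (nat_lit 5) (nat_lit 391) (nat_lit 5) (nat_lit 392) (nat_lit 5) (nat_lit 440) (nat_lit 420) (nat_lit 280)) (XT.lf (nat_lit 76) (nat_lit 177657886) (nat_lit 0) (nat_lit 4079713175) (nat_lit 1672) (nat_lit 7355257663) (nat_lit 371) (nat_lit 5) (nat_lit 370) (nat_lit 5) (nat_lit 392) (nat_lit 5) (nat_lit 441) (nat_lit 420) (nat_lit 279))))))) (XT.nd (nat_lit 1092) (nat_lit 5092) (nat_lit 0) (XT.nd (nat_lit 546) (nat_lit 2660) (nat_lit 0) (XT.nd (nat_lit 234) (nat_lit 3268) (nat_lit 0) (XT.nd (nat_lit 78) (nat_lit 0) (nat_lit 0) (XT.lf (nat_lit 0) (nat_lit 5420265756) (nat_lit 1596) (nat_lit 5923063810) (nat_lit 1672) (nat_lit 386440137) (nat_lit 371) (nat_lit 5) (nat_lit 392) (nat_lit 5) (nat_lit 393) (nat_lit 5) (nat_lit 442) (nat_lit 420) (nat_lit 278)) (XT.nd (nat_lit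 78) (nat_lit 0) (nat_lit 0) (XT.lf (nat_lit 0) (nat_lit 6620268953) (nat_lit 1596) (nat_lit 338484079) (nat_lit 1672) (nat_lit 4890237128) (nat_lit 371) (nat_lit 5) (nat_lit 392) (nat_lit 5) (nat_lit 393) (nat_lit 5) (nat_lit 443) (nat_lit 420) (nat_lit 277)) (XT.lf (nat_lit 76) (nat_lit 5418511338) (nat_lit 0) (nat_lit 2448032266) (nat_lit 1672) (nat_lit 4103619396) (nat_lit 372) (nat_lit 5) (nat_lit 371) (nat_lit 5) (nat_lit 393) (nat_lit 5) (nat_lit 444) (nat_lit 420) (nat_lit 276)))) (XT.nd (nat_lit 156) (nat_lit 1748) (nat_lit 0) (XT.nd (nat_lit 78) (nat_lit 1596) (nat_lit 0) (XT.lf (nat_lit 0) (nat_lit 9141301427) (nat_lit 1596) (nat_lit 823028208) (nat_lit 76) (nat_lit 2129371646) (nat_lit 372) (nat_lit 5) (nat_lit 393) (nat_lit 5) (nat_lit 373) (nat_lit 5) (nat_lit 445) (nat_lit 420) (nat_lit 275)) (XT.lf (nat_lit 0) (nat_lit 5059968835) (nat_lit 1596) (nat_lit 5418192688) (nat_lit 1672) (nat_lit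 1740829546) (nat_lit 351) (nat_lit 5) (nat_lit 372) (nat_lit 5) (nat_lit 373) (nat_lit 5) (nat_lit 446) (nat_lit 420) (nat_lit 274))) (XT.nd (nat_lit 78) (nat_lit 1748) (nat_lit 0) (XT.lf (nat_lit 0) (nat_lit 11061501124) (nat_lit 1596) (nat_lit 773500474) (nat_lit 1672) (nat_lit 511932826) (nat_lit 351) (nat_lit 5) (nat_lit 372) (nat_lit 5) (nat_lit 373) (nat_lit 5) (nat_lit 447) (nat_lit 420) (nat_lit 273)) (XT.lf (nat_lit 0) (nat_lit 776529902) (nat_lit 1748) (nat_lit 7750068784) (nat_lit 76) (nat_lit 3949859538) (nat_lit 328) (nat_lit 5) (nat_lit 351) (nat_lit 5) (nat_lit 329) (nat_lit 5) (nat_lit 448) (nat_lit 420) (nat_lit 272))))) (XT.nd (nat_lit 234) (nat_lit 1672) (nat_lit 0) (XT.nd (nat_lit 78) (nat_lit 988) (nat_lit 0) (XT.lf (nat_lit 0) (nat_lit 2085771013) (nat_lit 1748) (nat_lit 1751544873) (nat_lit 76) (nat_lit 8771163556) (nat_lit 328) (nat_lit 5) (nat_lit 351) (nat_lit 5) (nat_lit 329)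 (nat_lit 5) (nat_lit 449) (nat_lit 420) (nat_lit 271)) (XT.nd (nat_lit 78) (nat_lit 0) (nat_lit 0) (XT.lf (nat_lit 0) (nat_lit 3444485507) (nat_lit 1064) (nat_lit 8334548873) (nat_lit 76) (nat_lit 963652602) (nat_lit 315) (nat_lit 5) (nat_lit 329) (nat_lit 5) (nat_lit 316) (nat_lit 5) (nat_lit 450) (nat_lit 420) (nat_lit 270)) (XT.lf (nat_lit 0) (nat_lit 4856077343) (nat_lit 1064) (nat_lit 2200503822) (nat_lit 76) (nat_lit 5822494886) (nat_lit 315) (nat_lit 5) (nat_lit 329) (nat_lit 5) (nat_lit 316) (nat_lit 5) (nat_lit 451) (nat_lit 420) (nat_lit 269)))) (XT.nd (nat_lit 156) (nat_lit 836) (nat_lit 0) (XT.nd (nat_lit 78) (nat_lit 0) (nat_lit 0) (XT.lf (nat_lit 0) (nat_lit 4099768686) (nat_lit 836) (nat_lit 2211435783) (nat_lit 912) (nat_lit 6706693576) (nat_lit 304) (nat_lit 5) (nat_lit 315) (nat_lit 5) (nat_lit 316) (nat_lit 5) (nat_lit 452) (nat_lit 420) (nat_lit 268)) (XT.lf (nat_lit 0) (nat_lit 7816874895)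 (nat_lit 912) (nat_lit 2631548920) (nat_lit 76) (nat_lit 2710654843) (nat_lit 304) (nat_lit 5) (nat_lit 316) (nat_lit 5) (nat_lit 305) (nat_lit 5) (nat_lit 453) (nat_lit 420) (nat_lit 267))) (XT.nd (nat_lit 78) (nat_lit 0) (nat_lit 0) (XT.lf (nat_lit 0) (nat_lit 3805839892) (nat_lit 836) (nat_lit 5575240300) (nat_lit 912) (nat_lit 3921445041) (nat_lit 293) (nat_lit 5) (nat_lit 304) (nat_lit 5) (nat_lit 305) (nat_lit 5) (nat_lit 454) (nat_lit 420) (nat_lit 266)) (XT.lf (nat_lit 0) (nat_lit 10397522633) (nat_lit 836) (nat_lit 585920845) (nat_lit 912) (nat_lit 2465270350) (nat_lit 293) (nat_lit 5) (nat_lit 304) (nat_lit 5) (nat_lit 305) (nat_lit 5) (nat_lit 455) (nat_lit 420) (nat_lit 265)))))) (XT.nd (nat_lit 546) (nat_lit 2052) (nat_lit 0) (XT.nd (nat_lit 234) (nat_lit 1444) (nat_lit 0) (XT.nd (nat_lit 78) (nat_lit 836) (nat_lit 0) (XT.lf (nat_lit 0) (nat_lit 3530120646) (nat_lit 760) (nat_lit 9129321414)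 (nat_lit 836) (nat_lit 937562735) (nat_lit 283) (nat_lit 5) (nat_lit 293) (nat_lit 5) (nat_lit 294) (nat_lit 5) (nat_lit 456) (nat_lit 420) (nat_lit 264)) (XT.nd (nat_lit 78) (nat_lit 760) (nat_lit 0) (XT.lf (nat_lit 0) (nat_lit 626542578) (nat_lit 836) (nat_lit 3481714994) (nat_lit 76) (nat_lit 9639653685) (nat_lit 282) (nat_lit 5) (nat_lit 293) (nat_lit 5) (nat_lit 283) (nat_lit 5) (nat_lit 457) (nat_lit 420) (nat_lit 263)) (XT.lf (nat_lit 0) (nat_lit 2227025647) (nat_lit 836) (nat_lit 10646574141) (nat_lit 76) (nat_lit 1027768884) (nat_lit 272) (nat_lit 5) (nat_lit 283) (nat_lit 5) (nat_lit 273) (nat_lit 5) (nat_lit 458) (nat_lit 420) (nat_lit 262)))) (XT.nd (nat_lit 156) (nat_lit 760) (nat_lit 0) (XT.nd (nat_lit 78) (nat_lit 684) (nat_lit 0) (XT.lf (nat_lit 0) (nat_lit 3900081946) (nat_lit 836) (nat_lit 3921742751) (nat_lit 76) (nat_lit 6235268839) (nat_lit 272) (nat_lit 5) (nat_lit 283) (nat_lit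 5) (nat_lit 273) (nat_lit 5) (nat_lit 459) (nat_lit 420) (nat_lit 261)) (XT.lf (nat_lit 0) (nat_lit 2966508345) (nat_lit 684) (nat_lit 2649388520) (nat_lit 760) (nat_lit 8599859465) (nat_lit 263) (nat_lit 5) (nat_lit 272) (nat_lit 5) (nat_lit 273) (nat_lit 5) (nat_lit 460) (nat_lit 420) (nat_lit 260))) (XT.nd (nat_lit 78) (nat_lit 760) (nat_lit 0) (XT.lf (nat_lit 0) (nat_lit 7399739647) (nat_lit 760) (nat_lit 4358731382) (nat_lit 76) (nat_lit 2618456320) (nat_lit 263) (nat_lit 5) (nat_lit 273) (nat_lit 5) (nat_lit 264) (nat_lit 5) (nat_lit 461) (nat_lit 420) (nat_lit 259)) (XT.lf (nat_lit 0) (nat_lit 2677238060) (nat_lit 760) (nat_lit 6567309407) (nat_lit 836) (nat_lit 5296277575) (nat_lit 253) (nat_lit 5) (nat_lit 263) (nat_lit 5) (nat_lit 264) (nat_lit 5) (nat_lit 462) (nat_lit 420) (nat_lit 258))))) (XT.nd (nat_lit 234) (nat_lit 1292) (nat_lit 0) (XT.nd (nat_lit 78) (nat_lit 760) (nat_lit 0) (XT.lf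 (nat_lit 0) (nat_lit 9903151602) (nat_lit 760) (nat_lit 1242834390) (nat_lit 836) (nat_lit 3561628849) (nat_lit 253) (nat_lit 5) (nat_lit 263) (nat_lit 5) (nat_lit 264) (nat_lit 5) (nat_lit 463) (nat_lit 420) (nat_lit 257)) (XT.nd (nat_lit 78) (nat_lit 76) (nat_lit 0) (XT.lf (nat_lit 0) (nat_lit 2390139196) (nat_lit 684) (nat_lit 10728694119) (nat_lit 760) (nat_lit 1758248189) (nat_lit 244) (nat_lit 5) (nat_lit 253) (nat_lit 5) (nat_lit 254) (nat_lit 5) (nat_lit 464) (nat_lit 420) (nat_lit 256)) (XT.lf (nat_lit 0) (nat_lit 111539324) (nat_lit 760) (nat_lit 5274430231) (nat_lit 76) (nat_lit 9663337650) (nat_lit 243) (nat_lit 5) (nat_lit 253) (nat_lit 5) (nat_lit 244) (nat_lit 5) (nat_lit 465) (nat_lit 420) (nat_lit 255)))) (XT.nd (nat_lit 156) (nat_lit 608) (nat_lit 0) (XT.nd (nat_lit 78) (nat_lit 0) (nat_lit 0) (XT.lf (nat_lit 0) (nat_lit 2000237859) (nat_lit 760) (nat_lit 13136893155) (nat_lit 76) (nat_lit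 87520969) (nat_lit 234) (nat_lit 5) (nat_lit 244) (nat_lit 5) (nat_lit 235) (nat_lit 5) (nat_lit 466) (nat_lit 420) (nat_lit 254)) (XT.lf (nat_lit 0) (nat_lit 3989020321) (nat_lit 760) (nat_lit 5779861044) (nat_lit 76) (nat_lit 5633384102) (nat_lit 234) (nat_lit 5) (nat_lit 244) (nat_lit 5) (nat_lit 235) (nat_lit 5) (nat_lit 467) (nat_lit 420) (nat_lit 253))) (XT.nd (nat_lit 78) (nat_lit 0) (nat_lit 0) (XT.lf (nat_lit 0) (nat_lit 1737441546) (nat_lit 608) (nat_lit 4282606410) (nat_lit 684) (nat_lit 9563341726) (nat_lit 226) (nat_lit 5) (nat_lit 234) (nat_lit 5) (nat_lit 235) (nat_lit 5) (nat_lit 468) (nat_lit 420) (nat_lit 252)) (XT.lf (nat_lit 0) (nat_lit 8130559925) (nat_lit 684) (nat_lit 6302476621) (nat_lit 76) (nat_lit 1334330257) (nat_lit 226) (nat_lit 5) (nat_lit 235) (nat_lit 5) (nat_lit 227) (nat_lit 5) (nat_lit 469) (nat_lit 420) (nat_lit 251))))))))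
noncomputable def xc194 : XT := (XT.nd (nat_lit 2106) (nat_lit 3648) (nat_lit 0) (XT.nd (nat_lit 1014) (nat_lit 3496) (nat_lit 0) (XT.nd (nat_lit 468) (nat_lit 1748) (nat_lit 0) (XT.nd (nat_lit 234) (nat_lit 684) (nat_lit 0) (XT.nd (nat_lit 78) (nat_lit 608) (nat_lit 0) (XT.lf (nat_lit 0) (nat_lit 1371917797) (nat_lit 684) (nat_lit 8940097666) (nat_lit 760) (nat_lit 5642440884) (nat_lit 217) (nat_lit 5) (nat_lit 226) (nat_lit 5) (nat_lit 227) (nat_lit 5) (nat_lit 470) (nat_lit 420) (nat_lit 250)) (XT.nd (nat_lit 78) (nat_lit 608) (nat_lit 0) (XT.lf (nat_lit 0) (nat_lit 9275717004) (nat_lit 684) (nat_lit 3295245933) (nat_lit 760) (nat_lit 3573654887) (nat_lit 217) (nat_lit 5) (nat_lit 226) (nat_lit 5) (nat_lit 227) (nat_lit 5) (nat_lit 471) (nat_lit 420) (nat_lit 249)) (XT.lf (nat_lit 0) (nat_lit 986465220) (nat_lit 608) (nat_lit 13902745407) (nat_lit 684) (nat_lit 1449096730) (nat_lit 209) (nat_lit 5)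 (nat_lit 217) (nat_lit 5) (nat_lit 218) (nat_lit 5) (nat_lit 472) (nat_lit 420) (nat_lit 248)))) (XT.nd (nat_lit 78) (nat_lit 608) (nat_lit 0) (XT.lf (nat_lit 0) (nat_lit 768526637) (nat_lit 684) (nat_lit 7479237787) (nat_lit 76) (nat_lit 8286820199) (nat_lit 208) (nat_lit 5) (nat_lit 217) (nat_lit 5) (nat_lit 209) (nat_lit 5) (nat_lit 473) (nat_lit 420) (nat_lit 247)) (XT.nd (nat_lit 78) (nat_lit 0) (nat_lit 0) (XT.lf (nat_lit 0) (nat_lit 538929533) (nat_lit 608) (nat_lit 2467616276) (nat_lit 684) (nat_lit 13728147956) (nat_lit 200) (nat_lit 5) (nat_lit 208) (nat_lit 5) (nat_lit 209) (nat_lit 5) (nat_lit 474) (nat_lit 420) (nat_lit 246)) (XT.lf (nat_lit 0) (nat_lit 5354123867) (nat_lit 684) (nat_lit 8151004734) (nat_lit 76) (nat_lit 3432387218) (nat_lit 200) (nat_lit 5) (nat_lit 209) (nat_lit 5) (nat_lit 201) (nat_lit 5) (nat_lit 475) (nat_lit 420) (nat_lit 245))))) (XT.nd (nat_lit 234) (nat_lit 1216)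 (nat_lit 0) (XT.nd (nat_lit 78) (nat_lit 0) (nat_lit 0) (XT.lf (nat_lit 0) (nat_lit 29422866) (nat_lit 532) (nat_lit 7727938751) (nat_lit 608) (nat_lit 9386865107) (nat_lit 193) (nat_lit 5) (nat_lit 200) (nat_lit 5) (nat_lit 201) (nat_lit 5) (nat_lit 476) (nat_lit 420) (nat_lit 244)) (XT.nd (nat_lit 78) (nat_lit 0) (nat_lit 0) (XT.lf (nat_lit 0) (nat_lit 8474737883) (nat_lit 532) (nat_lit 1780892666) (nat_lit 608) (nat_lit 7098508408) (nat_lit 193) (nat_lit 5) (nat_lit 200) (nat_lit 5) (nat_lit 201) (nat_lit 5) (nat_lit 477) (nat_lit 420) (nat_lit 243)) (XT.lf (nat_lit 0) (nat_lit 12824097608) (nat_lit 608) (nat_lit 516289959) (nat_lit 76) (nat_lit 4227463530) (nat_lit 193) (nat_lit 5) (nat_lit 201) (nat_lit 5) (nat_lit 194) (nat_lit 5) (nat_lit 478) (nat_lit 420) (nat_lit 242)))) (XT.nd (nat_lit 156) (nat_lit 532) (nat_lit 0) (XT.nd (nat_lit 78) (nat_lit 76) (nat_lit 0) (XT.lf (nat_lit 0) (nat_lit 8099517935)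 (nat_lit 608) (nat_lit 7401357379) (nat_lit 684) (nat_lit 2283829528) (nat_lit 185) (nat_lit 5) (nat_lit 193) (nat_lit 5) (nat_lit 194) (nat_lit 5) (nat_lit 479) (nat_lit 420) (nat_lit 241)) (XT.lf (nat_lit 0) (nat_lit 218418716) (nat_lit 684) (nat_lit 1121714908) (nat_lit 76) (nat_lit 16665817124) (nat_lit 184) (nat_lit 5) (nat_lit 193) (nat_lit 5) (nat_lit 185) (nat_lit 5) (nat_lit 480) (nat_lit 420) (nat_lit 240))) (XT.nd (nat_lit 78) (nat_lit 0) (nat_lit 0) (XT.lf (nat_lit 0) (nat_lit 2814686093) (nat_lit 608) (nat_lit 10572441334) (nat_lit 76) (nat_lit 4842706964) (nat_lit 177) (nat_lit 5) (nat_lit 185) (nat_lit 5) (nat_lit 178) (nat_lit 5) (nat_lit 481) (nat_lit 420) (nat_lit 239)) (XT.lf (nat_lit 0) (nat_lit 5472143909) (nat_lit 608) (nat_lit 1848628029) (nat_lit 76) (nat_lit 11137244185) (nat_lit 177) (nat_lit 5) (nat_lit 185) (nat_lit 5) (nat_lit 178) (nat_lit 5) (nat_lit 482) (nat_lit 420) (nat_lit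 238)))))) (XT.nd (nat_lit 546) (nat_lit 1444) (nat_lit 0) (XT.nd (nat_lit 234) (nat_lit 1064) (nat_lit 0) (XT.nd (nat_lit 78) (nat_lit 456) (nat_lit 0) (XT.lf (nat_lit 0) (nat_lit 7134460403) (nat_lit 532) (nat_lit 1087565937) (nat_lit 608) (nat_lit 10467955248) (nat_lit 170) (nat_lit 5) (nat_lit 177) (nat_lit 5) (nat_lit 178) (nat_lit 5) (nat_lit 483) (nat_lit 420) (nat_lit 237)) (XT.nd (nat_lit 78) (nat_lit 456) (nat_lit 0) (XT.lf (nat_lit 0) (nat_lit 11066636201) (nat_lit 608) (nat_lit 2647216080) (nat_lit 76) (nat_lit 5211944984) (nat_lit 170) (nat_lit 5) (nat_lit 178) (nat_lit 5) (nat_lit 171) (nat_lit 5) (nat_lit 484) (nat_lit 420) (nat_lit 236)) (XT.lf (nat_lit 0) (nat_lit 6508742897) (nat_lit 456) (nat_lit 7502017690) (nat_lit 532) (nat_lit 5154721611) (nat_lit 164) (nat_lit 5) (nat_lit 170) (nat_lit 5) (nat_lit 171) (nat_lit 5) (nat_lit 485) (nat_lit 420) (nat_lit 235)))) (XT.nd (nat_lit 156)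 (nat_lit 456) (nat_lit 0) (XT.nd (nat_lit 78) (nat_lit 608) (nat_lit 0) (XT.lf (nat_lit 0) (nat_lit 15875088687) (nat_lit 456) (nat_lit 1149681979) (nat_lit 532) (nat_lit 2384975384) (nat_lit 164) (nat_lit 5) (nat_lit 170) (nat_lit 5) (nat_lit 171) (nat_lit 5) (nat_lit 486) (nat_lit 420) (nat_lit 234)) (XT.lf (nat_lit 0) (nat_lit 500461787) (nat_lit 608) (nat_lit 13858086215) (nat_lit 76) (nat_lit 5298973720) (nat_lit 156) (nat_lit 5) (nat_lit 164) (nat_lit 5) (nat_lit 157) (nat_lit 5) (nat_lit 487) (nat_lit 420) (nat_lit 233))) (XT.nd (nat_lit 78) (nat_lit 456) (nat_lit 0) (XT.lf (nat_lit 0) (nat_lit 3436579180) (nat_lit 608) (nat_lit 4573830031) (nat_lit 76) (nat_lit 11899035257) (nat_lit 156) (nat_lit 5) (nat_lit 164) (nat_lit 5) (nat_lit 157) (nat_lit 5) (nat_lit 488) (nat_lit 420) (nat_lit 232)) (XT.lf (nat_lit 0) (nat_lit 4952625111) (nat_lit 456) (nat_lit 1504465385) (nat_lit 532) (nat_lit 13708806623)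 (nat_lit 150) (nat_lit 5) (nat_lit 156) (nat_lit 5) (nat_lit 157) (nat_lit 5) (nat_lit 489) (nat_lit 420) (nat_lit 231))))) (XT.nd (nat_lit 234) (nat_lit 988) (nat_lit 0) (XT.nd (nat_lit 78) (nat_lit 456) (nat_lit 0) (XT.lf (nat_lit 0) (nat_lit 9595801574) (nat_lit 532) (nat_lit 5737282541) (nat_lit 76) (nat_lit 5093243702) (nat_lit 150) (nat_lit 5) (nat_lit 157) (nat_lit 5) (nat_lit 151) (nat_lit 5) (nat_lit 490) (nat_lit 420) (nat_lit 230)) (XT.nd (nat_lit 78) (nat_lit 0) (nat_lit 0) (XT.lf (nat_lit 0) (nat_lit 3961885579) (nat_lit 456) (nat_lit 8864789527) (nat_lit 532) (nat_lit 7864708951) (nat_lit 144) (nat_lit 5) (nat_lit 150) (nat_lit 5) (nat_lit 151) (nat_lit 5) (nat_lit 491) (nat_lit 420) (nat_lit 229)) (XT.lf (nat_lit 0) (nat_lit 13924523666) (nat_lit 456) (nat_lit 2229914038) (nat_lit 532) (nat_lit 4806662886) (nat_lit 144) (nat_lit 5) (nat_lit 150) (nat_lit 5) (nat_lit 151) (nat_lit 5) (nat_lit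 492) (nat_lit 420) (nat_lit 228)))) (XT.nd (nat_lit 156) (nat_lit 456) (nat_lit 0) (XT.nd (nat_lit 78) (nat_lit 76) (nat_lit 0) (XT.lf (nat_lit 0) (nat_lit 2849883400) (nat_lit 456) (nat_lit 16740717437) (nat_lit 532) (nat_lit 1644778221) (nat_lit 138) (nat_lit 5) (nat_lit 144) (nat_lit 5) (nat_lit 145) (nat_lit 5) (nat_lit 493) (nat_lit 420) (nat_lit 227)) (XT.lf (nat_lit 0) (nat_lit 1615820011) (nat_lit 532) (nat_lit 8518350210) (nat_lit 76) (nat_lit 11379647949) (nat_lit 137) (nat_lit 5) (nat_lit 144) (nat_lit 5) (nat_lit 138) (nat_lit 5) (nat_lit 494) (nat_lit 420) (nat_lit 226))) (XT.nd (nat_lit 78) (nat_lit 0) (nat_lit 0) (XT.lf (nat_lit 0) (nat_lit 1547436478) (nat_lit 456) (nat_lit 3376260158) (nat_lit 532) (nat_lit 16873834436) (nat_lit 131) (nat_lit 5) (nat_lit 137) (nat_lit 5) (nat_lit 138) (nat_lit 5) (nat_lit 495) (nat_lit 420) (nat_lit 225)) (XT.lf (nat_lit 0) (nat_lit 8372178912) (nat_lit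 532) (nat_lit 10187138842) (nat_lit 76) (nat_lit 3526115684) (nat_lit 131) (nat_lit 5) (nat_lit 138) (nat_lit 5) (nat_lit 132) (nat_lit 5) (nat_lit 496) (nat_lit 420) (nat_lit 224))))))) (XT.nd (nat_lit 1014) (nat_lit 1292) (nat_lit 0) (XT.nd (nat_lit 468) (nat_lit 1140) (nat_lit 0) (XT.nd (nat_lit 234) (nat_lit 836) (nat_lit 0) (XT.nd (nat_lit 78) (nat_lit 0) (nat_lit 0) (XT.lf (nat_lit 0) (nat_lit 47338294) (nat_lit 380) (nat_lit 11859148927) (nat_lit 456) (nat_lit 10472273587) (nat_lit 126) (nat_lit 5) (nat_lit 131) (nat_lit 5) (nat_lit 132) (nat_lit 5) (nat_lit 497) (nat_lit 420) (nat_lit 223)) (XT.nd (nat_lit 78) (nat_lit 0) (nat_lit 0) (XT.lf (nat_lit 0) (nat_lit 10616647705) (nat_lit 380) (nat_lit 4957447085) (nat_lit 456) (nat_lit 7102611677) (nat_lit 126) (nat_lit 5) (nat_lit 131) (nat_lit 5) (nat_lit 132) (nat_lit 5) (nat_lit 498) (nat_lit 420) (nat_lit 222)) (XT.lf (nat_lit 0) (nat_lit 19322924853)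 (nat_lit 456) (nat_lit 1604680772) (nat_lit 76) (nat_lit 2052851934) (nat_lit 126) (nat_lit 5) (nat_lit 132) (nat_lit 5) (nat_lit 127) (nat_lit 5) (nat_lit 499) (nat_lit 420) (nat_lit 221)))) (XT.nd (nat_lit 78) (nat_lit 456) (nat_lit 0) (XT.lf (nat_lit 0) (nat_lit 9139096230) (nat_lit 380) (nat_lit 14094264647) (nat_lit 456) (nat_lit 55194058) (nat_lit 121) (nat_lit 5) (nat_lit 126) (nat_lit 5) (nat_lit 127) (nat_lit 5) (nat_lit 500) (nat_lit 420) (nat_lit 220)) (XT.nd (nat_lit 78) (nat_lit 380) (nat_lit 0) (XT.lf (nat_lit 0) (nat_lit 3577044764) (nat_lit 456) (nat_lit 3514432560) (nat_lit 76) (nat_lit 16510764275) (nat_lit 120) (nat_lit 5) (nat_lit 126) (nat_lit 5) (nat_lit 121) (nat_lit 5) (nat_lit 501) (nat_lit 420) (nat_lit 219)) (XT.lf (nat_lit 0) (nat_lit 7324612075) (nat_lit 456) (nat_lit 16499317853) (nat_lit 76) (nat_lit 97399944) (nat_lit 115) (nat_lit 5) (nat_lit 121) (nat_lit 5) (nat_lit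 116) (nat_lit 5) (nat_lit 502) (nat_lit 420) (nat_lit 218))))) (XT.nd (nat_lit 234) (nat_lit 760) (nat_lit 0) (XT.nd (nat_lit 78) (nat_lit 380) (nat_lit 0) (XT.lf (nat_lit 0) (nat_lit 11212465120) (nat_lit 456) (nat_lit 5676282081) (nat_lit 76) (nat_lit 7356749576) (nat_lit 115) (nat_lit 5) (nat_lit 121) (nat_lit 5) (nat_lit 116) (nat_lit 5) (nat_lit 503) (nat_lit 420) (nat_lit 217)) (XT.nd (nat_lit 78) (nat_lit 0) (nat_lit 0) (XT.lf (nat_lit 0) (nat_lit 5426880305) (nat_lit 380) (nat_lit 9781166187) (nat_lit 456) (nat_lit 9367504590) (nat_lit 110) (nat_lit 5) (nat_lit 115) (nat_lit 5) (nat_lit 116) (nat_lit 5) (nat_lit 504) (nat_lit 420) (nat_lit 216)) (XT.lf (nat_lit 0) (nat_lit 16821590223) (nat_lit 380) (nat_lit 2494831246) (nat_lit 456) (nat_lit 5595130783) (nat_lit 110) (nat_lit 5) (nat_lit 115) (nat_lit 5) (nat_lit 116) (nat_lit 5) (nat_lit 505) (nat_lit 420) (nat_lit 215)))) (XT.nd (nat_lit 156)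 (nat_lit 380) (nat_lit 0) (XT.nd (nat_lit 78) (nat_lit 76) (nat_lit 0) (XT.lf (nat_lit 0) (nat_lit 3192328972) (nat_lit 304) (nat_lit 20362296413) (nat_lit 380) (nat_lit 1698698181) (nat_lit 106) (nat_lit 5) (nat_lit 110) (nat_lit 5) (nat_lit 111) (nat_lit 5) (nat_lit 506) (nat_lit 420) (nat_lit 214)) (XT.lf (nat_lit 0) (nat_lit 2311881624) (nat_lit 380) (nat_lit 10830000359) (nat_lit 76) (nat_lit 12458434757) (nat_lit 105) (nat_lit 5) (nat_lit 110) (nat_lit 5) (nat_lit 106) (nat_lit 5) (nat_lit 507) (nat_lit 420) (nat_lit 213))) (XT.nd (nat_lit 78) (nat_lit 0) (nat_lit 0) (XT.lf (nat_lit 0) (nat_lit 615151067) (nat_lit 380) (nat_lit 5763786521) (nat_lit 456) (nat_lit 19575110577) (nat_lit 100) (nat_lit 5) (nat_lit 105) (nat_lit 5) (nat_lit 106) (nat_lit 5) (nat_lit 508) (nat_lit 420) (nat_lit 212)) (XT.lf (nat_lit 0) (nat_lit 10606961479) (nat_lit 456) (nat_lit 13896632546) (nat_lit 76) (nat_lit 1809670752)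 (nat_lit 100) (nat_lit 5) (nat_lit 106) (nat_lit 5) (nat_lit 101) (nat_lit 5) (nat_lit 509) (nat_lit 420) (nat_lit 211)))))) (XT.nd (nat_lit 546) (nat_lit 304) (nat_lit 0) (XT.nd (nat_lit 234) (nat_lit 684) (nat_lit 0) (XT.nd (nat_lit 78) (nat_lit 304) (nat_lit 0) (XT.lf (nat_lit 0) (nat_lit 14952845326) (nat_lit 456) (nat_lit 2270870269) (nat_lit 76) (nat_lit 9455287172) (nat_lit 100) (nat_lit 5) (nat_lit 106) (nat_lit 5) (nat_lit 101) (nat_lit 5) (nat_lit 510) (nat_lit 420) (nat_lit 210)) (XT.nd (nat_lit 78) (nat_lit 0) (nat_lit 0) (XT.lf (nat_lit 0) (nat_lit 9707689271) (nat_lit 304) (nat_lit 9736210557) (nat_lit 380) (nat_lit 7606993605) (nat_lit 96) (nat_lit 5) (nat_lit 100) (nat_lit 5) (nat_lit 101) (nat_lit 5) (nat_lit 511) (nat_lit 420) (nat_lit 209)) (XT.lf (nat_lit 0) (nat_lit 21949612464) (nat_lit 304) (nat_lit 2085674173) (nat_lit 380) (nat_lit 3394727967) (nat_lit 96) (nat_lit 5) (nat_lit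 100) (nat_lit 5) (nat_lit 101) (nat_lit 5) (nat_lit 512) (nat_lit 420) (nat_lit 208)))) (XT.nd (nat_lit 156) (nat_lit 304) (nat_lit 0) (XT.nd (nat_lit 78) (nat_lit 0) (nat_lit 0) (XT.lf (nat_lit 0) (nat_lit 966190188) (nat_lit 380) (nat_lit 21158578817) (nat_lit 76) (nat_lit 5690310214) (nat_lit 91) (nat_lit 5) (nat_lit 96) (nat_lit 5) (nat_lit 92) (nat_lit 5) (nat_lit 513) (nat_lit 420) (nat_lit 207)) (XT.lf (nat_lit 0) (nat_lit 5415110103) (nat_lit 380) (nat_lit 9140170541) (nat_lit 76) (nat_lit 13651193671) (nat_lit 91) (nat_lit 5) (nat_lit 96) (nat_lit 5) (nat_lit 92) (nat_lit 5) (nat_lit 514) (nat_lit 420) (nat_lit 206))) (XT.nd (nat_lit 78) (nat_lit 0) (nat_lit 0) (XT.lf (nat_lit 0) (nat_lit 3153143646) (nat_lit 304) (nat_lit 6815791940) (nat_lit 380) (nat_lit 18636445879) (nat_lit 87) (nat_lit 5) (nat_lit 91) (nat_lit 5) (nat_lit 92) (nat_lit 5) (nat_lit 515) (nat_lit 420) (nat_lit 205)) (XT.lf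 (nat_lit 0) (nat_lit 14678066656) (nat_lit 380) (nat_lit 13209076310) (nat_lit 76) (nat_lit 1123841852) (nat_lit 87) (nat_lit 5) (nat_lit 92) (nat_lit 5) (nat_lit 88) (nat_lit 5) (nat_lit 516) (nat_lit 420) (nat_lit 204))))) (XT.nd (nat_lit 51948) (nat_lit 0) (nat_lit 22952) (XT.nd (nat_lit 78) (nat_lit 304) (nat_lit 0) (XT.lf (nat_lit 0) (nat_lit 19522091844) (nat_lit 380) (nat_lit 772904314) (nat_lit 76) (nat_lit 9128892441) (nat_lit 87) (nat_lit 5) (nat_lit 92) (nat_lit 5) (nat_lit 88) (nat_lit 5) (nat_lit 517) (nat_lit 420) (nat_lit 203)) (XT.nd (nat_lit 51792) (nat_lit 0) (nat_lit 24396) (XT.lf (nat_lit 0) (nat_lit 12063624342) (nat_lit 304) (nat_lit 12473358832) (nat_lit 380) (nat_lit 5306590108) (nat_lit 83) (nat_lit 5) (nat_lit 87) (nat_lit 5) (nat_lit 88) (nat_lit 5) (nat_lit 518) (nat_lit 420) (nat_lit 202)) (XT.lf (nat_lit 0) (nat_lit 1799338487) (nat_lit 0) (nat_lit 1799338487) (nat_lit 1444)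 (nat_lit 1269850179) (nat_lit 404) (nat_lit 5) (nat_lit 404) (nat_lit 3) (nat_lit 423) (nat_lit 3) (nat_lit 421) (nat_lit 421) (nat_lit 298)))) (XT.nd (nat_lit 156) (nat_lit 1444) (nat_lit 0) (XT.nd (nat_lit 78) (nat_lit 0) (nat_lit 0) (XT.lf (nat_lit 0) (nat_lit 7974394093) (nat_lit 1444) (nat_lit 1808854093) (nat_lit 1520) (nat_lit 36285450) (nat_lit 404) (nat_lit 5) (nat_lit 423) (nat_lit 3) (nat_lit 424) (nat_lit 5) (nat_lit 422) (nat_lit 421) (nat_lit 297)) (XT.lf (nat_lit 76) (nat_lit 2607936429) (nat_lit 0) (nat_lit 6181375490) (nat_lit 1520) (nat_lit 1113924614) (nat_lit 405) (nat_lit 5) (nat_lit 404) (nat_lit 5) (nat_lit 424) (nat_lit 5) (nat_lit 423) (nat_lit 421) (nat_lit 296))) (XT.nd (nat_lit 78) (nat_lit 1444) (nat_lit 0) (XT.lf (nat_lit 76) (nat_lit 7127951597) (nat_lit 0) (nat_lit 2486585801) (nat_lit 1520) (nat_lit 374216218) (nat_lit 405) (nat_lit 5) (nat_lit 404) (nat_lit 5) (nat_lit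 424) (nat_lit 5) (nat_lit 424) (nat_lit 421) (nat_lit 295)) (XT.lf (nat_lit 0) (nat_lit 376710366) (nat_lit 1520) (nat_lit 8412409970) (nat_lit 1596) (nat_lit 1286802615) (nat_lit 385) (nat_lit 5) (nat_lit 405) (nat_lit 5) (nat_lit 406) (nat_lit 5) (nat_lit 425) (nat_lit 421) (nat_lit 294))))))))
noncomputable def xc195 : XT := (XT.nd (nat_lit 2106) (nat_lit 9880) (nat_lit 0) (XT.nd (nat_lit 1014) (nat_lit 4028) (nat_lit 0) (XT.nd (nat_lit 468) (nat_lit 1292) (nat_lit 0) (XT.nd (nat_lit 234) (nat_lit 0) (nat_lit 76) (XT.nd (nat_lit 78) (nat_lit 0) (nat_lit 0) (XT.lf (nat_lit 0) (nat_lit 1155871024) (nat_lit 1520) (nat_lit 3876490366) (nat_lit 1596) (nat_lit 5132079427) (nat_lit 385) (nat_lit 5) (nat_lit 405) (nat_lit 5) (nat_lit 406) (nat_lit 5) (nat_lit 426) (nat_lit 421) (nat_lit 293)) (XT.nd (nat_lit 78) (nat_lit 0) (nat_lit 76) (XT.lf (nat_lit 76) (nat_lit 750123869) (nat_lit 0) (nat_lit 1188135380)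 (nat_lit 1596) (nat_lit 8316735669) (nat_lit 386) (nat_lit 5) (nat_lit 385) (nat_lit 5) (nat_lit 406) (nat_lit 5) (nat_lit 427) (nat_lit 421) (nat_lit 292)) (XT.lf (nat_lit 0) (nat_lit 2763319754) (nat_lit 1520) (nat_lit 4853139939) (nat_lit 1596) (nat_lit 2730378316) (nat_lit 386) (nat_lit 5) (nat_lit 406) (nat_lit 5) (nat_lit 407) (nat_lit 5) (nat_lit 428) (nat_lit 421) (nat_lit 291)))) (XT.nd (nat_lit 78) (nat_lit 0) (nat_lit 76) (XT.lf (nat_lit 0) (nat_lit 3596176055) (nat_lit 1520) (nat_lit 126243415) (nat_lit 1596) (nat_lit 6718290637) (nat_lit 386) (nat_lit 5) (nat_lit 406) (nat_lit 5) (nat_lit 407) (nat_lit 5) (nat_lit 429) (nat_lit 421) (nat_lit 290)) (XT.nd (nat_lit 78) (nat_lit 0) (nat_lit 0) (XT.lf (nat_lit 0) (nat_lit 4462131419) (nat_lit 1520) (nat_lit 5790399030) (nat_lit 1596) (nat_lit 283618043) (nat_lit 387) (nat_lit 5) (nat_lit 407) (nat_lit 5) (nat_lit 408) (nat_lit 5) (nat_lit 430)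 (nat_lit 421) (nat_lit 289)) (XT.lf (nat_lit 0) (nat_lit 5354957529) (nat_lit 1520) (nat_lit 951360609) (nat_lit 1596) (nat_lit 4327003810) (nat_lit 387) (nat_lit 5) (nat_lit 407) (nat_lit 5) (nat_lit 408) (nat_lit 5) (nat_lit 431) (nat_lit 421) (nat_lit 288))))) (XT.nd (nat_lit 234) (nat_lit 1444) (nat_lit 0) (XT.nd (nat_lit 78) (nat_lit 0) (nat_lit 76) (XT.lf (nat_lit 76) (nat_lit 4027358530) (nat_lit 0) (nat_lit 2248789801) (nat_lit 1596) (nat_lit 4456097376) (nat_lit 388) (nat_lit 5) (nat_lit 387) (nat_lit 5) (nat_lit 408) (nat_lit 5) (nat_lit 432) (nat_lit 421) (nat_lit 287)) (XT.nd (nat_lit 78) (nat_lit 0) (nat_lit 0) (XT.lf (nat_lit 0) (nat_lit 7219098338) (nat_lit 1520) (nat_lit 1736999878) (nat_lit 1596) (nat_lit 1876999681) (nat_lit 388) (nat_lit 5) (nat_lit 408) (nat_lit 5) (nat_lit 409) (nat_lit 5) (nat_lit 433) (nat_lit 421) (nat_lit 286)) (XT.lf (nat_lit 76) (nat_lit 3349264091) (nat_lit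 0) (nat_lit 4853221313) (nat_lit 1596) (nat_lit 2733066501) (nat_lit 389) (nat_lit 5) (nat_lit 388) (nat_lit 5) (nat_lit 409) (nat_lit 5) (nat_lit 434) (nat_lit 421) (nat_lit 285)))) (XT.nd (nat_lit 156) (nat_lit 1520) (nat_lit 0) (XT.nd (nat_lit 78) (nat_lit 0) (nat_lit 76) (XT.lf (nat_lit 76) (nat_lit 8550850086) (nat_lit 0) (nat_lit 651516784) (nat_lit 1596) (nat_lit 1837767607) (nat_lit 389) (nat_lit 5) (nat_lit 388) (nat_lit 5) (nat_lit 409) (nat_lit 5) (nat_lit 435) (nat_lit 421) (nat_lit 284)) (XT.lf (nat_lit 76) (nat_lit 2711534366) (nat_lit 0) (nat_lit 7537404775) (nat_lit 1596) (nat_lit 897351399) (nat_lit 390) (nat_lit 5) (nat_lit 389) (nat_lit 5) (nat_lit 410) (nat_lit 5) (nat_lit 436) (nat_lit 421) (nat_lit 283))) (XT.nd (nat_lit 78) (nat_lit 0) (nat_lit 76) (XT.lf (nat_lit 0) (nat_lit 67793245) (nat_lit 1596) (nat_lit 3219181521) (nat_lit 1672) (nat_lit 7967467383) (nat_lit 368) (nat_lit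 5) (nat_lit 389) (nat_lit 5) (nat_lit 390) (nat_lit 5) (nat_lit 437) (nat_lit 421) (nat_lit 282)) (XT.lf (nat_lit 0) (nat_lit 1046800042) (nat_lit 1596) (nat_lit 9259188545) (nat_lit 1672) (nat_lit 1058532876) (nat_lit 369) (nat_lit 5) (nat_lit 390) (nat_lit 5) (nat_lit 391) (nat_lit 5) (nat_lit 438) (nat_lit 421) (nat_lit 281)))))) (XT.nd (nat_lit 546) (nat_lit 4104) (nat_lit 0) (XT.nd (nat_lit 234) (nat_lit 0) (nat_lit 76) (XT.nd (nat_lit 78) (nat_lit 0) (nat_lit 0) (XT.lf (nat_lit 0) (nat_lit 2075022335) (nat_lit 1596) (nat_lit 3928589735) (nat_lit 1672) (nat_lit 5472612092) (nat_lit 369) (nat_lit 5) (nat_lit 390) (nat_lit 5) (nat_lit 391) (nat_lit 5) (nat_lit 439) (nat_lit 421) (nat_lit 280)) (XT.nd (nat_lit 78) (nat_lit 0) (nat_lit 76) (XT.lf (nat_lit 76) (nat_lit 1518454666) (nat_lit 0) (nat_lit 1601607194) (nat_lit 1672) (nat_lit 8470188221) (nat_lit 370) (nat_lit 5) (nat_lit 369) (nat_lit 5) (nat_lit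 391) (nat_lit 5) (nat_lit 440) (nat_lit 421) (nat_lit 279)) (XT.lf (nat_lit 0) (nat_lit 4217911063) (nat_lit 1596) (nat_lit 4607583382) (nat_lit 1672) (nat_lit 2880437839) (nat_lit 370) (nat_lit 5) (nat_lit 391) (nat_lit 5) (nat_lit 392) (nat_lit 5) (nat_lit 441) (nat_lit 421) (nat_lit 278)))) (XT.nd (nat_lit 156) (nat_lit 0) (nat_lit 76) (XT.nd (nat_lit 78) (nat_lit 0) (nat_lit 76) (XT.lf (nat_lit 76) (nat_lit 957750725) (nat_lit 0) (nat_lit 4383671685) (nat_lit 1672) (nat_lit 6482445288) (nat_lit 371) (nat_lit 5) (nat_lit 370) (nat_lit 5) (nat_lit 392) (nat_lit 5) (nat_lit 442) (nat_lit 421) (nat_lit 277)) (XT.lf (nat_lit 0) (nat_lit 6506573220) (nat_lit 1596) (nat_lit 5258194676) (nat_lit 1672) (nat_lit 179023940) (nat_lit 371) (nat_lit 5) (nat_lit 392) (nat_lit 5) (nat_lit 393) (nat_lit 5) (nat_lit 443) (nat_lit 421) (nat_lit 276))) (XT.nd (nat_lit 78) (nat_lit 0) (nat_lit 0) (XT.lf (nat_lit 76) (nat_lit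 428334918) (nat_lit 0) (nat_lit 7285848044) (nat_lit 1672) (nat_lit 4351561517) (nat_lit 372) (nat_lit 5) (nat_lit 371) (nat_lit 5) (nat_lit 393) (nat_lit 5) (nat_lit 444) (nat_lit 421) (nat_lit 275)) (XT.lf (nat_lit 76) (nat_lit 6289800114) (nat_lit 0) (nat_lit 2678956752) (nat_lit 1672) (nat_lit 3220935951) (nat_lit 372) (nat_lit 5) (nat_lit 371) (nat_lit 5) (nat_lit 393) (nat_lit 5) (nat_lit 445) (nat_lit 421) (nat_lit 274))))) (XT.nd (nat_lit 234) (nat_lit 2660) (nat_lit 0) (XT.nd (nat_lit 78) (nat_lit 1672) (nat_lit 0) (XT.lf (nat_lit 0) (nat_lit 10249324475) (nat_lit 1596) (nat_lit 70887378) (nat_lit 76) (nat_lit 1995902852) (nat_lit 372) (nat_lit 5) (nat_lit 393) (nat_lit 5) (nat_lit 373) (nat_lit 5) (nat_lit 446) (nat_lit 421) (nat_lit 273)) (XT.nd (nat_lit 78) (nat_lit 76) (nat_lit 0) (XT.lf (nat_lit 0) (nat_lit 5924713018) (nat_lit 1596) (nat_lit 5675025075) (nat_lit 1672) (nat_lit 844454626)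 (nat_lit 351) (nat_lit 5) (nat_lit 372) (nat_lit 5) (nat_lit 373) (nat_lit 5) (nat_lit 447) (nat_lit 421) (nat_lit 272)) (XT.lf (nat_lit 0) (nat_lit 385636465) (nat_lit 1672) (nat_lit 546303580) (nat_lit 76) (nat_lit 11643080198) (nat_lit 350) (nat_lit 5) (nat_lit 372) (nat_lit 5) (nat_lit 351) (nat_lit 5) (nat_lit 448) (nat_lit 421) (nat_lit 271)))) (XT.nd (nat_lit 156) (nat_lit 988) (nat_lit 0) (XT.nd (nat_lit 78) (nat_lit 0) (nat_lit 0) (XT.lf (nat_lit 0) (nat_lit 1679409987) (nat_lit 1748) (nat_lit 7129128160) (nat_lit 76) (nat_lit 3898818442) (nat_lit 328) (nat_lit 5) (nat_lit 351) (nat_lit 5) (nat_lit 329) (nat_lit 5) (nat_lit 449) (nat_lit 421) (nat_lit 270)) (XT.lf (nat_lit 0) (nat_lit 2997436912) (nat_lit 1748) (nat_lit 1025848320) (nat_lit 76) (nat_lit 8819098311) (nat_lit 328) (nat_lit 5) (nat_lit 351) (nat_lit 5) (nat_lit 329) (nat_lit 5) (nat_lit 450) (nat_lit 421) (nat_lit 269))) (XT.nd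 (nat_lit 78) (nat_lit 0) (nat_lit 0) (XT.lf (nat_lit 0) (nat_lit 4370511747) (nat_lit 1064) (nat_lit 7726848963) (nat_lit 76) (nat_lit 882187793) (nat_lit 315) (nat_lit 5) (nat_lit 329) (nat_lit 5) (nat_lit 316) (nat_lit 5) (nat_lit 451) (nat_lit 421) (nat_lit 268)) (XT.lf (nat_lit 0) (nat_lit 5793528821) (nat_lit 1064) (nat_lit 1485307145) (nat_lit 76) (nat_lit 5840182175) (nat_lit 315) (nat_lit 5) (nat_lit 329) (nat_lit 5) (nat_lit 316) (nat_lit 5) (nat_lit 452) (nat_lit 421) (nat_lit 267))))))) (XT.nd (nat_lit 1092) (nat_lit 4408) (nat_lit 0) (XT.nd (nat_lit 546) (nat_lit 2204) (nat_lit 0) (XT.nd (nat_lit 234) (nat_lit 1596) (nat_lit 0) (XT.nd (nat_lit 78) (nat_lit 836) (nat_lit 0) (XT.lf (nat_lit 0) (nat_lit 4935976031) (nat_lit 836) (nat_lit 2330202245) (nat_lit 912) (nat_lit 5994686233) (nat_lit 304) (nat_lit 5) (nat_lit 315) (nat_lit 5) (nat_lit 316) (nat_lit 5) (nat_lit 453) (nat_lit 421) (nat_lit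 266)) (XT.nd (nat_lit 78) (nat_lit 836) (nat_lit 0) (XT.lf (nat_lit 0) (nat_lit 8785237657) (nat_lit 912) (nat_lit 1927231451) (nat_lit 76) (nat_lit 2692750126) (nat_lit 304) (nat_lit 5) (nat_lit 316) (nat_lit 5) (nat_lit 305) (nat_lit 5) (nat_lit 454) (nat_lit 421) (nat_lit 265)) (XT.lf (nat_lit 0) (nat_lit 4633925213) (nat_lit 836) (nat_lit 5735762061) (nat_lit 912) (nat_lit 3182083957) (nat_lit 293) (nat_lit 5) (nat_lit 304) (nat_lit 5) (nat_lit 305) (nat_lit 5) (nat_lit 455) (nat_lit 421) (nat_lit 264)))) (XT.nd (nat_lit 156) (nat_lit 836) (nat_lit 0) (XT.nd (nat_lit 78) (nat_lit 760) (nat_lit 0) (XT.lf (nat_lit 0) (nat_lit 11342697129) (nat_lit 836) (nat_lit 645695100) (nat_lit 912) (nat_lit 1712820870) (nat_lit 293) (nat_lit 5) (nat_lit 304) (nat_lit 5) (nat_lit 305) (nat_lit 5) (nat_lit 456) (nat_lit 421) (nat_lit 263)) (XT.lf (nat_lit 0) (nat_lit 4349773520) (nat_lit 760) (nat_lit 9337297058)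 (nat_lit 836) (nat_lit 165631198) (nat_lit 283) (nat_lit 5) (nat_lit 293) (nat_lit 5) (nat_lit 294) (nat_lit 5) (nat_lit 457) (nat_lit 421) (nat_lit 262))) (XT.nd (nat_lit 78) (nat_lit 760) (nat_lit 0) (XT.lf (nat_lit 0) (nat_lit 1404086022) (nat_lit 836) (nat_lit 2806094452) (nat_lit 76) (nat_lit 9796663726) (nat_lit 282) (nat_lit 5) (nat_lit 293) (nat_lit 5) (nat_lit 283) (nat_lit 5) (nat_lit 458) (nat_lit 421) (nat_lit 261)) (XT.lf (nat_lit 0) (nat_lit 3026291430) (nat_lit 836) (nat_lit 10103252645) (nat_lit 76) (nat_lit 1034046652) (nat_lit 272) (nat_lit 5) (nat_lit 283) (nat_lit 5) (nat_lit 273) (nat_lit 5) (nat_lit 459) (nat_lit 421) (nat_lit 260))))) (XT.nd (nat_lit 234) (nat_lit 1520) (nat_lit 0) (XT.nd (nat_lit 78) (nat_lit 684) (nat_lit 0) (XT.lf (nat_lit 0) (nat_lit 4718010319) (nat_lit 836) (nat_lit 3258753116) (nat_lit 76) (nat_lit 6345976560) (nat_lit 272) (nat_lit 5) (nat_lit 283) (nat_lit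 5) (nat_lit 273) (nat_lit 5) (nat_lit 460) (nat_lit 421) (nat_lit 259)) (XT.nd (nat_lit 78) (nat_lit 0) (nat_lit 0) (XT.lf (nat_lit 0) (nat_lit 3762385209) (nat_lit 684) (nat_lit 2696030110) (nat_lit 760) (nat_lit 8026368914) (nat_lit 263) (nat_lit 5) (nat_lit 272) (nat_lit 5) (nat_lit 273) (nat_lit 5) (nat_lit 461) (nat_lit 421) (nat_lit 258)) (XT.lf (nat_lit 0) (nat_lit 8263657695) (nat_lit 760) (nat_lit 3708854327) (nat_lit 76) (nat_lit 2676965592) (nat_lit 263) (nat_lit 5) (nat_lit 273) (nat_lit 5) (nat_lit 264) (nat_lit 5) (nat_lit 462) (nat_lit 421) (nat_lit 257)))) (XT.nd (nat_lit 156) (nat_lit 760) (nat_lit 0) (XT.nd (nat_lit 78) (nat_lit 0) (nat_lit 0) (XT.lf (nat_lit 0) (nat_lit 3462985479) (nat_lit 760) (nat_lit 6673092427) (nat_lit 836) (nat_lit 4680774164) (nat_lit 253) (nat_lit 5) (nat_lit 263) (nat_lit 5) (nat_lit 264) (nat_lit 5) (nat_lit 463) (nat_lit 421) (nat_lit 256)) (XT.lf (nat_lit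 0) (nat_lit 10819060378) (nat_lit 760) (nat_lit 1242629148) (nat_lit 836) (nat_lit 2925578130) (nat_lit 253) (nat_lit 5) (nat_lit 263) (nat_lit 5) (nat_lit 264) (nat_lit 5) (nat_lit 464) (nat_lit 421) (nat_lit 255))) (XT.nd (nat_lit 78) (nat_lit 76) (nat_lit 0) (XT.lf (nat_lit 0) (nat_lit 3165307497) (nat_lit 684) (nat_lit 10899984369) (nat_lit 760) (nat_lit 1095018448) (nat_lit 244) (nat_lit 5) (nat_lit 253) (nat_lit 5) (nat_lit 254) (nat_lit 5) (nat_lit 465) (nat_lit 421) (nat_lit 254)) (XT.lf (nat_lit 0) (nat_lit 789490829) (nat_lit 760) (nat_lit 4657228741) (nat_lit 76) (nat_lit 9889452691) (nat_lit 243) (nat_lit 5) (nat_lit 253) (nat_lit 5) (nat_lit 244) (nat_lit 5) (nat_lit 466) (nat_lit 421) (nat_lit 253)))))) (XT.nd (nat_lit 546) (nat_lit 1824) (nat_lit 0) (XT.nd (nat_lit 234) (nat_lit 1292) (nat_lit 0) (XT.nd (nat_lit 78) (nat_lit 608) (nat_lit 0) (XT.lf (nat_lit 0) (nat_lit 2707705070) (nat_lit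 760) (nat_lit 12668087881) (nat_lit 76) (nat_lit 139408046) (nat_lit 234) (nat_lit 5) (nat_lit 244) (nat_lit 5) (nat_lit 235) (nat_lit 5) (nat_lit 467) (nat_lit 421) (nat_lit 252)) (XT.nd (nat_lit 78) (nat_lit 608) (nat_lit 0) (XT.lf (nat_lit 0) (nat_lit 4723175681) (nat_lit 760) (nat_lit 5178259111) (nat_lit 76) (nat_lit 5795205370) (nat_lit 234) (nat_lit 5) (nat_lit 244) (nat_lit 5) (nat_lit 235) (nat_lit 5) (nat_lit 468) (nat_lit 421) (nat_lit 251)) (XT.lf (nat_lit 0) (nat_lit 2484671116) (nat_lit 608) (nat_lit 4301947769) (nat_lit 684) (nat_lit 9094943510) (nat_lit 226) (nat_lit 5) (nat_lit 234) (nat_lit 5) (nat_lit 235) (nat_lit 5) (nat_lit 469) (nat_lit 421) (nat_lit 250)))) (XT.nd (nat_lit 156) (nat_lit 608) (nat_lit 0) (XT.nd (nat_lit 78) (nat_lit 684) (nat_lit 0) (XT.lf (nat_lit 0) (nat_lit 8927093185) (nat_lit 684) (nat_lit 5717207246) (nat_lit 76) (nat_lit 1425174794) (nat_lit 226) (nat_lit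 5) (nat_lit 235) (nat_lit 5) (nat_lit 227) (nat_lit 5) (nat_lit 470) (nat_lit 421) (nat_lit 249)) (XT.lf (nat_lit 0) (nat_lit 2105995331) (nat_lit 684) (nat_lit 9038340629) (nat_lit 760) (nat_lit 5116138427) (nat_lit 217) (nat_lit 5) (nat_lit 226) (nat_lit 5) (nat_lit 227) (nat_lit 5) (nat_lit 471) (nat_lit 421) (nat_lit 248))) (XT.nd (nat_lit 78) (nat_lit 608) (nat_lit 0) (XT.lf (nat_lit 0) (nat_lit 10154014852) (nat_lit 684) (nat_lit 3282171449) (nat_lit 760) (nat_lit 3018509088) (nat_lit 217) (nat_lit 5) (nat_lit 226) (nat_lit 5) (nat_lit 227) (nat_lit 5) (nat_lit 472) (nat_lit 421) (nat_lit 247)) (XT.lf (nat_lit 0) (nat_lit 1706641316) (nat_lit 608) (nat_lit 14087172752) (nat_lit 684) (nat_lit 858594906) (nat_lit 209) (nat_lit 5) (nat_lit 217) (nat_lit 5) (nat_lit 218) (nat_lit 5) (nat_lit 473) (nat_lit 421) (nat_lit 246))))) (XT.nd (nat_lit 234) (nat_lit 1140) (nat_lit 0) (XT.nd (nat_lit 78) (nat_lit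 608) (nat_lit 0) (XT.lf (nat_lit 0) (nat_lit 1383268854) (nat_lit 684) (nat_lit 6933637030) (nat_lit 76) (nat_lit 8535875360) (nat_lit 208) (nat_lit 5) (nat_lit 217) (nat_lit 5) (nat_lit 209) (nat_lit 5) (nat_lit 474) (nat_lit 421) (nat_lit 245)) (XT.nd (nat_lit 78) (nat_lit 0) (nat_lit 0) (XT.lf (nat_lit 0) (nat_lit 1240320046) (nat_lit 608) (nat_lit 2418459887) (nat_lit 684) (nat_lit 13398267958) (nat_lit 200) (nat_lit 5) (nat_lit 208) (nat_lit 5) (nat_lit 209) (nat_lit 5) (nat_lit 475) (nat_lit 421) (nat_lit 244)) (XT.lf (nat_lit 0) (nat_lit 6042326730) (nat_lit 684) (nat_lit 7625483567) (nat_lit 76) (nat_lit 3596345507) (nat_lit 200) (nat_lit 5) (nat_lit 209) (nat_lit 5) (nat_lit 201) (nat_lit 5) (nat_lit 476) (nat_lit 421) (nat_lit 243)))) (XT.nd (nat_lit 156) (nat_lit 608) (nat_lit 0) (XT.nd (nat_lit 78) (nat_lit 0) (nat_lit 0) (XT.lf (nat_lit 0) (nat_lit 714022708) (nat_lit 532) (nat_lit 7772653065)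 (nat_lit 608) (nat_lit 8988473789) (nat_lit 193) (nat_lit 5) (nat_lit 200) (nat_lit 5) (nat_lit 201) (nat_lit 5) (nat_lit 477) (nat_lit 421) (nat_lit 242)) (XT.lf (nat_lit 0) (nat_lit 9314832038) (nat_lit 532) (nat_lit 1708819871) (nat_lit 608) (nat_lit 6665842675) (nat_lit 193) (nat_lit 5) (nat_lit 200) (nat_lit 5) (nat_lit 201) (nat_lit 5) (nat_lit 478) (nat_lit 421) (nat_lit 241))) (XT.nd (nat_lit 78) (nat_lit 0) (nat_lit 0) (XT.lf (nat_lit 0) (nat_lit 143528755) (nat_lit 608) (nat_lit 13490539499) (nat_lit 684) (nat_lit 4273610308) (nat_lit 185) (nat_lit 5) (nat_lit 193) (nat_lit 5) (nat_lit 194) (nat_lit 5) (nat_lit 479) (nat_lit 421) (nat_lit 240)) (XT.lf (nat_lit 0) (nat_lit 8925373941) (nat_lit 608) (nat_lit 7431551499) (nat_lit 684) (nat_lit 1772102079) (nat_lit 185) (nat_lit 5) (nat_lit 193) (nat_lit 5) (nat_lit 194) (nat_lit 5) (nat_lit 480) (nat_lit 421) (nat_lit 239))))))))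
noncomputable def xc196 : XT := (XT.nd (nat_lit 2106) (nat_lit 1444) (nat_lit 0) (XT.nd (nat_lit 1014) (nat_lit 2888) (nat_lit 0) (XT.nd (nat_lit 468) (nat_lit 1520) (nat_lit 0) (XT.nd (nat_lit 234) (nat_lit 988) (nat_lit 0) (XT.nd (nat_lit 78) (nat_lit 532) (nat_lit 0) (XT.lf (nat_lit 0) (nat_lit 762094527) (nat_lit 684) (nat_lit 485700157) (nat_lit 76) (nat_lit 17107055667) (nat_lit 184) (nat_lit 5) (nat_lit 193) (nat_lit 5) (nat_lit 185) (nat_lit 5) (nat_lit 481) (nat_lit 421) (nat_lit 238)) (XT.nd (nat_lit 78) (nat_lit 0) (nat_lit 0) (XT.lf (nat_lit 0) (nat_lit 3404746063) (nat_lit 608) (nat_lit 10119475154) (nat_lit 76) (nat_lit 5059109768) (nat_lit 177) (nat_lit 5) (nat_lit 185) (nat_lit 5) (nat_lit 178) (nat_lit 5) (nat_lit 482) (nat_lit 421) (nat_lit 237)) (XT.lf (nat_lit 0) (nat_lit 6104887030) (nat_lit 608) (nat_lit 1234213329) (nat_lit 76) (nat_lit 11477193643) (nat_lit 177) (nat_lit 5) (nat_lit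 185) (nat_lit 5) (nat_lit 178) (nat_lit 5) (nat_lit 483) (nat_lit 421) (nat_lit 236)))) (XT.nd (nat_lit 78) (nat_lit 456) (nat_lit 0) (XT.lf (nat_lit 0) (nat_lit 7924251430) (nat_lit 532) (nat_lit 979456306) (nat_lit 608) (nat_lit 10149320394) (nat_lit 170) (nat_lit 5) (nat_lit 177) (nat_lit 5) (nat_lit 178) (nat_lit 5) (nat_lit 484) (nat_lit 421) (nat_lit 235)) (XT.nd (nat_lit 78) (nat_lit 456) (nat_lit 0) (XT.lf (nat_lit 0) (nat_lit 11795894426) (nat_lit 608) (nat_lit 2056031220) (nat_lit 76) (nat_lit 5441828786) (nat_lit 170) (nat_lit 5) (nat_lit 178) (nat_lit 5) (nat_lit 171) (nat_lit 5) (nat_lit 485) (nat_lit 421) (nat_lit 234)) (XT.lf (nat_lit 0) (nat_lit 7278809245) (nat_lit 456) (nat_lit 7514287331) (nat_lit 532) (nat_lit 4745260430) (nat_lit 164) (nat_lit 5) (nat_lit 170) (nat_lit 5) (nat_lit 171) (nat_lit 5) (nat_lit 486) (nat_lit 421) (nat_lit 233))))) (XT.nd (nat_lit 234) (nat_lit 912) (nat_lit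 0) (XT.nd (nat_lit 78) (nat_lit 608) (nat_lit 0) (XT.lf (nat_lit 0) (nat_lit 16819935059) (nat_lit 456) (nat_lit 1037606293) (nat_lit 532) (nat_lit 1930169388) (nat_lit 164) (nat_lit 5) (nat_lit 170) (nat_lit 5) (nat_lit 171) (nat_lit 5) (nat_lit 487) (nat_lit 421) (nat_lit 232)) (XT.nd (nat_lit 78) (nat_lit 0) (nat_lit 0) (XT.lf (nat_lit 0) (nat_lit 1001661575) (nat_lit 608) (nat_lit 13495841421) (nat_lit 76) (nat_lit 5542975564) (nat_lit 156) (nat_lit 5) (nat_lit 164) (nat_lit 5) (nat_lit 157) (nat_lit 5) (nat_lit 488) (nat_lit 421) (nat_lit 231)) (XT.lf (nat_lit 0) (nat_lit 3986870128) (nat_lit 608) (nat_lit 4038437496) (nat_lit 76) (nat_lit 12272332010) (nat_lit 156) (nat_lit 5) (nat_lit 164) (nat_lit 5) (nat_lit 157) (nat_lit 5) (nat_lit 489) (nat_lit 421) (nat_lit 230)))) (XT.nd (nat_lit 156) (nat_lit 456) (nat_lit 0) (XT.nd (nat_lit 78) (nat_lit 0) (nat_lit 0) (XT.lf (nat_lit 0) (nat_lit 5674422609)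 (nat_lit 456) (nat_lit 1387969994) (nat_lit 532) (nat_lit 13496943825) (nat_lit 150) (nat_lit 5) (nat_lit 156) (nat_lit 5) (nat_lit 157) (nat_lit 5) (nat_lit 490) (nat_lit 421) (nat_lit 229)) (XT.lf (nat_lit 0) (nat_lit 10255474491) (nat_lit 532) (nat_lit 5232742012) (nat_lit 76) (nat_lit 5336934276) (nat_lit 150) (nat_lit 5) (nat_lit 157) (nat_lit 5) (nat_lit 151) (nat_lit 5) (nat_lit 491) (nat_lit 421) (nat_lit 228))) (XT.nd (nat_lit 78) (nat_lit 0) (nat_lit 0) (XT.lf (nat_lit 0) (nat_lit 4656335220) (nat_lit 456) (nat_lit 8889452934) (nat_lit 532) (nat_lit 7549830369) (nat_lit 144) (nat_lit 5) (nat_lit 150) (nat_lit 5) (nat_lit 151) (nat_lit 5) (nat_lit 492) (nat_lit 421) (nat_lit 227)) (XT.lf (nat_lit 0) (nat_lit 14806163089) (nat_lit 456) (nat_lit 2124872727) (nat_lit 532) (nat_lit 4439881672) (nat_lit 144) (nat_lit 5) (nat_lit 150) (nat_lit 5) (nat_lit 151) (nat_lit 5) (nat_lit 493) (nat_lit 421)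 (nat_lit 226)))))) (XT.nd (nat_lit 546) (nat_lit 1520) (nat_lit 0) (XT.nd (nat_lit 234) (nat_lit 380) (nat_lit 0) (XT.nd (nat_lit 78) (nat_lit 532) (nat_lit 0) (XT.lf (nat_lit 0) (nat_lit 3514440003) (nat_lit 456) (nat_lit 16917487053) (nat_lit 532) (nat_lit 1218840940) (nat_lit 138) (nat_lit 5) (nat_lit 144) (nat_lit 5) (nat_lit 145) (nat_lit 5) (nat_lit 494) (nat_lit 421) (nat_lit 225)) (XT.nd (nat_lit 78) (nat_lit 456) (nat_lit 0) (XT.lf (nat_lit 0) (nat_lit 2092072853) (nat_lit 532) (nat_lit 8086855909) (nat_lit 76) (nat_lit 11755971433) (nat_lit 137) (nat_lit 5) (nat_lit 144) (nat_lit 5) (nat_lit 138) (nat_lit 5) (nat_lit 495) (nat_lit 421) (nat_lit 224)) (XT.lf (nat_lit 0) (nat_lit 2176286899) (nat_lit 456) (nat_lit 3284997450) (nat_lit 532) (nat_lit 16763105649) (nat_lit 131) (nat_lit 5) (nat_lit 137) (nat_lit 5) (nat_lit 138) (nat_lit 5) (nat_lit 496) (nat_lit 421) (nat_lit 223)))) (XT.nd (nat_lit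 156) (nat_lit 0) (nat_lit 0) (XT.nd (nat_lit 78) (nat_lit 380) (nat_lit 0) (XT.lf (nat_lit 0) (nat_lit 8971136938) (nat_lit 532) (nat_lit 9796800805) (nat_lit 76) (nat_lit 3750270722) (nat_lit 131) (nat_lit 5) (nat_lit 138) (nat_lit 5) (nat_lit 132) (nat_lit 5) (nat_lit 497) (nat_lit 421) (nat_lit 222)) (XT.lf (nat_lit 0) (nat_lit 638457448) (nat_lit 380) (nat_lit 11933044688) (nat_lit 456) (nat_lit 10245998780) (nat_lit 126) (nat_lit 5) (nat_lit 131) (nat_lit 5) (nat_lit 132) (nat_lit 5) (nat_lit 498) (nat_lit 421) (nat_lit 221))) (XT.nd (nat_lit 78) (nat_lit 0) (nat_lit 0) (XT.lf (nat_lit 0) (nat_lit 11407581040) (nat_lit 380) (nat_lit 4896510520) (nat_lit 456) (nat_lit 6817487166) (nat_lit 126) (nat_lit 5) (nat_lit 131) (nat_lit 5) (nat_lit 132) (nat_lit 5) (nat_lit 499) (nat_lit 421) (nat_lit 220)) (XT.lf (nat_lit 0) (nat_lit 20120711051) (nat_lit 456) (nat_lit 1062046083) (nat_lit 76) (nat_lit 2248797166)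 (nat_lit 126) (nat_lit 5) (nat_lit 132) (nat_lit 5) (nat_lit 127) (nat_lit 5) (nat_lit 500) (nat_lit 421) (nat_lit 219))))) (XT.nd (nat_lit 234) (nat_lit 684) (nat_lit 0) (XT.nd (nat_lit 78) (nat_lit 380) (nat_lit 0) (XT.lf (nat_lit 0) (nat_lit 354381575) (nat_lit 456) (nat_lit 13855412500) (nat_lit 76) (nat_lit 9536065689) (nat_lit 120) (nat_lit 5) (nat_lit 126) (nat_lit 5) (nat_lit 121) (nat_lit 5) (nat_lit 501) (nat_lit 421) (nat_lit 218)) (XT.nd (nat_lit 78) (nat_lit 380) (nat_lit 0) (XT.lf (nat_lit 0) (nat_lit 4050488754) (nat_lit 456) (nat_lit 3019358607) (nat_lit 76) (nat_lit 16996131638) (nat_lit 120) (nat_lit 5) (nat_lit 126) (nat_lit 5) (nat_lit 121) (nat_lit 5) (nat_lit 502) (nat_lit 421) (nat_lit 217)) (XT.lf (nat_lit 0) (nat_lit 7869838146) (nat_lit 456) (nat_lit 16260508253) (nat_lit 76) (nat_lit 261171306) (nat_lit 115) (nat_lit 5) (nat_lit 121) (nat_lit 5) (nat_lit 116) (nat_lit 5) (nat_lit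 503) (nat_lit 421) (nat_lit 216)))) (XT.nd (nat_lit 156) (nat_lit 304) (nat_lit 0) (XT.nd (nat_lit 78) (nat_lit 380) (nat_lit 0) (XT.lf (nat_lit 0) (nat_lit 11827629942) (nat_lit 456) (nat_lit 5232164627) (nat_lit 76) (nat_lit 7662534924) (nat_lit 115) (nat_lit 5) (nat_lit 121) (nat_lit 5) (nat_lit 116) (nat_lit 5) (nat_lit 504) (nat_lit 421) (nat_lit 215)) (XT.lf (nat_lit 0) (nat_lit 6089392301) (nat_lit 380) (nat_lit 9809662398) (nat_lit 456) (nat_lit 9160016626) (nat_lit 110) (nat_lit 5) (nat_lit 115) (nat_lit 5) (nat_lit 116) (nat_lit 5) (nat_lit 505) (nat_lit 421) (nat_lit 214))) (XT.nd (nat_lit 78) (nat_lit 304) (nat_lit 0) (XT.lf (nat_lit 0) (nat_lit 17701134175) (nat_lit 380) (nat_lit 2380877761) (nat_lit 456) (nat_lit 5319937265) (nat_lit 110) (nat_lit 5) (nat_lit 115) (nat_lit 5) (nat_lit 116) (nat_lit 5) (nat_lit 506) (nat_lit 421) (nat_lit 213)) (XT.lf (nat_lit 0) (nat_lit 3802440324) (nat_lit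 304) (nat_lit 20599692773) (nat_lit 380) (nat_lit 1348484661) (nat_lit 106) (nat_lit 5) (nat_lit 110) (nat_lit 5) (nat_lit 111) (nat_lit 5) (nat_lit 507) (nat_lit 421) (nat_lit 212))))))) (XT.nd (nat_lit 52806) (nat_lit 0) (nat_lit 21356) (XT.nd (nat_lit 468) (nat_lit 684) (nat_lit 0) (XT.nd (nat_lit 234) (nat_lit 304) (nat_lit 0) (XT.nd (nat_lit 78) (nat_lit 380) (nat_lit 0) (XT.lf (nat_lit 0) (nat_lit 2729833763) (nat_lit 380) (nat_lit 10505872276) (nat_lit 76) (nat_lit 12868948244) (nat_lit 105) (nat_lit 5) (nat_lit 110) (nat_lit 5) (nat_lit 106) (nat_lit 5) (nat_lit 508) (nat_lit 421) (nat_lit 211)) (XT.nd (nat_lit 78) (nat_lit 0) (nat_lit 0) (XT.lf (nat_lit 0) (nat_lit 1164624757) (nat_lit 380) (nat_lit 5709805237) (nat_lit 456) (nat_lit 19591110957) (nat_lit 100) (nat_lit 5) (nat_lit 105) (nat_lit 5) (nat_lit 106) (nat_lit 5) (nat_lit 509) (nat_lit 421) (nat_lit 210)) (XT.lf (nat_lit 0) (nat_lit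 11180877751) (nat_lit 456) (nat_lit 13641565278) (nat_lit 76) (nat_lit 2009626106) (nat_lit 100) (nat_lit 5) (nat_lit 106) (nat_lit 5) (nat_lit 101) (nat_lit 5) (nat_lit 510) (nat_lit 421) (nat_lit 209)))) (XT.nd (nat_lit 78) (nat_lit 304) (nat_lit 0) (XT.lf (nat_lit 0) (nat_lit 15606585607) (nat_lit 456) (nat_lit 1793738734) (nat_lit 76) (nat_lit 9804943837) (nat_lit 100) (nat_lit 5) (nat_lit 106) (nat_lit 5) (nat_lit 101) (nat_lit 5) (nat_lit 511) (nat_lit 421) (nat_lit 208)) (XT.nd (nat_lit 78) (nat_lit 0) (nat_lit 0) (XT.lf (nat_lit 0) (nat_lit 10420954175) (nat_lit 304) (nat_lit 9762922862) (nat_lit 380) (nat_lit 7400795636) (nat_lit 96) (nat_lit 5) (nat_lit 100) (nat_lit 5) (nat_lit 101) (nat_lit 5) (nat_lit 512) (nat_lit 421) (nat_lit 207)) (XT.lf (nat_lit 0) (nat_lit 22897537182) (nat_lit 304) (nat_lit 1962670102) (nat_lit 380) (nat_lit 3111310918) (nat_lit 96) (nat_lit 5) (nat_lit 100) (nat_lit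 5) (nat_lit 101) (nat_lit 5) (nat_lit 513) (nat_lit 421) (nat_lit 206))))) (XT.nd (nat_lit 234) (nat_lit 0) (nat_lit 0) (XT.nd (nat_lit 78) (nat_lit 304) (nat_lit 0) (XT.lf (nat_lit 0) (nat_lit 1329818855) (nat_lit 380) (nat_lit 21065398800) (nat_lit 76) (nat_lit 5969072902) (nat_lit 91) (nat_lit 5) (nat_lit 96) (nat_lit 5) (nat_lit 92) (nat_lit 5) (nat_lit 514) (nat_lit 421) (nat_lit 205)) (XT.nd (nat_lit 78) (nat_lit 304) (nat_lit 0) (XT.lf (nat_lit 0) (nat_lit 5860966093) (nat_lit 380) (nat_lit 8816746900) (nat_lit 76) (nat_lit 14085939588) (nat_lit 91) (nat_lit 5) (nat_lit 96) (nat_lit 5) (nat_lit 92) (nat_lit 5) (nat_lit 515) (nat_lit 421) (nat_lit 204)) (XT.lf (nat_lit 0) (nat_lit 3719103130) (nat_lit 304) (nat_lit 6783411392) (nat_lit 380) (nat_lit 18668094346) (nat_lit 87) (nat_lit 5) (nat_lit 91) (nat_lit 5) (nat_lit 92) (nat_lit 5) (nat_lit 516) (nat_lit 421) (nat_lit 203)))) (XT.nd (nat_lit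 51948) (nat_lit 0) (nat_lit 24092) (XT.nd (nat_lit 78) (nat_lit 0) (nat_lit 0) (XT.lf (nat_lit 0) (nat_lit 15300349081) (nat_lit 380) (nat_lit 12974550437) (nat_lit 76) (nat_lit 1309538201) (nat_lit 87) (nat_lit 5) (nat_lit 92) (nat_lit 5) (nat_lit 88) (nat_lit 5) (nat_lit 517) (nat_lit 421) (nat_lit 202)) (XT.lf (nat_lit 0) (nat_lit 20234809261) (nat_lit 380) (nat_lit 299433578) (nat_lit 76) (nat_lit 9471489420) (nat_lit 87) (nat_lit 5) (nat_lit 92) (nat_lit 5) (nat_lit 88) (nat_lit 5) (nat_lit 518) (nat_lit 421) (nat_lit 201))) (XT.nd (nat_lit 78) (nat_lit 0) (nat_lit 0) (XT.lf (nat_lit 0) (nat_lit 2185451094) (nat_lit 0) (nat_lit 2185451094) (nat_lit 1444) (nat_lit 580205721) (nat_lit 404) (nat_lit 5) (nat_lit 404) (nat_lit 3) (nat_lit 423) (nat_lit 3) (nat_lit 422) (nat_lit 422) (nat_lit 296)) (XT.lf (nat_lit 0) (nat_lit 8857662748) (nat_lit 0) (nat_lit 649018231) (nat_lit 1444) (nat_lit 480248618)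 (nat_lit 404) (nat_lit 5) (nat_lit 404) (nat_lit 3) (nat_lit 423) (nat_lit 3) (nat_lit 423) (nat_lit 422) (nat_lit 295)))))) (XT.nd (nat_lit 546) (nat_lit 1216) (nat_lit 0) (XT.nd (nat_lit 234) (nat_lit 0) (nat_lit 76) (XT.nd (nat_lit 78) (nat_lit 0) (nat_lit 0) (XT.lf (nat_lit 0) (nat_lit 235497660) (nat_lit 1520) (nat_lit 6699077510) (nat_lit 1596) (nat_lit 3138258668) (nat_lit 384) (nat_lit 5) (nat_lit 404) (nat_lit 5) (nat_lit 405) (nat_lit 5) (nat_lit 424) (nat_lit 422) (nat_lit 294)) (XT.nd (nat_lit 78) (nat_lit 0) (nat_lit 76) (XT.lf (nat_lit 0) (nat_lit 953500880) (nat_lit 1520) (nat_lit 2195195088) (nat_lit 1596) (nat_lit 7011828397) (nat_lit 384) (nat_lit 5) (nat_lit 404) (nat_lit 5) (nat_lit 405) (nat_lit 5) (nat_lit 425) (nat_lit 422) (nat_lit 293)) (XT.lf (nat_lit 0) (nat_lit 1689152702) (nat_lit 1520) (nat_lit 7833604678) (nat_lit 1596) (nat_lit 727164317) (nat_lit 385) (nat_lit 5) (nat_lit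 405) (nat_lit 5) (nat_lit 406) (nat_lit 5) (nat_lit 426) (nat_lit 422) (nat_lit 292)))) (XT.nd (nat_lit 156) (nat_lit 0) (nat_lit 76) (XT.nd (nat_lit 78) (nat_lit 0) (nat_lit 0) (XT.lf (nat_lit 0) (nat_lit 2458310139) (nat_lit 1520) (nat_lit 3221614789) (nat_lit 1596) (nat_lit 4660824593) (nat_lit 385) (nat_lit 5) (nat_lit 405) (nat_lit 5) (nat_lit 406) (nat_lit 5) (nat_lit 427) (nat_lit 422) (nat_lit 291)) (XT.lf (nat_lit 76) (nat_lit 1492713273) (nat_lit 0) (nat_lit 1743272094) (nat_lit 1596) (nat_lit 7197563881) (nat_lit 386) (nat_lit 5) (nat_lit 385) (nat_lit 5) (nat_lit 406) (nat_lit 5) (nat_lit 428) (nat_lit 422) (nat_lit 290))) (XT.nd (nat_lit 78) (nat_lit 0) (nat_lit 0) (XT.lf (nat_lit 0) (nat_lit 4049479189) (nat_lit 1520) (nat_lit 4207474769) (nat_lit 1596) (nat_lit 2270863392) (nat_lit 386) (nat_lit 5) (nat_lit 406) (nat_lit 5) (nat_lit 407) (nat_lit 5) (nat_lit 429) (nat_lit 422) (nat_lit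 289)) (XT.lf (nat_lit 76) (nat_lit 607362054) (nat_lit 0) (nat_lit 4271438802) (nat_lit 1596) (nat_lit 5745196136) (nat_lit 387) (nat_lit 5) (nat_lit 386) (nat_lit 5) (nat_lit 407) (nat_lit 5) (nat_lit 430) (nat_lit 422) (nat_lit 288))))) (XT.nd (nat_lit 234) (nat_lit 1368) (nat_lit 0) (XT.nd (nat_lit 78) (nat_lit 0) (nat_lit 76) (XT.lf (nat_lit 76) (nat_lit 5565979860) (nat_lit 0) (nat_lit 171283548) (nat_lit 1596) (nat_lit 4984602725) (nat_lit 387) (nat_lit 5) (nat_lit 386) (nat_lit 5) (nat_lit 407) (nat_lit 5) (nat_lit 431) (nat_lit 422) (nat_lit 287)) (XT.nd (nat_lit 78) (nat_lit 0) (nat_lit 0) (XT.lf (nat_lit 0) (nat_lit 6623603028) (nat_lit 1520) (nat_lit 233688974) (nat_lit 1596) (nat_lit 3964203162) (nat_lit 387) (nat_lit 5) (nat_lit 407) (nat_lit 5) (nat_lit 408) (nat_lit 5) (nat_lit 432) (nat_lit 422) (nat_lit 286)) (XT.lf (nat_lit 76) (nat_lit 4839757844) (nat_lit 0) (nat_lit 2705436052) (nat_lit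 1596) (nat_lit 3377588727) (nat_lit 388) (nat_lit 5) (nat_lit 387) (nat_lit 5) (nat_lit 408) (nat_lit 5) (nat_lit 433) (nat_lit 422) (nat_lit 285)))) (XT.nd (nat_lit 156) (nat_lit 1520) (nat_lit 0) (XT.nd (nat_lit 78) (nat_lit 0) (nat_lit 0) (XT.lf (nat_lit 0) (nat_lit 8481960462) (nat_lit 1520) (nat_lit 1027982053) (nat_lit 1596) (nat_lit 1516234456) (nat_lit 388) (nat_lit 5) (nat_lit 408) (nat_lit 5) (nat_lit 409) (nat_lit 5) (nat_lit 434) (nat_lit 422) (nat_lit 284)) (XT.lf (nat_lit 76) (nat_lit 4155114051) (nat_lit 0) (nat_lit 5312767435) (nat_lit 1596) (nat_lit 1663165040) (nat_lit 389) (nat_lit 5) (nat_lit 388) (nat_lit 5) (nat_lit 409) (nat_lit 5) (nat_lit 435) (nat_lit 422) (nat_lit 283))) (XT.nd (nat_lit 78) (nat_lit 1520) (nat_lit 0) (XT.lf (nat_lit 76) (nat_lit 9446244224) (nat_lit 0) (nat_lit 1019921330) (nat_lit 1596) (nat_lit 772010419) (nat_lit 389) (nat_lit 5) (nat_lit 388) (nat_lit 5)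 (nat_lit 409) (nat_lit 5) (nat_lit 436) (nat_lit 422) (nat_lit 282)) (XT.lf (nat_lit 0) (nat_lit 166013229) (nat_lit 1596) (nat_lit 7837662068) (nat_lit 1672) (nat_lit 3343152878) (nat_lit 368) (nat_lit 5) (nat_lit 389) (nat_lit 5) (nat_lit 390) (nat_lit 5) (nat_lit 437) (nat_lit 422) (nat_lit 281))))))))
noncomputable def xc197 : XT := (XT.nd (nat_lit 2106) (nat_lit 7828) (nat_lit 0) (XT.nd (nat_lit 1014) (nat_lit 5700) (nat_lit 0) (XT.nd (nat_lit 468) (nat_lit 3040) (nat_lit 0) (XT.nd (nat_lit 234) (nat_lit 0) (nat_lit 76) (XT.nd (nat_lit 78) (nat_lit 0) (nat_lit 76) (XT.lf (nat_lit 0) (nat_lit 1117489653) (nat_lit 1596) (nat_lit 2538617598) (nat_lit 1672) (nat_lit 7801358027) (nat_lit 368) (nat_lit 5) (nat_lit 389) (nat_lit 5) (nat_lit 390) (nat_lit 5) (nat_lit 438) (nat_lit 422) (nat_lit 280)) (XT.nd (nat_lit 78) (nat_lit 0) (nat_lit 0) (XT.lf (nat_lit 0) (nat_lit 2098426378) (nat_lit 1596) (nat_lit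 8680697197) (nat_lit 1672) (nat_lit 790997154) (nat_lit 369) (nat_lit 5) (nat_lit 390) (nat_lit 5) (nat_lit 391) (nat_lit 5) (nat_lit 439) (nat_lit 422) (nat_lit 279)) (XT.lf (nat_lit 0) (nat_lit 3127003503) (nat_lit 1596) (nat_lit 3258460432) (nat_lit 1672) (nat_lit 5299018863) (nat_lit 369) (nat_lit 5) (nat_lit 390) (nat_lit 5) (nat_lit 391) (nat_lit 5) (nat_lit 440) (nat_lit 422) (nat_lit 278)))) (XT.nd (nat_lit 78) (nat_lit 0) (nat_lit 76) (XT.lf (nat_lit 76) (nat_lit 2292599191) (nat_lit 0) (nat_lit 1885360363) (nat_lit 1672) (nat_lit 7623150077) (nat_lit 370) (nat_lit 5) (nat_lit 369) (nat_lit 5) (nat_lit 391) (nat_lit 5) (nat_lit 441) (nat_lit 422) (nat_lit 277)) (XT.nd (nat_lit 78) (nat_lit 0) (nat_lit 0) (XT.lf (nat_lit 0) (nat_lit 5276643909) (nat_lit 1596) (nat_lit 3948406399) (nat_lit 1672) (nat_lit 2694497911) (nat_lit 370) (nat_lit 5) (nat_lit 391) (nat_lit 5) (nat_lit 392) (nat_lit 5) (nat_lit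 442) (nat_lit 422) (nat_lit 276)) (XT.lf (nat_lit 76) (nat_lit 1723291438) (nat_lit 0) (nat_lit 4685074690) (nat_lit 1672) (nat_lit 5631781306) (nat_lit 371) (nat_lit 5) (nat_lit 370) (nat_lit 5) (nat_lit 392) (nat_lit 5) (nat_lit 443) (nat_lit 422) (nat_lit 275))))) (XT.nd (nat_lit 234) (nat_lit 3192) (nat_lit 0) (XT.nd (nat_lit 78) (nat_lit 0) (nat_lit 76) (XT.lf (nat_lit 76) (nat_lit 7552285161) (nat_lit 0) (nat_lit 24507659) (nat_lit 1672) (nat_lit 4586097295) (nat_lit 371) (nat_lit 5) (nat_lit 370) (nat_lit 5) (nat_lit 392) (nat_lit 5) (nat_lit 444) (nat_lit 422) (nat_lit 274)) (XT.nd (nat_lit 78) (nat_lit 0) (nat_lit 0) (XT.lf (nat_lit 76) (nat_lit 1184860978) (nat_lit 0) (nat_lit 7609960927) (nat_lit 1672) (nat_lit 3492753696) (nat_lit 372) (nat_lit 5) (nat_lit 371) (nat_lit 5) (nat_lit 393) (nat_lit 5) (nat_lit 445) (nat_lit 422) (nat_lit 273)) (XT.lf (nat_lit 76) (nat_lit 7148889609) (nat_lit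 0) (nat_lit 2907433849) (nat_lit 1672) (nat_lit 2358061481) (nat_lit 372) (nat_lit 5) (nat_lit 371) (nat_lit 5) (nat_lit 393) (nat_lit 5) (nat_lit 446) (nat_lit 422) (nat_lit 272)))) (XT.nd (nat_lit 156) (nat_lit 1672) (nat_lit 0) (XT.nd (nat_lit 78) (nat_lit 76) (nat_lit 0) (XT.lf (nat_lit 0) (nat_lit 675307317) (nat_lit 1596) (nat_lit 10672658681) (nat_lit 1672) (nat_lit 1195678386) (nat_lit 351) (nat_lit 5) (nat_lit 372) (nat_lit 5) (nat_lit 373) (nat_lit 5) (nat_lit 447) (nat_lit 422) (nat_lit 271)) (XT.lf (nat_lit 0) (nat_lit 33246661) (nat_lit 1672) (nat_lit 5897759132) (nat_lit 76) (nat_lit 6743632946) (nat_lit 350) (nat_lit 5) (nat_lit 372) (nat_lit 5) (nat_lit 351) (nat_lit 5) (nat_lit 448) (nat_lit 422) (nat_lit 270))) (XT.nd (nat_lit 78) (nat_lit 0) (nat_lit 0) (XT.lf (nat_lit 0) (nat_lit 176971506) (nat_lit 1672) (nat_lit 1083500922) (nat_lit 1748) (nat_lit 11547839276) (nat_lit 328) (nat_lit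 5) (nat_lit 350) (nat_lit 5) (nat_lit 351) (nat_lit 5) (nat_lit 449) (nat_lit 422) (nat_lit 269)) (XT.lf (nat_lit 0) (nat_lit 2565890813) (nat_lit 1748) (nat_lit 6525899498) (nat_lit 76) (nat_lit 3851806069) (nat_lit 328) (nat_lit 5) (nat_lit 351) (nat_lit 5) (nat_lit 329) (nat_lit 5) (nat_lit 450) (nat_lit 422) (nat_lit 268)))))) (XT.nd (nat_lit 546) (nat_lit 3040) (nat_lit 0) (XT.nd (nat_lit 234) (nat_lit 1672) (nat_lit 0) (XT.nd (nat_lit 78) (nat_lit 988) (nat_lit 0) (XT.lf (nat_lit 0) (nat_lit 3893554891) (nat_lit 1748) (nat_lit 315177810) (nat_lit 76) (nat_lit 8872942296) (nat_lit 328) (nat_lit 5) (nat_lit 351) (nat_lit 5) (nat_lit 329) (nat_lit 5) (nat_lit 451) (nat_lit 422) (nat_lit 267)) (XT.nd (nat_lit 78) (nat_lit 0) (nat_lit 0) (XT.lf (nat_lit 0) (nat_lit 5281774855) (nat_lit 1064) (nat_lit 7137065596) (nat_lit 76) (nat_lit 803005462) (nat_lit 315) (nat_lit 5) (nat_lit 329) (nat_lit 5) (nat_lit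 316) (nat_lit 5) (nat_lit 452) (nat_lit 422) (nat_lit 266)) (XT.lf (nat_lit 0) (nat_lit 6717098293) (nat_lit 1064) (nat_lit 785287459) (nat_lit 76) (nat_lit 5862058282) (nat_lit 315) (nat_lit 5) (nat_lit 329) (nat_lit 5) (nat_lit 316) (nat_lit 5) (nat_lit 453) (nat_lit 422) (nat_lit 265)))) (XT.nd (nat_lit 156) (nat_lit 836) (nat_lit 0) (XT.nd (nat_lit 78) (nat_lit 0) (nat_lit 0) (XT.lf (nat_lit 0) (nat_lit 5759620554) (nat_lit 836) (nat_lit 2448449644) (nat_lit 912) (nat_lit 5301295438) (nat_lit 304) (nat_lit 5) (nat_lit 315) (nat_lit 5) (nat_lit 316) (nat_lit 5) (nat_lit 454) (nat_lit 422) (nat_lit 264)) (XT.lf (nat_lit 0) (nat_lit 9741435744) (nat_lit 912) (nat_lit 1238220863) (nat_lit 76) (nat_lit 2677287737) (nat_lit 304) (nat_lit 5) (nat_lit 316) (nat_lit 5) (nat_lit 305) (nat_lit 5) (nat_lit 455) (nat_lit 422) (nat_lit 263))) (XT.nd (nat_lit 78) (nat_lit 0) (nat_lit 0) (XT.lf (nat_lit 0) (nat_lit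 5449372387) (nat_lit 836) (nat_lit 5897590868) (nat_lit 912) (nat_lit 2459691434) (nat_lit 293) (nat_lit 5) (nat_lit 304) (nat_lit 5) (nat_lit 305) (nat_lit 5) (nat_lit 456) (nat_lit 422) (nat_lit 262)) (XT.lf (nat_lit 0) (nat_lit 12278147806) (nat_lit 836) (nat_lit 704798773) (nat_lit 912) (nat_lit 976455520) (nat_lit 293) (nat_lit 5) (nat_lit 304) (nat_lit 5) (nat_lit 305) (nat_lit 5) (nat_lit 457) (nat_lit 422) (nat_lit 261))))) (XT.nd (nat_lit 234) (nat_lit 1444) (nat_lit 0) (XT.nd (nat_lit 78) (nat_lit 760) (nat_lit 0) (XT.lf (nat_lit 0) (nat_lit 583284251) (nat_lit 836) (nat_lit 8961247925) (nat_lit 76) (nat_lit 4569534512) (nat_lit 282) (nat_lit 5) (nat_lit 293) (nat_lit 5) (nat_lit 283) (nat_lit 5) (nat_lit 458) (nat_lit 422) (nat_lit 260)) (XT.nd (nat_lit 78) (nat_lit 760) (nat_lit 0) (XT.lf (nat_lit 0) (nat_lit 2167473964) (nat_lit 836) (nat_lit 2145900653) (nat_lit 76) (nat_lit 9958203466)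 (nat_lit 282) (nat_lit 5) (nat_lit 293) (nat_lit 5) (nat_lit 283) (nat_lit 5) (nat_lit 459) (nat_lit 422) (nat_lit 259)) (XT.lf (nat_lit 0) (nat_lit 3812235625) (nat_lit 836) (nat_lit 9578430943) (nat_lit 76) (nat_lit 1041004392) (nat_lit 272) (nat_lit 5) (nat_lit 283) (nat_lit 5) (nat_lit 273) (nat_lit 5) (nat_lit 460) (nat_lit 422) (nat_lit 258)))) (XT.nd (nat_lit 156) (nat_lit 760) (nat_lit 0) (XT.nd (nat_lit 78) (nat_lit 684) (nat_lit 0) (XT.lf (nat_lit 0) (nat_lit 5523565003) (nat_lit 836) (nat_lit 2611294106) (nat_lit 76) (nat_lit 6459441980) (nat_lit 272) (nat_lit 5) (nat_lit 283) (nat_lit 5) (nat_lit 273) (nat_lit 5) (nat_lit 461) (nat_lit 422) (nat_lit 257)) (XT.lf (nat_lit 0) (nat_lit 4545578604) (nat_lit 684) (nat_lit 2743850963) (nat_lit 760) (nat_lit 7470356750) (nat_lit 263) (nat_lit 5) (nat_lit 272) (nat_lit 5) (nat_lit 273) (nat_lit 5) (nat_lit 462) (nat_lit 422) (nat_lit 256))) (XT.nd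 (nat_lit 78) (nat_lit 760) (nat_lit 0) (XT.lf (nat_lit 0) (nat_lit 9117053932) (nat_lit 760) (nat_lit 3074600346) (nat_lit 76) (nat_lit 2736406620) (nat_lit 263) (nat_lit 5) (nat_lit 273) (nat_lit 5) (nat_lit 264) (nat_lit 5) (nat_lit 463) (nat_lit 422) (nat_lit 255)) (XT.lf (nat_lit 0) (nat_lit 4236015526) (nat_lit 760) (nat_lit 6781983756) (nat_lit 836) (nat_lit 4080974651) (nat_lit 253) (nat_lit 5) (nat_lit 263) (nat_lit 5) (nat_lit 264) (nat_lit 5) (nat_lit 464) (nat_lit 422) (nat_lit 254))))))) (XT.nd (nat_lit 1092) (nat_lit 3268) (nat_lit 0) (XT.nd (nat_lit 546) (nat_lit 2508) (nat_lit 0) (XT.nd (nat_lit 234) (nat_lit 1292) (nat_lit 0) (XT.nd (nat_lit 78) (nat_lit 760) (nat_lit 0) (XT.lf (nat_lit 0) (nat_lit 11725412503) (nat_lit 760) (nat_lit 1243392987) (nat_lit 836) (nat_lit 2304271068) (nat_lit 253) (nat_lit 5) (nat_lit 263) (nat_lit 5) (nat_lit 264) (nat_lit 5) (nat_lit 465) (nat_lit 422) (nat_lit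 253)) (XT.nd (nat_lit 78) (nat_lit 76) (nat_lit 0) (XT.lf (nat_lit 0) (nat_lit 3927734674) (nat_lit 684) (nat_lit 11076381181) (nat_lit 760) (nat_lit 445643629) (nat_lit 244) (nat_lit 5) (nat_lit 253) (nat_lit 5) (nat_lit 254) (nat_lit 5) (nat_lit 466) (nat_lit 422) (nat_lit 252)) (XT.lf (nat_lit 0) (nat_lit 1454762305) (nat_lit 760) (nat_lit 4055746159) (nat_lit 76) (nat_lit 10118814494) (nat_lit 243) (nat_lit 5) (nat_lit 253) (nat_lit 5) (nat_lit 244) (nat_lit 5) (nat_lit 467) (nat_lit 422) (nat_lit 251)))) (XT.nd (nat_lit 156) (nat_lit 608) (nat_lit 0) (XT.nd (nat_lit 78) (nat_lit 0) (nat_lit 0) (XT.lf (nat_lit 0) (nat_lit 3403403244) (nat_lit 760) (nat_lit 12218313213) (nat_lit 76) (nat_lit 190385997) (nat_lit 234) (nat_lit 5) (nat_lit 244) (nat_lit 5) (nat_lit 235) (nat_lit 5) (nat_lit 468) (nat_lit 422) (nat_lit 250)) (XT.lf (nat_lit 0) (nat_lit 5446603972) (nat_lit 760) (nat_lit 4592474856) (nat_lit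 76) (nat_lit 5958354370) (nat_lit 234) (nat_lit 5) (nat_lit 244) (nat_lit 5) (nat_lit 235) (nat_lit 5) (nat_lit 469) (nat_lit 422) (nat_lit 249))) (XT.nd (nat_lit 78) (nat_lit 0) (nat_lit 0) (XT.lf (nat_lit 0) (nat_lit 3219178781) (nat_lit 608) (nat_lit 4324250884) (nat_lit 684) (nat_lit 8642792927) (nat_lit 226) (nat_lit 5) (nat_lit 234) (nat_lit 5) (nat_lit 235) (nat_lit 5) (nat_lit 470) (nat_lit 422) (nat_lit 248)) (XT.lf (nat_lit 0) (nat_lit 9714941145) (nat_lit 684) (nat_lit 5147853863) (nat_lit 76) (nat_lit 1515344892) (nat_lit 226) (nat_lit 5) (nat_lit 235) (nat_lit 5) (nat_lit 227) (nat_lit 5) (nat_lit 471) (nat_lit 422) (nat_lit 247))))) (XT.nd (nat_lit 234) (nat_lit 1216) (nat_lit 0) (XT.nd (nat_lit 78) (nat_lit 608) (nat_lit 0) (XT.lf (nat_lit 0) (nat_lit 2827314756) (nat_lit 684) (nat_lit 9141676655) (nat_lit 760) (nat_lit 4604128944) (nat_lit 217) (nat_lit 5) (nat_lit 226) (nat_lit 5) (nat_lit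 227) (nat_lit 5) (nat_lit 472) (nat_lit 422) (nat_lit 246)) (XT.nd (nat_lit 78) (nat_lit 608) (nat_lit 0) (XT.lf (nat_lit 0) (nat_lit 11022977029) (nat_lit 684) (nat_lit 3271902342) (nat_lit 760) (nat_lit 2476592749) (nat_lit 217) (nat_lit 5) (nat_lit 226) (nat_lit 5) (nat_lit 227) (nat_lit 5) (nat_lit 473) (nat_lit 422) (nat_lit 245)) (XT.lf (nat_lit 0) (nat_lit 2414021732) (nat_lit 608) (nat_lit 14278924317) (nat_lit 684) (nat_lit 280338354) (nat_lit 209) (nat_lit 5) (nat_lit 217) (nat_lit 5) (nat_lit 218) (nat_lit 5) (nat_lit 474) (nat_lit 422) (nat_lit 244)))) (XT.nd (nat_lit 156) (nat_lit 532) (nat_lit 0) (XT.nd (nat_lit 78) (nat_lit 608) (nat_lit 0) (XT.lf (nat_lit 0) (nat_lit 1987031582) (nat_lit 684) (nat_lit 6404119160) (nat_lit 76) (nat_lit 8786676256) (nat_lit 208) (nat_lit 5) (nat_lit 217) (nat_lit 5) (nat_lit 209) (nat_lit 5) (nat_lit 475) (nat_lit 422) (nat_lit 243)) (XT.lf (nat_lit 0) (nat_lit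 1928921068) (nat_lit 608) (nat_lit 2372145584) (nat_lit 684) (nat_lit 13085261618) (nat_lit 200) (nat_lit 5) (nat_lit 208) (nat_lit 5) (nat_lit 209) (nat_lit 5) (nat_lit 476) (nat_lit 422) (nat_lit 242))) (XT.nd (nat_lit 78) (nat_lit 532) (nat_lit 0) (XT.lf (nat_lit 0) (nat_lit 6721728037) (nat_lit 684) (nat_lit 7116188874) (nat_lit 76) (nat_lit 3759881936) (nat_lit 200) (nat_lit 5) (nat_lit 209) (nat_lit 5) (nat_lit 201) (nat_lit 5) (nat_lit 477) (nat_lit 422) (nat_lit 241)) (XT.lf (nat_lit 0) (nat_lit 1385753551) (nat_lit 532) (nat_lit 7822527059) (nat_lit 608) (nat_lit 8604874734) (nat_lit 193) (nat_lit 5) (nat_lit 200) (nat_lit 5) (nat_lit 201) (nat_lit 5) (nat_lit 478) (nat_lit 422) (nat_lit 240)))))) (XT.nd (nat_lit 546) (nat_lit 1520) (nat_lit 0) (XT.nd (nat_lit 234) (nat_lit 1140) (nat_lit 0) (XT.nd (nat_lit 78) (nat_lit 608) (nat_lit 0) (XT.lf (nat_lit 0) (nat_lit 10145687884) (nat_lit 532) (nat_lit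 1639487379) (nat_lit 608) (nat_lit 6246837440) (nat_lit 193) (nat_lit 5) (nat_lit 200) (nat_lit 5) (nat_lit 201) (nat_lit 5) (nat_lit 479) (nat_lit 422) (nat_lit 239)) (XT.nd (nat_lit 78) (nat_lit 0) (nat_lit 0) (XT.lf (nat_lit 0) (nat_lit 797248004) (nat_lit 608) (nat_lit 13644827713) (nat_lit 684) (nat_lit 3812607965) (nat_lit 185) (nat_lit 5) (nat_lit 193) (nat_lit 5) (nat_lit 194) (nat_lit 5) (nat_lit 480) (nat_lit 422) (nat_lit 238)) (XT.lf (nat_lit 0) (nat_lit 9741968355) (nat_lit 608) (nat_lit 7466925102) (nat_lit 684) (nat_lit 1271784760) (nat_lit 185) (nat_lit 5) (nat_lit 193) (nat_lit 5) (nat_lit 194) (nat_lit 5) (nat_lit 481) (nat_lit 422) (nat_lit 237)))) (XT.nd (nat_lit 156) (nat_lit 532) (nat_lit 0) (XT.nd (nat_lit 78) (nat_lit 0) (nat_lit 0) (XT.lf (nat_lit 0) (nat_lit 139293367) (nat_lit 532) (nat_lit 1157312907) (nat_lit 608) (nat_lit 17414539248) (nat_lit 177) (nat_lit 5) (nat_lit 184)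 (nat_lit 5) (nat_lit 185) (nat_lit 5) (nat_lit 482) (nat_lit 422) (nat_lit 236)) (XT.lf (nat_lit 0) (nat_lit 3985880438) (nat_lit 608) (nat_lit 9683249696) (nat_lit 76) (nat_lit 5275198409) (nat_lit 177) (nat_lit 5) (nat_lit 185) (nat_lit 5) (nat_lit 178) (nat_lit 5) (nat_lit 483) (nat_lit 422) (nat_lit 235))) (XT.nd (nat_lit 78) (nat_lit 532) (nat_lit 0) (XT.lf (nat_lit 0) (nat_lit 6729964627) (nat_lit 608) (nat_lit 632804496) (nat_lit 76) (nat_lit 11819390893) (nat_lit 177) (nat_lit 5) (nat_lit 185) (nat_lit 5) (nat_lit 178) (nat_lit 5) (nat_lit 484) (nat_lit 422) (nat_lit 234)) (XT.lf (nat_lit 0) (nat_lit 8704710524) (nat_lit 532) (nat_lit 874227140) (nat_lit 608) (nat_lit 9844815492) (nat_lit 170) (nat_lit 5) (nat_lit 177) (nat_lit 5) (nat_lit 178) (nat_lit 5) (nat_lit 485) (nat_lit 422) (nat_lit 233))))) (XT.nd (nat_lit 234) (nat_lit 1064) (nat_lit 0) (XT.nd (nat_lit 78) (nat_lit 456) (nat_lit 0)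 (XT.lf (nat_lit 0) (nat_lit 12520014450) (nat_lit 608) (nat_lit 1478034983) (nat_lit 76) (nat_lit 5671431320) (nat_lit 170) (nat_lit 5) (nat_lit 178) (nat_lit 5) (nat_lit 171) (nat_lit 5) (nat_lit 486) (nat_lit 422) (nat_lit 232)) (XT.nd (nat_lit 78) (nat_lit 0) (nat_lit 0) (XT.lf (nat_lit 0) (nat_lit 8039429154) (nat_lit 456) (nat_lit 7532152170) (nat_lit 532) (nat_lit 4347513184) (nat_lit 164) (nat_lit 5) (nat_lit 170) (nat_lit 5) (nat_lit 171) (nat_lit 5) (nat_lit 487) (nat_lit 422) (nat_lit 231)) (XT.lf (nat_lit 0) (nat_lit 17759317803) (nat_lit 456) (nat_lit 928533999) (nat_lit 532) (nat_lit 1485780174) (nat_lit 164) (nat_lit 5) (nat_lit 170) (nat_lit 5) (nat_lit 171) (nat_lit 5) (nat_lit 488) (nat_lit 422) (nat_lit 230)))) (XT.nd (nat_lit 156) (nat_lit 456) (nat_lit 0) (XT.nd (nat_lit 78) (nat_lit 0) (nat_lit 0) (XT.lf (nat_lit 0) (nat_lit 1493811830) (nat_lit 608) (nat_lit 13151180667) (nat_lit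 76) (nat_lit 5786497867) (nat_lit 156) (nat_lit 5) (nat_lit 164) (nat_lit 5) (nat_lit 157) (nat_lit 5) (nat_lit 489) (nat_lit 422) (nat_lit 229)) (XT.lf (nat_lit 0) (nat_lit 4529467358) (nat_lit 608) (nat_lit 3516679204) (nat_lit 76) (nat_lit 12647840212) (nat_lit 156) (nat_lit 5) (nat_lit 164) (nat_lit 5) (nat_lit 157) (nat_lit 5) (nat_lit 490) (nat_lit 422) (nat_lit 228))) (XT.nd (nat_lit 78) (nat_lit 0) (nat_lit 0) (XT.lf (nat_lit 0) (nat_lit 6386474110) (nat_lit 456) (nat_lit 1274836758) (nat_lit 532) (nat_lit 13299717255) (nat_lit 150) (nat_lit 5) (nat_lit 156) (nat_lit 5) (nat_lit 157) (nat_lit 5) (nat_lit 491) (nat_lit 422) (nat_lit 227)) (XT.lf (nat_lit 0) (nat_lit 10910177295) (nat_lit 532) (nat_lit 4742158309) (nat_lit 76) (nat_lit 5579991397) (nat_lit 150) (nat_lit 5) (nat_lit 157) (nat_lit 5) (nat_lit 151) (nat_lit 5) (nat_lit 492) (nat_lit 422) (nat_lit 226))))))))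
noncomputable def xc198 : XT := (XT.nd (nat_lit 53976) (nat_lit 0) (nat_lit 18316) (XT.nd (nat_lit 1014) (nat_lit 2128) (nat_lit 0) (XT.nd (nat_lit 468) (nat_lit 1216) (nat_lit 0) (XT.nd (nat_lit 234) (nat_lit 532) (nat_lit 0) (XT.nd (nat_lit 78) (nat_lit 456) (nat_lit 0) (XT.lf (nat_lit 0) (nat_lit 5340784424) (nat_lit 456) (nat_lit 8920536511) (nat_lit 532) (nat_lit 7246989259) (nat_lit 144) (nat_lit 5) (nat_lit 150) (nat_lit 5) (nat_lit 151) (nat_lit 5) (nat_lit 493) (nat_lit 422) (nat_lit 225)) (XT.nd (nat_lit 78) (nat_lit 456) (nat_lit 0) (XT.lf (nat_lit 0) (nat_lit 15682014292) (nat_lit 456) (nat_lit 2023541278) (nat_lit 532) (nat_lit 4083740367) (nat_lit 144) (nat_lit 5) (nat_lit 150) (nat_lit 5) (nat_lit 151) (nat_lit 5) (nat_lit 494) (nat_lit 422) (nat_lit 224)) (XT.lf (nat_lit 0) (nat_lit 4168695484) (nat_lit 456) (nat_lit 17103929131) (nat_lit 532) (nat_lit 802201951) (nat_lit 138) (nat_lit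 5) (nat_lit 144) (nat_lit 5) (nat_lit 145) (nat_lit 5) (nat_lit 495) (nat_lit 422) (nat_lit 223)))) (XT.nd (nat_lit 78) (nat_lit 456) (nat_lit 0) (XT.lf (nat_lit 0) (nat_lit 2560612159) (nat_lit 532) (nat_lit 7670102730) (nat_lit 76) (nat_lit 12134046000) (nat_lit 137) (nat_lit 5) (nat_lit 144) (nat_lit 5) (nat_lit 138) (nat_lit 5) (nat_lit 496) (nat_lit 422) (nat_lit 222)) (XT.nd (nat_lit 78) (nat_lit 0) (nat_lit 0) (XT.lf (nat_lit 0) (nat_lit 2794497077) (nat_lit 456) (nat_lit 3198075416) (nat_lit 532) (nat_lit 16667566651) (nat_lit 131) (nat_lit 5) (nat_lit 137) (nat_lit 5) (nat_lit 138) (nat_lit 5) (nat_lit 497) (nat_lit 422) (nat_lit 221)) (XT.lf (nat_lit 0) (nat_lit 9565317892) (nat_lit 532) (nat_lit 9421724888) (nat_lit 76) (nat_lit 3972943115) (nat_lit 131) (nat_lit 5) (nat_lit 138) (nat_lit 5) (nat_lit 132) (nat_lit 5) (nat_lit 498) (nat_lit 422) (nat_lit 220))))) (XT.nd (nat_lit 234) (nat_lit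 836) (nat_lit 0) (XT.nd (nat_lit 78) (nat_lit 0) (nat_lit 0) (XT.lf (nat_lit 0) (nat_lit 1218481872) (nat_lit 380) (nat_lit 12014759006) (nat_lit 456) (nat_lit 10032118025) (nat_lit 126) (nat_lit 5) (nat_lit 131) (nat_lit 5) (nat_lit 132) (nat_lit 5) (nat_lit 499) (nat_lit 422) (nat_lit 219)) (XT.nd (nat_lit 78) (nat_lit 0) (nat_lit 0) (XT.lf (nat_lit 0) (nat_lit 12191865283) (nat_lit 380) (nat_lit 4840571538) (nat_lit 456) (nat_lit 6543247959) (nat_lit 126) (nat_lit 5) (nat_lit 131) (nat_lit 5) (nat_lit 132) (nat_lit 5) (nat_lit 500) (nat_lit 422) (nat_lit 218)) (XT.lf (nat_lit 0) (nat_lit 20918480616) (nat_lit 456) (nat_lit 530876101) (nat_lit 76) (nat_lit 2442646805) (nat_lit 126) (nat_lit 5) (nat_lit 132) (nat_lit 5) (nat_lit 127) (nat_lit 5) (nat_lit 501) (nat_lit 422) (nat_lit 217)))) (XT.nd (nat_lit 156) (nat_lit 380) (nat_lit 0) (XT.nd (nat_lit 78) (nat_lit 0) (nat_lit 0) (XT.lf (nat_lit 0) (nat_lit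 755491849) (nat_lit 456) (nat_lit 13578243688) (nat_lit 76) (nat_lit 9878896883) (nat_lit 120) (nat_lit 5) (nat_lit 126) (nat_lit 5) (nat_lit 121) (nat_lit 5) (nat_lit 502) (nat_lit 422) (nat_lit 216)) (XT.lf (nat_lit 0) (nat_lit 4517795237) (nat_lit 456) (nat_lit 2536336895) (nat_lit 76) (nat_lit 17485181604) (nat_lit 120) (nat_lit 5) (nat_lit 126) (nat_lit 5) (nat_lit 121) (nat_lit 5) (nat_lit 503) (nat_lit 422) (nat_lit 215))) (XT.nd (nat_lit 78) (nat_lit 0) (nat_lit 0) (XT.lf (nat_lit 0) (nat_lit 8410485418) (nat_lit 456) (nat_lit 16039009501) (nat_lit 76) (nat_lit 421934297) (nat_lit 115) (nat_lit 5) (nat_lit 121) (nat_lit 5) (nat_lit 116) (nat_lit 5) (nat_lit 504) (nat_lit 422) (nat_lit 214)) (XT.lf (nat_lit 0) (nat_lit 12439918334) (nat_lit 456) (nat_lit 4800818786) (nat_lit 76) (nat_lit 7968275392) (nat_lit 115) (nat_lit 5) (nat_lit 121) (nat_lit 5) (nat_lit 116) (nat_lit 5) (nat_lit 505) (nat_lit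 422) (nat_lit 213)))))) (XT.nd (nat_lit 546) (nat_lit 988) (nat_lit 0) (XT.nd (nat_lit 234) (nat_lit 456) (nat_lit 0) (XT.nd (nat_lit 78) (nat_lit 304) (nat_lit 0) (XT.lf (nat_lit 0) (nat_lit 6743643037) (nat_lit 380) (nat_lit 9845218283) (nat_lit 456) (nat_lit 8963710946) (nat_lit 110) (nat_lit 5) (nat_lit 115) (nat_lit 5) (nat_lit 116) (nat_lit 5) (nat_lit 506) (nat_lit 422) (nat_lit 212)) (XT.nd (nat_lit 78) (nat_lit 304) (nat_lit 0) (XT.lf (nat_lit 0) (nat_lit 18577179299) (nat_lit 380) (nat_lit 2271007705) (nat_lit 456) (nat_lit 5054271292) (nat_lit 110) (nat_lit 5) (nat_lit 115) (nat_lit 5) (nat_lit 116) (nat_lit 5) (nat_lit 507) (nat_lit 422) (nat_lit 211)) (XT.lf (nat_lit 0) (nat_lit 4403541776) (nat_lit 304) (nat_lit 20848432526) (nat_lit 380) (nat_lit 1006185338) (nat_lit 106) (nat_lit 5) (nat_lit 110) (nat_lit 5) (nat_lit 111) (nat_lit 5) (nat_lit 508) (nat_lit 422) (nat_lit 210)))) (XT.nd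 (nat_lit 156) (nat_lit 0) (nat_lit 0) (XT.nd (nat_lit 78) (nat_lit 380) (nat_lit 0) (XT.lf (nat_lit 0) (nat_lit 3141710817) (nat_lit 380) (nat_lit 10196258761) (nat_lit 76) (nat_lit 13281406787) (nat_lit 105) (nat_lit 5) (nat_lit 110) (nat_lit 5) (nat_lit 106) (nat_lit 5) (nat_lit 509) (nat_lit 422) (nat_lit 209)) (XT.lf (nat_lit 0) (nat_lit 1704228930) (nat_lit 380) (nat_lit 5661316783) (nat_lit 456) (nat_lit 19622012538) (nat_lit 100) (nat_lit 5) (nat_lit 105) (nat_lit 5) (nat_lit 106) (nat_lit 5) (nat_lit 510) (nat_lit 422) (nat_lit 208))) (XT.nd (nat_lit 78) (nat_lit 0) (nat_lit 0) (XT.lf (nat_lit 0) (nat_lit 11752224106) (nat_lit 456) (nat_lit 13402093701) (nat_lit 76) (nat_lit 2207221492) (nat_lit 100) (nat_lit 5) (nat_lit 106) (nat_lit 5) (nat_lit 101) (nat_lit 5) (nat_lit 511) (nat_lit 422) (nat_lit 207)) (XT.lf (nat_lit 0) (nat_lit 16259627907) (nat_lit 456) (nat_lit 1327355781) (nat_lit 76)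 (nat_lit 10155359247) (nat_lit 100) (nat_lit 5) (nat_lit 106) (nat_lit 5) (nat_lit 101) (nat_lit 5) (nat_lit 512) (nat_lit 422) (nat_lit 206))))) (XT.nd (nat_lit 234) (nat_lit 304) (nat_lit 0) (XT.nd (nat_lit 78) (nat_lit 380) (nat_lit 0) (XT.lf (nat_lit 0) (nat_lit 11128326659) (nat_lit 304) (nat_lit 9796693522) (nat_lit 380) (nat_lit 7204388403) (nat_lit 96) (nat_lit 5) (nat_lit 100) (nat_lit 5) (nat_lit 101) (nat_lit 5) (nat_lit 513) (nat_lit 422) (nat_lit 205)) (XT.nd (nat_lit 78) (nat_lit 380) (nat_lit 0) (XT.lf (nat_lit 0) (nat_lit 23844657927) (nat_lit 304) (nat_lit 1843602133) (nat_lit 380) (nat_lit 2835867385) (nat_lit 96) (nat_lit 5) (nat_lit 100) (nat_lit 5) (nat_lit 101) (nat_lit 5) (nat_lit 514) (nat_lit 422) (nat_lit 204)) (XT.lf (nat_lit 0) (nat_lit 1687350318) (nat_lit 380) (nat_lit 20990405745) (nat_lit 76) (nat_lit 6247005383) (nat_lit 91) (nat_lit 5) (nat_lit 96) (nat_lit 5) (nat_lit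 92) (nat_lit 5) (nat_lit 515) (nat_lit 422) (nat_lit 203)))) (XT.nd (nat_lit 156) (nat_lit 0) (nat_lit 0) (XT.nd (nat_lit 78) (nat_lit 304) (nat_lit 0) (XT.lf (nat_lit 0) (nat_lit 6302631578) (nat_lit 380) (nat_lit 8506512199) (nat_lit 76) (nat_lit 14523100558) (nat_lit 91) (nat_lit 5) (nat_lit 96) (nat_lit 5) (nat_lit 92) (nat_lit 5) (nat_lit 516) (nat_lit 422) (nat_lit 202)) (XT.lf (nat_lit 0) (nat_lit 4276853715) (nat_lit 304) (nat_lit 6756933920) (nat_lit 380) (nat_lit 18713620353) (nat_lit 87) (nat_lit 5) (nat_lit 91) (nat_lit 5) (nat_lit 92) (nat_lit 5) (nat_lit 517) (nat_lit 422) (nat_lit 201))) (XT.nd (nat_lit 51948) (nat_lit 0) (nat_lit 22496) (XT.lf (nat_lit 0) (nat_lit 15922312514) (nat_lit 380) (nat_lit 12754699463) (nat_lit 76) (nat_lit 1492610465) (nat_lit 87) (nat_lit 5) (nat_lit 92) (nat_lit 5) (nat_lit 88) (nat_lit 5) (nat_lit 518) (nat_lit 422) (nat_lit 200)) (XT.lf (nat_lit 0) (nat_lit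 94213643) (nat_lit 1596) (nat_lit 2470844273) (nat_lit 1596) (nat_lit 2470844273) (nat_lit 383) (nat_lit 3) (nat_lit 404) (nat_lit 3) (nat_lit 404) (nat_lit 5) (nat_lit 423) (nat_lit 423) (nat_lit 294))))))) (XT.nd (nat_lit 1092) (nat_lit 2964) (nat_lit 0) (XT.nd (nat_lit 546) (nat_lit 1216) (nat_lit 0) (XT.nd (nat_lit 234) (nat_lit 0) (nat_lit 152) (XT.nd (nat_lit 78) (nat_lit 0) (nat_lit 76) (XT.lf (nat_lit 0) (nat_lit 846496000) (nat_lit 1596) (nat_lit 469684954) (nat_lit 1596) (nat_lit 8842502362) (nat_lit 383) (nat_lit 3) (nat_lit 404) (nat_lit 3) (nat_lit 404) (nat_lit 5) (nat_lit 424) (nat_lit 423) (nat_lit 293)) (XT.nd (nat_lit 78) (nat_lit 0) (nat_lit 0) (XT.lf (nat_lit 0) (nat_lit 1544320703) (nat_lit 1520) (nat_lit 6126838748) (nat_lit 1596) (nat_lit 2575627252) (nat_lit 384) (nat_lit 5) (nat_lit 404) (nat_lit 5) (nat_lit 405) (nat_lit 5) (nat_lit 425) (nat_lit 423) (nat_lit 292)) (XT.lf (nat_lit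 0) (nat_lit 2251113142) (nat_lit 1520) (nat_lit 1546726135) (nat_lit 1596) (nat_lit 6538931053) (nat_lit 384) (nat_lit 5) (nat_lit 404) (nat_lit 5) (nat_lit 405) (nat_lit 5) (nat_lit 426) (nat_lit 423) (nat_lit 291)))) (XT.nd (nat_lit 156) (nat_lit 0) (nat_lit 0) (XT.nd (nat_lit 78) (nat_lit 0) (nat_lit 0) (XT.lf (nat_lit 0) (nat_lit 2977172712) (nat_lit 1520) (nat_lit 7272232278) (nat_lit 1596) (nat_lit 179064052) (nat_lit 385) (nat_lit 5) (nat_lit 405) (nat_lit 5) (nat_lit 406) (nat_lit 5) (nat_lit 427) (nat_lit 423) (nat_lit 290)) (XT.lf (nat_lit 0) (nat_lit 3737120417) (nat_lit 1520) (nat_lit 2582081896) (nat_lit 1596) (nat_lit 4202429760) (nat_lit 385) (nat_lit 5) (nat_lit 405) (nat_lit 5) (nat_lit 406) (nat_lit 5) (nat_lit 428) (nat_lit 423) (nat_lit 289))) (XT.nd (nat_lit 78) (nat_lit 0) (nat_lit 76) (XT.lf (nat_lit 76) (nat_lit 2221901378) (nat_lit 0) (nat_lit 2288877641) (nat_lit 1596) (nat_lit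 6105926441) (nat_lit 386) (nat_lit 5) (nat_lit 385) (nat_lit 5) (nat_lit 406) (nat_lit 5) (nat_lit 429) (nat_lit 423) (nat_lit 288)) (XT.lf (nat_lit 0) (nat_lit 5313564735) (nat_lit 1520) (nat_lit 3577737328) (nat_lit 1596) (nat_lit 1822122172) (nat_lit 386) (nat_lit 5) (nat_lit 406) (nat_lit 5) (nat_lit 407) (nat_lit 5) (nat_lit 430) (nat_lit 423) (nat_lit 287))))) (XT.nd (nat_lit 234) (nat_lit 1444) (nat_lit 0) (XT.nd (nat_lit 78) (nat_lit 0) (nat_lit 0) (XT.lf (nat_lit 76) (nat_lit 1328699606) (nat_lit 0) (nat_lit 4812179803) (nat_lit 1596) (nat_lit 4671045175) (nat_lit 387) (nat_lit 5) (nat_lit 386) (nat_lit 5) (nat_lit 407) (nat_lit 5) (nat_lit 431) (nat_lit 423) (nat_lit 286)) (XT.nd (nat_lit 78) (nat_lit 0) (nat_lit 76) (XT.lf (nat_lit 76) (nat_lit 6372584076) (nat_lit 0) (nat_lit 621093753) (nat_lit 1596) (nat_lit 3918554698) (nat_lit 387) (nat_lit 5) (nat_lit 386) (nat_lit 5) (nat_lit 407) (nat_lit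 5) (nat_lit 432) (nat_lit 423) (nat_lit 285)) (XT.lf (nat_lit 76) (nat_lit 475971632) (nat_lit 0) (nat_lit 7399635867) (nat_lit 1596) (nat_lit 3138713641) (nat_lit 388) (nat_lit 5) (nat_lit 387) (nat_lit 5) (nat_lit 408) (nat_lit 5) (nat_lit 433) (nat_lit 423) (nat_lit 284)))) (XT.nd (nat_lit 156) (nat_lit 1520) (nat_lit 0) (XT.nd (nat_lit 78) (nat_lit 0) (nat_lit 76) (XT.lf (nat_lit 76) (nat_lit 5639986435) (nat_lit 0) (nat_lit 3155229562) (nat_lit 1596) (nat_lit 2322850426) (nat_lit 388) (nat_lit 5) (nat_lit 387) (nat_lit 5) (nat_lit 408) (nat_lit 5) (nat_lit 434) (nat_lit 423) (nat_lit 283)) (XT.lf (nat_lit 0) (nat_lit 9726647882) (nat_lit 1520) (nat_lit 333664894) (nat_lit 1596) (nat_lit 1163720605) (nat_lit 388) (nat_lit 5) (nat_lit 408) (nat_lit 5) (nat_lit 409) (nat_lit 5) (nat_lit 435) (nat_lit 423) (nat_lit 282))) (XT.nd (nat_lit 78) (nat_lit 1596) (nat_lit 0) (XT.lf (nat_lit 76) (nat_lit 4948389995)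 (nat_lit 0) (nat_lit 5767428873) (nat_lit 1596) (nat_lit 615533693) (nat_lit 389) (nat_lit 5) (nat_lit 388) (nat_lit 5) (nat_lit 409) (nat_lit 5) (nat_lit 436) (nat_lit 423) (nat_lit 281)) (XT.lf (nat_lit 0) (nat_lit 268679398) (nat_lit 1596) (nat_lit 1111411975) (nat_lit 1672) (nat_lit 10060935419) (nat_lit 367) (nat_lit 5) (nat_lit 388) (nat_lit 5) (nat_lit 389) (nat_lit 5) (nat_lit 437) (nat_lit 423) (nat_lit 280)))))) (XT.nd (nat_lit 546) (nat_lit 3040) (nat_lit 0) (XT.nd (nat_lit 234) (nat_lit 0) (nat_lit 76) (XT.nd (nat_lit 78) (nat_lit 0) (nat_lit 0) (XT.lf (nat_lit 0) (nat_lit 1197118339) (nat_lit 1596) (nat_lit 7264074570) (nat_lit 1672) (nat_lit 3090938775) (nat_lit 368) (nat_lit 5) (nat_lit 389) (nat_lit 5) (nat_lit 390) (nat_lit 5) (nat_lit 438) (nat_lit 423) (nat_lit 279)) (XT.nd (nat_lit 78) (nat_lit 0) (nat_lit 76) (XT.lf (nat_lit 0) (nat_lit 2147471648) (nat_lit 1596) (nat_lit 1873369617)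 (nat_lit 1672) (nat_lit 7644564442) (nat_lit 368) (nat_lit 5) (nat_lit 389) (nat_lit 5) (nat_lit 390) (nat_lit 5) (nat_lit 439) (nat_lit 423) (nat_lit 278)) (XT.lf (nat_lit 0) (nat_lit 3131062279) (nat_lit 1596) (nat_lit 8120290457) (nat_lit 1672) (nat_lit 529321538) (nat_lit 369) (nat_lit 5) (nat_lit 390) (nat_lit 5) (nat_lit 391) (nat_lit 5) (nat_lit 440) (nat_lit 423) (nat_lit 277)))) (XT.nd (nat_lit 156) (nat_lit 0) (nat_lit 76) (XT.nd (nat_lit 78) (nat_lit 0) (nat_lit 0) (XT.lf (nat_lit 0) (nat_lit 4160786095) (nat_lit 1596) (nat_lit 2604001520) (nat_lit 1672) (nat_lit 5132944770) (nat_lit 369) (nat_lit 5) (nat_lit 390) (nat_lit 5) (nat_lit 391) (nat_lit 5) (nat_lit 441) (nat_lit 423) (nat_lit 276)) (XT.lf (nat_lit 76) (nat_lit 3053344901) (nat_lit 0) (nat_lit 2165013960) (nat_lit 1672) (nat_lit 6798640849) (nat_lit 370) (nat_lit 5) (nat_lit 369) (nat_lit 5) (nat_lit 391) (nat_lit 5) (nat_lit 442)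 (nat_lit 423) (nat_lit 275))) (XT.nd (nat_lit 78) (nat_lit 0) (nat_lit 0) (XT.lf (nat_lit 0) (nat_lit 6318715257) (nat_lit 1596) (nat_lit 3305220884) (nat_lit 1672) (nat_lit 2514296478) (nat_lit 370) (nat_lit 5) (nat_lit 391) (nat_lit 5) (nat_lit 392) (nat_lit 5) (nat_lit 443) (nat_lit 423) (nat_lit 274)) (XT.lf (nat_lit 76) (nat_lit 2475159899) (nat_lit 0) (nat_lit 4984206376) (nat_lit 1672) (nat_lit 4802170789) (nat_lit 371) (nat_lit 5) (nat_lit 370) (nat_lit 5) (nat_lit 392) (nat_lit 5) (nat_lit 444) (nat_lit 423) (nat_lit 273))))) (XT.nd (nat_lit 234) (nat_lit 3192) (nat_lit 0) (XT.nd (nat_lit 78) (nat_lit 0) (nat_lit 76) (XT.lf (nat_lit 76) (nat_lit 8406666778) (nat_lit 0) (nat_lit 226399961) (nat_lit 1672) (nat_lit 3754048512) (nat_lit 371) (nat_lit 5) (nat_lit 370) (nat_lit 5) (nat_lit 392) (nat_lit 5) (nat_lit 445) (nat_lit 423) (nat_lit 272)) (XT.nd (nat_lit 78) (nat_lit 0) (nat_lit 0) (XT.lf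 (nat_lit 76) (nat_lit 1927473386) (nat_lit 0) (nat_lit 7933628736) (nat_lit 1672) (nat_lit 2653497801) (nat_lit 372) (nat_lit 5) (nat_lit 371) (nat_lit 5) (nat_lit 393) (nat_lit 5) (nat_lit 446) (nat_lit 423) (nat_lit 271)) (XT.lf (nat_lit 76) (nat_lit 7996686213) (nat_lit 0) (nat_lit 3133688987) (nat_lit 1672) (nat_lit 1513937448) (nat_lit 372) (nat_lit 5) (nat_lit 371) (nat_lit 5) (nat_lit 393) (nat_lit 5) (nat_lit 447) (nat_lit 423) (nat_lit 270)))) (XT.nd (nat_lit 156) (nat_lit 1672) (nat_lit 0) (XT.nd (nat_lit 78) (nat_lit 76) (nat_lit 0) (XT.lf (nat_lit 0) (nat_lit 1408318788) (nat_lit 1596) (nat_lit 11026017070) (nat_lit 1672) (nat_lit 342109394) (nat_lit 351) (nat_lit 5) (nat_lit 372) (nat_lit 5) (nat_lit 373) (nat_lit 5) (nat_lit 448) (nat_lit 423) (nat_lit 269)) (XT.lf (nat_lit 0) (nat_lit 882905925) (nat_lit 1672) (nat_lit 5298184761) (nat_lit 76) (nat_lit 6729211453) (nat_lit 350) (nat_lit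 5) (nat_lit 372) (nat_lit 5) (nat_lit 351) (nat_lit 5) (nat_lit 449) (nat_lit 423) (nat_lit 268))) (XT.nd (nat_lit 78) (nat_lit 0) (nat_lit 0) (XT.lf (nat_lit 0) (nat_lit 893319901) (nat_lit 1672) (nat_lit 1229337387) (nat_lit 1748) (nat_lit 10924248309) (nat_lit 328) (nat_lit 5) (nat_lit 350) (nat_lit 5) (nat_lit 351) (nat_lit 5) (nat_lit 450) (nat_lit 423) (nat_lit 267)) (XT.lf (nat_lit 0) (nat_lit 3436982395) (nat_lit 1748) (nat_lit 5939567021) (nat_lit 76) (nat_lit 3808706914) (nat_lit 328) (nat_lit 5) (nat_lit 351) (nat_lit 5) (nat_lit 329) (nat_lit 5) (nat_lit 451) (nat_lit 423) (nat_lit 266))))))))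
noncomputable def xc199 : XT := (XT.nd (nat_lit 2106) (nat_lit 6460) (nat_lit 0) (XT.nd (nat_lit 1014) (nat_lit 4788) (nat_lit 0) (XT.nd (nat_lit 468) (nat_lit 2280) (nat_lit 0) (XT.nd (nat_lit 234) (nat_lit 1672) (nat_lit 0) (XT.nd (nat_lit 78) (nat_lit 0) (nat_lit 0) (XT.lf (nat_lit 0) (nat_lit 386380660) (nat_lit 988) (nat_lit 4391253738) (nat_lit 1064) (nat_lit 8548749439) (nat_lit 315) (nat_lit 5) (nat_lit 328) (nat_lit 5) (nat_lit 329) (nat_lit 5) (nat_lit 452) (nat_lit 423) (nat_lit 265)) (XT.nd (nat_lit 78) (nat_lit 0) (nat_lit 0) (XT.lf (nat_lit 0) (nat_lit 6179272014) (nat_lit 1064) (nat_lit 6564389428) (nat_lit 76) (nat_lit 725999360) (nat_lit 315) (nat_lit 5) (nat_lit 329) (nat_lit 5) (nat_lit 316) (nat_lit 5) (nat_lit 453) (nat_lit 423) (nat_lit 264)) (XT.lf (nat_lit 0) (nat_lit 7627775221) (nat_lit 1064) (nat_lit 99603522) (nat_lit 76) (nat_lit 5888058064) (nat_lit 315) (nat_lit 5) (nat_lit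 329) (nat_lit 5) (nat_lit 316) (nat_lit 5) (nat_lit 454) (nat_lit 423) (nat_lit 263)))) (XT.nd (nat_lit 78) (nat_lit 836) (nat_lit 0) (XT.lf (nat_lit 0) (nat_lit 6571588245) (nat_lit 836) (nat_lit 2566279993) (nat_lit 912) (nat_lit 4625617656) (nat_lit 304) (nat_lit 5) (nat_lit 315) (nat_lit 5) (nat_lit 316) (nat_lit 5) (nat_lit 455) (nat_lit 423) (nat_lit 262)) (XT.nd (nat_lit 78) (nat_lit 836) (nat_lit 0) (XT.lf (nat_lit 0) (nat_lit 10686450284) (nat_lit 912) (nat_lit 563681919) (nat_lit 76) (nat_lit 2664207780) (nat_lit 304) (nat_lit 5) (nat_lit 316) (nat_lit 5) (nat_lit 305) (nat_lit 5) (nat_lit 456) (nat_lit 423) (nat_lit 261)) (XT.lf (nat_lit 0) (nat_lit 6253062516) (nat_lit 836) (nat_lit 6060826775) (nat_lit 912) (nat_lit 1753373726) (nat_lit 293) (nat_lit 5) (nat_lit 304) (nat_lit 5) (nat_lit 305) (nat_lit 5) (nat_lit 457) (nat_lit 423) (nat_lit 260))))) (XT.nd (nat_lit 234) (nat_lit 1444) (nat_lit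 0) (XT.nd (nat_lit 78) (nat_lit 836) (nat_lit 0) (XT.lf (nat_lit 0) (nat_lit 13204791822) (nat_lit 836) (nat_lit 763290915) (nat_lit 912) (nat_lit 255287046) (nat_lit 293) (nat_lit 5) (nat_lit 304) (nat_lit 5) (nat_lit 305) (nat_lit 5) (nat_lit 458) (nat_lit 423) (nat_lit 259)) (XT.nd (nat_lit 78) (nat_lit 0) (nat_lit 0) (XT.lf (nat_lit 0) (nat_lit 1315838388) (nat_lit 836) (nat_lit 8438202601) (nat_lit 76) (nat_lit 4627206051) (nat_lit 282) (nat_lit 5) (nat_lit 293) (nat_lit 5) (nat_lit 283) (nat_lit 5) (nat_lit 459) (nat_lit 423) (nat_lit 258)) (XT.lf (nat_lit 0) (nat_lit 2917576828) (nat_lit 836) (nat_lit 1500318390) (nat_lit 76) (nat_lit 10124309543) (nat_lit 282) (nat_lit 5) (nat_lit 293) (nat_lit 5) (nat_lit 283) (nat_lit 5) (nat_lit 460) (nat_lit 423) (nat_lit 257)))) (XT.nd (nat_lit 156) (nat_lit 684) (nat_lit 0) (XT.nd (nat_lit 78) (nat_lit 0) (nat_lit 0) (XT.lf (nat_lit 0) (nat_lit 4585729826)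 (nat_lit 836) (nat_lit 9071338706) (nat_lit 76) (nat_lit 1048634176) (nat_lit 272) (nat_lit 5) (nat_lit 283) (nat_lit 5) (nat_lit 273) (nat_lit 5) (nat_lit 461) (nat_lit 423) (nat_lit 256)) (XT.lf (nat_lit 0) (nat_lit 6317614233) (nat_lit 836) (nat_lit 1978558365) (nat_lit 76) (nat_lit 6575699149) (nat_lit 272) (nat_lit 5) (nat_lit 283) (nat_lit 5) (nat_lit 273) (nat_lit 5) (nat_lit 462) (nat_lit 423) (nat_lit 255))) (XT.nd (nat_lit 78) (nat_lit 0) (nat_lit 0) (XT.lf (nat_lit 0) (nat_lit 5316945473) (nat_lit 684) (nat_lit 2792865093) (nat_lit 760) (nat_lit 6931048447) (nat_lit 263) (nat_lit 5) (nat_lit 272) (nat_lit 5) (nat_lit 273) (nat_lit 5) (nat_lit 463) (nat_lit 423) (nat_lit 254)) (XT.lf (nat_lit 0) (nat_lit 9960797435) (nat_lit 760) (nat_lit 2455170528) (nat_lit 76) (nat_lit 2796807298) (nat_lit 263) (nat_lit 5) (nat_lit 273) (nat_lit 5) (nat_lit 264) (nat_lit 5) (nat_lit 464) (nat_lit 423) (nat_lit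 253)))))) (XT.nd (nat_lit 546) (nat_lit 1976) (nat_lit 0) (XT.nd (nat_lit 234) (nat_lit 1292) (nat_lit 0) (XT.nd (nat_lit 78) (nat_lit 760) (nat_lit 0) (XT.lf (nat_lit 0) (nat_lit 4997177913) (nat_lit 760) (nat_lit 6894007015) (nat_lit 836) (nat_lit 3496105297) (nat_lit 253) (nat_lit 5) (nat_lit 263) (nat_lit 5) (nat_lit 264) (nat_lit 5) (nat_lit 465) (nat_lit 423) (nat_lit 252)) (XT.nd (nat_lit 78) (nat_lit 760) (nat_lit 0) (XT.lf (nat_lit 0) (nat_lit 12623099260) (nat_lit 760) (nat_lit 1245107497) (nat_lit 836) (nat_lit 1696936051) (nat_lit 253) (nat_lit 5) (nat_lit 263) (nat_lit 5) (nat_lit 264) (nat_lit 5) (nat_lit 466) (nat_lit 423) (nat_lit 251)) (XT.lf (nat_lit 0) (nat_lit 188151813) (nat_lit 760) (nat_lit 11068507008) (nat_lit 76) (nat_lit 4488848263) (nat_lit 243) (nat_lit 5) (nat_lit 253) (nat_lit 5) (nat_lit 244) (nat_lit 5) (nat_lit 467) (nat_lit 423) (nat_lit 250)))) (XT.nd (nat_lit 156)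 (nat_lit 608) (nat_lit 0) (XT.nd (nat_lit 78) (nat_lit 684) (nat_lit 0) (XT.lf (nat_lit 0) (nat_lit 2108119046) (nat_lit 760) (nat_lit 3469207145) (nat_lit 76) (nat_lit 10351537524) (nat_lit 243) (nat_lit 5) (nat_lit 253) (nat_lit 5) (nat_lit 244) (nat_lit 5) (nat_lit 468) (nat_lit 423) (nat_lit 249)) (XT.lf (nat_lit 0) (nat_lit 4088103443) (nat_lit 760) (nat_lit 11786846696) (nat_lit 76) (nat_lit 240512239) (nat_lit 234) (nat_lit 5) (nat_lit 244) (nat_lit 5) (nat_lit 235) (nat_lit 5) (nat_lit 469) (nat_lit 423) (nat_lit 248))) (XT.nd (nat_lit 78) (nat_lit 608) (nat_lit 0) (XT.lf (nat_lit 0) (nat_lit 6160077359) (nat_lit 760) (nat_lit 4021743195) (nat_lit 76) (nat_lit 6122931773) (nat_lit 234) (nat_lit 5) (nat_lit 244) (nat_lit 5) (nat_lit 235) (nat_lit 5) (nat_lit 470) (nat_lit 423) (nat_lit 247)) (XT.lf (nat_lit 0) (nat_lit 3941784429) (nat_lit 608) (nat_lit 4349475001) (nat_lit 684) (nat_lit 8206220245)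 (nat_lit 226) (nat_lit 5) (nat_lit 234) (nat_lit 5) (nat_lit 235) (nat_lit 5) (nat_lit 471) (nat_lit 423) (nat_lit 246))))) (XT.nd (nat_lit 234) (nat_lit 1292) (nat_lit 0) (XT.nd (nat_lit 78) (nat_lit 684) (nat_lit 0) (XT.lf (nat_lit 0) (nat_lit 10494885966) (nat_lit 684) (nat_lit 4593662220) (nat_lit 76) (nat_lit 1604923802) (nat_lit 226) (nat_lit 5) (nat_lit 235) (nat_lit 5) (nat_lit 227) (nat_lit 5) (nat_lit 472) (nat_lit 423) (nat_lit 245)) (XT.nd (nat_lit 78) (nat_lit 0) (nat_lit 0) (XT.lf (nat_lit 0) (nat_lit 3536686424) (nat_lit 684) (nat_lit 9250086133) (nat_lit 760) (nat_lit 4105734541) (nat_lit 217) (nat_lit 5) (nat_lit 226) (nat_lit 5) (nat_lit 227) (nat_lit 5) (nat_lit 473) (nat_lit 423) (nat_lit 244)) (XT.lf (nat_lit 0) (nat_lit 11883461445) (nat_lit 684) (nat_lit 3264375629) (nat_lit 760) (nat_lit 1947225602) (nat_lit 217) (nat_lit 5) (nat_lit 226) (nat_lit 5) (nat_lit 227) (nat_lit 5) (nat_lit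 474) (nat_lit 423) (nat_lit 243)))) (XT.nd (nat_lit 156) (nat_lit 608) (nat_lit 0) (XT.nd (nat_lit 78) (nat_lit 0) (nat_lit 0) (XT.lf (nat_lit 0) (nat_lit 282606424) (nat_lit 684) (nat_lit 14193502545) (nat_lit 76) (nat_lit 2824903869) (nat_lit 208) (nat_lit 5) (nat_lit 217) (nat_lit 5) (nat_lit 209) (nat_lit 5) (nat_lit 475) (nat_lit 423) (nat_lit 242)) (XT.lf (nat_lit 0) (nat_lit 2580499003) (nat_lit 684) (nat_lit 5889957587) (nat_lit 76) (nat_lit 9039383434) (nat_lit 208) (nat_lit 5) (nat_lit 217) (nat_lit 5) (nat_lit 209) (nat_lit 5) (nat_lit 476) (nat_lit 423) (nat_lit 241))) (XT.nd (nat_lit 78) (nat_lit 0) (nat_lit 0) (XT.lf (nat_lit 0) (nat_lit 2605518156) (nat_lit 608) (nat_lit 2328581671) (nat_lit 684) (nat_lit 12788554990) (nat_lit 200) (nat_lit 5) (nat_lit 208) (nat_lit 5) (nat_lit 209) (nat_lit 5) (nat_lit 477) (nat_lit 423) (nat_lit 240)) (XT.lf (nat_lit 0) (nat_lit 7393028007) (nat_lit 684)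 (nat_lit 6622406956) (nat_lit 76) (nat_lit 3923131785) (nat_lit 200) (nat_lit 5) (nat_lit 209) (nat_lit 5) (nat_lit 201) (nat_lit 5) (nat_lit 478) (nat_lit 423) (nat_lit 239))))))) (XT.nd (nat_lit 1092) (nat_lit 2660) (nat_lit 0) (XT.nd (nat_lit 546) (nat_lit 2052) (nat_lit 0) (XT.nd (nat_lit 234) (nat_lit 608) (nat_lit 0) (XT.nd (nat_lit 78) (nat_lit 608) (nat_lit 0) (XT.lf (nat_lit 0) (nat_lit 2045389411) (nat_lit 532) (nat_lit 7877498296) (nat_lit 608) (nat_lit 8235479985) (nat_lit 193) (nat_lit 5) (nat_lit 200) (nat_lit 5) (nat_lit 201) (nat_lit 5) (nat_lit 479) (nat_lit 423) (nat_lit 238)) (XT.nd (nat_lit 78) (nat_lit 608) (nat_lit 0) (XT.lf (nat_lit 0) (nat_lit 10968131827) (nat_lit 532) (nat_lit 1572787613) (nat_lit 608) (nat_lit 5840899439) (nat_lit 193) (nat_lit 5) (nat_lit 200) (nat_lit 5) (nat_lit 201) (nat_lit 5) (nat_lit 480) (nat_lit 423) (nat_lit 237)) (XT.lf (nat_lit 0) (nat_lit 1438768391)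 (nat_lit 608) (nat_lit 13806687574) (nat_lit 684) (nat_lit 3363605849) (nat_lit 185) (nat_lit 5) (nat_lit 193) (nat_lit 5) (nat_lit 194) (nat_lit 5) (nat_lit 481) (nat_lit 423) (nat_lit 236)))) (XT.nd (nat_lit 156) (nat_lit 0) (nat_lit 0) (XT.nd (nat_lit 78) (nat_lit 608) (nat_lit 0) (XT.lf (nat_lit 0) (nat_lit 10550116964) (nat_lit 608) (nat_lit 7507404101) (nat_lit 684) (nat_lit 782265282) (nat_lit 185) (nat_lit 5) (nat_lit 193) (nat_lit 5) (nat_lit 194) (nat_lit 5) (nat_lit 482) (nat_lit 423) (nat_lit 235)) (XT.lf (nat_lit 0) (nat_lit 758468431) (nat_lit 532) (nat_lit 1066308684) (nat_lit 608) (nat_lit 17250146274) (nat_lit 177) (nat_lit 5) (nat_lit 184) (nat_lit 5) (nat_lit 185) (nat_lit 5) (nat_lit 483) (nat_lit 423) (nat_lit 234))) (XT.nd (nat_lit 78) (nat_lit 0) (nat_lit 0) (XT.lf (nat_lit 0) (nat_lit 4558715553) (nat_lit 608) (nat_lit 9263097925) (nat_lit 76) (nat_lit 5491146865) (nat_lit 177)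 (nat_lit 5) (nat_lit 185) (nat_lit 5) (nat_lit 178) (nat_lit 5) (nat_lit 484) (nat_lit 423) (nat_lit 233)) (XT.lf (nat_lit 0) (nat_lit 7348012455) (nat_lit 608) (nat_lit 43679444) (nat_lit 76) (nat_lit 12164057621) (nat_lit 177) (nat_lit 5) (nat_lit 185) (nat_lit 5) (nat_lit 178) (nat_lit 5) (nat_lit 485) (nat_lit 423) (nat_lit 232))))) (XT.nd (nat_lit 234) (nat_lit 1064) (nat_lit 0) (XT.nd (nat_lit 78) (nat_lit 456) (nat_lit 0) (XT.lf (nat_lit 0) (nat_lit 9476626790) (nat_lit 532) (nat_lit 771740238) (nat_lit 608) (nat_lit 9553926997) (nat_lit 170) (nat_lit 5) (nat_lit 177) (nat_lit 5) (nat_lit 178) (nat_lit 5) (nat_lit 486) (nat_lit 423) (nat_lit 231)) (XT.nd (nat_lit 78) (nat_lit 456) (nat_lit 0) (XT.lf (nat_lit 0) (nat_lit 13239659390) (nat_lit 608) (nat_lit 912519884) (nat_lit 76) (nat_lit 5900936415) (nat_lit 170) (nat_lit 5) (nat_lit 178) (nat_lit 5) (nat_lit 171) (nat_lit 5) (nat_lit 487) (nat_lit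 423) (nat_lit 230)) (XT.lf (nat_lit 0) (nat_lit 8791378564) (nat_lit 456) (nat_lit 7555516371) (nat_lit 532) (nat_lit 3960941289) (nat_lit 164) (nat_lit 5) (nat_lit 170) (nat_lit 5) (nat_lit 171) (nat_lit 5) (nat_lit 488) (nat_lit 423) (nat_lit 229)))) (XT.nd (nat_lit 156) (nat_lit 456) (nat_lit 0) (XT.nd (nat_lit 78) (nat_lit 608) (nat_lit 0) (XT.lf (nat_lit 0) (nat_lit 18694073597) (nat_lit 456) (nat_lit 822321500) (nat_lit 532) (nat_lit 1051258366) (nat_lit 164) (nat_lit 5) (nat_lit 170) (nat_lit 5) (nat_lit 171) (nat_lit 5) (nat_lit 489) (nat_lit 423) (nat_lit 228)) (XT.lf (nat_lit 0) (nat_lit 1977472211) (nat_lit 608) (nat_lit 12823491493) (nat_lit 76) (nat_lit 6029739159) (nat_lit 156) (nat_lit 5) (nat_lit 164) (nat_lit 5) (nat_lit 157) (nat_lit 5) (nat_lit 490) (nat_lit 423) (nat_lit 227))) (XT.nd (nat_lit 78) (nat_lit 456) (nat_lit 0) (XT.lf (nat_lit 0) (nat_lit 5064943121) (nat_lit 608) (nat_lit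 3007882605) (nat_lit 76) (nat_lit 13025808128) (nat_lit 156) (nat_lit 5) (nat_lit 164) (nat_lit 5) (nat_lit 157) (nat_lit 5) (nat_lit 491) (nat_lit 423) (nat_lit 226)) (XT.lf (nat_lit 0) (nat_lit 7089523708) (nat_lit 456) (nat_lit 1164911890) (nat_lit 532) (nat_lit 13116686758) (nat_lit 150) (nat_lit 5) (nat_lit 156) (nat_lit 5) (nat_lit 157) (nat_lit 5) (nat_lit 492) (nat_lit 423) (nat_lit 225)))))) (XT.nd (nat_lit 546) (nat_lit 1216) (nat_lit 0) (XT.nd (nat_lit 234) (nat_lit 988) (nat_lit 0) (XT.nd (nat_lit 78) (nat_lit 456) (nat_lit 0) (XT.lf (nat_lit 0) (nat_lit 11560515900) (nat_lit 532) (nat_lit 4264876771) (nat_lit 76) (nat_lit 5822616249) (nat_lit 150) (nat_lit 5) (nat_lit 157) (nat_lit 5) (nat_lit 151) (nat_lit 5) (nat_lit 493) (nat_lit 423) (nat_lit 224)) (XT.nd (nat_lit 78) (nat_lit 0) (nat_lit 0) (XT.lf (nat_lit 0) (nat_lit 6015960839) (nat_lit 456) (nat_lit 8957938511) (nat_lit 532) (nat_lit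 6955714398) (nat_lit 144) (nat_lit 5) (nat_lit 150) (nat_lit 5) (nat_lit 151) (nat_lit 5) (nat_lit 494) (nat_lit 423) (nat_lit 223)) (XT.lf (nat_lit 0) (nat_lit 16552870976) (nat_lit 456) (nat_lit 1925768251) (nat_lit 532) (nat_lit 3737753756) (nat_lit 144) (nat_lit 5) (nat_lit 150) (nat_lit 5) (nat_lit 151) (nat_lit 5) (nat_lit 495) (nat_lit 423) (nat_lit 222)))) (XT.nd (nat_lit 156) (nat_lit 456) (nat_lit 0) (XT.nd (nat_lit 78) (nat_lit 76) (nat_lit 0) (XT.lf (nat_lit 0) (nat_lit 4813359937) (nat_lit 456) (nat_lit 17299998811) (nat_lit 532) (nat_lit 394355364) (nat_lit 138) (nat_lit 5) (nat_lit 144) (nat_lit 5) (nat_lit 145) (nat_lit 5) (nat_lit 496) (nat_lit 423) (nat_lit 221)) (XT.lf (nat_lit 0) (nat_lit 3021953054) (nat_lit 532) (nat_lit 7267477970) (nat_lit 76) (nat_lit 12514130936) (nat_lit 137) (nat_lit 5) (nat_lit 144) (nat_lit 5) (nat_lit 138) (nat_lit 5) (nat_lit 497) (nat_lit 423) (nat_lit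 220))) (XT.nd (nat_lit 78) (nat_lit 0) (nat_lit 0) (XT.lf (nat_lit 0) (nat_lit 3402755761) (nat_lit 456) (nat_lit 3115341439) (nat_lit 532) (nat_lit 16586845405) (nat_lit 131) (nat_lit 5) (nat_lit 137) (nat_lit 5) (nat_lit 138) (nat_lit 5) (nat_lit 498) (nat_lit 423) (nat_lit 219)) (XT.lf (nat_lit 0) (nat_lit 10155276899) (nat_lit 532) (nat_lit 9061320543) (nat_lit 76) (nat_lit 4194334868) (nat_lit 131) (nat_lit 5) (nat_lit 138) (nat_lit 5) (nat_lit 132) (nat_lit 5) (nat_lit 499) (nat_lit 423) (nat_lit 218))))) (XT.nd (nat_lit 234) (nat_lit 836) (nat_lit 0) (XT.nd (nat_lit 78) (nat_lit 0) (nat_lit 0) (XT.lf (nat_lit 0) (nat_lit 1788079571) (nat_lit 380) (nat_lit 12104202037) (nat_lit 456) (nat_lit 9830222199) (nat_lit 126) (nat_lit 5) (nat_lit 131) (nat_lit 5) (nat_lit 132) (nat_lit 5) (nat_lit 500) (nat_lit 423) (nat_lit 217)) (XT.nd (nat_lit 78) (nat_lit 0) (nat_lit 0) (XT.lf (nat_lit 0) (nat_lit 12970239904)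 (nat_lit 380) (nat_lit 4789488705) (nat_lit 456) (nat_lit 6279467636) (nat_lit 126) (nat_lit 5) (nat_lit 131) (nat_lit 5) (nat_lit 132) (nat_lit 5) (nat_lit 501) (nat_lit 423) (nat_lit 216)) (XT.lf (nat_lit 0) (nat_lit 21716853443) (nat_lit 456) (nat_lit 10533508) (nat_lit 76) (nat_lit 2634592490) (nat_lit 126) (nat_lit 5) (nat_lit 132) (nat_lit 5) (nat_lit 127) (nat_lit 5) (nat_lit 502) (nat_lit 423) (nat_lit 215)))) (XT.nd (nat_lit 156) (nat_lit 380) (nat_lit 0) (XT.nd (nat_lit 78) (nat_lit 0) (nat_lit 0) (XT.lf (nat_lit 0) (nat_lit 1149323949) (nat_lit 456) (nat_lit 13317054753) (nat_lit 76) (nat_lit 10222678089) (nat_lit 120) (nat_lit 5) (nat_lit 126) (nat_lit 5) (nat_lit 121) (nat_lit 5) (nat_lit 503) (nat_lit 423) (nat_lit 214)) (XT.lf (nat_lit 0) (nat_lit 4979447478) (nat_lit 456) (nat_lit 2064755977) (nat_lit 76) (nat_lit 17978221774) (nat_lit 120) (nat_lit 5) (nat_lit 126) (nat_lit 5) (nat_lit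 121) (nat_lit 5) (nat_lit 504) (nat_lit 423) (nat_lit 213))) (XT.nd (nat_lit 78) (nat_lit 0) (nat_lit 0) (XT.lf (nat_lit 0) (nat_lit 8947063550) (nat_lit 456) (nat_lit 15834310148) (nat_lit 76) (nat_lit 579872758) (nat_lit 115) (nat_lit 5) (nat_lit 121) (nat_lit 5) (nat_lit 116) (nat_lit 5) (nat_lit 505) (nat_lit 423) (nat_lit 212)) (XT.lf (nat_lit 0) (nat_lit 13049862214) (nat_lit 456) (nat_lit 4381659139) (nat_lit 76) (nat_lit 8274209306) (nat_lit 115) (nat_lit 5) (nat_lit 121) (nat_lit 5) (nat_lit 116) (nat_lit 5) (nat_lit 506) (nat_lit 423) (nat_lit 211))))))))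
noncomputable def xc200 : XT := (XT.nd (nat_lit 54132) (nat_lit 0) (nat_lit 12312) (XT.nd (nat_lit 53040) (nat_lit 0) (nat_lit 20976) (XT.nd (nat_lit 468) (nat_lit 684) (nat_lit 0) (XT.nd (nat_lit 234) (nat_lit 456) (nat_lit 0) (XT.nd (nat_lit 78) (nat_lit 304) (nat_lit 0) (XT.lf (nat_lit 0) (nat_lit 7390302604) (nat_lit 380) (nat_lit 9887723031) (nat_lit 456) (nat_lit 8778215832) (nat_lit 110) (nat_lit 5) (nat_lit 115) (nat_lit 5) (nat_lit 116) (nat_lit 5) (nat_lit 507) (nat_lit 423) (nat_lit 210)) (XT.nd (nat_lit 78) (nat_lit 304) (nat_lit 0) (XT.lf (nat_lit 0) (nat_lit 19450474558) (nat_lit 380) (nat_lit 2165055685) (nat_lit 456) (nat_lit 4797739725) (nat_lit 110) (nat_lit 5) (nat_lit 115) (nat_lit 5) (nat_lit 116) (nat_lit 5) (nat_lit 508) (nat_lit 423) (nat_lit 209)) (XT.lf (nat_lit 0) (nat_lit 4996276823) (nat_lit 304) (nat_lit 21108486430) (nat_lit 380) (nat_lit 671379195) (nat_lit 106) (nat_lit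 5) (nat_lit 110) (nat_lit 5) (nat_lit 111) (nat_lit 5) (nat_lit 509) (nat_lit 423) (nat_lit 208)))) (XT.nd (nat_lit 78) (nat_lit 380) (nat_lit 0) (XT.lf (nat_lit 0) (nat_lit 3547951780) (nat_lit 380) (nat_lit 9900634763) (nat_lit 76) (nat_lit 13696092571) (nat_lit 105) (nat_lit 5) (nat_lit 110) (nat_lit 5) (nat_lit 106) (nat_lit 5) (nat_lit 510) (nat_lit 423) (nat_lit 207)) (XT.nd (nat_lit 78) (nat_lit 0) (nat_lit 0) (XT.lf (nat_lit 0) (nat_lit 2234576174) (nat_lit 380) (nat_lit 5618175801) (nat_lit 456) (nat_lit 19667547139) (nat_lit 100) (nat_lit 5) (nat_lit 105) (nat_lit 5) (nat_lit 106) (nat_lit 5) (nat_lit 511) (nat_lit 423) (nat_lit 206)) (XT.lf (nat_lit 0) (nat_lit 12321494654) (nat_lit 456) (nat_lit 13177726038) (nat_lit 76) (nat_lit 2402656640) (nat_lit 100) (nat_lit 5) (nat_lit 106) (nat_lit 5) (nat_lit 101) (nat_lit 5) (nat_lit 512) (nat_lit 423) (nat_lit 205))))) (XT.nd (nat_lit 234) (nat_lit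 380) (nat_lit 0) (XT.nd (nat_lit 78) (nat_lit 304) (nat_lit 0) (XT.lf (nat_lit 0) (nat_lit 16912493079) (nat_lit 456) (nat_lit 871148448) (nat_lit 76) (nat_lit 10506790666) (nat_lit 100) (nat_lit 5) (nat_lit 106) (nat_lit 5) (nat_lit 101) (nat_lit 5) (nat_lit 513) (nat_lit 423) (nat_lit 204)) (XT.nd (nat_lit 78) (nat_lit 0) (nat_lit 0) (XT.lf (nat_lit 0) (nat_lit 11830471624) (nat_lit 304) (nat_lit 9837410362) (nat_lit 380) (nat_lit 7017427396) (nat_lit 96) (nat_lit 5) (nat_lit 100) (nat_lit 5) (nat_lit 101) (nat_lit 5) (nat_lit 514) (nat_lit 423) (nat_lit 203)) (XT.lf (nat_lit 0) (nat_lit 24791726019) (nat_lit 304) (nat_lit 1728300617) (nat_lit 380) (nat_lit 2568027111) (nat_lit 96) (nat_lit 5) (nat_lit 100) (nat_lit 5) (nat_lit 101) (nat_lit 5) (nat_lit 515) (nat_lit 423) (nat_lit 202)))) (XT.nd (nat_lit 52182) (nat_lit 0) (nat_lit 22192) (XT.nd (nat_lit 78) (nat_lit 0) (nat_lit 0) (XT.lf (nat_lit 0)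 (nat_lit 2039181798) (nat_lit 380) (nat_lit 20933184803) (nat_lit 76) (nat_lit 6524339783) (nat_lit 91) (nat_lit 5) (nat_lit 96) (nat_lit 5) (nat_lit 92) (nat_lit 5) (nat_lit 516) (nat_lit 423) (nat_lit 201)) (XT.lf (nat_lit 0) (nat_lit 6740531732) (nat_lit 380) (nat_lit 8208966897) (nat_lit 76) (nat_lit 14962968739) (nat_lit 91) (nat_lit 5) (nat_lit 96) (nat_lit 5) (nat_lit 92) (nat_lit 5) (nat_lit 517) (nat_lit 423) (nat_lit 200))) (XT.nd (nat_lit 78) (nat_lit 0) (nat_lit 0) (XT.lf (nat_lit 0) (nat_lit 748021972) (nat_lit 1596) (nat_lit 2187424503) (nat_lit 1596) (nat_lit 2187424503) (nat_lit 383) (nat_lit 3) (nat_lit 404) (nat_lit 3) (nat_lit 404) (nat_lit 5) (nat_lit 424) (nat_lit 424) (nat_lit 292)) (XT.lf (nat_lit 76) (nat_lit 175848525) (nat_lit 0) (nat_lit 1967001582) (nat_lit 1596) (nat_lit 8192024714) (nat_lit 384) (nat_lit 5) (nat_lit 383) (nat_lit 3) (nat_lit 404) (nat_lit 5) (nat_lit 425)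 (nat_lit 424) (nat_lit 291)))))) (XT.nd (nat_lit 546) (nat_lit 1292) (nat_lit 0) (XT.nd (nat_lit 234) (nat_lit 0) (nat_lit 76) (XT.nd (nat_lit 78) (nat_lit 0) (nat_lit 0) (XT.lf (nat_lit 0) (nat_lit 2828679906) (nat_lit 1520) (nat_lit 5570578606) (nat_lit 1596) (nat_lit 2026028119) (nat_lit 384) (nat_lit 5) (nat_lit 404) (nat_lit 5) (nat_lit 405) (nat_lit 5) (nat_lit 426) (nat_lit 424) (nat_lit 290)) (XT.nd (nat_lit 78) (nat_lit 0) (nat_lit 0) (XT.lf (nat_lit 0) (nat_lit 3525030296) (nat_lit 1520) (nat_lit 912173485) (nat_lit 1596) (nat_lit 6080384500) (nat_lit 384) (nat_lit 5) (nat_lit 404) (nat_lit 5) (nat_lit 405) (nat_lit 5) (nat_lit 427) (nat_lit 424) (nat_lit 289)) (XT.lf (nat_lit 76) (nat_lit 3881696114) (nat_lit 0) (nat_lit 362909709) (nat_lit 1596) (nat_lit 6366961514) (nat_lit 385) (nat_lit 5) (nat_lit 384) (nat_lit 5) (nat_lit 405) (nat_lit 5) (nat_lit 428) (nat_lit 424) (nat_lit 288)))) (XT.nd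 (nat_lit 156) (nat_lit 0) (nat_lit 76) (XT.nd (nat_lit 78) (nat_lit 0) (nat_lit 0) (XT.lf (nat_lit 0) (nat_lit 4993758322) (nat_lit 1520) (nat_lit 1957094170) (nat_lit 1596) (nat_lit 3756286771) (nat_lit 385) (nat_lit 5) (nat_lit 405) (nat_lit 5) (nat_lit 406) (nat_lit 5) (nat_lit 429) (nat_lit 424) (nat_lit 287)) (XT.lf (nat_lit 76) (nat_lit 2938517261) (nat_lit 0) (nat_lit 2825562639) (nat_lit 1596) (nat_lit 5040435669) (nat_lit 386) (nat_lit 5) (nat_lit 385) (nat_lit 5) (nat_lit 406) (nat_lit 5) (nat_lit 430) (nat_lit 424) (nat_lit 286))) (XT.nd (nat_lit 78) (nat_lit 0) (nat_lit 0) (XT.lf (nat_lit 0) (nat_lit 6556990935) (nat_lit 1520) (nat_lit 2963126239) (nat_lit 1596) (nat_lit 1383594904) (nat_lit 386) (nat_lit 5) (nat_lit 406) (nat_lit 5) (nat_lit 407) (nat_lit 5) (nat_lit 431) (nat_lit 424) (nat_lit 285)) (XT.lf (nat_lit 76) (nat_lit 2036925186) (nat_lit 0) (nat_lit 5346055295) (nat_lit 1596)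 (nat_lit 3621583646) (nat_lit 387) (nat_lit 5) (nat_lit 386) (nat_lit 5) (nat_lit 407) (nat_lit 5) (nat_lit 432) (nat_lit 424) (nat_lit 284))))) (XT.nd (nat_lit 234) (nat_lit 1444) (nat_lit 0) (XT.nd (nat_lit 78) (nat_lit 0) (nat_lit 76) (XT.lf (nat_lit 76) (nat_lit 7168321628) (nat_lit 0) (nat_lit 1062566507) (nat_lit 1596) (nat_lit 2876452818) (nat_lit 387) (nat_lit 5) (nat_lit 386) (nat_lit 5) (nat_lit 407) (nat_lit 5) (nat_lit 433) (nat_lit 424) (nat_lit 283)) (XT.nd (nat_lit 78) (nat_lit 0) (nat_lit 0) (XT.lf (nat_lit 76) (nat_lit 1175131686) (nat_lit 0) (nat_lit 7935554848) (nat_lit 1596) (nat_lit 2101203526) (nat_lit 388) (nat_lit 5) (nat_lit 387) (nat_lit 5) (nat_lit 408) (nat_lit 5) (nat_lit 434) (nat_lit 424) (nat_lit 282)) (XT.lf (nat_lit 76) (nat_lit 6428904419) (nat_lit 0) (nat_lit 3598654020) (nat_lit 1596) (nat_lit 1290597249) (nat_lit 388) (nat_lit 5) (nat_lit 387) (nat_lit 5) (nat_lit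 408) (nat_lit 5) (nat_lit 435) (nat_lit 424) (nat_lit 281)))) (XT.nd (nat_lit 156) (nat_lit 0) (nat_lit 0) (XT.nd (nat_lit 78) (nat_lit 1596) (nat_lit 0) (XT.lf (nat_lit 76) (nat_lit 351387580) (nat_lit 0) (nat_lit 10605377478) (nat_lit 1596) (nat_lit 469916423) (nat_lit 389) (nat_lit 5) (nat_lit 388) (nat_lit 5) (nat_lit 409) (nat_lit 5) (nat_lit 436) (nat_lit 424) (nat_lit 280)) (XT.lf (nat_lit 0) (nat_lit 405686463) (nat_lit 1596) (nat_lit 5809245673) (nat_lit 1672) (nat_lit 5321545716) (nat_lit 367) (nat_lit 5) (nat_lit 388) (nat_lit 5) (nat_lit 389) (nat_lit 5) (nat_lit 437) (nat_lit 424) (nat_lit 279))) (XT.nd (nat_lit 78) (nat_lit 0) (nat_lit 76) (XT.lf (nat_lit 0) (nat_lit 1279245672) (nat_lit 1596) (nat_lit 450012997) (nat_lit 1672) (nat_lit 9919428573) (nat_lit 367) (nat_lit 5) (nat_lit 388) (nat_lit 5) (nat_lit 389) (nat_lit 5) (nat_lit 438) (nat_lit 424) (nat_lit 278)) (XT.lf (nat_lit 0) (nat_lit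 2208935414) (nat_lit 1596) (nat_lit 6707375343) (nat_lit 1672) (nat_lit 2846070545) (nat_lit 368) (nat_lit 5) (nat_lit 389) (nat_lit 5) (nat_lit 390) (nat_lit 5) (nat_lit 439) (nat_lit 424) (nat_lit 277))))))) (XT.nd (nat_lit 1014) (nat_lit 5700) (nat_lit 0) (XT.nd (nat_lit 468) (nat_lit 3040) (nat_lit 0) (XT.nd (nat_lit 234) (nat_lit 0) (nat_lit 76) (XT.nd (nat_lit 78) (nat_lit 0) (nat_lit 76) (XT.lf (nat_lit 0) (nat_lit 3158925696) (nat_lit 1596) (nat_lit 1222620619) (nat_lit 1672) (nat_lit 7496782196) (nat_lit 368) (nat_lit 5) (nat_lit 389) (nat_lit 5) (nat_lit 390) (nat_lit 5) (nat_lit 440) (nat_lit 424) (nat_lit 276)) (XT.nd (nat_lit 78) (nat_lit 0) (nat_lit 0) (XT.lf (nat_lit 0) (nat_lit 4145882076) (nat_lit 1596) (nat_lit 7577178500) (nat_lit 1672) (nat_lit 273187900) (nat_lit 369) (nat_lit 5) (nat_lit 390) (nat_lit 5) (nat_lit 391) (nat_lit 5) (nat_lit 441) (nat_lit 424) (nat_lit 275)) (XT.lf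 (nat_lit 0) (nat_lit 5177529809) (nat_lit 1596) (nat_lit 1964397466) (nat_lit 1672) (nat_lit 4974113403) (nat_lit 369) (nat_lit 5) (nat_lit 390) (nat_lit 5) (nat_lit 391) (nat_lit 5) (nat_lit 442) (nat_lit 424) (nat_lit 274)))) (XT.nd (nat_lit 78) (nat_lit 0) (nat_lit 76) (XT.lf (nat_lit 76) (nat_lit 3801545330) (nat_lit 0) (nat_lit 2440865556) (nat_lit 1672) (nat_lit 5995578458) (nat_lit 370) (nat_lit 5) (nat_lit 369) (nat_lit 5) (nat_lit 391) (nat_lit 5) (nat_lit 443) (nat_lit 424) (nat_lit 273)) (XT.nd (nat_lit 78) (nat_lit 0) (nat_lit 0) (XT.lf (nat_lit 0) (nat_lit 7345261102) (nat_lit 1596) (nat_lit 2677213764) (nat_lit 1672) (nat_lit 2339581069) (nat_lit 370) (nat_lit 5) (nat_lit 391) (nat_lit 5) (nat_lit 392) (nat_lit 5) (nat_lit 444) (nat_lit 424) (nat_lit 272)) (XT.lf (nat_lit 76) (nat_lit 3214208111) (nat_lit 0) (nat_lit 5281343591) (nat_lit 1672) (nat_lit 3992556627) (nat_lit 371) (nat_lit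 5) (nat_lit 370) (nat_lit 5) (nat_lit 392) (nat_lit 5) (nat_lit 445) (nat_lit 424) (nat_lit 271))))) (XT.nd (nat_lit 234) (nat_lit 3192) (nat_lit 0) (XT.nd (nat_lit 78) (nat_lit 0) (nat_lit 76) (XT.lf (nat_lit 76) (nat_lit 9250824637) (nat_lit 0) (nat_lit 424509419) (nat_lit 1672) (nat_lit 2941229897) (nat_lit 371) (nat_lit 5) (nat_lit 370) (nat_lit 5) (nat_lit 392) (nat_lit 5) (nat_lit 446) (nat_lit 424) (nat_lit 270)) (XT.nd (nat_lit 78) (nat_lit 0) (nat_lit 0) (XT.lf (nat_lit 76) (nat_lit 2657021689) (nat_lit 0) (nat_lit 8257111567) (nat_lit 1672) (nat_lit 1832758675) (nat_lit 372) (nat_lit 5) (nat_lit 371) (nat_lit 5) (nat_lit 393) (nat_lit 5) (nat_lit 447) (nat_lit 424) (nat_lit 269)) (XT.lf (nat_lit 76) (nat_lit 8834069776) (nat_lit 0) (nat_lit 3357941450) (nat_lit 1672) (nat_lit 687540626) (nat_lit 372) (nat_lit 5) (nat_lit 371) (nat_lit 5) (nat_lit 393) (nat_lit 5) (nat_lit 448) (nat_lit 424)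 (nat_lit 268)))) (XT.nd (nat_lit 156) (nat_lit 1672) (nat_lit 0) (XT.nd (nat_lit 78) (nat_lit 0) (nat_lit 0) (XT.lf (nat_lit 0) (nat_lit 487972363) (nat_lit 1672) (nat_lit 10889763022) (nat_lit 76) (nat_lit 1636804305) (nat_lit 350) (nat_lit 5) (nat_lit 372) (nat_lit 5) (nat_lit 351) (nat_lit 5) (nat_lit 449) (nat_lit 424) (nat_lit 267)) (XT.lf (nat_lit 0) (nat_lit 1716590890) (nat_lit 1672) (nat_lit 4714481449) (nat_lit 76) (nat_lit 6720298803) (nat_lit 350) (nat_lit 5) (nat_lit 372) (nat_lit 5) (nat_lit 351) (nat_lit 5) (nat_lit 450) (nat_lit 424) (nat_lit 266))) (XT.nd (nat_lit 78) (nat_lit 0) (nat_lit 0) (XT.lf (nat_lit 0) (nat_lit 1596316023) (nat_lit 1672) (nat_lit 1373269048) (nat_lit 1748) (nat_lit 10321368654) (nat_lit 328) (nat_lit 5) (nat_lit 350) (nat_lit 5) (nat_lit 351) (nat_lit 5) (nat_lit 451) (nat_lit 424) (nat_lit 265)) (XT.lf (nat_lit 0) (nat_lit 4293662994) (nat_lit 1748) (nat_lit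 5369344072) (nat_lit 76) (nat_lit 3769410776) (nat_lit 328) (nat_lit 5) (nat_lit 351) (nat_lit 5) (nat_lit 329) (nat_lit 5) (nat_lit 452) (nat_lit 424) (nat_lit 264)))))) (XT.nd (nat_lit 546) (nat_lit 2964) (nat_lit 0) (XT.nd (nat_lit 234) (nat_lit 912) (nat_lit 0) (XT.nd (nat_lit 78) (nat_lit 836) (nat_lit 0) (XT.lf (nat_lit 0) (nat_lit 1078589574) (nat_lit 988) (nat_lit 4571532747) (nat_lit 1064) (nat_lit 7926481079) (nat_lit 315) (nat_lit 5) (nat_lit 328) (nat_lit 5) (nat_lit 329) (nat_lit 5) (nat_lit 453) (nat_lit 424) (nat_lit 263)) (XT.nd (nat_lit 78) (nat_lit 836) (nat_lit 0) (XT.lf (nat_lit 0) (nat_lit 7063970163) (nat_lit 1064) (nat_lit 6008040269) (nat_lit 76) (nat_lit 651067009) (nat_lit 315) (nat_lit 5) (nat_lit 329) (nat_lit 5) (nat_lit 316) (nat_lit 5) (nat_lit 454) (nat_lit 424) (nat_lit 262)) (XT.lf (nat_lit 0) (nat_lit 580167275) (nat_lit 836) (nat_lit 7950119211) (nat_lit 912) (nat_lit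 5341720410) (nat_lit 304) (nat_lit 5) (nat_lit 315) (nat_lit 5) (nat_lit 316) (nat_lit 5) (nat_lit 455) (nat_lit 424) (nat_lit 261)))) (XT.nd (nat_lit 156) (nat_lit 76) (nat_lit 0) (XT.nd (nat_lit 78) (nat_lit 836) (nat_lit 0) (XT.lf (nat_lit 0) (nat_lit 7372738657) (nat_lit 836) (nat_lit 2683792978) (nat_lit 912) (nat_lit 3966780826) (nat_lit 304) (nat_lit 5) (nat_lit 315) (nat_lit 5) (nat_lit 316) (nat_lit 5) (nat_lit 456) (nat_lit 424) (nat_lit 260)) (XT.lf (nat_lit 0) (nat_lit 98484645) (nat_lit 836) (nat_lit 11523389268) (nat_lit 912) (nat_lit 2555608162) (nat_lit 293) (nat_lit 5) (nat_lit 304) (nat_lit 5) (nat_lit 305) (nat_lit 5) (nat_lit 457) (nat_lit 424) (nat_lit 259))) (XT.nd (nat_lit 78) (nat_lit 76) (nat_lit 0) (XT.lf (nat_lit 0) (nat_lit 7045850296) (nat_lit 836) (nat_lit 6225568963) (nat_lit 912) (nat_lit 1062267098) (nat_lit 293) (nat_lit 5) (nat_lit 304) (nat_lit 5) (nat_lit 305) (nat_lit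 5) (nat_lit 458) (nat_lit 424) (nat_lit 258)) (XT.lf (nat_lit 0) (nat_lit 445620545) (nat_lit 912) (nat_lit 372618048) (nat_lit 76) (nat_lit 13674910618) (nat_lit 292) (nat_lit 5) (nat_lit 304) (nat_lit 5) (nat_lit 293) (nat_lit 5) (nat_lit 459) (nat_lit 424) (nat_lit 257))))) (XT.nd (nat_lit 234) (nat_lit 1444) (nat_lit 0) (XT.nd (nat_lit 78) (nat_lit 760) (nat_lit 0) (XT.lf (nat_lit 0) (nat_lit 2035050631) (nat_lit 836) (nat_lit 7931966382) (nat_lit 76) (nat_lit 4687340376) (nat_lit 282) (nat_lit 5) (nat_lit 293) (nat_lit 5) (nat_lit 283) (nat_lit 5) (nat_lit 460) (nat_lit 424) (nat_lit 256)) (XT.nd (nat_lit 78) (nat_lit 760) (nat_lit 0) (XT.lf (nat_lit 0) (nat_lit 3655237653) (nat_lit 836) (nat_lit 868559786) (nat_lit 76) (nat_lit 10295021424) (nat_lit 282) (nat_lit 5) (nat_lit 293) (nat_lit 5) (nat_lit 283) (nat_lit 5) (nat_lit 461) (nat_lit 424) (nat_lit 255)) (XT.lf (nat_lit 0) (nat_lit 5347618863)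 (nat_lit 836) (nat_lit 8581234477) (nat_lit 76) (nat_lit 1056928751) (nat_lit 272) (nat_lit 5) (nat_lit 283) (nat_lit 5) (nat_lit 273) (nat_lit 5) (nat_lit 462) (nat_lit 424) (nat_lit 254)))) (XT.nd (nat_lit 156) (nat_lit 760) (nat_lit 0) (XT.nd (nat_lit 78) (nat_lit 684) (nat_lit 0) (XT.lf (nat_lit 0) (nat_lit 7101000282) (nat_lit 836) (nat_lit 1359765803) (nat_lit 76) (nat_lit 6694783613) (nat_lit 272) (nat_lit 5) (nat_lit 283) (nat_lit 5) (nat_lit 273) (nat_lit 5) (nat_lit 463) (nat_lit 424) (nat_lit 253)) (XT.lf (nat_lit 0) (nat_lit 6077316771) (nat_lit 684) (nat_lit 2843087168) (nat_lit 760) (nat_lit 6407697637) (nat_lit 263) (nat_lit 5) (nat_lit 272) (nat_lit 5) (nat_lit 273) (nat_lit 5) (nat_lit 464) (nat_lit 424) (nat_lit 252))) (XT.nd (nat_lit 78) (nat_lit 760) (nat_lit 0) (XT.lf (nat_lit 0) (nat_lit 10795732747) (nat_lit 760) (nat_lit 1849793137) (nat_lit 76) (nat_lit 2858195718) (nat_lit 263)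 (nat_lit 5) (nat_lit 273) (nat_lit 5) (nat_lit 264) (nat_lit 5) (nat_lit 465) (nat_lit 424) (nat_lit 251)) (XT.lf (nat_lit 0) (nat_lit 5747296477) (nat_lit 760) (nat_lit 7009187794) (nat_lit 836) (nat_lit 2925419130) (nat_lit 253) (nat_lit 5) (nat_lit 263) (nat_lit 5) (nat_lit 264) (nat_lit 5) (nat_lit 466) (nat_lit 424) (nat_lit 250))))))))
noncomputable def xc201 : XT := (XT.nd (nat_lit 2106) (nat_lit 4484) (nat_lit 0) (XT.nd (nat_lit 1014) (nat_lit 3800) (nat_lit 0) (XT.nd (nat_lit 468) (nat_lit 1976) (nat_lit 0) (XT.nd (nat_lit 234) (nat_lit 1292) (nat_lit 0) (XT.nd (nat_lit 78) (nat_lit 760) (nat_lit 0) (XT.lf (nat_lit 0) (nat_lit 13512987722) (nat_lit 760) (nat_lit 1247755371) (nat_lit 836) (nat_lit 1102827446) (nat_lit 253) (nat_lit 5) (nat_lit 263) (nat_lit 5) (nat_lit 264) (nat_lit 5) (nat_lit 467) (nat_lit 424) (nat_lit 249)) (XT.nd (nat_lit 78) (nat_lit 0) (nat_lit 0) (XT.lf (nat_lit 0) (nat_lit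 803935923) (nat_lit 760) (nat_lit 10635314464) (nat_lit 76) (nat_lit 4608376935) (nat_lit 243) (nat_lit 5) (nat_lit 253) (nat_lit 5) (nat_lit 244) (nat_lit 5) (nat_lit 468) (nat_lit 424) (nat_lit 248)) (XT.lf (nat_lit 0) (nat_lit 2750302088) (nat_lit 760) (nat_lit 2896863166) (nat_lit 76) (nat_lit 10587736614) (nat_lit 243) (nat_lit 5) (nat_lit 253) (nat_lit 5) (nat_lit 244) (nat_lit 5) (nat_lit 469) (nat_lit 424) (nat_lit 247)))) (XT.nd (nat_lit 78) (nat_lit 608) (nat_lit 0) (XT.lf (nat_lit 0) (nat_lit 4762553069) (nat_lit 760) (nat_lit 11372994259) (nat_lit 76) (nat_lit 289842401) (nat_lit 234) (nat_lit 5) (nat_lit 244) (nat_lit 5) (nat_lit 235) (nat_lit 5) (nat_lit 470) (nat_lit 424) (nat_lit 246)) (XT.nd (nat_lit 78) (nat_lit 608) (nat_lit 0) (XT.lf (nat_lit 0) (nat_lit 6864345139) (nat_lit 760) (nat_lit 3465325735) (nat_lit 76) (nat_lit 6289037386) (nat_lit 234) (nat_lit 5) (nat_lit 244) (nat_lit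 5) (nat_lit 235) (nat_lit 5) (nat_lit 471) (nat_lit 424) (nat_lit 245)) (XT.lf (nat_lit 0) (nat_lit 4653282623) (nat_lit 608) (nat_lit 4377582436) (nat_lit 684) (nat_lit 7784580963) (nat_lit 226) (nat_lit 5) (nat_lit 234) (nat_lit 5) (nat_lit 235) (nat_lit 5) (nat_lit 472) (nat_lit 424) (nat_lit 244))))) (XT.nd (nat_lit 234) (nat_lit 1292) (nat_lit 0) (XT.nd (nat_lit 78) (nat_lit 684) (nat_lit 0) (XT.lf (nat_lit 0) (nat_lit 11267688335) (nat_lit 684) (nat_lit 4053904630) (nat_lit 76) (nat_lit 1693992686) (nat_lit 226) (nat_lit 5) (nat_lit 235) (nat_lit 5) (nat_lit 227) (nat_lit 5) (nat_lit 473) (nat_lit 424) (nat_lit 243)) (XT.nd (nat_lit 78) (nat_lit 0) (nat_lit 0) (XT.lf (nat_lit 0) (nat_lit 4234895521) (nat_lit 684) (nat_lit 9363553778) (nat_lit 760) (nat_lit 3620301191) (nat_lit 217) (nat_lit 5) (nat_lit 226) (nat_lit 5) (nat_lit 227) (nat_lit 5) (nat_lit 474) (nat_lit 424) (nat_lit 242)) (XT.lf (nat_lit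 0) (nat_lit 12736302604) (nat_lit 684) (nat_lit 3259531693) (nat_lit 760) (nat_lit 1429750466) (nat_lit 217) (nat_lit 5) (nat_lit 226) (nat_lit 5) (nat_lit 227) (nat_lit 5) (nat_lit 475) (nat_lit 424) (nat_lit 241)))) (XT.nd (nat_lit 156) (nat_lit 608) (nat_lit 0) (XT.nd (nat_lit 78) (nat_lit 0) (nat_lit 0) (XT.lf (nat_lit 0) (nat_lit 831127953) (nat_lit 684) (nat_lit 13847721659) (nat_lit 76) (nat_lit 2956866312) (nat_lit 208) (nat_lit 5) (nat_lit 217) (nat_lit 5) (nat_lit 209) (nat_lit 5) (nat_lit 476) (nat_lit 424) (nat_lit 240)) (XT.lf (nat_lit 0) (nat_lit 3164333886) (nat_lit 684) (nat_lit 5390451899) (nat_lit 76) (nat_lit 9294155775) (nat_lit 208) (nat_lit 5) (nat_lit 217) (nat_lit 5) (nat_lit 209) (nat_lit 5) (nat_lit 477) (nat_lit 424) (nat_lit 239))) (XT.nd (nat_lit 78) (nat_lit 0) (nat_lit 0) (XT.lf (nat_lit 0) (nat_lit 3270872143) (nat_lit 608) (nat_lit 2287680385) (nat_lit 684) (nat_lit 12507598042)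 (nat_lit 200) (nat_lit 5) (nat_lit 208) (nat_lit 5) (nat_lit 209) (nat_lit 5) (nat_lit 478) (nat_lit 424) (nat_lit 238)) (XT.lf (nat_lit 0) (nat_lit 8056906839) (nat_lit 684) (nat_lit 6143450159) (nat_lit 76) (nat_lit 4086227456) (nat_lit 200) (nat_lit 5) (nat_lit 209) (nat_lit 5) (nat_lit 201) (nat_lit 5) (nat_lit 479) (nat_lit 424) (nat_lit 237)))))) (XT.nd (nat_lit 546) (nat_lit 1520) (nat_lit 0) (XT.nd (nat_lit 234) (nat_lit 1140) (nat_lit 0) (XT.nd (nat_lit 78) (nat_lit 608) (nat_lit 0) (XT.lf (nat_lit 0) (nat_lit 2693679734) (nat_lit 532) (nat_lit 7937509524) (nat_lit 608) (nat_lit 7879724144) (nat_lit 193) (nat_lit 5) (nat_lit 200) (nat_lit 5) (nat_lit 201) (nat_lit 5) (nat_lit 480) (nat_lit 424) (nat_lit 236)) (XT.nd (nat_lit 78) (nat_lit 608) (nat_lit 0) (XT.lf (nat_lit 0) (nat_lit 11782967537) (nat_lit 532) (nat_lit 1508617151) (nat_lit 608) (nat_lit 5447457192) (nat_lit 193) (nat_lit 5) (nat_lit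 200) (nat_lit 5) (nat_lit 201) (nat_lit 5) (nat_lit 481) (nat_lit 424) (nat_lit 235)) (XT.lf (nat_lit 0) (nat_lit 2068827329) (nat_lit 608) (nat_lit 13976096322) (nat_lit 684) (nat_lit 2926019953) (nat_lit 185) (nat_lit 5) (nat_lit 193) (nat_lit 5) (nat_lit 194) (nat_lit 5) (nat_lit 482) (nat_lit 424) (nat_lit 234)))) (XT.nd (nat_lit 156) (nat_lit 532) (nat_lit 0) (XT.nd (nat_lit 78) (nat_lit 608) (nat_lit 0) (XT.lf (nat_lit 0) (nat_lit 11350613000) (nat_lit 608) (nat_lit 7552919827) (nat_lit 684) (nat_lit 302951753) (nat_lit 185) (nat_lit 5) (nat_lit 193) (nat_lit 5) (nat_lit 194) (nat_lit 5) (nat_lit 483) (nat_lit 424) (nat_lit 233)) (XT.lf (nat_lit 0) (nat_lit 1366091854) (nat_lit 532) (nat_lit 977916978) (nat_lit 608) (nat_lit 17102373576) (nat_lit 177) (nat_lit 5) (nat_lit 184) (nat_lit 5) (nat_lit 185) (nat_lit 5) (nat_lit 484) (nat_lit 424) (nat_lit 232))) (XT.nd (nat_lit 78) (nat_lit 532) (nat_lit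 0) (XT.lf (nat_lit 0) (nat_lit 5123859017) (nat_lit 608) (nat_lit 8858378373) (nat_lit 76) (nat_lit 5707125595) (nat_lit 177) (nat_lit 5) (nat_lit 185) (nat_lit 5) (nat_lit 178) (nat_lit 5) (nat_lit 485) (nat_lit 424) (nat_lit 231)) (XT.lf (nat_lit 0) (nat_lit 540954933) (nat_lit 532) (nat_lit 7422205649) (nat_lit 608) (nat_lit 11973970385) (nat_lit 170) (nat_lit 5) (nat_lit 177) (nat_lit 5) (nat_lit 178) (nat_lit 5) (nat_lit 486) (nat_lit 424) (nat_lit 230))))) (XT.nd (nat_lit 234) (nat_lit 1064) (nat_lit 0) (XT.nd (nat_lit 78) (nat_lit 456) (nat_lit 0) (XT.lf (nat_lit 0) (nat_lit 10240767222) (nat_lit 532) (nat_lit 671862236) (nat_lit 608) (nat_lit 9276162012) (nat_lit 170) (nat_lit 5) (nat_lit 177) (nat_lit 5) (nat_lit 178) (nat_lit 5) (nat_lit 487) (nat_lit 424) (nat_lit 229)) (XT.nd (nat_lit 78) (nat_lit 456) (nat_lit 0) (XT.lf (nat_lit 0) (nat_lit 13955475888) (nat_lit 608) (nat_lit 358802001) (nat_lit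 76) (nat_lit 6130524221) (nat_lit 170) (nat_lit 5) (nat_lit 178) (nat_lit 5) (nat_lit 171) (nat_lit 5) (nat_lit 488) (nat_lit 424) (nat_lit 228)) (XT.lf (nat_lit 0) (nat_lit 9535411466) (nat_lit 456) (nat_lit 7584290249) (nat_lit 532) (nat_lit 3585025398) (nat_lit 164) (nat_lit 5) (nat_lit 170) (nat_lit 5) (nat_lit 171) (nat_lit 5) (nat_lit 489) (nat_lit 424) (nat_lit 227)))) (XT.nd (nat_lit 156) (nat_lit 456) (nat_lit 0) (XT.nd (nat_lit 78) (nat_lit 608) (nat_lit 0) (XT.lf (nat_lit 0) (nat_lit 19625019119) (nat_lit 456) (nat_lit 718830234) (nat_lit 532) (nat_lit 626073027) (nat_lit 164) (nat_lit 5) (nat_lit 170) (nat_lit 5) (nat_lit 171) (nat_lit 5) (nat_lit 490) (nat_lit 424) (nat_lit 226)) (XT.lf (nat_lit 0) (nat_lit 2453184808) (nat_lit 608) (nat_lit 12512186634) (nat_lit 76) (nat_lit 6272893855) (nat_lit 156) (nat_lit 5) (nat_lit 164) (nat_lit 5) (nat_lit 157) (nat_lit 5) (nat_lit 491) (nat_lit 424)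 (nat_lit 225))) (XT.nd (nat_lit 78) (nat_lit 456) (nat_lit 0) (XT.lf (nat_lit 0) (nat_lit 5593852918) (nat_lit 608) (nat_lit 2511398405) (nat_lit 76) (nat_lit 13406481068) (nat_lit 156) (nat_lit 5) (nat_lit 164) (nat_lit 5) (nat_lit 157) (nat_lit 5) (nat_lit 492) (nat_lit 424) (nat_lit 224)) (XT.lf (nat_lit 0) (nat_lit 7784293917) (nat_lit 456) (nat_lit 1058047111) (nat_lit 532) (nat_lit 12947431832) (nat_lit 150) (nat_lit 5) (nat_lit 156) (nat_lit 5) (nat_lit 157) (nat_lit 5) (nat_lit 493) (nat_lit 424) (nat_lit 223))))))) (XT.nd (nat_lit 1092) (nat_lit 1824) (nat_lit 0) (XT.nd (nat_lit 546) (nat_lit 1216) (nat_lit 0) (XT.nd (nat_lit 234) (nat_lit 988) (nat_lit 0) (XT.nd (nat_lit 78) (nat_lit 456) (nat_lit 0) (XT.lf (nat_lit 0) (nat_lit 12207080946) (nat_lit 532) (nat_lit 3800265901) (nat_lit 76) (nat_lit 6065005736) (nat_lit 150) (nat_lit 5) (nat_lit 157) (nat_lit 5) (nat_lit 151) (nat_lit 5) (nat_lit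 494) (nat_lit 424) (nat_lit 222)) (XT.nd (nat_lit 78) (nat_lit 0) (nat_lit 0) (XT.lf (nat_lit 0) (nat_lit 6682570642) (nat_lit 456) (nat_lit 9001564093) (nat_lit 532) (nat_lit 6675552787) (nat_lit 144) (nat_lit 5) (nat_lit 150) (nat_lit 5) (nat_lit 151) (nat_lit 5) (nat_lit 495) (nat_lit 424) (nat_lit 221)) (XT.lf (nat_lit 0) (nat_lit 17419507403) (nat_lit 456) (nat_lit 1831407941) (nat_lit 532) (nat_lit 3401454028) (nat_lit 144) (nat_lit 5) (nat_lit 150) (nat_lit 5) (nat_lit 151) (nat_lit 5) (nat_lit 496) (nat_lit 424) (nat_lit 220)))) (XT.nd (nat_lit 156) (nat_lit 456) (nat_lit 0) (XT.nd (nat_lit 78) (nat_lit 0) (nat_lit 0) (XT.lf (nat_lit 0) (nat_lit 5119923) (nat_lit 532) (nat_lit 17500505307) (nat_lit 76) (nat_lit 5443967802) (nat_lit 137) (nat_lit 5) (nat_lit 144) (nat_lit 5) (nat_lit 138) (nat_lit 5) (nat_lit 497) (nat_lit 424) (nat_lit 219)) (XT.lf (nat_lit 0) (nat_lit 3476594971) (nat_lit 532)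 (nat_lit 6878391915) (nat_lit 76) (nat_lit 12896482005) (nat_lit 137) (nat_lit 5) (nat_lit 144) (nat_lit 5) (nat_lit 138) (nat_lit 5) (nat_lit 498) (nat_lit 424) (nat_lit 218))) (XT.nd (nat_lit 78) (nat_lit 0) (nat_lit 0) (XT.lf (nat_lit 0) (nat_lit 4001730467) (nat_lit 456) (nat_lit 3036649147) (nat_lit 532) (nat_lit 16520588677) (nat_lit 131) (nat_lit 5) (nat_lit 137) (nat_lit 5) (nat_lit 138) (nat_lit 5) (nat_lit 499) (nat_lit 424) (nat_lit 217)) (XT.lf (nat_lit 0) (nat_lit 10741554917) (nat_lit 532) (nat_lit 8715020192) (nat_lit 76) (nat_lit 4414643028) (nat_lit 131) (nat_lit 5) (nat_lit 138) (nat_lit 5) (nat_lit 132) (nat_lit 5) (nat_lit 500) (nat_lit 424) (nat_lit 216))))) (XT.nd (nat_lit 234) (nat_lit 456) (nat_lit 0) (XT.nd (nat_lit 78) (nat_lit 380) (nat_lit 0) (XT.lf (nat_lit 0) (nat_lit 2347897353) (nat_lit 380) (nat_lit 12201291701) (nat_lit 456) (nat_lit 9639919504) (nat_lit 126) (nat_lit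 5) (nat_lit 131) (nat_lit 5) (nat_lit 132) (nat_lit 5) (nat_lit 501) (nat_lit 424) (nat_lit 215)) (XT.nd (nat_lit 78) (nat_lit 380) (nat_lit 0) (XT.lf (nat_lit 0) (nat_lit 13743425282) (nat_lit 380) (nat_lit 4743127130) (nat_lit 456) (nat_lit 6025736265) (nat_lit 126) (nat_lit 5) (nat_lit 131) (nat_lit 5) (nat_lit 132) (nat_lit 5) (nat_lit 502) (nat_lit 424) (nat_lit 214)) (XT.lf (nat_lit 0) (nat_lit 506237504) (nat_lit 380) (nat_lit 22013487064) (nat_lit 456) (nat_lit 2321869949) (nat_lit 121) (nat_lit 5) (nat_lit 126) (nat_lit 5) (nat_lit 127) (nat_lit 5) (nat_lit 503) (nat_lit 424) (nat_lit 213)))) (XT.nd (nat_lit 156) (nat_lit 380) (nat_lit 0) (XT.nd (nat_lit 78) (nat_lit 0) (nat_lit 0) (XT.lf (nat_lit 0) (nat_lit 1536326444) (nat_lit 456) (nat_lit 13071329519) (nat_lit 76) (nat_lit 10567657667) (nat_lit 120) (nat_lit 5) (nat_lit 126) (nat_lit 5) (nat_lit 121) (nat_lit 5) (nat_lit 504) (nat_lit 424)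 (nat_lit 212)) (XT.lf (nat_lit 0) (nat_lit 5435914875) (nat_lit 456) (nat_lit 1604025284) (nat_lit 76) (nat_lit 18475556814) (nat_lit 120) (nat_lit 5) (nat_lit 126) (nat_lit 5) (nat_lit 121) (nat_lit 5) (nat_lit 505) (nat_lit 424) (nat_lit 211))) (XT.nd (nat_lit 78) (nat_lit 0) (nat_lit 0) (XT.lf (nat_lit 0) (nat_lit 9480069051) (nat_lit 456) (nat_lit 15645921819) (nat_lit 76) (nat_lit 735164729) (nat_lit 115) (nat_lit 5) (nat_lit 121) (nat_lit 5) (nat_lit 116) (nat_lit 5) (nat_lit 506) (nat_lit 424) (nat_lit 210)) (XT.lf (nat_lit 0) (nat_lit 13657981252) (nat_lit 456) (nat_lit 3974121212) (nat_lit 76) (nat_lit 8580570469) (nat_lit 115) (nat_lit 5) (nat_lit 121) (nat_lit 5) (nat_lit 116) (nat_lit 5) (nat_lit 507) (nat_lit 424) (nat_lit 209)))))) (XT.nd (nat_lit 546) (nat_lit 684) (nat_lit 0) (XT.nd (nat_lit 234) (nat_lit 456) (nat_lit 0) (XT.nd (nat_lit 78) (nat_lit 304) (nat_lit 0) (XT.lf (nat_lit 0)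 (nat_lit 8030022062) (nat_lit 380) (nat_lit 9937073398) (nat_lit 456) (nat_lit 8603175255) (nat_lit 110) (nat_lit 5) (nat_lit 115) (nat_lit 5) (nat_lit 116) (nat_lit 5) (nat_lit 508) (nat_lit 424) (nat_lit 208)) (XT.nd (nat_lit 78) (nat_lit 304) (nat_lit 0) (XT.lf (nat_lit 0) (nat_lit 20321752094) (nat_lit 380) (nat_lit 2062862589) (nat_lit 456) (nat_lit 4549964231) (nat_lit 110) (nat_lit 5) (nat_lit 115) (nat_lit 5) (nat_lit 116) (nat_lit 5) (nat_lit 509) (nat_lit 424) (nat_lit 207)) (XT.lf (nat_lit 0) (nat_lit 5581269845) (nat_lit 304) (nat_lit 21379834602) (nat_lit 380) (nat_lit 343659287) (nat_lit 106) (nat_lit 5) (nat_lit 110) (nat_lit 5) (nat_lit 111) (nat_lit 5) (nat_lit 510) (nat_lit 424) (nat_lit 206)))) (XT.nd (nat_lit 156) (nat_lit 0) (nat_lit 0) (XT.nd (nat_lit 78) (nat_lit 380) (nat_lit 0) (XT.lf (nat_lit 0) (nat_lit 3948982659) (nat_lit 380) (nat_lit 9618496388) (nat_lit 76) (nat_lit 14113283981)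 (nat_lit 105) (nat_lit 5) (nat_lit 110) (nat_lit 5) (nat_lit 106) (nat_lit 5) (nat_lit 511) (nat_lit 424) (nat_lit 205)) (XT.lf (nat_lit 0) (nat_lit 2756259879) (nat_lit 380) (nat_lit 5580243932) (nat_lit 456) (nat_lit 19727463201) (nat_lit 100) (nat_lit 5) (nat_lit 105) (nat_lit 5) (nat_lit 106) (nat_lit 5) (nat_lit 512) (nat_lit 424) (nat_lit 204))) (XT.nd (nat_lit 78) (nat_lit 0) (nat_lit 0) (XT.lf (nat_lit 0) (nat_lit 12889172208) (nat_lit 456) (nat_lit 12967991884) (nat_lit 76) (nat_lit 2596125689) (nat_lit 100) (nat_lit 5) (nat_lit 106) (nat_lit 5) (nat_lit 101) (nat_lit 5) (nat_lit 513) (nat_lit 424) (nat_lit 203)) (XT.lf (nat_lit 0) (nat_lit 17565691627) (nat_lit 456) (nat_lit 424562913) (nat_lit 76) (nat_lit 10859491102) (nat_lit 100) (nat_lit 5) (nat_lit 106) (nat_lit 5) (nat_lit 101) (nat_lit 5) (nat_lit 514) (nat_lit 424) (nat_lit 202))))) (XT.nd (nat_lit 52338) (nat_lit 0) (nat_lit 22192)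 (XT.nd (nat_lit 78) (nat_lit 380) (nat_lit 0) (XT.lf (nat_lit 0) (nat_lit 12528036874) (nat_lit 304) (nat_lit 9884968805) (nat_lit 380) (nat_lit 6839582196) (nat_lit 96) (nat_lit 5) (nat_lit 100) (nat_lit 5) (nat_lit 101) (nat_lit 5) (nat_lit 515) (nat_lit 424) (nat_lit 201)) (XT.nd (nat_lit 78) (nat_lit 380) (nat_lit 0) (XT.lf (nat_lit 0) (nat_lit 25739478007) (nat_lit 304) (nat_lit 1616602155) (nat_lit 380) (nat_lit 2307432998) (nat_lit 96) (nat_lit 5) (nat_lit 100) (nat_lit 5) (nat_lit 101) (nat_lit 5) (nat_lit 516) (nat_lit 424) (nat_lit 200)) (XT.lf (nat_lit 0) (nat_lit 2385698300) (nat_lit 380) (nat_lit 20893343061) (nat_lit 76) (nat_lit 6801303216) (nat_lit 91) (nat_lit 5) (nat_lit 96) (nat_lit 5) (nat_lit 92) (nat_lit 5) (nat_lit 517) (nat_lit 424) (nat_lit 199)))) (XT.nd (nat_lit 156) (nat_lit 0) (nat_lit 76) (XT.nd (nat_lit 78) (nat_lit 0) (nat_lit 0) (XT.lf (nat_lit 0) (nat_lit 1389591461)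 (nat_lit 1596) (nat_lit 1911260790) (nat_lit 1596) (nat_lit 1911260790) (nat_lit 383) (nat_lit 3) (nat_lit 404) (nat_lit 3) (nat_lit 404) (nat_lit 5) (nat_lit 425) (nat_lit 425) (nat_lit 290)) (XT.lf (nat_lit 76) (nat_lit 814980531) (nat_lit 0) (nat_lit 2603498609) (nat_lit 1596) (nat_lit 7097098179) (nat_lit 384) (nat_lit 5) (nat_lit 383) (nat_lit 3) (nat_lit 404) (nat_lit 5) (nat_lit 426) (nat_lit 425) (nat_lit 289))) (XT.nd (nat_lit 78) (nat_lit 0) (nat_lit 0) (XT.lf (nat_lit 0) (nat_lit 4090052417) (nat_lit 1520) (nat_lit 5029551773) (nat_lit 1596) (nat_lit 1488778902) (nat_lit 384) (nat_lit 5) (nat_lit 404) (nat_lit 5) (nat_lit 405) (nat_lit 5) (nat_lit 427) (nat_lit 425) (nat_lit 288)) (XT.lf (nat_lit 0) (nat_lit 4776706307) (nat_lit 1520) (nat_lit 290771459) (nat_lit 1596) (nat_lit 5635551230) (nat_lit 384) (nat_lit 5) (nat_lit 404) (nat_lit 5) (nat_lit 405) (nat_lit 5) (nat_lit 428) (nat_lit 425)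 (nat_lit 287))))))))
noncomputable def xc202 : XT := (XT.nd (nat_lit 2106) (nat_lit 9272) (nat_lit 0) (XT.nd (nat_lit 1014) (nat_lit 3952) (nat_lit 0) (XT.nd (nat_lit 468) (nat_lit 1292) (nat_lit 0) (XT.nd (nat_lit 234) (nat_lit 0) (nat_lit 152) (XT.nd (nat_lit 78) (nat_lit 0) (nat_lit 76) (XT.lf (nat_lit 76) (nat_lit 4594767338) (nat_lit 0) (nat_lit 896871385) (nat_lit 1596) (nat_lit 5307654849) (nat_lit 385) (nat_lit 5) (nat_lit 384) (nat_lit 5) (nat_lit 405) (nat_lit 5) (nat_lit 429) (nat_lit 425) (nat_lit 286)) (XT.nd (nat_lit 78) (nat_lit 0) (nat_lit 0) (XT.lf (nat_lit 0) (nat_lit 6229634542) (nat_lit 1520) (nat_lit 1345881033) (nat_lit 1596) (nat_lit 3321808907) (nat_lit 385) (nat_lit 5) (nat_lit 405) (nat_lit 5) (nat_lit 406) (nat_lit 5) (nat_lit 430) (nat_lit 425) (nat_lit 285)) (XT.lf (nat_lit 76) (nat_lit 3643363975) (nat_lit 0) (nat_lit 3353918802) (nat_lit 1596) (nat_lit 3999751398) (nat_lit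 386) (nat_lit 5) (nat_lit 385) (nat_lit 5) (nat_lit 406) (nat_lit 5) (nat_lit 431) (nat_lit 425) (nat_lit 284)))) (XT.nd (nat_lit 78) (nat_lit 0) (nat_lit 0) (XT.lf (nat_lit 0) (nat_lit 7781128547) (nat_lit 1520) (nat_lit 2362867583) (nat_lit 1596) (nat_lit 954740744) (nat_lit 386) (nat_lit 5) (nat_lit 406) (nat_lit 5) (nat_lit 407) (nat_lit 5) (nat_lit 432) (nat_lit 425) (nat_lit 283)) (XT.nd (nat_lit 78) (nat_lit 0) (nat_lit 0) (XT.lf (nat_lit 76) (nat_lit 2732845915) (nat_lit 0) (nat_lit 5873614518) (nat_lit 1596) (nat_lit 2595512403) (nat_lit 387) (nat_lit 5) (nat_lit 386) (nat_lit 5) (nat_lit 407) (nat_lit 5) (nat_lit 433) (nat_lit 425) (nat_lit 282)) (XT.lf (nat_lit 76) (nat_lit 7954023576) (nat_lit 0) (nat_lit 1496208148) (nat_lit 1596) (nat_lit 1857018232) (nat_lit 387) (nat_lit 5) (nat_lit 386) (nat_lit 5) (nat_lit 407) (nat_lit 5) (nat_lit 434) (nat_lit 425) (nat_lit 281))))) (XT.nd (nat_lit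 234) (nat_lit 0) (nat_lit 0) (XT.nd (nat_lit 78) (nat_lit 1520) (nat_lit 0) (XT.lf (nat_lit 76) (nat_lit 1861495354) (nat_lit 0) (nat_lit 8467128559) (nat_lit 1596) (nat_lit 1085668591) (nat_lit 388) (nat_lit 5) (nat_lit 387) (nat_lit 5) (nat_lit 408) (nat_lit 5) (nat_lit 435) (nat_lit 425) (nat_lit 280)) (XT.nd (nat_lit 78) (nat_lit 1520) (nat_lit 0) (XT.lf (nat_lit 76) (nat_lit 7207346268) (nat_lit 0) (nat_lit 4036178683) (nat_lit 1596) (nat_lit 279586640) (nat_lit 388) (nat_lit 5) (nat_lit 387) (nat_lit 5) (nat_lit 408) (nat_lit 5) (nat_lit 436) (nat_lit 425) (nat_lit 279)) (XT.lf (nat_lit 0) (nat_lit 532164232) (nat_lit 1596) (nat_lit 10610060532) (nat_lit 1672) (nat_lit 491892501) (nat_lit 367) (nat_lit 5) (nat_lit 388) (nat_lit 5) (nat_lit 389) (nat_lit 5) (nat_lit 437) (nat_lit 425) (nat_lit 278)))) (XT.nd (nat_lit 156) (nat_lit 0) (nat_lit 76) (XT.nd (nat_lit 78) (nat_lit 0) (nat_lit 0) (XT.lf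 (nat_lit 0) (nat_lit 1399283217) (nat_lit 1596) (nat_lit 5255207824) (nat_lit 1672) (nat_lit 5091971185) (nat_lit 367) (nat_lit 5) (nat_lit 388) (nat_lit 5) (nat_lit 389) (nat_lit 5) (nat_lit 438) (nat_lit 425) (nat_lit 277)) (XT.lf (nat_lit 76) (nat_lit 200700100) (nat_lit 0) (nat_lit 2071593391) (nat_lit 1672) (nat_lit 9589003019) (nat_lit 368) (nat_lit 5) (nat_lit 367) (nat_lit 5) (nat_lit 389) (nat_lit 5) (nat_lit 439) (nat_lit 425) (nat_lit 276))) (XT.nd (nat_lit 78) (nat_lit 0) (nat_lit 0) (XT.lf (nat_lit 0) (nat_lit 3202628451) (nat_lit 1596) (nat_lit 6166800899) (nat_lit 1672) (nat_lit 2608213980) (nat_lit 368) (nat_lit 5) (nat_lit 389) (nat_lit 5) (nat_lit 390) (nat_lit 5) (nat_lit 440) (nat_lit 425) (nat_lit 275)) (XT.lf (nat_lit 0) (nat_lit 4153000611) (nat_lit 1596) (nat_lit 585580922) (nat_lit 1672) (nat_lit 7357719824) (nat_lit 368) (nat_lit 5) (nat_lit 389) (nat_lit 5) (nat_lit 390) (nat_lit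 5) (nat_lit 441) (nat_lit 425) (nat_lit 274)))))) (XT.nd (nat_lit 546) (nat_lit 4104) (nat_lit 0) (XT.nd (nat_lit 234) (nat_lit 0) (nat_lit 76) (XT.nd (nat_lit 78) (nat_lit 0) (nat_lit 0) (XT.lf (nat_lit 0) (nat_lit 5144023239) (nat_lit 1596) (nat_lit 7050600419) (nat_lit 1672) (nat_lit 22288655) (nat_lit 369) (nat_lit 5) (nat_lit 390) (nat_lit 5) (nat_lit 391) (nat_lit 5) (nat_lit 442) (nat_lit 425) (nat_lit 273)) (XT.nd (nat_lit 78) (nat_lit 0) (nat_lit 0) (XT.lf (nat_lit 0) (nat_lit 6178358368) (nat_lit 1596) (nat_lit 1338860267) (nat_lit 1672) (nat_lit 4822259393) (nat_lit 369) (nat_lit 5) (nat_lit 390) (nat_lit 5) (nat_lit 391) (nat_lit 5) (nat_lit 443) (nat_lit 425) (nat_lit 272)) (XT.lf (nat_lit 76) (nat_lit 4538027535) (nat_lit 0) (nat_lit 2713203934) (nat_lit 1672) (nat_lit 5212918702) (nat_lit 370) (nat_lit 5) (nat_lit 369) (nat_lit 5) (nat_lit 391) (nat_lit 5) (nat_lit 444) (nat_lit 425) (nat_lit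 271)))) (XT.nd (nat_lit 156) (nat_lit 0) (nat_lit 0) (XT.nd (nat_lit 78) (nat_lit 0) (nat_lit 0) (XT.lf (nat_lit 0) (nat_lit 8357383106) (nat_lit 1596) (nat_lit 2063599699) (nat_lit 1672) (nat_lit 2170108429) (nat_lit 370) (nat_lit 5) (nat_lit 391) (nat_lit 5) (nat_lit 392) (nat_lit 5) (nat_lit 445) (nat_lit 425) (nat_lit 270)) (XT.lf (nat_lit 76) (nat_lit 3941261414) (nat_lit 0) (nat_lit 5576756206) (nat_lit 1672) (nat_lit 3201917970) (nat_lit 371) (nat_lit 5) (nat_lit 370) (nat_lit 5) (nat_lit 392) (nat_lit 5) (nat_lit 446) (nat_lit 425) (nat_lit 269))) (XT.nd (nat_lit 78) (nat_lit 0) (nat_lit 76) (XT.lf (nat_lit 76) (nat_lit 10085614797) (nat_lit 0) (nat_lit 619064061) (nat_lit 1672) (nat_lit 2146633132) (nat_lit 371) (nat_lit 5) (nat_lit 370) (nat_lit 5) (nat_lit 392) (nat_lit 5) (nat_lit 447) (nat_lit 425) (nat_lit 268)) (XT.lf (nat_lit 76) (nat_lit 3374328632) (nat_lit 0) (nat_lit 8580664271) (nat_lit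 1672) (nat_lit 1029535838) (nat_lit 372) (nat_lit 5) (nat_lit 371) (nat_lit 5) (nat_lit 393) (nat_lit 5) (nat_lit 448) (nat_lit 425) (nat_lit 267))))) (XT.nd (nat_lit 234) (nat_lit 2584) (nat_lit 0) (XT.nd (nat_lit 78) (nat_lit 0) (nat_lit 76) (XT.lf (nat_lit 0) (nat_lit 120516770) (nat_lit 1672) (nat_lit 3459079163) (nat_lit 1748) (nat_lit 9540569306) (nat_lit 349) (nat_lit 5) (nat_lit 371) (nat_lit 5) (nat_lit 372) (nat_lit 5) (nat_lit 449) (nat_lit 425) (nat_lit 266)) (XT.nd (nat_lit 78) (nat_lit 0) (nat_lit 0) (XT.lf (nat_lit 0) (nat_lit 1297758130) (nat_lit 1672) (nat_lit 10431414158) (nat_lit 76) (nat_lit 1528857177) (nat_lit 350) (nat_lit 5) (nat_lit 372) (nat_lit 5) (nat_lit 351) (nat_lit 5) (nat_lit 450) (nat_lit 425) (nat_lit 265)) (XT.lf (nat_lit 0) (nat_lit 2535262237) (nat_lit 1672) (nat_lit 4145884682) (nat_lit 76) (nat_lit 6716780059) (nat_lit 350) (nat_lit 5) (nat_lit 372) (nat_lit 5)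 (nat_lit 351) (nat_lit 5) (nat_lit 451) (nat_lit 425) (nat_lit 264)))) (XT.nd (nat_lit 156) (nat_lit 988) (nat_lit 0) (XT.nd (nat_lit 78) (nat_lit 0) (nat_lit 0) (XT.lf (nat_lit 0) (nat_lit 2286767645) (nat_lit 1672) (nat_lit 1515445033) (nat_lit 1748) (nat_lit 9738325995) (nat_lit 328) (nat_lit 5) (nat_lit 350) (nat_lit 5) (nat_lit 351) (nat_lit 5) (nat_lit 452) (nat_lit 425) (nat_lit 263)) (XT.lf (nat_lit 0) (nat_lit 5136880498) (nat_lit 1748) (nat_lit 4814471928) (nat_lit 76) (nat_lit 3733812566) (nat_lit 328) (nat_lit 5) (nat_lit 351) (nat_lit 5) (nat_lit 329) (nat_lit 5) (nat_lit 453) (nat_lit 425) (nat_lit 262))) (XT.nd (nat_lit 78) (nat_lit 0) (nat_lit 0) (XT.lf (nat_lit 0) (nat_lit 1758063423) (nat_lit 988) (nat_lit 4751827238) (nat_lit 1064) (nat_lit 7322569959) (nat_lit 315) (nat_lit 5) (nat_lit 328) (nat_lit 5) (nat_lit 329) (nat_lit 5) (nat_lit 454) (nat_lit 425) (nat_lit 261)) (XT.lf (nat_lit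 0) (nat_lit 7936807341) (nat_lit 1064) (nat_lit 5467265908) (nat_lit 76) (nat_lit 578109555) (nat_lit 315) (nat_lit 5) (nat_lit 329) (nat_lit 5) (nat_lit 316) (nat_lit 5) (nat_lit 455) (nat_lit 425) (nat_lit 260))))))) (XT.nd (nat_lit 1014) (nat_lit 4560) (nat_lit 0) (XT.nd (nat_lit 468) (nat_lit 2204) (nat_lit 0) (XT.nd (nat_lit 234) (nat_lit 836) (nat_lit 0) (XT.nd (nat_lit 78) (nat_lit 836) (nat_lit 0) (XT.lf (nat_lit 0) (nat_lit 1248357529) (nat_lit 836) (nat_lit 8174011189) (nat_lit 912) (nat_lit 4711937971) (nat_lit 304) (nat_lit 5) (nat_lit 315) (nat_lit 5) (nat_lit 316) (nat_lit 5) (nat_lit 456) (nat_lit 425) (nat_lit 259)) (XT.nd (nat_lit 78) (nat_lit 836) (nat_lit 0) (XT.lf (nat_lit 0) (nat_lit 8163906086) (nat_lit 836) (nat_lit 2801086086) (nat_lit 912) (nat_lit 3323943063) (nat_lit 304) (nat_lit 5) (nat_lit 315) (nat_lit 5) (nat_lit 316) (nat_lit 5) (nat_lit 457) (nat_lit 425) (nat_lit 258))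 (XT.lf (nat_lit 0) (nat_lit 755088191) (nat_lit 836) (nat_lit 11796529262) (nat_lit 912) (nat_lit 1894784930) (nat_lit 293) (nat_lit 5) (nat_lit 304) (nat_lit 5) (nat_lit 305) (nat_lit 5) (nat_lit 458) (nat_lit 425) (nat_lit 257)))) (XT.nd (nat_lit 78) (nat_lit 836) (nat_lit 0) (XT.lf (nat_lit 0) (nat_lit 7828565197) (nat_lit 836) (nat_lit 6391915841) (nat_lit 912) (nat_lit 385536562) (nat_lit 293) (nat_lit 5) (nat_lit 304) (nat_lit 5) (nat_lit 305) (nat_lit 5) (nat_lit 459) (nat_lit 425) (nat_lit 256)) (XT.nd (nat_lit 78) (nat_lit 0) (nat_lit 0) (XT.lf (nat_lit 0) (nat_lit 262200411) (nat_lit 760) (nat_lit 869350411) (nat_lit 836) (nat_lit 13637277209) (nat_lit 282) (nat_lit 5) (nat_lit 292) (nat_lit 5) (nat_lit 293) (nat_lit 5) (nat_lit 460) (nat_lit 425) (nat_lit 255)) (XT.lf (nat_lit 0) (nat_lit 2741741143) (nat_lit 836) (nat_lit 7441816522) (nat_lit 76) (nat_lit 4749935900) (nat_lit 282) (nat_lit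 5) (nat_lit 293) (nat_lit 5) (nat_lit 283) (nat_lit 5) (nat_lit 461) (nat_lit 425) (nat_lit 254))))) (XT.nd (nat_lit 234) (nat_lit 1444) (nat_lit 0) (XT.nd (nat_lit 78) (nat_lit 760) (nat_lit 0) (XT.lf (nat_lit 0) (nat_lit 4381273288) (nat_lit 836) (nat_lit 249863150) (nat_lit 76) (nat_lit 10470381378) (nat_lit 282) (nat_lit 5) (nat_lit 293) (nat_lit 5) (nat_lit 283) (nat_lit 5) (nat_lit 462) (nat_lit 425) (nat_lit 253)) (XT.nd (nat_lit 78) (nat_lit 0) (nat_lit 0) (XT.lf (nat_lit 0) (nat_lit 6098721990) (nat_lit 836) (nat_lit 8107404531) (nat_lit 76) (nat_lit 1065881523) (nat_lit 272) (nat_lit 5) (nat_lit 283) (nat_lit 5) (nat_lit 273) (nat_lit 5) (nat_lit 463) (nat_lit 425) (nat_lit 252)) (XT.lf (nat_lit 0) (nat_lit 7874540631) (nat_lit 836) (nat_lit 754162457) (nat_lit 76) (nat_lit 6816732421) (nat_lit 272) (nat_lit 5) (nat_lit 283) (nat_lit 5) (nat_lit 273) (nat_lit 5) (nat_lit 464) (nat_lit 425) (nat_lit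 251)))) (XT.nd (nat_lit 156) (nat_lit 760) (nat_lit 0) (XT.nd (nat_lit 78) (nat_lit 0) (nat_lit 0) (XT.lf (nat_lit 0) (nat_lit 6827498620) (nat_lit 684) (nat_lit 2894532508) (nat_lit 760) (nat_lit 5899584982) (nat_lit 263) (nat_lit 5) (nat_lit 272) (nat_lit 5) (nat_lit 273) (nat_lit 5) (nat_lit 465) (nat_lit 425) (nat_lit 250)) (XT.lf (nat_lit 0) (nat_lit 11622681006) (nat_lit 760) (nat_lit 1257722486) (nat_lit 76) (nat_lit 2920600187) (nat_lit 263) (nat_lit 5) (nat_lit 273) (nat_lit 5) (nat_lit 264) (nat_lit 5) (nat_lit 466) (nat_lit 425) (nat_lit 249))) (XT.nd (nat_lit 78) (nat_lit 0) (nat_lit 0) (XT.lf (nat_lit 0) (nat_lit 6487170325) (nat_lit 760) (nat_lit 7127553632) (nat_lit 836) (nat_lit 2368194840) (nat_lit 253) (nat_lit 5) (nat_lit 263) (nat_lit 5) (nat_lit 264) (nat_lit 5) (nat_lit 467) (nat_lit 425) (nat_lit 248)) (XT.lf (nat_lit 0) (nat_lit 14395921906) (nat_lit 760) (nat_lit 1251320362) (nat_lit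 836) (nat_lit 521224512) (nat_lit 253) (nat_lit 5) (nat_lit 263) (nat_lit 5) (nat_lit 264) (nat_lit 5) (nat_lit 468) (nat_lit 425) (nat_lit 247)))))) (XT.nd (nat_lit 546) (nat_lit 1824) (nat_lit 0) (XT.nd (nat_lit 234) (nat_lit 1292) (nat_lit 0) (XT.nd (nat_lit 78) (nat_lit 684) (nat_lit 0) (XT.lf (nat_lit 0) (nat_lit 1408270190) (nat_lit 760) (nat_lit 10218875536) (nat_lit 76) (nat_lit 4729140885) (nat_lit 243) (nat_lit 5) (nat_lit 253) (nat_lit 5) (nat_lit 244) (nat_lit 5) (nat_lit 469) (nat_lit 425) (nat_lit 246)) (XT.nd (nat_lit 78) (nat_lit 684) (nat_lit 0) (XT.lf (nat_lit 0) (nat_lit 3382029256) (nat_lit 760) (nat_lit 2337991393) (nat_lit 76) (nat_lit 10827527044) (nat_lit 243) (nat_lit 5) (nat_lit 253) (nat_lit 5) (nat_lit 244) (nat_lit 5) (nat_lit 470) (nat_lit 425) (nat_lit 245)) (XT.lf (nat_lit 0) (nat_lit 5427476907) (nat_lit 760) (nat_lit 10976089120) (nat_lit 76) (nat_lit 338430403) (nat_lit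 234) (nat_lit 5) (nat_lit 244) (nat_lit 5) (nat_lit 235) (nat_lit 5) (nat_lit 471) (nat_lit 425) (nat_lit 244)))) (XT.nd (nat_lit 156) (nat_lit 684) (nat_lit 0) (XT.nd (nat_lit 78) (nat_lit 608) (nat_lit 0) (XT.lf (nat_lit 0) (nat_lit 7560134764) (nat_lit 760) (nat_lit 2922509677) (nat_lit 76) (nat_lit 6456770246) (nat_lit 234) (nat_lit 5) (nat_lit 244) (nat_lit 5) (nat_lit 235) (nat_lit 5) (nat_lit 472) (nat_lit 425) (nat_lit 243)) (XT.lf (nat_lit 0) (nat_lit 5354443726) (nat_lit 608) (nat_lit 4408538483) (nat_lit 684) (nat_lit 7377254812) (nat_lit 226) (nat_lit 5) (nat_lit 234) (nat_lit 5) (nat_lit 235) (nat_lit 5) (nat_lit 473) (nat_lit 425) (nat_lit 242))) (XT.nd (nat_lit 78) (nat_lit 684) (nat_lit 0) (XT.lf (nat_lit 0) (nat_lit 12034088478) (nat_lit 684) (nat_lit 3527878884) (nat_lit 76) (nat_lit 1782630717) (nat_lit 226) (nat_lit 5) (nat_lit 235) (nat_lit 5) (nat_lit 227) (nat_lit 5) (nat_lit 474)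 (nat_lit 425) (nat_lit 241)) (XT.lf (nat_lit 0) (nat_lit 4922703166) (nat_lit 684) (nat_lit 9482068531) (nat_lit 760) (nat_lit 3147197757) (nat_lit 217) (nat_lit 5) (nat_lit 226) (nat_lit 5) (nat_lit 227) (nat_lit 5) (nat_lit 475) (nat_lit 425) (nat_lit 240))))) (XT.nd (nat_lit 234) (nat_lit 1140) (nat_lit 0) (XT.nd (nat_lit 78) (nat_lit 684) (nat_lit 0) (XT.lf (nat_lit 0) (nat_lit 13582312710) (nat_lit 684) (nat_lit 3257314168) (nat_lit 760) (nat_lit 923532281) (nat_lit 217) (nat_lit 5) (nat_lit 226) (nat_lit 5) (nat_lit 227) (nat_lit 5) (nat_lit 476) (nat_lit 425) (nat_lit 239)) (XT.nd (nat_lit 78) (nat_lit 0) (nat_lit 0) (XT.lf (nat_lit 0) (nat_lit 1369539633) (nat_lit 684) (nat_lit 13519475268) (nat_lit 76) (nat_lit 3088537630) (nat_lit 208) (nat_lit 5) (nat_lit 217) (nat_lit 5) (nat_lit 209) (nat_lit 5) (nat_lit 477) (nat_lit 425) (nat_lit 238)) (XT.lf (nat_lit 0) (nat_lit 3739178525) (nat_lit 684)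 (nat_lit 4904926796) (nat_lit 76) (nat_lit 9551150648) (nat_lit 208) (nat_lit 5) (nat_lit 217) (nat_lit 5) (nat_lit 209) (nat_lit 5) (nat_lit 478) (nat_lit 425) (nat_lit 237)))) (XT.nd (nat_lit 156) (nat_lit 532) (nat_lit 0) (XT.nd (nat_lit 78) (nat_lit 0) (nat_lit 0) (XT.lf (nat_lit 0) (nat_lit 3925720212) (nat_lit 608) (nat_lit 2249357753) (nat_lit 684) (nat_lit 12241863760) (nat_lit 200) (nat_lit 5) (nat_lit 208) (nat_lit 5) (nat_lit 209) (nat_lit 5) (nat_lit 479) (nat_lit 425) (nat_lit 236)) (XT.lf (nat_lit 0) (nat_lit 8714025629) (nat_lit 684) (nat_lit 5678655826) (nat_lit 76) (nat_lit 4249298637) (nat_lit 200) (nat_lit 5) (nat_lit 209) (nat_lit 5) (nat_lit 201) (nat_lit 5) (nat_lit 480) (nat_lit 425) (nat_lit 235))) (XT.nd (nat_lit 78) (nat_lit 0) (nat_lit 0) (XT.lf (nat_lit 0) (nat_lit 3331350460) (nat_lit 532) (nat_lit 8002508524) (nat_lit 608) (nat_lit 7537063494) (nat_lit 193) (nat_lit 5) (nat_lit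 200) (nat_lit 5) (nat_lit 201) (nat_lit 5) (nat_lit 481) (nat_lit 425) (nat_lit 234)) (XT.lf (nat_lit 0) (nat_lit 12590977016) (nat_lit 532) (nat_lit 1446876563) (nat_lit 608) (nat_lit 5065960127) (nat_lit 193) (nat_lit 5) (nat_lit 200) (nat_lit 5) (nat_lit 201) (nat_lit 5) (nat_lit 482) (nat_lit 425) (nat_lit 233))))))))
noncomputable def xc203 : XT := (XT.nd (nat_lit 2106) (nat_lit 1064) (nat_lit 0) (XT.nd (nat_lit 1014) (nat_lit 3040) (nat_lit 0) (XT.nd (nat_lit 468) (nat_lit 1520) (nat_lit 0) (XT.nd (nat_lit 234) (nat_lit 532) (nat_lit 0) (XT.nd (nat_lit 78) (nat_lit 608) (nat_lit 0) (XT.lf (nat_lit 0) (nat_lit 2688138873) (nat_lit 608) (nat_lit 14153037507) (nat_lit 684) (nat_lit 2499286592) (nat_lit 185) (nat_lit 5) (nat_lit 193) (nat_lit 5) (nat_lit 194) (nat_lit 5) (nat_lit 483) (nat_lit 425) (nat_lit 232)) (XT.nd (nat_lit 78) (nat_lit 532) (nat_lit 0) (XT.lf (nat_lit 0) (nat_lit 164541522) (nat_lit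 684) (nat_lit 7437763186) (nat_lit 76) (nat_lit 11978582515) (nat_lit 184) (nat_lit 5) (nat_lit 193) (nat_lit 5) (nat_lit 185) (nat_lit 5) (nat_lit 484) (nat_lit 425) (nat_lit 231)) (XT.lf (nat_lit 0) (nat_lit 1962862032) (nat_lit 532) (nat_lit 892017918) (nat_lit 608) (nat_lit 16970780502) (nat_lit 177) (nat_lit 5) (nat_lit 184) (nat_lit 5) (nat_lit 185) (nat_lit 5) (nat_lit 485) (nat_lit 425) (nat_lit 230)))) (XT.nd (nat_lit 78) (nat_lit 532) (nat_lit 0) (XT.lf (nat_lit 0) (nat_lit 5681900550) (nat_lit 608) (nat_lit 8468474130) (nat_lit 76) (nat_lit 5923301742) (nat_lit 177) (nat_lit 5) (nat_lit 185) (nat_lit 5) (nat_lit 178) (nat_lit 5) (nat_lit 486) (nat_lit 425) (nat_lit 229)) (XT.nd (nat_lit 78) (nat_lit 0) (nat_lit 0) (XT.lf (nat_lit 0) (nat_lit 1115115107) (nat_lit 532) (nat_lit 7457597990) (nat_lit 608) (nat_lit 11753799277) (nat_lit 170) (nat_lit 5) (nat_lit 177) (nat_lit 5) (nat_lit 178) (nat_lit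 5) (nat_lit 487) (nat_lit 425) (nat_lit 228)) (XT.lf (nat_lit 0) (nat_lit 10997877737) (nat_lit 532) (nat_lit 574464410) (nat_lit 608) (nat_lit 9011047492) (nat_lit 170) (nat_lit 5) (nat_lit 177) (nat_lit 5) (nat_lit 178) (nat_lit 5) (nat_lit 488) (nat_lit 425) (nat_lit 227))))) (XT.nd (nat_lit 234) (nat_lit 1064) (nat_lit 0) (XT.nd (nat_lit 78) (nat_lit 0) (nat_lit 0) (XT.lf (nat_lit 0) (nat_lit 186222352) (nat_lit 456) (nat_lit 14483081656) (nat_lit 532) (nat_lit 6175358146) (nat_lit 164) (nat_lit 5) (nat_lit 170) (nat_lit 5) (nat_lit 171) (nat_lit 5) (nat_lit 489) (nat_lit 425) (nat_lit 226)) (XT.nd (nat_lit 78) (nat_lit 0) (nat_lit 0) (XT.lf (nat_lit 0) (nat_lit 10272260921) (nat_lit 456) (nat_lit 7618390077) (nat_lit 532) (nat_lit 3219264625) (nat_lit 164) (nat_lit 5) (nat_lit 170) (nat_lit 5) (nat_lit 171) (nat_lit 5) (nat_lit 490) (nat_lit 425) (nat_lit 225)) (XT.lf (nat_lit 0) (nat_lit 20552952075)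 (nat_lit 456) (nat_lit 617926470) (nat_lit 532) (nat_lit 209710880) (nat_lit 164) (nat_lit 5) (nat_lit 170) (nat_lit 5) (nat_lit 171) (nat_lit 5) (nat_lit 491) (nat_lit 425) (nat_lit 224)))) (XT.nd (nat_lit 156) (nat_lit 456) (nat_lit 0) (XT.nd (nat_lit 78) (nat_lit 0) (nat_lit 0) (XT.lf (nat_lit 0) (nat_lit 2921474911) (nat_lit 608) (nat_lit 12216703061) (nat_lit 76) (nat_lit 6516152495) (nat_lit 156) (nat_lit 5) (nat_lit 164) (nat_lit 5) (nat_lit 157) (nat_lit 5) (nat_lit 492) (nat_lit 425) (nat_lit 223)) (XT.lf (nat_lit 0) (nat_lit 6116736257) (nat_lit 608) (nat_lit 2026599602) (nat_lit 76) (nat_lit 13790101634) (nat_lit 156) (nat_lit 5) (nat_lit 164) (nat_lit 5) (nat_lit 157) (nat_lit 5) (nat_lit 493) (nat_lit 425) (nat_lit 222))) (XT.nd (nat_lit 78) (nat_lit 0) (nat_lit 0) (XT.lf (nat_lit 0) (nat_lit 8471486653) (nat_lit 456) (nat_lit 954099424) (nat_lit 532) (nat_lit 12791550922) (nat_lit 150) (nat_lit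 5) (nat_lit 156) (nat_lit 5) (nat_lit 157) (nat_lit 5) (nat_lit 494) (nat_lit 425) (nat_lit 221)) (XT.lf (nat_lit 0) (nat_lit 12850448562) (nat_lit 532) (nat_lit 3347716427) (nat_lit 76) (nat_lit 6307352720) (nat_lit 150) (nat_lit 5) (nat_lit 157) (nat_lit 5) (nat_lit 151) (nat_lit 5) (nat_lit 495) (nat_lit 425) (nat_lit 220)))))) (XT.nd (nat_lit 546) (nat_lit 1216) (nat_lit 0) (XT.nd (nat_lit 234) (nat_lit 836) (nat_lit 0) (XT.nd (nat_lit 78) (nat_lit 532) (nat_lit 0) (XT.lf (nat_lit 0) (nat_lit 7341299512) (nat_lit 456) (nat_lit 9051325105) (nat_lit 532) (nat_lit 6406068938) (nat_lit 144) (nat_lit 5) (nat_lit 150) (nat_lit 5) (nat_lit 151) (nat_lit 5) (nat_lit 496) (nat_lit 425) (nat_lit 219)) (XT.nd (nat_lit 78) (nat_lit 532) (nat_lit 0) (XT.lf (nat_lit 0) (nat_lit 18282679372) (nat_lit 456) (nat_lit 1740320149) (nat_lit 532) (nat_lit 3074390064) (nat_lit 144) (nat_lit 5) (nat_lit 150) (nat_lit 5)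 (nat_lit 151) (nat_lit 5) (nat_lit 497) (nat_lit 425) (nat_lit 218)) (XT.lf (nat_lit 0) (nat_lit 391695710) (nat_lit 532) (nat_lit 17326558927) (nat_lit 76) (nat_lit 5682326031) (nat_lit 137) (nat_lit 5) (nat_lit 144) (nat_lit 5) (nat_lit 138) (nat_lit 5) (nat_lit 498) (nat_lit 425) (nat_lit 217)))) (XT.nd (nat_lit 156) (nat_lit 380) (nat_lit 0) (XT.nd (nat_lit 78) (nat_lit 456) (nat_lit 0) (XT.lf (nat_lit 0) (nat_lit 3925022349) (nat_lit 532) (nat_lit 6502276924) (nat_lit 76) (nat_lit 13281351716) (nat_lit 137) (nat_lit 5) (nat_lit 144) (nat_lit 5) (nat_lit 138) (nat_lit 5) (nat_lit 499) (nat_lit 425) (nat_lit 216)) (XT.lf (nat_lit 0) (nat_lit 4592068413) (nat_lit 456) (nat_lit 2961858177) (nat_lit 532) (nat_lit 16468461392) (nat_lit 131) (nat_lit 5) (nat_lit 137) (nat_lit 5) (nat_lit 138) (nat_lit 5) (nat_lit 500) (nat_lit 425) (nat_lit 215))) (XT.nd (nat_lit 78) (nat_lit 380) (nat_lit 0) (XT.lf (nat_lit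 0) (nat_lit 11324679442) (nat_lit 532) (nat_lit 8382278340) (nat_lit 76) (nat_lit 4634059940) (nat_lit 131) (nat_lit 5) (nat_lit 138) (nat_lit 5) (nat_lit 132) (nat_lit 5) (nat_lit 501) (nat_lit 425) (nat_lit 214)) (XT.lf (nat_lit 0) (nat_lit 2898561751) (nat_lit 380) (nat_lit 12305953468) (nat_lit 456) (nat_lit 9460834831) (nat_lit 126) (nat_lit 5) (nat_lit 131) (nat_lit 5) (nat_lit 132) (nat_lit 5) (nat_lit 502) (nat_lit 425) (nat_lit 213))))) (XT.nd (nat_lit 234) (nat_lit 760) (nat_lit 0) (XT.nd (nat_lit 78) (nat_lit 456) (nat_lit 0) (XT.lf (nat_lit 0) (nat_lit 14512123641) (nat_lit 380) (nat_lit 4701358233) (nat_lit 456) (nat_lit 5781659752) (nat_lit 126) (nat_lit 5) (nat_lit 131) (nat_lit 5) (nat_lit 132) (nat_lit 5) (nat_lit 503) (nat_lit 425) (nat_lit 212)) (XT.nd (nat_lit 78) (nat_lit 76) (nat_lit 0) (XT.lf (nat_lit 0) (nat_lit 1013406148) (nat_lit 380) (nat_lit 22311004282) (nat_lit 456) (nat_lit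 2006686174) (nat_lit 121) (nat_lit 5) (nat_lit 126) (nat_lit 5) (nat_lit 127) (nat_lit 5) (nat_lit 504) (nat_lit 425) (nat_lit 211)) (XT.lf (nat_lit 0) (nat_lit 1916933803) (nat_lit 456) (nat_lit 12840573940) (nat_lit 76) (nat_lit 10914080041) (nat_lit 120) (nat_lit 5) (nat_lit 126) (nat_lit 5) (nat_lit 121) (nat_lit 5) (nat_lit 505) (nat_lit 425) (nat_lit 210)))) (XT.nd (nat_lit 156) (nat_lit 380) (nat_lit 0) (XT.nd (nat_lit 78) (nat_lit 380) (nat_lit 0) (XT.lf (nat_lit 0) (nat_lit 5887653594) (nat_lit 456) (nat_lit 1153574251) (nat_lit 76) (nat_lit 18977488754) (nat_lit 120) (nat_lit 5) (nat_lit 126) (nat_lit 5) (nat_lit 121) (nat_lit 5) (nat_lit 506) (nat_lit 425) (nat_lit 209)) (XT.lf (nat_lit 0) (nat_lit 10009985916) (nat_lit 456) (nat_lit 15473378383) (nat_lit 76) (nat_lit 887982706) (nat_lit 115) (nat_lit 5) (nat_lit 121) (nat_lit 5) (nat_lit 116) (nat_lit 5) (nat_lit 507) (nat_lit 425) (nat_lit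 208))) (XT.nd (nat_lit 78) (nat_lit 380) (nat_lit 0) (XT.lf (nat_lit 0) (nat_lit 14264783509) (nat_lit 456) (nat_lit 3577660624) (nat_lit 76) (nat_lit 8887588430) (nat_lit 115) (nat_lit 5) (nat_lit 121) (nat_lit 5) (nat_lit 116) (nat_lit 5) (nat_lit 508) (nat_lit 425) (nat_lit 207)) (XT.lf (nat_lit 0) (nat_lit 8663434311) (nat_lit 380) (nat_lit 9993173485) (nat_lit 456) (nat_lit 8438248281) (nat_lit 110) (nat_lit 5) (nat_lit 115) (nat_lit 5) (nat_lit 116) (nat_lit 5) (nat_lit 509) (nat_lit 425) (nat_lit 206))))))) (XT.nd (nat_lit 53274) (nat_lit 0) (nat_lit 20520) (XT.nd (nat_lit 546) (nat_lit 0) (nat_lit 0) (XT.nd (nat_lit 234) (nat_lit 684) (nat_lit 0) (XT.nd (nat_lit 78) (nat_lit 380) (nat_lit 0) (XT.lf (nat_lit 0) (nat_lit 21191728124) (nat_lit 380) (nat_lit 1964275350) (nat_lit 456) (nat_lit 4310580693) (nat_lit 110) (nat_lit 5) (nat_lit 115) (nat_lit 5) (nat_lit 116) (nat_lit 5) (nat_lit 510) (nat_lit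 425) (nat_lit 205)) (XT.nd (nat_lit 78) (nat_lit 76) (nat_lit 0) (XT.lf (nat_lit 0) (nat_lit 6159126965) (nat_lit 304) (nat_lit 21662466323) (nat_lit 380) (nat_lit 22632154) (nat_lit 106) (nat_lit 5) (nat_lit 110) (nat_lit 5) (nat_lit 111) (nat_lit 5) (nat_lit 511) (nat_lit 425) (nat_lit 204)) (XT.lf (nat_lit 0) (nat_lit 4345217064) (nat_lit 380) (nat_lit 9349360097) (nat_lit 76) (nat_lit 14533255887) (nat_lit 105) (nat_lit 5) (nat_lit 110) (nat_lit 5) (nat_lit 106) (nat_lit 5) (nat_lit 512) (nat_lit 425) (nat_lit 203)))) (XT.nd (nat_lit 156) (nat_lit 304) (nat_lit 0) (XT.nd (nat_lit 78) (nat_lit 0) (nat_lit 0) (XT.lf (nat_lit 0) (nat_lit 3269855070) (nat_lit 380) (nat_lit 5547389578) (nat_lit 456) (nat_lit 19801525268) (nat_lit 100) (nat_lit 5) (nat_lit 105) (nat_lit 5) (nat_lit 106) (nat_lit 5) (nat_lit 513) (nat_lit 425) (nat_lit 202)) (XT.lf (nat_lit 0) (nat_lit 13455728874) (nat_lit 456) (nat_lit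 12772441423) (nat_lit 76) (nat_lit 2787817441) (nat_lit 100) (nat_lit 5) (nat_lit 106) (nat_lit 5) (nat_lit 101) (nat_lit 5) (nat_lit 514) (nat_lit 425) (nat_lit 201))) (XT.nd (nat_lit 78) (nat_lit 0) (nat_lit 0) (XT.lf (nat_lit 0) (nat_lit 13108234) (nat_lit 304) (nat_lit 18206701179) (nat_lit 380) (nat_lit 11200686462) (nat_lit 96) (nat_lit 5) (nat_lit 100) (nat_lit 5) (nat_lit 101) (nat_lit 5) (nat_lit 515) (nat_lit 425) (nat_lit 200)) (XT.lf (nat_lit 0) (nat_lit 13221653952) (nat_lit 304) (nat_lit 9939271638) (nat_lit 380) (nat_lit 6670535943) (nat_lit 96) (nat_lit 5) (nat_lit 100) (nat_lit 5) (nat_lit 101) (nat_lit 5) (nat_lit 516) (nat_lit 425) (nat_lit 199))))) (XT.nd (nat_lit 52416) (nat_lit 0) (nat_lit 21888) (XT.nd (nat_lit 52260) (nat_lit 0) (nat_lit 21812) (XT.lf (nat_lit 0) (nat_lit 26688636529) (nat_lit 304) (nat_lit 1508349352) (nat_lit 380) (nat_lit 2053740583) (nat_lit 96) (nat_lit 5)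 (nat_lit 100) (nat_lit 5) (nat_lit 101) (nat_lit 5) (nat_lit 517) (nat_lit 425) (nat_lit 198)) (XT.nd (nat_lit 78) (nat_lit 0) (nat_lit 0) (XT.lf (nat_lit 0) (nat_lit 2019660348) (nat_lit 1596) (nat_lit 1641996383) (nat_lit 1596) (nat_lit 1641996383) (nat_lit 383) (nat_lit 3) (nat_lit 404) (nat_lit 3) (nat_lit 404) (nat_lit 5) (nat_lit 426) (nat_lit 426) (nat_lit 288)) (XT.lf (nat_lit 76) (nat_lit 1442213470) (nat_lit 0) (nat_lit 3229537244) (nat_lit 1596) (nat_lit 6029152570) (nat_lit 384) (nat_lit 5) (nat_lit 383) (nat_lit 3) (nat_lit 404) (nat_lit 5) (nat_lit 427) (nat_lit 426) (nat_lit 287)))) (XT.nd (nat_lit 156) (nat_lit 0) (nat_lit 0) (XT.nd (nat_lit 78) (nat_lit 0) (nat_lit 0) (XT.lf (nat_lit 0) (nat_lit 5329868569) (nat_lit 1520) (nat_lit 4503039382) (nat_lit 1596) (nat_lit 963220206) (nat_lit 384) (nat_lit 5) (nat_lit 404) (nat_lit 5) (nat_lit 405) (nat_lit 5) (nat_lit 428) (nat_lit 426) (nat_lit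 286)) (XT.lf (nat_lit 76) (nat_lit 322449373) (nat_lit 0) (nat_lit 5687193539) (nat_lit 1596) (nat_lit 4883461069) (nat_lit 385) (nat_lit 5) (nat_lit 384) (nat_lit 5) (nat_lit 405) (nat_lit 5) (nat_lit 429) (nat_lit 426) (nat_lit 285))) (XT.nd (nat_lit 78) (nat_lit 0) (nat_lit 76) (XT.lf (nat_lit 76) (nat_lit 5297425181) (nat_lit 0) (nat_lit 1421059757) (nat_lit 1596) (nat_lit 4273240958) (nat_lit 385) (nat_lit 5) (nat_lit 384) (nat_lit 5) (nat_lit 405) (nat_lit 5) (nat_lit 430) (nat_lit 426) (nat_lit 284)) (XT.lf (nat_lit 0) (nat_lit 7446115981) (nat_lit 1520) (nat_lit 747697711) (nat_lit 1596) (nat_lit 2898430014) (nat_lit 385) (nat_lit 5) (nat_lit 405) (nat_lit 5) (nat_lit 406) (nat_lit 5) (nat_lit 431) (nat_lit 426) (nat_lit 283)))))) (XT.nd (nat_lit 546) (nat_lit 0) (nat_lit 76) (XT.nd (nat_lit 234) (nat_lit 1444) (nat_lit 0) (XT.nd (nat_lit 78) (nat_lit 0) (nat_lit 76) (XT.lf (nat_lit 76) (nat_lit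 4337219691) (nat_lit 0) (nat_lit 3874519776) (nat_lit 1596) (nat_lit 2982579005) (nat_lit 386) (nat_lit 5) (nat_lit 385) (nat_lit 5) (nat_lit 406) (nat_lit 5) (nat_lit 432) (nat_lit 426) (nat_lit 282)) (XT.nd (nat_lit 78) (nat_lit 0) (nat_lit 0) (XT.lf (nat_lit 0) (nat_lit 8987306475) (nat_lit 1520) (nat_lit 1776213765) (nat_lit 1596) (nat_lit 535036963) (nat_lit 386) (nat_lit 5) (nat_lit 406) (nat_lit 5) (nat_lit 407) (nat_lit 5) (nat_lit 433) (nat_lit 426) (nat_lit 281)) (XT.lf (nat_lit 76) (nat_lit 3417243534) (nat_lit 0) (nat_lit 6395391034) (nat_lit 1596) (nat_lit 1591575943) (nat_lit 387) (nat_lit 5) (nat_lit 386) (nat_lit 5) (nat_lit 407) (nat_lit 5) (nat_lit 434) (nat_lit 426) (nat_lit 280)))) (XT.nd (nat_lit 156) (nat_lit 1520) (nat_lit 0) (XT.nd (nat_lit 78) (nat_lit 0) (nat_lit 76) (XT.lf (nat_lit 76) (nat_lit 8730496891) (nat_lit 0) (nat_lit 1922509003) (nat_lit 1596) (nat_lit 859014765) (nat_lit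 387) (nat_lit 5) (nat_lit 386) (nat_lit 5) (nat_lit 407) (nat_lit 5) (nat_lit 435) (nat_lit 426) (nat_lit 279)) (XT.lf (nat_lit 76) (nat_lit 2535846595) (nat_lit 0) (nat_lit 8994855034) (nat_lit 1596) (nat_lit 90889263) (nat_lit 388) (nat_lit 5) (nat_lit 387) (nat_lit 5) (nat_lit 408) (nat_lit 5) (nat_lit 436) (nat_lit 426) (nat_lit 278))) (XT.nd (nat_lit 78) (nat_lit 0) (nat_lit 76) (XT.lf (nat_lit 0) (nat_lit 702053179) (nat_lit 1596) (nat_lit 3761494699) (nat_lit 1672) (nat_lit 7269357625) (nat_lit 366) (nat_lit 5) (nat_lit 387) (nat_lit 5) (nat_lit 388) (nat_lit 5) (nat_lit 437) (nat_lit 426) (nat_lit 277)) (XT.lf (nat_lit 0) (nat_lit 1508967345) (nat_lit 1596) (nat_lit 10165180603) (nat_lit 1672) (nat_lit 172313248) (nat_lit 367) (nat_lit 5) (nat_lit 388) (nat_lit 5) (nat_lit 389) (nat_lit 5) (nat_lit 438) (nat_lit 426) (nat_lit 276))))) (XT.nd (nat_lit 234) (nat_lit 0) (nat_lit 76) (XT.nd (nat_lit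 78) (nat_lit 0) (nat_lit 0) (XT.lf (nat_lit 0) (nat_lit 2374484400) (nat_lit 1596) (nat_lit 4716114784) (nat_lit 1672) (nat_lit 4870852665) (nat_lit 367) (nat_lit 5) (nat_lit 388) (nat_lit 5) (nat_lit 389) (nat_lit 5) (nat_lit 439) (nat_lit 426) (nat_lit 275)) (XT.nd (nat_lit 78) (nat_lit 0) (nat_lit 76) (XT.lf (nat_lit 76) (nat_lit 844673159) (nat_lit 0) (nat_lit 2405863906) (nat_lit 1672) (nat_lit 8828353626) (nat_lit 368) (nat_lit 5) (nat_lit 367) (nat_lit 5) (nat_lit 389) (nat_lit 5) (nat_lit 440) (nat_lit 426) (nat_lit 274)) (XT.lf (nat_lit 0) (nat_lit 4179324550) (nat_lit 1596) (nat_lit 5641615241) (nat_lit 1672) (nat_lit 2377046872) (nat_lit 368) (nat_lit 5) (nat_lit 389) (nat_lit 5) (nat_lit 390) (nat_lit 5) (nat_lit 441) (nat_lit 426) (nat_lit 273)))) (XT.nd (nat_lit 156) (nat_lit 0) (nat_lit 76) (XT.nd (nat_lit 78) (nat_lit 0) (nat_lit 0) (XT.lf (nat_lit 76) (nat_lit 39024841) (nat_lit 0) (nat_lit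 5092037716) (nat_lit 1672) (nat_lit 7188326884) (nat_lit 369) (nat_lit 5) (nat_lit 368) (nat_lit 5) (nat_lit 390) (nat_lit 5) (nat_lit 442) (nat_lit 426) (nat_lit 272)) (XT.lf (nat_lit 76) (nat_lit 5901413325) (nat_lit 0) (nat_lit 226646192) (nat_lit 1672) (nat_lit 6314648411) (nat_lit 369) (nat_lit 5) (nat_lit 368) (nat_lit 5) (nat_lit 390) (nat_lit 5) (nat_lit 443) (nat_lit 426) (nat_lit 271))) (XT.nd (nat_lit 78) (nat_lit 0) (nat_lit 0) (XT.lf (nat_lit 0) (nat_lit 7164361100) (nat_lit 1596) (nat_lit 726628295) (nat_lit 1672) (nat_lit 4677127997) (nat_lit 369) (nat_lit 5) (nat_lit 390) (nat_lit 5) (nat_lit 391) (nat_lit 5) (nat_lit 444) (nat_lit 426) (nat_lit 270)) (XT.lf (nat_lit 76) (nat_lit 5263593255) (nat_lit 0) (nat_lit 2982309483) (nat_lit 1672) (nat_lit 4449653694) (nat_lit 370) (nat_lit 5) (nat_lit 369) (nat_lit 5) (nat_lit 391) (nat_lit 5) (nat_lit 445) (nat_lit 426) (nat_lit 269))))))))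
noncomputable def xc204 : XT := (XT.nd (nat_lit 2106) (nat_lit 7372) (nat_lit 0) (XT.nd (nat_lit 1014) (nat_lit 5320) (nat_lit 0) (XT.nd (nat_lit 468) (nat_lit 3420) (nat_lit 0) (XT.nd (nat_lit 234) (nat_lit 1596) (nat_lit 0) (XT.nd (nat_lit 78) (nat_lit 0) (nat_lit 0) (XT.lf (nat_lit 0) (nat_lit 9356150128) (nat_lit 1596) (nat_lit 1463619925) (nat_lit 1672) (nat_lit 2005644140) (nat_lit 370) (nat_lit 5) (nat_lit 391) (nat_lit 5) (nat_lit 392) (nat_lit 5) (nat_lit 446) (nat_lit 426) (nat_lit 268)) (XT.nd (nat_lit 78) (nat_lit 0) (nat_lit 0) (XT.lf (nat_lit 76) (nat_lit 4657119649) (nat_lit 0) (nat_lit 5870707462) (nat_lit 1672) (nat_lit 2429268719) (nat_lit 371) (nat_lit 5) (nat_lit 370) (nat_lit 5) (nat_lit 392) (nat_lit 5) (nat_lit 447) (nat_lit 426) (nat_lit 267)) (XT.lf (nat_lit 76) (nat_lit 10911869257) (nat_lit 0) (nat_lit 810284687) (nat_lit 1672) (nat_lit 1369283824) (nat_lit 371) (nat_lit 5)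 (nat_lit 370) (nat_lit 5) (nat_lit 392) (nat_lit 5) (nat_lit 448) (nat_lit 426) (nat_lit 266)))) (XT.nd (nat_lit 78) (nat_lit 1672) (nat_lit 0) (XT.lf (nat_lit 76) (nat_lit 4080191318) (nat_lit 0) (nat_lit 8904536758) (nat_lit 1672) (nat_lit 242862031) (nat_lit 372) (nat_lit 5) (nat_lit 371) (nat_lit 5) (nat_lit 393) (nat_lit 5) (nat_lit 449) (nat_lit 426) (nat_lit 265)) (XT.nd (nat_lit 78) (nat_lit 0) (nat_lit 76) (XT.lf (nat_lit 0) (nat_lit 903983090) (nat_lit 1672) (nat_lit 2891237192) (nat_lit 1748) (nat_lit 9570942346) (nat_lit 349) (nat_lit 5) (nat_lit 371) (nat_lit 5) (nat_lit 372) (nat_lit 5) (nat_lit 450) (nat_lit 426) (nat_lit 264)) (XT.lf (nat_lit 0) (nat_lit 2092673615) (nat_lit 1672) (nat_lit 9990153817) (nat_lit 76) (nat_lit 1424214007) (nat_lit 350) (nat_lit 5) (nat_lit 372) (nat_lit 5) (nat_lit 351) (nat_lit 5) (nat_lit 451) (nat_lit 426) (nat_lit 263))))) (XT.nd (nat_lit 234) (nat_lit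 1824) (nat_lit 0) (XT.nd (nat_lit 78) (nat_lit 1672) (nat_lit 0) (XT.lf (nat_lit 0) (nat_lit 3339850151) (nat_lit 1672) (nat_lit 3591656665) (nat_lit 76) (nat_lit 6718546726) (nat_lit 350) (nat_lit 5) (nat_lit 372) (nat_lit 5) (nat_lit 351) (nat_lit 5) (nat_lit 452) (nat_lit 426) (nat_lit 262)) (XT.nd (nat_lit 78) (nat_lit 0) (nat_lit 0) (XT.lf (nat_lit 0) (nat_lit 2965456960) (nat_lit 1672) (nat_lit 1656010185) (nat_lit 1748) (nat_lit 9174278566) (nat_lit 328) (nat_lit 5) (nat_lit 350) (nat_lit 5) (nat_lit 351) (nat_lit 5) (nat_lit 453) (nat_lit 426) (nat_lit 261)) (XT.lf (nat_lit 0) (nat_lit 5967553751) (nat_lit 1748) (nat_lit 4274218667) (nat_lit 76) (nat_lit 3701812130) (nat_lit 328) (nat_lit 5) (nat_lit 351) (nat_lit 5) (nat_lit 329) (nat_lit 5) (nat_lit 454) (nat_lit 426) (nat_lit 260)))) (XT.nd (nat_lit 156) (nat_lit 836) (nat_lit 0) (XT.nd (nat_lit 78) (nat_lit 0) (nat_lit 0) (XT.lf (nat_lit 0)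 (nat_lit 2425579611) (nat_lit 988) (nat_lit 4932276927) (nat_lit 1064) (nat_lit 6736187119) (nat_lit 315) (nat_lit 5) (nat_lit 328) (nat_lit 5) (nat_lit 329) (nat_lit 5) (nat_lit 455) (nat_lit 426) (nat_lit 259)) (XT.lf (nat_lit 0) (nat_lit 8798693983) (nat_lit 1064) (nat_lit 4941340978) (nat_lit 76) (nat_lit 507031613) (nat_lit 315) (nat_lit 5) (nat_lit 329) (nat_lit 5) (nat_lit 316) (nat_lit 5) (nat_lit 456) (nat_lit 426) (nat_lit 258))) (XT.nd (nat_lit 78) (nat_lit 0) (nat_lit 0) (XT.lf (nat_lit 0) (nat_lit 1904415519) (nat_lit 836) (nat_lit 8399861264) (nat_lit 912) (nat_lit 4098163614) (nat_lit 304) (nat_lit 5) (nat_lit 315) (nat_lit 5) (nat_lit 316) (nat_lit 5) (nat_lit 457) (nat_lit 426) (nat_lit 257)) (XT.lf (nat_lit 0) (nat_lit 8945900716) (nat_lit 836) (nat_lit 2918254721) (nat_lit 912) (nat_lit 2696291418) (nat_lit 304) (nat_lit 5) (nat_lit 315) (nat_lit 5) (nat_lit 316) (nat_lit 5) (nat_lit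 458) (nat_lit 426) (nat_lit 256)))))) (XT.nd (nat_lit 546) (nat_lit 2888) (nat_lit 0) (XT.nd (nat_lit 234) (nat_lit 760) (nat_lit 0) (XT.nd (nat_lit 78) (nat_lit 836) (nat_lit 0) (XT.lf (nat_lit 0) (nat_lit 1399403577) (nat_lit 836) (nat_lit 12073475042) (nat_lit 912) (nat_lit 1248390553) (nat_lit 293) (nat_lit 5) (nat_lit 304) (nat_lit 5) (nat_lit 305) (nat_lit 5) (nat_lit 459) (nat_lit 426) (nat_lit 255)) (XT.nd (nat_lit 78) (nat_lit 760) (nat_lit 0) (XT.lf (nat_lit 0) (nat_lit 273984223) (nat_lit 912) (nat_lit 6284142332) (nat_lit 76) (nat_lit 8326189799) (nat_lit 292) (nat_lit 5) (nat_lit 304) (nat_lit 5) (nat_lit 293) (nat_lit 5) (nat_lit 460) (nat_lit 426) (nat_lit 254)) (XT.lf (nat_lit 0) (nat_lit 889629884) (nat_lit 760) (nat_lit 917683760) (nat_lit 836) (nat_lit 13243209504) (nat_lit 282) (nat_lit 5) (nat_lit 292) (nat_lit 5) (nat_lit 293) (nat_lit 5) (nat_lit 461) (nat_lit 426) (nat_lit 253))))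 (XT.nd (nat_lit 156) (nat_lit 0) (nat_lit 0) (XT.nd (nat_lit 78) (nat_lit 760) (nat_lit 0) (XT.lf (nat_lit 0) (nat_lit 3436704281) (nat_lit 836) (nat_lit 6967056939) (nat_lit 76) (nat_lit 4814992976) (nat_lit 282) (nat_lit 5) (nat_lit 293) (nat_lit 5) (nat_lit 283) (nat_lit 5) (nat_lit 462) (nat_lit 426) (nat_lit 252)) (XT.lf (nat_lit 0) (nat_lit 361245934) (nat_lit 760) (nat_lit 4737575047) (nat_lit 836) (nat_lit 10291533969) (nat_lit 272) (nat_lit 5) (nat_lit 282) (nat_lit 5) (nat_lit 283) (nat_lit 5) (nat_lit 463) (nat_lit 426) (nat_lit 251))) (XT.nd (nat_lit 78) (nat_lit 0) (nat_lit 0) (XT.lf (nat_lit 0) (nat_lit 6839834021) (nat_lit 836) (nat_lit 7649161776) (nat_lit 76) (nat_lit 1075486541) (nat_lit 272) (nat_lit 5) (nat_lit 283) (nat_lit 5) (nat_lit 273) (nat_lit 5) (nat_lit 464) (nat_lit 426) (nat_lit 250)) (XT.lf (nat_lit 0) (nat_lit 8639029083) (nat_lit 836) (nat_lit 161019386) (nat_lit 76)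 (nat_lit 6941584115) (nat_lit 272) (nat_lit 5) (nat_lit 283) (nat_lit 5) (nat_lit 273) (nat_lit 5) (nat_lit 465) (nat_lit 426) (nat_lit 249))))) (XT.nd (nat_lit 234) (nat_lit 1444) (nat_lit 0) (XT.nd (nat_lit 78) (nat_lit 760) (nat_lit 0) (XT.lf (nat_lit 0) (nat_lit 7568273423) (nat_lit 684) (nat_lit 2947217081) (nat_lit 760) (nat_lit 5406017082) (nat_lit 263) (nat_lit 5) (nat_lit 272) (nat_lit 5) (nat_lit 273) (nat_lit 5) (nat_lit 466) (nat_lit 426) (nat_lit 248)) (XT.nd (nat_lit 78) (nat_lit 760) (nat_lit 0) (XT.lf (nat_lit 0) (nat_lit 12442441052) (nat_lit 760) (nat_lit 678237841) (nat_lit 76) (nat_lit 2984049249) (nat_lit 263) (nat_lit 5) (nat_lit 273) (nat_lit 5) (nat_lit 264) (nat_lit 5) (nat_lit 467) (nat_lit 426) (nat_lit 247)) (XT.lf (nat_lit 0) (nat_lit 7217574938) (nat_lit 760) (nat_lit 7249134003) (nat_lit 836) (nat_lit 1823735714) (nat_lit 253) (nat_lit 5) (nat_lit 263) (nat_lit 5) (nat_lit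 264) (nat_lit 5) (nat_lit 468) (nat_lit 426) (nat_lit 246)))) (XT.nd (nat_lit 156) (nat_lit 684) (nat_lit 0) (XT.nd (nat_lit 78) (nat_lit 684) (nat_lit 0) (XT.lf (nat_lit 0) (nat_lit 47932646) (nat_lit 836) (nat_lit 1207532958) (nat_lit 76) (nat_lit 15224469579) (nat_lit 252) (nat_lit 5) (nat_lit 263) (nat_lit 5) (nat_lit 253) (nat_lit 5) (nat_lit 469) (nat_lit 426) (nat_lit 245)) (XT.lf (nat_lit 0) (nat_lit 2001848464) (nat_lit 760) (nat_lit 9818538304) (nat_lit 76) (nat_lit 4851209680) (nat_lit 243) (nat_lit 5) (nat_lit 253) (nat_lit 5) (nat_lit 244) (nat_lit 5) (nat_lit 470) (nat_lit 426) (nat_lit 244))) (XT.nd (nat_lit 78) (nat_lit 684) (nat_lit 0) (XT.lf (nat_lit 0) (nat_lit 4003996184) (nat_lit 760) (nat_lit 1791893631) (nat_lit 76) (nat_lit 11071024622) (nat_lit 243) (nat_lit 5) (nat_lit 253) (nat_lit 5) (nat_lit 244) (nat_lit 5) (nat_lit 471) (nat_lit 426) (nat_lit 243)) (XT.lf (nat_lit 0) (nat_lit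 6083578133) (nat_lit 760) (nat_lit 10595490734) (nat_lit 76) (nat_lit 386328533) (nat_lit 234) (nat_lit 5) (nat_lit 244) (nat_lit 5) (nat_lit 235) (nat_lit 5) (nat_lit 472) (nat_lit 426) (nat_lit 242))))))) (XT.nd (nat_lit 1014) (nat_lit 3572) (nat_lit 0) (XT.nd (nat_lit 468) (nat_lit 1824) (nat_lit 0) (XT.nd (nat_lit 234) (nat_lit 1368) (nat_lit 0) (XT.nd (nat_lit 78) (nat_lit 608) (nat_lit 0) (XT.lf (nat_lit 0) (nat_lit 8248152840) (nat_lit 760) (nat_lit 2392606764) (nat_lit 76) (nat_lit 6626228711) (nat_lit 234) (nat_lit 5) (nat_lit 244) (nat_lit 5) (nat_lit 235) (nat_lit 5) (nat_lit 473) (nat_lit 426) (nat_lit 241)) (XT.nd (nat_lit 78) (nat_lit 0) (nat_lit 0) (XT.lf (nat_lit 0) (nat_lit 6046014963) (nat_lit 608) (nat_lit 4442311326) (nat_lit 684) (nat_lit 6983644806) (nat_lit 226) (nat_lit 5) (nat_lit 234) (nat_lit 5) (nat_lit 235) (nat_lit 5) (nat_lit 474) (nat_lit 426) (nat_lit 240)) (XT.lf (nat_lit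 0) (nat_lit 12794807134) (nat_lit 684) (nat_lit 3014907205) (nat_lit 76) (nat_lit 1870915182) (nat_lit 226) (nat_lit 5) (nat_lit 235) (nat_lit 5) (nat_lit 227) (nat_lit 5) (nat_lit 475) (nat_lit 426) (nat_lit 239)))) (XT.nd (nat_lit 78) (nat_lit 684) (nat_lit 0) (XT.lf (nat_lit 0) (nat_lit 5600847478) (nat_lit 684) (nat_lit 9605623471) (nat_lit 760) (nat_lit 2685815050) (nat_lit 217) (nat_lit 5) (nat_lit 226) (nat_lit 5) (nat_lit 227) (nat_lit 5) (nat_lit 476) (nat_lit 426) (nat_lit 238)) (XT.nd (nat_lit 78) (nat_lit 684) (nat_lit 0) (XT.lf (nat_lit 0) (nat_lit 14422282737) (nat_lit 684) (nat_lit 3257669832) (nat_lit 760) (nat_lit 427957180) (nat_lit 217) (nat_lit 5) (nat_lit 226) (nat_lit 5) (nat_lit 227) (nat_lit 5) (nat_lit 477) (nat_lit 426) (nat_lit 237)) (XT.lf (nat_lit 0) (nat_lit 1898457838) (nat_lit 684) (nat_lit 13208164636) (nat_lit 76) (nat_lit 3220025792) (nat_lit 208) (nat_lit 5) (nat_lit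 217) (nat_lit 5) (nat_lit 209) (nat_lit 5) (nat_lit 478) (nat_lit 426) (nat_lit 236))))) (XT.nd (nat_lit 234) (nat_lit 1216) (nat_lit 0) (XT.nd (nat_lit 78) (nat_lit 608) (nat_lit 0) (XT.lf (nat_lit 0) (nat_lit 4305655637) (nat_lit 684) (nat_lit 4432731079) (nat_lit 76) (nat_lit 9810524061) (nat_lit 208) (nat_lit 5) (nat_lit 217) (nat_lit 5) (nat_lit 209) (nat_lit 5) (nat_lit 479) (nat_lit 426) (nat_lit 235)) (XT.nd (nat_lit 78) (nat_lit 0) (nat_lit 0) (XT.lf (nat_lit 0) (nat_lit 4570776934) (nat_lit 608) (nat_lit 2213533452) (nat_lit 684) (nat_lit 11990847284) (nat_lit 200) (nat_lit 5) (nat_lit 208) (nat_lit 5) (nat_lit 209) (nat_lit 5) (nat_lit 480) (nat_lit 426) (nat_lit 234)) (XT.lf (nat_lit 0) (nat_lit 9365027261) (nat_lit 684) (nat_lit 5227385289) (nat_lit 76) (nat_lit 4412472452) (nat_lit 200) (nat_lit 5) (nat_lit 209) (nat_lit 5) (nat_lit 201) (nat_lit 5) (nat_lit 481) (nat_lit 426) (nat_lit 233))))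 (XT.nd (nat_lit 156) (nat_lit 684) (nat_lit 0) (XT.nd (nat_lit 78) (nat_lit 0) (nat_lit 0) (XT.lf (nat_lit 0) (nat_lit 3959105046) (nat_lit 532) (nat_lit 8072447977) (nat_lit 608) (nat_lit 7206975148) (nat_lit 193) (nat_lit 5) (nat_lit 200) (nat_lit 5) (nat_lit 201) (nat_lit 5) (nat_lit 482) (nat_lit 426) (nat_lit 232)) (XT.lf (nat_lit 0) (nat_lit 13392921631) (nat_lit 532) (nat_lit 1387470254) (nat_lit 608) (nat_lit 4695877745) (nat_lit 193) (nat_lit 5) (nat_lit 200) (nat_lit 5) (nat_lit 201) (nat_lit 5) (nat_lit 483) (nat_lit 426) (nat_lit 231))) (XT.nd (nat_lit 78) (nat_lit 76) (nat_lit 0) (XT.lf (nat_lit 0) (nat_lit 3297394726) (nat_lit 608) (nat_lit 14337500851) (nat_lit 684) (nat_lit 2082861559) (nat_lit 185) (nat_lit 5) (nat_lit 193) (nat_lit 5) (nat_lit 194) (nat_lit 5) (nat_lit 484) (nat_lit 426) (nat_lit 230)) (XT.lf (nat_lit 0) (nat_lit 619100690) (nat_lit 684) (nat_lit 7035557741) (nat_lit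 76) (nat_lit 12308458635) (nat_lit 184) (nat_lit 5) (nat_lit 193) (nat_lit 5) (nat_lit 185) (nat_lit 5) (nat_lit 485) (nat_lit 426) (nat_lit 229)))))) (XT.nd (nat_lit 546) (nat_lit 1976) (nat_lit 0) (XT.nd (nat_lit 234) (nat_lit 532) (nat_lit 0) (XT.nd (nat_lit 78) (nat_lit 532) (nat_lit 0) (XT.lf (nat_lit 0) (nat_lit 2549455240) (nat_lit 532) (nat_lit 808495915) (nat_lit 608) (nat_lit 16854947606) (nat_lit 177) (nat_lit 5) (nat_lit 184) (nat_lit 5) (nat_lit 185) (nat_lit 5) (nat_lit 486) (nat_lit 426) (nat_lit 228)) (XT.nd (nat_lit 78) (nat_lit 532) (nat_lit 0) (XT.lf (nat_lit 0) (nat_lit 6233412795) (nat_lit 608) (nat_lit 8092791892) (nat_lit 76) (nat_lit 6139839321) (nat_lit 177) (nat_lit 5) (nat_lit 185) (nat_lit 5) (nat_lit 178) (nat_lit 5) (nat_lit 487) (nat_lit 426) (nat_lit 227)) (XT.lf (nat_lit 0) (nat_lit 1678883263) (nat_lit 532) (nat_lit 7498088116) (nat_lit 608) (nat_lit 11547073537) (nat_lit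 170) (nat_lit 5) (nat_lit 177) (nat_lit 5) (nat_lit 178) (nat_lit 5) (nat_lit 488) (nat_lit 426) (nat_lit 226)))) (XT.nd (nat_lit 156) (nat_lit 76) (nat_lit 0) (XT.nd (nat_lit 78) (nat_lit 456) (nat_lit 0) (XT.lf (nat_lit 0) (nat_lit 11748684168) (nat_lit 532) (nat_lit 479422488) (nat_lit 608) (nat_lit 8758129495) (nat_lit 170) (nat_lit 5) (nat_lit 177) (nat_lit 5) (nat_lit 178) (nat_lit 5) (nat_lit 489) (nat_lit 426) (nat_lit 225)) (XT.lf (nat_lit 0) (nat_lit 725379373) (nat_lit 456) (nat_lit 14657462920) (nat_lit 532) (nat_lit 5869981700) (nat_lit 164) (nat_lit 5) (nat_lit 170) (nat_lit 5) (nat_lit 171) (nat_lit 5) (nat_lit 490) (nat_lit 426) (nat_lit 224))) (XT.nd (nat_lit 78) (nat_lit 76) (nat_lit 0) (XT.lf (nat_lit 0) (nat_lit 11002640035) (nat_lit 456) (nat_lit 7657737909) (nat_lit 532) (nat_lit 2863175792) (nat_lit 164) (nat_lit 5) (nat_lit 170) (nat_lit 5) (nat_lit 171) (nat_lit 5) (nat_lit 491)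 (nat_lit 426) (nat_lit 223)) (XT.lf (nat_lit 0) (nat_lit 195723377) (nat_lit 532) (nat_lit 322444324) (nat_lit 76) (nat_lit 21281615407) (nat_lit 163) (nat_lit 5) (nat_lit 170) (nat_lit 5) (nat_lit 164) (nat_lit 5) (nat_lit 492) (nat_lit 426) (nat_lit 222))))) (XT.nd (nat_lit 234) (nat_lit 988) (nat_lit 0) (XT.nd (nat_lit 78) (nat_lit 456) (nat_lit 0) (XT.lf (nat_lit 0) (nat_lit 3382851743) (nat_lit 608) (nat_lit 11936501072) (nat_lit 76) (nat_lit 6759701961) (nat_lit 156) (nat_lit 5) (nat_lit 164) (nat_lit 5) (nat_lit 157) (nat_lit 5) (nat_lit 493) (nat_lit 426) (nat_lit 221)) (XT.nd (nat_lit 78) (nat_lit 456) (nat_lit 0) (XT.lf (nat_lit 0) (nat_lit 6634117388) (nat_lit 608) (nat_lit 1552880565) (nat_lit 76) (nat_lit 14176909956) (nat_lit 156) (nat_lit 5) (nat_lit 164) (nat_lit 5) (nat_lit 157) (nat_lit 5) (nat_lit 494) (nat_lit 426) (nat_lit 220)) (XT.lf (nat_lit 0) (nat_lit 9151784185) (nat_lit 456)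 (nat_lit 852930905) (nat_lit 532) (nat_lit 12648660730) (nat_lit 150) (nat_lit 5) (nat_lit 156) (nat_lit 5) (nat_lit 157) (nat_lit 5) (nat_lit 495) (nat_lit 426) (nat_lit 219)))) (XT.nd (nat_lit 156) (nat_lit 532) (nat_lit 0) (XT.nd (nat_lit 78) (nat_lit 456) (nat_lit 0) (XT.lf (nat_lit 0) (nat_lit 13491181098) (nat_lit 532) (nat_lit 2906640391) (nat_lit 76) (nat_lit 6549846246) (nat_lit 150) (nat_lit 5) (nat_lit 157) (nat_lit 5) (nat_lit 151) (nat_lit 5) (nat_lit 496) (nat_lit 426) (nat_lit 218)) (XT.lf (nat_lit 0) (nat_lit 7992813563) (nat_lit 456) (nat_lit 9107139891) (nat_lit 532) (nat_lit 6146844194) (nat_lit 144) (nat_lit 5) (nat_lit 150) (nat_lit 5) (nat_lit 151) (nat_lit 5) (nat_lit 497) (nat_lit 426) (nat_lit 217))) (XT.nd (nat_lit 78) (nat_lit 532) (nat_lit 0) (XT.lf (nat_lit 0) (nat_lit 19143125175) (nat_lit 456) (nat_lit 1652369967) (nat_lit 532) (nat_lit 2756126766) (nat_lit 144) (nat_lit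 5) (nat_lit 150) (nat_lit 5) (nat_lit 151) (nat_lit 5) (nat_lit 498) (nat_lit 426) (nat_lit 216)) (XT.lf (nat_lit 0) (nat_lit 770995780) (nat_lit 532) (nat_lit 17169479490) (nat_lit 76) (nat_lit 5920423602) (nat_lit 137) (nat_lit 5) (nat_lit 144) (nat_lit 5) (nat_lit 138) (nat_lit 5) (nat_lit 499) (nat_lit 426) (nat_lit 215))))))))
noncomputable def xc205 : XT := (XT.nd (nat_lit 54366) (nat_lit 0) (nat_lit 14136) (XT.nd (nat_lit 1014) (nat_lit 684) (nat_lit 0) (XT.nd (nat_lit 468) (nat_lit 1216) (nat_lit 0) (XT.nd (nat_lit 234) (nat_lit 760) (nat_lit 0) (XT.nd (nat_lit 78) (nat_lit 456) (nat_lit 0) (XT.lf (nat_lit 0) (nat_lit 4367705301) (nat_lit 532) (nat_lit 6138586564) (nat_lit 76) (nat_lit 13668989585) (nat_lit 137) (nat_lit 5) (nat_lit 144) (nat_lit 5) (nat_lit 138) (nat_lit 5) (nat_lit 500) (nat_lit 426) (nat_lit 214)) (XT.nd (nat_lit 78) (nat_lit 0) (nat_lit 0) (XT.lf (nat_lit 0) (nat_lit 5174397417)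 (nat_lit 456) (nat_lit 2890833948) (nat_lit 532) (nat_lit 16430146019) (nat_lit 131) (nat_lit 5) (nat_lit 137) (nat_lit 5) (nat_lit 138) (nat_lit 5) (nat_lit 501) (nat_lit 426) (nat_lit 213)) (XT.lf (nat_lit 0) (nat_lit 11905165174) (nat_lit 532) (nat_lit 8062570721) (nat_lit 76) (nat_lit 4852773483) (nat_lit 131) (nat_lit 5) (nat_lit 138) (nat_lit 5) (nat_lit 132) (nat_lit 5) (nat_lit 502) (nat_lit 426) (nat_lit 212)))) (XT.nd (nat_lit 78) (nat_lit 380) (nat_lit 0) (XT.lf (nat_lit 0) (nat_lit 3440679901) (nat_lit 380) (nat_lit 12418120146) (nat_lit 456) (nat_lit 9292609138) (nat_lit 126) (nat_lit 5) (nat_lit 131) (nat_lit 5) (nat_lit 132) (nat_lit 5) (nat_lit 503) (nat_lit 426) (nat_lit 211)) (XT.nd (nat_lit 78) (nat_lit 380) (nat_lit 0) (XT.lf (nat_lit 0) (nat_lit 15277019952) (nat_lit 380) (nat_lit 4664059524) (nat_lit 456) (nat_lit 5546859231) (nat_lit 126) (nat_lit 5) (nat_lit 131) (nat_lit 5) (nat_lit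 132) (nat_lit 5) (nat_lit 504) (nat_lit 426) (nat_lit 210)) (XT.lf (nat_lit 0) (nat_lit 1511417345) (nat_lit 380) (nat_lit 22620015098) (nat_lit 456) (nat_lit 1699240915) (nat_lit 121) (nat_lit 5) (nat_lit 126) (nat_lit 5) (nat_lit 127) (nat_lit 5) (nat_lit 505) (nat_lit 426) (nat_lit 209))))) (XT.nd (nat_lit 234) (nat_lit 760) (nat_lit 0) (XT.nd (nat_lit 78) (nat_lit 380) (nat_lit 0) (XT.lf (nat_lit 0) (nat_lit 2291567010) (nat_lit 456) (nat_lit 12624315283) (nat_lit 76) (nat_lit 11262185960) (nat_lit 120) (nat_lit 5) (nat_lit 126) (nat_lit 5) (nat_lit 121) (nat_lit 5) (nat_lit 506) (nat_lit 426) (nat_lit 208)) (XT.nd (nat_lit 78) (nat_lit 380) (nat_lit 0) (XT.lf (nat_lit 0) (nat_lit 6335107187) (nat_lit 456) (nat_lit 712851485) (nat_lit 76) (nat_lit 19484317272) (nat_lit 120) (nat_lit 5) (nat_lit 126) (nat_lit 5) (nat_lit 121) (nat_lit 5) (nat_lit 507) (nat_lit 426) (nat_lit 207)) (XT.lf (nat_lit 0)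 (nat_lit 10537286254) (nat_lit 456) (nat_lit 15316235154) (nat_lit 76) (nat_lit 1038493881) (nat_lit 115) (nat_lit 5) (nat_lit 121) (nat_lit 5) (nat_lit 116) (nat_lit 5) (nat_lit 508) (nat_lit 426) (nat_lit 206)))) (XT.nd (nat_lit 156) (nat_lit 380) (nat_lit 0) (XT.nd (nat_lit 78) (nat_lit 380) (nat_lit 0) (XT.lf (nat_lit 0) (nat_lit 14870766061) (nat_lit 456) (nat_lit 3191752272) (nat_lit 76) (nat_lit 9195488749) (nat_lit 115) (nat_lit 5) (nat_lit 121) (nat_lit 5) (nat_lit 116) (nat_lit 5) (nat_lit 509) (nat_lit 426) (nat_lit 205)) (XT.lf (nat_lit 0) (nat_lit 9291154947) (nat_lit 380) (nat_lit 10055934512) (nat_lit 456) (nat_lit 8283108518) (nat_lit 110) (nat_lit 5) (nat_lit 115) (nat_lit 5) (nat_lit 116) (nat_lit 5) (nat_lit 510) (nat_lit 426) (nat_lit 204))) (XT.nd (nat_lit 78) (nat_lit 380) (nat_lit 0) (XT.lf (nat_lit 0) (nat_lit 22061103813) (nat_lit 380) (nat_lit 1869146697) (nat_lit 456) (nat_lit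 4079238652) (nat_lit 110) (nat_lit 5) (nat_lit 115) (nat_lit 5) (nat_lit 116) (nat_lit 5) (nat_lit 511) (nat_lit 426) (nat_lit 203)) (XT.lf (nat_lit 0) (nat_lit 288252033) (nat_lit 380) (nat_lit 21666193489) (nat_lit 76) (nat_lit 6440250525) (nat_lit 105) (nat_lit 5) (nat_lit 110) (nat_lit 5) (nat_lit 106) (nat_lit 5) (nat_lit 512) (nat_lit 426) (nat_lit 202)))))) (XT.nd (nat_lit 52806) (nat_lit 0) (nat_lit 21888) (XT.nd (nat_lit 234) (nat_lit 304) (nat_lit 0) (XT.nd (nat_lit 78) (nat_lit 380) (nat_lit 0) (XT.lf (nat_lit 0) (nat_lit 4737056769) (nat_lit 380) (nat_lit 9092761929) (nat_lit 76) (nat_lit 14956279931) (nat_lit 105) (nat_lit 5) (nat_lit 110) (nat_lit 5) (nat_lit 106) (nat_lit 5) (nat_lit 513) (nat_lit 426) (nat_lit 201)) (XT.nd (nat_lit 78) (nat_lit 0) (nat_lit 0) (XT.lf (nat_lit 0) (nat_lit 3775919217) (nat_lit 380) (nat_lit 5519487666) (nat_lit 456) (nat_lit 19889513484) (nat_lit 100) (nat_lit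 5) (nat_lit 105) (nat_lit 5) (nat_lit 106) (nat_lit 5) (nat_lit 514) (nat_lit 426) (nat_lit 200)) (XT.lf (nat_lit 0) (nat_lit 14021626634) (nat_lit 456) (nat_lit 12590644675) (nat_lit 76) (nat_lit 2977915618) (nat_lit 100) (nat_lit 5) (nat_lit 106) (nat_lit 5) (nat_lit 101) (nat_lit 5) (nat_lit 515) (nat_lit 426) (nat_lit 199)))) (XT.nd (nat_lit 52416) (nat_lit 0) (nat_lit 21812) (XT.nd (nat_lit 78) (nat_lit 0) (nat_lit 0) (XT.lf (nat_lit 0) (nat_lit 447739360) (nat_lit 304) (nat_lit 18430250356) (nat_lit 380) (nat_lit 11124859116) (nat_lit 96) (nat_lit 5) (nat_lit 100) (nat_lit 5) (nat_lit 101) (nat_lit 5) (nat_lit 516) (nat_lit 426) (nat_lit 198)) (XT.lf (nat_lit 0) (nat_lit 13911938955) (nat_lit 304) (nat_lit 10000228790) (nat_lit 380) (nat_lit 6509984824) (nat_lit 96) (nat_lit 5) (nat_lit 100) (nat_lit 5) (nat_lit 101) (nat_lit 5) (nat_lit 517) (nat_lit 426) (nat_lit 197))) (XT.nd (nat_lit 78) (nat_lit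 0) (nat_lit 0) (XT.lf (nat_lit 0) (nat_lit 2638943459) (nat_lit 1596) (nat_lit 1379286886) (nat_lit 1596) (nat_lit 1379286886) (nat_lit 383) (nat_lit 3) (nat_lit 404) (nat_lit 3) (nat_lit 404) (nat_lit 5) (nat_lit 427) (nat_lit 427) (nat_lit 286)) (XT.lf (nat_lit 76) (nat_lit 2058267782) (nat_lit 0) (nat_lit 3845808748) (nat_lit 1596) (nat_lit 4986829459) (nat_lit 384) (nat_lit 5) (nat_lit 383) (nat_lit 3) (nat_lit 404) (nat_lit 5) (nat_lit 428) (nat_lit 427) (nat_lit 285))))) (XT.nd (nat_lit 234) (nat_lit 0) (nat_lit 76) (XT.nd (nat_lit 78) (nat_lit 0) (nat_lit 0) (XT.lf (nat_lit 0) (nat_lit 6549513905) (nat_lit 1520) (nat_lit 3990347933) (nat_lit 1596) (nat_lit 448714643) (nat_lit 384) (nat_lit 5) (nat_lit 404) (nat_lit 5) (nat_lit 405) (nat_lit 5) (nat_lit 429) (nat_lit 427) (nat_lit 284)) (XT.nd (nat_lit 78) (nat_lit 0) (nat_lit 0) (XT.lf (nat_lit 76) (nat_lit 927685122) (nat_lit 0) (nat_lit 6297261865)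 (nat_lit 1596) (nat_lit 3862927361) (nat_lit 385) (nat_lit 5) (nat_lit 384) (nat_lit 5) (nat_lit 405) (nat_lit 5) (nat_lit 430) (nat_lit 427) (nat_lit 283)) (XT.lf (nat_lit 76) (nat_lit 5990419529) (nat_lit 0) (nat_lit 1936073555) (nat_lit 1596) (nat_lit 3262428395) (nat_lit 385) (nat_lit 5) (nat_lit 384) (nat_lit 5) (nat_lit 405) (nat_lit 5) (nat_lit 431) (nat_lit 427) (nat_lit 282)))) (XT.nd (nat_lit 156) (nat_lit 0) (nat_lit 76) (XT.nd (nat_lit 78) (nat_lit 0) (nat_lit 0) (XT.lf (nat_lit 0) (nat_lit 8644527678) (nat_lit 1520) (nat_lit 161824154) (nat_lit 1596) (nat_lit 2485603660) (nat_lit 385) (nat_lit 5) (nat_lit 405) (nat_lit 5) (nat_lit 406) (nat_lit 5) (nat_lit 432) (nat_lit 427) (nat_lit 281)) (XT.lf (nat_lit 76) (nat_lit 5020838783) (nat_lit 0) (nat_lit 4387921934) (nat_lit 1596) (nat_lit 1987667512) (nat_lit 386) (nat_lit 5) (nat_lit 385) (nat_lit 5) (nat_lit 406) (nat_lit 5) (nat_lit 433)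 (nat_lit 427) (nat_lit 280))) (XT.nd (nat_lit 78) (nat_lit 0) (nat_lit 0) (XT.lf (nat_lit 0) (nat_lit 10176813617) (nat_lit 1520) (nat_lit 1202442414) (nat_lit 1596) (nat_lit 123978191) (nat_lit 386) (nat_lit 5) (nat_lit 406) (nat_lit 5) (nat_lit 407) (nat_lit 5) (nat_lit 434) (nat_lit 427) (nat_lit 279)) (XT.lf (nat_lit 76) (nat_lit 4090875507) (nat_lit 0) (nat_lit 6911903455) (nat_lit 1596) (nat_lit 608560569) (nat_lit 387) (nat_lit 5) (nat_lit 386) (nat_lit 5) (nat_lit 407) (nat_lit 5) (nat_lit 435) (nat_lit 427) (nat_lit 278))))))) (XT.nd (nat_lit 1092) (nat_lit 6308) (nat_lit 0) (XT.nd (nat_lit 546) (nat_lit 0) (nat_lit 228) (XT.nd (nat_lit 234) (nat_lit 0) (nat_lit 76) (XT.nd (nat_lit 78) (nat_lit 0) (nat_lit 76) (XT.lf (nat_lit 0) (nat_lit 117195408) (nat_lit 1596) (nat_lit 2223962233) (nat_lit 1672) (nat_lit 9380543706) (nat_lit 365) (nat_lit 5) (nat_lit 386) (nat_lit 5) (nat_lit 387) (nat_lit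 5) (nat_lit 436) (nat_lit 427) (nat_lit 277)) (XT.nd (nat_lit 78) (nat_lit 0) (nat_lit 0) (XT.lf (nat_lit 0) (nat_lit 872716063) (nat_lit 1596) (nat_lit 8640647108) (nat_lit 1672) (nat_lit 2320372215) (nat_lit 366) (nat_lit 5) (nat_lit 387) (nat_lit 5) (nat_lit 388) (nat_lit 5) (nat_lit 437) (nat_lit 427) (nat_lit 276)) (XT.lf (nat_lit 0) (nat_lit 1661395461) (nat_lit 1596) (nat_lit 3222793064) (nat_lit 1672) (nat_lit 7063473753) (nat_lit 366) (nat_lit 5) (nat_lit 387) (nat_lit 5) (nat_lit 388) (nat_lit 5) (nat_lit 438) (nat_lit 427) (nat_lit 275)))) (XT.nd (nat_lit 156) (nat_lit 0) (nat_lit 76) (XT.nd (nat_lit 78) (nat_lit 0) (nat_lit 76) (XT.lf (nat_lit 76) (nat_lit 2325978151) (nat_lit 0) (nat_lit 142737955) (nat_lit 1672) (nat_lit 9595107130) (nat_lit 367) (nat_lit 5) (nat_lit 366) (nat_lit 5) (nat_lit 388) (nat_lit 5) (nat_lit 439) (nat_lit 427) (nat_lit 274)) (XT.lf (nat_lit 0) (nat_lit 3332408073)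 (nat_lit 1596) (nat_lit 4191254846) (nat_lit 1672) (nat_lit 4657852625) (nat_lit 367) (nat_lit 5) (nat_lit 388) (nat_lit 5) (nat_lit 389) (nat_lit 5) (nat_lit 440) (nat_lit 427) (nat_lit 273))) (XT.nd (nat_lit 78) (nat_lit 0) (nat_lit 76) (XT.lf (nat_lit 76) (nat_lit 1476675289) (nat_lit 0) (nat_lit 2735448549) (nat_lit 1672) (nat_lit 8089475242) (nat_lit 368) (nat_lit 5) (nat_lit 367) (nat_lit 5) (nat_lit 389) (nat_lit 5) (nat_lit 441) (nat_lit 427) (nat_lit 272)) (XT.lf (nat_lit 0) (nat_lit 5140115511) (nat_lit 1596) (nat_lit 5131108757) (nat_lit 1672) (nat_lit 2152258525) (nat_lit 368) (nat_lit 5) (nat_lit 389) (nat_lit 5) (nat_lit 390) (nat_lit 5) (nat_lit 442) (nat_lit 427) (nat_lit 271))))) (XT.nd (nat_lit 234) (nat_lit 0) (nat_lit 76) (XT.nd (nat_lit 78) (nat_lit 0) (nat_lit 0) (XT.lf (nat_lit 76) (nat_lit 659043214) (nat_lit 0) (nat_lit 5438665479) (nat_lit 1672) (nat_lit 6449886554) (nat_lit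 369) (nat_lit 5) (nat_lit 368) (nat_lit 5) (nat_lit 390) (nat_lit 5) (nat_lit 443) (nat_lit 427) (nat_lit 270)) (XT.nd (nat_lit 78) (nat_lit 0) (nat_lit 76) (XT.lf (nat_lit 76) (nat_lit 6626537548) (nat_lit 0) (nat_lit 471166380) (nat_lit 1672) (nat_lit 5576032686) (nat_lit 369) (nat_lit 5) (nat_lit 368) (nat_lit 5) (nat_lit 390) (nat_lit 5) (nat_lit 444) (nat_lit 427) (nat_lit 269)) (XT.lf (nat_lit 0) (nat_lit 8136594464) (nat_lit 1596) (nat_lit 126965189) (nat_lit 1672) (nat_lit 4538474687) (nat_lit 369) (nat_lit 5) (nat_lit 390) (nat_lit 5) (nat_lit 391) (nat_lit 5) (nat_lit 445) (nat_lit 427) (nat_lit 268)))) (XT.nd (nat_lit 156) (nat_lit 0) (nat_lit 76) (XT.nd (nat_lit 78) (nat_lit 0) (nat_lit 76) (XT.lf (nat_lit 76) (nat_lit 5979020032) (nat_lit 0) (nat_lit 3248454587) (nat_lit 1672) (nat_lit 3704810377) (nat_lit 370) (nat_lit 5) (nat_lit 369) (nat_lit 5) (nat_lit 391) (nat_lit 5) (nat_lit 446)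 (nat_lit 427) (nat_lit 267)) (XT.lf (nat_lit 0) (nat_lit 10342599697) (nat_lit 1596) (nat_lit 876541142) (nat_lit 1672) (nat_lit 1845962274) (nat_lit 370) (nat_lit 5) (nat_lit 391) (nat_lit 5) (nat_lit 392) (nat_lit 5) (nat_lit 447) (nat_lit 427) (nat_lit 266))) (XT.nd (nat_lit 78) (nat_lit 0) (nat_lit 0) (XT.lf (nat_lit 76) (nat_lit 5362558281) (nat_lit 0) (nat_lit 6163454302) (nat_lit 1672) (nat_lit 1673656083) (nat_lit 371) (nat_lit 5) (nat_lit 370) (nat_lit 5) (nat_lit 392) (nat_lit 5) (nat_lit 448) (nat_lit 427) (nat_lit 265)) (XT.lf (nat_lit 76) (nat_lit 11730397073) (nat_lit 0) (nat_lit 998385176) (nat_lit 1672) (nat_lit 608240078) (nat_lit 371) (nat_lit 5) (nat_lit 370) (nat_lit 5) (nat_lit 392) (nat_lit 5) (nat_lit 449) (nat_lit 427) (nat_lit 264)))))) (XT.nd (nat_lit 546) (nat_lit 2508) (nat_lit 0) (XT.nd (nat_lit 234) (nat_lit 2584) (nat_lit 0) (XT.nd (nat_lit 78) (nat_lit 0) (nat_lit 0) (XT.lf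 (nat_lit 0) (nat_lit 521270771) (nat_lit 1672) (nat_lit 8704205512) (nat_lit 1748) (nat_lit 4250613563) (nat_lit 349) (nat_lit 5) (nat_lit 371) (nat_lit 5) (nat_lit 372) (nat_lit 5) (nat_lit 450) (nat_lit 427) (nat_lit 263)) (XT.nd (nat_lit 78) (nat_lit 0) (nat_lit 76) (XT.lf (nat_lit 0) (nat_lit 1672789380) (nat_lit 1672) (nat_lit 2336774783) (nat_lit 1748) (nat_lit 9608152863) (nat_lit 349) (nat_lit 5) (nat_lit 371) (nat_lit 5) (nat_lit 372) (nat_lit 5) (nat_lit 451) (nat_lit 427) (nat_lit 262)) (XT.lf (nat_lit 0) (nat_lit 2873627744) (nat_lit 1672) (nat_lit 9565304237) (nat_lit 76) (nat_lit 1322728743) (nat_lit 350) (nat_lit 5) (nat_lit 372) (nat_lit 5) (nat_lit 351) (nat_lit 5) (nat_lit 452) (nat_lit 427) (nat_lit 261)))) (XT.nd (nat_lit 156) (nat_lit 988) (nat_lit 0) (XT.nd (nat_lit 78) (nat_lit 1672) (nat_lit 0) (XT.lf (nat_lit 0) (nat_lit 4131255641) (nat_lit 1672) (nat_lit 3051085233) (nat_lit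 76) (nat_lit 6725496539) (nat_lit 350) (nat_lit 5) (nat_lit 372) (nat_lit 5) (nat_lit 351) (nat_lit 5) (nat_lit 453) (nat_lit 427) (nat_lit 260)) (XT.lf (nat_lit 0) (nat_lit 3633141687) (nat_lit 1672) (nat_lit 1795105256) (nat_lit 1748) (nat_lit 8628415859) (nat_lit 328) (nat_lit 5) (nat_lit 350) (nat_lit 5) (nat_lit 351) (nat_lit 5) (nat_lit 454) (nat_lit 427) (nat_lit 259))) (XT.nd (nat_lit 78) (nat_lit 988) (nat_lit 0) (XT.lf (nat_lit 0) (nat_lit 6786573842) (nat_lit 1748) (nat_lit 3747878069) (nat_lit 76) (nat_lit 3673314071) (nat_lit 328) (nat_lit 5) (nat_lit 351) (nat_lit 5) (nat_lit 329) (nat_lit 5) (nat_lit 455) (nat_lit 427) (nat_lit 258)) (XT.lf (nat_lit 0) (nat_lit 3081891010) (nat_lit 988) (nat_lit 5113018913) (nat_lit 1064) (nat_lit 6166533469) (nat_lit 315) (nat_lit 5) (nat_lit 328) (nat_lit 5) (nat_lit 329) (nat_lit 5) (nat_lit 456) (nat_lit 427) (nat_lit 257))))) (XT.nd (nat_lit 234) (nat_lit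 1672) (nat_lit 0) (XT.nd (nat_lit 78) (nat_lit 836) (nat_lit 0) (XT.lf (nat_lit 0) (nat_lit 9650514167) (nat_lit 1064) (nat_lit 4429565867) (nat_lit 76) (nat_lit 437741130) (nat_lit 315) (nat_lit 5) (nat_lit 329) (nat_lit 5) (nat_lit 316) (nat_lit 5) (nat_lit 457) (nat_lit 427) (nat_lit 256)) (XT.nd (nat_lit 78) (nat_lit 0) (nat_lit 0) (XT.lf (nat_lit 0) (nat_lit 2549088642) (nat_lit 836) (nat_lit 8627806444) (nat_lit 912) (nat_lit 3499606782) (nat_lit 304) (nat_lit 5) (nat_lit 315) (nat_lit 5) (nat_lit 316) (nat_lit 5) (nat_lit 458) (nat_lit 427) (nat_lit 255)) (XT.lf (nat_lit 0) (nat_lit 9719509723) (nat_lit 836) (nat_lit 3035392320) (nat_lit 912) (nat_lit 2083040673) (nat_lit 304) (nat_lit 5) (nat_lit 315) (nat_lit 5) (nat_lit 316) (nat_lit 5) (nat_lit 459) (nat_lit 427) (nat_lit 254)))) (XT.nd (nat_lit 156) (nat_lit 760) (nat_lit 0) (XT.nd (nat_lit 78) (nat_lit 76) (nat_lit 0) (XT.lf (nat_lit 0) (nat_lit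 2032172139) (nat_lit 836) (nat_lit 12354367068) (nat_lit 912) (nat_lit 615640106) (nat_lit 293) (nat_lit 5) (nat_lit 304) (nat_lit 5) (nat_lit 305) (nat_lit 5) (nat_lit 460) (nat_lit 427) (nat_lit 253)) (XT.lf (nat_lit 0) (nat_lit 915828775) (nat_lit 912) (nat_lit 5807839502) (nat_lit 76) (nat_lit 8445000434) (nat_lit 292) (nat_lit 5) (nat_lit 304) (nat_lit 5) (nat_lit 293) (nat_lit 5) (nat_lit 461) (nat_lit 427) (nat_lit 252))) (XT.nd (nat_lit 78) (nat_lit 0) (nat_lit 0) (XT.lf (nat_lit 0) (nat_lit 1505447726) (nat_lit 760) (nat_lit 965782093) (nat_lit 836) (nat_lit 12867153617) (nat_lit 282) (nat_lit 5) (nat_lit 292) (nat_lit 5) (nat_lit 293) (nat_lit 5) (nat_lit 462) (nat_lit 427) (nat_lit 251)) (XT.lf (nat_lit 0) (nat_lit 4120709719) (nat_lit 836) (nat_lit 6507017154) (nat_lit 76) (nat_lit 4882513865) (nat_lit 282) (nat_lit 5) (nat_lit 293) (nat_lit 5) (nat_lit 283) (nat_lit 5) (nat_lit 463) (nat_lit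 427) (nat_lit 250))))))))
noncomputable def xc206 : XT := (XT.nd (nat_lit 2106) (nat_lit 5320) (nat_lit 0) (XT.nd (nat_lit 1014) (nat_lit 4256) (nat_lit 0) (XT.nd (nat_lit 468) (nat_lit 2052) (nat_lit 0) (XT.nd (nat_lit 234) (nat_lit 760) (nat_lit 0) (XT.nd (nat_lit 78) (nat_lit 684) (nat_lit 0) (XT.lf (nat_lit 0) (nat_lit 963908481) (nat_lit 760) (nat_lit 4843962105) (nat_lit 836) (nat_lit 9877578319) (nat_lit 272) (nat_lit 5) (nat_lit 282) (nat_lit 5) (nat_lit 283) (nat_lit 5) (nat_lit 464) (nat_lit 427) (nat_lit 249)) (XT.nd (nat_lit 78) (nat_lit 684) (nat_lit 0) (XT.lf (nat_lit 0) (nat_lit 7571726426) (nat_lit 836) (nat_lit 7205844698) (nat_lit 76) (nat_lit 1085738474) (nat_lit 272) (nat_lit 5) (nat_lit 283) (nat_lit 5) (nat_lit 273) (nat_lit 5) (nat_lit 465) (nat_lit 427) (nat_lit 248)) (XT.lf (nat_lit 0) (nat_lit 425954849) (nat_lit 684) (nat_lit 8972047577) (nat_lit 760) (nat_lit 6646189472) (nat_lit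 263) (nat_lit 5) (nat_lit 272) (nat_lit 5) (nat_lit 273) (nat_lit 5) (nat_lit 466) (nat_lit 427) (nat_lit 247)))) (XT.nd (nat_lit 78) (nat_lit 760) (nat_lit 0) (XT.lf (nat_lit 0) (nat_lit 8300400935) (nat_lit 684) (nat_lit 3001157503) (nat_lit 760) (nat_lit 4926325428) (nat_lit 263) (nat_lit 5) (nat_lit 272) (nat_lit 5) (nat_lit 273) (nat_lit 5) (nat_lit 467) (nat_lit 427) (nat_lit 246)) (XT.nd (nat_lit 78) (nat_lit 760) (nat_lit 0) (XT.lf (nat_lit 0) (nat_lit 13255790474) (nat_lit 760) (nat_lit 110642376) (nat_lit 76) (nat_lit 3048571697) (nat_lit 263) (nat_lit 5) (nat_lit 273) (nat_lit 5) (nat_lit 264) (nat_lit 5) (nat_lit 468) (nat_lit 427) (nat_lit 245)) (XT.lf (nat_lit 0) (nat_lit 7939263236) (nat_lit 760) (nat_lit 7373960299) (nat_lit 836) (nat_lit 1291368615) (nat_lit 253) (nat_lit 5) (nat_lit 263) (nat_lit 5) (nat_lit 264) (nat_lit 5) (nat_lit 469) (nat_lit 427) (nat_lit 244))))) (XT.nd (nat_lit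 234) (nat_lit 1292) (nat_lit 0) (XT.nd (nat_lit 78) (nat_lit 684) (nat_lit 0) (XT.lf (nat_lit 0) (nat_lit 599265173) (nat_lit 836) (nat_lit 657855285) (nat_lit 76) (nat_lit 15540908269) (nat_lit 252) (nat_lit 5) (nat_lit 263) (nat_lit 5) (nat_lit 253) (nat_lit 5) (nat_lit 470) (nat_lit 427) (nat_lit 243)) (XT.nd (nat_lit 78) (nat_lit 0) (nat_lit 0) (XT.lf (nat_lit 0) (nat_lit 2585342632) (nat_lit 760) (nat_lit 9433676139) (nat_lit 76) (nat_lit 4974652538) (nat_lit 243) (nat_lit 5) (nat_lit 253) (nat_lit 5) (nat_lit 244) (nat_lit 5) (nat_lit 471) (nat_lit 427) (nat_lit 242)) (XT.lf (nat_lit 0) (nat_lit 4616877283) (nat_lit 760) (nat_lit 1257895296) (nat_lit 76) (nat_lit 11318345765) (nat_lit 243) (nat_lit 5) (nat_lit 253) (nat_lit 5) (nat_lit 244) (nat_lit 5) (nat_lit 472) (nat_lit 427) (nat_lit 241)))) (XT.nd (nat_lit 156) (nat_lit 608) (nat_lit 0) (XT.nd (nat_lit 78) (nat_lit 0) (nat_lit 0) (XT.lf (nat_lit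 0) (nat_lit 6731539285) (nat_lit 760) (nat_lit 10230583777) (nat_lit 76) (nat_lit 433587516) (nat_lit 234) (nat_lit 5) (nat_lit 244) (nat_lit 5) (nat_lit 235) (nat_lit 5) (nat_lit 473) (nat_lit 427) (nat_lit 240)) (XT.lf (nat_lit 0) (nat_lit 8929086082) (nat_lit 760) (nat_lit 1874952261) (nat_lit 76) (nat_lit 6797510552) (nat_lit 234) (nat_lit 5) (nat_lit 244) (nat_lit 5) (nat_lit 235) (nat_lit 5) (nat_lit 474) (nat_lit 427) (nat_lit 239))) (XT.nd (nat_lit 78) (nat_lit 0) (nat_lit 0) (XT.lf (nat_lit 0) (nat_lit 6728721463) (nat_lit 608) (nat_lit 4478871964) (nat_lit 684) (nat_lit 6603176311) (nat_lit 226) (nat_lit 5) (nat_lit 234) (nat_lit 5) (nat_lit 235) (nat_lit 5) (nat_lit 475) (nat_lit 427) (nat_lit 238)) (XT.lf (nat_lit 0) (nat_lit 13550546496) (nat_lit 684) (nat_lit 2514335244) (nat_lit 76) (nat_lit 1958921578) (nat_lit 226) (nat_lit 5) (nat_lit 235) (nat_lit 5) (nat_lit 227) (nat_lit 5) (nat_lit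 476) (nat_lit 427) (nat_lit 237)))))) (XT.nd (nat_lit 546) (nat_lit 1748) (nat_lit 0) (XT.nd (nat_lit 234) (nat_lit 1140) (nat_lit 0) (XT.nd (nat_lit 78) (nat_lit 684) (nat_lit 0) (XT.lf (nat_lit 0) (nat_lit 6270044597) (nat_lit 684) (nat_lit 9734215726) (nat_lit 760) (nat_lit 2235564933) (nat_lit 217) (nat_lit 5) (nat_lit 226) (nat_lit 5) (nat_lit 227) (nat_lit 5) (nat_lit 477) (nat_lit 427) (nat_lit 236)) (XT.nd (nat_lit 78) (nat_lit 608) (nat_lit 0) (XT.lf (nat_lit 0) (nat_lit 56813379) (nat_lit 760) (nat_lit 3203353882) (nat_lit 76) (nat_lit 15199788833) (nat_lit 216) (nat_lit 5) (nat_lit 226) (nat_lit 5) (nat_lit 217) (nat_lit 5) (nat_lit 478) (nat_lit 427) (nat_lit 235)) (XT.lf (nat_lit 0) (nat_lit 2418479487) (nat_lit 684) (nat_lit 12913215916) (nat_lit 76) (nat_lit 3351436505) (nat_lit 208) (nat_lit 5) (nat_lit 217) (nat_lit 5) (nat_lit 209) (nat_lit 5) (nat_lit 479) (nat_lit 427) (nat_lit 234))))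 (XT.nd (nat_lit 156) (nat_lit 532) (nat_lit 0) (XT.nd (nat_lit 78) (nat_lit 608) (nat_lit 0) (XT.lf (nat_lit 0) (nat_lit 4864369233) (nat_lit 684) (nat_lit 3973236669) (nat_lit 76) (nat_lit 10072430814) (nat_lit 208) (nat_lit 5) (nat_lit 217) (nat_lit 5) (nat_lit 209) (nat_lit 5) (nat_lit 480) (nat_lit 427) (nat_lit 233)) (XT.lf (nat_lit 0) (nat_lit 5206735261) (nat_lit 608) (nat_lit 2180130672) (nat_lit 684) (nat_lit 11754065083) (nat_lit 200) (nat_lit 5) (nat_lit 208) (nat_lit 5) (nat_lit 209) (nat_lit 5) (nat_lit 481) (nat_lit 427) (nat_lit 232))) (XT.nd (nat_lit 78) (nat_lit 532) (nat_lit 0) (XT.lf (nat_lit 0) (nat_lit 10010537264) (nat_lit 684) (nat_lit 4789022909) (nat_lit 76) (nat_lit 4575873615) (nat_lit 200) (nat_lit 5) (nat_lit 209) (nat_lit 5) (nat_lit 201) (nat_lit 5) (nat_lit 482) (nat_lit 427) (nat_lit 231)) (XT.lf (nat_lit 0) (nat_lit 4577625456) (nat_lit 532) (nat_lit 8147285329) (nat_lit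 608) (nat_lit 6888956234) (nat_lit 193) (nat_lit 5) (nat_lit 200) (nat_lit 5) (nat_lit 201) (nat_lit 5) (nat_lit 483) (nat_lit 427) (nat_lit 230))))) (XT.nd (nat_lit 234) (nat_lit 1064) (nat_lit 0) (XT.nd (nat_lit 78) (nat_lit 684) (nat_lit 0) (XT.lf (nat_lit 0) (nat_lit 14189543112) (nat_lit 532) (nat_lit 1330306317) (nat_lit 608) (nat_lit 4336698813) (nat_lit 193) (nat_lit 5) (nat_lit 200) (nat_lit 5) (nat_lit 201) (nat_lit 5) (nat_lit 484) (nat_lit 427) (nat_lit 229)) (XT.nd (nat_lit 78) (nat_lit 76) (nat_lit 0) (XT.lf (nat_lit 0) (nat_lit 3897265224) (nat_lit 608) (nat_lit 14529482120) (nat_lit 684) (nat_lit 1676219323) (nat_lit 185) (nat_lit 5) (nat_lit 193) (nat_lit 5) (nat_lit 194) (nat_lit 5) (nat_lit 485) (nat_lit 427) (nat_lit 228)) (XT.lf (nat_lit 0) (nat_lit 1065227742) (nat_lit 684) (nat_lit 6646702662) (nat_lit 76) (nat_lit 12641425645) (nat_lit 184) (nat_lit 5) (nat_lit 193) (nat_lit 5)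 (nat_lit 185) (nat_lit 5) (nat_lit 486) (nat_lit 427) (nat_lit 227)))) (XT.nd (nat_lit 156) (nat_lit 532) (nat_lit 0) (XT.nd (nat_lit 78) (nat_lit 0) (nat_lit 0) (XT.lf (nat_lit 0) (nat_lit 3126526590) (nat_lit 532) (nat_lit 727239497) (nat_lit 608) (nat_lit 16754475907) (nat_lit 177) (nat_lit 5) (nat_lit 184) (nat_lit 5) (nat_lit 185) (nat_lit 5) (nat_lit 487) (nat_lit 427) (nat_lit 226)) (XT.lf (nat_lit 0) (nat_lit 6778952095) (nat_lit 608) (nat_lit 7730761032) (nat_lit 76) (nat_lit 6356899415) (nat_lit 177) (nat_lit 5) (nat_lit 185) (nat_lit 5) (nat_lit 178) (nat_lit 5) (nat_lit 488) (nat_lit 427) (nat_lit 225))) (XT.nd (nat_lit 78) (nat_lit 0) (nat_lit 0) (XT.lf (nat_lit 0) (nat_lit 2232901003) (nat_lit 532) (nat_lit 7543607516) (nat_lit 608) (nat_lit 11353368982) (nat_lit 170) (nat_lit 5) (nat_lit 177) (nat_lit 5) (nat_lit 178) (nat_lit 5) (nat_lit 489) (nat_lit 427) (nat_lit 224)) (XT.lf (nat_lit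 0) (nat_lit 12493893219) (nat_lit 532) (nat_lit 386616465) (nat_lit 608) (nat_lit 8516972451) (nat_lit 170) (nat_lit 5) (nat_lit 177) (nat_lit 5) (nat_lit 178) (nat_lit 5) (nat_lit 490) (nat_lit 427) (nat_lit 223))))))) (XT.nd (nat_lit 1092) (nat_lit 1976) (nat_lit 0) (XT.nd (nat_lit 546) (nat_lit 1824) (nat_lit 0) (XT.nd (nat_lit 234) (nat_lit 456) (nat_lit 0) (XT.nd (nat_lit 78) (nat_lit 608) (nat_lit 0) (XT.lf (nat_lit 0) (nat_lit 1254528035) (nat_lit 456) (nat_lit 14839808287) (nat_lit 532) (nat_lit 5575151799) (nat_lit 164) (nat_lit 5) (nat_lit 170) (nat_lit 5) (nat_lit 171) (nat_lit 5) (nat_lit 491) (nat_lit 427) (nat_lit 222)) (XT.nd (nat_lit 78) (nat_lit 608) (nat_lit 0) (XT.lf (nat_lit 0) (nat_lit 11727242909) (nat_lit 456) (nat_lit 7702261401) (nat_lit 532) (nat_lit 2516292705) (nat_lit 164) (nat_lit 5) (nat_lit 170) (nat_lit 5) (nat_lit 171) (nat_lit 5) (nat_lit 492) (nat_lit 427) (nat_lit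 221)) (XT.lf (nat_lit 0) (nat_lit 173533577) (nat_lit 532) (nat_lit 418256596) (nat_lit 608) (nat_lit 21635848144) (nat_lit 156) (nat_lit 5) (nat_lit 163) (nat_lit 5) (nat_lit 164) (nat_lit 5) (nat_lit 493) (nat_lit 427) (nat_lit 220)))) (XT.nd (nat_lit 156) (nat_lit 456) (nat_lit 0) (XT.nd (nat_lit 78) (nat_lit 0) (nat_lit 0) (XT.lf (nat_lit 0) (nat_lit 3837809176) (nat_lit 608) (nat_lit 11671063418) (nat_lit 76) (nat_lit 7003725696) (nat_lit 156) (nat_lit 5) (nat_lit 164) (nat_lit 5) (nat_lit 157) (nat_lit 5) (nat_lit 494) (nat_lit 427) (nat_lit 219)) (XT.lf (nat_lit 0) (nat_lit 7146506009) (nat_lit 608) (nat_lit 1089656142) (nat_lit 76) (nat_lit 14567143936) (nat_lit 156) (nat_lit 5) (nat_lit 164) (nat_lit 5) (nat_lit 157) (nat_lit 5) (nat_lit 495) (nat_lit 427) (nat_lit 218))) (XT.nd (nat_lit 78) (nat_lit 0) (nat_lit 0) (XT.lf (nat_lit 0) (nat_lit 9825850048) (nat_lit 456) (nat_lit 754408489) (nat_lit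 532) (nat_lit 12518395565) (nat_lit 150) (nat_lit 5) (nat_lit 156) (nat_lit 5) (nat_lit 157) (nat_lit 5) (nat_lit 496) (nat_lit 427) (nat_lit 217)) (XT.lf (nat_lit 0) (nat_lit 14129827832) (nat_lit 532) (nat_lit 2476470272) (nat_lit 76) (nat_lit 6792671767) (nat_lit 150) (nat_lit 5) (nat_lit 157) (nat_lit 5) (nat_lit 151) (nat_lit 5) (nat_lit 497) (nat_lit 427) (nat_lit 216))))) (XT.nd (nat_lit 234) (nat_lit 836) (nat_lit 0) (XT.nd (nat_lit 78) (nat_lit 532) (nat_lit 0) (XT.lf (nat_lit 0) (nat_lit 8637760241) (nat_lit 456) (nat_lit 9168933096) (nat_lit 532) (nat_lit 5897476078) (nat_lit 144) (nat_lit 5) (nat_lit 150) (nat_lit 5) (nat_lit 151) (nat_lit 5) (nat_lit 498) (nat_lit 427) (nat_lit 215)) (XT.nd (nat_lit 78) (nat_lit 532) (nat_lit 0) (XT.lf (nat_lit 0) (nat_lit 20001566509) (nat_lit 456) (nat_lit 1567427570) (nat_lit 532) (nat_lit 2446244399) (nat_lit 144) (nat_lit 5) (nat_lit 150) (nat_lit 5)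 (nat_lit 151) (nat_lit 5) (nat_lit 499) (nat_lit 427) (nat_lit 214)) (XT.lf (nat_lit 0) (nat_lit 1143457367) (nat_lit 532) (nat_lit 17028814277) (nat_lit 76) (nat_lit 6158450538) (nat_lit 137) (nat_lit 5) (nat_lit 144) (nat_lit 5) (nat_lit 138) (nat_lit 5) (nat_lit 500) (nat_lit 427) (nat_lit 213)))) (XT.nd (nat_lit 156) (nat_lit 380) (nat_lit 0) (XT.nd (nat_lit 78) (nat_lit 456) (nat_lit 0) (XT.lf (nat_lit 0) (nat_lit 4805100262) (nat_lit 532) (nat_lit 5786794764) (nat_lit 76) (nat_lit 14059642381) (nat_lit 137) (nat_lit 5) (nat_lit 144) (nat_lit 5) (nat_lit 138) (nat_lit 5) (nat_lit 501) (nat_lit 427) (nat_lit 212)) (XT.lf (nat_lit 0) (nat_lit 5749326769) (nat_lit 456) (nat_lit 2823447442) (nat_lit 532) (nat_lit 16405341981) (nat_lit 131) (nat_lit 5) (nat_lit 137) (nat_lit 5) (nat_lit 138) (nat_lit 5) (nat_lit 502) (nat_lit 427) (nat_lit 211))) (XT.nd (nat_lit 78) (nat_lit 380) (nat_lit 0) (XT.lf (nat_lit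 0) (nat_lit 12483514675) (nat_lit 532) (nat_lit 7755393467) (nat_lit 76) (nat_lit 5070967308) (nat_lit 131) (nat_lit 5) (nat_lit 138) (nat_lit 5) (nat_lit 132) (nat_lit 5) (nat_lit 503) (nat_lit 427) (nat_lit 210)) (XT.lf (nat_lit 0) (nat_lit 3974840400) (nat_lit 380) (nat_lit 12537731692) (nat_lit 456) (nat_lit 9134898854) (nat_lit 126) (nat_lit 5) (nat_lit 131) (nat_lit 5) (nat_lit 132) (nat_lit 5) (nat_lit 504) (nat_lit 427) (nat_lit 209)))))) (XT.nd (nat_lit 546) (nat_lit 760) (nat_lit 0) (XT.nd (nat_lit 234) (nat_lit 760) (nat_lit 0) (XT.nd (nat_lit 78) (nat_lit 456) (nat_lit 0) (XT.lf (nat_lit 0) (nat_lit 16038782803) (nat_lit 380) (nat_lit 4631114385) (nat_lit 456) (nat_lit 5320970468) (nat_lit 126) (nat_lit 5) (nat_lit 131) (nat_lit 5) (nat_lit 132) (nat_lit 5) (nat_lit 505) (nat_lit 427) (nat_lit 208)) (XT.nd (nat_lit 78) (nat_lit 76) (nat_lit 0) (XT.lf (nat_lit 0) (nat_lit 2000837419) (nat_lit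 380) (nat_lit 22940534134) (nat_lit 456) (nat_lit 1399143666) (nat_lit 121) (nat_lit 5) (nat_lit 126) (nat_lit 5) (nat_lit 127) (nat_lit 5) (nat_lit 506) (nat_lit 427) (nat_lit 207)) (XT.lf (nat_lit 0) (nat_lit 2660634155) (nat_lit 456) (nat_lit 12422101343) (nat_lit 76) (nat_lit 11612212760) (nat_lit 120) (nat_lit 5) (nat_lit 126) (nat_lit 5) (nat_lit 121) (nat_lit 5) (nat_lit 507) (nat_lit 427) (nat_lit 206)))) (XT.nd (nat_lit 156) (nat_lit 380) (nat_lit 0) (XT.nd (nat_lit 78) (nat_lit 380) (nat_lit 0) (XT.lf (nat_lit 0) (nat_lit 6778707179) (nat_lit 456) (nat_lit 281323960) (nat_lit 76) (nat_lit 19996339972) (nat_lit 120) (nat_lit 5) (nat_lit 126) (nat_lit 5) (nat_lit 121) (nat_lit 5) (nat_lit 508) (nat_lit 427) (nat_lit 205)) (XT.lf (nat_lit 0) (nat_lit 11062430882) (nat_lit 456) (nat_lit 15174068127) (nat_lit 76) (nat_lit 1186860377) (nat_lit 115) (nat_lit 5) (nat_lit 121) (nat_lit 5) (nat_lit 116)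 (nat_lit 5) (nat_lit 509) (nat_lit 427) (nat_lit 204))) (XT.nd (nat_lit 78) (nat_lit 380) (nat_lit 0) (XT.lf (nat_lit 0) (nat_lit 15476415601) (nat_lit 456) (nat_lit 2815889542) (nat_lit 76) (nat_lit 9504493247) (nat_lit 115) (nat_lit 5) (nat_lit 121) (nat_lit 5) (nat_lit 116) (nat_lit 5) (nat_lit 510) (nat_lit 427) (nat_lit 203)) (XT.lf (nat_lit 0) (nat_lit 9913783072) (nat_lit 380) (nat_lit 10125274615) (nat_lit 456) (nat_lit 8137443576) (nat_lit 110) (nat_lit 5) (nat_lit 115) (nat_lit 5) (nat_lit 116) (nat_lit 5) (nat_lit 511) (nat_lit 427) (nat_lit 202))))) (XT.nd (nat_lit 234) (nat_lit 380) (nat_lit 0) (XT.nd (nat_lit 78) (nat_lit 380) (nat_lit 0) (XT.lf (nat_lit 0) (nat_lit 22930566112) (nat_lit 380) (nat_lit 1777334938) (nat_lit 456) (nat_lit 3855600766) (nat_lit 110) (nat_lit 5) (nat_lit 115) (nat_lit 5) (nat_lit 116) (nat_lit 5) (nat_lit 512) (nat_lit 427) (nat_lit 201)) (XT.nd (nat_lit 78) (nat_lit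 0) (nat_lit 0) (XT.lf (nat_lit 0) (nat_lit 592973312) (nat_lit 380) (nat_lit 21664629741) (nat_lit 76) (nat_lit 6698819189) (nat_lit 105) (nat_lit 5) (nat_lit 110) (nat_lit 5) (nat_lit 106) (nat_lit 5) (nat_lit 513) (nat_lit 427) (nat_lit 200)) (XT.lf (nat_lit 0) (nat_lit 5124892256) (nat_lit 380) (nat_lit 8848256759) (nat_lit 76) (nat_lit 15382624797) (nat_lit 105) (nat_lit 5) (nat_lit 110) (nat_lit 5) (nat_lit 106) (nat_lit 5) (nat_lit 514) (nat_lit 427) (nat_lit 199)))) (XT.nd (nat_lit 52572) (nat_lit 0) (nat_lit 21508) (XT.nd (nat_lit 78) (nat_lit 0) (nat_lit 0) (XT.lf (nat_lit 0) (nat_lit 4274993008) (nat_lit 380) (nat_lit 5496419418) (nat_lit 456) (nat_lit 19991223122) (nat_lit 100) (nat_lit 5) (nat_lit 105) (nat_lit 5) (nat_lit 106) (nat_lit 5) (nat_lit 515) (nat_lit 427) (nat_lit 198)) (XT.lf (nat_lit 0) (nat_lit 14587317895) (nat_lit 456) (nat_lit 12422190769) (nat_lit 76) (nat_lit 3166599102)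 (nat_lit 100) (nat_lit 5) (nat_lit 106) (nat_lit 5) (nat_lit 101) (nat_lit 5) (nat_lit 516) (nat_lit 427) (nat_lit 197))) (XT.nd (nat_lit 78) (nat_lit 0) (nat_lit 0) (XT.lf (nat_lit 0) (nat_lit 3248133233) (nat_lit 1596) (nat_lit 1122799742) (nat_lit 1596) (nat_lit 1122799742) (nat_lit 383) (nat_lit 3) (nat_lit 404) (nat_lit 3) (nat_lit 404) (nat_lit 5) (nat_lit 428) (nat_lit 428) (nat_lit 284)) (XT.lf (nat_lit 76) (nat_lit 2663841098) (nat_lit 0) (nat_lit 4452983246) (nat_lit 1596) (nat_lit 3968816949) (nat_lit 384) (nat_lit 5) (nat_lit 383) (nat_lit 3) (nat_lit 404) (nat_lit 5) (nat_lit 429) (nat_lit 428) (nat_lit 283))))))))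
noncomputable def xc207 : XT := (XT.nd (nat_lit 2106) (nat_lit 10260) (nat_lit 0) (XT.nd (nat_lit 1014) (nat_lit 2812) (nat_lit 0) (XT.nd (nat_lit 468) (nat_lit 1368) (nat_lit 0) (XT.nd (nat_lit 234) (nat_lit 0) (nat_lit 152) (XT.nd (nat_lit 78) (nat_lit 0) (nat_lit 76) (XT.lf (nat_lit 76) (nat_lit 7694605592) (nat_lit 0) (nat_lit 56089719) (nat_lit 1596) (nat_lit 3435082712) (nat_lit 384) (nat_lit 5) (nat_lit 383) (nat_lit 3) (nat_lit 404) (nat_lit 5) (nat_lit 430) (nat_lit 428) (nat_lit 282)) (XT.nd (nat_lit 78) (nat_lit 0) (nat_lit 0) (XT.lf (nat_lit 76) (nat_lit 1521773966) (nat_lit 0) (nat_lit 6900258674) (nat_lit 1596) (nat_lit 2865404161) (nat_lit 385) (nat_lit 5) (nat_lit 384) (nat_lit 5) (nat_lit 405) (nat_lit 5) (nat_lit 431) (nat_lit 428) (nat_lit 281)) (XT.lf (nat_lit 76) (nat_lit 6674478058) (nat_lit 0) (nat_lit 2442492645) (nat_lit 1596) (nat_lit 2273969367) (nat_lit 385) (nat_lit 5) (nat_lit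 384) (nat_lit 5) (nat_lit 405) (nat_lit 5) (nat_lit 432) (nat_lit 428) (nat_lit 280)))) (XT.nd (nat_lit 78) (nat_lit 0) (nat_lit 0) (XT.lf (nat_lit 76) (nat_lit 417917066) (nat_lit 0) (nat_lit 9410950987) (nat_lit 1596) (nat_lit 1667598650) (nat_lit 386) (nat_lit 5) (nat_lit 385) (nat_lit 5) (nat_lit 406) (nat_lit 5) (nat_lit 433) (nat_lit 428) (nat_lit 279)) (XT.nd (nat_lit 78) (nat_lit 0) (nat_lit 0) (XT.lf (nat_lit 76) (nat_lit 5694952885) (nat_lit 0) (nat_lit 4894665150) (nat_lit 1596) (nat_lit 1013807759) (nat_lit 386) (nat_lit 5) (nat_lit 385) (nat_lit 5) (nat_lit 406) (nat_lit 5) (nat_lit 434) (nat_lit 428) (nat_lit 278)) (XT.lf (nat_lit 76) (nat_lit 11070104603) (nat_lit 0) (nat_lit 282631076) (nat_lit 1596) (nat_lit 360059280) (nat_lit 386) (nat_lit 5) (nat_lit 385) (nat_lit 5) (nat_lit 406) (nat_lit 5) (nat_lit 435) (nat_lit 428) (nat_lit 277))))) (XT.nd (nat_lit 234) (nat_lit 0) (nat_lit 76)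 (XT.nd (nat_lit 78) (nat_lit 0) (nat_lit 0) (XT.lf (nat_lit 0) (nat_lit 350055320) (nat_lit 1596) (nat_lit 7071251758) (nat_lit 1672) (nat_lit 4402071708) (nat_lit 365) (nat_lit 5) (nat_lit 386) (nat_lit 5) (nat_lit 387) (nat_lit 5) (nat_lit 436) (nat_lit 428) (nat_lit 276)) (XT.nd (nat_lit 78) (nat_lit 0) (nat_lit 76) (XT.lf (nat_lit 0) (nat_lit 1063309995) (nat_lit 1596) (nat_lit 1684528396) (nat_lit 1672) (nat_lit 9188426258) (nat_lit 365) (nat_lit 5) (nat_lit 386) (nat_lit 5) (nat_lit 387) (nat_lit 5) (nat_lit 437) (nat_lit 428) (nat_lit 275)) (XT.lf (nat_lit 0) (nat_lit 1816936284) (nat_lit 1596) (nat_lit 8211566394) (nat_lit 1672) (nat_lit 2022396302) (nat_lit 366) (nat_lit 5) (nat_lit 387) (nat_lit 5) (nat_lit 388) (nat_lit 5) (nat_lit 438) (nat_lit 428) (nat_lit 274)))) (XT.nd (nat_lit 156) (nat_lit 0) (nat_lit 76) (XT.nd (nat_lit 78) (nat_lit 0) (nat_lit 0) (XT.lf (nat_lit 0) (nat_lit 2603217390)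 (nat_lit 1596) (nat_lit 2697157105) (nat_lit 1672) (nat_lit 6867112485) (nat_lit 366) (nat_lit 5) (nat_lit 387) (nat_lit 5) (nat_lit 388) (nat_lit 5) (nat_lit 439) (nat_lit 428) (nat_lit 273)) (XT.lf (nat_lit 76) (nat_lit 2958707351) (nat_lit 0) (nat_lit 453967590) (nat_lit 1672) (nat_lit 8873595165) (nat_lit 367) (nat_lit 5) (nat_lit 366) (nat_lit 5) (nat_lit 388) (nat_lit 5) (nat_lit 440) (nat_lit 428) (nat_lit 272))) (XT.nd (nat_lit 78) (nat_lit 0) (nat_lit 0) (XT.lf (nat_lit 0) (nat_lit 4274136958) (nat_lit 1596) (nat_lit 3679941310) (nat_lit 1672) (nat_lit 4452646458) (nat_lit 367) (nat_lit 5) (nat_lit 388) (nat_lit 5) (nat_lit 389) (nat_lit 5) (nat_lit 441) (nat_lit 428) (nat_lit 271)) (XT.lf (nat_lit 76) (nat_lit 2097432042) (nat_lit 0) (nat_lit 3060695164) (nat_lit 1672) (nat_lit 7371367153) (nat_lit 368) (nat_lit 5) (nat_lit 367) (nat_lit 5) (nat_lit 389) (nat_lit 5) (nat_lit 442) (nat_lit 428)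 (nat_lit 270)))))) (XT.nd (nat_lit 546) (nat_lit 3040) (nat_lit 0) (XT.nd (nat_lit 234) (nat_lit 0) (nat_lit 76) (XT.nd (nat_lit 78) (nat_lit 0) (nat_lit 0) (XT.lf (nat_lit 0) (nat_lit 6086059372) (nat_lit 1596) (nat_lit 4634597148) (nat_lit 1672) (nat_lit 1933549290) (nat_lit 368) (nat_lit 5) (nat_lit 389) (nat_lit 5) (nat_lit 390) (nat_lit 5) (nat_lit 443) (nat_lit 428) (nat_lit 269)) (XT.nd (nat_lit 78) (nat_lit 0) (nat_lit 0) (XT.lf (nat_lit 76) (nat_lit 1267416192) (nat_lit 0) (nat_lit 5782720420) (nat_lit 1672) (nat_lit 5730934586) (nat_lit 369) (nat_lit 5) (nat_lit 368) (nat_lit 5) (nat_lit 390) (nat_lit 5) (nat_lit 444) (nat_lit 428) (nat_lit 268)) (XT.lf (nat_lit 76) (nat_lit 7342589980) (nat_lit 0) (nat_lit 711257974) (nat_lit 1672) (nat_lit 4856230105) (nat_lit 369) (nat_lit 5) (nat_lit 368) (nat_lit 5) (nat_lit 390) (nat_lit 5) (nat_lit 445) (nat_lit 428) (nat_lit 267)))) (XT.nd (nat_lit 156)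 (nat_lit 0) (nat_lit 76) (XT.nd (nat_lit 78) (nat_lit 0) (nat_lit 0) (XT.lf (nat_lit 76) (nat_lit 466965549) (nat_lit 0) (nat_lit 8632149806) (nat_lit 1672) (nat_lit 3942131059) (nat_lit 370) (nat_lit 5) (nat_lit 369) (nat_lit 5) (nat_lit 391) (nat_lit 5) (nat_lit 446) (nat_lit 428) (nat_lit 266)) (XT.lf (nat_lit 76) (nat_lit 6685062285) (nat_lit 0) (nat_lit 3511903989) (nat_lit 1672) (nat_lit 2977449076) (nat_lit 370) (nat_lit 5) (nat_lit 369) (nat_lit 5) (nat_lit 391) (nat_lit 5) (nat_lit 447) (nat_lit 428) (nat_lit 265))) (XT.nd (nat_lit 78) (nat_lit 0) (nat_lit 0) (XT.lf (nat_lit 0) (nat_lit 11317739433) (nat_lit 1596) (nat_lit 301654451) (nat_lit 1672) (nat_lit 1690845044) (nat_lit 370) (nat_lit 5) (nat_lit 391) (nat_lit 5) (nat_lit 392) (nat_lit 5) (nat_lit 448) (nat_lit 428) (nat_lit 264)) (XT.lf (nat_lit 76) (nat_lit 6058329477) (nat_lit 0) (nat_lit 6455247697) (nat_lit 1672) (nat_lit 934159182)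 (nat_lit 371) (nat_lit 5) (nat_lit 370) (nat_lit 5) (nat_lit 392) (nat_lit 5) (nat_lit 449) (nat_lit 428) (nat_lit 263))))) (XT.nd (nat_lit 234) (nat_lit 1520) (nat_lit 0) (XT.nd (nat_lit 78) (nat_lit 0) (nat_lit 76) (XT.lf (nat_lit 0) (nat_lit 135606725) (nat_lit 1672) (nat_lit 1047056072) (nat_lit 1748) (nat_lit 12405468718) (nat_lit 348) (nat_lit 5) (nat_lit 370) (nat_lit 5) (nat_lit 371) (nat_lit 5) (nat_lit 450) (nat_lit 428) (nat_lit 262)) (XT.nd (nat_lit 78) (nat_lit 0) (nat_lit 0) (XT.lf (nat_lit 0) (nat_lit 1267702685) (nat_lit 1672) (nat_lit 8278008099) (nat_lit 1748) (nat_lit 4184441197) (nat_lit 349) (nat_lit 5) (nat_lit 371) (nat_lit 5) (nat_lit 372) (nat_lit 5) (nat_lit 451) (nat_lit 428) (nat_lit 261)) (XT.lf (nat_lit 0) (nat_lit 2427820166) (nat_lit 1672) (nat_lit 1794998981) (nat_lit 1748) (nat_lit 9652095688) (nat_lit 349) (nat_lit 5) (nat_lit 371) (nat_lit 5) (nat_lit 372) (nat_lit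 5) (nat_lit 452) (nat_lit 428) (nat_lit 260)))) (XT.nd (nat_lit 156) (nat_lit 1672) (nat_lit 0) (XT.nd (nat_lit 78) (nat_lit 0) (nat_lit 0) (XT.lf (nat_lit 0) (nat_lit 3641500776) (nat_lit 1672) (nat_lit 9156213689) (nat_lit 76) (nat_lit 1224260650) (nat_lit 350) (nat_lit 5) (nat_lit 372) (nat_lit 5) (nat_lit 351) (nat_lit 5) (nat_lit 453) (nat_lit 428) (nat_lit 259)) (XT.lf (nat_lit 0) (nat_lit 4910351809) (nat_lit 1672) (nat_lit 2523482788) (nat_lit 76) (nat_lit 6737533265) (nat_lit 350) (nat_lit 5) (nat_lit 372) (nat_lit 5) (nat_lit 351) (nat_lit 5) (nat_lit 454) (nat_lit 428) (nat_lit 258))) (XT.nd (nat_lit 78) (nat_lit 0) (nat_lit 0) (XT.lf (nat_lit 0) (nat_lit 4290556143) (nat_lit 1672) (nat_lit 1932867095) (nat_lit 1748) (nat_lit 8099957380) (nat_lit 328) (nat_lit 5) (nat_lit 350) (nat_lit 5) (nat_lit 351) (nat_lit 5) (nat_lit 455) (nat_lit 428) (nat_lit 257)) (XT.lf (nat_lit 0) (nat_lit 7594805334)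 (nat_lit 1748) (nat_lit 3234768568) (nat_lit 76) (nat_lit 3648227583) (nat_lit 328) (nat_lit 5) (nat_lit 351) (nat_lit 5) (nat_lit 329) (nat_lit 5) (nat_lit 456) (nat_lit 428) (nat_lit 256))))))) (XT.nd (nat_lit 1092) (nat_lit 4560) (nat_lit 0) (XT.nd (nat_lit 546) (nat_lit 2204) (nat_lit 0) (XT.nd (nat_lit 234) (nat_lit 1672) (nat_lit 0) (XT.nd (nat_lit 78) (nat_lit 836) (nat_lit 0) (XT.lf (nat_lit 0) (nat_lit 3727727029) (nat_lit 988) (nat_lit 5294187834) (nat_lit 1064) (nat_lit 5612838578) (nat_lit 315) (nat_lit 5) (nat_lit 328) (nat_lit 5) (nat_lit 329) (nat_lit 5) (nat_lit 457) (nat_lit 428) (nat_lit 255)) (XT.nd (nat_lit 78) (nat_lit 836) (nat_lit 0) (XT.lf (nat_lit 0) (nat_lit 10493126818) (nat_lit 1064) (nat_lit 3931265671) (nat_lit 76) (nat_lit 370149243) (nat_lit 315) (nat_lit 5) (nat_lit 329) (nat_lit 5) (nat_lit 316) (nat_lit 5) (nat_lit 458) (nat_lit 428) (nat_lit 254)) (XT.lf (nat_lit 0)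 (nat_lit 3183100800) (nat_lit 836) (nat_lit 8857982675) (nat_lit 912) (nat_lit 2915504238) (nat_lit 304) (nat_lit 5) (nat_lit 315) (nat_lit 5) (nat_lit 316) (nat_lit 5) (nat_lit 459) (nat_lit 428) (nat_lit 253)))) (XT.nd (nat_lit 156) (nat_lit 760) (nat_lit 0) (XT.nd (nat_lit 78) (nat_lit 912) (nat_lit 0) (XT.lf (nat_lit 0) (nat_lit 10485498334) (nat_lit 836) (nat_lit 3152590462) (nat_lit 912) (nat_lit 1483432193) (nat_lit 304) (nat_lit 5) (nat_lit 315) (nat_lit 5) (nat_lit 316) (nat_lit 5) (nat_lit 460) (nat_lit 428) (nat_lit 252)) (XT.lf (nat_lit 0) (nat_lit 4169931) (nat_lit 912) (nat_lit 12635148195) (nat_lit 76) (nat_lit 2649913794) (nat_lit 292) (nat_lit 5) (nat_lit 304) (nat_lit 5) (nat_lit 293) (nat_lit 5) (nat_lit 461) (nat_lit 428) (nat_lit 251))) (XT.nd (nat_lit 78) (nat_lit 760) (nat_lit 0) (XT.lf (nat_lit 0) (nat_lit 1545799395) (nat_lit 912) (nat_lit 5345386453) (nat_lit 76) (nat_lit 8568040041)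 (nat_lit 292) (nat_lit 5) (nat_lit 304) (nat_lit 5) (nat_lit 293) (nat_lit 5) (nat_lit 462) (nat_lit 428) (nat_lit 250)) (XT.lf (nat_lit 0) (nat_lit 2110359876) (nat_lit 760) (nat_lit 1013687371) (nat_lit 836) (nat_lit 12508464320) (nat_lit 282) (nat_lit 5) (nat_lit 292) (nat_lit 5) (nat_lit 293) (nat_lit 5) (nat_lit 463) (nat_lit 428) (nat_lit 249))))) (XT.nd (nat_lit 234) (nat_lit 1444) (nat_lit 0) (XT.nd (nat_lit 78) (nat_lit 760) (nat_lit 0) (XT.lf (nat_lit 0) (nat_lit 4794503529) (nat_lit 836) (nat_lit 6061051265) (nat_lit 76) (nat_lit 4952502693) (nat_lit 282) (nat_lit 5) (nat_lit 293) (nat_lit 5) (nat_lit 283) (nat_lit 5) (nat_lit 464) (nat_lit 428) (nat_lit 248)) (XT.nd (nat_lit 78) (nat_lit 0) (nat_lit 0) (XT.lf (nat_lit 0) (nat_lit 1555502710) (nat_lit 760) (nat_lit 4952025080) (nat_lit 836) (nat_lit 9479410614) (nat_lit 272) (nat_lit 5) (nat_lit 282) (nat_lit 5) (nat_lit 283) (nat_lit 5) (nat_lit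 465) (nat_lit 428) (nat_lit 247)) (XT.lf (nat_lit 0) (nat_lit 8295148387) (nat_lit 836) (nat_lit 6776816347) (nat_lit 76) (nat_lit 1096632599) (nat_lit 272) (nat_lit 5) (nat_lit 283) (nat_lit 5) (nat_lit 273) (nat_lit 5) (nat_lit 466) (nat_lit 428) (nat_lit 246)))) (XT.nd (nat_lit 156) (nat_lit 760) (nat_lit 0) (XT.nd (nat_lit 78) (nat_lit 0) (nat_lit 0) (XT.lf (nat_lit 0) (nat_lit 1003848499) (nat_lit 684) (nat_lit 9146582725) (nat_lit 760) (nat_lit 6202826992) (nat_lit 263) (nat_lit 5) (nat_lit 272) (nat_lit 5) (nat_lit 273) (nat_lit 5) (nat_lit 467) (nat_lit 428) (nat_lit 245)) (XT.lf (nat_lit 0) (nat_lit 9024619300) (nat_lit 684) (nat_lit 3056371042) (nat_lit 760) (nat_lit 4459865398) (nat_lit 263) (nat_lit 5) (nat_lit 272) (nat_lit 5) (nat_lit 273) (nat_lit 5) (nat_lit 468) (nat_lit 428) (nat_lit 244))) (XT.nd (nat_lit 78) (nat_lit 0) (nat_lit 0) (XT.lf (nat_lit 0) (nat_lit 451661458) (nat_lit 760)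 (nat_lit 13614757666) (nat_lit 836) (nat_lit 2665467621) (nat_lit 253) (nat_lit 5) (nat_lit 263) (nat_lit 5) (nat_lit 264) (nat_lit 5) (nat_lit 469) (nat_lit 428) (nat_lit 243)) (XT.lf (nat_lit 0) (nat_lit 8652966608) (nat_lit 760) (nat_lit 7502065818) (nat_lit 836) (nat_lit 770442995) (nat_lit 253) (nat_lit 5) (nat_lit 263) (nat_lit 5) (nat_lit 264) (nat_lit 5) (nat_lit 470) (nat_lit 428) (nat_lit 242)))))) (XT.nd (nat_lit 546) (nat_lit 2508) (nat_lit 0) (XT.nd (nat_lit 234) (nat_lit 1292) (nat_lit 0) (XT.nd (nat_lit 78) (nat_lit 684) (nat_lit 0) (XT.lf (nat_lit 0) (nat_lit 1140252661) (nat_lit 836) (nat_lit 119466512) (nat_lit 76) (nat_lit 15863211727) (nat_lit 252) (nat_lit 5) (nat_lit 263) (nat_lit 5) (nat_lit 253) (nat_lit 5) (nat_lit 471) (nat_lit 428) (nat_lit 241)) (XT.nd (nat_lit 78) (nat_lit 0) (nat_lit 0) (XT.lf (nat_lit 0) (nat_lit 3159403578) (nat_lit 760) (nat_lit 9063686714) (nat_lit 76)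 (nat_lit 5099538383) (nat_lit 243) (nat_lit 5) (nat_lit 253) (nat_lit 5) (nat_lit 244) (nat_lit 5) (nat_lit 472) (nat_lit 428) (nat_lit 240)) (XT.lf (nat_lit 0) (nat_lit 5221326685) (nat_lit 760) (nat_lit 735344429) (nat_lit 76) (nat_lit 11569607578) (nat_lit 243) (nat_lit 5) (nat_lit 253) (nat_lit 5) (nat_lit 244) (nat_lit 5) (nat_lit 473) (nat_lit 428) (nat_lit 239)))) (XT.nd (nat_lit 156) (nat_lit 608) (nat_lit 0) (XT.nd (nat_lit 78) (nat_lit 0) (nat_lit 0) (XT.lf (nat_lit 0) (nat_lit 7372023194) (nat_lit 760) (nat_lit 9880777179) (nat_lit 76) (nat_lit 480256587) (nat_lit 234) (nat_lit 5) (nat_lit 244) (nat_lit 5) (nat_lit 235) (nat_lit 5) (nat_lit 474) (nat_lit 428) (nat_lit 238)) (XT.lf (nat_lit 0) (nat_lit 9603602238) (nat_lit 760) (nat_lit 1368903979) (nat_lit 76) (nat_lit 6970713039) (nat_lit 234) (nat_lit 5) (nat_lit 244) (nat_lit 5) (nat_lit 235) (nat_lit 5) (nat_lit 475) (nat_lit 428) (nat_lit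 237))) (XT.nd (nat_lit 78) (nat_lit 0) (nat_lit 0) (XT.lf (nat_lit 0) (nat_lit 7403267249) (nat_lit 608) (nat_lit 4518194128) (nat_lit 684) (nat_lit 6235296170) (nat_lit 226) (nat_lit 5) (nat_lit 234) (nat_lit 5) (nat_lit 235) (nat_lit 5) (nat_lit 476) (nat_lit 428) (nat_lit 236)) (XT.lf (nat_lit 0) (nat_lit 14301991125) (nat_lit 684) (nat_lit 2025531114) (nat_lit 76) (nat_lit 2046723704) (nat_lit 226) (nat_lit 5) (nat_lit 235) (nat_lit 5) (nat_lit 227) (nat_lit 5) (nat_lit 477) (nat_lit 428) (nat_lit 235))))) (XT.nd (nat_lit 234) (nat_lit 1140) (nat_lit 0) (XT.nd (nat_lit 78) (nat_lit 684) (nat_lit 0) (XT.lf (nat_lit 0) (nat_lit 6930989674) (nat_lit 684) (nat_lit 9867846394) (nat_lit 760) (nat_lit 1795879444) (nat_lit 217) (nat_lit 5) (nat_lit 226) (nat_lit 5) (nat_lit 227) (nat_lit 5) (nat_lit 478) (nat_lit 428) (nat_lit 234)) (XT.nd (nat_lit 78) (nat_lit 608) (nat_lit 0) (XT.lf (nat_lit 0) (nat_lit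 526620075) (nat_lit 760) (nat_lit 2735748990) (nat_lit 76) (nat_lit 15557012475) (nat_lit 216) (nat_lit 5) (nat_lit 226) (nat_lit 5) (nat_lit 217) (nat_lit 5) (nat_lit 479) (nat_lit 428) (nat_lit 233)) (XT.lf (nat_lit 0) (nat_lit 2930182884) (nat_lit 684) (nat_lit 12634079222) (nat_lit 76) (nat_lit 3482873344) (nat_lit 208) (nat_lit 5) (nat_lit 217) (nat_lit 5) (nat_lit 209) (nat_lit 5) (nat_lit 480) (nat_lit 428) (nat_lit 232)))) (XT.nd (nat_lit 156) (nat_lit 532) (nat_lit 0) (XT.nd (nat_lit 78) (nat_lit 608) (nat_lit 0) (XT.lf (nat_lit 0) (nat_lit 5415905447) (nat_lit 684) (nat_lit 3525837665) (nat_lit 76) (nat_lit 10337024636) (nat_lit 208) (nat_lit 5) (nat_lit 217) (nat_lit 5) (nat_lit 209) (nat_lit 5) (nat_lit 481) (nat_lit 428) (nat_lit 231)) (XT.lf (nat_lit 0) (nat_lit 5834267494) (nat_lit 608) (nat_lit 2149075991) (nat_lit 684) (nat_lit 11531054164) (nat_lit 200) (nat_lit 5) (nat_lit 208) (nat_lit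 5) (nat_lit 209) (nat_lit 5) (nat_lit 482) (nat_lit 428) (nat_lit 230))) (XT.nd (nat_lit 78) (nat_lit 532) (nat_lit 0) (XT.lf (nat_lit 0) (nat_lit 10651164636) (nat_lit 684) (nat_lit 4362975141) (nat_lit 76) (nat_lit 4739624568) (nat_lit 200) (nat_lit 5) (nat_lit 209) (nat_lit 5) (nat_lit 201) (nat_lit 5) (nat_lit 483) (nat_lit 428) (nat_lit 229)) (XT.lf (nat_lit 0) (nat_lit 5187573110) (nat_lit 532) (nat_lit 8226982661) (nat_lit 608) (nat_lit 6582523117) (nat_lit 193) (nat_lit 5) (nat_lit 200) (nat_lit 5) (nat_lit 201) (nat_lit 5) (nat_lit 484) (nat_lit 428) (nat_lit 228))))))))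
noncomputable def xc208 : XT := (XT.nd (nat_lit 2106) (nat_lit 1140) (nat_lit 0) (XT.nd (nat_lit 1014) (nat_lit 2660) (nat_lit 0) (XT.nd (nat_lit 468) (nat_lit 1520) (nat_lit 0) (XT.nd (nat_lit 234) (nat_lit 1064) (nat_lit 0) (XT.nd (nat_lit 78) (nat_lit 684) (nat_lit 0) (XT.lf (nat_lit 0) (nat_lit 14981564509) (nat_lit 532) (nat_lit 1275296391) (nat_lit 608) (nat_lit 3987930592) (nat_lit 193) (nat_lit 5) (nat_lit 200) (nat_lit 5) (nat_lit 201) (nat_lit 5) (nat_lit 485) (nat_lit 428) (nat_lit 227)) (XT.nd (nat_lit 78) (nat_lit 76) (nat_lit 0) (XT.lf (nat_lit 0) (nat_lit 4488400266) (nat_lit 608) (nat_lit 14728983000) (nat_lit 684) (nat_lit 1278852257) (nat_lit 185) (nat_lit 5) (nat_lit 193) (nat_lit 5) (nat_lit 194) (nat_lit 5) (nat_lit 486) (nat_lit 428) (nat_lit 226)) (XT.lf (nat_lit 0) (nat_lit 1503434486) (nat_lit 684) (nat_lit 6270634184) (nat_lit 76) (nat_lit 12977681529) (nat_lit 184) (nat_lit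 5) (nat_lit 193) (nat_lit 5) (nat_lit 185) (nat_lit 5) (nat_lit 487) (nat_lit 428) (nat_lit 225)))) (XT.nd (nat_lit 78) (nat_lit 532) (nat_lit 0) (XT.lf (nat_lit 0) (nat_lit 3694710952) (nat_lit 532) (nat_lit 648141133) (nat_lit 608) (nat_lit 16668986175) (nat_lit 177) (nat_lit 5) (nat_lit 184) (nat_lit 5) (nat_lit 185) (nat_lit 5) (nat_lit 488) (nat_lit 428) (nat_lit 224)) (XT.nd (nat_lit 78) (nat_lit 532) (nat_lit 0) (XT.lf (nat_lit 0) (nat_lit 7319059245) (nat_lit 608) (nat_lit 7381832714) (nat_lit 76) (nat_lit 6574640351) (nat_lit 177) (nat_lit 5) (nat_lit 185) (nat_lit 5) (nat_lit 178) (nat_lit 5) (nat_lit 489) (nat_lit 428) (nat_lit 223)) (XT.lf (nat_lit 0) (nat_lit 2777789776) (nat_lit 532) (nat_lit 7594092928) (nat_lit 608) (nat_lit 11172279858) (nat_lit 170) (nat_lit 5) (nat_lit 177) (nat_lit 5) (nat_lit 178) (nat_lit 5) (nat_lit 490) (nat_lit 428) (nat_lit 222))))) (XT.nd (nat_lit 234) (nat_lit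 1064) (nat_lit 0) (XT.nd (nat_lit 78) (nat_lit 456) (nat_lit 0) (XT.lf (nat_lit 0) (nat_lit 13234193390) (nat_lit 532) (nat_lit 295930424) (nat_lit 608) (nat_lit 8287158466) (nat_lit 170) (nat_lit 5) (nat_lit 177) (nat_lit 5) (nat_lit 178) (nat_lit 5) (nat_lit 491) (nat_lit 428) (nat_lit 221)) (XT.nd (nat_lit 78) (nat_lit 0) (nat_lit 0) (XT.lf (nat_lit 0) (nat_lit 1774275531) (nat_lit 456) (nat_lit 15030103211) (nat_lit 532) (nat_lit 5290432675) (nat_lit 164) (nat_lit 5) (nat_lit 170) (nat_lit 5) (nat_lit 171) (nat_lit 5) (nat_lit 492) (nat_lit 428) (nat_lit 220)) (XT.lf (nat_lit 0) (nat_lit 12446745546) (nat_lit 456) (nat_lit 7751893647) (nat_lit 532) (nat_lit 2178165461) (nat_lit 164) (nat_lit 5) (nat_lit 170) (nat_lit 5) (nat_lit 171) (nat_lit 5) (nat_lit 493) (nat_lit 428) (nat_lit 219)))) (XT.nd (nat_lit 156) (nat_lit 456) (nat_lit 0) (XT.nd (nat_lit 78) (nat_lit 0) (nat_lit 0) (XT.lf (nat_lit 0)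 (nat_lit 664122287) (nat_lit 532) (nat_lit 318508017) (nat_lit 608) (nat_lit 21681694837) (nat_lit 156) (nat_lit 5) (nat_lit 163) (nat_lit 5) (nat_lit 164) (nat_lit 5) (nat_lit 494) (nat_lit 428) (nat_lit 218)) (XT.lf (nat_lit 0) (nat_lit 4286826411) (nat_lit 608) (nat_lit 11419894456) (nat_lit 76) (nat_lit 7248403916) (nat_lit 156) (nat_lit 5) (nat_lit 164) (nat_lit 5) (nat_lit 157) (nat_lit 5) (nat_lit 495) (nat_lit 428) (nat_lit 217))) (XT.nd (nat_lit 78) (nat_lit 456) (nat_lit 0) (XT.lf (nat_lit 0) (nat_lit 7654397944) (nat_lit 608) (nat_lit 636360803) (nat_lit 76) (nat_lit 14961039467) (nat_lit 156) (nat_lit 5) (nat_lit 164) (nat_lit 5) (nat_lit 157) (nat_lit 5) (nat_lit 496) (nat_lit 428) (nat_lit 216)) (XT.lf (nat_lit 0) (nat_lit 10494329928) (nat_lit 456) (nat_lit 658403777) (nat_lit 532) (nat_lit 12400406710) (nat_lit 150) (nat_lit 5) (nat_lit 156) (nat_lit 5) (nat_lit 157) (nat_lit 5) (nat_lit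 497) (nat_lit 428) (nat_lit 215)))))) (XT.nd (nat_lit 546) (nat_lit 1216) (nat_lit 0) (XT.nd (nat_lit 234) (nat_lit 988) (nat_lit 0) (XT.nd (nat_lit 78) (nat_lit 456) (nat_lit 0) (XT.lf (nat_lit 0) (nat_lit 14766925649) (nat_lit 532) (nat_lit 2056658149) (nat_lit 76) (nat_lit 7036011358) (nat_lit 150) (nat_lit 5) (nat_lit 157) (nat_lit 5) (nat_lit 151) (nat_lit 5) (nat_lit 498) (nat_lit 428) (nat_lit 214)) (XT.nd (nat_lit 78) (nat_lit 0) (nat_lit 0) (XT.lf (nat_lit 0) (nat_lit 9276769202) (nat_lit 456) (nat_lit 9236635486) (nat_lit 532) (nat_lit 5657577657) (nat_lit 144) (nat_lit 5) (nat_lit 150) (nat_lit 5) (nat_lit 151) (nat_lit 5) (nat_lit 499) (nat_lit 428) (nat_lit 213)) (XT.lf (nat_lit 0) (nat_lit 20858709364) (nat_lit 456) (nat_lit 1485368012) (nat_lit 532) (nat_lit 2144337971) (nat_lit 144) (nat_lit 5) (nat_lit 150) (nat_lit 5) (nat_lit 151) (nat_lit 5) (nat_lit 500) (nat_lit 428) (nat_lit 212))))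 (XT.nd (nat_lit 156) (nat_lit 456) (nat_lit 0) (XT.nd (nat_lit 78) (nat_lit 0) (nat_lit 0) (XT.lf (nat_lit 0) (nat_lit 1509503823) (nat_lit 532) (nat_lit 16904132198) (nat_lit 76) (nat_lit 6396593083) (nat_lit 137) (nat_lit 5) (nat_lit 144) (nat_lit 5) (nat_lit 138) (nat_lit 5) (nat_lit 501) (nat_lit 428) (nat_lit 211)) (XT.lf (nat_lit 0) (nat_lit 5237650609) (nat_lit 532) (nat_lit 5446395008) (nat_lit 76) (nat_lit 14453554379) (nat_lit 137) (nat_lit 5) (nat_lit 144) (nat_lit 5) (nat_lit 138) (nat_lit 5) (nat_lit 502) (nat_lit 428) (nat_lit 210))) (XT.nd (nat_lit 78) (nat_lit 0) (nat_lit 0) (XT.lf (nat_lit 0) (nat_lit 6317448063) (nat_lit 456) (nat_lit 2759574999) (nat_lit 532) (nat_lit 16393765084) (nat_lit 131) (nat_lit 5) (nat_lit 137) (nat_lit 5) (nat_lit 138) (nat_lit 5) (nat_lit 503) (nat_lit 428) (nat_lit 209)) (XT.lf (nat_lit 0) (nat_lit 13060218991) (nat_lit 532) (nat_lit 7460262325) (nat_lit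 76) (nat_lit 5288821059) (nat_lit 131) (nat_lit 5) (nat_lit 138) (nat_lit 5) (nat_lit 132) (nat_lit 5) (nat_lit 504) (nat_lit 428) (nat_lit 208))))) (XT.nd (nat_lit 234) (nat_lit 456) (nat_lit 0) (XT.nd (nat_lit 78) (nat_lit 380) (nat_lit 0) (XT.lf (nat_lit 0) (nat_lit 4501614121) (nat_lit 380) (nat_lit 12664735022) (nat_lit 456) (nat_lit 8987375313) (nat_lit 126) (nat_lit 5) (nat_lit 131) (nat_lit 5) (nat_lit 132) (nat_lit 5) (nat_lit 505) (nat_lit 428) (nat_lit 207)) (XT.nd (nat_lit 78) (nat_lit 380) (nat_lit 0) (XT.lf (nat_lit 0) (nat_lit 16798065236) (nat_lit 380) (nat_lit 4602411865) (nat_lit 456) (nat_lit 5103643292) (nat_lit 126) (nat_lit 5) (nat_lit 131) (nat_lit 5) (nat_lit 132) (nat_lit 5) (nat_lit 506) (nat_lit 428) (nat_lit 206)) (XT.lf (nat_lit 0) (nat_lit 2482214921) (nat_lit 380) (nat_lit 23272584662) (nat_lit 456) (nat_lit 1106017285) (nat_lit 121) (nat_lit 5) (nat_lit 126) (nat_lit 5)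 (nat_lit 127) (nat_lit 5) (nat_lit 507) (nat_lit 428) (nat_lit 205)))) (XT.nd (nat_lit 156) (nat_lit 0) (nat_lit 0) (XT.nd (nat_lit 78) (nat_lit 380) (nat_lit 0) (XT.lf (nat_lit 0) (nat_lit 3024531003) (nat_lit 456) (nat_lit 12233499689) (nat_lit 76) (nat_lit 11964394618) (nat_lit 120) (nat_lit 5) (nat_lit 126) (nat_lit 5) (nat_lit 121) (nat_lit 5) (nat_lit 508) (nat_lit 428) (nat_lit 204)) (XT.lf (nat_lit 0) (nat_lit 143404533) (nat_lit 380) (nat_lit 7076400184) (nat_lit 456) (nat_lit 20371379200) (nat_lit 115) (nat_lit 5) (nat_lit 120) (nat_lit 5) (nat_lit 121) (nat_lit 5) (nat_lit 509) (nat_lit 428) (nat_lit 203))) (XT.nd (nat_lit 78) (nat_lit 0) (nat_lit 0) (XT.lf (nat_lit 0) (nat_lit 11585869910) (nat_lit 456) (nat_lit 15046473240) (nat_lit 76) (nat_lit 1333239470) (nat_lit 115) (nat_lit 5) (nat_lit 121) (nat_lit 5) (nat_lit 116) (nat_lit 5) (nat_lit 510) (nat_lit 428) (nat_lit 202)) (XT.lf (nat_lit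 0) (nat_lit 16082209021) (nat_lit 456) (nat_lit 2449583559) (nat_lit 76) (nat_lit 9814820255) (nat_lit 115) (nat_lit 5) (nat_lit 121) (nat_lit 5) (nat_lit 116) (nat_lit 5) (nat_lit 511) (nat_lit 428) (nat_lit 201))))))) (XT.nd (nat_lit 53508) (nat_lit 0) (nat_lit 20140) (XT.nd (nat_lit 52962) (nat_lit 0) (nat_lit 20064) (XT.nd (nat_lit 234) (nat_lit 380) (nat_lit 0) (XT.nd (nat_lit 78) (nat_lit 380) (nat_lit 0) (XT.lf (nat_lit 0) (nat_lit 10531902088) (nat_lit 380) (nat_lit 10201118643) (nat_lit 456) (nat_lit 8000954546) (nat_lit 110) (nat_lit 5) (nat_lit 115) (nat_lit 5) (nat_lit 116) (nat_lit 5) (nat_lit 512) (nat_lit 428) (nat_lit 200)) (XT.nd (nat_lit 78) (nat_lit 380) (nat_lit 0) (XT.lf (nat_lit 0) (nat_lit 23800788566) (nat_lit 380) (nat_lit 1688703730) (nat_lit 456) (nat_lit 3639342289) (nat_lit 110) (nat_lit 5) (nat_lit 115) (nat_lit 5) (nat_lit 116) (nat_lit 5) (nat_lit 513) (nat_lit 428) (nat_lit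 199)) (XT.lf (nat_lit 0) (nat_lit 892180182) (nat_lit 380) (nat_lit 21679921934) (nat_lit 76) (nat_lit 6957520345) (nat_lit 105) (nat_lit 5) (nat_lit 110) (nat_lit 5) (nat_lit 106) (nat_lit 5) (nat_lit 514) (nat_lit 428) (nat_lit 198)))) (XT.nd (nat_lit 78) (nat_lit 380) (nat_lit 0) (XT.lf (nat_lit 0) (nat_lit 5509103241) (nat_lit 380) (nat_lit 8615417579) (nat_lit 76) (nat_lit 15812556482) (nat_lit 105) (nat_lit 5) (nat_lit 110) (nat_lit 5) (nat_lit 106) (nat_lit 5) (nat_lit 515) (nat_lit 428) (nat_lit 197)) (XT.nd (nat_lit 52572) (nat_lit 0) (nat_lit 21508) (XT.lf (nat_lit 0) (nat_lit 4767601102) (nat_lit 380) (nat_lit 5478072143) (nat_lit 456) (nat_lit 20106464124) (nat_lit 100) (nat_lit 5) (nat_lit 105) (nat_lit 5) (nat_lit 106) (nat_lit 5) (nat_lit 516) (nat_lit 428) (nat_lit 196)) (XT.lf (nat_lit 0) (nat_lit 3847900688) (nat_lit 1596) (nat_lit 872213752) (nat_lit 1596) (nat_lit 872213752) (nat_lit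 383) (nat_lit 3) (nat_lit 404) (nat_lit 3) (nat_lit 404) (nat_lit 5) (nat_lit 429) (nat_lit 429) (nat_lit 282))))) (XT.nd (nat_lit 234) (nat_lit 1444) (nat_lit 0) (XT.nd (nat_lit 78) (nat_lit 0) (nat_lit 0) (XT.lf (nat_lit 76) (nat_lit 3259609232) (nat_lit 0) (nat_lit 5051710657) (nat_lit 1596) (nat_lit 2973847749) (nat_lit 384) (nat_lit 5) (nat_lit 383) (nat_lit 3) (nat_lit 404) (nat_lit 5) (nat_lit 430) (nat_lit 429) (nat_lit 281)) (XT.nd (nat_lit 78) (nat_lit 0) (nat_lit 76) (XT.lf (nat_lit 76) (nat_lit 8380351931) (nat_lit 0) (nat_lit 556885774) (nat_lit 1596) (nat_lit 2450504425) (nat_lit 384) (nat_lit 5) (nat_lit 383) (nat_lit 3) (nat_lit 404) (nat_lit 5) (nat_lit 431) (nat_lit 429) (nat_lit 280)) (XT.lf (nat_lit 76) (nat_lit 2105395855) (nat_lit 0) (nat_lit 7496790925) (nat_lit 1596) (nat_lit 1889665582) (nat_lit 385) (nat_lit 5) (nat_lit 384) (nat_lit 5) (nat_lit 405) (nat_lit 5) (nat_lit 432)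 (nat_lit 429) (nat_lit 279)))) (XT.nd (nat_lit 156) (nat_lit 1520) (nat_lit 0) (XT.nd (nat_lit 78) (nat_lit 0) (nat_lit 76) (XT.lf (nat_lit 76) (nat_lit 7350307237) (nat_lit 0) (nat_lit 2940878849) (nat_lit 1596) (nat_lit 1306657909) (nat_lit 385) (nat_lit 5) (nat_lit 384) (nat_lit 5) (nat_lit 405) (nat_lit 5) (nat_lit 433) (nat_lit 429) (nat_lit 278)) (XT.lf (nat_lit 76) (nat_lit 988723766) (nat_lit 0) (nat_lit 10009939396) (nat_lit 1596) (nat_lit 707212286) (nat_lit 386) (nat_lit 5) (nat_lit 385) (nat_lit 5) (nat_lit 406) (nat_lit 5) (nat_lit 434) (nat_lit 429) (nat_lit 277))) (XT.nd (nat_lit 78) (nat_lit 1596) (nat_lit 0) (XT.lf (nat_lit 76) (nat_lit 6360271903) (nat_lit 0) (nat_lit 5395273541) (nat_lit 1596) (nat_lit 59830643) (nat_lit 386) (nat_lit 5) (nat_lit 385) (nat_lit 5) (nat_lit 406) (nat_lit 5) (nat_lit 435) (nat_lit 429) (nat_lit 276)) (XT.lf (nat_lit 0) (nat_lit 580179519) (nat_lit 1596)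 (nat_lit 99029582) (nat_lit 1672) (nat_lit 11248041669) (nat_lit 364) (nat_lit 5) (nat_lit 385) (nat_lit 5) (nat_lit 386) (nat_lit 5) (nat_lit 436) (nat_lit 429) (nat_lit 275)))))) (XT.nd (nat_lit 546) (nat_lit 0) (nat_lit 228) (XT.nd (nat_lit 234) (nat_lit 0) (nat_lit 76) (XT.nd (nat_lit 78) (nat_lit 0) (nat_lit 0) (XT.lf (nat_lit 0) (nat_lit 1282321797) (nat_lit 1596) (nat_lit 6640212987) (nat_lit 1672) (nat_lit 4117830474) (nat_lit 365) (nat_lit 5) (nat_lit 386) (nat_lit 5) (nat_lit 387) (nat_lit 5) (nat_lit 437) (nat_lit 429) (nat_lit 274)) (XT.nd (nat_lit 78) (nat_lit 0) (nat_lit 76) (XT.lf (nat_lit 0) (nat_lit 1991699107) (nat_lit 1596) (nat_lit 1156979938) (nat_lit 1672) (nat_lit 9007211776) (nat_lit 365) (nat_lit 5) (nat_lit 386) (nat_lit 5) (nat_lit 387) (nat_lit 5) (nat_lit 438) (nat_lit 429) (nat_lit 273)) (XT.lf (nat_lit 0) (nat_lit 2744053461) (nat_lit 1596) (nat_lit 7797276330) (nat_lit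 1672) (nat_lit 1731833695) (nat_lit 366) (nat_lit 5) (nat_lit 387) (nat_lit 5) (nat_lit 388) (nat_lit 5) (nat_lit 439) (nat_lit 429) (nat_lit 272)))) (XT.nd (nat_lit 156) (nat_lit 0) (nat_lit 76) (XT.nd (nat_lit 78) (nat_lit 0) (nat_lit 0) (XT.lf (nat_lit 0) (nat_lit 3528593945) (nat_lit 1596) (nat_lit 2183922412) (nat_lit 1672) (nat_lit 6679934606) (nat_lit 366) (nat_lit 5) (nat_lit 387) (nat_lit 5) (nat_lit 388) (nat_lit 5) (nat_lit 440) (nat_lit 429) (nat_lit 271)) (XT.lf (nat_lit 76) (nat_lit 3581327900) (nat_lit 0) (nat_lit 759447245) (nat_lit 1672) (nat_lit 8173121944) (nat_lit 367) (nat_lit 5) (nat_lit 366) (nat_lit 5) (nat_lit 388) (nat_lit 5) (nat_lit 441) (nat_lit 429) (nat_lit 270))) (XT.nd (nat_lit 78) (nat_lit 0) (nat_lit 0) (XT.lf (nat_lit 0) (nat_lit 5200719970) (nat_lit 1596) (nat_lit 3181511461) (nat_lit 1672) (nat_lit 4254921976) (nat_lit 367) (nat_lit 5) (nat_lit 388) (nat_lit 5) (nat_lit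 389) (nat_lit 5) (nat_lit 442) (nat_lit 429) (nat_lit 269)) (XT.lf (nat_lit 76) (nat_lit 2707646011) (nat_lit 0) (nat_lit 3381941405) (nat_lit 1672) (nat_lit 6673064398) (nat_lit 368) (nat_lit 5) (nat_lit 367) (nat_lit 5) (nat_lit 389) (nat_lit 5) (nat_lit 443) (nat_lit 429) (nat_lit 268))))) (XT.nd (nat_lit 234) (nat_lit 0) (nat_lit 76) (XT.nd (nat_lit 78) (nat_lit 0) (nat_lit 0) (XT.lf (nat_lit 0) (nat_lit 7018181897) (nat_lit 1596) (nat_lit 4151420402) (nat_lit 1672) (nat_lit 1720630112) (nat_lit 368) (nat_lit 5) (nat_lit 389) (nat_lit 5) (nat_lit 390) (nat_lit 5) (nat_lit 444) (nat_lit 429) (nat_lit 267)) (XT.nd (nat_lit 78) (nat_lit 0) (nat_lit 0) (XT.lf (nat_lit 76) (nat_lit 1864844595) (nat_lit 0) (nat_lit 6124520188) (nat_lit 1672) (nat_lit 5030530499) (nat_lit 369) (nat_lit 5) (nat_lit 368) (nat_lit 5) (nat_lit 390) (nat_lit 5) (nat_lit 445) (nat_lit 429) (nat_lit 266)) (XT.lf (nat_lit 76) (nat_lit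 8050304602) (nat_lit 0) (nat_lit 947194270) (nat_lit 1672) (nat_lit 4154312767) (nat_lit 369) (nat_lit 5) (nat_lit 368) (nat_lit 5) (nat_lit 390) (nat_lit 5) (nat_lit 446) (nat_lit 429) (nat_lit 265)))) (XT.nd (nat_lit 156) (nat_lit 0) (nat_lit 76) (XT.nd (nat_lit 78) (nat_lit 0) (nat_lit 0) (XT.lf (nat_lit 76) (nat_lit 1051267461) (nat_lit 0) (nat_lit 8999381341) (nat_lit 1672) (nat_lit 3235231025) (nat_lit 370) (nat_lit 5) (nat_lit 369) (nat_lit 5) (nat_lit 391) (nat_lit 5) (nat_lit 447) (nat_lit 429) (nat_lit 264)) (XT.lf (nat_lit 76) (nat_lit 7382452355) (nat_lit 0) (nat_lit 3772915146) (nat_lit 1672) (nat_lit 2266662122) (nat_lit 370) (nat_lit 5) (nat_lit 369) (nat_lit 5) (nat_lit 391) (nat_lit 5) (nat_lit 448) (nat_lit 429) (nat_lit 263))) (XT.nd (nat_lit 78) (nat_lit 0) (nat_lit 0) (XT.lf (nat_lit 76) (nat_lit 265203874) (nat_lit 0) (nat_lit 12019066419) (nat_lit 1672) (nat_lit 1276600484) (nat_lit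 371) (nat_lit 5) (nat_lit 370) (nat_lit 5) (nat_lit 392) (nat_lit 5) (nat_lit 449) (nat_lit 429) (nat_lit 262)) (XT.lf (nat_lit 76) (nat_lit 6745163146) (nat_lit 0) (nat_lit 6746332955) (nat_lit 1672) (nat_lit 209887712) (nat_lit 371) (nat_lit 5) (nat_lit 370) (nat_lit 5) (nat_lit 392) (nat_lit 5) (nat_lit 450) (nat_lit 429) (nat_lit 261))))))))
noncomputable def xc209 : XT := (XT.nd (nat_lit 2106) (nat_lit 7220) (nat_lit 0) (XT.nd (nat_lit 1014) (nat_lit 5016) (nat_lit 0) (XT.nd (nat_lit 468) (nat_lit 2736) (nat_lit 0) (XT.nd (nat_lit 234) (nat_lit 1520) (nat_lit 0) (XT.nd (nat_lit 78) (nat_lit 0) (nat_lit 76) (XT.lf (nat_lit 0) (nat_lit 857152849) (nat_lit 1672) (nat_lit 503143669) (nat_lit 1748) (nat_lit 12484495916) (nat_lit 348) (nat_lit 5) (nat_lit 370) (nat_lit 5) (nat_lit 371) (nat_lit 5) (nat_lit 451) (nat_lit 429) (nat_lit 260)) (XT.nd (nat_lit 78) (nat_lit 0) (nat_lit 0) (XT.lf (nat_lit 0)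 (nat_lit 2000483208) (nat_lit 1672) (nat_lit 7866596402) (nat_lit 1748) (nat_lit 4122816068) (nat_lit 349) (nat_lit 5) (nat_lit 371) (nat_lit 5) (nat_lit 372) (nat_lit 5) (nat_lit 452) (nat_lit 429) (nat_lit 259)) (XT.lf (nat_lit 0) (nat_lit 3169931932) (nat_lit 1672) (nat_lit 1265240275) (nat_lit 1748) (nat_lit 9702672942) (nat_lit 349) (nat_lit 5) (nat_lit 371) (nat_lit 5) (nat_lit 372) (nat_lit 5) (nat_lit 453) (nat_lit 429) (nat_lit 258)))) (XT.nd (nat_lit 78) (nat_lit 1672) (nat_lit 0) (XT.lf (nat_lit 0) (nat_lit 4397145552) (nat_lit 1672) (nat_lit 8762255463) (nat_lit 76) (nat_lit 1128674094) (nat_lit 350) (nat_lit 5) (nat_lit 372) (nat_lit 5) (nat_lit 351) (nat_lit 5) (nat_lit 454) (nat_lit 429) (nat_lit 257)) (XT.nd (nat_lit 78) (nat_lit 1672) (nat_lit 0) (XT.lf (nat_lit 0) (nat_lit 5677985082) (nat_lit 1672) (nat_lit 2008185287) (nat_lit 76) (nat_lit 6754566510) (nat_lit 350) (nat_lit 5) (nat_lit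 372) (nat_lit 5) (nat_lit 351) (nat_lit 5) (nat_lit 455) (nat_lit 429) (nat_lit 256)) (XT.lf (nat_lit 0) (nat_lit 4938412270) (nat_lit 1672) (nat_lit 2069428833) (nat_lit 1748) (nat_lit 7588151457) (nat_lit 328) (nat_lit 5) (nat_lit 350) (nat_lit 5) (nat_lit 351) (nat_lit 5) (nat_lit 456) (nat_lit 429) (nat_lit 255))))) (XT.nd (nat_lit 234) (nat_lit 1748) (nat_lit 0) (XT.nd (nat_lit 78) (nat_lit 988) (nat_lit 0) (XT.lf (nat_lit 0) (nat_lit 8393087460) (nat_lit 1748) (nat_lit 2734232239) (nat_lit 76) (nat_lit 3626466289) (nat_lit 328) (nat_lit 5) (nat_lit 351) (nat_lit 5) (nat_lit 329) (nat_lit 5) (nat_lit 457) (nat_lit 429) (nat_lit 254)) (XT.nd (nat_lit 78) (nat_lit 0) (nat_lit 0) (XT.lf (nat_lit 0) (nat_lit 4363794642) (nat_lit 988) (nat_lit 5475916019) (nat_lit 1064) (nat_lit 5074359518) (nat_lit 315) (nat_lit 5) (nat_lit 328) (nat_lit 5) (nat_lit 329) (nat_lit 5) (nat_lit 458) (nat_lit 429) (nat_lit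 253)) (XT.lf (nat_lit 0) (nat_lit 11327366871) (nat_lit 1064) (nat_lit 3445789184) (nat_lit 76) (nat_lit 304170155) (nat_lit 315) (nat_lit 5) (nat_lit 329) (nat_lit 5) (nat_lit 316) (nat_lit 5) (nat_lit 459) (nat_lit 429) (nat_lit 252)))) (XT.nd (nat_lit 156) (nat_lit 912) (nat_lit 0) (XT.nd (nat_lit 78) (nat_lit 0) (nat_lit 0) (XT.lf (nat_lit 0) (nat_lit 3807153420) (nat_lit 836) (nat_lit 9090524971) (nat_lit 912) (nat_lit 2345118937) (nat_lit 304) (nat_lit 5) (nat_lit 315) (nat_lit 5) (nat_lit 316) (nat_lit 5) (nat_lit 460) (nat_lit 429) (nat_lit 251)) (XT.lf (nat_lit 0) (nat_lit 11244610854) (nat_lit 836) (nat_lit 3269938980) (nat_lit 912) (nat_lit 896732811) (nat_lit 304) (nat_lit 5) (nat_lit 315) (nat_lit 5) (nat_lit 316) (nat_lit 5) (nat_lit 461) (nat_lit 429) (nat_lit 250))) (XT.nd (nat_lit 78) (nat_lit 0) (nat_lit 0) (XT.lf (nat_lit 0) (nat_lit 603914158) (nat_lit 912) (nat_lit 12320586611) (nat_lit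 76) (nat_lit 2657950892) (nat_lit 292) (nat_lit 5) (nat_lit 304) (nat_lit 5) (nat_lit 293) (nat_lit 5) (nat_lit 462) (nat_lit 429) (nat_lit 249)) (XT.lf (nat_lit 0) (nat_lit 2164618155) (nat_lit 912) (nat_lit 4896152468) (nat_lit 76) (nat_lit 8695321256) (nat_lit 292) (nat_lit 5) (nat_lit 304) (nat_lit 5) (nat_lit 293) (nat_lit 5) (nat_lit 463) (nat_lit 429) (nat_lit 248)))))) (XT.nd (nat_lit 546) (nat_lit 2052) (nat_lit 0) (XT.nd (nat_lit 234) (nat_lit 1444) (nat_lit 0) (XT.nd (nat_lit 78) (nat_lit 760) (nat_lit 0) (XT.lf (nat_lit 0) (nat_lit 2705049961) (nat_lit 760) (nat_lit 1061440583) (nat_lit 836) (nat_lit 12166522524) (nat_lit 282) (nat_lit 5) (nat_lit 292) (nat_lit 5) (nat_lit 293) (nat_lit 5) (nat_lit 464) (nat_lit 429) (nat_lit 247)) (XT.nd (nat_lit 78) (nat_lit 760) (nat_lit 0) (XT.lf (nat_lit 0) (nat_lit 5458809225) (nat_lit 836) (nat_lit 5628536966) (nat_lit 76) (nat_lit 5024965426) (nat_lit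 282) (nat_lit 5) (nat_lit 293) (nat_lit 5) (nat_lit 283) (nat_lit 5) (nat_lit 465) (nat_lit 429) (nat_lit 246)) (XT.lf (nat_lit 0) (nat_lit 2136705093) (nat_lit 760) (nat_lit 5061815037) (nat_lit 836) (nat_lit 9096412060) (nat_lit 272) (nat_lit 5) (nat_lit 282) (nat_lit 5) (nat_lit 283) (nat_lit 5) (nat_lit 466) (nat_lit 429) (nat_lit 245)))) (XT.nd (nat_lit 156) (nat_lit 760) (nat_lit 0) (XT.nd (nat_lit 78) (nat_lit 684) (nat_lit 0) (XT.lf (nat_lit 0) (nat_lit 9010827817) (nat_lit 836) (nat_lit 6361463357) (nat_lit 76) (nat_lit 1108164786) (nat_lit 272) (nat_lit 5) (nat_lit 283) (nat_lit 5) (nat_lit 273) (nat_lit 5) (nat_lit 467) (nat_lit 429) (nat_lit 244)) (XT.lf (nat_lit 0) (nat_lit 1571190514) (nat_lit 684) (nat_lit 9324799074) (nat_lit 760) (nat_lit 5772975160) (nat_lit 263) (nat_lit 5) (nat_lit 272) (nat_lit 5) (nat_lit 273) (nat_lit 5) (nat_lit 468) (nat_lit 429) (nat_lit 243))) (XT.nd (nat_lit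 78) (nat_lit 760) (nat_lit 0) (XT.lf (nat_lit 0) (nat_lit 9741646043) (nat_lit 684) (nat_lit 3112875614) (nat_lit 760) (nat_lit 4006015283) (nat_lit 263) (nat_lit 5) (nat_lit 272) (nat_lit 5) (nat_lit 273) (nat_lit 5) (nat_lit 469) (nat_lit 429) (nat_lit 242)) (XT.lf (nat_lit 0) (nat_lit 1004732048) (nat_lit 760) (nat_lit 13868059008) (nat_lit 836) (nat_lit 2182744628) (nat_lit 253) (nat_lit 5) (nat_lit 263) (nat_lit 5) (nat_lit 264) (nat_lit 5) (nat_lit 470) (nat_lit 429) (nat_lit 241))))) (XT.nd (nat_lit 234) (nat_lit 1292) (nat_lit 0) (XT.nd (nat_lit 78) (nat_lit 760) (nat_lit 0) (XT.lf (nat_lit 0) (nat_lit 9359395901) (nat_lit 760) (nat_lit 7633485752) (nat_lit 836) (nat_lit 260329948) (nat_lit 253) (nat_lit 5) (nat_lit 263) (nat_lit 5) (nat_lit 264) (nat_lit 5) (nat_lit 471) (nat_lit 429) (nat_lit 240)) (XT.nd (nat_lit 78) (nat_lit 0) (nat_lit 0) (XT.lf (nat_lit 0) (nat_lit 413698568) (nat_lit 684)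 (nat_lit 1260505537) (nat_lit 760) (nat_lit 15780502703) (nat_lit 243) (nat_lit 5) (nat_lit 252) (nat_lit 5) (nat_lit 253) (nat_lit 5) (nat_lit 472) (nat_lit 429) (nat_lit 239)) (XT.lf (nat_lit 0) (nat_lit 3724662097) (nat_lit 760) (nat_lit 8707991063) (nat_lit 76) (nat_lit 5225935913) (nat_lit 243) (nat_lit 5) (nat_lit 253) (nat_lit 5) (nat_lit 244) (nat_lit 5) (nat_lit 473) (nat_lit 429) (nat_lit 238)))) (XT.nd (nat_lit 156) (nat_lit 608) (nat_lit 0) (XT.nd (nat_lit 78) (nat_lit 684) (nat_lit 0) (XT.lf (nat_lit 0) (nat_lit 5817979147) (nat_lit 760) (nat_lit 223610744) (nat_lit 76) (nat_lit 11824927927) (nat_lit 243) (nat_lit 5) (nat_lit 253) (nat_lit 5) (nat_lit 244) (nat_lit 5) (nat_lit 474) (nat_lit 429) (nat_lit 237)) (XT.lf (nat_lit 0) (nat_lit 8005673888) (nat_lit 760) (nat_lit 9545503187) (nat_lit 76) (nat_lit 526383557) (nat_lit 234) (nat_lit 5) (nat_lit 244) (nat_lit 5) (nat_lit 235) (nat_lit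 5) (nat_lit 475) (nat_lit 429) (nat_lit 236))) (XT.nd (nat_lit 78) (nat_lit 608) (nat_lit 0) (XT.lf (nat_lit 0) (nat_lit 10272350979) (nat_lit 760) (nat_lit 873841338) (nat_lit 76) (nat_lit 7145933023) (nat_lit 234) (nat_lit 5) (nat_lit 244) (nat_lit 5) (nat_lit 235) (nat_lit 5) (nat_lit 476) (nat_lit 429) (nat_lit 235)) (XT.lf (nat_lit 0) (nat_lit 8070336206) (nat_lit 608) (nat_lit 4560254208) (nat_lit 684) (nat_lit 5879471849) (nat_lit 226) (nat_lit 5) (nat_lit 234) (nat_lit 5) (nat_lit 235) (nat_lit 5) (nat_lit 477) (nat_lit 429) (nat_lit 234))))))) (XT.nd (nat_lit 1092) (nat_lit 2964) (nat_lit 0) (XT.nd (nat_lit 546) (nat_lit 2280) (nat_lit 0) (XT.nd (nat_lit 234) (nat_lit 1216) (nat_lit 0) (XT.nd (nat_lit 78) (nat_lit 760) (nat_lit 0) (XT.lf (nat_lit 0) (nat_lit 15049808820) (nat_lit 684) (nat_lit 1547884456) (nat_lit 76) (nat_lit 2134393755) (nat_lit 226) (nat_lit 5) (nat_lit 235) (nat_lit 5) (nat_lit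 227) (nat_lit 5) (nat_lit 478) (nat_lit 429) (nat_lit 233)) (XT.nd (nat_lit 78) (nat_lit 76) (nat_lit 0) (XT.lf (nat_lit 0) (nat_lit 7584357819) (nat_lit 684) (nat_lit 10006520462) (nat_lit 760) (nat_lit 1366209962) (nat_lit 217) (nat_lit 5) (nat_lit 226) (nat_lit 5) (nat_lit 227) (nat_lit 5) (nat_lit 479) (nat_lit 429) (nat_lit 232)) (XT.lf (nat_lit 0) (nat_lit 987623861) (nat_lit 760) (nat_lit 2279437470) (nat_lit 76) (nat_lit 15919313686) (nat_lit 216) (nat_lit 5) (nat_lit 226) (nat_lit 5) (nat_lit 217) (nat_lit 5) (nat_lit 480) (nat_lit 429) (nat_lit 231)))) (XT.nd (nat_lit 156) (nat_lit 608) (nat_lit 0) (XT.nd (nat_lit 78) (nat_lit 0) (nat_lit 0) (XT.lf (nat_lit 0) (nat_lit 3434128531) (nat_lit 684) (nat_lit 12370227731) (nat_lit 76) (nat_lit 3614437875) (nat_lit 208) (nat_lit 5) (nat_lit 217) (nat_lit 5) (nat_lit 209) (nat_lit 5) (nat_lit 481) (nat_lit 429) (nat_lit 230)) (XT.lf (nat_lit 0) (nat_lit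 5960833350) (nat_lit 684) (nat_lit 3089949442) (nat_lit 76) (nat_lit 10604458329) (nat_lit 208) (nat_lit 5) (nat_lit 217) (nat_lit 5) (nat_lit 209) (nat_lit 5) (nat_lit 482) (nat_lit 429) (nat_lit 229))) (XT.nd (nat_lit 78) (nat_lit 0) (nat_lit 0) (XT.lf (nat_lit 0) (nat_lit 6454026209) (nat_lit 608) (nat_lit 2120299251) (nat_lit 684) (nat_lit 11321371307) (nat_lit 200) (nat_lit 5) (nat_lit 208) (nat_lit 5) (nat_lit 209) (nat_lit 5) (nat_lit 483) (nat_lit 429) (nat_lit 228)) (XT.lf (nat_lit 0) (nat_lit 11287502640) (nat_lit 684) (nat_lit 3948669645) (nat_lit 76) (nat_lit 4903845626) (nat_lit 200) (nat_lit 5) (nat_lit 209) (nat_lit 5) (nat_lit 201) (nat_lit 5) (nat_lit 484) (nat_lit 429) (nat_lit 227))))) (XT.nd (nat_lit 234) (nat_lit 1140) (nat_lit 0) (XT.nd (nat_lit 78) (nat_lit 608) (nat_lit 0) (XT.lf (nat_lit 0) (nat_lit 5789589802) (nat_lit 532) (nat_lit 8311506576) (nat_lit 608) (nat_lit 6287210640)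 (nat_lit 193) (nat_lit 5) (nat_lit 200) (nat_lit 5) (nat_lit 201) (nat_lit 5) (nat_lit 485) (nat_lit 429) (nat_lit 226)) (XT.nd (nat_lit 78) (nat_lit 608) (nat_lit 0) (XT.lf (nat_lit 0) (nat_lit 15769691122) (nat_lit 532) (nat_lit 1222355516) (nat_lit 608) (nat_lit 3649098087) (nat_lit 193) (nat_lit 5) (nat_lit 200) (nat_lit 5) (nat_lit 201) (nat_lit 5) (nat_lit 486) (nat_lit 429) (nat_lit 225)) (XT.lf (nat_lit 0) (nat_lit 5071430227) (nat_lit 608) (nat_lit 14936010984) (nat_lit 684) (nat_lit 890269890) (nat_lit 185) (nat_lit 5) (nat_lit 193) (nat_lit 5) (nat_lit 194) (nat_lit 5) (nat_lit 487) (nat_lit 429) (nat_lit 224)))) (XT.nd (nat_lit 156) (nat_lit 532) (nat_lit 0) (XT.nd (nat_lit 78) (nat_lit 532) (nat_lit 0) (XT.lf (nat_lit 0) (nat_lit 1934216545) (nat_lit 684) (nat_lit 5906809526) (nat_lit 76) (nat_lit 13317422945) (nat_lit 184) (nat_lit 5) (nat_lit 193) (nat_lit 5) (nat_lit 185) (nat_lit 5) (nat_lit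 488) (nat_lit 429) (nat_lit 223)) (XT.lf (nat_lit 0) (nat_lit 4254623847) (nat_lit 532) (nat_lit 571097080) (nat_lit 608) (nat_lit 16598118254) (nat_lit 177) (nat_lit 5) (nat_lit 184) (nat_lit 5) (nat_lit 185) (nat_lit 5) (nat_lit 489) (nat_lit 429) (nat_lit 222))) (XT.nd (nat_lit 78) (nat_lit 532) (nat_lit 0) (XT.lf (nat_lit 0) (nat_lit 7854260218) (nat_lit 608) (nat_lit 7045479038) (nat_lit 76) (nat_lit 6793217882) (nat_lit 177) (nat_lit 5) (nat_lit 185) (nat_lit 5) (nat_lit 178) (nat_lit 5) (nat_lit 490) (nat_lit 429) (nat_lit 221)) (XT.lf (nat_lit 0) (nat_lit 3314151754) (nat_lit 532) (nat_lit 7649486187) (nat_lit 608) (nat_lit 11003418166) (nat_lit 170) (nat_lit 5) (nat_lit 177) (nat_lit 5) (nat_lit 178) (nat_lit 5) (nat_lit 491) (nat_lit 429) (nat_lit 220)))))) (XT.nd (nat_lit 546) (nat_lit 1444) (nat_lit 0) (XT.nd (nat_lit 234) (nat_lit 1064) (nat_lit 0) (XT.nd (nat_lit 78) (nat_lit 456) (nat_lit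 0) (XT.lf (nat_lit 0) (nat_lit 13970255869) (nat_lit 532) (nat_lit 207252367) (nat_lit 608) (nat_lit 8068286646) (nat_lit 170) (nat_lit 5) (nat_lit 177) (nat_lit 5) (nat_lit 178) (nat_lit 5) (nat_lit 492) (nat_lit 429) (nat_lit 219)) (XT.nd (nat_lit 78) (nat_lit 0) (nat_lit 0) (XT.lf (nat_lit 0) (nat_lit 2285209844) (nat_lit 456) (nat_lit 15228339607) (nat_lit 532) (nat_lit 5015404958) (nat_lit 164) (nat_lit 5) (nat_lit 170) (nat_lit 5) (nat_lit 171) (nat_lit 5) (nat_lit 493) (nat_lit 429) (nat_lit 218)) (XT.lf (nat_lit 0) (nat_lit 13161806735) (nat_lit 456) (nat_lit 7806573021) (nat_lit 532) (nat_lit 1848359779) (nat_lit 164) (nat_lit 5) (nat_lit 170) (nat_lit 5) (nat_lit 171) (nat_lit 5) (nat_lit 494) (nat_lit 429) (nat_lit 217)))) (XT.nd (nat_lit 156) (nat_lit 456) (nat_lit 0) (XT.nd (nat_lit 78) (nat_lit 0) (nat_lit 0) (XT.lf (nat_lit 0) (nat_lit 1145607383) (nat_lit 532) (nat_lit 220962654) (nat_lit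 608) (nat_lit 21743481109) (nat_lit 156) (nat_lit 5) (nat_lit 163) (nat_lit 5) (nat_lit 164) (nat_lit 5) (nat_lit 495) (nat_lit 429) (nat_lit 216)) (XT.lf (nat_lit 0) (nat_lit 4730368640) (nat_lit 608) (nat_lit 11182519344) (nat_lit 76) (nat_lit 7493913811) (nat_lit 156) (nat_lit 5) (nat_lit 164) (nat_lit 5) (nat_lit 157) (nat_lit 5) (nat_lit 496) (nat_lit 429) (nat_lit 215))) (XT.nd (nat_lit 78) (nat_lit 456) (nat_lit 0) (XT.lf (nat_lit 0) (nat_lit 8158275806) (nat_lit 608) (nat_lit 192447822) (nat_lit 76) (nat_lit 15358830665) (nat_lit 156) (nat_lit 5) (nat_lit 164) (nat_lit 5) (nat_lit 157) (nat_lit 5) (nat_lit 497) (nat_lit 429) (nat_lit 214)) (XT.lf (nat_lit 0) (nat_lit 11157852512) (nat_lit 456) (nat_lit 564792842) (nat_lit 532) (nat_lit 12294361821) (nat_lit 150) (nat_lit 5) (nat_lit 156) (nat_lit 5) (nat_lit 157) (nat_lit 5) (nat_lit 498) (nat_lit 429) (nat_lit 213))))) (XT.nd (nat_lit 234) (nat_lit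 988) (nat_lit 0) (XT.nd (nat_lit 78) (nat_lit 456) (nat_lit 0) (XT.lf (nat_lit 0) (nat_lit 15402999707) (nat_lit 532) (nat_lit 1646674887) (nat_lit 76) (nat_lit 7280043923) (nat_lit 150) (nat_lit 5) (nat_lit 157) (nat_lit 5) (nat_lit 151) (nat_lit 5) (nat_lit 499) (nat_lit 429) (nat_lit 212)) (XT.nd (nat_lit 78) (nat_lit 0) (nat_lit 0) (XT.lf (nat_lit 0) (nat_lit 9910453140) (nat_lit 456) (nat_lit 9310183775) (nat_lit 532) (nat_lit 5426776939) (nat_lit 144) (nat_lit 5) (nat_lit 150) (nat_lit 5) (nat_lit 151) (nat_lit 5) (nat_lit 500) (nat_lit 429) (nat_lit 211)) (XT.lf (nat_lit 0) (nat_lit 21715244879) (nat_lit 456) (nat_lit 1406071038) (nat_lit 532) (nat_lit 1850016621) (nat_lit 144) (nat_lit 5) (nat_lit 150) (nat_lit 5) (nat_lit 151) (nat_lit 5) (nat_lit 501) (nat_lit 429) (nat_lit 210)))) (XT.nd (nat_lit 156) (nat_lit 456) (nat_lit 0) (XT.nd (nat_lit 78) (nat_lit 0) (nat_lit 0) (XT.lf (nat_lit 0) (nat_lit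 1869545215) (nat_lit 532) (nat_lit 16795023027) (nat_lit 76) (nat_lit 6635033916) (nat_lit 137) (nat_lit 5) (nat_lit 144) (nat_lit 5) (nat_lit 138) (nat_lit 5) (nat_lit 502) (nat_lit 429) (nat_lit 209)) (XT.lf (nat_lit 0) (nat_lit 5665787264) (nat_lit 532) (nat_lit 5116899560) (nat_lit 76) (nat_lit 14850967595) (nat_lit 137) (nat_lit 5) (nat_lit 144) (nat_lit 5) (nat_lit 138) (nat_lit 5) (nat_lit 503) (nat_lit 429) (nat_lit 208))) (XT.nd (nat_lit 78) (nat_lit 0) (nat_lit 0) (XT.lf (nat_lit 0) (nat_lit 6879336009) (nat_lit 456) (nat_lit 2699098110) (nat_lit 532) (nat_lit 16395146983) (nat_lit 131) (nat_lit 5) (nat_lit 137) (nat_lit 5) (nat_lit 138) (nat_lit 5) (nat_lit 504) (nat_lit 429) (nat_lit 207)) (XT.lf (nat_lit 0) (nat_lit 13635758264) (nat_lit 532) (nat_lit 7176711889) (nat_lit 76) (nat_lit 5506510595) (nat_lit 131) (nat_lit 5) (nat_lit 138) (nat_lit 5) (nat_lit 132) (nat_lit 5) (nat_lit 505) (nat_lit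 429) (nat_lit 206))))))))
noncomputable def xc210 : XT := (XT.nd (nat_lit 54678) (nat_lit 0) (nat_lit 11172) (XT.nd (nat_lit 53586) (nat_lit 0) (nat_lit 19684) (XT.nd (nat_lit 468) (nat_lit 760) (nat_lit 0) (XT.nd (nat_lit 234) (nat_lit 456) (nat_lit 0) (XT.nd (nat_lit 78) (nat_lit 380) (nat_lit 0) (XT.lf (nat_lit 0) (nat_lit 5021555009) (nat_lit 380) (nat_lit 12799083832) (nat_lit 456) (nat_lit 8849724206) (nat_lit 126) (nat_lit 5) (nat_lit 131) (nat_lit 5) (nat_lit 132) (nat_lit 5) (nat_lit 506) (nat_lit 429) (nat_lit 205)) (XT.nd (nat_lit 78) (nat_lit 380) (nat_lit 0) (XT.lf (nat_lit 0) (nat_lit 17555505566) (nat_lit 380) (nat_lit 4577846484) (nat_lit 456) (nat_lit 4894541046) (nat_lit 126) (nat_lit 5) (nat_lit 131) (nat_lit 5) (nat_lit 132) (nat_lit 5) (nat_lit 507) (nat_lit 429) (nat_lit 204)) (XT.lf (nat_lit 0) (nat_lit 2956081397) (nat_lit 380) (nat_lit 23616198451) (nat_lit 456) (nat_lit 819497441)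 (nat_lit 121) (nat_lit 5) (nat_lit 126) (nat_lit 5) (nat_lit 127) (nat_lit 5) (nat_lit 508) (nat_lit 429) (nat_lit 203)))) (XT.nd (nat_lit 78) (nat_lit 380) (nat_lit 0) (XT.lf (nat_lit 0) (nat_lit 3383641543) (nat_lit 456) (nat_lit 12058096940) (nat_lit 76) (nat_lit 12318962789) (nat_lit 120) (nat_lit 5) (nat_lit 126) (nat_lit 5) (nat_lit 121) (nat_lit 5) (nat_lit 509) (nat_lit 429) (nat_lit 202)) (XT.nd (nat_lit 78) (nat_lit 0) (nat_lit 0) (XT.lf (nat_lit 0) (nat_lit 563581729) (nat_lit 380) (nat_lit 7096093157) (nat_lit 456) (nat_lit 20477227007) (nat_lit 115) (nat_lit 5) (nat_lit 120) (nat_lit 5) (nat_lit 121) (nat_lit 5) (nat_lit 510) (nat_lit 429) (nat_lit 201)) (XT.lf (nat_lit 0) (nat_lit 12108043297) (nat_lit 456) (nat_lit 14933065671) (nat_lit 76) (nat_lit 1477783811) (nat_lit 115) (nat_lit 5) (nat_lit 121) (nat_lit 5) (nat_lit 116) (nat_lit 5) (nat_lit 511) (nat_lit 429) (nat_lit 200))))) (XT.nd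 (nat_lit 234) (nat_lit 380) (nat_lit 0) (XT.nd (nat_lit 78) (nat_lit 380) (nat_lit 0) (XT.lf (nat_lit 0) (nat_lit 16688613975) (nat_lit 456) (nat_lit 2092362452) (nat_lit 76) (nat_lit 10126684848) (nat_lit 115) (nat_lit 5) (nat_lit 121) (nat_lit 5) (nat_lit 116) (nat_lit 5) (nat_lit 512) (nat_lit 429) (nat_lit 199)) (XT.nd (nat_lit 78) (nat_lit 0) (nat_lit 0) (XT.lf (nat_lit 0) (nat_lit 11146080456) (nat_lit 380) (nat_lit 10283397970) (nat_lit 456) (nat_lit 7873355508) (nat_lit 110) (nat_lit 5) (nat_lit 115) (nat_lit 5) (nat_lit 116) (nat_lit 5) (nat_lit 513) (nat_lit 429) (nat_lit 198)) (XT.lf (nat_lit 0) (nat_lit 24672432108) (nat_lit 380) (nat_lit 1603121878) (nat_lit 456) (nat_lit 3430150577) (nat_lit 110) (nat_lit 5) (nat_lit 115) (nat_lit 5) (nat_lit 116) (nat_lit 5) (nat_lit 514) (nat_lit 429) (nat_lit 197)))) (XT.nd (nat_lit 52728) (nat_lit 0) (nat_lit 21128) (XT.nd (nat_lit 78) (nat_lit 0) (nat_lit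 0) (XT.lf (nat_lit 0) (nat_lit 1186213139) (nat_lit 380) (nat_lit 21711751437) (nat_lit 76) (nat_lit 7216552309) (nat_lit 105) (nat_lit 5) (nat_lit 110) (nat_lit 5) (nat_lit 106) (nat_lit 5) (nat_lit 515) (nat_lit 429) (nat_lit 196)) (XT.lf (nat_lit 0) (nat_lit 5890059182) (nat_lit 380) (nat_lit 8393834816) (nat_lit 76) (nat_lit 16246338550) (nat_lit 105) (nat_lit 5) (nat_lit 110) (nat_lit 5) (nat_lit 106) (nat_lit 5) (nat_lit 516) (nat_lit 429) (nat_lit 195))) (XT.nd (nat_lit 78) (nat_lit 0) (nat_lit 0) (XT.lf (nat_lit 0) (nat_lit 4438896371) (nat_lit 1596) (nat_lit 627218596) (nat_lit 1596) (nat_lit 627218596) (nat_lit 383) (nat_lit 3) (nat_lit 404) (nat_lit 3) (nat_lit 404) (nat_lit 5) (nat_lit 430) (nat_lit 430) (nat_lit 280)) (XT.lf (nat_lit 76) (nat_lit 3846227130) (nat_lit 0) (nat_lit 5642621596) (nat_lit 1596) (nat_lit 2000697311) (nat_lit 384) (nat_lit 5) (nat_lit 383) (nat_lit 3) (nat_lit 404)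 (nat_lit 5) (nat_lit 431) (nat_lit 430) (nat_lit 279)))))) (XT.nd (nat_lit 546) (nat_lit 0) (nat_lit 76) (XT.nd (nat_lit 234) (nat_lit 1444) (nat_lit 0) (XT.nd (nat_lit 78) (nat_lit 0) (nat_lit 76) (XT.lf (nat_lit 76) (nat_lit 9059160649) (nat_lit 0) (nat_lit 1048294790) (nat_lit 1596) (nat_lit 1487134717) (nat_lit 384) (nat_lit 5) (nat_lit 383) (nat_lit 3) (nat_lit 404) (nat_lit 5) (nat_lit 432) (nat_lit 430) (nat_lit 278)) (XT.nd (nat_lit 78) (nat_lit 0) (nat_lit 0) (XT.lf (nat_lit 76) (nat_lit 2679209280) (nat_lit 0) (nat_lit 8087448656) (nat_lit 1596) (nat_lit 934526692) (nat_lit 385) (nat_lit 5) (nat_lit 384) (nat_lit 5) (nat_lit 405) (nat_lit 5) (nat_lit 433) (nat_lit 430) (nat_lit 277)) (XT.lf (nat_lit 76) (nat_lit 8018593291) (nat_lit 0) (nat_lit 3431776732) (nat_lit 1596) (nat_lit 359328125) (nat_lit 385) (nat_lit 5) (nat_lit 384) (nat_lit 5) (nat_lit 405) (nat_lit 5) (nat_lit 434) (nat_lit 430)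 (nat_lit 276)))) (XT.nd (nat_lit 156) (nat_lit 0) (nat_lit 0) (XT.nd (nat_lit 78) (nat_lit 0) (nat_lit 0) (XT.lf (nat_lit 0) (nat_lit 230727486) (nat_lit 1596) (nat_lit 10372681108) (nat_lit 1672) (nat_lit 1316830256) (nat_lit 364) (nat_lit 5) (nat_lit 385) (nat_lit 5) (nat_lit 386) (nat_lit 5) (nat_lit 435) (nat_lit 430) (nat_lit 275)) (XT.lf (nat_lit 0) (nat_lit 863913615) (nat_lit 1596) (nat_lit 5020545251) (nat_lit 1672) (nat_lit 6147774061) (nat_lit 364) (nat_lit 5) (nat_lit 385) (nat_lit 5) (nat_lit 386) (nat_lit 5) (nat_lit 436) (nat_lit 430) (nat_lit 274))) (XT.nd (nat_lit 78) (nat_lit 0) (nat_lit 76) (XT.lf (nat_lit 76) (nat_lit 437338130) (nat_lit 0) (nat_lit 1063304555) (nat_lit 1672) (nat_lit 10646019247) (nat_lit 365) (nat_lit 5) (nat_lit 364) (nat_lit 5) (nat_lit 386) (nat_lit 5) (nat_lit 437) (nat_lit 430) (nat_lit 273)) (XT.lf (nat_lit 0) (nat_lit 2197304422) (nat_lit 1596) (nat_lit 6222782907)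 (nat_lit 1672) (nat_lit 3842360606) (nat_lit 365) (nat_lit 5) (nat_lit 386) (nat_lit 5) (nat_lit 387) (nat_lit 5) (nat_lit 438) (nat_lit 430) (nat_lit 272))))) (XT.nd (nat_lit 234) (nat_lit 0) (nat_lit 76) (XT.nd (nat_lit 78) (nat_lit 0) (nat_lit 76) (XT.lf (nat_lit 0) (nat_lit 2903431314) (nat_lit 1596) (nat_lit 640674106) (nat_lit 1672) (nat_lit 8836545739) (nat_lit 365) (nat_lit 5) (nat_lit 386) (nat_lit 5) (nat_lit 387) (nat_lit 5) (nat_lit 439) (nat_lit 430) (nat_lit 271)) (XT.nd (nat_lit 78) (nat_lit 0) (nat_lit 0) (XT.lf (nat_lit 0) (nat_lit 3655122968) (nat_lit 1596) (nat_lit 7397165155) (nat_lit 1672) (nat_lit 1448313380) (nat_lit 366) (nat_lit 5) (nat_lit 387) (nat_lit 5) (nat_lit 388) (nat_lit 5) (nat_lit 440) (nat_lit 430) (nat_lit 270)) (XT.lf (nat_lit 0) (nat_lit 4438566253) (nat_lit 1596) (nat_lit 1682447231) (nat_lit 1672) (nat_lit 6501614680) (nat_lit 366) (nat_lit 5) (nat_lit 387) (nat_lit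 5) (nat_lit 388) (nat_lit 5) (nat_lit 441) (nat_lit 430) (nat_lit 269)))) (XT.nd (nat_lit 156) (nat_lit 0) (nat_lit 76) (XT.nd (nat_lit 78) (nat_lit 0) (nat_lit 76) (XT.lf (nat_lit 76) (nat_lit 4194521550) (nat_lit 0) (nat_lit 1059526908) (nat_lit 1672) (nat_lit 7492730938) (nat_lit 367) (nat_lit 5) (nat_lit 366) (nat_lit 5) (nat_lit 388) (nat_lit 5) (nat_lit 442) (nat_lit 430) (nat_lit 268)) (XT.lf (nat_lit 0) (nat_lit 6113173694) (nat_lit 1596) (nat_lit 2695325586) (nat_lit 1672) (nat_lit 4064378920) (nat_lit 367) (nat_lit 5) (nat_lit 388) (nat_lit 5) (nat_lit 389) (nat_lit 5) (nat_lit 443) (nat_lit 430) (nat_lit 267))) (XT.nd (nat_lit 78) (nat_lit 0) (nat_lit 76) (XT.lf (nat_lit 76) (nat_lit 3307997825) (nat_lit 0) (nat_lit 3699515199) (nat_lit 1672) (nat_lit 5993636318) (nat_lit 368) (nat_lit 5) (nat_lit 367) (nat_lit 5) (nat_lit 389) (nat_lit 5) (nat_lit 444) (nat_lit 430) (nat_lit 266)) (XT.lf (nat_lit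 0) (nat_lit 7937478000) (nat_lit 1596) (nat_lit 3680941804) (nat_lit 1672) (nat_lit 1513222103) (nat_lit 368) (nat_lit 5) (nat_lit 389) (nat_lit 5) (nat_lit 390) (nat_lit 5) (nat_lit 445) (nat_lit 430) (nat_lit 265))))))) (XT.nd (nat_lit 1014) (nat_lit 5776) (nat_lit 0) (XT.nd (nat_lit 468) (nat_lit 1520) (nat_lit 0) (XT.nd (nat_lit 234) (nat_lit 1520) (nat_lit 0) (XT.nd (nat_lit 78) (nat_lit 0) (nat_lit 0) (XT.lf (nat_lit 76) (nat_lit 2452007000) (nat_lit 0) (nat_lit 6464374451) (nat_lit 1672) (nat_lit 4347766658) (nat_lit 369) (nat_lit 5) (nat_lit 368) (nat_lit 5) (nat_lit 390) (nat_lit 5) (nat_lit 446) (nat_lit 430) (nat_lit 264)) (XT.nd (nat_lit 78) (nat_lit 0) (nat_lit 76) (XT.lf (nat_lit 76) (nat_lit 8750394530) (nat_lit 0) (nat_lit 1179239978) (nat_lit 1672) (nat_lit 3469384854) (nat_lit 369) (nat_lit 5) (nat_lit 368) (nat_lit 5) (nat_lit 390) (nat_lit 5) (nat_lit 447) (nat_lit 430) (nat_lit 263))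 (XT.lf (nat_lit 76) (nat_lit 1624928912) (nat_lit 0) (nat_lit 9366401397) (nat_lit 1672) (nat_lit 2544704335) (nat_lit 370) (nat_lit 5) (nat_lit 369) (nat_lit 5) (nat_lit 391) (nat_lit 5) (nat_lit 448) (nat_lit 430) (nat_lit 262)))) (XT.nd (nat_lit 78) (nat_lit 1596) (nat_lit 0) (XT.lf (nat_lit 76) (nat_lit 8071901502) (nat_lit 0) (nat_lit 4031738576) (nat_lit 1672) (nat_lit 1571572512) (nat_lit 370) (nat_lit 5) (nat_lit 369) (nat_lit 5) (nat_lit 391) (nat_lit 5) (nat_lit 449) (nat_lit 430) (nat_lit 261)) (XT.nd (nat_lit 78) (nat_lit 1672) (nat_lit 0) (XT.lf (nat_lit 76) (nat_lit 825083520) (nat_lit 0) (nat_lit 12418251967) (nat_lit 1672) (nat_lit 573745578) (nat_lit 371) (nat_lit 5) (nat_lit 370) (nat_lit 5) (nat_lit 392) (nat_lit 5) (nat_lit 450) (nat_lit 430) (nat_lit 260)) (XT.lf (nat_lit 0) (nat_lit 493461508) (nat_lit 1672) (nat_lit 6540177131) (nat_lit 1748) (nat_lit 6926995052) (nat_lit 348) (nat_lit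 5) (nat_lit 370) (nat_lit 5) (nat_lit 371) (nat_lit 5) (nat_lit 451) (nat_lit 430) (nat_lit 259))))) (XT.nd (nat_lit 234) (nat_lit 1520) (nat_lit 0) (XT.nd (nat_lit 78) (nat_lit 0) (nat_lit 76) (XT.lf (nat_lit 76) (nat_lit 30107901) (nat_lit 0) (nat_lit 1535304276) (nat_lit 1748) (nat_lit 12541756905) (nat_lit 349) (nat_lit 5) (nat_lit 348) (nat_lit 5) (nat_lit 371) (nat_lit 5) (nat_lit 452) (nat_lit 430) (nat_lit 258)) (XT.nd (nat_lit 78) (nat_lit 0) (nat_lit 0) (XT.lf (nat_lit 0) (nat_lit 2720449109) (nat_lit 1672) (nat_lit 7469360990) (nat_lit 1748) (nat_lit 4065601154) (nat_lit 349) (nat_lit 5) (nat_lit 371) (nat_lit 5) (nat_lit 372) (nat_lit 5) (nat_lit 453) (nat_lit 430) (nat_lit 257)) (XT.lf (nat_lit 0) (nat_lit 3899954332) (nat_lit 1672) (nat_lit 746851611) (nat_lit 1748) (nat_lit 9759793817) (nat_lit 349) (nat_lit 5) (nat_lit 371) (nat_lit 5) (nat_lit 372) (nat_lit 5) (nat_lit 454) (nat_lit 430)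 (nat_lit 256)))) (XT.nd (nat_lit 156) (nat_lit 1672) (nat_lit 0) (XT.nd (nat_lit 78) (nat_lit 0) (nat_lit 0) (XT.lf (nat_lit 0) (nat_lit 5141388695) (nat_lit 1672) (nat_lit 8382826889) (nat_lit 76) (nat_lit 1035838340) (nat_lit 350) (nat_lit 5) (nat_lit 372) (nat_lit 5) (nat_lit 351) (nat_lit 5) (nat_lit 455) (nat_lit 430) (nat_lit 255)) (XT.lf (nat_lit 0) (nat_lit 6434976383) (nat_lit 1672) (nat_lit 1504551265) (nat_lit 76) (nat_lit 6776511531) (nat_lit 350) (nat_lit 5) (nat_lit 372) (nat_lit 5) (nat_lit 351) (nat_lit 5) (nat_lit 456) (nat_lit 430) (nat_lit 254))) (XT.nd (nat_lit 78) (nat_lit 0) (nat_lit 0) (XT.lf (nat_lit 0) (nat_lit 5577400628) (nat_lit 1672) (nat_lit 2204920058) (nat_lit 1748) (nat_lit 7092274087) (nat_lit 328) (nat_lit 5) (nat_lit 350) (nat_lit 5) (nat_lit 351) (nat_lit 5) (nat_lit 457) (nat_lit 430) (nat_lit 253)) (XT.lf (nat_lit 0) (nat_lit 9182235272) (nat_lit 1748) (nat_lit 2245633818)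 (nat_lit 76) (nat_lit 3607948090) (nat_lit 328) (nat_lit 5) (nat_lit 351) (nat_lit 5) (nat_lit 329) (nat_lit 5) (nat_lit 458) (nat_lit 430) (nat_lit 252)))))) (XT.nd (nat_lit 546) (nat_lit 2280) (nat_lit 0) (XT.nd (nat_lit 234) (nat_lit 1672) (nat_lit 0) (XT.nd (nat_lit 78) (nat_lit 836) (nat_lit 0) (XT.lf (nat_lit 0) (nat_lit 4990779369) (nat_lit 988) (nat_lit 5658333635) (nat_lit 1064) (nat_lit 4550379742) (nat_lit 315) (nat_lit 5) (nat_lit 328) (nat_lit 5) (nat_lit 329) (nat_lit 5) (nat_lit 459) (nat_lit 430) (nat_lit 251)) (XT.nd (nat_lit 78) (nat_lit 836) (nat_lit 0) (XT.lf (nat_lit 0) (nat_lit 12154046385) (nat_lit 1064) (nat_lit 2972507928) (nat_lit 76) (nat_lit 239721001) (nat_lit 315) (nat_lit 5) (nat_lit 329) (nat_lit 5) (nat_lit 316) (nat_lit 5) (nat_lit 460) (nat_lit 430) (nat_lit 250)) (XT.lf (nat_lit 0) (nat_lit 4421926443) (nat_lit 836) (nat_lit 9325567539) (nat_lit 912) (nat_lit 1787738938)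 (nat_lit 304) (nat_lit 5) (nat_lit 315) (nat_lit 5) (nat_lit 316) (nat_lit 5) (nat_lit 461) (nat_lit 430) (nat_lit 249)))) (XT.nd (nat_lit 156) (nat_lit 760) (nat_lit 0) (XT.nd (nat_lit 78) (nat_lit 912) (nat_lit 0) (XT.lf (nat_lit 0) (nat_lit 11997571654) (nat_lit 836) (nat_lit 3387526062) (nat_lit 912) (nat_lit 322233764) (nat_lit 304) (nat_lit 5) (nat_lit 315) (nat_lit 5) (nat_lit 316) (nat_lit 5) (nat_lit 462) (nat_lit 430) (nat_lit 248)) (XT.lf (nat_lit 0) (nat_lit 1192367708) (nat_lit 912) (nat_lit 12021761368) (nat_lit 76) (nat_lit 2667894629) (nat_lit 292) (nat_lit 5) (nat_lit 304) (nat_lit 5) (nat_lit 293) (nat_lit 5) (nat_lit 463) (nat_lit 430) (nat_lit 247))) (XT.nd (nat_lit 78) (nat_lit 760) (nat_lit 0) (XT.lf (nat_lit 0) (nat_lit 2772984309) (nat_lit 912) (nat_lit 4459529464) (nat_lit 76) (nat_lit 8826859759) (nat_lit 292) (nat_lit 5) (nat_lit 304) (nat_lit 5) (nat_lit 293) (nat_lit 5) (nat_lit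 464) (nat_lit 430) (nat_lit 246)) (XT.lf (nat_lit 0) (nat_lit 3290180263) (nat_lit 760) (nat_lit 1109081799) (nat_lit 836) (nat_lit 11840734288) (nat_lit 282) (nat_lit 5) (nat_lit 292) (nat_lit 5) (nat_lit 293) (nat_lit 5) (nat_lit 465) (nat_lit 430) (nat_lit 245))))) (XT.nd (nat_lit 234) (nat_lit 1520) (nat_lit 0) (XT.nd (nat_lit 78) (nat_lit 760) (nat_lit 0) (XT.lf (nat_lit 0) (nat_lit 6114328763) (nat_lit 836) (nat_lit 5208874598) (nat_lit 76) (nat_lit 5099909832) (nat_lit 282) (nat_lit 5) (nat_lit 293) (nat_lit 5) (nat_lit 283) (nat_lit 5) (nat_lit 466) (nat_lit 430) (nat_lit 244)) (XT.nd (nat_lit 78) (nat_lit 0) (nat_lit 0) (XT.lf (nat_lit 0) (nat_lit 2708170769) (nat_lit 760) (nat_lit 5173383379) (nat_lit 836) (nat_lit 8727987778) (nat_lit 272) (nat_lit 5) (nat_lit 282) (nat_lit 5) (nat_lit 283) (nat_lit 5) (nat_lit 467) (nat_lit 430) (nat_lit 243)) (XT.lf (nat_lit 0) (nat_lit 9719472346) (nat_lit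 836) (nat_lit 5959195011) (nat_lit 76) (nat_lit 1120331480) (nat_lit 272) (nat_lit 5) (nat_lit 283) (nat_lit 5) (nat_lit 273) (nat_lit 5) (nat_lit 468) (nat_lit 430) (nat_lit 242)))) (XT.nd (nat_lit 156) (nat_lit 836) (nat_lit 0) (XT.nd (nat_lit 78) (nat_lit 0) (nat_lit 0) (XT.lf (nat_lit 0) (nat_lit 2128628401) (nat_lit 684) (nat_lit 9506762851) (nat_lit 760) (nat_lit 5356035229) (nat_lit 263) (nat_lit 5) (nat_lit 272) (nat_lit 5) (nat_lit 273) (nat_lit 5) (nat_lit 469) (nat_lit 430) (nat_lit 241)) (XT.lf (nat_lit 0) (nat_lit 10452179039) (nat_lit 684) (nat_lit 3170689789) (nat_lit 760) (nat_lit 3564175358) (nat_lit 263) (nat_lit 5) (nat_lit 272) (nat_lit 5) (nat_lit 273) (nat_lit 5) (nat_lit 470) (nat_lit 430) (nat_lit 240))) (XT.nd (nat_lit 78) (nat_lit 76) (nat_lit 0) (XT.lf (nat_lit 0) (nat_lit 1547738415) (nat_lit 760) (nat_lit 14127163931) (nat_lit 836) (nat_lit 1711181964) (nat_lit 253) (nat_lit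 5) (nat_lit 263) (nat_lit 5) (nat_lit 264) (nat_lit 5) (nat_lit 471) (nat_lit 430) (nat_lit 239)) (XT.lf (nat_lit 0) (nat_lit 236436586) (nat_lit 836) (nat_lit 7530233975) (nat_lit 76) (nat_lit 9821219174) (nat_lit 252) (nat_lit 5) (nat_lit 263) (nat_lit 5) (nat_lit 253) (nat_lit 5) (nat_lit 472) (nat_lit 430) (nat_lit 238))))))))
noncomputable def xc211 : XT := (XT.nd (nat_lit 2106) (nat_lit 3040) (nat_lit 0) (XT.nd (nat_lit 1014) (nat_lit 3800) (nat_lit 0) (XT.nd (nat_lit 468) (nat_lit 1976) (nat_lit 0) (XT.nd (nat_lit 234) (nat_lit 608) (nat_lit 0) (XT.nd (nat_lit 78) (nat_lit 684) (nat_lit 0) (XT.lf (nat_lit 0) (nat_lit 938287236) (nat_lit 684) (nat_lit 1261469457) (nat_lit 760) (nat_lit 15593760952) (nat_lit 243) (nat_lit 5) (nat_lit 252) (nat_lit 5) (nat_lit 253) (nat_lit 5) (nat_lit 473) (nat_lit 430) (nat_lit 237)) (XT.nd (nat_lit 78) (nat_lit 684) (nat_lit 0) (XT.lf (nat_lit 0) (nat_lit 4281729779)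 (nat_lit 760) (nat_lit 8366032675) (nat_lit 76) (nat_lit 5353913648) (nat_lit 243) (nat_lit 5) (nat_lit 253) (nat_lit 5) (nat_lit 244) (nat_lit 5) (nat_lit 474) (nat_lit 430) (nat_lit 236)) (XT.lf (nat_lit 0) (nat_lit 281608633) (nat_lit 684) (nat_lit 6127670683) (nat_lit 760) (nat_lit 11804645279) (nat_lit 234) (nat_lit 5) (nat_lit 243) (nat_lit 5) (nat_lit 244) (nat_lit 5) (nat_lit 475) (nat_lit 430) (nat_lit 235)))) (XT.nd (nat_lit 78) (nat_lit 608) (nat_lit 0) (XT.lf (nat_lit 0) (nat_lit 8633117459) (nat_lit 760) (nat_lit 9224216465) (nat_lit 76) (nat_lit 572014879) (nat_lit 234) (nat_lit 5) (nat_lit 244) (nat_lit 5) (nat_lit 235) (nat_lit 5) (nat_lit 476) (nat_lit 430) (nat_lit 234)) (XT.nd (nat_lit 78) (nat_lit 608) (nat_lit 0) (XT.lf (nat_lit 0) (nat_lit 10935964757) (nat_lit 760) (nat_lit 389164453) (nat_lit 76) (nat_lit 7323267028) (nat_lit 234) (nat_lit 5) (nat_lit 244) (nat_lit 5) (nat_lit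 235) (nat_lit 5) (nat_lit 477) (nat_lit 430) (nat_lit 233)) (XT.lf (nat_lit 0) (nat_lit 8730592999) (nat_lit 608) (nat_lit 4605031186) (nat_lit 684) (nat_lit 5535190616) (nat_lit 226) (nat_lit 5) (nat_lit 234) (nat_lit 5) (nat_lit 235) (nat_lit 5) (nat_lit 478) (nat_lit 430) (nat_lit 232))))) (XT.nd (nat_lit 234) (nat_lit 1216) (nat_lit 0) (XT.nd (nat_lit 78) (nat_lit 760) (nat_lit 0) (XT.lf (nat_lit 0) (nat_lit 15794651471) (nat_lit 684) (nat_lit 1080805543) (nat_lit 76) (nat_lit 2222002408) (nat_lit 226) (nat_lit 5) (nat_lit 235) (nat_lit 5) (nat_lit 227) (nat_lit 5) (nat_lit 479) (nat_lit 430) (nat_lit 231)) (XT.nd (nat_lit 78) (nat_lit 76) (nat_lit 0) (XT.lf (nat_lit 0) (nat_lit 8230805021) (nat_lit 684) (nat_lit 10150246739) (nat_lit 760) (nat_lit 946026405) (nat_lit 217) (nat_lit 5) (nat_lit 226) (nat_lit 5) (nat_lit 227) (nat_lit 5) (nat_lit 480) (nat_lit 430) (nat_lit 230)) (XT.lf (nat_lit 0)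 (nat_lit 1440355370) (nat_lit 760) (nat_lit 1833843502) (nat_lit 76) (nat_lit 16286874279) (nat_lit 216) (nat_lit 5) (nat_lit 226) (nat_lit 5) (nat_lit 217) (nat_lit 5) (nat_lit 481) (nat_lit 430) (nat_lit 229)))) (XT.nd (nat_lit 156) (nat_lit 608) (nat_lit 0) (XT.nd (nat_lit 78) (nat_lit 0) (nat_lit 0) (XT.lf (nat_lit 0) (nat_lit 3930859920) (nat_lit 684) (nat_lit 12121156819) (nat_lit 76) (nat_lit 3746229770) (nat_lit 208) (nat_lit 5) (nat_lit 217) (nat_lit 5) (nat_lit 209) (nat_lit 5) (nat_lit 482) (nat_lit 430) (nat_lit 228)) (XT.lf (nat_lit 0) (nat_lit 6499705721) (nat_lit 684) (nat_lit 2665007777) (nat_lit 76) (nat_lit 10874883904) (nat_lit 208) (nat_lit 5) (nat_lit 217) (nat_lit 5) (nat_lit 209) (nat_lit 5) (nat_lit 483) (nat_lit 430) (nat_lit 227))) (XT.nd (nat_lit 78) (nat_lit 0) (nat_lit 0) (XT.lf (nat_lit 0) (nat_lit 7066645145) (nat_lit 608) (nat_lit 2093733436) (nat_lit 684) (nat_lit 11124592330)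 (nat_lit 200) (nat_lit 5) (nat_lit 208) (nat_lit 5) (nat_lit 209) (nat_lit 5) (nat_lit 484) (nat_lit 430) (nat_lit 226)) (XT.lf (nat_lit 0) (nat_lit 11920129579) (nat_lit 684) (nat_lit 3545554418) (nat_lit 76) (nat_lit 5068655110) (nat_lit 200) (nat_lit 5) (nat_lit 209) (nat_lit 5) (nat_lit 201) (nat_lit 5) (nat_lit 485) (nat_lit 430) (nat_lit 225)))))) (XT.nd (nat_lit 546) (nat_lit 1520) (nat_lit 0) (XT.nd (nat_lit 234) (nat_lit 1140) (nat_lit 0) (XT.nd (nat_lit 78) (nat_lit 608) (nat_lit 0) (XT.lf (nat_lit 0) (nat_lit 6384298582) (nat_lit 532) (nat_lit 8400828078) (nat_lit 608) (nat_lit 6002571405) (nat_lit 193) (nat_lit 5) (nat_lit 200) (nat_lit 5) (nat_lit 201) (nat_lit 5) (nat_lit 486) (nat_lit 430) (nat_lit 224)) (XT.nd (nat_lit 78) (nat_lit 608) (nat_lit 0) (XT.lf (nat_lit 0) (nat_lit 16554611399) (nat_lit 532) (nat_lit 1171402009) (nat_lit 608) (nat_lit 3319743335) (nat_lit 193) (nat_lit 5) (nat_lit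 200) (nat_lit 5) (nat_lit 201) (nat_lit 5) (nat_lit 487) (nat_lit 430) (nat_lit 223)) (XT.lf (nat_lit 0) (nat_lit 5646966823) (nat_lit 608) (nat_lit 15150579267) (nat_lit 684) (nat_lit 509998191) (nat_lit 185) (nat_lit 5) (nat_lit 193) (nat_lit 5) (nat_lit 194) (nat_lit 5) (nat_lit 488) (nat_lit 430) (nat_lit 222)))) (XT.nd (nat_lit 156) (nat_lit 532) (nat_lit 0) (XT.nd (nat_lit 78) (nat_lit 532) (nat_lit 0) (XT.lf (nat_lit 0) (nat_lit 2358054057) (nat_lit 684) (nat_lit 5554706056) (nat_lit 76) (nat_lit 13660845399) (nat_lit 184) (nat_lit 5) (nat_lit 193) (nat_lit 5) (nat_lit 185) (nat_lit 5) (nat_lit 489) (nat_lit 430) (nat_lit 221)) (XT.lf (nat_lit 0) (nat_lit 4806862302) (nat_lit 532) (nat_lit 496007223) (nat_lit 608) (nat_lit 16541530403) (nat_lit 177) (nat_lit 5) (nat_lit 184) (nat_lit 5) (nat_lit 185) (nat_lit 5) (nat_lit 490) (nat_lit 430) (nat_lit 220))) (XT.nd (nat_lit 78) (nat_lit 532) (nat_lit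 0) (XT.lf (nat_lit 0) (nat_lit 8385066865) (nat_lit 608) (nat_lit 6721192224) (nat_lit 76) (nat_lit 7012785359) (nat_lit 177) (nat_lit 5) (nat_lit 185) (nat_lit 5) (nat_lit 178) (nat_lit 5) (nat_lit 491) (nat_lit 430) (nat_lit 219)) (XT.lf (nat_lit 0) (nat_lit 3842570682) (nat_lit 532) (nat_lit 7709734082) (nat_lit 608) (nat_lit 10846413011) (nat_lit 170) (nat_lit 5) (nat_lit 177) (nat_lit 5) (nat_lit 178) (nat_lit 5) (nat_lit 492) (nat_lit 430) (nat_lit 218))))) (XT.nd (nat_lit 234) (nat_lit 1064) (nat_lit 0) (XT.nd (nat_lit 78) (nat_lit 456) (nat_lit 0) (XT.lf (nat_lit 0) (nat_lit 14702735391) (nat_lit 532) (nat_lit 120474052) (nat_lit 608) (nat_lit 7859972458) (nat_lit 170) (nat_lit 5) (nat_lit 177) (nat_lit 5) (nat_lit 178) (nat_lit 5) (nat_lit 493) (nat_lit 430) (nat_lit 217)) (XT.nd (nat_lit 78) (nat_lit 0) (nat_lit 0) (XT.lf (nat_lit 0) (nat_lit 2787900587) (nat_lit 456) (nat_lit 15434515714) (nat_lit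 532) (nat_lit 4749665027) (nat_lit 164) (nat_lit 5) (nat_lit 170) (nat_lit 5) (nat_lit 171) (nat_lit 5) (nat_lit 494) (nat_lit 430) (nat_lit 216)) (XT.lf (nat_lit 0) (nat_lit 13873068895) (nat_lit 456) (nat_lit 7866243026) (nat_lit 532) (nat_lit 1526456357) (nat_lit 164) (nat_lit 5) (nat_lit 170) (nat_lit 5) (nat_lit 171) (nat_lit 5) (nat_lit 495) (nat_lit 430) (nat_lit 215)))) (XT.nd (nat_lit 156) (nat_lit 456) (nat_lit 0) (XT.nd (nat_lit 78) (nat_lit 0) (nat_lit 0) (XT.lf (nat_lit 0) (nat_lit 1618541302) (nat_lit 532) (nat_lit 125501549) (nat_lit 608) (nat_lit 21820942402) (nat_lit 156) (nat_lit 5) (nat_lit 163) (nat_lit 5) (nat_lit 164) (nat_lit 5) (nat_lit 496) (nat_lit 430) (nat_lit 214)) (XT.lf (nat_lit 0) (nat_lit 5168887683) (nat_lit 608) (nat_lit 10958483263) (nat_lit 76) (nat_lit 7740429743) (nat_lit 156) (nat_lit 5) (nat_lit 164) (nat_lit 5) (nat_lit 157) (nat_lit 5) (nat_lit 497) (nat_lit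 430) (nat_lit 213))) (XT.nd (nat_lit 78) (nat_lit 0) (nat_lit 0) (XT.lf (nat_lit 0) (nat_lit 245835701) (nat_lit 456) (nat_lit 8414370052) (nat_lit 532) (nat_lit 15516510505) (nat_lit 150) (nat_lit 5) (nat_lit 156) (nat_lit 5) (nat_lit 157) (nat_lit 5) (nat_lit 498) (nat_lit 430) (nat_lit 212)) (XT.lf (nat_lit 0) (nat_lit 11817030309) (nat_lit 456) (nat_lit 473456048) (nat_lit 532) (nat_lit 12199944343) (nat_lit 150) (nat_lit 5) (nat_lit 156) (nat_lit 5) (nat_lit 157) (nat_lit 5) (nat_lit 499) (nat_lit 430) (nat_lit 211))))))) (XT.nd (nat_lit 1092) (nat_lit 380) (nat_lit 0) (XT.nd (nat_lit 546) (nat_lit 1216) (nat_lit 0) (XT.nd (nat_lit 234) (nat_lit 988) (nat_lit 0) (XT.nd (nat_lit 78) (nat_lit 456) (nat_lit 0) (XT.lf (nat_lit 0) (nat_lit 16038564069) (nat_lit 532) (nat_lit 1246009360) (nat_lit 76) (nat_lit 7524945394) (nat_lit 150) (nat_lit 5) (nat_lit 157) (nat_lit 5) (nat_lit 151) (nat_lit 5) (nat_lit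 500) (nat_lit 430) (nat_lit 210)) (XT.nd (nat_lit 78) (nat_lit 0) (nat_lit 0) (XT.lf (nat_lit 0) (nat_lit 10539408602) (nat_lit 456) (nat_lit 9389520457) (nat_lit 532) (nat_lit 5204716292) (nat_lit 144) (nat_lit 5) (nat_lit 150) (nat_lit 5) (nat_lit 151) (nat_lit 5) (nat_lit 501) (nat_lit 430) (nat_lit 209)) (XT.lf (nat_lit 0) (nat_lit 22571850168) (nat_lit 456) (nat_lit 1329420896) (nat_lit 532) (nat_lit 1562903046) (nat_lit 144) (nat_lit 5) (nat_lit 150) (nat_lit 5) (nat_lit 151) (nat_lit 5) (nat_lit 502) (nat_lit 430) (nat_lit 208)))) (XT.nd (nat_lit 156) (nat_lit 456) (nat_lit 0) (XT.nd (nat_lit 78) (nat_lit 0) (nat_lit 0) (XT.lf (nat_lit 0) (nat_lit 2223978906) (nat_lit 532) (nat_lit 16701096676) (nat_lit 76) (nat_lit 6873952367) (nat_lit 137) (nat_lit 5) (nat_lit 144) (nat_lit 5) (nat_lit 138) (nat_lit 5) (nat_lit 503) (nat_lit 430) (nat_lit 207)) (XT.lf (nat_lit 0) (nat_lit 6089929271) (nat_lit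 532) (nat_lit 4797838716) (nat_lit 76) (nat_lit 15252122019) (nat_lit 137) (nat_lit 5) (nat_lit 144) (nat_lit 5) (nat_lit 138) (nat_lit 5) (nat_lit 504) (nat_lit 430) (nat_lit 206))) (XT.nd (nat_lit 78) (nat_lit 0) (nat_lit 0) (XT.lf (nat_lit 0) (nat_lit 7435549203) (nat_lit 456) (nat_lit 2641903228) (nat_lit 532) (nat_lit 16409234656) (nat_lit 131) (nat_lit 5) (nat_lit 137) (nat_lit 5) (nat_lit 138) (nat_lit 5) (nat_lit 505) (nat_lit 430) (nat_lit 205)) (XT.lf (nat_lit 0) (nat_lit 14210602315) (nat_lit 532) (nat_lit 6904294875) (nat_lit 76) (nat_lit 5724208199) (nat_lit 131) (nat_lit 5) (nat_lit 138) (nat_lit 5) (nat_lit 132) (nat_lit 5) (nat_lit 506) (nat_lit 430) (nat_lit 204))))) (XT.nd (nat_lit 234) (nat_lit 456) (nat_lit 0) (XT.nd (nat_lit 78) (nat_lit 380) (nat_lit 0) (XT.lf (nat_lit 0) (nat_lit 5535200839) (nat_lit 380) (nat_lit 12940738433) (nat_lit 456) (nat_lit 8721645052) (nat_lit 126) (nat_lit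 5) (nat_lit 131) (nat_lit 5) (nat_lit 132) (nat_lit 5) (nat_lit 507) (nat_lit 430) (nat_lit 203)) (XT.nd (nat_lit 78) (nat_lit 380) (nat_lit 0) (XT.lf (nat_lit 0) (nat_lit 18311728158) (nat_lit 380) (nat_lit 4557318045) (nat_lit 456) (nat_lit 4693340065) (nat_lit 126) (nat_lit 5) (nat_lit 131) (nat_lit 5) (nat_lit 132) (nat_lit 5) (nat_lit 508) (nat_lit 430) (nat_lit 202)) (XT.lf (nat_lit 0) (nat_lit 3422952139) (nat_lit 380) (nat_lit 23971415630) (nat_lit 456) (nat_lit 539232075) (nat_lit 121) (nat_lit 5) (nat_lit 126) (nat_lit 5) (nat_lit 127) (nat_lit 5) (nat_lit 509) (nat_lit 430) (nat_lit 201)))) (XT.nd (nat_lit 156) (nat_lit 0) (nat_lit 0) (XT.nd (nat_lit 78) (nat_lit 380) (nat_lit 0) (XT.lf (nat_lit 0) (nat_lit 3738338518) (nat_lit 456) (nat_lit 11895498073) (nat_lit 76) (nat_lit 12676145850) (nat_lit 120) (nat_lit 5) (nat_lit 126) (nat_lit 5) (nat_lit 121) (nat_lit 5) (nat_lit 510) (nat_lit 430)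 (nat_lit 200)) (XT.lf (nat_lit 0) (nat_lit 975957849) (nat_lit 380) (nat_lit 7120910992) (nat_lit 456) (nat_lit 20596902481) (nat_lit 115) (nat_lit 5) (nat_lit 120) (nat_lit 5) (nat_lit 121) (nat_lit 5) (nat_lit 511) (nat_lit 430) (nat_lit 199))) (XT.nd (nat_lit 78) (nat_lit 0) (nat_lit 0) (XT.lf (nat_lit 0) (nat_lit 12629381392) (nat_lit 456) (nat_lit 14833479163) (nat_lit 76) (nat_lit 1620641632) (nat_lit 115) (nat_lit 5) (nat_lit 121) (nat_lit 5) (nat_lit 116) (nat_lit 5) (nat_lit 512) (nat_lit 430) (nat_lit 198)) (XT.lf (nat_lit 0) (nat_lit 17296089420) (nat_lit 456) (nat_lit 1743770660) (nat_lit 76) (nat_lit 10440299079) (nat_lit 115) (nat_lit 5) (nat_lit 121) (nat_lit 5) (nat_lit 116) (nat_lit 5) (nat_lit 513) (nat_lit 430) (nat_lit 197)))))) (XT.nd (nat_lit 53274) (nat_lit 0) (nat_lit 19304) (XT.nd (nat_lit 52962) (nat_lit 0) (nat_lit 19228) (XT.nd (nat_lit 78) (nat_lit 0) (nat_lit 0) (XT.lf (nat_lit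 0) (nat_lit 11756872428) (nat_lit 380) (nat_lit 10372050315) (nat_lit 456) (nat_lit 7754373052) (nat_lit 110) (nat_lit 5) (nat_lit 115) (nat_lit 5) (nat_lit 116) (nat_lit 5) (nat_lit 514) (nat_lit 430) (nat_lit 196)) (XT.nd (nat_lit 52806) (nat_lit 0) (nat_lit 20748) (XT.lf (nat_lit 0) (nat_lit 25546145811) (nat_lit 380) (nat_lit 1520463125) (nat_lit 456) (nat_lit 3227724602) (nat_lit 110) (nat_lit 5) (nat_lit 115) (nat_lit 5) (nat_lit 116) (nat_lit 5) (nat_lit 515) (nat_lit 430) (nat_lit 195)) (XT.lf (nat_lit 0) (nat_lit 5021751258) (nat_lit 1596) (nat_lit 387514379) (nat_lit 1596) (nat_lit 387514379) (nat_lit 383) (nat_lit 3) (nat_lit 404) (nat_lit 3) (nat_lit 404) (nat_lit 5) (nat_lit 431) (nat_lit 431) (nat_lit 278)))) (XT.nd (nat_lit 156) (nat_lit 1520) (nat_lit 0) (XT.nd (nat_lit 78) (nat_lit 0) (nat_lit 0) (XT.lf (nat_lit 76) (nat_lit 4424329790) (nat_lit 0) (nat_lit 6226328244) (nat_lit 1596)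 (nat_lit 1048182044) (nat_lit 384) (nat_lit 5) (nat_lit 383) (nat_lit 3) (nat_lit 404) (nat_lit 5) (nat_lit 432) (nat_lit 431) (nat_lit 277)) (XT.lf (nat_lit 76) (nat_lit 9731694957) (nat_lit 0) (nat_lit 1530882466) (nat_lit 1596) (nat_lit 543809556) (nat_lit 384) (nat_lit 5) (nat_lit 383) (nat_lit 3) (nat_lit 404) (nat_lit 5) (nat_lit 433) (nat_lit 431) (nat_lit 276))) (XT.nd (nat_lit 78) (nat_lit 0) (nat_lit 0) (XT.lf (nat_lit 0) (nat_lit 1143017) (nat_lit 1596) (nat_lit 8671655085) (nat_lit 1672) (nat_lit 3242701513) (nat_lit 363) (nat_lit 5) (nat_lit 384) (nat_lit 5) (nat_lit 385) (nat_lit 5) (nat_lit 434) (nat_lit 431) (nat_lit 275)) (XT.lf (nat_lit 0) (nat_lit 561683029) (nat_lit 1596) (nat_lit 3350262149) (nat_lit 1672) (nat_lit 8114550914) (nat_lit 363) (nat_lit 5) (nat_lit 384) (nat_lit 5) (nat_lit 385) (nat_lit 5) (nat_lit 435) (nat_lit 431) (nat_lit 274))))) (XT.nd (nat_lit 234) (nat_lit 0)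 (nat_lit 76) (XT.nd (nat_lit 78) (nat_lit 0) (nat_lit 0) (XT.lf (nat_lit 0) (nat_lit 1141362123) (nat_lit 1596) (nat_lit 10047522193) (nat_lit 1672) (nat_lit 950682247) (nat_lit 364) (nat_lit 5) (nat_lit 385) (nat_lit 5) (nat_lit 386) (nat_lit 5) (nat_lit 436) (nat_lit 431) (nat_lit 273)) (XT.nd (nat_lit 78) (nat_lit 0) (nat_lit 0) (XT.lf (nat_lit 0) (nat_lit 1769446875) (nat_lit 1596) (nat_lit 4598787003) (nat_lit 1672) (nat_lit 5885940705) (nat_lit 364) (nat_lit 5) (nat_lit 385) (nat_lit 5) (nat_lit 386) (nat_lit 5) (nat_lit 437) (nat_lit 431) (nat_lit 272)) (XT.lf (nat_lit 76) (nat_lit 964818723) (nat_lit 0) (nat_lit 1440043003) (nat_lit 1672) (nat_lit 9966329807) (nat_lit 365) (nat_lit 5) (nat_lit 364) (nat_lit 5) (nat_lit 386) (nat_lit 5) (nat_lit 438) (nat_lit 431) (nat_lit 271)))) (XT.nd (nat_lit 156) (nat_lit 0) (nat_lit 76) (XT.nd (nat_lit 78) (nat_lit 0) (nat_lit 0) (XT.lf (nat_lit 0) (nat_lit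 3096052692) (nat_lit 1596) (nat_lit 5818370496) (nat_lit 1672) (nat_lit 3575276178) (nat_lit 365) (nat_lit 5) (nat_lit 386) (nat_lit 5) (nat_lit 387) (nat_lit 5) (nat_lit 439) (nat_lit 431) (nat_lit 270)) (XT.lf (nat_lit 0) (nat_lit 3799541294) (nat_lit 1596) (nat_lit 134989481) (nat_lit 1672) (nat_lit 8676088772) (nat_lit 365) (nat_lit 5) (nat_lit 386) (nat_lit 5) (nat_lit 387) (nat_lit 5) (nat_lit 440) (nat_lit 431) (nat_lit 269))) (XT.nd (nat_lit 78) (nat_lit 0) (nat_lit 0) (XT.lf (nat_lit 0) (nat_lit 4551167025) (nat_lit 1596) (nat_lit 7010644116) (nat_lit 1672) (nat_lit 1171477081) (nat_lit 366) (nat_lit 5) (nat_lit 387) (nat_lit 5) (nat_lit 388) (nat_lit 5) (nat_lit 441) (nat_lit 431) (nat_lit 268)) (XT.lf (nat_lit 0) (nat_lit 5334143066) (nat_lit 1596) (nat_lit 1192111527) (nat_lit 1672) (nat_lit 6331840537) (nat_lit 366) (nat_lit 5) (nat_lit 387) (nat_lit 5) (nat_lit 388) (nat_lit 5) (nat_lit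 442) (nat_lit 431) (nat_lit 267))))))))
noncomputable def xc212 : XT := (XT.nd (nat_lit 2106) (nat_lit 8208) (nat_lit 0) (XT.nd (nat_lit 1014) (nat_lit 5776) (nat_lit 0) (XT.nd (nat_lit 468) (nat_lit 1368) (nat_lit 0) (XT.nd (nat_lit 234) (nat_lit 0) (nat_lit 152) (XT.nd (nat_lit 78) (nat_lit 0) (nat_lit 76) (XT.lf (nat_lit 76) (nat_lit 4798949363) (nat_lit 0) (nat_lit 1354545511) (nat_lit 1672) (nat_lit 6831499970) (nat_lit 367) (nat_lit 5) (nat_lit 366) (nat_lit 5) (nat_lit 388) (nat_lit 5) (nat_lit 443) (nat_lit 431) (nat_lit 266)) (XT.nd (nat_lit 78) (nat_lit 0) (nat_lit 0) (XT.lf (nat_lit 0) (nat_lit 7012483808) (nat_lit 1596) (nat_lit 2220766023) (nat_lit 1672) (nat_lit 3880728498) (nat_lit 367) (nat_lit 5) (nat_lit 388) (nat_lit 5) (nat_lit 389) (nat_lit 5) (nat_lit 444) (nat_lit 431) (nat_lit 265)) (XT.lf (nat_lit 76) (nat_lit 3899147105) (nat_lit 0) (nat_lit 4013735189) (nat_lit 1672) (nat_lit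 5332185161) (nat_lit 368) (nat_lit 5) (nat_lit 367) (nat_lit 5) (nat_lit 389) (nat_lit 5) (nat_lit 445) (nat_lit 431) (nat_lit 264)))) (XT.nd (nat_lit 78) (nat_lit 0) (nat_lit 0) (XT.lf (nat_lit 0) (nat_lit 8844913128) (nat_lit 1596) (nat_lit 3222546986) (nat_lit 1672) (nat_lit 1311056123) (nat_lit 368) (nat_lit 5) (nat_lit 389) (nat_lit 5) (nat_lit 390) (nat_lit 5) (nat_lit 446) (nat_lit 431) (nat_lit 263)) (XT.nd (nat_lit 78) (nat_lit 0) (nat_lit 0) (XT.lf (nat_lit 76) (nat_lit 3029560704) (nat_lit 0) (nat_lit 6802585295) (nat_lit 1672) (nat_lit 3681766924) (nat_lit 369) (nat_lit 5) (nat_lit 368) (nat_lit 5) (nat_lit 390) (nat_lit 5) (nat_lit 447) (nat_lit 431) (nat_lit 262)) (XT.lf (nat_lit 76) (nat_lit 9443552974) (nat_lit 0) (nat_lit 1407651596) (nat_lit 1672) (nat_lit 2800581310) (nat_lit 369) (nat_lit 5) (nat_lit 368) (nat_lit 5) (nat_lit 390) (nat_lit 5) (nat_lit 448) (nat_lit 431) (nat_lit 261)))))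 (XT.nd (nat_lit 234) (nat_lit 0) (nat_lit 0) (XT.nd (nat_lit 78) (nat_lit 1596) (nat_lit 0) (XT.lf (nat_lit 76) (nat_lit 2188604059) (nat_lit 0) (nat_lit 9733499157) (nat_lit 1672) (nat_lit 1869693665) (nat_lit 370) (nat_lit 5) (nat_lit 369) (nat_lit 5) (nat_lit 391) (nat_lit 5) (nat_lit 449) (nat_lit 431) (nat_lit 260)) (XT.nd (nat_lit 78) (nat_lit 1596) (nat_lit 0) (XT.lf (nat_lit 76) (nat_lit 8754100873) (nat_lit 0) (nat_lit 4288618182) (nat_lit 1672) (nat_lit 891332631) (nat_lit 370) (nat_lit 5) (nat_lit 369) (nat_lit 5) (nat_lit 391) (nat_lit 5) (nat_lit 450) (nat_lit 431) (nat_lit 259)) (XT.lf (nat_lit 0) (nat_lit 113375571) (nat_lit 1672) (nat_lit 12705118284) (nat_lit 1748) (nat_lit 1260489533) (nat_lit 348) (nat_lit 5) (nat_lit 370) (nat_lit 5) (nat_lit 371) (nat_lit 5) (nat_lit 451) (nat_lit 431) (nat_lit 258)))) (XT.nd (nat_lit 156) (nat_lit 0) (nat_lit 76) (XT.nd (nat_lit 78) (nat_lit 0) (nat_lit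 0) (XT.lf (nat_lit 0) (nat_lit 1180704062) (nat_lit 1672) (nat_lit 6138706582) (nat_lit 1748) (nat_lit 6906205042) (nat_lit 348) (nat_lit 5) (nat_lit 370) (nat_lit 5) (nat_lit 371) (nat_lit 5) (nat_lit 452) (nat_lit 431) (nat_lit 257)) (XT.lf (nat_lit 76) (nat_lit 559482347) (nat_lit 0) (nat_lit 1704762707) (nat_lit 1748) (nat_lit 12111047100) (nat_lit 349) (nat_lit 5) (nat_lit 348) (nat_lit 5) (nat_lit 371) (nat_lit 5) (nat_lit 453) (nat_lit 431) (nat_lit 256))) (XT.nd (nat_lit 78) (nat_lit 0) (nat_lit 0) (XT.lf (nat_lit 0) (nat_lit 3428410799) (nat_lit 1672) (nat_lit 7085715397) (nat_lit 1748) (nat_lit 4012665546) (nat_lit 349) (nat_lit 5) (nat_lit 371) (nat_lit 5) (nat_lit 372) (nat_lit 5) (nat_lit 454) (nat_lit 431) (nat_lit 255)) (XT.lf (nat_lit 0) (nat_lit 4618691368) (nat_lit 1672) (nat_lit 239207453) (nat_lit 1748) (nat_lit 9823374369) (nat_lit 349) (nat_lit 5) (nat_lit 371) (nat_lit 5) (nat_lit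 372) (nat_lit 5) (nat_lit 455) (nat_lit 431) (nat_lit 254)))))) (XT.nd (nat_lit 546) (nat_lit 2432) (nat_lit 0) (XT.nd (nat_lit 234) (nat_lit 1824) (nat_lit 0) (XT.nd (nat_lit 78) (nat_lit 1672) (nat_lit 0) (XT.lf (nat_lit 0) (nat_lit 5875031762) (nat_lit 1672) (nat_lit 8017348399) (nat_lit 76) (nat_lit 945627353) (nat_lit 350) (nat_lit 5) (nat_lit 372) (nat_lit 5) (nat_lit 351) (nat_lit 5) (nat_lit 456) (nat_lit 431) (nat_lit 253)) (XT.nd (nat_lit 78) (nat_lit 1672) (nat_lit 0) (XT.lf (nat_lit 0) (nat_lit 7182122277) (nat_lit 1672) (nat_lit 1011960890) (nat_lit 76) (nat_lit 6803289061) (nat_lit 350) (nat_lit 5) (nat_lit 372) (nat_lit 5) (nat_lit 351) (nat_lit 5) (nat_lit 457) (nat_lit 431) (nat_lit 252)) (XT.lf (nat_lit 0) (nat_lit 6208191347) (nat_lit 1672) (nat_lit 2339466988) (nat_lit 1748) (nat_lit 6611627836) (nat_lit 328) (nat_lit 5) (nat_lit 350) (nat_lit 5) (nat_lit 351) (nat_lit 5) (nat_lit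 458) (nat_lit 431) (nat_lit 251)))) (XT.nd (nat_lit 156) (nat_lit 836) (nat_lit 0) (XT.nd (nat_lit 78) (nat_lit 988) (nat_lit 0) (XT.lf (nat_lit 0) (nat_lit 9963040745) (nat_lit 1748) (nat_lit 1768359773) (nat_lit 76) (nat_lit 3592595012) (nat_lit 328) (nat_lit 5) (nat_lit 351) (nat_lit 5) (nat_lit 329) (nat_lit 5) (nat_lit 459) (nat_lit 431) (nat_lit 250)) (XT.lf (nat_lit 0) (nat_lit 5609346239) (nat_lit 988) (nat_lit 5841568836) (nat_lit 1064) (nat_lit 4040208014) (nat_lit 315) (nat_lit 5) (nat_lit 328) (nat_lit 5) (nat_lit 329) (nat_lit 5) (nat_lit 460) (nat_lit 431) (nat_lit 249))) (XT.nd (nat_lit 78) (nat_lit 836) (nat_lit 0) (XT.lf (nat_lit 0) (nat_lit 12973955626) (nat_lit 1064) (nat_lit 2510815218) (nat_lit 76) (nat_lit 176721728) (nat_lit 315) (nat_lit 5) (nat_lit 329) (nat_lit 5) (nat_lit 316) (nat_lit 5) (nat_lit 461) (nat_lit 431) (nat_lit 248)) (XT.lf (nat_lit 0) (nat_lit 5028079269) (nat_lit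 836) (nat_lit 9563243891) (nat_lit 912) (nat_lit 1242676360) (nat_lit 304) (nat_lit 5) (nat_lit 315) (nat_lit 5) (nat_lit 316) (nat_lit 5) (nat_lit 462) (nat_lit 431) (nat_lit 247))))) (XT.nd (nat_lit 234) (nat_lit 1520) (nat_lit 0) (XT.nd (nat_lit 78) (nat_lit 836) (nat_lit 0) (XT.lf (nat_lit 0) (nat_lit 237592857) (nat_lit 912) (nat_lit 3266251119) (nat_lit 76) (nat_lit 12505898893) (nat_lit 303) (nat_lit 5) (nat_lit 315) (nat_lit 5) (nat_lit 304) (nat_lit 5) (nat_lit 463) (nat_lit 431) (nat_lit 246)) (XT.nd (nat_lit 78) (nat_lit 0) (nat_lit 0) (XT.lf (nat_lit 0) (nat_lit 1770208975) (nat_lit 912) (nat_lit 11738131838) (nat_lit 76) (nat_lit 2679715344) (nat_lit 292) (nat_lit 5) (nat_lit 304) (nat_lit 5) (nat_lit 293) (nat_lit 5) (nat_lit 464) (nat_lit 431) (nat_lit 245)) (XT.lf (nat_lit 0) (nat_lit 3371575282) (nat_lit 912) (nat_lit 4034931075) (nat_lit 76) (nat_lit 8962674230) (nat_lit 292) (nat_lit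 5) (nat_lit 304) (nat_lit 5) (nat_lit 293) (nat_lit 5) (nat_lit 465) (nat_lit 431) (nat_lit 244)))) (XT.nd (nat_lit 156) (nat_lit 760) (nat_lit 0) (XT.nd (nat_lit 78) (nat_lit 0) (nat_lit 0) (XT.lf (nat_lit 0) (nat_lit 3866392656) (nat_lit 760) (nat_lit 1156650214) (nat_lit 836) (nat_lit 11530529859) (nat_lit 282) (nat_lit 5) (nat_lit 292) (nat_lit 5) (nat_lit 293) (nat_lit 5) (nat_lit 466) (nat_lit 431) (nat_lit 243)) (XT.lf (nat_lit 0) (nat_lit 6761743513) (nat_lit 836) (nat_lit 4801486242) (nat_lit 76) (nat_lit 5177345454) (nat_lit 282) (nat_lit 5) (nat_lit 293) (nat_lit 5) (nat_lit 283) (nat_lit 5) (nat_lit 467) (nat_lit 431) (nat_lit 242))) (XT.nd (nat_lit 78) (nat_lit 0) (nat_lit 0) (XT.lf (nat_lit 0) (nat_lit 3270534467) (nat_lit 760) (nat_lit 5286781881) (nat_lit 836) (nat_lit 8373565869) (nat_lit 272) (nat_lit 5) (nat_lit 282) (nat_lit 5) (nat_lit 283) (nat_lit 5) (nat_lit 468) (nat_lit 431)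 (nat_lit 241)) (XT.lf (nat_lit 0) (nat_lit 10421770264) (nat_lit 836) (nat_lit 5569442336) (nat_lit 76) (nat_lit 1133129687) (nat_lit 272) (nat_lit 5) (nat_lit 283) (nat_lit 5) (nat_lit 273) (nat_lit 5) (nat_lit 469) (nat_lit 431) (nat_lit 240))))))) (XT.nd (nat_lit 1014) (nat_lit 3952) (nat_lit 0) (XT.nd (nat_lit 468) (nat_lit 2052) (nat_lit 0) (XT.nd (nat_lit 234) (nat_lit 760) (nat_lit 0) (XT.nd (nat_lit 78) (nat_lit 760) (nat_lit 0) (XT.lf (nat_lit 0) (nat_lit 2676789278) (nat_lit 684) (nat_lit 9692541895) (nat_lit 760) (nat_lit 4951430218) (nat_lit 263) (nat_lit 5) (nat_lit 272) (nat_lit 5) (nat_lit 273) (nat_lit 5) (nat_lit 470) (nat_lit 431) (nat_lit 239)) (XT.nd (nat_lit 78) (nat_lit 760) (nat_lit 0) (XT.lf (nat_lit 0) (nat_lit 11156897432) (nat_lit 684) (nat_lit 3229832788) (nat_lit 760) (nat_lit 3133766987) (nat_lit 263) (nat_lit 5) (nat_lit 272) (nat_lit 5) (nat_lit 273) (nat_lit 5) (nat_lit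 471) (nat_lit 431) (nat_lit 238)) (XT.lf (nat_lit 0) (nat_lit 2081299610) (nat_lit 760) (nat_lit 14392159864) (nat_lit 836) (nat_lit 1250194573) (nat_lit 253) (nat_lit 5) (nat_lit 263) (nat_lit 5) (nat_lit 264) (nat_lit 5) (nat_lit 472) (nat_lit 431) (nat_lit 237)))) (XT.nd (nat_lit 78) (nat_lit 684) (nat_lit 0) (XT.lf (nat_lit 0) (nat_lit 720298895) (nat_lit 836) (nat_lit 7181286559) (nat_lit 76) (nat_lit 10028046141) (nat_lit 252) (nat_lit 5) (nat_lit 263) (nat_lit 5) (nat_lit 253) (nat_lit 5) (nat_lit 473) (nat_lit 431) (nat_lit 236)) (XT.nd (nat_lit 78) (nat_lit 0) (nat_lit 0) (XT.lf (nat_lit 0) (nat_lit 1453318549) (nat_lit 684) (nat_lit 1263394164) (nat_lit 760) (nat_lit 15422791299) (nat_lit 243) (nat_lit 5) (nat_lit 252) (nat_lit 5) (nat_lit 253) (nat_lit 5) (nat_lit 474) (nat_lit 431) (nat_lit 235)) (XT.lf (nat_lit 0) (nat_lit 4831199861) (nat_lit 760) (nat_lit 8037276618) (nat_lit 76) (nat_lit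 5483539997) (nat_lit 243) (nat_lit 5) (nat_lit 253) (nat_lit 5) (nat_lit 244) (nat_lit 5) (nat_lit 475) (nat_lit 431) (nat_lit 234))))) (XT.nd (nat_lit 234) (nat_lit 760) (nat_lit 0) (XT.nd (nat_lit 78) (nat_lit 608) (nat_lit 0) (XT.lf (nat_lit 0) (nat_lit 780053853) (nat_lit 684) (nat_lit 6215351391) (nat_lit 760) (nat_lit 11573230762) (nat_lit 234) (nat_lit 5) (nat_lit 243) (nat_lit 5) (nat_lit 244) (nat_lit 5) (nat_lit 476) (nat_lit 431) (nat_lit 233)) (XT.nd (nat_lit 78) (nat_lit 608) (nat_lit 0) (XT.lf (nat_lit 0) (nat_lit 9254962905) (nat_lit 760) (nat_lit 8916393234) (nat_lit 76) (nat_lit 617195710) (nat_lit 234) (nat_lit 5) (nat_lit 244) (nat_lit 5) (nat_lit 235) (nat_lit 5) (nat_lit 477) (nat_lit 431) (nat_lit 232)) (XT.lf (nat_lit 0) (nat_lit 86845725) (nat_lit 608) (nat_lit 11508777772) (nat_lit 684) (nat_lit 7416529457) (nat_lit 226) (nat_lit 5) (nat_lit 234) (nat_lit 5) (nat_lit 235) (nat_lit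 5) (nat_lit 478) (nat_lit 431) (nat_lit 231)))) (XT.nd (nat_lit 156) (nat_lit 760) (nat_lit 0) (XT.nd (nat_lit 78) (nat_lit 0) (nat_lit 0) (XT.lf (nat_lit 0) (nat_lit 9384683971) (nat_lit 608) (nat_lit 4652506564) (nat_lit 684) (nat_lit 5201958759) (nat_lit 226) (nat_lit 5) (nat_lit 234) (nat_lit 5) (nat_lit 235) (nat_lit 5) (nat_lit 479) (nat_lit 431) (nat_lit 230)) (XT.lf (nat_lit 0) (nat_lit 16537155876) (nat_lit 684) (nat_lit 623724420) (nat_lit 76) (nat_lit 2309618906) (nat_lit 226) (nat_lit 5) (nat_lit 235) (nat_lit 5) (nat_lit 227) (nat_lit 5) (nat_lit 480) (nat_lit 431) (nat_lit 229))) (XT.nd (nat_lit 78) (nat_lit 76) (nat_lit 0) (XT.lf (nat_lit 0) (nat_lit 8870969031) (nat_lit 684) (nat_lit 10299037783) (nat_lit 760) (nat_lit 534816448) (nat_lit 217) (nat_lit 5) (nat_lit 226) (nat_lit 5) (nat_lit 227) (nat_lit 5) (nat_lit 481) (nat_lit 431) (nat_lit 228)) (XT.lf (nat_lit 0) (nat_lit 1885328405)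 (nat_lit 760) (nat_lit 1398410878) (nat_lit 76) (nat_lit 16659876585) (nat_lit 216) (nat_lit 5) (nat_lit 226) (nat_lit 5) (nat_lit 217) (nat_lit 5) (nat_lit 482) (nat_lit 431) (nat_lit 227)))))) (XT.nd (nat_lit 546) (nat_lit 1596) (nat_lit 0) (XT.nd (nat_lit 234) (nat_lit 1140) (nat_lit 0) (XT.nd (nat_lit 78) (nat_lit 608) (nat_lit 0) (XT.lf (nat_lit 0) (nat_lit 4420904279) (nat_lit 684) (nat_lit 11886383236) (nat_lit 76) (nat_lit 3878346923) (nat_lit 208) (nat_lit 5) (nat_lit 217) (nat_lit 5) (nat_lit 209) (nat_lit 5) (nat_lit 483) (nat_lit 431) (nat_lit 226)) (XT.nd (nat_lit 78) (nat_lit 608) (nat_lit 0) (XT.lf (nat_lit 0) (nat_lit 7033059797) (nat_lit 684) (nat_lit 2250468012) (nat_lit 76) (nat_lit 11148452717) (nat_lit 208) (nat_lit 5) (nat_lit 217) (nat_lit 5) (nat_lit 209) (nat_lit 5) (nat_lit 484) (nat_lit 431) (nat_lit 225)) (XT.lf (nat_lit 0) (nat_lit 7672740075) (nat_lit 608) (nat_lit 2069314564)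 (nat_lit 684) (nat_lit 10940311395) (nat_lit 200) (nat_lit 5) (nat_lit 208) (nat_lit 5) (nat_lit 209) (nat_lit 5) (nat_lit 485) (nat_lit 431) (nat_lit 224)))) (XT.nd (nat_lit 156) (nat_lit 608) (nat_lit 0) (XT.nd (nat_lit 78) (nat_lit 532) (nat_lit 0) (XT.lf (nat_lit 0) (nat_lit 12549609530) (nat_lit 684) (nat_lit 3153096976) (nat_lit 76) (nat_lit 5234169476) (nat_lit 200) (nat_lit 5) (nat_lit 209) (nat_lit 5) (nat_lit 201) (nat_lit 5) (nat_lit 486) (nat_lit 431) (nat_lit 223)) (XT.lf (nat_lit 0) (nat_lit 6972304607) (nat_lit 532) (nat_lit 8494922466) (nat_lit 608) (nat_lit 5728175075) (nat_lit 193) (nat_lit 5) (nat_lit 200) (nat_lit 5) (nat_lit 201) (nat_lit 5) (nat_lit 487) (nat_lit 431) (nat_lit 222))) (XT.nd (nat_lit 78) (nat_lit 608) (nat_lit 0) (XT.lf (nat_lit 0) (nat_lit 17336997797) (nat_lit 532) (nat_lit 1122357330) (nat_lit 608) (nat_lit 2999424713) (nat_lit 193) (nat_lit 5) (nat_lit 200) (nat_lit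 5) (nat_lit 201) (nat_lit 5) (nat_lit 488) (nat_lit 431) (nat_lit 221)) (XT.lf (nat_lit 0) (nat_lit 6215603960) (nat_lit 608) (nat_lit 15372706638) (nat_lit 684) (nat_lit 137578876) (nat_lit 185) (nat_lit 5) (nat_lit 193) (nat_lit 5) (nat_lit 194) (nat_lit 5) (nat_lit 489) (nat_lit 431) (nat_lit 220))))) (XT.nd (nat_lit 234) (nat_lit 988) (nat_lit 0) (XT.nd (nat_lit 78) (nat_lit 532) (nat_lit 0) (XT.lf (nat_lit 0) (nat_lit 2775412351) (nat_lit 684) (nat_lit 5213820496) (nat_lit 76) (nat_lit 14008143425) (nat_lit 184) (nat_lit 5) (nat_lit 193) (nat_lit 5) (nat_lit 185) (nat_lit 5) (nat_lit 490) (nat_lit 431) (nat_lit 219)) (XT.nd (nat_lit 78) (nat_lit 0) (nat_lit 0) (XT.lf (nat_lit 0) (nat_lit 5352005679) (nat_lit 532) (nat_lit 422774927) (nat_lit 608) (nat_lit 16498898673) (nat_lit 177) (nat_lit 5) (nat_lit 184) (nat_lit 5) (nat_lit 185) (nat_lit 5) (nat_lit 491) (nat_lit 431) (nat_lit 218)) (XT.lf (nat_lit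 0) (nat_lit 8911977586) (nat_lit 608) (nat_lit 6408483816) (nat_lit 76) (nat_lit 7233493891) (nat_lit 177) (nat_lit 5) (nat_lit 185) (nat_lit 5) (nat_lit 178) (nat_lit 5) (nat_lit 492) (nat_lit 431) (nat_lit 217)))) (XT.nd (nat_lit 156) (nat_lit 456) (nat_lit 0) (XT.nd (nat_lit 78) (nat_lit 0) (nat_lit 0) (XT.lf (nat_lit 0) (nat_lit 4363612688) (nat_lit 532) (nat_lit 7774788213) (nat_lit 608) (nat_lit 10700909976) (nat_lit 170) (nat_lit 5) (nat_lit 177) (nat_lit 5) (nat_lit 178) (nat_lit 5) (nat_lit 493) (nat_lit 431) (nat_lit 216)) (XT.lf (nat_lit 0) (nat_lit 15432271072) (nat_lit 532) (nat_lit 35490836) (nat_lit 608) (nat_lit 7661847109) (nat_lit 170) (nat_lit 5) (nat_lit 177) (nat_lit 5) (nat_lit 178) (nat_lit 5) (nat_lit 494) (nat_lit 431) (nat_lit 215))) (XT.nd (nat_lit 78) (nat_lit 0) (nat_lit 0) (XT.lf (nat_lit 0) (nat_lit 3282899801) (nat_lit 456) (nat_lit 15648635973) (nat_lit 532) (nat_lit 4492824388)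 (nat_lit 164) (nat_lit 5) (nat_lit 170) (nat_lit 5) (nat_lit 171) (nat_lit 5) (nat_lit 495) (nat_lit 431) (nat_lit 214)) (XT.lf (nat_lit 0) (nat_lit 14581158902) (nat_lit 456) (nat_lit 7930852146) (nat_lit 532) (nat_lit 1212050249) (nat_lit 164) (nat_lit 5) (nat_lit 170) (nat_lit 5) (nat_lit 171) (nat_lit 5) (nat_lit 496) (nat_lit 431) (nat_lit 213))))))))
noncomputable def xc213 : XT := (XT.nd (nat_lit 54912) (nat_lit 0) (nat_lit 13072) (XT.nd (nat_lit 1014) (nat_lit 1216) (nat_lit 0) (XT.nd (nat_lit 468) (nat_lit 1368) (nat_lit 0) (XT.nd (nat_lit 234) (nat_lit 456) (nat_lit 0) (XT.nd (nat_lit 78) (nat_lit 456) (nat_lit 0) (XT.lf (nat_lit 0) (nat_lit 2083459005) (nat_lit 532) (nat_lit 32009699) (nat_lit 608) (nat_lit 21913831521) (nat_lit 156) (nat_lit 5) (nat_lit 163) (nat_lit 5) (nat_lit 164) (nat_lit 5) (nat_lit 497) (nat_lit 431) (nat_lit 212)) (XT.nd (nat_lit 78) (nat_lit 456) (nat_lit 0) (XT.lf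 (nat_lit 0) (nat_lit 5602822597) (nat_lit 608) (nat_lit 10747350672) (nat_lit 76) (nat_lit 7988123436) (nat_lit 156) (nat_lit 5) (nat_lit 164) (nat_lit 5) (nat_lit 157) (nat_lit 5) (nat_lit 498) (nat_lit 431) (nat_lit 211)) (XT.lf (nat_lit 0) (nat_lit 678223736) (nat_lit 456) (nat_lit 8482037208) (nat_lit 532) (nat_lit 15493208643) (nat_lit 150) (nat_lit 5) (nat_lit 156) (nat_lit 5) (nat_lit 157) (nat_lit 5) (nat_lit 499) (nat_lit 431) (nat_lit 210)))) (XT.nd (nat_lit 78) (nat_lit 456) (nat_lit 0) (XT.lf (nat_lit 0) (nat_lit 12472460446) (nat_lit 456) (nat_lit 384277869) (nat_lit 532) (nat_lit 12116852963) (nat_lit 150) (nat_lit 5) (nat_lit 156) (nat_lit 5) (nat_lit 157) (nat_lit 5) (nat_lit 500) (nat_lit 431) (nat_lit 209)) (XT.nd (nat_lit 78) (nat_lit 456) (nat_lit 0) (XT.lf (nat_lit 0) (nat_lit 16674122325) (nat_lit 532) (nat_lit 854167701) (nat_lit 76) (nat_lit 7770888932) (nat_lit 150) (nat_lit 5)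 (nat_lit 157) (nat_lit 5) (nat_lit 151) (nat_lit 5) (nat_lit 501) (nat_lit 431) (nat_lit 208)) (XT.lf (nat_lit 0) (nat_lit 11164216766) (nat_lit 456) (nat_lit 9474593647) (nat_lit 532) (nat_lit 4991051885) (nat_lit 144) (nat_lit 5) (nat_lit 150) (nat_lit 5) (nat_lit 151) (nat_lit 5) (nat_lit 502) (nat_lit 431) (nat_lit 207))))) (XT.nd (nat_lit 234) (nat_lit 836) (nat_lit 0) (XT.nd (nat_lit 78) (nat_lit 532) (nat_lit 0) (XT.lf (nat_lit 0) (nat_lit 23429189125) (nat_lit 456) (nat_lit 1255306158) (nat_lit 532) (nat_lit 1282632938) (nat_lit 144) (nat_lit 5) (nat_lit 150) (nat_lit 5) (nat_lit 151) (nat_lit 5) (nat_lit 503) (nat_lit 431) (nat_lit 206)) (XT.nd (nat_lit 78) (nat_lit 0) (nat_lit 0) (XT.lf (nat_lit 0) (nat_lit 2573190114) (nat_lit 532) (nat_lit 16621982496) (nat_lit 76) (nat_lit 7113524622) (nat_lit 137) (nat_lit 5) (nat_lit 144) (nat_lit 5) (nat_lit 138) (nat_lit 5) (nat_lit 504) (nat_lit 431)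 (nat_lit 205)) (XT.lf (nat_lit 0) (nat_lit 6510484355) (nat_lit 532) (nat_lit 4488760085) (nat_lit 76) (nat_lit 15657255840) (nat_lit 137) (nat_lit 5) (nat_lit 144) (nat_lit 5) (nat_lit 138) (nat_lit 5) (nat_lit 505) (nat_lit 431) (nat_lit 204)))) (XT.nd (nat_lit 156) (nat_lit 380) (nat_lit 0) (XT.nd (nat_lit 78) (nat_lit 0) (nat_lit 0) (XT.lf (nat_lit 0) (nat_lit 7986630886) (nat_lit 456) (nat_lit 2587881580) (nat_lit 532) (nat_lit 16435789913) (nat_lit 131) (nat_lit 5) (nat_lit 137) (nat_lit 5) (nat_lit 138) (nat_lit 5) (nat_lit 506) (nat_lit 431) (nat_lit 203)) (XT.lf (nat_lit 0) (nat_lit 14785211214) (nat_lit 532) (nat_lit 6642581415) (nat_lit 76) (nat_lit 5942082783) (nat_lit 131) (nat_lit 5) (nat_lit 138) (nat_lit 5) (nat_lit 132) (nat_lit 5) (nat_lit 507) (nat_lit 431) (nat_lit 202))) (XT.nd (nat_lit 78) (nat_lit 0) (nat_lit 0) (XT.lf (nat_lit 0) (nat_lit 6043073955) (nat_lit 380) (nat_lit 13089665585)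 (nat_lit 456) (nat_lit 8602850696) (nat_lit 126) (nat_lit 5) (nat_lit 131) (nat_lit 5) (nat_lit 132) (nat_lit 5) (nat_lit 508) (nat_lit 431) (nat_lit 201)) (XT.lf (nat_lit 0) (nat_lit 19067344191) (nat_lit 380) (nat_lit 4540731449) (nat_lit 456) (nat_lit 4499729163) (nat_lit 126) (nat_lit 5) (nat_lit 131) (nat_lit 5) (nat_lit 132) (nat_lit 5) (nat_lit 509) (nat_lit 431) (nat_lit 200)))))) (XT.nd (nat_lit 53352) (nat_lit 0) (nat_lit 19152) (XT.nd (nat_lit 234) (nat_lit 380) (nat_lit 0) (XT.nd (nat_lit 78) (nat_lit 456) (nat_lit 0) (XT.lf (nat_lit 0) (nat_lit 3883326900) (nat_lit 380) (nat_lit 24338284552) (nat_lit 456) (nat_lit 264880889) (nat_lit 121) (nat_lit 5) (nat_lit 126) (nat_lit 5) (nat_lit 127) (nat_lit 5) (nat_lit 510) (nat_lit 431) (nat_lit 199)) (XT.nd (nat_lit 78) (nat_lit 380) (nat_lit 0) (XT.lf (nat_lit 0) (nat_lit 4088983935) (nat_lit 456) (nat_lit 11745325753) (nat_lit 76) (nat_lit 13036169926)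 (nat_lit 120) (nat_lit 5) (nat_lit 126) (nat_lit 5) (nat_lit 121) (nat_lit 5) (nat_lit 511) (nat_lit 431) (nat_lit 198)) (XT.lf (nat_lit 0) (nat_lit 1381006114) (nat_lit 380) (nat_lit 7150772475) (nat_lit 456) (nat_lit 20730227433) (nat_lit 115) (nat_lit 5) (nat_lit 120) (nat_lit 5) (nat_lit 121) (nat_lit 5) (nat_lit 512) (nat_lit 431) (nat_lit 197)))) (XT.nd (nat_lit 156) (nat_lit 380) (nat_lit 0) (XT.nd (nat_lit 78) (nat_lit 0) (nat_lit 0) (XT.lf (nat_lit 0) (nat_lit 13150305457) (nat_lit 456) (nat_lit 14747365373) (nat_lit 76) (nat_lit 1761956950) (nat_lit 115) (nat_lit 5) (nat_lit 121) (nat_lit 5) (nat_lit 116) (nat_lit 5) (nat_lit 513) (nat_lit 431) (nat_lit 196)) (XT.lf (nat_lit 0) (nat_lit 17905086146) (nat_lit 456) (nat_lit 1403368256) (nat_lit 76) (nat_lit 10755872203) (nat_lit 115) (nat_lit 5) (nat_lit 121) (nat_lit 5) (nat_lit 116) (nat_lit 5) (nat_lit 514) (nat_lit 431) (nat_lit 195))) (XT.nd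 (nat_lit 52884) (nat_lit 0) (nat_lit 20748) (XT.lf (nat_lit 0) (nat_lit 12364818760) (nat_lit 380) (nat_lit 10467019566) (nat_lit 456) (nat_lit 7643745820) (nat_lit 110) (nat_lit 5) (nat_lit 115) (nat_lit 5) (nat_lit 116) (nat_lit 5) (nat_lit 515) (nat_lit 431) (nat_lit 194)) (XT.lf (nat_lit 0) (nat_lit 5597077633) (nat_lit 1596) (nat_lit 152811198) (nat_lit 1596) (nat_lit 152811198) (nat_lit 383) (nat_lit 3) (nat_lit 404) (nat_lit 3) (nat_lit 404) (nat_lit 5) (nat_lit 432) (nat_lit 432) (nat_lit 276))))) (XT.nd (nat_lit 234) (nat_lit 0) (nat_lit 76) (XT.nd (nat_lit 78) (nat_lit 1596) (nat_lit 0) (XT.lf (nat_lit 76) (nat_lit 4994533146) (nat_lit 0) (nat_lit 6803425182) (nat_lit 1596) (nat_lit 115157592) (nat_lit 384) (nat_lit 5) (nat_lit 383) (nat_lit 3) (nat_lit 404) (nat_lit 5) (nat_lit 433) (nat_lit 432) (nat_lit 275)) (XT.nd (nat_lit 78) (nat_lit 0) (nat_lit 76) (XT.lf (nat_lit 0) (nat_lit 375605102)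 (nat_lit 1596) (nat_lit 1627070949) (nat_lit 1672) (nat_lit 10020474579) (nat_lit 362) (nat_lit 5) (nat_lit 383) (nat_lit 3) (nat_lit 384) (nat_lit 5) (nat_lit 434) (nat_lit 432) (nat_lit 274)) (XT.lf (nat_lit 0) (nat_lit 906450987) (nat_lit 1596) (nat_lit 8340887060) (nat_lit 1672) (nat_lit 2887409196) (nat_lit 363) (nat_lit 5) (nat_lit 384) (nat_lit 5) (nat_lit 385) (nat_lit 5) (nat_lit 435) (nat_lit 432) (nat_lit 273)))) (XT.nd (nat_lit 156) (nat_lit 0) (nat_lit 76) (XT.nd (nat_lit 78) (nat_lit 0) (nat_lit 76) (XT.lf (nat_lit 0) (nat_lit 1460451112) (nat_lit 1596) (nat_lit 2922952562) (nat_lit 1672) (nat_lit 7864933748) (nat_lit 363) (nat_lit 5) (nat_lit 384) (nat_lit 5) (nat_lit 385) (nat_lit 5) (nat_lit 436) (nat_lit 432) (nat_lit 272)) (XT.lf (nat_lit 0) (nat_lit 2035027588) (nat_lit 1596) (nat_lit 9736542094) (nat_lit 1672) (nat_lit 592451933) (nat_lit 364) (nat_lit 5) (nat_lit 385) (nat_lit 5)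 (nat_lit 386) (nat_lit 5) (nat_lit 437) (nat_lit 432) (nat_lit 271))) (XT.nd (nat_lit 78) (nat_lit 0) (nat_lit 0) (XT.lf (nat_lit 0) (nat_lit 2658598776) (nat_lit 1596) (nat_lit 4188870054) (nat_lit 1672) (nat_lit 5633812501) (nat_lit 364) (nat_lit 5) (nat_lit 385) (nat_lit 5) (nat_lit 386) (nat_lit 5) (nat_lit 438) (nat_lit 432) (nat_lit 270)) (XT.lf (nat_lit 76) (nat_lit 1482705861) (nat_lit 0) (nat_lit 1810512794) (nat_lit 1672) (nat_lit 9307707706) (nat_lit 365) (nat_lit 5) (nat_lit 364) (nat_lit 5) (nat_lit 386) (nat_lit 5) (nat_lit 439) (nat_lit 432) (nat_lit 269))))))) (XT.nd (nat_lit 1092) (nat_lit 5016) (nat_lit 0) (XT.nd (nat_lit 546) (nat_lit 1292) (nat_lit 0) (XT.nd (nat_lit 234) (nat_lit 0) (nat_lit 76) (XT.nd (nat_lit 78) (nat_lit 0) (nat_lit 0) (XT.lf (nat_lit 0) (nat_lit 3979582916) (nat_lit 1596) (nat_lit 5426406429) (nat_lit 1672) (nat_lit 3316205347) (nat_lit 365) (nat_lit 5) (nat_lit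 386) (nat_lit 5) (nat_lit 387) (nat_lit 5) (nat_lit 440) (nat_lit 432) (nat_lit 268)) (XT.nd (nat_lit 78) (nat_lit 0) (nat_lit 76) (XT.lf (nat_lit 76) (nat_lit 365468102) (nat_lit 0) (nat_lit 4317936066) (nat_lit 1672) (nat_lit 8162420840) (nat_lit 366) (nat_lit 5) (nat_lit 365) (nat_lit 5) (nat_lit 387) (nat_lit 5) (nat_lit 441) (nat_lit 432) (nat_lit 267)) (XT.lf (nat_lit 0) (nat_lit 5433176138) (nat_lit 1596) (nat_lit 6637146558) (nat_lit 1672) (nat_lit 900978743) (nat_lit 366) (nat_lit 5) (nat_lit 387) (nat_lit 5) (nat_lit 388) (nat_lit 5) (nat_lit 442) (nat_lit 432) (nat_lit 266)))) (XT.nd (nat_lit 156) (nat_lit 0) (nat_lit 76) (XT.nd (nat_lit 78) (nat_lit 0) (nat_lit 0) (XT.lf (nat_lit 0) (nat_lit 6216302174) (nat_lit 1596) (nat_lit 712316071) (nat_lit 1672) (nat_lit 6170312759) (nat_lit 366) (nat_lit 5) (nat_lit 387) (nat_lit 5) (nat_lit 388) (nat_lit 5) (nat_lit 443) (nat_lit 432) (nat_lit 265))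 (XT.lf (nat_lit 76) (nat_lit 5395252631) (nat_lit 0) (nat_lit 1644831408) (nat_lit 1672) (nat_lit 6188539823) (nat_lit 367) (nat_lit 5) (nat_lit 366) (nat_lit 5) (nat_lit 388) (nat_lit 5) (nat_lit 444) (nat_lit 432) (nat_lit 264))) (XT.nd (nat_lit 78) (nat_lit 0) (nat_lit 0) (XT.lf (nat_lit 0) (nat_lit 7899606456) (nat_lit 1596) (nat_lit 1757236251) (nat_lit 1672) (nat_lit 3703692933) (nat_lit 367) (nat_lit 5) (nat_lit 388) (nat_lit 5) (nat_lit 389) (nat_lit 5) (nat_lit 445) (nat_lit 432) (nat_lit 263)) (XT.lf (nat_lit 76) (nat_lit 4481733396) (nat_lit 0) (nat_lit 4324911167) (nat_lit 1672) (nat_lit 4687844740) (nat_lit 368) (nat_lit 5) (nat_lit 367) (nat_lit 5) (nat_lit 389) (nat_lit 5) (nat_lit 446) (nat_lit 432) (nat_lit 262))))) (XT.nd (nat_lit 234) (nat_lit 1520) (nat_lit 0) (XT.nd (nat_lit 78) (nat_lit 0) (nat_lit 0) (XT.lf (nat_lit 0) (nat_lit 9741424586) (nat_lit 1596) (nat_lit 2775643010) (nat_lit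 1672) (nat_lit 1113872380) (nat_lit 368) (nat_lit 5) (nat_lit 389) (nat_lit 5) (nat_lit 390) (nat_lit 5) (nat_lit 447) (nat_lit 432) (nat_lit 261)) (XT.nd (nat_lit 78) (nat_lit 0) (nat_lit 0) (XT.lf (nat_lit 76) (nat_lit 3598142657) (nat_lit 0) (nat_lit 7139447608) (nat_lit 1672) (nat_lit 3031685359) (nat_lit 369) (nat_lit 5) (nat_lit 368) (nat_lit 5) (nat_lit 390) (nat_lit 5) (nat_lit 448) (nat_lit 432) (nat_lit 260)) (XT.lf (nat_lit 76) (nat_lit 10130454169) (nat_lit 0) (nat_lit 1632677772) (nat_lit 1672) (nat_lit 2147066560) (nat_lit 369) (nat_lit 5) (nat_lit 368) (nat_lit 5) (nat_lit 390) (nat_lit 5) (nat_lit 449) (nat_lit 432) (nat_lit 259)))) (XT.nd (nat_lit 156) (nat_lit 1596) (nat_lit 0) (XT.nd (nat_lit 78) (nat_lit 0) (nat_lit 0) (XT.lf (nat_lit 76) (nat_lit 2742926475) (nat_lit 0) (nat_lit 10100958194) (nat_lit 1672) (nat_lit 1209370547) (nat_lit 370) (nat_lit 5) (nat_lit 369) (nat_lit 5) (nat_lit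 391) (nat_lit 5) (nat_lit 450) (nat_lit 432) (nat_lit 258)) (XT.lf (nat_lit 76) (nat_lit 9429722435) (nat_lit 0) (nat_lit 4543791580) (nat_lit 1672) (nat_lit 225123017) (nat_lit 370) (nat_lit 5) (nat_lit 369) (nat_lit 5) (nat_lit 391) (nat_lit 5) (nat_lit 451) (nat_lit 432) (nat_lit 257))) (XT.nd (nat_lit 78) (nat_lit 0) (nat_lit 0) (XT.lf (nat_lit 0) (nat_lit 779734576) (nat_lit 1672) (nat_lit 12437383305) (nat_lit 1748) (nat_lit 1129493528) (nat_lit 348) (nat_lit 5) (nat_lit 370) (nat_lit 5) (nat_lit 371) (nat_lit 5) (nat_lit 452) (nat_lit 432) (nat_lit 256)) (XT.lf (nat_lit 0) (nat_lit 1855388235) (nat_lit 1672) (nat_lit 5749875474) (nat_lit 1748) (nat_lit 6891186207) (nat_lit 348) (nat_lit 5) (nat_lit 370) (nat_lit 5) (nat_lit 371) (nat_lit 5) (nat_lit 453) (nat_lit 432) (nat_lit 255)))))) (XT.nd (nat_lit 546) (nat_lit 3496) (nat_lit 0) (XT.nd (nat_lit 234) (nat_lit 1520) (nat_lit 0) (XT.nd (nat_lit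 78) (nat_lit 0) (nat_lit 76) (XT.lf (nat_lit 76) (nat_lit 1078911410) (nat_lit 0) (nat_lit 1872222384) (nat_lit 1748) (nat_lit 11698188320) (nat_lit 349) (nat_lit 5) (nat_lit 348) (nat_lit 5) (nat_lit 371) (nat_lit 5) (nat_lit 454) (nat_lit 432) (nat_lit 254)) (XT.nd (nat_lit 78) (nat_lit 0) (nat_lit 0) (XT.lf (nat_lit 0) (nat_lit 4125153475) (nat_lit 1672) (nat_lit 6715095205) (nat_lit 1748) (nat_lit 3963884224) (nat_lit 349) (nat_lit 5) (nat_lit 371) (nat_lit 5) (nat_lit 372) (nat_lit 5) (nat_lit 455) (nat_lit 432) (nat_lit 253)) (XT.lf (nat_lit 76) (nat_lit 261729755) (nat_lit 0) (nat_lit 5066892077) (nat_lit 1748) (nat_lit 9633306883) (nat_lit 350) (nat_lit 5) (nat_lit 349) (nat_lit 5) (nat_lit 372) (nat_lit 5) (nat_lit 456) (nat_lit 432) (nat_lit 252)))) (XT.nd (nat_lit 156) (nat_lit 1672) (nat_lit 0) (XT.nd (nat_lit 78) (nat_lit 0) (nat_lit 0) (XT.lf (nat_lit 0) (nat_lit 6598852364) (nat_lit 1672)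 (nat_lit 7665262622) (nat_lit 76) (nat_lit 857919605) (nat_lit 350) (nat_lit 5) (nat_lit 372) (nat_lit 5) (nat_lit 351) (nat_lit 5) (nat_lit 457) (nat_lit 432) (nat_lit 251)) (XT.lf (nat_lit 0) (nat_lit 7920196062) (nat_lit 1672) (nat_lit 529815064) (nat_lit 76) (nat_lit 6834825142) (nat_lit 350) (nat_lit 5) (nat_lit 372) (nat_lit 5) (nat_lit 351) (nat_lit 5) (nat_lit 458) (nat_lit 432) (nat_lit 250))) (XT.nd (nat_lit 78) (nat_lit 0) (nat_lit 0) (XT.lf (nat_lit 0) (nat_lit 6831435053) (nat_lit 1672) (nat_lit 2473192630) (nat_lit 1748) (nat_lit 6145540772) (nat_lit 328) (nat_lit 5) (nat_lit 350) (nat_lit 5) (nat_lit 351) (nat_lit 5) (nat_lit 459) (nat_lit 432) (nat_lit 249)) (XT.lf (nat_lit 0) (nat_lit 10736273847) (nat_lit 1748) (nat_lit 1301817393) (nat_lit 76) (nat_lit 3580333073) (nat_lit 328) (nat_lit 5) (nat_lit 351) (nat_lit 5) (nat_lit 329) (nat_lit 5) (nat_lit 460) (nat_lit 432) (nat_lit 248)))))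 (XT.nd (nat_lit 234) (nat_lit 1672) (nat_lit 0) (XT.nd (nat_lit 78) (nat_lit 836) (nat_lit 0) (XT.lf (nat_lit 0) (nat_lit 6220140702) (nat_lit 988) (nat_lit 6025747894) (nat_lit 1064) (nat_lit 3543177379) (nat_lit 315) (nat_lit 5) (nat_lit 328) (nat_lit 5) (nat_lit 329) (nat_lit 5) (nat_lit 461) (nat_lit 432) (nat_lit 247)) (XT.nd (nat_lit 78) (nat_lit 836) (nat_lit 0) (XT.lf (nat_lit 0) (nat_lit 13787864105) (nat_lit 1064) (nat_lit 2060125267) (nat_lit 76) (nat_lit 115094982) (nat_lit 315) (nat_lit 5) (nat_lit 329) (nat_lit 5) (nat_lit 316) (nat_lit 5) (nat_lit 462) (nat_lit 432) (nat_lit 246)) (XT.lf (nat_lit 0) (nat_lit 5626251674) (nat_lit 836) (nat_lit 9803686971) (nat_lit 912) (nat_lit 709266376) (nat_lit 304) (nat_lit 5) (nat_lit 315) (nat_lit 5) (nat_lit 316) (nat_lit 5) (nat_lit 463) (nat_lit 432) (nat_lit 245)))) (XT.nd (nat_lit 156) (nat_lit 760) (nat_lit 0) (XT.nd (nat_lit 78) (nat_lit 836)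 (nat_lit 0) (XT.lf (nat_lit 0) (nat_lit 782483718) (nat_lit 912) (nat_lit 2836026444) (nat_lit 76) (nat_lit 12700106994) (nat_lit 303) (nat_lit 5) (nat_lit 315) (nat_lit 5) (nat_lit 304) (nat_lit 5) (nat_lit 464) (nat_lit 432) (nat_lit 244)) (XT.lf (nat_lit 0) (nat_lit 2338094808) (nat_lit 912) (nat_lit 11469179789) (nat_lit 76) (nat_lit 2693385411) (nat_lit 292) (nat_lit 5) (nat_lit 304) (nat_lit 5) (nat_lit 293) (nat_lit 5) (nat_lit 465) (nat_lit 432) (nat_lit 243))) (XT.nd (nat_lit 78) (nat_lit 760) (nat_lit 0) (XT.lf (nat_lit 0) (nat_lit 3961047625) (nat_lit 912) (nat_lit 3621791770) (nat_lit 76) (nat_lit 9102786304) (nat_lit 292) (nat_lit 5) (nat_lit 304) (nat_lit 5) (nat_lit 293) (nat_lit 5) (nat_lit 466) (nat_lit 432) (nat_lit 242)) (XT.lf (nat_lit 0) (nat_lit 4434309502) (nat_lit 760) (nat_lit 1204184197) (nat_lit 836) (nat_lit 11235362760) (nat_lit 282) (nat_lit 5) (nat_lit 292) (nat_lit 5) (nat_lit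 293) (nat_lit 5) (nat_lit 467) (nat_lit 432) (nat_lit 241))))))))
noncomputable def xc214 : XT := (XT.nd (nat_lit 2106) (nat_lit 4180) (nat_lit 0) (XT.nd (nat_lit 1014) (nat_lit 4256) (nat_lit 0) (XT.nd (nat_lit 468) (nat_lit 2052) (nat_lit 0) (XT.nd (nat_lit 234) (nat_lit 1444) (nat_lit 0) (XT.nd (nat_lit 78) (nat_lit 760) (nat_lit 0) (XT.lf (nat_lit 0) (nat_lit 7401715191) (nat_lit 836) (nat_lit 4405814845) (nat_lit 76) (nat_lit 5257283583) (nat_lit 282) (nat_lit 5) (nat_lit 293) (nat_lit 5) (nat_lit 283) (nat_lit 5) (nat_lit 468) (nat_lit 432) (nat_lit 240)) (XT.nd (nat_lit 78) (nat_lit 0) (nat_lit 0) (XT.lf (nat_lit 0) (nat_lit 3824411402) (nat_lit 760) (nat_lit 5402062728) (nat_lit 836) (nat_lit 8032596524) (nat_lit 272) (nat_lit 5) (nat_lit 282) (nat_lit 5) (nat_lit 283) (nat_lit 5) (nat_lit 469) (nat_lit 432) (nat_lit 239)) (XT.lf (nat_lit 0) (nat_lit 11118391435) (nat_lit 836) (nat_lit 5191657234)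 (nat_lit 76) (nat_lit 1146556966) (nat_lit 272) (nat_lit 5) (nat_lit 283) (nat_lit 5) (nat_lit 273) (nat_lit 5) (nat_lit 470) (nat_lit 432) (nat_lit 238)))) (XT.nd (nat_lit 78) (nat_lit 760) (nat_lit 0) (XT.lf (nat_lit 0) (nat_lit 3216280762) (nat_lit 684) (nat_lit 9882205677) (nat_lit 760) (nat_lit 4558604040) (nat_lit 263) (nat_lit 5) (nat_lit 272) (nat_lit 5) (nat_lit 273) (nat_lit 5) (nat_lit 471) (nat_lit 432) (nat_lit 237)) (XT.nd (nat_lit 78) (nat_lit 760) (nat_lit 0) (XT.lf (nat_lit 0) (nat_lit 11856462536) (nat_lit 684) (nat_lit 3290324487) (nat_lit 760) (nat_lit 2714231756) (nat_lit 263) (nat_lit 5) (nat_lit 272) (nat_lit 5) (nat_lit 273) (nat_lit 5) (nat_lit 472) (nat_lit 432) (nat_lit 236)) (XT.lf (nat_lit 0) (nat_lit 2606015209) (nat_lit 760) (nat_lit 14663137101) (nat_lit 836) (nat_lit 799217081) (nat_lit 253) (nat_lit 5) (nat_lit 263) (nat_lit 5) (nat_lit 264) (nat_lit 5) (nat_lit 473)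 (nat_lit 432) (nat_lit 235))))) (XT.nd (nat_lit 234) (nat_lit 1292) (nat_lit 0) (XT.nd (nat_lit 78) (nat_lit 684) (nat_lit 0) (XT.lf (nat_lit 0) (nat_lit 1195233109) (nat_lit 836) (nat_lit 6844758411) (nat_lit 76) (nat_lit 10238605702) (nat_lit 252) (nat_lit 5) (nat_lit 263) (nat_lit 5) (nat_lit 253) (nat_lit 5) (nat_lit 474) (nat_lit 432) (nat_lit 234)) (XT.nd (nat_lit 78) (nat_lit 0) (nat_lit 0) (XT.lf (nat_lit 0) (nat_lit 1959379892) (nat_lit 684) (nat_lit 1266262315) (nat_lit 760) (nat_lit 15267151708) (nat_lit 243) (nat_lit 5) (nat_lit 252) (nat_lit 5) (nat_lit 253) (nat_lit 5) (nat_lit 475) (nat_lit 432) (nat_lit 233)) (XT.lf (nat_lit 0) (nat_lit 5373648047) (nat_lit 760) (nat_lit 7721208703) (nat_lit 76) (nat_lit 5614883302) (nat_lit 243) (nat_lit 5) (nat_lit 253) (nat_lit 5) (nat_lit 244) (nat_lit 5) (nat_lit 476) (nat_lit 432) (nat_lit 232)))) (XT.nd (nat_lit 156) (nat_lit 608) (nat_lit 0) (XT.nd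 (nat_lit 78) (nat_lit 0) (nat_lit 0) (XT.lf (nat_lit 0) (nat_lit 1269331447) (nat_lit 684) (nat_lit 6306139863) (nat_lit 760) (nat_lit 11355341838) (nat_lit 234) (nat_lit 5) (nat_lit 243) (nat_lit 5) (nat_lit 244) (nat_lit 5) (nat_lit 477) (nat_lit 432) (nat_lit 231)) (XT.lf (nat_lit 0) (nat_lit 9871802933) (nat_lit 760) (nat_lit 8621530441) (nat_lit 76) (nat_lit 661969971) (nat_lit 234) (nat_lit 5) (nat_lit 244) (nat_lit 5) (nat_lit 235) (nat_lit 5) (nat_lit 478) (nat_lit 432) (nat_lit 230))) (XT.nd (nat_lit 78) (nat_lit 0) (nat_lit 0) (XT.lf (nat_lit 0) (nat_lit 558660201) (nat_lit 608) (nat_lit 11695203085) (nat_lit 684) (nat_lit 7129628998) (nat_lit 226) (nat_lit 5) (nat_lit 234) (nat_lit 5) (nat_lit 235) (nat_lit 5) (nat_lit 479) (nat_lit 432) (nat_lit 229)) (XT.lf (nat_lit 0) (nat_lit 10033238005) (nat_lit 608) (nat_lit 4702664301) (nat_lit 684) (nat_lit 4879300828) (nat_lit 226) (nat_lit 5) (nat_lit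 234) (nat_lit 5) (nat_lit 235) (nat_lit 5) (nat_lit 480) (nat_lit 432) (nat_lit 228)))))) (XT.nd (nat_lit 546) (nat_lit 2280) (nat_lit 0) (XT.nd (nat_lit 234) (nat_lit 1216) (nat_lit 0) (XT.nd (nat_lit 78) (nat_lit 760) (nat_lit 0) (XT.lf (nat_lit 0) (nat_lit 17277944529) (nat_lit 684) (nat_lit 176090071) (nat_lit 76) (nat_lit 2397311139) (nat_lit 226) (nat_lit 5) (nat_lit 235) (nat_lit 5) (nat_lit 227) (nat_lit 5) (nat_lit 481) (nat_lit 432) (nat_lit 227)) (XT.nd (nat_lit 78) (nat_lit 76) (nat_lit 0) (XT.lf (nat_lit 0) (nat_lit 9505470217) (nat_lit 684) (nat_lit 10452909839) (nat_lit 760) (nat_lit 132084782) (nat_lit 217) (nat_lit 5) (nat_lit 226) (nat_lit 5) (nat_lit 227) (nat_lit 5) (nat_lit 482) (nat_lit 432) (nat_lit 226)) (XT.lf (nat_lit 0) (nat_lit 2323040671) (nat_lit 760) (nat_lit 972602189) (nat_lit 76) (nat_lit 17038503587) (nat_lit 216) (nat_lit 5) (nat_lit 226) (nat_lit 5) (nat_lit 217) (nat_lit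 5) (nat_lit 483) (nat_lit 432) (nat_lit 225)))) (XT.nd (nat_lit 156) (nat_lit 608) (nat_lit 0) (XT.nd (nat_lit 78) (nat_lit 0) (nat_lit 0) (XT.lf (nat_lit 0) (nat_lit 4904773307) (nat_lit 684) (nat_lit 11665444312) (nat_lit 76) (nat_lit 4010885563) (nat_lit 208) (nat_lit 5) (nat_lit 217) (nat_lit 5) (nat_lit 209) (nat_lit 5) (nat_lit 484) (nat_lit 432) (nat_lit 224)) (XT.lf (nat_lit 0) (nat_lit 7561417995) (nat_lit 684) (nat_lit 1845804246) (nat_lit 76) (nat_lit 11425315596) (nat_lit 208) (nat_lit 5) (nat_lit 217) (nat_lit 5) (nat_lit 209) (nat_lit 5) (nat_lit 485) (nat_lit 432) (nat_lit 223))) (XT.nd (nat_lit 78) (nat_lit 0) (nat_lit 0) (XT.lf (nat_lit 0) (nat_lit 8272909627) (nat_lit 608) (nat_lit 2046981573) (nat_lit 684) (nat_lit 10768140323) (nat_lit 200) (nat_lit 5) (nat_lit 208) (nat_lit 5) (nat_lit 209) (nat_lit 5) (nat_lit 486) (nat_lit 432) (nat_lit 222)) (XT.lf (nat_lit 0) (nat_lit 13176493071)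 (nat_lit 684) (nat_lit 2770783549) (nat_lit 76) (nat_lit 5400503446) (nat_lit 200) (nat_lit 5) (nat_lit 209) (nat_lit 5) (nat_lit 201) (nat_lit 5) (nat_lit 487) (nat_lit 432) (nat_lit 221))))) (XT.nd (nat_lit 234) (nat_lit 1064) (nat_lit 0) (XT.nd (nat_lit 78) (nat_lit 684) (nat_lit 0) (XT.lf (nat_lit 0) (nat_lit 7554195964) (nat_lit 532) (nat_lit 8593769230) (nat_lit 608) (nat_lit 5463607705) (nat_lit 193) (nat_lit 5) (nat_lit 200) (nat_lit 5) (nat_lit 201) (nat_lit 5) (nat_lit 488) (nat_lit 432) (nat_lit 220)) (XT.nd (nat_lit 78) (nat_lit 684) (nat_lit 0) (XT.lf (nat_lit 0) (nat_lit 18117507621) (nat_lit 532) (nat_lit 1075145962) (nat_lit 608) (nat_lit 2687716275) (nat_lit 193) (nat_lit 5) (nat_lit 200) (nat_lit 5) (nat_lit 201) (nat_lit 5) (nat_lit 489) (nat_lit 432) (nat_lit 219)) (XT.lf (nat_lit 0) (nat_lit 224448449) (nat_lit 684) (nat_lit 15376462773) (nat_lit 76) (nat_lit 6551963923) (nat_lit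 184) (nat_lit 5) (nat_lit 193) (nat_lit 5) (nat_lit 185) (nat_lit 5) (nat_lit 490) (nat_lit 432) (nat_lit 218)))) (XT.nd (nat_lit 156) (nat_lit 532) (nat_lit 0) (XT.nd (nat_lit 78) (nat_lit 532) (nat_lit 0) (XT.lf (nat_lit 0) (nat_lit 3186742603) (nat_lit 684) (nat_lit 4883668146) (nat_lit 76) (nat_lit 14359510752) (nat_lit 184) (nat_lit 5) (nat_lit 193) (nat_lit 5) (nat_lit 185) (nat_lit 5) (nat_lit 491) (nat_lit 432) (nat_lit 217)) (XT.lf (nat_lit 0) (nat_lit 5890616468) (nat_lit 532) (nat_lit 351306896) (nat_lit 608) (nat_lit 16469916307) (nat_lit 177) (nat_lit 5) (nat_lit 184) (nat_lit 5) (nat_lit 185) (nat_lit 5) (nat_lit 492) (nat_lit 432) (nat_lit 216))) (XT.nd (nat_lit 78) (nat_lit 532) (nat_lit 0) (XT.lf (nat_lit 0) (nat_lit 9435477983) (nat_lit 608) (nat_lit 6106883930) (nat_lit 76) (nat_lit 7455492512) (nat_lit 177) (nat_lit 5) (nat_lit 185) (nat_lit 5) (nat_lit 178) (nat_lit 5) (nat_lit 493)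 (nat_lit 432) (nat_lit 215)) (XT.lf (nat_lit 0) (nat_lit 4877827073) (nat_lit 532) (nat_lit 7844604863) (nat_lit 608) (nat_lit 10566570530) (nat_lit 170) (nat_lit 5) (nat_lit 177) (nat_lit 5) (nat_lit 178) (nat_lit 5) (nat_lit 494) (nat_lit 432) (nat_lit 214))))))) (XT.nd (nat_lit 1092) (nat_lit 1216) (nat_lit 0) (XT.nd (nat_lit 546) (nat_lit 1444) (nat_lit 0) (XT.nd (nat_lit 234) (nat_lit 1064) (nat_lit 0) (XT.nd (nat_lit 78) (nat_lit 456) (nat_lit 0) (XT.lf (nat_lit 0) (nat_lit 16111999071) (nat_lit 608) (nat_lit 7426068809) (nat_lit 76) (nat_lit 47171592) (nat_lit 170) (nat_lit 5) (nat_lit 178) (nat_lit 5) (nat_lit 171) (nat_lit 5) (nat_lit 495) (nat_lit 432) (nat_lit 213)) (XT.nd (nat_lit 78) (nat_lit 0) (nat_lit 0) (XT.lf (nat_lit 0) (nat_lit 3770742728) (nat_lit 456) (nat_lit 15870710909) (nat_lit 532) (nat_lit 4244509077) (nat_lit 164) (nat_lit 5) (nat_lit 170) (nat_lit 5) (nat_lit 171) (nat_lit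 5) (nat_lit 496) (nat_lit 432) (nat_lit 212)) (XT.lf (nat_lit 0) (nat_lit 15286688875) (nat_lit 456) (nat_lit 8000353715) (nat_lit 532) (nat_lit 904750275) (nat_lit 164) (nat_lit 5) (nat_lit 170) (nat_lit 5) (nat_lit 171) (nat_lit 5) (nat_lit 497) (nat_lit 432) (nat_lit 211)))) (XT.nd (nat_lit 156) (nat_lit 456) (nat_lit 0) (XT.nd (nat_lit 78) (nat_lit 0) (nat_lit 0) (XT.lf (nat_lit 0) (nat_lit 2481641741) (nat_lit 608) (nat_lit 21962681103) (nat_lit 76) (nat_lit 58842137) (nat_lit 156) (nat_lit 5) (nat_lit 164) (nat_lit 5) (nat_lit 157) (nat_lit 5) (nat_lit 498) (nat_lit 432) (nat_lit 210)) (XT.lf (nat_lit 0) (nat_lit 6032600272) (nat_lit 608) (nat_lit 10548704590) (nat_lit 76) (nat_lit 8237164160) (nat_lit 156) (nat_lit 5) (nat_lit 164) (nat_lit 5) (nat_lit 157) (nat_lit 5) (nat_lit 499) (nat_lit 432) (nat_lit 209))) (XT.nd (nat_lit 78) (nat_lit 0) (nat_lit 0) (XT.lf (nat_lit 0) (nat_lit 1102660299)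 (nat_lit 456) (nat_lit 8554964913) (nat_lit 532) (nat_lit 15482396083) (nat_lit 150) (nat_lit 5) (nat_lit 156) (nat_lit 5) (nat_lit 157) (nat_lit 5) (nat_lit 500) (nat_lit 432) (nat_lit 208)) (XT.lf (nat_lit 0) (nat_lit 13124725427) (nat_lit 456) (nat_lit 297146722) (nat_lit 532) (nat_lit 12044801070) (nat_lit 150) (nat_lit 5) (nat_lit 156) (nat_lit 5) (nat_lit 157) (nat_lit 5) (nat_lit 501) (nat_lit 432) (nat_lit 207))))) (XT.nd (nat_lit 234) (nat_lit 988) (nat_lit 0) (XT.nd (nat_lit 78) (nat_lit 456) (nat_lit 0) (XT.lf (nat_lit 0) (nat_lit 17310168184) (nat_lit 532) (nat_lit 470672579) (nat_lit 76) (nat_lit 8018045110) (nat_lit 150) (nat_lit 5) (nat_lit 157) (nat_lit 5) (nat_lit 151) (nat_lit 5) (nat_lit 502) (nat_lit 432) (nat_lit 206)) (XT.nd (nat_lit 78) (nat_lit 0) (nat_lit 0) (XT.lf (nat_lit 0) (nat_lit 11785444192) (nat_lit 456) (nat_lit 9565356936) (nat_lit 532) (nat_lit 4785453149) (nat_lit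 144) (nat_lit 5) (nat_lit 150) (nat_lit 5) (nat_lit 151) (nat_lit 5) (nat_lit 503) (nat_lit 432) (nat_lit 205)) (XT.lf (nat_lit 0) (nat_lit 24287913192) (nat_lit 456) (nat_lit 1183619552) (nat_lit 532) (nat_lit 1008854446) (nat_lit 144) (nat_lit 5) (nat_lit 150) (nat_lit 5) (nat_lit 151) (nat_lit 5) (nat_lit 504) (nat_lit 432) (nat_lit 204)))) (XT.nd (nat_lit 156) (nat_lit 456) (nat_lit 0) (XT.nd (nat_lit 78) (nat_lit 0) (nat_lit 0) (XT.lf (nat_lit 0) (nat_lit 2917552444) (nat_lit 532) (nat_lit 16557328612) (nat_lit 76) (nat_lit 7353923919) (nat_lit 137) (nat_lit 5) (nat_lit 144) (nat_lit 5) (nat_lit 138) (nat_lit 5) (nat_lit 505) (nat_lit 432) (nat_lit 203)) (XT.lf (nat_lit 0) (nat_lit 6927849463) (nat_lit 532) (nat_lit 4189227901) (nat_lit 76) (nat_lit 16066605666) (nat_lit 137) (nat_lit 5) (nat_lit 144) (nat_lit 5) (nat_lit 138) (nat_lit 5) (nat_lit 506) (nat_lit 432) (nat_lit 202))) (XT.nd (nat_lit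 78) (nat_lit 0) (nat_lit 0) (XT.lf (nat_lit 0) (nat_lit 8533109657) (nat_lit 456) (nat_lit 2536928992) (nat_lit 532) (nat_lit 16474588913) (nat_lit 131) (nat_lit 5) (nat_lit 137) (nat_lit 5) (nat_lit 138) (nat_lit 5) (nat_lit 507) (nat_lit 432) (nat_lit 201)) (XT.lf (nat_lit 0) (nat_lit 15360035828) (nat_lit 532) (nat_lit 6391158382) (nat_lit 76) (nat_lit 6160300082) (nat_lit 131) (nat_lit 5) (nat_lit 138) (nat_lit 5) (nat_lit 132) (nat_lit 5) (nat_lit 508) (nat_lit 432) (nat_lit 200)))))) (XT.nd (nat_lit 53430) (nat_lit 0) (nat_lit 18772) (XT.nd (nat_lit 234) (nat_lit 380) (nat_lit 0) (XT.nd (nat_lit 78) (nat_lit 456) (nat_lit 0) (XT.lf (nat_lit 0) (nat_lit 6545681973) (nat_lit 380) (nat_lit 13245838350) (nat_lit 456) (nat_lit 8493066824) (nat_lit 126) (nat_lit 5) (nat_lit 131) (nat_lit 5) (nat_lit 132) (nat_lit 5) (nat_lit 509) (nat_lit 432) (nat_lit 199)) (XT.nd (nat_lit 78) (nat_lit 456) (nat_lit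 0) (XT.lf (nat_lit 0) (nat_lit 19822952387) (nat_lit 380) (nat_lit 4527996522) (nat_lit 456) (nat_lit 4313409153) (nat_lit 126) (nat_lit 5) (nat_lit 131) (nat_lit 5) (nat_lit 132) (nat_lit 5) (nat_lit 510) (nat_lit 432) (nat_lit 198)) (XT.lf (nat_lit 0) (nat_lit 3834194) (nat_lit 456) (nat_lit 24713001747) (nat_lit 76) (nat_lit 4333830667) (nat_lit 120) (nat_lit 5) (nat_lit 126) (nat_lit 5) (nat_lit 121) (nat_lit 5) (nat_lit 511) (nat_lit 432) (nat_lit 197)))) (XT.nd (nat_lit 156) (nat_lit 0) (nat_lit 0) (XT.nd (nat_lit 78) (nat_lit 380) (nat_lit 0) (XT.lf (nat_lit 0) (nat_lit 4435929557) (nat_lit 456) (nat_lit 11607219694) (nat_lit 76) (nat_lit 13399258913) (nat_lit 120) (nat_lit 5) (nat_lit 126) (nat_lit 5) (nat_lit 121) (nat_lit 5) (nat_lit 512) (nat_lit 432) (nat_lit 196)) (XT.lf (nat_lit 0) (nat_lit 1779184780) (nat_lit 380) (nat_lit 7185601904) (nat_lit 456) (nat_lit 20877037770) (nat_lit 115) (nat_lit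 5) (nat_lit 120) (nat_lit 5) (nat_lit 121) (nat_lit 5) (nat_lit 513) (nat_lit 432) (nat_lit 195))) (XT.nd (nat_lit 78) (nat_lit 0) (nat_lit 0) (XT.lf (nat_lit 0) (nat_lit 13671228172) (nat_lit 456) (nat_lit 14674393252) (nat_lit 76) (nat_lit 1901869757) (nat_lit 115) (nat_lit 5) (nat_lit 121) (nat_lit 5) (nat_lit 116) (nat_lit 5) (nat_lit 514) (nat_lit 432) (nat_lit 194)) (XT.lf (nat_lit 0) (nat_lit 18516047287) (nat_lit 456) (nat_lit 1070730299) (nat_lit 76) (nat_lit 11073610891) (nat_lit 115) (nat_lit 5) (nat_lit 121) (nat_lit 5) (nat_lit 116) (nat_lit 5) (nat_lit 515) (nat_lit 432) (nat_lit 193))))) (XT.nd (nat_lit 234) (nat_lit 0) (nat_lit 76) (XT.nd (nat_lit 78) (nat_lit 0) (nat_lit 0) (XT.lf (nat_lit 0) (nat_lit 76663577) (nat_lit 0) (nat_lit 76663577) (nat_lit 1596) (nat_lit 5857759986) (nat_lit 362) (nat_lit 5) (nat_lit 362) (nat_lit 3) (nat_lit 383) (nat_lit 3) (nat_lit 433) (nat_lit 433) (nat_lit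 274)) (XT.nd (nat_lit 78) (nat_lit 0) (nat_lit 0) (XT.lf (nat_lit 0) (nat_lit 788997468) (nat_lit 1596) (nat_lit 6580198143) (nat_lit 1672) (nat_lit 4763142864) (nat_lit 362) (nat_lit 5) (nat_lit 383) (nat_lit 3) (nat_lit 384) (nat_lit 5) (nat_lit 434) (nat_lit 433) (nat_lit 273)) (XT.lf (nat_lit 0) (nat_lit 1270291414) (nat_lit 1596) (nat_lit 1192951923) (nat_lit 1672) (nat_lit 9781688918) (nat_lit 362) (nat_lit 5) (nat_lit 383) (nat_lit 3) (nat_lit 384) (nat_lit 5) (nat_lit 435) (nat_lit 433) (nat_lit 272)))) (XT.nd (nat_lit 156) (nat_lit 0) (nat_lit 76) (XT.nd (nat_lit 78) (nat_lit 0) (nat_lit 0) (XT.lf (nat_lit 0) (nat_lit 1794711792) (nat_lit 1596) (nat_lit 8023082419) (nat_lit 1672) (nat_lit 2541325826) (nat_lit 363) (nat_lit 5) (nat_lit 384) (nat_lit 5) (nat_lit 385) (nat_lit 5) (nat_lit 436) (nat_lit 433) (nat_lit 271)) (XT.lf (nat_lit 0) (nat_lit 2342730512) (nat_lit 1596) (nat_lit 2506291631)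 (nat_lit 1672) (nat_lit 7626319135) (nat_lit 363) (nat_lit 5) (nat_lit 384) (nat_lit 5) (nat_lit 385) (nat_lit 5) (nat_lit 437) (nat_lit 433) (nat_lit 270))) (XT.nd (nat_lit 78) (nat_lit 0) (nat_lit 0) (XT.lf (nat_lit 0) (nat_lit 2912750653) (nat_lit 1596) (nat_lit 9439221280) (nat_lit 1672) (nat_lit 241705856) (nat_lit 364) (nat_lit 5) (nat_lit 385) (nat_lit 5) (nat_lit 386) (nat_lit 5) (nat_lit 438) (nat_lit 433) (nat_lit 269)) (XT.lf (nat_lit 0) (nat_lit 3532381058) (nat_lit 1596) (nat_lit 3790243871) (nat_lit 1672) (nat_lit 5391003343) (nat_lit 364) (nat_lit 5) (nat_lit 385) (nat_lit 5) (nat_lit 386) (nat_lit 5) (nat_lit 439) (nat_lit 433) (nat_lit 268))))))))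
noncomputable def xc215 : XT := (XT.nd (nat_lit 2106) (nat_lit 8740) (nat_lit 0) (XT.nd (nat_lit 1014) (nat_lit 4180) (nat_lit 0) (XT.nd (nat_lit 468) (nat_lit 1292) (nat_lit 0) (XT.nd (nat_lit 234) (nat_lit 0) (nat_lit 152) (XT.nd (nat_lit 78) (nat_lit 0) (nat_lit 76) (XT.lf (nat_lit 76) (nat_lit 1991589855) (nat_lit 0) (nat_lit 2175124561) (nat_lit 1672) (nat_lit 8669228356) (nat_lit 365) (nat_lit 5) (nat_lit 364) (nat_lit 5) (nat_lit 386) (nat_lit 5) (nat_lit 440) (nat_lit 433) (nat_lit 267)) (XT.nd (nat_lit 78) (nat_lit 0) (nat_lit 0) (XT.lf (nat_lit 0) (nat_lit 4848879659) (nat_lit 1596) (nat_lit 5046342211) (nat_lit 1672) (nat_lit 3064789781) (nat_lit 365) (nat_lit 5) (nat_lit 386) (nat_lit 5) (nat_lit 387) (nat_lit 5) (nat_lit 441) (nat_lit 433) (nat_lit 266)) (XT.lf (nat_lit 76) (nat_lit 858155387) (nat_lit 0) (nat_lit 4696288931) (nat_lit 1672) (nat_lit 7531933247) (nat_lit 366) (nat_lit 5) (nat_lit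 365) (nat_lit 5) (nat_lit 387) (nat_lit 5) (nat_lit 442) (nat_lit 433) (nat_lit 265)))) (XT.nd (nat_lit 78) (nat_lit 0) (nat_lit 0) (XT.lf (nat_lit 0) (nat_lit 6302110491) (nat_lit 1596) (nat_lit 6276127051) (nat_lit 1672) (nat_lit 636484016) (nat_lit 366) (nat_lit 5) (nat_lit 387) (nat_lit 5) (nat_lit 388) (nat_lit 5) (nat_lit 443) (nat_lit 433) (nat_lit 264)) (XT.nd (nat_lit 78) (nat_lit 0) (nat_lit 0) (XT.lf (nat_lit 0) (nat_lit 7085991777) (nat_lit 1596) (nat_lit 242481571) (nat_lit 1672) (nat_lit 6016744209) (nat_lit 366) (nat_lit 5) (nat_lit 387) (nat_lit 5) (nat_lit 388) (nat_lit 5) (nat_lit 444) (nat_lit 433) (nat_lit 263)) (XT.lf (nat_lit 76) (nat_lit 5984053762) (nat_lit 0) (nat_lit 1930702842) (nat_lit 1672) (nat_lit 5562992910) (nat_lit 367) (nat_lit 5) (nat_lit 366) (nat_lit 5) (nat_lit 388) (nat_lit 5) (nat_lit 445) (nat_lit 433) (nat_lit 262))))) (XT.nd (nat_lit 234) (nat_lit 1520) (nat_lit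 0) (XT.nd (nat_lit 78) (nat_lit 0) (nat_lit 0) (XT.lf (nat_lit 0) (nat_lit 8775469569) (nat_lit 1596) (nat_lit 1304160010) (nat_lit 1672) (nat_lit 3533005032) (nat_lit 367) (nat_lit 5) (nat_lit 388) (nat_lit 5) (nat_lit 389) (nat_lit 5) (nat_lit 446) (nat_lit 433) (nat_lit 261)) (XT.nd (nat_lit 78) (nat_lit 0) (nat_lit 76) (XT.lf (nat_lit 76) (nat_lit 5056377050) (nat_lit 0) (nat_lit 4633344487) (nat_lit 1672) (nat_lit 4059779140) (nat_lit 368) (nat_lit 5) (nat_lit 367) (nat_lit 5) (nat_lit 389) (nat_lit 5) (nat_lit 447) (nat_lit 433) (nat_lit 260)) (XT.lf (nat_lit 0) (nat_lit 10627922816) (nat_lit 1596) (nat_lit 2339657490) (nat_lit 1672) (nat_lit 921420045) (nat_lit 368) (nat_lit 5) (nat_lit 389) (nat_lit 5) (nat_lit 390) (nat_lit 5) (nat_lit 448) (nat_lit 433) (nat_lit 259)))) (XT.nd (nat_lit 156) (nat_lit 1596) (nat_lit 0) (XT.nd (nat_lit 78) (nat_lit 0) (nat_lit 0) (XT.lf (nat_lit 76) (nat_lit 4158370349)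 (nat_lit 0) (nat_lit 7475249446) (nat_lit 1672) (nat_lit 2396704972) (nat_lit 369) (nat_lit 5) (nat_lit 368) (nat_lit 5) (nat_lit 390) (nat_lit 5) (nat_lit 449) (nat_lit 433) (nat_lit 258)) (XT.lf (nat_lit 76) (nat_lit 10811754271) (nat_lit 0) (nat_lit 1854559648) (nat_lit 1672) (nat_lit 1508033289) (nat_lit 369) (nat_lit 5) (nat_lit 368) (nat_lit 5) (nat_lit 390) (nat_lit 5) (nat_lit 450) (nat_lit 433) (nat_lit 257))) (XT.nd (nat_lit 78) (nat_lit 1672) (nat_lit 0) (XT.lf (nat_lit 76) (nat_lit 3288510048) (nat_lit 0) (nat_lit 10469056802) (nat_lit 1672) (nat_lit 562934167) (nat_lit 370) (nat_lit 5) (nat_lit 369) (nat_lit 5) (nat_lit 391) (nat_lit 5) (nat_lit 451) (nat_lit 433) (nat_lit 256)) (XT.lf (nat_lit 0) (nat_lit 422237511) (nat_lit 1672) (nat_lit 4372419449) (nat_lit 1748) (nat_lit 9674348920) (nat_lit 347) (nat_lit 5) (nat_lit 369) (nat_lit 5) (nat_lit 370) (nat_lit 5) (nat_lit 452) (nat_lit 433)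 (nat_lit 255)))))) (XT.nd (nat_lit 546) (nat_lit 4256) (nat_lit 0) (XT.nd (nat_lit 234) (nat_lit 0) (nat_lit 76) (XT.nd (nat_lit 78) (nat_lit 0) (nat_lit 0) (XT.lf (nat_lit 0) (nat_lit 1433633280) (nat_lit 1672) (nat_lit 12184557206) (nat_lit 1748) (nat_lit 1001943265) (nat_lit 348) (nat_lit 5) (nat_lit 370) (nat_lit 5) (nat_lit 371) (nat_lit 5) (nat_lit 453) (nat_lit 433) (nat_lit 254)) (XT.nd (nat_lit 78) (nat_lit 0) (nat_lit 0) (XT.lf (nat_lit 0) (nat_lit 2518284247) (nat_lit 1672) (nat_lit 5373133998) (nat_lit 1748) (nat_lit 6881813721) (nat_lit 348) (nat_lit 5) (nat_lit 370) (nat_lit 5) (nat_lit 371) (nat_lit 5) (nat_lit 454) (nat_lit 433) (nat_lit 253)) (XT.lf (nat_lit 76) (nat_lit 1588993499) (nat_lit 0) (nat_lit 2037852552) (nat_lit 1748) (nat_lit 11302509908) (nat_lit 349) (nat_lit 5) (nat_lit 348) (nat_lit 5) (nat_lit 371) (nat_lit 5) (nat_lit 455) (nat_lit 433) (nat_lit 252)))) (XT.nd (nat_lit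 156) (nat_lit 0) (nat_lit 76) (XT.nd (nat_lit 78) (nat_lit 0) (nat_lit 0) (XT.lf (nat_lit 0) (nat_lit 4811438224) (nat_lit 1672) (nat_lit 6356957182) (nat_lit 1748) (nat_lit 3919137849) (nat_lit 349) (nat_lit 5) (nat_lit 371) (nat_lit 5) (nat_lit 372) (nat_lit 5) (nat_lit 456) (nat_lit 433) (nat_lit 251)) (XT.lf (nat_lit 76) (nat_lit 756164540) (nat_lit 0) (nat_lit 5274148763) (nat_lit 1748) (nat_lit 9218356827) (nat_lit 350) (nat_lit 5) (nat_lit 349) (nat_lit 5) (nat_lit 372) (nat_lit 5) (nat_lit 457) (nat_lit 433) (nat_lit 250))) (XT.nd (nat_lit 78) (nat_lit 0) (nat_lit 0) (XT.lf (nat_lit 0) (nat_lit 7313605235) (nat_lit 1672) (nat_lit 7326033518) (nat_lit 76) (nat_lit 772597899) (nat_lit 350) (nat_lit 5) (nat_lit 372) (nat_lit 5) (nat_lit 351) (nat_lit 5) (nat_lit 458) (nat_lit 433) (nat_lit 249)) (XT.lf (nat_lit 0) (nat_lit 8649948830) (nat_lit 1672) (nat_lit 57534545) (nat_lit 76) (nat_lit 6871050960)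 (nat_lit 350) (nat_lit 5) (nat_lit 372) (nat_lit 5) (nat_lit 351) (nat_lit 5) (nat_lit 459) (nat_lit 433) (nat_lit 248))))) (XT.nd (nat_lit 234) (nat_lit 1748) (nat_lit 0) (XT.nd (nat_lit 78) (nat_lit 988) (nat_lit 0) (XT.lf (nat_lit 0) (nat_lit 7447763753) (nat_lit 1672) (nat_lit 2606216942) (nat_lit 1748) (nat_lit 5693365448) (nat_lit 328) (nat_lit 5) (nat_lit 350) (nat_lit 5) (nat_lit 351) (nat_lit 5) (nat_lit 460) (nat_lit 433) (nat_lit 247)) (XT.nd (nat_lit 78) (nat_lit 988) (nat_lit 0) (XT.lf (nat_lit 0) (nat_lit 11502683568) (nat_lit 1748) (nat_lit 845433927) (nat_lit 76) (nat_lit 3571092137) (nat_lit 328) (nat_lit 5) (nat_lit 351) (nat_lit 5) (nat_lit 329) (nat_lit 5) (nat_lit 461) (nat_lit 433) (nat_lit 246)) (XT.lf (nat_lit 0) (nat_lit 6823789516) (nat_lit 988) (nat_lit 6210995341) (nat_lit 1064) (nat_lit 3058644159) (nat_lit 315) (nat_lit 5) (nat_lit 328) (nat_lit 5) (nat_lit 329) (nat_lit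 5) (nat_lit 462) (nat_lit 433) (nat_lit 245)))) (XT.nd (nat_lit 156) (nat_lit 912) (nat_lit 0) (XT.nd (nat_lit 78) (nat_lit 836) (nat_lit 0) (XT.lf (nat_lit 0) (nat_lit 14596521586) (nat_lit 1064) (nat_lit 1619872317) (nat_lit 76) (nat_lit 54765989) (nat_lit 315) (nat_lit 5) (nat_lit 329) (nat_lit 5) (nat_lit 316) (nat_lit 5) (nat_lit 463) (nat_lit 433) (nat_lit 244)) (XT.lf (nat_lit 0) (nat_lit 6217064692) (nat_lit 836) (nat_lit 10047029263) (nat_lit 912) (nat_lit 186866245) (nat_lit 304) (nat_lit 5) (nat_lit 315) (nat_lit 5) (nat_lit 316) (nat_lit 5) (nat_lit 464) (nat_lit 433) (nat_lit 243))) (XT.nd (nat_lit 78) (nat_lit 836) (nat_lit 0) (XT.lf (nat_lit 0) (nat_lit 1317298141) (nat_lit 912) (nat_lit 2416440074) (nat_lit 76) (nat_lit 12900370306) (nat_lit 303) (nat_lit 5) (nat_lit 315) (nat_lit 5) (nat_lit 304) (nat_lit 5) (nat_lit 465) (nat_lit 433) (nat_lit 242)) (XT.lf (nat_lit 0) (nat_lit 2896661447)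 (nat_lit 912) (nat_lit 11214408555) (nat_lit 76) (nat_lit 2708879187) (nat_lit 292) (nat_lit 5) (nat_lit 304) (nat_lit 5) (nat_lit 293) (nat_lit 5) (nat_lit 466) (nat_lit 433) (nat_lit 241))))))) (XT.nd (nat_lit 1092) (nat_lit 3724) (nat_lit 0) (XT.nd (nat_lit 546) (nat_lit 2812) (nat_lit 0) (XT.nd (nat_lit 234) (nat_lit 1444) (nat_lit 0) (XT.nd (nat_lit 78) (nat_lit 760) (nat_lit 0) (XT.lf (nat_lit 0) (nat_lit 4542037933) (nat_lit 912) (nat_lit 3219566007) (nat_lit 76) (nat_lit 9247220528) (nat_lit 292) (nat_lit 5) (nat_lit 304) (nat_lit 5) (nat_lit 293) (nat_lit 5) (nat_lit 467) (nat_lit 433) (nat_lit 240)) (XT.nd (nat_lit 78) (nat_lit 0) (nat_lit 0) (XT.lf (nat_lit 0) (nat_lit 4994534516) (nat_lit 760) (nat_lit 1251721340) (nat_lit 836) (nat_lit 10954708908) (nat_lit 282) (nat_lit 5) (nat_lit 292) (nat_lit 5) (nat_lit 293) (nat_lit 5) (nat_lit 468) (nat_lit 433) (nat_lit 239)) (XT.lf (nat_lit 0) (nat_lit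 8034886758) (nat_lit 836) (nat_lit 4021323374) (nat_lit 76) (nat_lit 5339737232) (nat_lit 282) (nat_lit 5) (nat_lit 293) (nat_lit 5) (nat_lit 283) (nat_lit 5) (nat_lit 469) (nat_lit 433) (nat_lit 238)))) (XT.nd (nat_lit 156) (nat_lit 684) (nat_lit 0) (XT.nd (nat_lit 78) (nat_lit 0) (nat_lit 0) (XT.lf (nat_lit 0) (nat_lit 4370398137) (nat_lit 760) (nat_lit 5519278539) (nat_lit 836) (nat_lit 7704551163) (nat_lit 272) (nat_lit 5) (nat_lit 282) (nat_lit 5) (nat_lit 283) (nat_lit 5) (nat_lit 470) (nat_lit 433) (nat_lit 237)) (XT.lf (nat_lit 0) (nat_lit 11809988181) (nat_lit 836) (nat_lit 4825311651) (nat_lit 76) (nat_lit 1160611408) (nat_lit 272) (nat_lit 5) (nat_lit 283) (nat_lit 5) (nat_lit 273) (nat_lit 5) (nat_lit 471) (nat_lit 433) (nat_lit 236))) (XT.nd (nat_lit 78) (nat_lit 0) (nat_lit 0) (XT.lf (nat_lit 0) (nat_lit 3747691823) (nat_lit 684) (nat_lit 10075825323) (nat_lit 760) (nat_lit 4177020659) (nat_lit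 263) (nat_lit 5) (nat_lit 272) (nat_lit 5) (nat_lit 273) (nat_lit 5) (nat_lit 472) (nat_lit 433) (nat_lit 235)) (XT.lf (nat_lit 0) (nat_lit 12551518695) (nat_lit 684) (nat_lit 3352185420) (nat_lit 760) (nat_lit 2305030645) (nat_lit 263) (nat_lit 5) (nat_lit 272) (nat_lit 5) (nat_lit 273) (nat_lit 5) (nat_lit 473) (nat_lit 433) (nat_lit 234))))) (XT.nd (nat_lit 234) (nat_lit 1292) (nat_lit 0) (XT.nd (nat_lit 78) (nat_lit 760) (nat_lit 0) (XT.lf (nat_lit 0) (nat_lit 3122466162) (nat_lit 760) (nat_lit 14940188809) (nat_lit 836) (nat_lit 357702978) (nat_lit 253) (nat_lit 5) (nat_lit 263) (nat_lit 5) (nat_lit 264) (nat_lit 5) (nat_lit 474) (nat_lit 433) (nat_lit 233)) (XT.nd (nat_lit 78) (nat_lit 684) (nat_lit 0) (XT.lf (nat_lit 0) (nat_lit 1661783135) (nat_lit 836) (nat_lit 6520144661) (nat_lit 76) (nat_lit 10452988195) (nat_lit 252) (nat_lit 5) (nat_lit 263) (nat_lit 5) (nat_lit 253) (nat_lit 5) (nat_lit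 475) (nat_lit 433) (nat_lit 232)) (XT.lf (nat_lit 0) (nat_lit 2457040165) (nat_lit 684) (nat_lit 1270057637) (nat_lit 760) (nat_lit 15126420715) (nat_lit 243) (nat_lit 5) (nat_lit 252) (nat_lit 5) (nat_lit 253) (nat_lit 5) (nat_lit 476) (nat_lit 433) (nat_lit 231)))) (XT.nd (nat_lit 156) (nat_lit 608) (nat_lit 0) (XT.nd (nat_lit 78) (nat_lit 684) (nat_lit 0) (XT.lf (nat_lit 0) (nat_lit 5909633300) (nat_lit 760) (nat_lit 7417334678) (nat_lit 76) (nat_lit 5748011905) (nat_lit 243) (nat_lit 5) (nat_lit 253) (nat_lit 5) (nat_lit 244) (nat_lit 5) (nat_lit 477) (nat_lit 433) (nat_lit 230)) (XT.lf (nat_lit 0) (nat_lit 1750001156) (nat_lit 684) (nat_lit 6400045671) (nat_lit 760) (nat_lit 11150544081) (nat_lit 234) (nat_lit 5) (nat_lit 243) (nat_lit 5) (nat_lit 244) (nat_lit 5) (nat_lit 478) (nat_lit 433) (nat_lit 229))) (XT.nd (nat_lit 78) (nat_lit 608) (nat_lit 0) (XT.lf (nat_lit 0) (nat_lit 10484214741) (nat_lit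 760) (nat_lit 8339144962) (nat_lit 76) (nat_lit 706380408) (nat_lit 234) (nat_lit 5) (nat_lit 244) (nat_lit 5) (nat_lit 235) (nat_lit 5) (nat_lit 479) (nat_lit 433) (nat_lit 228)) (XT.lf (nat_lit 0) (nat_lit 1021657282) (nat_lit 608) (nat_lit 11887055781) (nat_lit 684) (nat_lit 6853891082) (nat_lit 226) (nat_lit 5) (nat_lit 234) (nat_lit 5) (nat_lit 235) (nat_lit 5) (nat_lit 480) (nat_lit 433) (nat_lit 227)))))) (XT.nd (nat_lit 546) (nat_lit 1748) (nat_lit 0) (XT.nd (nat_lit 234) (nat_lit 1216) (nat_lit 0) (XT.nd (nat_lit 78) (nat_lit 760) (nat_lit 0) (XT.lf (nat_lit 0) (nat_lit 10676867350) (nat_lit 608) (nat_lit 4755490757) (nat_lit 684) (nat_lit 4566758908) (nat_lit 226) (nat_lit 5) (nat_lit 234) (nat_lit 5) (nat_lit 235) (nat_lit 5) (nat_lit 481) (nat_lit 433) (nat_lit 226)) (XT.nd (nat_lit 78) (nat_lit 76) (nat_lit 0) (XT.lf (nat_lit 0) (nat_lit 266120596) (nat_lit 684) (nat_lit 17753233622) (nat_lit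 760) (nat_lit 2220752962) (nat_lit 217) (nat_lit 5) (nat_lit 226) (nat_lit 5) (nat_lit 227) (nat_lit 5) (nat_lit 482) (nat_lit 433) (nat_lit 225)) (XT.lf (nat_lit 0) (nat_lit 259202932) (nat_lit 760) (nat_lit 10350940460) (nat_lit 76) (nat_lit 9873970062) (nat_lit 216) (nat_lit 5) (nat_lit 226) (nat_lit 5) (nat_lit 217) (nat_lit 5) (nat_lit 483) (nat_lit 433) (nat_lit 224)))) (XT.nd (nat_lit 156) (nat_lit 608) (nat_lit 0) (XT.nd (nat_lit 78) (nat_lit 608) (nat_lit 0) (XT.lf (nat_lit 0) (nat_lit 2753974474) (nat_lit 760) (nat_lit 555898036) (nat_lit 76) (nat_lit 17422939047) (nat_lit 216) (nat_lit 5) (nat_lit 226) (nat_lit 5) (nat_lit 217) (nat_lit 5) (nat_lit 484) (nat_lit 433) (nat_lit 223)) (XT.lf (nat_lit 0) (nat_lit 5382963873) (nat_lit 684) (nat_lit 11457897192) (nat_lit 76) (nat_lit 4143940357) (nat_lit 208) (nat_lit 5) (nat_lit 217) (nat_lit 5) (nat_lit 209) (nat_lit 5) (nat_lit 485) (nat_lit 433)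 (nat_lit 222))) (XT.nd (nat_lit 78) (nat_lit 608) (nat_lit 0) (XT.lf (nat_lit 0) (nat_lit 8085288610) (nat_lit 684) (nat_lit 1450508560) (nat_lit 76) (nat_lit 11705622970) (nat_lit 208) (nat_lit 5) (nat_lit 217) (nat_lit 5) (nat_lit 209) (nat_lit 5) (nat_lit 486) (nat_lit 433) (nat_lit 221)) (XT.lf (nat_lit 0) (nat_lit 8867736092) (nat_lit 608) (nat_lit 2026676220) (nat_lit 684) (nat_lit 10607707956) (nat_lit 200) (nat_lit 5) (nat_lit 208) (nat_lit 5) (nat_lit 209) (nat_lit 5) (nat_lit 487) (nat_lit 433) (nat_lit 220))))) (XT.nd (nat_lit 234) (nat_lit 1216) (nat_lit 0) (XT.nd (nat_lit 78) (nat_lit 532) (nat_lit 0) (XT.lf (nat_lit 0) (nat_lit 13801317963) (nat_lit 684) (nat_lit 2398118323) (nat_lit 76) (nat_lit 5567770128) (nat_lit 200) (nat_lit 5) (nat_lit 209) (nat_lit 5) (nat_lit 201) (nat_lit 5) (nat_lit 488) (nat_lit 433) (nat_lit 219)) (XT.nd (nat_lit 78) (nat_lit 0) (nat_lit 0) (XT.lf (nat_lit 0)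 (nat_lit 8130544459) (nat_lit 532) (nat_lit 8697351953) (nat_lit 608) (nat_lit 5208471102) (nat_lit 193) (nat_lit 5) (nat_lit 200) (nat_lit 5) (nat_lit 201) (nat_lit 5) (nat_lit 489) (nat_lit 433) (nat_lit 218)) (XT.lf (nat_lit 0) (nat_lit 18896783828) (nat_lit 532) (nat_lit 1029695291) (nat_lit 608) (nat_lit 2384207113) (nat_lit 193) (nat_lit 5) (nat_lit 200) (nat_lit 5) (nat_lit 201) (nat_lit 5) (nat_lit 490) (nat_lit 433) (nat_lit 217)))) (XT.nd (nat_lit 156) (nat_lit 532) (nat_lit 0) (XT.nd (nat_lit 78) (nat_lit 0) (nat_lit 0) (XT.lf (nat_lit 0) (nat_lit 577782520) (nat_lit 684) (nat_lit 15258081480) (nat_lit 76) (nat_lit 6752811493) (nat_lit 184) (nat_lit 5) (nat_lit 193) (nat_lit 5) (nat_lit 185) (nat_lit 5) (nat_lit 491) (nat_lit 433) (nat_lit 216)) (XT.lf (nat_lit 0) (nat_lit 3592482457) (nat_lit 684) (nat_lit 4563782148) (nat_lit 76) (nat_lit 14715140469) (nat_lit 184) (nat_lit 5) (nat_lit 193)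 (nat_lit 5) (nat_lit 185) (nat_lit 5) (nat_lit 492) (nat_lit 433) (nat_lit 215))) (XT.nd (nat_lit 78) (nat_lit 0) (nat_lit 0) (XT.lf (nat_lit 0) (nat_lit 6423241057) (nat_lit 532) (nat_lit 281513032) (nat_lit 608) (nat_lit 16454293160) (nat_lit 177) (nat_lit 5) (nat_lit 184) (nat_lit 5) (nat_lit 185) (nat_lit 5) (nat_lit 493) (nat_lit 433) (nat_lit 214)) (XT.lf (nat_lit 0) (nat_lit 9956041488) (nat_lit 608) (nat_lit 5815940523) (nat_lit 76) (nat_lit 7678928336) (nat_lit 177) (nat_lit 5) (nat_lit 185) (nat_lit 5) (nat_lit 178) (nat_lit 5) (nat_lit 494) (nat_lit 433) (nat_lit 213))))))))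
noncomputable def xc216 : XT := (XT.nd (nat_lit 55146) (nat_lit 0) (nat_lit 13452) (XT.nd (nat_lit 1014) (nat_lit 1672) (nat_lit 0) (XT.nd (nat_lit 468) (nat_lit 1444) (nat_lit 0) (XT.nd (nat_lit 234) (nat_lit 608) (nat_lit 0) (XT.nd (nat_lit 78) (nat_lit 456) (nat_lit 0) (XT.lf (nat_lit 0) (nat_lit 5385747061) (nat_lit 532) (nat_lit 7919144870) (nat_lit 608) (nat_lit 10443071447) (nat_lit 170) (nat_lit 5) (nat_lit 177) (nat_lit 5) (nat_lit 178) (nat_lit 5) (nat_lit 495) (nat_lit 433) (nat_lit 212)) (XT.nd (nat_lit 78) (nat_lit 456) (nat_lit 0) (XT.lf (nat_lit 0) (nat_lit 16756343015) (nat_lit 608) (nat_lit 7166111852) (nat_lit 76) (nat_lit 127793482) (nat_lit 170) (nat_lit 5) (nat_lit 178) (nat_lit 5) (nat_lit 171) (nat_lit 5) (nat_lit 496) (nat_lit 433) (nat_lit 211)) (XT.lf (nat_lit 0) (nat_lit 4251948557) (nat_lit 456) (nat_lit 16100757014) (nat_lit 532) (nat_lit 4004359083) (nat_lit 164) (nat_lit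 5) (nat_lit 170) (nat_lit 5) (nat_lit 171) (nat_lit 5) (nat_lit 497) (nat_lit 433) (nat_lit 210)))) (XT.nd (nat_lit 78) (nat_lit 608) (nat_lit 0) (XT.lf (nat_lit 0) (nat_lit 15990256942) (nat_lit 456) (nat_lit 8074705777) (nat_lit 532) (nat_lit 604178442) (nat_lit 164) (nat_lit 5) (nat_lit 170) (nat_lit 5) (nat_lit 171) (nat_lit 5) (nat_lit 498) (nat_lit 433) (nat_lit 209)) (XT.nd (nat_lit 78) (nat_lit 0) (nat_lit 0) (XT.lf (nat_lit 0) (nat_lit 2842765971) (nat_lit 608) (nat_lit 21996451298) (nat_lit 76) (nat_lit 147546681) (nat_lit 156) (nat_lit 5) (nat_lit 164) (nat_lit 5) (nat_lit 157) (nat_lit 5) (nat_lit 499) (nat_lit 433) (nat_lit 208)) (XT.lf (nat_lit 0) (nat_lit 6458635998) (nat_lit 608) (nat_lit 10362145910) (nat_lit 76) (nat_lit 8487718916) (nat_lit 156) (nat_lit 5) (nat_lit 164) (nat_lit 5) (nat_lit 157) (nat_lit 5) (nat_lit 500) (nat_lit 433) (nat_lit 207))))) (XT.nd (nat_lit 234) (nat_lit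 988) (nat_lit 0) (XT.nd (nat_lit 78) (nat_lit 0) (nat_lit 0) (XT.lf (nat_lit 0) (nat_lit 1519630929) (nat_lit 456) (nat_lit 8633106657) (nat_lit 532) (nat_lit 15483819541) (nat_lit 150) (nat_lit 5) (nat_lit 156) (nat_lit 5) (nat_lit 157) (nat_lit 5) (nat_lit 501) (nat_lit 433) (nat_lit 206)) (XT.nd (nat_lit 78) (nat_lit 0) (nat_lit 0) (XT.lf (nat_lit 0) (nat_lit 13774393881) (nat_lit 456) (nat_lit 211954799) (nat_lit 532) (nat_lit 11983516244) (nat_lit 150) (nat_lit 5) (nat_lit 156) (nat_lit 5) (nat_lit 157) (nat_lit 5) (nat_lit 502) (nat_lit 433) (nat_lit 205)) (XT.lf (nat_lit 0) (nat_lit 17947186054) (nat_lit 532) (nat_lit 95062505) (nat_lit 76) (nat_lit 8266582097) (nat_lit 150) (nat_lit 5) (nat_lit 157) (nat_lit 5) (nat_lit 151) (nat_lit 5) (nat_lit 503) (nat_lit 433) (nat_lit 204)))) (XT.nd (nat_lit 156) (nat_lit 532) (nat_lit 0) (XT.nd (nat_lit 78) (nat_lit 0) (nat_lit 0) (XT.lf (nat_lit 0) (nat_lit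 12403643552) (nat_lit 456) (nat_lit 9661769242) (nat_lit 532) (nat_lit 4587602261) (nat_lit 144) (nat_lit 5) (nat_lit 150) (nat_lit 5) (nat_lit 151) (nat_lit 5) (nat_lit 504) (nat_lit 433) (nat_lit 203)) (XT.lf (nat_lit 0) (nat_lit 25148662119) (nat_lit 456) (nat_lit 1114257794) (nat_lit 532) (nat_lit 741227661) (nat_lit 144) (nat_lit 5) (nat_lit 150) (nat_lit 5) (nat_lit 151) (nat_lit 5) (nat_lit 505) (nat_lit 433) (nat_lit 202))) (XT.nd (nat_lit 78) (nat_lit 0) (nat_lit 0) (XT.lf (nat_lit 0) (nat_lit 3257428415) (nat_lit 532) (nat_lit 16506801276) (nat_lit 76) (nat_lit 7595320740) (nat_lit 137) (nat_lit 5) (nat_lit 144) (nat_lit 5) (nat_lit 138) (nat_lit 5) (nat_lit 506) (nat_lit 433) (nat_lit 201)) (XT.lf (nat_lit 0) (nat_lit 7342411277) (nat_lit 532) (nat_lit 3898822352) (nat_lit 76) (nat_lit 16480406743) (nat_lit 137) (nat_lit 5) (nat_lit 144) (nat_lit 5) (nat_lit 138) (nat_lit 5) (nat_lit 507) (nat_lit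 433) (nat_lit 200)))))) (XT.nd (nat_lit 53586) (nat_lit 0) (nat_lit 18772) (XT.nd (nat_lit 234) (nat_lit 836) (nat_lit 0) (XT.nd (nat_lit 78) (nat_lit 380) (nat_lit 0) (XT.lf (nat_lit 0) (nat_lit 9075500179) (nat_lit 456) (nat_lit 2488945716) (nat_lit 532) (nat_lit 16525421716) (nat_lit 131) (nat_lit 5) (nat_lit 137) (nat_lit 5) (nat_lit 138) (nat_lit 5) (nat_lit 508) (nat_lit 433) (nat_lit 199)) (XT.nd (nat_lit 78) (nat_lit 380) (nat_lit 0) (XT.lf (nat_lit 0) (nat_lit 15935518349) (nat_lit 532) (nat_lit 6149628741) (nat_lit 76) (nat_lit 6379022850) (nat_lit 131) (nat_lit 5) (nat_lit 138) (nat_lit 5) (nat_lit 132) (nat_lit 5) (nat_lit 509) (nat_lit 433) (nat_lit 198)) (XT.lf (nat_lit 0) (nat_lit 7043518468) (nat_lit 380) (nat_lit 13409235945) (nat_lit 456) (nat_lit 8392031500) (nat_lit 126) (nat_lit 5) (nat_lit 131) (nat_lit 5) (nat_lit 132) (nat_lit 5) (nat_lit 510) (nat_lit 433) (nat_lit 197)))) (XT.nd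 (nat_lit 156) (nat_lit 380) (nat_lit 0) (XT.nd (nat_lit 78) (nat_lit 456) (nat_lit 0) (XT.lf (nat_lit 0) (nat_lit 20579139724) (nat_lit 380) (nat_lit 4519027853) (nat_lit 456) (nat_lit 4134092375) (nat_lit 126) (nat_lit 5) (nat_lit 131) (nat_lit 5) (nat_lit 132) (nat_lit 5) (nat_lit 511) (nat_lit 433) (nat_lit 196)) (XT.lf (nat_lit 0) (nat_lit 263877488) (nat_lit 456) (nat_lit 24841563180) (nat_lit 76) (nat_lit 4520865701) (nat_lit 120) (nat_lit 5) (nat_lit 126) (nat_lit 5) (nat_lit 121) (nat_lit 5) (nat_lit 512) (nat_lit 433) (nat_lit 195))) (XT.nd (nat_lit 78) (nat_lit 380) (nat_lit 0) (XT.lf (nat_lit 0) (nat_lit 4779517374) (nat_lit 456) (nat_lit 11480836047) (nat_lit 76) (nat_lit 13765634699) (nat_lit 120) (nat_lit 5) (nat_lit 126) (nat_lit 5) (nat_lit 121) (nat_lit 5) (nat_lit 513) (nat_lit 433) (nat_lit 194)) (XT.lf (nat_lit 0) (nat_lit 2170937780) (nat_lit 380) (nat_lit 7225328916) (nat_lit 456)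 (nat_lit 21037183090) (nat_lit 115) (nat_lit 5) (nat_lit 120) (nat_lit 5) (nat_lit 121) (nat_lit 5) (nat_lit 514) (nat_lit 433) (nat_lit 193))))) (XT.nd (nat_lit 234) (nat_lit 0) (nat_lit 76) (XT.nd (nat_lit 78) (nat_lit 0) (nat_lit 0) (XT.lf (nat_lit 0) (nat_lit 300712761) (nat_lit 0) (nat_lit 300712761) (nat_lit 1596) (nat_lit 5520513772) (nat_lit 362) (nat_lit 5) (nat_lit 362) (nat_lit 3) (nat_lit 383) (nat_lit 3) (nat_lit 434) (nat_lit 434) (nat_lit 272)) (XT.nd (nat_lit 78) (nat_lit 0) (nat_lit 0) (XT.lf (nat_lit 0) (nat_lit 1674556053) (nat_lit 1596) (nat_lit 6254291866) (nat_lit 1672) (nat_lit 4427822238) (nat_lit 362) (nat_lit 5) (nat_lit 383) (nat_lit 3) (nat_lit 384) (nat_lit 5) (nat_lit 435) (nat_lit 434) (nat_lit 271)) (XT.lf (nat_lit 0) (nat_lit 2148421395) (nat_lit 1596) (nat_lit 768271511) (nat_lit 1672) (nat_lit 9555182026) (nat_lit 362) (nat_lit 5) (nat_lit 383) (nat_lit 3) (nat_lit 384)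 (nat_lit 5) (nat_lit 436) (nat_lit 434) (nat_lit 270)))) (XT.nd (nat_lit 156) (nat_lit 0) (nat_lit 0) (XT.nd (nat_lit 78) (nat_lit 0) (nat_lit 0) (XT.lf (nat_lit 0) (nat_lit 2666949536) (nat_lit 1596) (nat_lit 7717740163) (nat_lit 1672) (nat_lit 2204002061) (nat_lit 363) (nat_lit 5) (nat_lit 384) (nat_lit 5) (nat_lit 385) (nat_lit 5) (nat_lit 437) (nat_lit 434) (nat_lit 269)) (XT.lf (nat_lit 0) (nat_lit 3209529738) (nat_lit 1596) (nat_lit 2099746969) (nat_lit 1672) (nat_lit 7398306026) (nat_lit 363) (nat_lit 5) (nat_lit 384) (nat_lit 5) (nat_lit 385) (nat_lit 5) (nat_lit 438) (nat_lit 434) (nat_lit 268))) (XT.nd (nat_lit 78) (nat_lit 0) (nat_lit 76) (XT.lf (nat_lit 76) (nat_lit 3672866136) (nat_lit 0) (nat_lit 103330327) (nat_lit 1672) (nat_lit 9052401577) (nat_lit 364) (nat_lit 5) (nat_lit 363) (nat_lit 5) (nat_lit 385) (nat_lit 5) (nat_lit 439) (nat_lit 434) (nat_lit 267)) (XT.lf (nat_lit 0) (nat_lit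 4391773688) (nat_lit 1596) (nat_lit 3402377483) (nat_lit 1672) (nat_lit 5157141934) (nat_lit 364) (nat_lit 5) (nat_lit 385) (nat_lit 5) (nat_lit 386) (nat_lit 5) (nat_lit 440) (nat_lit 434) (nat_lit 266))))))) (XT.nd (nat_lit 1014) (nat_lit 4180) (nat_lit 0) (XT.nd (nat_lit 468) (nat_lit 1292) (nat_lit 0) (XT.nd (nat_lit 234) (nat_lit 0) (nat_lit 152) (XT.nd (nat_lit 78) (nat_lit 0) (nat_lit 76) (XT.lf (nat_lit 76) (nat_lit 2492042448) (nat_lit 0) (nat_lit 2534276332) (nat_lit 1672) (nat_lit 8050000943) (nat_lit 365) (nat_lit 5) (nat_lit 364) (nat_lit 5) (nat_lit 386) (nat_lit 5) (nat_lit 441) (nat_lit 434) (nat_lit 265)) (XT.nd (nat_lit 78) (nat_lit 0) (nat_lit 0) (XT.lf (nat_lit 0) (nat_lit 5704897126) (nat_lit 1596) (nat_lit 4677649345) (nat_lit 1672) (nat_lit 2820684123) (nat_lit 365) (nat_lit 5) (nat_lit 386) (nat_lit 5) (nat_lit 387) (nat_lit 5) (nat_lit 442) (nat_lit 434) (nat_lit 264)) (XT.lf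 (nat_lit 76) (nat_lit 1341848602) (nat_lit 0) (nat_lit 5070870364) (nat_lit 1672) (nat_lit 6919657638) (nat_lit 366) (nat_lit 5) (nat_lit 365) (nat_lit 5) (nat_lit 387) (nat_lit 5) (nat_lit 443) (nat_lit 434) (nat_lit 263)))) (XT.nd (nat_lit 78) (nat_lit 0) (nat_lit 0) (XT.lf (nat_lit 0) (nat_lit 7158901289) (nat_lit 1596) (nat_lit 5927060552) (nat_lit 1672) (nat_lit 377669769) (nat_lit 366) (nat_lit 5) (nat_lit 387) (nat_lit 5) (nat_lit 388) (nat_lit 5) (nat_lit 444) (nat_lit 434) (nat_lit 262)) (XT.nd (nat_lit 78) (nat_lit 0) (nat_lit 0) (XT.lf (nat_lit 76) (nat_lit 220848639) (nat_lit 0) (nat_lit 7724717053) (nat_lit 1672) (nat_lit 5651444812) (nat_lit 367) (nat_lit 5) (nat_lit 366) (nat_lit 5) (nat_lit 388) (nat_lit 5) (nat_lit 445) (nat_lit 434) (nat_lit 261)) (XT.lf (nat_lit 76) (nat_lit 6565957136) (nat_lit 0) (nat_lit 2212468383) (nat_lit 1672) (nat_lit 4954031978) (nat_lit 367) (nat_lit 5) (nat_lit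 366) (nat_lit 5) (nat_lit 388) (nat_lit 5) (nat_lit 446) (nat_lit 434) (nat_lit 260))))) (XT.nd (nat_lit 234) (nat_lit 1520) (nat_lit 0) (XT.nd (nat_lit 78) (nat_lit 0) (nat_lit 0) (XT.lf (nat_lit 0) (nat_lit 9640974140) (nat_lit 1596) (nat_lit 860980459) (nat_lit 1672) (nat_lit 3368407770) (nat_lit 367) (nat_lit 5) (nat_lit 388) (nat_lit 5) (nat_lit 389) (nat_lit 5) (nat_lit 447) (nat_lit 434) (nat_lit 259)) (XT.nd (nat_lit 78) (nat_lit 0) (nat_lit 76) (XT.lf (nat_lit 76) (nat_lit 5623680087) (nat_lit 0) (nat_lit 4939328463) (nat_lit 1672) (nat_lit 3447181474) (nat_lit 368) (nat_lit 5) (nat_lit 367) (nat_lit 5) (nat_lit 389) (nat_lit 5) (nat_lit 448) (nat_lit 434) (nat_lit 258)) (XT.lf (nat_lit 0) (nat_lit 11505292631) (nat_lit 1596) (nat_lit 1914037740) (nat_lit 1672) (nat_lit 733456883) (nat_lit 368) (nat_lit 5) (nat_lit 389) (nat_lit 5) (nat_lit 390) (nat_lit 5) (nat_lit 449) (nat_lit 434) (nat_lit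 257)))) (XT.nd (nat_lit 156) (nat_lit 1596) (nat_lit 0) (XT.nd (nat_lit 78) (nat_lit 0) (nat_lit 0) (XT.lf (nat_lit 76) (nat_lit 4710842676) (nat_lit 0) (nat_lit 7810272396) (nat_lit 1672) (nat_lit 1776036520) (nat_lit 369) (nat_lit 5) (nat_lit 368) (nat_lit 5) (nat_lit 390) (nat_lit 5) (nat_lit 450) (nat_lit 434) (nat_lit 256)) (XT.lf (nat_lit 76) (nat_lit 11488092220) (nat_lit 0) (nat_lit 2073531194) (nat_lit 1672) (nat_lit 882701257) (nat_lit 369) (nat_lit 5) (nat_lit 368) (nat_lit 5) (nat_lit 390) (nat_lit 5) (nat_lit 451) (nat_lit 434) (nat_lit 255))) (XT.nd (nat_lit 78) (nat_lit 0) (nat_lit 0) (XT.lf (nat_lit 0) (nat_lit 69466624) (nat_lit 1672) (nat_lit 10768135533) (nat_lit 1748) (nat_lit 3756017058) (nat_lit 347) (nat_lit 5) (nat_lit 369) (nat_lit 5) (nat_lit 370) (nat_lit 5) (nat_lit 452) (nat_lit 434) (nat_lit 254)) (XT.lf (nat_lit 0) (nat_lit 1054337980) (nat_lit 1672) (nat_lit 3988527430)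 (nat_lit 1748) (nat_lit 9702416289) (nat_lit 347) (nat_lit 5) (nat_lit 369) (nat_lit 5) (nat_lit 370) (nat_lit 5) (nat_lit 453) (nat_lit 434) (nat_lit 253)))))) (XT.nd (nat_lit 546) (nat_lit 2736) (nat_lit 0) (XT.nd (nat_lit 234) (nat_lit 1520) (nat_lit 0) (XT.nd (nat_lit 78) (nat_lit 0) (nat_lit 0) (XT.lf (nat_lit 0) (nat_lit 2075823834) (nat_lit 1672) (nat_lit 11946151306) (nat_lit 1748) (nat_lit 877672121) (nat_lit 348) (nat_lit 5) (nat_lit 370) (nat_lit 5) (nat_lit 371) (nat_lit 5) (nat_lit 454) (nat_lit 434) (nat_lit 252)) (XT.nd (nat_lit 78) (nat_lit 0) (nat_lit 0) (XT.lf (nat_lit 0) (nat_lit 3170138058) (nat_lit 1672) (nat_lit 5007952517) (nat_lit 1748) (nat_lit 6877969595) (nat_lit 348) (nat_lit 5) (nat_lit 370) (nat_lit 5) (nat_lit 371) (nat_lit 5) (nat_lit 455) (nat_lit 434) (nat_lit 251)) (XT.lf (nat_lit 76) (nat_lit 2090308029) (nat_lit 0) (nat_lit 2201817715) (nat_lit 1748) (nat_lit 10923367700)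 (nat_lit 349) (nat_lit 5) (nat_lit 348) (nat_lit 5) (nat_lit 371) (nat_lit 5) (nat_lit 456) (nat_lit 434) (nat_lit 250)))) (XT.nd (nat_lit 156) (nat_lit 1596) (nat_lit 0) (XT.nd (nat_lit 78) (nat_lit 0) (nat_lit 0) (XT.lf (nat_lit 0) (nat_lit 5488003090) (nat_lit 1672) (nat_lit 6010778442) (nat_lit 1748) (nat_lit 3878312552) (nat_lit 349) (nat_lit 5) (nat_lit 371) (nat_lit 5) (nat_lit 372) (nat_lit 5) (nat_lit 457) (nat_lit 434) (nat_lit 249)) (XT.lf (nat_lit 76) (nat_lit 1241491782) (nat_lit 0) (nat_lit 5481437626) (nat_lit 1748) (nat_lit 8818702247) (nat_lit 350) (nat_lit 5) (nat_lit 349) (nat_lit 5) (nat_lit 372) (nat_lit 5) (nat_lit 458) (nat_lit 434) (nat_lit 248))) (XT.nd (nat_lit 78) (nat_lit 1672) (nat_lit 0) (XT.lf (nat_lit 0) (nat_lit 8020023268) (nat_lit 1672) (nat_lit 6999145541) (nat_lit 76) (nat_lit 689549186) (nat_lit 350) (nat_lit 5) (nat_lit 372) (nat_lit 5) (nat_lit 351) (nat_lit 5)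 (nat_lit 459) (nat_lit 434) (nat_lit 247)) (XT.lf (nat_lit 0) (nat_lit 410828984) (nat_lit 1672) (nat_lit 8963948871) (nat_lit 1748) (nat_lit 6503741083) (nat_lit 328) (nat_lit 5) (nat_lit 350) (nat_lit 5) (nat_lit 351) (nat_lit 5) (nat_lit 460) (nat_lit 434) (nat_lit 246))))) (XT.nd (nat_lit 234) (nat_lit 1748) (nat_lit 0) (XT.nd (nat_lit 78) (nat_lit 988) (nat_lit 0) (XT.lf (nat_lit 0) (nat_lit 8057791692) (nat_lit 1672) (nat_lit 2738656985) (nat_lit 1748) (nat_lit 5254477912) (nat_lit 328) (nat_lit 5) (nat_lit 350) (nat_lit 5) (nat_lit 351) (nat_lit 5) (nat_lit 461) (nat_lit 434) (nat_lit 245)) (XT.nd (nat_lit 78) (nat_lit 988) (nat_lit 0) (XT.lf (nat_lit 0) (nat_lit 12262998912) (nat_lit 1748) (nat_lit 398655740) (nat_lit 76) (nat_lit 3564805794) (nat_lit 328) (nat_lit 5) (nat_lit 351) (nat_lit 5) (nat_lit 329) (nat_lit 5) (nat_lit 462) (nat_lit 434) (nat_lit 244)) (XT.lf (nat_lit 0) (nat_lit 7420901600)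 (nat_lit 988) (nat_lit 6397434095) (nat_lit 1064) (nat_lit 2585987009) (nat_lit 315) (nat_lit 5) (nat_lit 328) (nat_lit 5) (nat_lit 329) (nat_lit 5) (nat_lit 463) (nat_lit 434) (nat_lit 243)))) (XT.nd (nat_lit 156) (nat_lit 836) (nat_lit 0) (XT.nd (nat_lit 78) (nat_lit 912) (nat_lit 0) (XT.lf (nat_lit 0) (nat_lit 15396292394) (nat_lit 988) (nat_lit 4395193) (nat_lit 1064) (nat_lit 1185143153) (nat_lit 315) (nat_lit 5) (nat_lit 328) (nat_lit 5) (nat_lit 329) (nat_lit 5) (nat_lit 464) (nat_lit 434) (nat_lit 242)) (XT.lf (nat_lit 0) (nat_lit 320881276) (nat_lit 912) (nat_lit 9970368347) (nat_lit 76) (nat_lit 6478086907) (nat_lit 303) (nat_lit 5) (nat_lit 315) (nat_lit 5) (nat_lit 304) (nat_lit 5) (nat_lit 465) (nat_lit 434) (nat_lit 241))) (XT.nd (nat_lit 78) (nat_lit 836) (nat_lit 0) (XT.lf (nat_lit 0) (nat_lit 1842649053) (nat_lit 912) (nat_lit 2006957554) (nat_lit 76) (nat_lit 13106725629) (nat_lit 303)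 (nat_lit 5) (nat_lit 315) (nat_lit 5) (nat_lit 304) (nat_lit 5) (nat_lit 466) (nat_lit 434) (nat_lit 240)) (XT.lf (nat_lit 0) (nat_lit 3446525416) (nat_lit 912) (nat_lit 10973342219) (nat_lit 76) (nat_lit 2726172945) (nat_lit 292) (nat_lit 5) (nat_lit 304) (nat_lit 5) (nat_lit 293) (nat_lit 5) (nat_lit 467) (nat_lit 434) (nat_lit 239))))))))
noncomputable def xc217 : XT := (XT.nd (nat_lit 2106) (nat_lit 4332) (nat_lit 0) (XT.nd (nat_lit 1014) (nat_lit 4332) (nat_lit 0) (XT.nd (nat_lit 468) (nat_lit 2204) (nat_lit 0) (XT.nd (nat_lit 234) (nat_lit 1444) (nat_lit 0) (XT.nd (nat_lit 78) (nat_lit 760) (nat_lit 0) (XT.lf (nat_lit 0) (nat_lit 5115163731) (nat_lit 912) (nat_lit 2827727418) (nat_lit 76) (nat_lit 9396004325) (nat_lit 292) (nat_lit 5) (nat_lit 304) (nat_lit 5) (nat_lit 293) (nat_lit 5) (nat_lit 468) (nat_lit 434) (nat_lit 238)) (XT.nd (nat_lit 78) (nat_lit 0) (nat_lit 0) (XT.lf (nat_lit 0) (nat_lit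 5547653604) (nat_lit 760) (nat_lit 1299298500) (nat_lit 836) (nat_lit 10688065767) (nat_lit 282) (nat_lit 5) (nat_lit 292) (nat_lit 5) (nat_lit 293) (nat_lit 5) (nat_lit 469) (nat_lit 434) (nat_lit 237)) (XT.lf (nat_lit 0) (nat_lit 8661883284) (nat_lit 836) (nat_lit 3647494010) (nat_lit 76) (nat_lit 5424721113) (nat_lit 282) (nat_lit 5) (nat_lit 293) (nat_lit 5) (nat_lit 283) (nat_lit 5) (nat_lit 470) (nat_lit 434) (nat_lit 236)))) (XT.nd (nat_lit 78) (nat_lit 684) (nat_lit 0) (XT.lf (nat_lit 0) (nat_lit 4909073406) (nat_lit 760) (nat_lit 5638482407) (nat_lit 836) (nat_lit 7388921606) (nat_lit 272) (nat_lit 5) (nat_lit 282) (nat_lit 5) (nat_lit 283) (nat_lit 5) (nat_lit 471) (nat_lit 434) (nat_lit 235)) (XT.nd (nat_lit 78) (nat_lit 684) (nat_lit 0) (XT.lf (nat_lit 0) (nat_lit 12497196131) (nat_lit 836) (nat_lit 4469896770) (nat_lit 76) (nat_lit 1175291633) (nat_lit 272) (nat_lit 5) (nat_lit 283) (nat_lit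 5) (nat_lit 273) (nat_lit 5) (nat_lit 472) (nat_lit 434) (nat_lit 234)) (XT.lf (nat_lit 0) (nat_lit 4271593609) (nat_lit 684) (nat_lit 10273473637) (nat_lit 760) (nat_lit 3806163281) (nat_lit 263) (nat_lit 5) (nat_lit 272) (nat_lit 5) (nat_lit 273) (nat_lit 5) (nat_lit 473) (nat_lit 434) (nat_lit 233))))) (XT.nd (nat_lit 234) (nat_lit 1368) (nat_lit 0) (XT.nd (nat_lit 78) (nat_lit 836) (nat_lit 0) (XT.lf (nat_lit 0) (nat_lit 13242694117) (nat_lit 684) (nat_lit 3415436783) (nat_lit 760) (nat_lit 1905643227) (nat_lit 263) (nat_lit 5) (nat_lit 272) (nat_lit 5) (nat_lit 273) (nat_lit 5) (nat_lit 474) (nat_lit 434) (nat_lit 232)) (XT.nd (nat_lit 78) (nat_lit 0) (nat_lit 0) (XT.lf (nat_lit 0) (nat_lit 73894171) (nat_lit 836) (nat_lit 15149021005) (nat_lit 76) (nat_lit 3556825569) (nat_lit 252) (nat_lit 5) (nat_lit 263) (nat_lit 5) (nat_lit 253) (nat_lit 5) (nat_lit 475) (nat_lit 434) (nat_lit 231)) (XT.lf (nat_lit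 0) (nat_lit 2120475703) (nat_lit 836) (nat_lit 6206959590) (nat_lit 76) (nat_lit 10671285155) (nat_lit 252) (nat_lit 5) (nat_lit 263) (nat_lit 5) (nat_lit 253) (nat_lit 5) (nat_lit 476) (nat_lit 434) (nat_lit 230)))) (XT.nd (nat_lit 156) (nat_lit 684) (nat_lit 0) (XT.nd (nat_lit 78) (nat_lit 0) (nat_lit 0) (XT.lf (nat_lit 0) (nat_lit 2946850591) (nat_lit 684) (nat_lit 1274764900) (nat_lit 760) (nat_lit 15000196701) (nat_lit 243) (nat_lit 5) (nat_lit 252) (nat_lit 5) (nat_lit 253) (nat_lit 5) (nat_lit 477) (nat_lit 434) (nat_lit 229)) (XT.lf (nat_lit 0) (nat_lit 6439698604) (nat_lit 760) (nat_lit 7125179449) (nat_lit 76) (nat_lit 5882994188) (nat_lit 243) (nat_lit 5) (nat_lit 253) (nat_lit 5) (nat_lit 244) (nat_lit 5) (nat_lit 478) (nat_lit 434) (nat_lit 228))) (XT.nd (nat_lit 78) (nat_lit 0) (nat_lit 0) (XT.lf (nat_lit 0) (nat_lit 2222605062) (nat_lit 684) (nat_lit 6497080619) (nat_lit 760) (nat_lit 10958421750)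 (nat_lit 234) (nat_lit 5) (nat_lit 243) (nat_lit 5) (nat_lit 244) (nat_lit 5) (nat_lit 479) (nat_lit 434) (nat_lit 227)) (XT.lf (nat_lit 0) (nat_lit 11092760771) (nat_lit 760) (nat_lit 8068772836) (nat_lit 76) (nat_lit 750468644) (nat_lit 234) (nat_lit 5) (nat_lit 244) (nat_lit 5) (nat_lit 235) (nat_lit 5) (nat_lit 480) (nat_lit 434) (nat_lit 226)))))) (XT.nd (nat_lit 546) (nat_lit 2356) (nat_lit 0) (XT.nd (nat_lit 234) (nat_lit 684) (nat_lit 0) (XT.nd (nat_lit 78) (nat_lit 684) (nat_lit 0) (XT.lf (nat_lit 0) (nat_lit 1476369433) (nat_lit 608) (nat_lit 12084378436) (nat_lit 684) (nat_lit 6588882691) (nat_lit 226) (nat_lit 5) (nat_lit 234) (nat_lit 5) (nat_lit 235) (nat_lit 5) (nat_lit 481) (nat_lit 434) (nat_lit 225)) (XT.nd (nat_lit 78) (nat_lit 684) (nat_lit 0) (XT.lf (nat_lit 0) (nat_lit 11316168427) (nat_lit 608) (nat_lit 4810974631) (nat_lit 684) (nat_lit 4263891917) (nat_lit 226) (nat_lit 5) (nat_lit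 234) (nat_lit 5) (nat_lit 235) (nat_lit 5) (nat_lit 482) (nat_lit 434) (nat_lit 224)) (XT.lf (nat_lit 0) (nat_lit 702161402) (nat_lit 684) (nat_lit 18059195103) (nat_lit 760) (nat_lit 1875585588) (nat_lit 217) (nat_lit 5) (nat_lit 226) (nat_lit 5) (nat_lit 227) (nat_lit 5) (nat_lit 483) (nat_lit 434) (nat_lit 223)))) (XT.nd (nat_lit 156) (nat_lit 608) (nat_lit 0) (XT.nd (nat_lit 78) (nat_lit 0) (nat_lit 0) (XT.lf (nat_lit 0) (nat_lit 641321294) (nat_lit 760) (nat_lit 10130355155) (nat_lit 76) (nat_lit 10114258668) (nat_lit 216) (nat_lit 5) (nat_lit 226) (nat_lit 5) (nat_lit 217) (nat_lit 5) (nat_lit 484) (nat_lit 434) (nat_lit 222)) (XT.lf (nat_lit 0) (nat_lit 3178597397) (nat_lit 760) (nat_lit 147796276) (nat_lit 76) (nat_lit 17813367637) (nat_lit 216) (nat_lit 5) (nat_lit 226) (nat_lit 5) (nat_lit 217) (nat_lit 5) (nat_lit 485) (nat_lit 434) (nat_lit 221))) (XT.nd (nat_lit 78) (nat_lit 0) (nat_lit 0)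 (XT.lf (nat_lit 0) (nat_lit 5855958695) (nat_lit 684) (nat_lit 11263318105) (nat_lit 76) (nat_lit 4277604519) (nat_lit 208) (nat_lit 5) (nat_lit 217) (nat_lit 5) (nat_lit 209) (nat_lit 5) (nat_lit 486) (nat_lit 434) (nat_lit 220)) (XT.lf (nat_lit 0) (nat_lit 8605166485) (nat_lit 684) (nat_lit 1064090270) (nat_lit 76) (nat_lit 11989524993) (nat_lit 208) (nat_lit 5) (nat_lit 217) (nat_lit 5) (nat_lit 209) (nat_lit 5) (nat_lit 487) (nat_lit 434) (nat_lit 219))))) (XT.nd (nat_lit 234) (nat_lit 1216) (nat_lit 0) (XT.nd (nat_lit 78) (nat_lit 532) (nat_lit 0) (XT.lf (nat_lit 0) (nat_lit 9457786193) (nat_lit 608) (nat_lit 2008342977) (nat_lit 684) (nat_lit 10458659525) (nat_lit 200) (nat_lit 5) (nat_lit 208) (nat_lit 5) (nat_lit 209) (nat_lit 5) (nat_lit 488) (nat_lit 434) (nat_lit 218)) (XT.nd (nat_lit 78) (nat_lit 532) (nat_lit 0) (XT.lf (nat_lit 0) (nat_lit 14424609826) (nat_lit 684) (nat_lit 2034622695) (nat_lit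 76) (nat_lit 5736081137) (nat_lit 200) (nat_lit 5) (nat_lit 209) (nat_lit 5) (nat_lit 201) (nat_lit 5) (nat_lit 489) (nat_lit 434) (nat_lit 217)) (XT.lf (nat_lit 0) (nat_lit 8701906382) (nat_lit 532) (nat_lit 8805658217) (nat_lit 608) (nat_lit 4962382203) (nat_lit 193) (nat_lit 5) (nat_lit 200) (nat_lit 5) (nat_lit 201) (nat_lit 5) (nat_lit 490) (nat_lit 434) (nat_lit 216)))) (XT.nd (nat_lit 156) (nat_lit 532) (nat_lit 0) (XT.nd (nat_lit 78) (nat_lit 684) (nat_lit 0) (XT.lf (nat_lit 0) (nat_lit 19675455813) (nat_lit 532) (nat_lit 985935496) (nat_lit 608) (nat_lit 2088500744) (nat_lit 193) (nat_lit 5) (nat_lit 200) (nat_lit 5) (nat_lit 201) (nat_lit 5) (nat_lit 491) (nat_lit 434) (nat_lit 215)) (XT.lf (nat_lit 0) (nat_lit 924637193) (nat_lit 684) (nat_lit 15153871187) (nat_lit 76) (nat_lit 6954965274) (nat_lit 184) (nat_lit 5) (nat_lit 193) (nat_lit 5) (nat_lit 185) (nat_lit 5) (nat_lit 492) (nat_lit 434)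 (nat_lit 214))) (XT.nd (nat_lit 78) (nat_lit 532) (nat_lit 0) (XT.lf (nat_lit 0) (nat_lit 3993056638) (nat_lit 684) (nat_lit 4253712769) (nat_lit 76) (nat_lit 15075225191) (nat_lit 184) (nat_lit 5) (nat_lit 193) (nat_lit 5) (nat_lit 185) (nat_lit 5) (nat_lit 493) (nat_lit 434) (nat_lit 213)) (XT.lf (nat_lit 0) (nat_lit 6950410473) (nat_lit 532) (nat_lit 213306305) (nat_lit 608) (nat_lit 16451755155) (nat_lit 177) (nat_lit 5) (nat_lit 184) (nat_lit 5) (nat_lit 185) (nat_lit 5) (nat_lit 494) (nat_lit 434) (nat_lit 212))))))) (XT.nd (nat_lit 1092) (nat_lit 1292) (nat_lit 0) (XT.nd (nat_lit 546) (nat_lit 1444) (nat_lit 0) (XT.nd (nat_lit 234) (nat_lit 1064) (nat_lit 0) (XT.nd (nat_lit 78) (nat_lit 532) (nat_lit 0) (XT.lf (nat_lit 0) (nat_lit 10474129971) (nat_lit 608) (nat_lit 5535218689) (nat_lit 76) (nat_lit 7903946709) (nat_lit 177) (nat_lit 5) (nat_lit 185) (nat_lit 5) (nat_lit 178) (nat_lit 5) (nat_lit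 495) (nat_lit 434) (nat_lit 211)) (XT.nd (nat_lit 78) (nat_lit 0) (nat_lit 0) (XT.lf (nat_lit 0) (nat_lit 5887890537) (nat_lit 532) (nat_lit 7998373510) (nat_lit 608) (nat_lit 10330104259) (nat_lit 170) (nat_lit 5) (nat_lit 177) (nat_lit 5) (nat_lit 178) (nat_lit 5) (nat_lit 496) (nat_lit 434) (nat_lit 210)) (XT.lf (nat_lit 0) (nat_lit 17401066148) (nat_lit 608) (nat_lit 6916817468) (nat_lit 76) (nat_lit 206933799) (nat_lit 170) (nat_lit 5) (nat_lit 178) (nat_lit 5) (nat_lit 171) (nat_lit 5) (nat_lit 497) (nat_lit 434) (nat_lit 209)))) (XT.nd (nat_lit 156) (nat_lit 608) (nat_lit 0) (XT.nd (nat_lit 78) (nat_lit 0) (nat_lit 0) (XT.lf (nat_lit 0) (nat_lit 4727021146) (nat_lit 456) (nat_lit 16338796652) (nat_lit 532) (nat_lit 3772027796) (nat_lit 164) (nat_lit 5) (nat_lit 170) (nat_lit 5) (nat_lit 171) (nat_lit 5) (nat_lit 498) (nat_lit 434) (nat_lit 208)) (XT.lf (nat_lit 0) (nat_lit 16692447980) (nat_lit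 456) (nat_lit 8153870968) (nat_lit 532) (nat_lit 309969394) (nat_lit 164) (nat_lit 5) (nat_lit 170) (nat_lit 5) (nat_lit 171) (nat_lit 5) (nat_lit 499) (nat_lit 434) (nat_lit 207))) (XT.nd (nat_lit 78) (nat_lit 0) (nat_lit 0) (XT.lf (nat_lit 0) (nat_lit 3199017095) (nat_lit 608) (nat_lit 22046642313) (nat_lit 76) (nat_lit 234626510) (nat_lit 156) (nat_lit 5) (nat_lit 164) (nat_lit 5) (nat_lit 157) (nat_lit 5) (nat_lit 500) (nat_lit 434) (nat_lit 206)) (XT.lf (nat_lit 0) (nat_lit 6881334017) (nat_lit 608) (nat_lit 10187292739) (nat_lit 76) (nat_lit 8739952603) (nat_lit 156) (nat_lit 5) (nat_lit 164) (nat_lit 5) (nat_lit 157) (nat_lit 5) (nat_lit 501) (nat_lit 434) (nat_lit 205))))) (XT.nd (nat_lit 234) (nat_lit 532) (nat_lit 0) (XT.nd (nat_lit 78) (nat_lit 456) (nat_lit 0) (XT.lf (nat_lit 0) (nat_lit 1929605848) (nat_lit 456) (nat_lit 8716420891) (nat_lit 532) (nat_lit 15497240200) (nat_lit 150) (nat_lit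 5) (nat_lit 156) (nat_lit 5) (nat_lit 157) (nat_lit 5) (nat_lit 502) (nat_lit 434) (nat_lit 204)) (XT.nd (nat_lit 78) (nat_lit 456) (nat_lit 0) (XT.lf (nat_lit 0) (nat_lit 14422021268) (nat_lit 456) (nat_lit 128597916) (nat_lit 532) (nat_lit 11932739773) (nat_lit 150) (nat_lit 5) (nat_lit 156) (nat_lit 5) (nat_lit 157) (nat_lit 5) (nat_lit 503) (nat_lit 434) (nat_lit 203)) (XT.lf (nat_lit 0) (nat_lit 276738309) (nat_lit 456) (nat_lit 18310710060) (nat_lit 532) (nat_lit 8241724299) (nat_lit 144) (nat_lit 5) (nat_lit 150) (nat_lit 5) (nat_lit 151) (nat_lit 5) (nat_lit 504) (nat_lit 434) (nat_lit 202)))) (XT.nd (nat_lit 156) (nat_lit 532) (nat_lit 0) (XT.nd (nat_lit 78) (nat_lit 0) (nat_lit 0) (XT.lf (nat_lit 0) (nat_lit 13019354327) (nat_lit 456) (nat_lit 9763794676) (nat_lit 532) (nat_lit 4397193645) (nat_lit 144) (nat_lit 5) (nat_lit 150) (nat_lit 5) (nat_lit 151) (nat_lit 5) (nat_lit 505) (nat_lit 434)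 (nat_lit 201)) (XT.lf (nat_lit 0) (nat_lit 26012064679) (nat_lit 456) (nat_lit 1047121429) (nat_lit 532) (nat_lit 479424115) (nat_lit 144) (nat_lit 5) (nat_lit 150) (nat_lit 5) (nat_lit 151) (nat_lit 5) (nat_lit 506) (nat_lit 434) (nat_lit 200))) (XT.nd (nat_lit 78) (nat_lit 0) (nat_lit 0) (XT.lf (nat_lit 0) (nat_lit 3593169949) (nat_lit 532) (nat_lit 16470084256) (nat_lit 76) (nat_lit 7837883002) (nat_lit 137) (nat_lit 5) (nat_lit 144) (nat_lit 5) (nat_lit 138) (nat_lit 5) (nat_lit 507) (nat_lit 434) (nat_lit 199)) (XT.lf (nat_lit 0) (nat_lit 7754546724) (nat_lit 532) (nat_lit 3617138951) (nat_lit 76) (nat_lit 16898893159) (nat_lit 137) (nat_lit 5) (nat_lit 144) (nat_lit 5) (nat_lit 138) (nat_lit 5) (nat_lit 508) (nat_lit 434) (nat_lit 198)))))) (XT.nd (nat_lit 53664) (nat_lit 0) (nat_lit 18392) (XT.nd (nat_lit 234) (nat_lit 456) (nat_lit 0) (XT.nd (nat_lit 78) (nat_lit 380) (nat_lit 0) (XT.lf (nat_lit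 0) (nat_lit 9614303848) (nat_lit 456) (nat_lit 2443836264) (nat_lit 532) (nat_lit 16588091842) (nat_lit 131) (nat_lit 5) (nat_lit 137) (nat_lit 5) (nat_lit 138) (nat_lit 5) (nat_lit 509) (nat_lit 434) (nat_lit 197)) (XT.nd (nat_lit 78) (nat_lit 380) (nat_lit 0) (XT.lf (nat_lit 0) (nat_lit 16512092811) (nat_lit 532) (nat_lit 5917610928) (nat_lit 76) (nat_lit 6598411040) (nat_lit 131) (nat_lit 5) (nat_lit 138) (nat_lit 5) (nat_lit 132) (nat_lit 5) (nat_lit 510) (nat_lit 434) (nat_lit 196)) (XT.lf (nat_lit 0) (nat_lit 7537063631) (nat_lit 380) (nat_lit 13579843606) (nat_lit 456) (nat_lit 8299494718) (nat_lit 126) (nat_lit 5) (nat_lit 131) (nat_lit 5) (nat_lit 132) (nat_lit 5) (nat_lit 511) (nat_lit 434) (nat_lit 195)))) (XT.nd (nat_lit 156) (nat_lit 0) (nat_lit 0) (XT.nd (nat_lit 78) (nat_lit 456) (nat_lit 0) (XT.lf (nat_lit 0) (nat_lit 21336482120) (nat_lit 380) (nat_lit 4513744627) (nat_lit 456) (nat_lit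 3961502249) (nat_lit 126) (nat_lit 5) (nat_lit 131) (nat_lit 5) (nat_lit 132) (nat_lit 5) (nat_lit 512) (nat_lit 434) (nat_lit 194)) (XT.lf (nat_lit 0) (nat_lit 519026828) (nat_lit 456) (nat_lit 24986896365) (nat_lit 76) (nat_lit 4707744396) (nat_lit 120) (nat_lit 5) (nat_lit 126) (nat_lit 5) (nat_lit 121) (nat_lit 5) (nat_lit 513) (nat_lit 434) (nat_lit 193))) (XT.nd (nat_lit 53196) (nat_lit 0) (nat_lit 18392) (XT.lf (nat_lit 0) (nat_lit 5120080065) (nat_lit 456) (nat_lit 11365846808) (nat_lit 76) (nat_lit 14135517374) (nat_lit 120) (nat_lit 5) (nat_lit 126) (nat_lit 5) (nat_lit 121) (nat_lit 5) (nat_lit 514) (nat_lit 434) (nat_lit 192)) (XT.lf (nat_lit 0) (nat_lit 520602365) (nat_lit 0) (nat_lit 520602365) (nat_lit 1596) (nat_lit 5194167594) (nat_lit 362) (nat_lit 5) (nat_lit 362) (nat_lit 3) (nat_lit 383) (nat_lit 3) (nat_lit 435) (nat_lit 435) (nat_lit 270))))) (XT.nd (nat_lit 234) (nat_lit 0) (nat_lit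 76) (XT.nd (nat_lit 78) (nat_lit 0) (nat_lit 0) (XT.lf (nat_lit 0) (nat_lit 2544051246) (nat_lit 1596) (nat_lit 5939633143) (nat_lit 1672) (nat_lit 4102515280) (nat_lit 362) (nat_lit 5) (nat_lit 383) (nat_lit 3) (nat_lit 384) (nat_lit 5) (nat_lit 436) (nat_lit 435) (nat_lit 269)) (XT.nd (nat_lit 78) (nat_lit 0) (nat_lit 76) (XT.lf (nat_lit 0) (nat_lit 3011001659) (nat_lit 1596) (nat_lit 352514823) (nat_lit 1672) (nat_lit 9340537233) (nat_lit 362) (nat_lit 5) (nat_lit 383) (nat_lit 3) (nat_lit 384) (nat_lit 5) (nat_lit 437) (nat_lit 435) (nat_lit 268)) (XT.lf (nat_lit 0) (nat_lit 3524155797) (nat_lit 1596) (nat_lit 7424378795) (nat_lit 1672) (nat_lit 1875004169) (nat_lit 363) (nat_lit 5) (nat_lit 384) (nat_lit 5) (nat_lit 385) (nat_lit 5) (nat_lit 438) (nat_lit 435) (nat_lit 267)))) (XT.nd (nat_lit 156) (nat_lit 0) (nat_lit 76) (XT.nd (nat_lit 78) (nat_lit 0) (nat_lit 0) (XT.lf (nat_lit 0) (nat_lit 4061825500)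 (nat_lit 1596) (nat_lit 1702804485) (nat_lit 1672) (nat_lit 7180509467) (nat_lit 363) (nat_lit 5) (nat_lit 384) (nat_lit 5) (nat_lit 385) (nat_lit 5) (nat_lit 439) (nat_lit 435) (nat_lit 266)) (XT.lf (nat_lit 76) (nat_lit 4182373136) (nat_lit 0) (nat_lit 444830505) (nat_lit 1672) (nat_lit 8441640193) (nat_lit 364) (nat_lit 5) (nat_lit 363) (nat_lit 5) (nat_lit 385) (nat_lit 5) (nat_lit 440) (nat_lit 435) (nat_lit 265))) (XT.nd (nat_lit 78) (nat_lit 0) (nat_lit 0) (XT.lf (nat_lit 0) (nat_lit 5237726241) (nat_lit 1596) (nat_lit 3024758688) (nat_lit 1672) (nat_lit 4931871205) (nat_lit 364) (nat_lit 5) (nat_lit 385) (nat_lit 5) (nat_lit 386) (nat_lit 5) (nat_lit 441) (nat_lit 435) (nat_lit 264)) (XT.lf (nat_lit 76) (nat_lit 2984617627) (nat_lit 0) (nat_lit 2888354092) (nat_lit 1672) (nat_lit 7449167072) (nat_lit 365) (nat_lit 5) (nat_lit 364) (nat_lit 5) (nat_lit 386) (nat_lit 5) (nat_lit 442) (nat_lit 435)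 (nat_lit 263))))))))
noncomputable def xc218 : XT := (XT.nd (nat_lit 2106) (nat_lit 9272) (nat_lit 0) (XT.nd (nat_lit 1014) (nat_lit 4180) (nat_lit 0) (XT.nd (nat_lit 468) (nat_lit 1368) (nat_lit 0) (XT.nd (nat_lit 234) (nat_lit 0) (nat_lit 76) (XT.nd (nat_lit 78) (nat_lit 0) (nat_lit 0) (XT.lf (nat_lit 0) (nat_lit 6548560499) (nat_lit 1596) (nat_lit 4319818527) (nat_lit 1672) (nat_lit 2583555463) (nat_lit 365) (nat_lit 5) (nat_lit 386) (nat_lit 5) (nat_lit 387) (nat_lit 5) (nat_lit 443) (nat_lit 435) (nat_lit 262)) (XT.nd (nat_lit 78) (nat_lit 0) (nat_lit 76) (XT.lf (nat_lit 76) (nat_lit 1817099748) (nat_lit 0) (nat_lit 5442045226) (nat_lit 1672) (nat_lit 6324761408) (nat_lit 366) (nat_lit 5) (nat_lit 365) (nat_lit 5) (nat_lit 387) (nat_lit 5) (nat_lit 444) (nat_lit 435) (nat_lit 261)) (XT.lf (nat_lit 0) (nat_lit 8004452044) (nat_lit 1596) (nat_lit 5589441593) (nat_lit 1672) (nat_lit 124223619) (nat_lit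 366) (nat_lit 5) (nat_lit 387) (nat_lit 5) (nat_lit 388) (nat_lit 5) (nat_lit 445) (nat_lit 435) (nat_lit 260)))) (XT.nd (nat_lit 78) (nat_lit 0) (nat_lit 0) (XT.lf (nat_lit 76) (nat_lit 678424728) (nat_lit 0) (nat_lit 8117595203) (nat_lit 1672) (nat_lit 5058374895) (nat_lit 367) (nat_lit 5) (nat_lit 366) (nat_lit 5) (nat_lit 388) (nat_lit 5) (nat_lit 446) (nat_lit 435) (nat_lit 259)) (XT.nd (nat_lit 78) (nat_lit 0) (nat_lit 76) (XT.lf (nat_lit 76) (nat_lit 7141549922) (nat_lit 0) (nat_lit 2490427368) (nat_lit 1672) (nat_lit 4360858878) (nat_lit 367) (nat_lit 5) (nat_lit 366) (nat_lit 5) (nat_lit 388) (nat_lit 5) (nat_lit 447) (nat_lit 435) (nat_lit 258)) (XT.lf (nat_lit 0) (nat_lit 10496995448) (nat_lit 1596) (nat_lit 427159362) (nat_lit 1672) (nat_lit 3209653893) (nat_lit 367) (nat_lit 5) (nat_lit 388) (nat_lit 5) (nat_lit 389) (nat_lit 5) (nat_lit 448) (nat_lit 435) (nat_lit 257))))) (XT.nd (nat_lit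 234) (nat_lit 1520) (nat_lit 0) (XT.nd (nat_lit 78) (nat_lit 0) (nat_lit 76) (XT.lf (nat_lit 76) (nat_lit 6184227022) (nat_lit 0) (nat_lit 5243148756) (nat_lit 1672) (nat_lit 2849272693) (nat_lit 368) (nat_lit 5) (nat_lit 367) (nat_lit 5) (nat_lit 389) (nat_lit 5) (nat_lit 449) (nat_lit 435) (nat_lit 256)) (XT.nd (nat_lit 78) (nat_lit 0) (nat_lit 0) (XT.lf (nat_lit 0) (nat_lit 12374394408) (nat_lit 1596) (nat_lit 1498249963) (nat_lit 1672) (nat_lit 549748893) (nat_lit 368) (nat_lit 5) (nat_lit 389) (nat_lit 5) (nat_lit 390) (nat_lit 5) (nat_lit 450) (nat_lit 435) (nat_lit 255)) (XT.lf (nat_lit 76) (nat_lit 5256140768) (nat_lit 0) (nat_lit 8144791916) (nat_lit 1672) (nat_lit 1168917352) (nat_lit 369) (nat_lit 5) (nat_lit 368) (nat_lit 5) (nat_lit 390) (nat_lit 5) (nat_lit 451) (nat_lit 435) (nat_lit 254)))) (XT.nd (nat_lit 156) (nat_lit 0) (nat_lit 0) (XT.nd (nat_lit 78) (nat_lit 1596) (nat_lit 0) (XT.lf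 (nat_lit 76) (nat_lit 12160090572) (nat_lit 0) (nat_lit 2289819536) (nat_lit 1672) (nat_lit 270316166) (nat_lit 369) (nat_lit 5) (nat_lit 368) (nat_lit 5) (nat_lit 390) (nat_lit 5) (nat_lit 452) (nat_lit 435) (nat_lit 253)) (XT.lf (nat_lit 0) (nat_lit 682283133) (nat_lit 1672) (nat_lit 10521399805) (nat_lit 1748) (nat_lit 3668961312) (nat_lit 347) (nat_lit 5) (nat_lit 369) (nat_lit 5) (nat_lit 370) (nat_lit 5) (nat_lit 453) (nat_lit 435) (nat_lit 252))) (XT.nd (nat_lit 78) (nat_lit 0) (nat_lit 76) (XT.lf (nat_lit 0) (nat_lit 1674863148) (nat_lit 1672) (nat_lit 3615260294) (nat_lit 1748) (nat_lit 9737468451) (nat_lit 347) (nat_lit 5) (nat_lit 369) (nat_lit 5) (nat_lit 370) (nat_lit 5) (nat_lit 454) (nat_lit 435) (nat_lit 251)) (XT.lf (nat_lit 0) (nat_lit 2707034553) (nat_lit 1672) (nat_lit 11721697703) (nat_lit 1748) (nat_lit 756519288) (nat_lit 348) (nat_lit 5) (nat_lit 370) (nat_lit 5) (nat_lit 371)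 (nat_lit 5) (nat_lit 455) (nat_lit 435) (nat_lit 250)))))) (XT.nd (nat_lit 546) (nat_lit 2736) (nat_lit 0) (XT.nd (nat_lit 234) (nat_lit 1520) (nat_lit 0) (XT.nd (nat_lit 78) (nat_lit 0) (nat_lit 0) (XT.lf (nat_lit 0) (nat_lit 3811672429) (nat_lit 1672) (nat_lit 4653820755) (nat_lit 1748) (nat_lit 6879542442) (nat_lit 348) (nat_lit 5) (nat_lit 370) (nat_lit 5) (nat_lit 371) (nat_lit 5) (nat_lit 456) (nat_lit 435) (nat_lit 249)) (XT.nd (nat_lit 78) (nat_lit 0) (nat_lit 76) (XT.lf (nat_lit 76) (nat_lit 2583416246) (nat_lit 0) (nat_lit 2364277860) (nat_lit 1748) (nat_lit 10560143008) (nat_lit 349) (nat_lit 5) (nat_lit 348) (nat_lit 5) (nat_lit 371) (nat_lit 5) (nat_lit 457) (nat_lit 435) (nat_lit 248)) (XT.lf (nat_lit 0) (nat_lit 6155564095) (nat_lit 1672) (nat_lit 5676055637) (nat_lit 1748) (nat_lit 3841299742) (nat_lit 349) (nat_lit 5) (nat_lit 371) (nat_lit 5) (nat_lit 372) (nat_lit 5) (nat_lit 458) (nat_lit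 435) (nat_lit 247)))) (XT.nd (nat_lit 156) (nat_lit 1596) (nat_lit 0) (XT.nd (nat_lit 78) (nat_lit 0) (nat_lit 76) (XT.lf (nat_lit 76) (nat_lit 1718266976) (nat_lit 0) (nat_lit 5688919019) (nat_lit 1748) (nat_lit 8433732850) (nat_lit 350) (nat_lit 5) (nat_lit 349) (nat_lit 5) (nat_lit 372) (nat_lit 5) (nat_lit 459) (nat_lit 435) (nat_lit 246)) (XT.lf (nat_lit 0) (nat_lit 8718818513) (nat_lit 1672) (nat_lit 6684102839) (nat_lit 76) (nat_lit 608664399) (nat_lit 350) (nat_lit 5) (nat_lit 372) (nat_lit 5) (nat_lit 351) (nat_lit 5) (nat_lit 460) (nat_lit 435) (nat_lit 245))) (XT.nd (nat_lit 78) (nat_lit 0) (nat_lit 0) (XT.lf (nat_lit 0) (nat_lit 871077587) (nat_lit 1672) (nat_lit 9221968735) (nat_lit 1748) (nat_lit 6091899391) (nat_lit 328) (nat_lit 5) (nat_lit 350) (nat_lit 5) (nat_lit 351) (nat_lit 5) (nat_lit 461) (nat_lit 435) (nat_lit 244)) (XT.lf (nat_lit 0) (nat_lit 8662116176) (nat_lit 1672) (nat_lit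 2870627073) (nat_lit 1748) (nat_lit 4828276770) (nat_lit 328) (nat_lit 5) (nat_lit 350) (nat_lit 5) (nat_lit 351) (nat_lit 5) (nat_lit 462) (nat_lit 435) (nat_lit 243))))) (XT.nd (nat_lit 234) (nat_lit 1748) (nat_lit 0) (XT.nd (nat_lit 78) (nat_lit 0) (nat_lit 0) (XT.lf (nat_lit 0) (nat_lit 39571470) (nat_lit 988) (nat_lit 12978615309) (nat_lit 1064) (nat_lit 3522096681) (nat_lit 315) (nat_lit 5) (nat_lit 328) (nat_lit 5) (nat_lit 329) (nat_lit 5) (nat_lit 463) (nat_lit 435) (nat_lit 242)) (XT.nd (nat_lit 78) (nat_lit 0) (nat_lit 0) (XT.lf (nat_lit 0) (nat_lit 8012068857) (nat_lit 988) (nat_lit 6585185591) (nat_lit 1064) (nat_lit 2124605986) (nat_lit 315) (nat_lit 5) (nat_lit 328) (nat_lit 5) (nat_lit 329) (nat_lit 5) (nat_lit 464) (nat_lit 435) (nat_lit 241)) (XT.lf (nat_lit 0) (nat_lit 16138286110) (nat_lit 988) (nat_lit 63113307) (nat_lit 1064) (nat_lit 705806053) (nat_lit 315) (nat_lit 5) (nat_lit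 328) (nat_lit 5) (nat_lit 329) (nat_lit 5) (nat_lit 465) (nat_lit 435) (nat_lit 240)))) (XT.nd (nat_lit 156) (nat_lit 836) (nat_lit 0) (XT.nd (nat_lit 78) (nat_lit 0) (nat_lit 0) (XT.lf (nat_lit 0) (nat_lit 816519440) (nat_lit 912) (nat_lit 9720941085) (nat_lit 76) (nat_lit 6557009347) (nat_lit 303) (nat_lit 5) (nat_lit 315) (nat_lit 5) (nat_lit 304) (nat_lit 5) (nat_lit 466) (nat_lit 435) (nat_lit 239)) (XT.lf (nat_lit 0) (nat_lit 2359130012) (nat_lit 912) (nat_lit 1607062755) (nat_lit 76) (nat_lit 13319213771) (nat_lit 303) (nat_lit 5) (nat_lit 315) (nat_lit 5) (nat_lit 304) (nat_lit 5) (nat_lit 467) (nat_lit 435) (nat_lit 238))) (XT.nd (nat_lit 78) (nat_lit 0) (nat_lit 0) (XT.lf (nat_lit 0) (nat_lit 3988284395) (nat_lit 912) (nat_lit 10745524838) (nat_lit 76) (nat_lit 2745244822) (nat_lit 292) (nat_lit 5) (nat_lit 304) (nat_lit 5) (nat_lit 293) (nat_lit 5) (nat_lit 468) (nat_lit 435) (nat_lit 237))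 (XT.lf (nat_lit 0) (nat_lit 5681024330) (nat_lit 912) (nat_lit 2445768020) (nat_lit 76) (nat_lit 9549167958) (nat_lit 292) (nat_lit 5) (nat_lit 304) (nat_lit 5) (nat_lit 293) (nat_lit 5) (nat_lit 469) (nat_lit 435) (nat_lit 236))))))) (XT.nd (nat_lit 1092) (nat_lit 4256) (nat_lit 0) (XT.nd (nat_lit 546) (nat_lit 1976) (nat_lit 0) (XT.nd (nat_lit 234) (nat_lit 1520) (nat_lit 0) (XT.nd (nat_lit 78) (nat_lit 760) (nat_lit 0) (XT.lf (nat_lit 0) (nat_lit 6094235661) (nat_lit 760) (nat_lit 1346951841) (nat_lit 836) (nat_lit 10434951535) (nat_lit 282) (nat_lit 5) (nat_lit 292) (nat_lit 5) (nat_lit 293) (nat_lit 5) (nat_lit 470) (nat_lit 435) (nat_lit 235)) (XT.nd (nat_lit 78) (nat_lit 760) (nat_lit 0) (XT.lf (nat_lit 0) (nat_lit 9283312791) (nat_lit 836) (nat_lit 3283827365) (nat_lit 76) (nat_lit 5512251615) (nat_lit 282) (nat_lit 5) (nat_lit 293) (nat_lit 5) (nat_lit 283) (nat_lit 5) (nat_lit 471) (nat_lit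 435) (nat_lit 234)) (XT.lf (nat_lit 0) (nat_lit 5440998922) (nat_lit 760) (nat_lit 5759727928) (nat_lit 836) (nat_lit 7085219281) (nat_lit 272) (nat_lit 5) (nat_lit 282) (nat_lit 5) (nat_lit 283) (nat_lit 5) (nat_lit 472) (nat_lit 435) (nat_lit 233)))) (XT.nd (nat_lit 156) (nat_lit 836) (nat_lit 0) (XT.nd (nat_lit 78) (nat_lit 684) (nat_lit 0) (XT.lf (nat_lit 0) (nat_lit 13180635043) (nat_lit 836) (nat_lit 4124922239) (nat_lit 76) (nat_lit 1190596770) (nat_lit 272) (nat_lit 5) (nat_lit 283) (nat_lit 5) (nat_lit 273) (nat_lit 5) (nat_lit 473) (nat_lit 435) (nat_lit 232)) (XT.lf (nat_lit 0) (nat_lit 4788540234) (nat_lit 684) (nat_lit 10475225124) (nat_lit 760) (nat_lit 3445533576) (nat_lit 263) (nat_lit 5) (nat_lit 272) (nat_lit 5) (nat_lit 273) (nat_lit 5) (nat_lit 474) (nat_lit 435) (nat_lit 231))) (XT.nd (nat_lit 78) (nat_lit 836) (nat_lit 0) (XT.lf (nat_lit 0) (nat_lit 13930601679) (nat_lit 684) (nat_lit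 3480100435) (nat_lit 760) (nat_lit 1515566904) (nat_lit 263) (nat_lit 5) (nat_lit 272) (nat_lit 5) (nat_lit 273) (nat_lit 5) (nat_lit 475) (nat_lit 435) (nat_lit 230)) (XT.lf (nat_lit 0) (nat_lit 492486667) (nat_lit 836) (nat_lit 15017111264) (nat_lit 76) (nat_lit 3637018155) (nat_lit 252) (nat_lit 5) (nat_lit 263) (nat_lit 5) (nat_lit 253) (nat_lit 5) (nat_lit 476) (nat_lit 435) (nat_lit 229))))) (XT.nd (nat_lit 234) (nat_lit 1292) (nat_lit 0) (XT.nd (nat_lit 78) (nat_lit 684) (nat_lit 0) (XT.lf (nat_lit 0) (nat_lit 2571821112) (nat_lit 836) (nat_lit 5904735879) (nat_lit 76) (nat_lit 10893589362) (nat_lit 252) (nat_lit 5) (nat_lit 263) (nat_lit 5) (nat_lit 253) (nat_lit 5) (nat_lit 477) (nat_lit 435) (nat_lit 228)) (XT.nd (nat_lit 78) (nat_lit 0) (nat_lit 0) (XT.lf (nat_lit 0) (nat_lit 3429345487) (nat_lit 684) (nat_lit 1280369876) (nat_lit 760) (nat_lit 14888097186) (nat_lit 243) (nat_lit 5) (nat_lit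 252) (nat_lit 5) (nat_lit 253) (nat_lit 5) (nat_lit 478) (nat_lit 435) (nat_lit 227)) (XT.lf (nat_lit 0) (nat_lit 6964371698) (nat_lit 760) (nat_lit 6844286342) (nat_lit 76) (nat_lit 6019898637) (nat_lit 243) (nat_lit 5) (nat_lit 253) (nat_lit 5) (nat_lit 244) (nat_lit 5) (nat_lit 479) (nat_lit 435) (nat_lit 226)))) (XT.nd (nat_lit 156) (nat_lit 608) (nat_lit 0) (XT.nd (nat_lit 78) (nat_lit 0) (nat_lit 0) (XT.lf (nat_lit 0) (nat_lit 2687668354) (nat_lit 684) (nat_lit 6597258713) (nat_lit 760) (nat_lit 10778577102) (nat_lit 234) (nat_lit 5) (nat_lit 243) (nat_lit 5) (nat_lit 244) (nat_lit 5) (nat_lit 480) (nat_lit 435) (nat_lit 225)) (XT.lf (nat_lit 0) (nat_lit 11697989435) (nat_lit 760) (nat_lit 7809968531) (nat_lit 76) (nat_lit 794275238) (nat_lit 234) (nat_lit 5) (nat_lit 244) (nat_lit 5) (nat_lit 235) (nat_lit 5) (nat_lit 481) (nat_lit 435) (nat_lit 224))) (XT.nd (nat_lit 78) (nat_lit 0) (nat_lit 0)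 (XT.lf (nat_lit 0) (nat_lit 1923312243) (nat_lit 608) (nat_lit 12287217042) (nat_lit 684) (nat_lit 6334187629) (nat_lit 226) (nat_lit 5) (nat_lit 234) (nat_lit 5) (nat_lit 235) (nat_lit 5) (nat_lit 482) (nat_lit 435) (nat_lit 223)) (XT.lf (nat_lit 0) (nat_lit 11951722602) (nat_lit 608) (nat_lit 4869106905) (nat_lit 684) (nat_lit 3970274936) (nat_lit 226) (nat_lit 5) (nat_lit 234) (nat_lit 5) (nat_lit 235) (nat_lit 5) (nat_lit 483) (nat_lit 435) (nat_lit 222)))))) (XT.nd (nat_lit 546) (nat_lit 2280) (nat_lit 0) (XT.nd (nat_lit 234) (nat_lit 608) (nat_lit 0) (XT.nd (nat_lit 78) (nat_lit 684) (nat_lit 0) (XT.lf (nat_lit 0) (nat_lit 1130197703) (nat_lit 684) (nat_lit 18373182551) (nat_lit 760) (nat_lit 1538642828) (nat_lit 217) (nat_lit 5) (nat_lit 226) (nat_lit 5) (nat_lit 227) (nat_lit 5) (nat_lit 484) (nat_lit 435) (nat_lit 221)) (XT.nd (nat_lit 78) (nat_lit 608) (nat_lit 0) (XT.lf (nat_lit 0) (nat_lit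 1016445204) (nat_lit 760) (nat_lit 9921962532) (nat_lit 76) (nat_lit 10357690712) (nat_lit 216) (nat_lit 5) (nat_lit 226) (nat_lit 5) (nat_lit 217) (nat_lit 5) (nat_lit 485) (nat_lit 435) (nat_lit 220)) (XT.lf (nat_lit 0) (nat_lit 255540160) (nat_lit 608) (nat_lit 3343481934) (nat_lit 684) (nat_lit 17956094035) (nat_lit 208) (nat_lit 5) (nat_lit 216) (nat_lit 5) (nat_lit 217) (nat_lit 5) (nat_lit 486) (nat_lit 435) (nat_lit 219)))) (XT.nd (nat_lit 156) (nat_lit 608) (nat_lit 0) (XT.nd (nat_lit 78) (nat_lit 0) (nat_lit 0) (XT.lf (nat_lit 0) (nat_lit 6324226989) (nat_lit 684) (nat_lit 11081301662) (nat_lit 76) (nat_lit 4411969907) (nat_lit 208) (nat_lit 5) (nat_lit 217) (nat_lit 5) (nat_lit 209) (nat_lit 5) (nat_lit 487) (nat_lit 435) (nat_lit 218)) (XT.lf (nat_lit 0) (nat_lit 9121533658) (nat_lit 684) (nat_lit 686075207) (nat_lit 76) (nat_lit 12277171667) (nat_lit 208) (nat_lit 5) (nat_lit 217) (nat_lit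 5) (nat_lit 209) (nat_lit 5) (nat_lit 488) (nat_lit 435) (nat_lit 217))) (XT.nd (nat_lit 78) (nat_lit 0) (nat_lit 0) (XT.lf (nat_lit 0) (nat_lit 10043611832) (nat_lit 608) (nat_lit 1991928938) (nat_lit 684) (nat_lit 10320656063) (nat_lit 200) (nat_lit 5) (nat_lit 208) (nat_lit 5) (nat_lit 209) (nat_lit 5) (nat_lit 489) (nat_lit 435) (nat_lit 216)) (XT.lf (nat_lit 0) (nat_lit 15046882784) (nat_lit 684) (nat_lit 1679834569) (nat_lit 76) (nat_lit 5905546711) (nat_lit 200) (nat_lit 5) (nat_lit 209) (nat_lit 5) (nat_lit 201) (nat_lit 5) (nat_lit 490) (nat_lit 435) (nat_lit 215))))) (XT.nd (nat_lit 234) (nat_lit 1064) (nat_lit 0) (XT.nd (nat_lit 78) (nat_lit 684) (nat_lit 0) (XT.lf (nat_lit 0) (nat_lit 9268823244) (nat_lit 532) (nat_lit 8918679518) (nat_lit 608) (nat_lit 4724972483) (nat_lit 193) (nat_lit 5) (nat_lit 200) (nat_lit 5) (nat_lit 201) (nat_lit 5) (nat_lit 491) (nat_lit 435) (nat_lit 214)) (XT.nd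 (nat_lit 78) (nat_lit 684) (nat_lit 0) (XT.lf (nat_lit 0) (nat_lit 20454140158) (nat_lit 532) (nat_lit 943799438) (nat_lit 608) (nat_lit 1800214520) (nat_lit 193) (nat_lit 5) (nat_lit 200) (nat_lit 5) (nat_lit 201) (nat_lit 5) (nat_lit 492) (nat_lit 435) (nat_lit 213)) (XT.lf (nat_lit 0) (nat_lit 1265408889) (nat_lit 684) (nat_lit 15063473099) (nat_lit 76) (nat_lit 7158556651) (nat_lit 184) (nat_lit 5) (nat_lit 193) (nat_lit 5) (nat_lit 185) (nat_lit 5) (nat_lit 493) (nat_lit 435) (nat_lit 212)))) (XT.nd (nat_lit 156) (nat_lit 532) (nat_lit 0) (XT.nd (nat_lit 78) (nat_lit 532) (nat_lit 0) (XT.lf (nat_lit 0) (nat_lit 4388877528) (nat_lit 684) (nat_lit 3953026719) (nat_lit 76) (nat_lit 15439957216) (nat_lit 184) (nat_lit 5) (nat_lit 193) (nat_lit 5) (nat_lit 185) (nat_lit 5) (nat_lit 494) (nat_lit 435) (nat_lit 211)) (XT.lf (nat_lit 0) (nat_lit 7472641091) (nat_lit 532) (nat_lit 146602624) (nat_lit 608)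 (nat_lit 16462043749) (nat_lit 177) (nat_lit 5) (nat_lit 184) (nat_lit 5) (nat_lit 185) (nat_lit 5) (nat_lit 495) (nat_lit 435) (nat_lit 210))) (XT.nd (nat_lit 78) (nat_lit 532) (nat_lit 0) (XT.lf (nat_lit 0) (nat_lit 10990194320) (nat_lit 608) (nat_lit 5264299991) (nat_lit 76) (nat_lit 8130691354) (nat_lit 177) (nat_lit 5) (nat_lit 185) (nat_lit 5) (nat_lit 178) (nat_lit 5) (nat_lit 496) (nat_lit 435) (nat_lit 209)) (XT.lf (nat_lit 0) (nat_lit 6384760742) (nat_lit 532) (nat_lit 8082260378) (nat_lit 608) (nat_lit 10227374724) (nat_lit 170) (nat_lit 5) (nat_lit 177) (nat_lit 5) (nat_lit 178) (nat_lit 5) (nat_lit 497) (nat_lit 435) (nat_lit 208))))))))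
noncomputable def xc219 : XT := (XT.nd (nat_lit 55302) (nat_lit 0) (nat_lit 11552) (XT.nd (nat_lit 1014) (nat_lit 836) (nat_lit 0) (XT.nd (nat_lit 468) (nat_lit 1444) (nat_lit 0) (XT.nd (nat_lit 234) (nat_lit 1064) (nat_lit 0) (XT.nd (nat_lit 78) (nat_lit 456) (nat_lit 0) (XT.lf (nat_lit 0) (nat_lit 18046661743) (nat_lit 608) (nat_lit 6677782978) (nat_lit 76) (nat_lit 284683054) (nat_lit 170) (nat_lit 5) (nat_lit 178) (nat_lit 5) (nat_lit 171) (nat_lit 5) (nat_lit 498) (nat_lit 435) (nat_lit 207)) (XT.nd (nat_lit 78) (nat_lit 0) (nat_lit 0) (XT.lf (nat_lit 0) (nat_lit 5196449705) (nat_lit 456) (nat_lit 16584857954) (nat_lit 532) (nat_lit 3547181473) (nat_lit 164) (nat_lit 5) (nat_lit 170) (nat_lit 5) (nat_lit 171) (nat_lit 5) (nat_lit 499) (nat_lit 435) (nat_lit 206)) (XT.lf (nat_lit 0) (nat_lit 17393834328) (nat_lit 456) (nat_lit 8237816396) (nat_lit 532) (nat_lit 21769881) (nat_lit 164) (nat_lit 5)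 (nat_lit 170) (nat_lit 5) (nat_lit 171) (nat_lit 5) (nat_lit 500) (nat_lit 435) (nat_lit 205)))) (XT.nd (nat_lit 78) (nat_lit 456) (nat_lit 0) (XT.lf (nat_lit 0) (nat_lit 3550767337) (nat_lit 608) (nat_lit 22112971150) (nat_lit 76) (nat_lit 320181107) (nat_lit 156) (nat_lit 5) (nat_lit 164) (nat_lit 5) (nat_lit 157) (nat_lit 5) (nat_lit 501) (nat_lit 435) (nat_lit 204)) (XT.nd (nat_lit 78) (nat_lit 456) (nat_lit 0) (XT.lf (nat_lit 0) (nat_lit 7301088050) (nat_lit 608) (nat_lit 10023779761) (nat_lit 76) (nat_lit 8994028191) (nat_lit 156) (nat_lit 5) (nat_lit 164) (nat_lit 5) (nat_lit 157) (nat_lit 5) (nat_lit 502) (nat_lit 435) (nat_lit 203)) (XT.lf (nat_lit 0) (nat_lit 2333040621) (nat_lit 456) (nat_lit 8804870898) (nat_lit 532) (nat_lit 15522433243) (nat_lit 150) (nat_lit 5) (nat_lit 156) (nat_lit 5) (nat_lit 157) (nat_lit 5) (nat_lit 503) (nat_lit 435) (nat_lit 202))))) (XT.nd (nat_lit 234) (nat_lit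 988) (nat_lit 0) (XT.nd (nat_lit 78) (nat_lit 456) (nat_lit 0) (XT.lf (nat_lit 0) (nat_lit 15068150572) (nat_lit 456) (nat_lit 46975354) (nat_lit 532) (nat_lit 11892226175) (nat_lit 150) (nat_lit 5) (nat_lit 156) (nat_lit 5) (nat_lit 157) (nat_lit 5) (nat_lit 504) (nat_lit 435) (nat_lit 201)) (XT.nd (nat_lit 78) (nat_lit 0) (nat_lit 0) (XT.lf (nat_lit 0) (nat_lit 642702393) (nat_lit 456) (nat_lit 18587502741) (nat_lit 532) (nat_lit 8129930686) (nat_lit 144) (nat_lit 5) (nat_lit 150) (nat_lit 5) (nat_lit 151) (nat_lit 5) (nat_lit 505) (nat_lit 435) (nat_lit 200)) (XT.lf (nat_lit 0) (nat_lit 13633103490) (nat_lit 456) (nat_lit 9871402413) (nat_lit 532) (nat_lit 4213933499) (nat_lit 144) (nat_lit 5) (nat_lit 150) (nat_lit 5) (nat_lit 151) (nat_lit 5) (nat_lit 506) (nat_lit 435) (nat_lit 199)))) (XT.nd (nat_lit 156) (nat_lit 456) (nat_lit 0) (XT.nd (nat_lit 78) (nat_lit 532) (nat_lit 0) (XT.lf (nat_lit 0)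 (nat_lit 26878739381) (nat_lit 456) (nat_lit 982114684) (nat_lit 532) (nat_lit 223126304) (nat_lit 144) (nat_lit 5) (nat_lit 150) (nat_lit 5) (nat_lit 151) (nat_lit 5) (nat_lit 507) (nat_lit 435) (nat_lit 198)) (XT.lf (nat_lit 0) (nat_lit 3925118860) (nat_lit 532) (nat_lit 16446878247) (nat_lit 76) (nat_lit 8081776231) (nat_lit 137) (nat_lit 5) (nat_lit 144) (nat_lit 5) (nat_lit 138) (nat_lit 5) (nat_lit 508) (nat_lit 435) (nat_lit 197))) (XT.nd (nat_lit 78) (nat_lit 456) (nat_lit 0) (XT.lf (nat_lit 0) (nat_lit 8164623454) (nat_lit 532) (nat_lit 3343787912) (nat_lit 76) (nat_lit 17322298051) (nat_lit 137) (nat_lit 5) (nat_lit 144) (nat_lit 5) (nat_lit 138) (nat_lit 5) (nat_lit 509) (nat_lit 435) (nat_lit 196)) (XT.lf (nat_lit 0) (nat_lit 10150009442) (nat_lit 456) (nat_lit 2401509253) (nat_lit 532) (nat_lit 16662415859) (nat_lit 131) (nat_lit 5) (nat_lit 137) (nat_lit 5) (nat_lit 138) (nat_lit 5) (nat_lit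 510) (nat_lit 435) (nat_lit 195)))))) (XT.nd (nat_lit 53742) (nat_lit 0) (nat_lit 18468) (XT.nd (nat_lit 234) (nat_lit 456) (nat_lit 0) (XT.nd (nat_lit 78) (nat_lit 380) (nat_lit 0) (XT.lf (nat_lit 0) (nat_lit 17090185585) (nat_lit 532) (nat_lit 5694738244) (nat_lit 76) (nat_lit 6818621989) (nat_lit 131) (nat_lit 5) (nat_lit 138) (nat_lit 5) (nat_lit 132) (nat_lit 5) (nat_lit 511) (nat_lit 435) (nat_lit 194)) (XT.nd (nat_lit 78) (nat_lit 0) (nat_lit 0) (XT.lf (nat_lit 0) (nat_lit 8026784905) (nat_lit 380) (nat_lit 13757652455) (nat_lit 456) (nat_lit 8215217971) (nat_lit 126) (nat_lit 5) (nat_lit 131) (nat_lit 5) (nat_lit 132) (nat_lit 5) (nat_lit 512) (nat_lit 435) (nat_lit 193)) (XT.lf (nat_lit 0) (nat_lit 22095545098) (nat_lit 380) (nat_lit 4512070478) (nat_lit 456) (nat_lit 3795372842) (nat_lit 126) (nat_lit 5) (nat_lit 131) (nat_lit 5) (nat_lit 132) (nat_lit 5) (nat_lit 513) (nat_lit 435) (nat_lit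 192)))) (XT.nd (nat_lit 53352) (nat_lit 0) (nat_lit 18392) (XT.nd (nat_lit 53274) (nat_lit 0) (nat_lit 18392) (XT.lf (nat_lit 0) (nat_lit 769576329) (nat_lit 456) (nat_lit 25148785311) (nat_lit 76) (nat_lit 4894614951) (nat_lit 120) (nat_lit 5) (nat_lit 126) (nat_lit 5) (nat_lit 121) (nat_lit 5) (nat_lit 514) (nat_lit 435) (nat_lit 191)) (XT.lf (nat_lit 0) (nat_lit 736584720) (nat_lit 0) (nat_lit 736584720) (nat_lit 1596) (nat_lit 4878254277) (nat_lit 362) (nat_lit 5) (nat_lit 362) (nat_lit 3) (nat_lit 383) (nat_lit 3) (nat_lit 436) (nat_lit 436) (nat_lit 268))) (XT.nd (nat_lit 78) (nat_lit 0) (nat_lit 0) (XT.lf (nat_lit 0) (nat_lit 3398473286) (nat_lit 1596) (nat_lit 5635757064) (nat_lit 1672) (nat_lit 3786773004) (nat_lit 362) (nat_lit 5) (nat_lit 383) (nat_lit 3) (nat_lit 384) (nat_lit 5) (nat_lit 437) (nat_lit 436) (nat_lit 267)) (XT.lf (nat_lit 76) (nat_lit 55544475) (nat_lit 0) (nat_lit 3803823157)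 (nat_lit 1672) (nat_lit 9082171407) (nat_lit 363) (nat_lit 5) (nat_lit 362) (nat_lit 5) (nat_lit 384) (nat_lit 5) (nat_lit 438) (nat_lit 436) (nat_lit 266))))) (XT.nd (nat_lit 234) (nat_lit 0) (nat_lit 76) (XT.nd (nat_lit 78) (nat_lit 0) (nat_lit 0) (XT.lf (nat_lit 0) (nat_lit 4367291038) (nat_lit 1596) (nat_lit 7142535564) (nat_lit 1672) (nat_lit 1553913390) (nat_lit 363) (nat_lit 5) (nat_lit 384) (nat_lit 5) (nat_lit 385) (nat_lit 5) (nat_lit 439) (nat_lit 436) (nat_lit 265)) (XT.nd (nat_lit 78) (nat_lit 0) (nat_lit 0) (XT.lf (nat_lit 0) (nat_lit 4900564092) (nat_lit 1596) (nat_lit 1314967627) (nat_lit 1672) (nat_lit 6972559987) (nat_lit 363) (nat_lit 5) (nat_lit 384) (nat_lit 5) (nat_lit 385) (nat_lit 5) (nat_lit 440) (nat_lit 436) (nat_lit 264)) (XT.lf (nat_lit 76) (nat_lit 4685137935) (nat_lit 0) (nat_lit 779980068) (nat_lit 1672) (nat_lit 7849410506) (nat_lit 364) (nat_lit 5) (nat_lit 363) (nat_lit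 5) (nat_lit 385) (nat_lit 5) (nat_lit 441) (nat_lit 436) (nat_lit 263)))) (XT.nd (nat_lit 156) (nat_lit 0) (nat_lit 76) (XT.nd (nat_lit 78) (nat_lit 0) (nat_lit 0) (XT.lf (nat_lit 0) (nat_lit 6071159234) (nat_lit 1596) (nat_lit 2656893284) (nat_lit 1672) (nat_lit 4714847760) (nat_lit 364) (nat_lit 5) (nat_lit 385) (nat_lit 5) (nat_lit 386) (nat_lit 5) (nat_lit 442) (nat_lit 436) (nat_lit 262)) (XT.lf (nat_lit 76) (nat_lit 3469852395) (nat_lit 0) (nat_lit 3237732317) (nat_lit 1672) (nat_lit 6865899461) (nat_lit 365) (nat_lit 5) (nat_lit 364) (nat_lit 5) (nat_lit 386) (nat_lit 5) (nat_lit 443) (nat_lit 436) (nat_lit 261))) (XT.nd (nat_lit 78) (nat_lit 0) (nat_lit 0) (XT.lf (nat_lit 0) (nat_lit 7380767225) (nat_lit 1596) (nat_lit 3972358876) (nat_lit 1672) (nat_lit 2353082836) (nat_lit 365) (nat_lit 5) (nat_lit 386) (nat_lit 5) (nat_lit 387) (nat_lit 5) (nat_lit 444) (nat_lit 436) (nat_lit 260)) (XT.lf (nat_lit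 76) (nat_lit 2284443449) (nat_lit 0) (nat_lit 5810168574) (nat_lit 1672) (nat_lit 5746441773) (nat_lit 366) (nat_lit 5) (nat_lit 365) (nat_lit 5) (nat_lit 387) (nat_lit 5) (nat_lit 445) (nat_lit 436) (nat_lit 259))))))) (XT.nd (nat_lit 1092) (nat_lit 5624) (nat_lit 0) (XT.nd (nat_lit 546) (nat_lit 1444) (nat_lit 0) (XT.nd (nat_lit 234) (nat_lit 0) (nat_lit 152) (XT.nd (nat_lit 78) (nat_lit 0) (nat_lit 76) (XT.lf (nat_lit 76) (nat_lit 8714650146) (nat_lit 0) (nat_lit 125806498) (nat_lit 1672) (nat_lit 5137793832) (nat_lit 366) (nat_lit 5) (nat_lit 365) (nat_lit 5) (nat_lit 387) (nat_lit 5) (nat_lit 446) (nat_lit 436) (nat_lit 258)) (XT.nd (nat_lit 78) (nat_lit 0) (nat_lit 0) (XT.lf (nat_lit 76) (nat_lit 1127555618) (nat_lit 0) (nat_lit 8509074182) (nat_lit 1672) (nat_lit 4480862256) (nat_lit 367) (nat_lit 5) (nat_lit 366) (nat_lit 5) (nat_lit 388) (nat_lit 5) (nat_lit 447) (nat_lit 436) (nat_lit 257))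 (XT.lf (nat_lit 76) (nat_lit 7711402876) (nat_lit 0) (nat_lit 2764870302) (nat_lit 1672) (nat_lit 3782703373) (nat_lit 367) (nat_lit 5) (nat_lit 366) (nat_lit 5) (nat_lit 388) (nat_lit 5) (nat_lit 448) (nat_lit 436) (nat_lit 256)))) (XT.nd (nat_lit 156) (nat_lit 0) (nat_lit 76) (XT.nd (nat_lit 78) (nat_lit 0) (nat_lit 0) (XT.lf (nat_lit 0) (nat_lit 11344384247) (nat_lit 1596) (nat_lit 2176303) (nat_lit 1672) (nat_lit 3056505533) (nat_lit 367) (nat_lit 5) (nat_lit 388) (nat_lit 5) (nat_lit 389) (nat_lit 5) (nat_lit 449) (nat_lit 436) (nat_lit 255)) (XT.lf (nat_lit 76) (nat_lit 6738585662) (nat_lit 0) (nat_lit 5545083746) (nat_lit 1672) (nat_lit 2265300428) (nat_lit 368) (nat_lit 5) (nat_lit 367) (nat_lit 5) (nat_lit 389) (nat_lit 5) (nat_lit 450) (nat_lit 436) (nat_lit 254))) (XT.nd (nat_lit 78) (nat_lit 0) (nat_lit 0) (XT.lf (nat_lit 0) (nat_lit 13236065229) (nat_lit 1596) (nat_lit 1091778466) (nat_lit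 1672) (nat_lit 370069970) (nat_lit 368) (nat_lit 5) (nat_lit 389) (nat_lit 5) (nat_lit 390) (nat_lit 5) (nat_lit 451) (nat_lit 436) (nat_lit 253)) (XT.lf (nat_lit 76) (nat_lit 5794828787) (nat_lit 0) (nat_lit 8479077674) (nat_lit 1672) (nat_lit 574610290) (nat_lit 369) (nat_lit 5) (nat_lit 368) (nat_lit 5) (nat_lit 390) (nat_lit 5) (nat_lit 452) (nat_lit 436) (nat_lit 252))))) (XT.nd (nat_lit 234) (nat_lit 0) (nat_lit 152) (XT.nd (nat_lit 78) (nat_lit 0) (nat_lit 76) (XT.lf (nat_lit 0) (nat_lit 325525379) (nat_lit 1672) (nat_lit 2175935433) (nat_lit 1748) (nat_lit 12500646483) (nat_lit 346) (nat_lit 5) (nat_lit 368) (nat_lit 5) (nat_lit 369) (nat_lit 5) (nat_lit 453) (nat_lit 436) (nat_lit 251)) (XT.nd (nat_lit 78) (nat_lit 0) (nat_lit 0) (XT.lf (nat_lit 0) (nat_lit 1283613509) (nat_lit 1672) (nat_lit 10287673208) (nat_lit 1748) (nat_lit 3586461946) (nat_lit 347) (nat_lit 5) (nat_lit 369) (nat_lit 5)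 (nat_lit 370) (nat_lit 5) (nat_lit 454) (nat_lit 436) (nat_lit 250)) (XT.lf (nat_lit 0) (nat_lit 2284521894) (nat_lit 1672) (nat_lit 3252119820) (nat_lit 1748) (nat_lit 9779395671) (nat_lit 347) (nat_lit 5) (nat_lit 369) (nat_lit 5) (nat_lit 370) (nat_lit 5) (nat_lit 455) (nat_lit 436) (nat_lit 249)))) (XT.nd (nat_lit 156) (nat_lit 0) (nat_lit 0) (XT.nd (nat_lit 78) (nat_lit 0) (nat_lit 0) (XT.lf (nat_lit 0) (nat_lit 3327970940) (nat_lit 1672) (nat_lit 11510748508) (nat_lit 1748) (nat_lit 638329532) (nat_lit 348) (nat_lit 5) (nat_lit 370) (nat_lit 5) (nat_lit 371) (nat_lit 5) (nat_lit 456) (nat_lit 436) (nat_lit 248)) (XT.lf (nat_lit 0) (nat_lit 4443587932) (nat_lit 1672) (nat_lit 4310247024) (nat_lit 1748) (nat_lit 6886427269) (nat_lit 348) (nat_lit 5) (nat_lit 370) (nat_lit 5) (nat_lit 371) (nat_lit 5) (nat_lit 457) (nat_lit 436) (nat_lit 247))) (XT.nd (nat_lit 78) (nat_lit 0) (nat_lit 76) (XT.lf (nat_lit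 76) (nat_lit 3068862019) (nat_lit 0) (nat_lit 2525388668) (nat_lit 1748) (nat_lit 10212241633) (nat_lit 349) (nat_lit 5) (nat_lit 348) (nat_lit 5) (nat_lit 371) (nat_lit 5) (nat_lit 458) (nat_lit 436) (nat_lit 246)) (XT.lf (nat_lit 0) (nat_lit 6814816230) (nat_lit 1672) (nat_lit 5352304187) (nat_lit 1748) (nat_lit 3807995921) (nat_lit 349) (nat_lit 5) (nat_lit 371) (nat_lit 5) (nat_lit 372) (nat_lit 5) (nat_lit 459) (nat_lit 436) (nat_lit 245)))))) (XT.nd (nat_lit 546) (nat_lit 3268) (nat_lit 0) (XT.nd (nat_lit 234) (nat_lit 988) (nat_lit 0) (XT.nd (nat_lit 78) (nat_lit 1596) (nat_lit 0) (XT.lf (nat_lit 76) (nat_lit 2187028084) (nat_lit 0) (nat_lit 5896750303) (nat_lit 1748) (nat_lit 8062861716) (nat_lit 350) (nat_lit 5) (nat_lit 349) (nat_lit 5) (nat_lit 372) (nat_lit 5) (nat_lit 460) (nat_lit 436) (nat_lit 244)) (XT.nd (nat_lit 78) (nat_lit 1672) (nat_lit 0) (XT.lf (nat_lit 0) (nat_lit 9410683136) (nat_lit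 1672) (nat_lit 6380428482) (nat_lit 76) (nat_lit 529838292) (nat_lit 350) (nat_lit 5) (nat_lit 372) (nat_lit 5) (nat_lit 351) (nat_lit 5) (nat_lit 461) (nat_lit 436) (nat_lit 243)) (XT.lf (nat_lit 0) (nat_lit 1322978208) (nat_lit 1672) (nat_lit 9482091393) (nat_lit 1748) (nat_lit 5692864143) (nat_lit 328) (nat_lit 5) (nat_lit 350) (nat_lit 5) (nat_lit 351) (nat_lit 5) (nat_lit 462) (nat_lit 436) (nat_lit 242)))) (XT.nd (nat_lit 156) (nat_lit 0) (nat_lit 0) (XT.nd (nat_lit 78) (nat_lit 988) (nat_lit 0) (XT.lf (nat_lit 0) (nat_lit 9261318371) (nat_lit 1672) (nat_lit 3002238911) (nat_lit 1748) (nat_lit 4414182271) (nat_lit 328) (nat_lit 5) (nat_lit 350) (nat_lit 5) (nat_lit 351) (nat_lit 5) (nat_lit 463) (nat_lit 436) (nat_lit 241)) (XT.lf (nat_lit 0) (nat_lit 474430767) (nat_lit 988) (nat_lit 13296817825) (nat_lit 1064) (nat_lit 3089498651) (nat_lit 315) (nat_lit 5) (nat_lit 328) (nat_lit 5) (nat_lit 329)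 (nat_lit 5) (nat_lit 464) (nat_lit 436) (nat_lit 240))) (XT.nd (nat_lit 78) (nat_lit 0) (nat_lit 0) (XT.lf (nat_lit 0) (nat_lit 8597866967) (nat_lit 988) (nat_lit 6774369900) (nat_lit 1064) (nat_lit 1673921671) (nat_lit 315) (nat_lit 5) (nat_lit 328) (nat_lit 5) (nat_lit 329) (nat_lit 5) (nat_lit 465) (nat_lit 436) (nat_lit 239)) (XT.lf (nat_lit 0) (nat_lit 16878264315) (nat_lit 988) (nat_lit 120729100) (nat_lit 1064) (nat_lit 236415865) (nat_lit 315) (nat_lit 5) (nat_lit 328) (nat_lit 5) (nat_lit 329) (nat_lit 5) (nat_lit 466) (nat_lit 436) (nat_lit 238))))) (XT.nd (nat_lit 234) (nat_lit 1520) (nat_lit 0) (XT.nd (nat_lit 78) (nat_lit 836) (nat_lit 0) (XT.lf (nat_lit 0) (nat_lit 1303073337) (nat_lit 912) (nat_lit 9483954073) (nat_lit 76) (nat_lit 6639476622) (nat_lit 303) (nat_lit 5) (nat_lit 315) (nat_lit 5) (nat_lit 304) (nat_lit 5) (nat_lit 467) (nat_lit 436) (nat_lit 237)) (XT.nd (nat_lit 78) (nat_lit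 836) (nat_lit 0) (XT.lf (nat_lit 0) (nat_lit 2867316052) (nat_lit 912) (nat_lit 1216257115) (nat_lit 76) (nat_lit 13537879505) (nat_lit 303) (nat_lit 5) (nat_lit 315) (nat_lit 5) (nat_lit 304) (nat_lit 5) (nat_lit 468) (nat_lit 436) (nat_lit 236)) (XT.lf (nat_lit 0) (nat_lit 4522518047) (nat_lit 912) (nat_lit 10530519702) (nat_lit 76) (nat_lit 2766074765) (nat_lit 292) (nat_lit 5) (nat_lit 304) (nat_lit 5) (nat_lit 293) (nat_lit 5) (nat_lit 469) (nat_lit 436) (nat_lit 235)))) (XT.nd (nat_lit 156) (nat_lit 760) (nat_lit 0) (XT.nd (nat_lit 78) (nat_lit 760) (nat_lit 0) (XT.lf (nat_lit 0) (nat_lit 6240201644) (nat_lit 912) (nat_lit 2073197466) (nat_lit 76) (nat_lit 9706744500) (nat_lit 292) (nat_lit 5) (nat_lit 304) (nat_lit 5) (nat_lit 293) (nat_lit 5) (nat_lit 470) (nat_lit 436) (nat_lit 234)) (XT.lf (nat_lit 0) (nat_lit 6634833356) (nat_lit 760) (nat_lit 1394716878) (nat_lit 836) (nat_lit 10194904365)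 (nat_lit 282) (nat_lit 5) (nat_lit 292) (nat_lit 5) (nat_lit 293) (nat_lit 5) (nat_lit 471) (nat_lit 436) (nat_lit 233))) (XT.nd (nat_lit 78) (nat_lit 760) (nat_lit 0) (XT.lf (nat_lit 0) (nat_lit 9899767053) (nat_lit 836) (nat_lit 2929841739) (nat_lit 76) (nat_lit 5602346780) (nat_lit 282) (nat_lit 5) (nat_lit 293) (nat_lit 5) (nat_lit 283) (nat_lit 5) (nat_lit 472) (nat_lit 436) (nat_lit 232)) (XT.lf (nat_lit 0) (nat_lit 5966720138) (nat_lit 760) (nat_lit 5883069230) (nat_lit 836) (nat_lit 6792974458) (nat_lit 272) (nat_lit 5) (nat_lit 282) (nat_lit 5) (nat_lit 283) (nat_lit 5) (nat_lit 473) (nat_lit 436) (nat_lit 231))))))))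
noncomputable def xc220 : XT := (XT.nd (nat_lit 2106) (nat_lit 2888) (nat_lit 0) (XT.nd (nat_lit 1014) (nat_lit 3952) (nat_lit 0) (XT.nd (nat_lit 468) (nat_lit 2052) (nat_lit 0) (XT.nd (nat_lit 234) (nat_lit 1520) (nat_lit 0) (XT.nd (nat_lit 78) (nat_lit 684) (nat_lit 0) (XT.lf (nat_lit 0) (nat_lit 13860909594) (nat_lit 836) (nat_lit 3789915429) (nat_lit 76) (nat_lit 1206526453) (nat_lit 272) (nat_lit 5) (nat_lit 283) (nat_lit 5) (nat_lit 273) (nat_lit 5) (nat_lit 474) (nat_lit 436) (nat_lit 230)) (XT.nd (nat_lit 78) (nat_lit 0) (nat_lit 0) (XT.lf (nat_lit 0) (nat_lit 5299069548) (nat_lit 684) (nat_lit 10681156015) (nat_lit 760) (nat_lit 3094650926) (nat_lit 263) (nat_lit 5) (nat_lit 272) (nat_lit 5) (nat_lit 273) (nat_lit 5) (nat_lit 475) (nat_lit 436) (nat_lit 229)) (XT.lf (nat_lit 0) (nat_lit 14615839703) (nat_lit 684) (nat_lit 3546198902) (nat_lit 760) (nat_lit 1134316163) (nat_lit 263) (nat_lit 5)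 (nat_lit 272) (nat_lit 5) (nat_lit 273) (nat_lit 5) (nat_lit 476) (nat_lit 436) (nat_lit 228)))) (XT.nd (nat_lit 78) (nat_lit 684) (nat_lit 0) (XT.lf (nat_lit 0) (nat_lit 903253944) (nat_lit 836) (nat_lit 14899450643) (nat_lit 76) (nat_lit 3718462935) (nat_lit 252) (nat_lit 5) (nat_lit 263) (nat_lit 5) (nat_lit 253) (nat_lit 5) (nat_lit 477) (nat_lit 436) (nat_lit 227)) (XT.nd (nat_lit 78) (nat_lit 684) (nat_lit 0) (XT.lf (nat_lit 0) (nat_lit 3016313950) (nat_lit 836) (nat_lit 5613023884) (nat_lit 76) (nat_lit 11119994891) (nat_lit 252) (nat_lit 5) (nat_lit 263) (nat_lit 5) (nat_lit 253) (nat_lit 5) (nat_lit 478) (nat_lit 436) (nat_lit 226)) (XT.lf (nat_lit 0) (nat_lit 3905043012) (nat_lit 684) (nat_lit 1286859318) (nat_lit 760) (nat_lit 14789758159) (nat_lit 243) (nat_lit 5) (nat_lit 252) (nat_lit 5) (nat_lit 253) (nat_lit 5) (nat_lit 479) (nat_lit 436) (nat_lit 225))))) (XT.nd (nat_lit 234) (nat_lit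 1368) (nat_lit 0) (XT.nd (nat_lit 78) (nat_lit 684) (nat_lit 0) (XT.lf (nat_lit 0) (nat_lit 7484165784) (nat_lit 760) (nat_lit 6574216383) (nat_lit 76) (nat_lit 6158793885) (nat_lit 243) (nat_lit 5) (nat_lit 253) (nat_lit 5) (nat_lit 244) (nat_lit 5) (nat_lit 480) (nat_lit 436) (nat_lit 224)) (XT.nd (nat_lit 78) (nat_lit 0) (nat_lit 0) (XT.lf (nat_lit 0) (nat_lit 3145700067) (nat_lit 684) (nat_lit 6700596123) (nat_lit 760) (nat_lit 10610629725) (nat_lit 234) (nat_lit 5) (nat_lit 243) (nat_lit 5) (nat_lit 244) (nat_lit 5) (nat_lit 481) (nat_lit 436) (nat_lit 223)) (XT.lf (nat_lit 0) (nat_lit 12300435813) (nat_lit 760) (nat_lit 7562304231) (nat_lit 76) (nat_lit 837839731) (nat_lit 234) (nat_lit 5) (nat_lit 244) (nat_lit 5) (nat_lit 235) (nat_lit 5) (nat_lit 482) (nat_lit 436) (nat_lit 222)))) (XT.nd (nat_lit 156) (nat_lit 760) (nat_lit 0) (XT.nd (nat_lit 78) (nat_lit 0) (nat_lit 0) (XT.lf (nat_lit 0) (nat_lit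 2362985160) (nat_lit 608) (nat_lit 12495620973) (nat_lit 684) (nat_lit 6089405873) (nat_lit 226) (nat_lit 5) (nat_lit 234) (nat_lit 5) (nat_lit 235) (nat_lit 5) (nat_lit 483) (nat_lit 436) (nat_lit 221)) (XT.lf (nat_lit 0) (nat_lit 12584096929) (nat_lit 608) (nat_lit 4929880799) (nat_lit 684) (nat_lit 3685498564) (nat_lit 226) (nat_lit 5) (nat_lit 234) (nat_lit 5) (nat_lit 235) (nat_lit 5) (nat_lit 484) (nat_lit 436) (nat_lit 220))) (XT.nd (nat_lit 78) (nat_lit 76) (nat_lit 0) (XT.lf (nat_lit 0) (nat_lit 1550718875) (nat_lit 684) (nat_lit 18695282443) (nat_lit 760) (nat_lit 1209501736) (nat_lit 217) (nat_lit 5) (nat_lit 226) (nat_lit 5) (nat_lit 227) (nat_lit 5) (nat_lit 485) (nat_lit 436) (nat_lit 219)) (XT.lf (nat_lit 0) (nat_lit 1385003140) (nat_lit 760) (nat_lit 9725361678) (nat_lit 76) (nat_lit 10604393614) (nat_lit 216) (nat_lit 5) (nat_lit 226) (nat_lit 5) (nat_lit 217) (nat_lit 5) (nat_lit 486)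 (nat_lit 436) (nat_lit 218)))))) (XT.nd (nat_lit 546) (nat_lit 2204) (nat_lit 0) (XT.nd (nat_lit 234) (nat_lit 1140) (nat_lit 0) (XT.nd (nat_lit 78) (nat_lit 0) (nat_lit 0) (XT.lf (nat_lit 0) (nat_lit 653092120) (nat_lit 608) (nat_lit 3361859415) (nat_lit 684) (nat_lit 17964096362) (nat_lit 208) (nat_lit 5) (nat_lit 216) (nat_lit 5) (nat_lit 217) (nat_lit 5) (nat_lit 487) (nat_lit 436) (nat_lit 217)) (XT.nd (nat_lit 78) (nat_lit 0) (nat_lit 0) (XT.lf (nat_lit 0) (nat_lit 6788225100) (nat_lit 684) (nat_lit 10911460178) (nat_lit 76) (nat_lit 4547127123) (nat_lit 208) (nat_lit 5) (nat_lit 217) (nat_lit 5) (nat_lit 209) (nat_lit 5) (nat_lit 488) (nat_lit 436) (nat_lit 216)) (XT.lf (nat_lit 0) (nat_lit 9634859989) (nat_lit 684) (nat_lit 316005028) (nat_lit 76) (nat_lit 12568712961) (nat_lit 208) (nat_lit 5) (nat_lit 217) (nat_lit 5) (nat_lit 209) (nat_lit 5) (nat_lit 489) (nat_lit 436) (nat_lit 215)))) (XT.nd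 (nat_lit 156) (nat_lit 532) (nat_lit 0) (XT.nd (nat_lit 78) (nat_lit 0) (nat_lit 0) (XT.lf (nat_lit 0) (nat_lit 10625750807) (nat_lit 608) (nat_lit 1977383723) (nat_lit 684) (nat_lit 10193373824) (nat_lit 200) (nat_lit 5) (nat_lit 208) (nat_lit 5) (nat_lit 209) (nat_lit 5) (nat_lit 490) (nat_lit 436) (nat_lit 214)) (XT.lf (nat_lit 0) (nat_lit 15668640087) (nat_lit 684) (nat_lit 1333307674) (nat_lit 76) (nat_lit 6076275822) (nat_lit 200) (nat_lit 5) (nat_lit 209) (nat_lit 5) (nat_lit 201) (nat_lit 5) (nat_lit 491) (nat_lit 436) (nat_lit 213))) (XT.nd (nat_lit 78) (nat_lit 0) (nat_lit 0) (XT.lf (nat_lit 0) (nat_lit 9831822482) (nat_lit 532) (nat_lit 9036411179) (nat_lit 608) (nat_lit 4495887385) (nat_lit 193) (nat_lit 5) (nat_lit 200) (nat_lit 5) (nat_lit 201) (nat_lit 5) (nat_lit 492) (nat_lit 436) (nat_lit 212)) (XT.lf (nat_lit 0) (nat_lit 21233441366) (nat_lit 532) (nat_lit 903222554) (nat_lit 608) (nat_lit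 1518979057) (nat_lit 193) (nat_lit 5) (nat_lit 200) (nat_lit 5) (nat_lit 201) (nat_lit 5) (nat_lit 493) (nat_lit 436) (nat_lit 211))))) (XT.nd (nat_lit 234) (nat_lit 988) (nat_lit 0) (XT.nd (nat_lit 78) (nat_lit 532) (nat_lit 0) (XT.lf (nat_lit 0) (nat_lit 1600481534) (nat_lit 684) (nat_lit 14986546182) (nat_lit 76) (nat_lit 7363715550) (nat_lit 184) (nat_lit 5) (nat_lit 193) (nat_lit 5) (nat_lit 185) (nat_lit 5) (nat_lit 494) (nat_lit 436) (nat_lit 210)) (XT.nd (nat_lit 78) (nat_lit 532) (nat_lit 0) (XT.lf (nat_lit 0) (nat_lit 4780345733) (nat_lit 684) (nat_lit 3661306490) (nat_lit 76) (nat_lit 15809528680) (nat_lit 184) (nat_lit 5) (nat_lit 193) (nat_lit 5) (nat_lit 185) (nat_lit 5) (nat_lit 495) (nat_lit 436) (nat_lit 209)) (XT.lf (nat_lit 0) (nat_lit 7990435329) (nat_lit 532) (nat_lit 81320714) (nat_lit 608) (nat_lit 16484915430) (nat_lit 177) (nat_lit 5) (nat_lit 184) (nat_lit 5) (nat_lit 185) (nat_lit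 5) (nat_lit 496) (nat_lit 436) (nat_lit 208)))) (XT.nd (nat_lit 156) (nat_lit 456) (nat_lit 0) (XT.nd (nat_lit 78) (nat_lit 532) (nat_lit 0) (XT.lf (nat_lit 0) (nat_lit 11504675013) (nat_lit 608) (nat_lit 5002781807) (nat_lit 76) (nat_lit 8359304520) (nat_lit 177) (nat_lit 5) (nat_lit 185) (nat_lit 5) (nat_lit 178) (nat_lit 5) (nat_lit 497) (nat_lit 436) (nat_lit 207)) (XT.lf (nat_lit 0) (nat_lit 6876846954) (nat_lit 532) (nat_lit 8170779286) (nat_lit 608) (nat_lit 10134602322) (nat_lit 170) (nat_lit 5) (nat_lit 177) (nat_lit 5) (nat_lit 178) (nat_lit 5) (nat_lit 498) (nat_lit 436) (nat_lit 206))) (XT.nd (nat_lit 78) (nat_lit 456) (nat_lit 0) (XT.lf (nat_lit 0) (nat_lit 18693614079) (nat_lit 608) (nat_lit 6448621568) (nat_lit 76) (nat_lit 361128906) (nat_lit 170) (nat_lit 5) (nat_lit 178) (nat_lit 5) (nat_lit 171) (nat_lit 5) (nat_lit 499) (nat_lit 436) (nat_lit 205)) (XT.lf (nat_lit 0) (nat_lit 5660709472)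 (nat_lit 456) (nat_lit 16838974730) (nat_lit 532) (nat_lit 3329498728) (nat_lit 164) (nat_lit 5) (nat_lit 170) (nat_lit 5) (nat_lit 171) (nat_lit 5) (nat_lit 500) (nat_lit 436) (nat_lit 204))))))) (XT.nd (nat_lit 54366) (nat_lit 0) (nat_lit 17936) (XT.nd (nat_lit 468) (nat_lit 1368) (nat_lit 0) (XT.nd (nat_lit 234) (nat_lit 912) (nat_lit 0) (XT.nd (nat_lit 78) (nat_lit 532) (nat_lit 0) (XT.lf (nat_lit 0) (nat_lit 257341816) (nat_lit 532) (nat_lit 8067444809) (nat_lit 76) (nat_lit 17835907763) (nat_lit 163) (nat_lit 5) (nat_lit 170) (nat_lit 5) (nat_lit 164) (nat_lit 5) (nat_lit 501) (nat_lit 436) (nat_lit 203)) (XT.nd (nat_lit 78) (nat_lit 0) (nat_lit 0) (XT.lf (nat_lit 0) (nat_lit 3898378129) (nat_lit 608) (nat_lit 22195172894) (nat_lit 76) (nat_lit 404306823) (nat_lit 156) (nat_lit 5) (nat_lit 164) (nat_lit 5) (nat_lit 157) (nat_lit 5) (nat_lit 502) (nat_lit 436) (nat_lit 202)) (XT.lf (nat_lit 0) (nat_lit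 7718281816) (nat_lit 608) (nat_lit 9871257632) (nat_lit 76) (nat_lit 9250106887) (nat_lit 156) (nat_lit 5) (nat_lit 164) (nat_lit 5) (nat_lit 157) (nat_lit 5) (nat_lit 503) (nat_lit 436) (nat_lit 201)))) (XT.nd (nat_lit 78) (nat_lit 456) (nat_lit 0) (XT.lf (nat_lit 0) (nat_lit 2730376804) (nat_lit 456) (nat_lit 8898424668) (nat_lit 532) (nat_lit 15559187404) (nat_lit 150) (nat_lit 5) (nat_lit 156) (nat_lit 5) (nat_lit 157) (nat_lit 5) (nat_lit 504) (nat_lit 436) (nat_lit 200)) (XT.nd (nat_lit 78) (nat_lit 456) (nat_lit 0) (XT.lf (nat_lit 0) (nat_lit 15680517009) (nat_lit 532) (nat_lit 11828946795) (nat_lit 76) (nat_lit 32577347) (nat_lit 150) (nat_lit 5) (nat_lit 157) (nat_lit 5) (nat_lit 151) (nat_lit 5) (nat_lit 505) (nat_lit 436) (nat_lit 199)) (XT.lf (nat_lit 0) (nat_lit 1001989849) (nat_lit 456) (nat_lit 18873303622) (nat_lit 532) (nat_lit 8026643007) (nat_lit 144) (nat_lit 5) (nat_lit 150) (nat_lit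 5) (nat_lit 151) (nat_lit 5) (nat_lit 506) (nat_lit 436) (nat_lit 198))))) (XT.nd (nat_lit 234) (nat_lit 836) (nat_lit 0) (XT.nd (nat_lit 78) (nat_lit 532) (nat_lit 0) (XT.lf (nat_lit 0) (nat_lit 14245406157) (nat_lit 456) (nat_lit 9984566565) (nat_lit 532) (nat_lit 4037539333) (nat_lit 144) (nat_lit 5) (nat_lit 150) (nat_lit 5) (nat_lit 151) (nat_lit 5) (nat_lit 507) (nat_lit 436) (nat_lit 197)) (XT.nd (nat_lit 78) (nat_lit 456) (nat_lit 0) (XT.lf (nat_lit 0) (nat_lit 27605905) (nat_lit 532) (nat_lit 891354160) (nat_lit 76) (nat_lit 27721503990) (nat_lit 143) (nat_lit 5) (nat_lit 150) (nat_lit 5) (nat_lit 144) (nat_lit 5) (nat_lit 508) (nat_lit 436) (nat_lit 196)) (XT.lf (nat_lit 0) (nat_lit 4253607311) (nat_lit 532) (nat_lit 16436900304) (nat_lit 76) (nat_lit 8327163745) (nat_lit 137) (nat_lit 5) (nat_lit 144) (nat_lit 5) (nat_lit 138) (nat_lit 5) (nat_lit 509) (nat_lit 436) (nat_lit 195)))) (XT.nd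 (nat_lit 156) (nat_lit 380) (nat_lit 0) (XT.nd (nat_lit 78) (nat_lit 456) (nat_lit 0) (XT.lf (nat_lit 0) (nat_lit 8573000309) (nat_lit 532) (nat_lit 3078393565) (nat_lit 76) (nat_lit 17750853806) (nat_lit 137) (nat_lit 5) (nat_lit 144) (nat_lit 5) (nat_lit 138) (nat_lit 5) (nat_lit 510) (nat_lit 436) (nat_lit 194)) (XT.lf (nat_lit 0) (nat_lit 10683093749) (nat_lit 456) (nat_lit 2361877255) (nat_lit 532) (nat_lit 16748222980) (nat_lit 131) (nat_lit 5) (nat_lit 137) (nat_lit 5) (nat_lit 138) (nat_lit 5) (nat_lit 511) (nat_lit 436) (nat_lit 193))) (XT.nd (nat_lit 78) (nat_lit 380) (nat_lit 0) (XT.lf (nat_lit 0) (nat_lit 17670215861) (nat_lit 532) (nat_lit 5480658286) (nat_lit 76) (nat_lit 7039810583) (nat_lit 131) (nat_lit 5) (nat_lit 138) (nat_lit 5) (nat_lit 132) (nat_lit 5) (nat_lit 512) (nat_lit 436) (nat_lit 192)) (XT.lf (nat_lit 0) (nat_lit 8513137598) (nat_lit 380) (nat_lit 13942659385) (nat_lit 456)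 (nat_lit 8138973849) (nat_lit 126) (nat_lit 5) (nat_lit 131) (nat_lit 5) (nat_lit 132) (nat_lit 5) (nat_lit 513) (nat_lit 436) (nat_lit 191)))))) (XT.nd (nat_lit 546) (nat_lit 0) (nat_lit 152) (XT.nd (nat_lit 234) (nat_lit 0) (nat_lit 76) (XT.nd (nat_lit 78) (nat_lit 0) (nat_lit 0) (XT.lf (nat_lit 0) (nat_lit 948904177) (nat_lit 0) (nat_lit 948904177) (nat_lit 1596) (nat_lit 4572323911) (nat_lit 362) (nat_lit 5) (nat_lit 362) (nat_lit 3) (nat_lit 383) (nat_lit 3) (nat_lit 437) (nat_lit 437) (nat_lit 266)) (XT.nd (nat_lit 78) (nat_lit 0) (nat_lit 0) (XT.lf (nat_lit 0) (nat_lit 4238781290) (nat_lit 1596) (nat_lit 5342216205) (nat_lit 1672) (nat_lit 3480162654) (nat_lit 362) (nat_lit 5) (nat_lit 383) (nat_lit 3) (nat_lit 384) (nat_lit 5) (nat_lit 438) (nat_lit 437) (nat_lit 265)) (XT.lf (nat_lit 76) (nat_lit 460238628) (nat_lit 0) (nat_lit 4236131332) (nat_lit 1672) (nat_lit 8488003068) (nat_lit 363) (nat_lit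 5) (nat_lit 362) (nat_lit 5) (nat_lit 384) (nat_lit 5) (nat_lit 439) (nat_lit 437) (nat_lit 264)))) (XT.nd (nat_lit 156) (nat_lit 0) (nat_lit 0) (XT.nd (nat_lit 78) (nat_lit 0) (nat_lit 0) (XT.lf (nat_lit 0) (nat_lit 5197285959) (nat_lit 1596) (nat_lit 6871765738) (nat_lit 1672) (nat_lit 1240325315) (nat_lit 363) (nat_lit 5) (nat_lit 384) (nat_lit 5) (nat_lit 385) (nat_lit 5) (nat_lit 440) (nat_lit 437) (nat_lit 263)) (XT.lf (nat_lit 0) (nat_lit 5726662728) (nat_lit 1596) (nat_lit 935756650) (nat_lit 1672) (nat_lit 6774103008) (nat_lit 363) (nat_lit 5) (nat_lit 384) (nat_lit 5) (nat_lit 385) (nat_lit 5) (nat_lit 441) (nat_lit 437) (nat_lit 262))) (XT.nd (nat_lit 78) (nat_lit 0) (nat_lit 76) (XT.lf (nat_lit 76) (nat_lit 5181683193) (nat_lit 0) (nat_lit 1109163822) (nat_lit 1672) (nat_lit 7274889210) (nat_lit 364) (nat_lit 5) (nat_lit 363) (nat_lit 5) (nat_lit 385) (nat_lit 5) (nat_lit 442) (nat_lit 437)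 (nat_lit 261)) (XT.lf (nat_lit 0) (nat_lit 6892965414) (nat_lit 1596) (nat_lit 2298304336) (nat_lit 1672) (nat_lit 4505741343) (nat_lit 364) (nat_lit 5) (nat_lit 385) (nat_lit 5) (nat_lit 386) (nat_lit 5) (nat_lit 443) (nat_lit 437) (nat_lit 260))))) (XT.nd (nat_lit 234) (nat_lit 0) (nat_lit 76) (XT.nd (nat_lit 78) (nat_lit 0) (nat_lit 76) (XT.lf (nat_lit 76) (nat_lit 3948267528) (nat_lit 0) (nat_lit 3582774491) (nat_lit 1672) (nat_lit 6299400695) (nat_lit 365) (nat_lit 5) (nat_lit 364) (nat_lit 5) (nat_lit 386) (nat_lit 5) (nat_lit 444) (nat_lit 437) (nat_lit 259)) (XT.nd (nat_lit 78) (nat_lit 0) (nat_lit 0) (XT.lf (nat_lit 0) (nat_lit 8202388256) (nat_lit 1596) (nat_lit 3634797191) (nat_lit 1672) (nat_lit 2128956742) (nat_lit 365) (nat_lit 5) (nat_lit 386) (nat_lit 5) (nat_lit 387) (nat_lit 5) (nat_lit 445) (nat_lit 437) (nat_lit 258)) (XT.lf (nat_lit 76) (nat_lit 2744397701) (nat_lit 0) (nat_lit 6175586135)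 (nat_lit 1672) (nat_lit 5183924567) (nat_lit 366) (nat_lit 5) (nat_lit 365) (nat_lit 5) (nat_lit 387) (nat_lit 5) (nat_lit 446) (nat_lit 437) (nat_lit 257)))) (XT.nd (nat_lit 156) (nat_lit 0) (nat_lit 76) (XT.nd (nat_lit 78) (nat_lit 0) (nat_lit 76) (XT.lf (nat_lit 76) (nat_lit 9295085682) (nat_lit 0) (nat_lit 372650265) (nat_lit 1672) (nat_lit 4576386922) (nat_lit 366) (nat_lit 5) (nat_lit 365) (nat_lit 5) (nat_lit 387) (nat_lit 5) (nat_lit 447) (nat_lit 437) (nat_lit 256)) (XT.lf (nat_lit 76) (nat_lit 1568755707) (nat_lit 0) (nat_lit 8899485457) (nat_lit 1672) (nat_lit 3918153342) (nat_lit 367) (nat_lit 5) (nat_lit 366) (nat_lit 5) (nat_lit 388) (nat_lit 5) (nat_lit 448) (nat_lit 437) (nat_lit 255))) (XT.nd (nat_lit 78) (nat_lit 0) (nat_lit 76) (XT.lf (nat_lit 76) (nat_lit 8276071107) (nat_lit 0) (nat_lit 3036079268) (nat_lit 1672) (nat_lit 3218821990) (nat_lit 367) (nat_lit 5) (nat_lit 366) (nat_lit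 5) (nat_lit 388) (nat_lit 5) (nat_lit 449) (nat_lit 437) (nat_lit 254)) (XT.lf (nat_lit 76) (nat_lit 419980179) (nat_lit 0) (nat_lit 11766714515) (nat_lit 1672) (nat_lit 2491480449) (nat_lit 368) (nat_lit 5) (nat_lit 367) (nat_lit 5) (nat_lit 389) (nat_lit 5) (nat_lit 450) (nat_lit 437) (nat_lit 253))))))))
noncomputable def xc221 : XT := (XT.nd (nat_lit 2106) (nat_lit 8588) (nat_lit 0) (XT.nd (nat_lit 1014) (nat_lit 4940) (nat_lit 0) (XT.nd (nat_lit 468) (nat_lit 1368) (nat_lit 0) (XT.nd (nat_lit 234) (nat_lit 0) (nat_lit 0) (XT.nd (nat_lit 78) (nat_lit 1596) (nat_lit 0) (XT.lf (nat_lit 76) (nat_lit 7287307875) (nat_lit 0) (nat_lit 5845404889) (nat_lit 1672) (nat_lit 1694537887) (nat_lit 368) (nat_lit 5) (nat_lit 367) (nat_lit 5) (nat_lit 389) (nat_lit 5) (nat_lit 451) (nat_lit 437) (nat_lit 252)) (XT.nd (nat_lit 78) (nat_lit 1672) (nat_lit 0) (XT.lf (nat_lit 0) (nat_lit 14091119995) (nat_lit 1596) (nat_lit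 694124899) (nat_lit 1672) (nat_lit 194201568) (nat_lit 368) (nat_lit 5) (nat_lit 389) (nat_lit 5) (nat_lit 390) (nat_lit 5) (nat_lit 452) (nat_lit 437) (nat_lit 251)) (XT.lf (nat_lit 0) (nat_lit 7497793) (nat_lit 1672) (nat_lit 8805845760) (nat_lit 1748) (nat_lit 6319906594) (nat_lit 346) (nat_lit 5) (nat_lit 368) (nat_lit 5) (nat_lit 369) (nat_lit 5) (nat_lit 453) (nat_lit 437) (nat_lit 250)))) (XT.nd (nat_lit 78) (nat_lit 0) (nat_lit 76) (XT.lf (nat_lit 0) (nat_lit 906460838) (nat_lit 1672) (nat_lit 1802679046) (nat_lit 1748) (nat_lit 12580937943) (nat_lit 346) (nat_lit 5) (nat_lit 368) (nat_lit 5) (nat_lit 369) (nat_lit 5) (nat_lit 454) (nat_lit 437) (nat_lit 249)) (XT.nd (nat_lit 78) (nat_lit 0) (nat_lit 0) (XT.lf (nat_lit 0) (nat_lit 1874149978) (nat_lit 1672) (nat_lit 10066519143) (nat_lit 1748) (nat_lit 3508365549) (nat_lit 347) (nat_lit 5) (nat_lit 369) (nat_lit 5) (nat_lit 370) (nat_lit 5) (nat_lit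 455) (nat_lit 437) (nat_lit 248)) (XT.lf (nat_lit 0) (nat_lit 2884000763) (nat_lit 1672) (nat_lit 2898625423) (nat_lit 1748) (nat_lit 9828095706) (nat_lit 347) (nat_lit 5) (nat_lit 369) (nat_lit 5) (nat_lit 370) (nat_lit 5) (nat_lit 456) (nat_lit 437) (nat_lit 247))))) (XT.nd (nat_lit 234) (nat_lit 1520) (nat_lit 0) (XT.nd (nat_lit 78) (nat_lit 0) (nat_lit 0) (XT.lf (nat_lit 0) (nat_lit 3939316686) (nat_lit 1672) (nat_lit 11312875100) (nat_lit 1748) (nat_lit 522952964) (nat_lit 348) (nat_lit 5) (nat_lit 370) (nat_lit 5) (nat_lit 371) (nat_lit 5) (nat_lit 457) (nat_lit 437) (nat_lit 246)) (XT.nd (nat_lit 78) (nat_lit 0) (nat_lit 0) (XT.lf (nat_lit 0) (nat_lit 5066563934) (nat_lit 1672) (nat_lit 3976757475) (nat_lit 1748) (nat_lit 6898525267) (nat_lit 348) (nat_lit 5) (nat_lit 370) (nat_lit 5) (nat_lit 371) (nat_lit 5) (nat_lit 458) (nat_lit 437) (nat_lit 245)) (XT.lf (nat_lit 76) (nat_lit 3547172601) (nat_lit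 0) (nat_lit 2685301720) (nat_lit 1748) (nat_lit 9879092929) (nat_lit 349) (nat_lit 5) (nat_lit 348) (nat_lit 5) (nat_lit 371) (nat_lit 5) (nat_lit 459) (nat_lit 437) (nat_lit 244)))) (XT.nd (nat_lit 156) (nat_lit 1596) (nat_lit 0) (XT.nd (nat_lit 78) (nat_lit 0) (nat_lit 0) (XT.lf (nat_lit 0) (nat_lit 7466434405) (nat_lit 1672) (nat_lit 5039057535) (nat_lit 1748) (nat_lit 3778302498) (nat_lit 349) (nat_lit 5) (nat_lit 371) (nat_lit 5) (nat_lit 372) (nat_lit 5) (nat_lit 460) (nat_lit 437) (nat_lit 243)) (XT.lf (nat_lit 76) (nat_lit 2648296298) (nat_lit 0) (nat_lit 6105086023) (nat_lit 1748) (nat_lit 7705524379) (nat_lit 350) (nat_lit 5) (nat_lit 349) (nat_lit 5) (nat_lit 372) (nat_lit 5) (nat_lit 461) (nat_lit 437) (nat_lit 242))) (XT.nd (nat_lit 78) (nat_lit 1672) (nat_lit 0) (XT.lf (nat_lit 0) (nat_lit 10096290353) (nat_lit 1672) (nat_lit 6087663720) (nat_lit 76) (nat_lit 452969281) (nat_lit 350) (nat_lit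 5) (nat_lit 372) (nat_lit 5) (nat_lit 351) (nat_lit 5) (nat_lit 462) (nat_lit 437) (nat_lit 241)) (XT.lf (nat_lit 0) (nat_lit 1767045489) (nat_lit 1672) (nat_lit 9744477629) (nat_lit 1748) (nat_lit 5306074333) (nat_lit 328) (nat_lit 5) (nat_lit 350) (nat_lit 5) (nat_lit 351) (nat_lit 5) (nat_lit 463) (nat_lit 437) (nat_lit 240)))))) (XT.nd (nat_lit 546) (nat_lit 2204) (nat_lit 0) (XT.nd (nat_lit 234) (nat_lit 1748) (nat_lit 0) (XT.nd (nat_lit 78) (nat_lit 988) (nat_lit 0) (XT.lf (nat_lit 0) (nat_lit 9855964069) (nat_lit 1672) (nat_lit 3133601737) (nat_lit 1748) (nat_lit 4011635433) (nat_lit 328) (nat_lit 5) (nat_lit 350) (nat_lit 5) (nat_lit 351) (nat_lit 5) (nat_lit 464) (nat_lit 437) (nat_lit 239)) (XT.nd (nat_lit 78) (nat_lit 0) (nat_lit 0) (XT.lf (nat_lit 0) (nat_lit 901131865) (nat_lit 988) (nat_lit 13619107709) (nat_lit 1064) (nat_lit 2667782315) (nat_lit 315) (nat_lit 5) (nat_lit 328) (nat_lit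 5) (nat_lit 329) (nat_lit 5) (nat_lit 465) (nat_lit 437) (nat_lit 238)) (XT.lf (nat_lit 0) (nat_lit 9178856152) (nat_lit 988) (nat_lit 6965105854) (nat_lit 1064) (nat_lit 1233374312) (nat_lit 315) (nat_lit 5) (nat_lit 328) (nat_lit 5) (nat_lit 329) (nat_lit 5) (nat_lit 466) (nat_lit 437) (nat_lit 237)))) (XT.nd (nat_lit 156) (nat_lit 836) (nat_lit 0) (XT.nd (nat_lit 78) (nat_lit 0) (nat_lit 0) (XT.lf (nat_lit 0) (nat_lit 45422097) (nat_lit 836) (nat_lit 175527416) (nat_lit 912) (nat_lit 17349578717) (nat_lit 303) (nat_lit 5) (nat_lit 314) (nat_lit 5) (nat_lit 315) (nat_lit 5) (nat_lit 467) (nat_lit 437) (nat_lit 236)) (XT.lf (nat_lit 0) (nat_lit 1781098960) (nat_lit 912) (nat_lit 9258979336) (nat_lit 76) (nat_lit 6725483271) (nat_lit 303) (nat_lit 5) (nat_lit 315) (nat_lit 5) (nat_lit 304) (nat_lit 5) (nat_lit 468) (nat_lit 437) (nat_lit 235))) (XT.nd (nat_lit 78) (nat_lit 836) (nat_lit 0) (XT.lf (nat_lit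 0) (nat_lit 3367764487) (nat_lit 912) (nat_lit 834058905) (nat_lit 76) (nat_lit 13762771523) (nat_lit 303) (nat_lit 5) (nat_lit 315) (nat_lit 5) (nat_lit 304) (nat_lit 5) (nat_lit 469) (nat_lit 437) (nat_lit 234)) (XT.lf (nat_lit 0) (nat_lit 5049788828) (nat_lit 912) (nat_lit 10327908610) (nat_lit 76) (nat_lit 2788644479) (nat_lit 292) (nat_lit 5) (nat_lit 304) (nat_lit 5) (nat_lit 293) (nat_lit 5) (nat_lit 470) (nat_lit 437) (nat_lit 233))))) (XT.nd (nat_lit 234) (nat_lit 1444) (nat_lit 0) (XT.nd (nat_lit 78) (nat_lit 760) (nat_lit 0) (XT.lf (nat_lit 0) (nat_lit 6793260991) (nat_lit 912) (nat_lit 1709542312) (nat_lit 76) (nat_lit 9868769800) (nat_lit 292) (nat_lit 5) (nat_lit 304) (nat_lit 5) (nat_lit 293) (nat_lit 5) (nat_lit 471) (nat_lit 437) (nat_lit 232)) (XT.nd (nat_lit 78) (nat_lit 0) (nat_lit 0) (XT.lf (nat_lit 0) (nat_lit 7169983869) (nat_lit 760) (nat_lit 1442628517) (nat_lit 836) (nat_lit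 9967481614) (nat_lit 282) (nat_lit 5) (nat_lit 292) (nat_lit 5) (nat_lit 293) (nat_lit 5) (nat_lit 472) (nat_lit 437) (nat_lit 231)) (XT.lf (nat_lit 0) (nat_lit 10511822376) (nat_lit 836) (nat_lit 2585072395) (nat_lit 76) (nat_lit 5695026293) (nat_lit 282) (nat_lit 5) (nat_lit 293) (nat_lit 5) (nat_lit 283) (nat_lit 5) (nat_lit 473) (nat_lit 437) (nat_lit 230)))) (XT.nd (nat_lit 156) (nat_lit 684) (nat_lit 0) (XT.nd (nat_lit 78) (nat_lit 0) (nat_lit 0) (XT.lf (nat_lit 0) (nat_lit 6486766995) (nat_lit 760) (nat_lit 6008561010) (nat_lit 836) (nat_lit 6511735514) (nat_lit 272) (nat_lit 5) (nat_lit 282) (nat_lit 5) (nat_lit 283) (nat_lit 5) (nat_lit 474) (nat_lit 437) (nat_lit 229)) (XT.lf (nat_lit 0) (nat_lit 14538610149) (nat_lit 836) (nat_lit 3464420721) (nat_lit 76) (nat_lit 1223080806) (nat_lit 272) (nat_lit 5) (nat_lit 283) (nat_lit 5) (nat_lit 273) (nat_lit 5) (nat_lit 475) (nat_lit 437) (nat_lit 228)))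 (XT.nd (nat_lit 78) (nat_lit 0) (nat_lit 0) (XT.lf (nat_lit 0) (nat_lit 5803703870) (nat_lit 684) (nat_lit 10891344291) (nat_lit 760) (nat_lit 2753051710) (nat_lit 263) (nat_lit 5) (nat_lit 272) (nat_lit 5) (nat_lit 273) (nat_lit 5) (nat_lit 476) (nat_lit 437) (nat_lit 227)) (XT.lf (nat_lit 0) (nat_lit 15298992704) (nat_lit 684) (nat_lit 3613755386) (nat_lit 760) (nat_lit 761421864) (nat_lit 263) (nat_lit 5) (nat_lit 272) (nat_lit 5) (nat_lit 273) (nat_lit 5) (nat_lit 477) (nat_lit 437) (nat_lit 226))))))) (XT.nd (nat_lit 1092) (nat_lit 3800) (nat_lit 0) (XT.nd (nat_lit 546) (nat_lit 1976) (nat_lit 0) (XT.nd (nat_lit 234) (nat_lit 1292) (nat_lit 0) (XT.nd (nat_lit 78) (nat_lit 684) (nat_lit 0) (XT.lf (nat_lit 0) (nat_lit 1306668450) (nat_lit 836) (nat_lit 14795668369) (nat_lit 76) (nat_lit 3801198606) (nat_lit 252) (nat_lit 5) (nat_lit 263) (nat_lit 5) (nat_lit 253) (nat_lit 5) (nat_lit 478) (nat_lit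 437) (nat_lit 225)) (XT.nd (nat_lit 78) (nat_lit 684) (nat_lit 0) (XT.lf (nat_lit 0) (nat_lit 3454433785) (nat_lit 836) (nat_lit 5331390944) (nat_lit 76) (nat_lit 11350597155) (nat_lit 252) (nat_lit 5) (nat_lit 263) (nat_lit 5) (nat_lit 253) (nat_lit 5) (nat_lit 479) (nat_lit 437) (nat_lit 224)) (XT.lf (nat_lit 0) (nat_lit 4374445886) (nat_lit 684) (nat_lit 1294220921) (nat_lit 760) (nat_lit 14704833436) (nat_lit 243) (nat_lit 5) (nat_lit 252) (nat_lit 5) (nat_lit 253) (nat_lit 5) (nat_lit 480) (nat_lit 437) (nat_lit 223)))) (XT.nd (nat_lit 156) (nat_lit 608) (nat_lit 0) (XT.nd (nat_lit 78) (nat_lit 684) (nat_lit 0) (XT.lf (nat_lit 0) (nat_lit 7999580215) (nat_lit 760) (nat_lit 6314547610) (nat_lit 76) (nat_lit 6299748766) (nat_lit 243) (nat_lit 5) (nat_lit 253) (nat_lit 5) (nat_lit 244) (nat_lit 5) (nat_lit 481) (nat_lit 437) (nat_lit 222)) (XT.lf (nat_lit 0) (nat_lit 3597193793) (nat_lit 684) (nat_lit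 6807111155) (nat_lit 760) (nat_lit 10454215907) (nat_lit 234) (nat_lit 5) (nat_lit 243) (nat_lit 5) (nat_lit 244) (nat_lit 5) (nat_lit 482) (nat_lit 437) (nat_lit 221))) (XT.nd (nat_lit 78) (nat_lit 608) (nat_lit 0) (XT.lf (nat_lit 0) (nat_lit 12900622336) (nat_lit 760) (nat_lit 7325369164) (nat_lit 76) (nat_lit 881200706) (nat_lit 234) (nat_lit 5) (nat_lit 244) (nat_lit 5) (nat_lit 235) (nat_lit 5) (nat_lit 483) (nat_lit 437) (nat_lit 220)) (XT.lf (nat_lit 0) (nat_lit 2795872192) (nat_lit 608) (nat_lit 12709642956) (nat_lit 684) (nat_lit 5854152941) (nat_lit 226) (nat_lit 5) (nat_lit 234) (nat_lit 5) (nat_lit 235) (nat_lit 5) (nat_lit 484) (nat_lit 437) (nat_lit 219))))) (XT.nd (nat_lit 234) (nat_lit 1216) (nat_lit 0) (XT.nd (nat_lit 78) (nat_lit 760) (nat_lit 0) (XT.lf (nat_lit 0) (nat_lit 13213844875) (nat_lit 608) (nat_lit 4993291712) (nat_lit 684) (nat_lit 3409168290) (nat_lit 226) (nat_lit 5) (nat_lit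 234) (nat_lit 5) (nat_lit 235) (nat_lit 5) (nat_lit 485) (nat_lit 437) (nat_lit 218)) (XT.nd (nat_lit 78) (nat_lit 76) (nat_lit 0) (XT.lf (nat_lit 0) (nat_lit 1964198860) (nat_lit 684) (nat_lit 19025585863) (nat_lit 760) (nat_lit 887753720) (nat_lit 217) (nat_lit 5) (nat_lit 226) (nat_lit 5) (nat_lit 227) (nat_lit 5) (nat_lit 486) (nat_lit 437) (nat_lit 217)) (XT.lf (nat_lit 0) (nat_lit 1747410077) (nat_lit 760) (nat_lit 9540168695) (nat_lit 76) (nat_lit 10854494834) (nat_lit 216) (nat_lit 5) (nat_lit 226) (nat_lit 5) (nat_lit 217) (nat_lit 5) (nat_lit 487) (nat_lit 437) (nat_lit 216)))) (XT.nd (nat_lit 156) (nat_lit 608) (nat_lit 0) (XT.nd (nat_lit 78) (nat_lit 0) (nat_lit 0) (XT.lf (nat_lit 0) (nat_lit 1043356151) (nat_lit 608) (nat_lit 3382487456) (nat_lit 684) (nat_lit 17985893136) (nat_lit 208) (nat_lit 5) (nat_lit 216) (nat_lit 5) (nat_lit 217) (nat_lit 5) (nat_lit 488) (nat_lit 437) (nat_lit 215))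 (XT.lf (nat_lit 0) (nat_lit 7248397111) (nat_lit 684) (nat_lit 10753423025) (nat_lit 76) (nat_lit 4683165607) (nat_lit 208) (nat_lit 5) (nat_lit 217) (nat_lit 5) (nat_lit 209) (nat_lit 5) (nat_lit 489) (nat_lit 437) (nat_lit 214))) (XT.nd (nat_lit 78) (nat_lit 0) (nat_lit 0) (XT.lf (nat_lit 0) (nat_lit 47182259) (nat_lit 608) (nat_lit 10098727845) (nat_lit 684) (nat_lit 12817423006) (nat_lit 200) (nat_lit 5) (nat_lit 208) (nat_lit 5) (nat_lit 209) (nat_lit 5) (nat_lit 490) (nat_lit 437) (nat_lit 213)) (XT.lf (nat_lit 0) (nat_lit 11204727509) (nat_lit 608) (nat_lit 1964659393) (nat_lit 684) (nat_lit 10076503738) (nat_lit 200) (nat_lit 5) (nat_lit 208) (nat_lit 5) (nat_lit 209) (nat_lit 5) (nat_lit 491) (nat_lit 437) (nat_lit 212)))))) (XT.nd (nat_lit 546) (nat_lit 2052) (nat_lit 0) (XT.nd (nat_lit 234) (nat_lit 1216) (nat_lit 0) (XT.nd (nat_lit 78) (nat_lit 532) (nat_lit 0) (XT.lf (nat_lit 0) (nat_lit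 16290374718) (nat_lit 684) (nat_lit 994610904) (nat_lit 76) (nat_lit 6248376287) (nat_lit 200) (nat_lit 5) (nat_lit 209) (nat_lit 5) (nat_lit 201) (nat_lit 5) (nat_lit 492) (nat_lit 437) (nat_lit 211)) (XT.nd (nat_lit 78) (nat_lit 0) (nat_lit 0) (XT.lf (nat_lit 0) (nat_lit 10391418152) (nat_lit 532) (nat_lit 9158852273) (nat_lit 608) (nat_lit 4274785767) (nat_lit 193) (nat_lit 5) (nat_lit 200) (nat_lit 5) (nat_lit 201) (nat_lit 5) (nat_lit 493) (nat_lit 437) (nat_lit 210)) (XT.lf (nat_lit 0) (nat_lit 22013952567) (nat_lit 532) (nat_lit 864142761) (nat_lit 608) (nat_lit 1244437692) (nat_lit 193) (nat_lit 5) (nat_lit 200) (nat_lit 5) (nat_lit 201) (nat_lit 5) (nat_lit 494) (nat_lit 437) (nat_lit 209)))) (XT.nd (nat_lit 156) (nat_lit 532) (nat_lit 0) (XT.nd (nat_lit 78) (nat_lit 0) (nat_lit 0) (XT.lf (nat_lit 0) (nat_lit 1930227101) (nat_lit 684) (nat_lit 14922766554) (nat_lit 76) (nat_lit 7570570566) (nat_lit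 184) (nat_lit 5) (nat_lit 193) (nat_lit 5) (nat_lit 185) (nat_lit 5) (nat_lit 495) (nat_lit 437) (nat_lit 208)) (XT.lf (nat_lit 0) (nat_lit 5167850624) (nat_lit 684) (nat_lit 3378149726) (nat_lit 76) (nat_lit 16184131709) (nat_lit 184) (nat_lit 5) (nat_lit 193) (nat_lit 5) (nat_lit 185) (nat_lit 5) (nat_lit 496) (nat_lit 437) (nat_lit 207))) (XT.nd (nat_lit 78) (nat_lit 0) (nat_lit 0) (XT.lf (nat_lit 0) (nat_lit 8504282305) (nat_lit 532) (nat_lit 17381996) (nat_lit 608) (nat_lit 16520141234) (nat_lit 177) (nat_lit 5) (nat_lit 184) (nat_lit 5) (nat_lit 185) (nat_lit 5) (nat_lit 497) (nat_lit 437) (nat_lit 206)) (XT.lf (nat_lit 0) (nat_lit 12018002661) (nat_lit 608) (nat_lit 4750276714) (nat_lit 76) (nat_lit 8589927113) (nat_lit 177) (nat_lit 5) (nat_lit 185) (nat_lit 5) (nat_lit 178) (nat_lit 5) (nat_lit 498) (nat_lit 437) (nat_lit 205))))) (XT.nd (nat_lit 234) (nat_lit 1064) (nat_lit 0) (XT.nd (nat_lit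 78) (nat_lit 456) (nat_lit 0) (XT.lf (nat_lit 0) (nat_lit 7364625145) (nat_lit 532) (nat_lit 8263908156) (nat_lit 608) (nat_lit 10051519766) (nat_lit 170) (nat_lit 5) (nat_lit 177) (nat_lit 5) (nat_lit 178) (nat_lit 5) (nat_lit 499) (nat_lit 437) (nat_lit 204)) (XT.nd (nat_lit 78) (nat_lit 456) (nat_lit 0) (XT.lf (nat_lit 0) (nat_lit 19342398991) (nat_lit 608) (nat_lit 6228961676) (nat_lit 76) (nat_lit 436356281) (nat_lit 170) (nat_lit 5) (nat_lit 178) (nat_lit 5) (nat_lit 171) (nat_lit 5) (nat_lit 500) (nat_lit 437) (nat_lit 203)) (XT.lf (nat_lit 0) (nat_lit 6120262352) (nat_lit 456) (nat_lit 17101186382) (nat_lit 532) (nat_lit 3118670043) (nat_lit 164) (nat_lit 5) (nat_lit 170) (nat_lit 5) (nat_lit 171) (nat_lit 5) (nat_lit 501) (nat_lit 437) (nat_lit 202)))) (XT.nd (nat_lit 156) (nat_lit 456) (nat_lit 0) (XT.nd (nat_lit 78) (nat_lit 532) (nat_lit 0) (XT.lf (nat_lit 0) (nat_lit 530900676) (nat_lit 532)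 (nat_lit 7885474767) (nat_lit 76) (nat_lit 18261960444) (nat_lit 163) (nat_lit 5) (nat_lit 170) (nat_lit 5) (nat_lit 164) (nat_lit 5) (nat_lit 502) (nat_lit 437) (nat_lit 201)) (XT.lf (nat_lit 0) (nat_lit 4242200598) (nat_lit 608) (nat_lit 22293000151) (nat_lit 76) (nat_lit 487097011) (nat_lit 156) (nat_lit 5) (nat_lit 164) (nat_lit 5) (nat_lit 157) (nat_lit 5) (nat_lit 503) (nat_lit 437) (nat_lit 200))) (XT.nd (nat_lit 78) (nat_lit 456) (nat_lit 0) (XT.lf (nat_lit 0) (nat_lit 8133289517) (nat_lit 608) (nat_lit 9729392391) (nat_lit 76) (nat_lit 9508348290) (nat_lit 156) (nat_lit 5) (nat_lit 164) (nat_lit 5) (nat_lit 157) (nat_lit 5) (nat_lit 504) (nat_lit 437) (nat_lit 199)) (XT.lf (nat_lit 0) (nat_lit 3122042559) (nat_lit 456) (nat_lit 8997054785) (nat_lit 532) (nat_lit 15607304540) (nat_lit 150) (nat_lit 5) (nat_lit 156) (nat_lit 5) (nat_lit 157) (nat_lit 5) (nat_lit 505) (nat_lit 437) (nat_lit 198))))))))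
noncomputable def xc222 : XT := (XT.nd (nat_lit 55536) (nat_lit 0) (nat_lit 7828) (XT.nd (nat_lit 54444) (nat_lit 0) (nat_lit 16340) (XT.nd (nat_lit 468) (nat_lit 456) (nat_lit 0) (XT.nd (nat_lit 234) (nat_lit 532) (nat_lit 0) (XT.nd (nat_lit 78) (nat_lit 456) (nat_lit 0) (XT.lf (nat_lit 0) (nat_lit 16247298878) (nat_lit 532) (nat_lit 11730339582) (nat_lit 76) (nat_lit 109991482) (nat_lit 150) (nat_lit 5) (nat_lit 157) (nat_lit 5) (nat_lit 151) (nat_lit 5) (nat_lit 506) (nat_lit 437) (nat_lit 197)) (XT.nd (nat_lit 78) (nat_lit 0) (nat_lit 0) (XT.lf (nat_lit 0) (nat_lit 1355010623) (nat_lit 456) (nat_lit 19168158032) (nat_lit 532) (nat_lit 7931614263) (nat_lit 144) (nat_lit 5) (nat_lit 150) (nat_lit 5) (nat_lit 151) (nat_lit 5) (nat_lit 507) (nat_lit 437) (nat_lit 196)) (XT.lf (nat_lit 0) (nat_lit 14856766218) (nat_lit 456) (nat_lit 10103266071) (nat_lit 532) (nat_lit 3867739528) (nat_lit 144) (nat_lit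 5) (nat_lit 150) (nat_lit 5) (nat_lit 151) (nat_lit 5) (nat_lit 508) (nat_lit 437) (nat_lit 195)))) (XT.nd (nat_lit 78) (nat_lit 456) (nat_lit 0) (XT.lf (nat_lit 0) (nat_lit 270574274) (nat_lit 532) (nat_lit 585734501) (nat_lit 76) (nat_lit 28351941998) (nat_lit 143) (nat_lit 5) (nat_lit 150) (nat_lit 5) (nat_lit 144) (nat_lit 5) (nat_lit 509) (nat_lit 437) (nat_lit 194)) (XT.nd (nat_lit 78) (nat_lit 0) (nat_lit 0) (XT.lf (nat_lit 0) (nat_lit 4578958267) (nat_lit 532) (nat_lit 16439883304) (nat_lit 76) (nat_lit 8574206818) (nat_lit 137) (nat_lit 5) (nat_lit 144) (nat_lit 5) (nat_lit 138) (nat_lit 5) (nat_lit 510) (nat_lit 437) (nat_lit 193)) (XT.lf (nat_lit 0) (nat_lit 8980027776) (nat_lit 532) (nat_lit 2820593783) (nat_lit 76) (nat_lit 18184792252) (nat_lit 137) (nat_lit 5) (nat_lit 144) (nat_lit 5) (nat_lit 138) (nat_lit 5) (nat_lit 511) (nat_lit 437) (nat_lit 192))))) (XT.nd (nat_lit 53664) (nat_lit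 0) (nat_lit 17556) (XT.nd (nat_lit 78) (nat_lit 0) (nat_lit 0) (XT.lf (nat_lit 0) (nat_lit 11214022173) (nat_lit 456) (nat_lit 2324856646) (nat_lit 532) (nat_lit 16845354687) (nat_lit 131) (nat_lit 5) (nat_lit 137) (nat_lit 5) (nat_lit 138) (nat_lit 5) (nat_lit 512) (nat_lit 437) (nat_lit 191)) (XT.nd (nat_lit 53508) (nat_lit 0) (nat_lit 17556) (XT.lf (nat_lit 0) (nat_lit 18252596116) (nat_lit 532) (nat_lit 5275032386) (nat_lit 76) (nat_lit 7262129435) (nat_lit 131) (nat_lit 5) (nat_lit 138) (nat_lit 5) (nat_lit 132) (nat_lit 5) (nat_lit 513) (nat_lit 437) (nat_lit 190)) (XT.lf (nat_lit 0) (nat_lit 1157797450) (nat_lit 0) (nat_lit 1157797450) (nat_lit 1596) (nat_lit 4275943158) (nat_lit 362) (nat_lit 5) (nat_lit 362) (nat_lit 3) (nat_lit 383) (nat_lit 3) (nat_lit 438) (nat_lit 438) (nat_lit 264)))) (XT.nd (nat_lit 156) (nat_lit 0) (nat_lit 76) (XT.nd (nat_lit 78) (nat_lit 0) (nat_lit 0) (XT.lf (nat_lit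 0) (nat_lit 5065904607) (nat_lit 1596) (nat_lit 5058579944) (nat_lit 1672) (nat_lit 3182267050) (nat_lit 362) (nat_lit 5) (nat_lit 383) (nat_lit 3) (nat_lit 384) (nat_lit 5) (nat_lit 439) (nat_lit 438) (nat_lit 263)) (XT.lf (nat_lit 76) (nat_lit 857355034) (nat_lit 0) (nat_lit 4663252759) (nat_lit 1672) (nat_lit 7912077078) (nat_lit 363) (nat_lit 5) (nat_lit 362) (nat_lit 5) (nat_lit 384) (nat_lit 5) (nat_lit 440) (nat_lit 438) (nat_lit 262))) (XT.nd (nat_lit 78) (nat_lit 0) (nat_lit 0) (XT.lf (nat_lit 0) (nat_lit 6015042809) (nat_lit 1596) (nat_lit 6611641905) (nat_lit 1672) (nat_lit 933849294) (nat_lit 363) (nat_lit 5) (nat_lit 384) (nat_lit 5) (nat_lit 385) (nat_lit 5) (nat_lit 441) (nat_lit 438) (nat_lit 261)) (XT.lf (nat_lit 0) (nat_lit 6541010817) (nat_lit 1596) (nat_lit 564707913) (nat_lit 1672) (nat_lit 6584798276) (nat_lit 363) (nat_lit 5) (nat_lit 384) (nat_lit 5) (nat_lit 385) (nat_lit 5) (nat_lit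 442) (nat_lit 438) (nat_lit 260)))))) (XT.nd (nat_lit 546) (nat_lit 1292) (nat_lit 0) (XT.nd (nat_lit 234) (nat_lit 0) (nat_lit 152) (XT.nd (nat_lit 78) (nat_lit 0) (nat_lit 76) (XT.lf (nat_lit 76) (nat_lit 5672516491) (nat_lit 0) (nat_lit 1432754396) (nat_lit 1672) (nat_lit 6717282893) (nat_lit 364) (nat_lit 5) (nat_lit 363) (nat_lit 5) (nat_lit 385) (nat_lit 5) (nat_lit 443) (nat_lit 438) (nat_lit 259)) (XT.nd (nat_lit 78) (nat_lit 0) (nat_lit 0) (XT.lf (nat_lit 0) (nat_lit 7704010993) (nat_lit 1596) (nat_lit 1948531462) (nat_lit 1672) (nat_lit 4304234320) (nat_lit 364) (nat_lit 5) (nat_lit 385) (nat_lit 5) (nat_lit 386) (nat_lit 5) (nat_lit 444) (nat_lit 438) (nat_lit 258)) (XT.lf (nat_lit 76) (nat_lit 4420368293) (nat_lit 0) (nat_lit 3923833601) (nat_lit 1672) (nat_lit 5748902016) (nat_lit 365) (nat_lit 5) (nat_lit 364) (nat_lit 5) (nat_lit 386) (nat_lit 5) (nat_lit 445) (nat_lit 438) (nat_lit 257))))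 (XT.nd (nat_lit 156) (nat_lit 0) (nat_lit 0) (XT.nd (nat_lit 78) (nat_lit 0) (nat_lit 0) (XT.lf (nat_lit 0) (nat_lit 9014269245) (nat_lit 1596) (nat_lit 3306677234) (nat_lit 1672) (nat_lit 1910878677) (nat_lit 365) (nat_lit 5) (nat_lit 386) (nat_lit 5) (nat_lit 387) (nat_lit 5) (nat_lit 446) (nat_lit 438) (nat_lit 256)) (XT.lf (nat_lit 76) (nat_lit 3197464610) (nat_lit 0) (nat_lit 6538634757) (nat_lit 1672) (nat_lit 4636463071) (nat_lit 366) (nat_lit 5) (nat_lit 365) (nat_lit 5) (nat_lit 387) (nat_lit 5) (nat_lit 447) (nat_lit 438) (nat_lit 255))) (XT.nd (nat_lit 78) (nat_lit 0) (nat_lit 76) (XT.lf (nat_lit 76) (nat_lit 9871358920) (nat_lit 0) (nat_lit 614943368) (nat_lit 1672) (nat_lit 4029542124) (nat_lit 366) (nat_lit 5) (nat_lit 365) (nat_lit 5) (nat_lit 387) (nat_lit 5) (nat_lit 448) (nat_lit 438) (nat_lit 254)) (XT.lf (nat_lit 76) (nat_lit 2002523147) (nat_lit 0) (nat_lit 9289153166) (nat_lit 1672)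 (nat_lit 3369520869) (nat_lit 367) (nat_lit 5) (nat_lit 366) (nat_lit 5) (nat_lit 388) (nat_lit 5) (nat_lit 449) (nat_lit 438) (nat_lit 253))))) (XT.nd (nat_lit 234) (nat_lit 1520) (nat_lit 0) (XT.nd (nat_lit 78) (nat_lit 0) (nat_lit 76) (XT.lf (nat_lit 76) (nat_lit 8836094810) (nat_lit 0) (nat_lit 3304328305) (nat_lit 1672) (nat_lit 2668496921) (nat_lit 367) (nat_lit 5) (nat_lit 366) (nat_lit 5) (nat_lit 388) (nat_lit 5) (nat_lit 450) (nat_lit 438) (nat_lit 252)) (XT.nd (nat_lit 78) (nat_lit 0) (nat_lit 0) (XT.lf (nat_lit 76) (nat_lit 834213605) (nat_lit 0) (nat_lit 12187754166) (nat_lit 1672) (nat_lit 1937321284) (nat_lit 368) (nat_lit 5) (nat_lit 367) (nat_lit 5) (nat_lit 389) (nat_lit 5) (nat_lit 451) (nat_lit 438) (nat_lit 251)) (XT.lf (nat_lit 76) (nat_lit 7830930329) (nat_lit 0) (nat_lit 6144377066) (nat_lit 1672) (nat_lit 1136282788) (nat_lit 368) (nat_lit 5) (nat_lit 367) (nat_lit 5) (nat_lit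 389) (nat_lit 5) (nat_lit 452) (nat_lit 438) (nat_lit 250)))) (XT.nd (nat_lit 156) (nat_lit 0) (nat_lit 0) (XT.nd (nat_lit 78) (nat_lit 1672) (nat_lit 0) (XT.lf (nat_lit 0) (nat_lit 14940352488) (nat_lit 1596) (nat_lit 304807536) (nat_lit 1672) (nat_lit 21932387) (nat_lit 368) (nat_lit 5) (nat_lit 389) (nat_lit 5) (nat_lit 390) (nat_lit 5) (nat_lit 453) (nat_lit 438) (nat_lit 249)) (XT.lf (nat_lit 0) (nat_lit 570809466) (nat_lit 1672) (nat_lit 8573359640) (nat_lit 1748) (nat_lit 6279911128) (nat_lit 346) (nat_lit 5) (nat_lit 368) (nat_lit 5) (nat_lit 369) (nat_lit 5) (nat_lit 454) (nat_lit 438) (nat_lit 248))) (XT.nd (nat_lit 78) (nat_lit 0) (nat_lit 76) (XT.lf (nat_lit 0) (nat_lit 1476709385) (nat_lit 1672) (nat_lit 1438141416) (nat_lit 1748) (nat_lit 12669425724) (nat_lit 346) (nat_lit 5) (nat_lit 368) (nat_lit 5) (nat_lit 369) (nat_lit 5) (nat_lit 455) (nat_lit 438) (nat_lit 247)) (XT.lf (nat_lit 0)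 (nat_lit 2454562812) (nat_lit 1672) (nat_lit 9857519337) (nat_lit 1748) (nat_lit 3434525136) (nat_lit 347) (nat_lit 5) (nat_lit 369) (nat_lit 5) (nat_lit 370) (nat_lit 5) (nat_lit 456) (nat_lit 438) (nat_lit 246))))))) (XT.nd (nat_lit 1092) (nat_lit 5244) (nat_lit 0) (XT.nd (nat_lit 546) (nat_lit 3344) (nat_lit 0) (XT.nd (nat_lit 234) (nat_lit 0) (nat_lit 76) (XT.nd (nat_lit 78) (nat_lit 0) (nat_lit 76) (XT.lf (nat_lit 0) (nat_lit 3473964930) (nat_lit 1672) (nat_lit 2554313433) (nat_lit 1748) (nat_lit 9883473577) (nat_lit 347) (nat_lit 5) (nat_lit 369) (nat_lit 5) (nat_lit 370) (nat_lit 5) (nat_lit 457) (nat_lit 438) (nat_lit 245)) (XT.nd (nat_lit 78) (nat_lit 0) (nat_lit 0) (XT.lf (nat_lit 0) (nat_lit 4541734631) (nat_lit 1672) (nat_lit 11127667416) (nat_lit 1748) (nat_lit 410244820) (nat_lit 348) (nat_lit 5) (nat_lit 370) (nat_lit 5) (nat_lit 371) (nat_lit 5) (nat_lit 458) (nat_lit 438) (nat_lit 244))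 (XT.lf (nat_lit 0) (nat_lit 5681259537) (nat_lit 1672) (nat_lit 3652895385) (nat_lit 1748) (nat_lit 6915743612) (nat_lit 348) (nat_lit 5) (nat_lit 370) (nat_lit 5) (nat_lit 371) (nat_lit 5) (nat_lit 459) (nat_lit 438) (nat_lit 243)))) (XT.nd (nat_lit 156) (nat_lit 0) (nat_lit 76) (XT.nd (nat_lit 78) (nat_lit 0) (nat_lit 76) (XT.lf (nat_lit 76) (nat_lit 4018859364) (nat_lit 0) (nat_lit 2844164691) (nat_lit 1748) (nat_lit 9560148897) (nat_lit 349) (nat_lit 5) (nat_lit 348) (nat_lit 5) (nat_lit 371) (nat_lit 5) (nat_lit 460) (nat_lit 438) (nat_lit 242)) (XT.lf (nat_lit 0) (nat_lit 8111074367) (nat_lit 1672) (nat_lit 4735866429) (nat_lit 1748) (nat_lit 3752125622) (nat_lit 349) (nat_lit 5) (nat_lit 371) (nat_lit 5) (nat_lit 372) (nat_lit 5) (nat_lit 461) (nat_lit 438) (nat_lit 241))) (XT.nd (nat_lit 78) (nat_lit 0) (nat_lit 76) (XT.lf (nat_lit 76) (nat_lit 3102576768) (nat_lit 0) (nat_lit 6314078088) (nat_lit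 1748) (nat_lit 7361177955) (nat_lit 350) (nat_lit 5) (nat_lit 349) (nat_lit 5) (nat_lit 372) (nat_lit 5) (nat_lit 462) (nat_lit 438) (nat_lit 240)) (XT.lf (nat_lit 0) (nat_lit 10776295316) (nat_lit 1672) (nat_lit 5805367273) (nat_lit 76) (nat_lit 377959292) (nat_lit 350) (nat_lit 5) (nat_lit 372) (nat_lit 5) (nat_lit 351) (nat_lit 5) (nat_lit 463) (nat_lit 438) (nat_lit 239))))) (XT.nd (nat_lit 234) (nat_lit 912) (nat_lit 0) (XT.nd (nat_lit 78) (nat_lit 988) (nat_lit 0) (XT.lf (nat_lit 0) (nat_lit 2203777900) (nat_lit 1672) (nat_lit 10009286836) (nat_lit 1748) (nat_lit 4930989464) (nat_lit 328) (nat_lit 5) (nat_lit 350) (nat_lit 5) (nat_lit 351) (nat_lit 5) (nat_lit 464) (nat_lit 438) (nat_lit 238)) (XT.nd (nat_lit 78) (nat_lit 988) (nat_lit 0) (XT.lf (nat_lit 0) (nat_lit 10446604429) (nat_lit 1672) (nat_lit 3264822453) (nat_lit 1748) (nat_lit 3620097205) (nat_lit 328) (nat_lit 5) (nat_lit 350) (nat_lit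 5) (nat_lit 351) (nat_lit 5) (nat_lit 465) (nat_lit 438) (nat_lit 237)) (XT.lf (nat_lit 0) (nat_lit 1320166117) (nat_lit 988) (nat_lit 13945655114) (nat_lit 1064) (nat_lit 2256406792) (nat_lit 315) (nat_lit 5) (nat_lit 328) (nat_lit 5) (nat_lit 329) (nat_lit 5) (nat_lit 466) (nat_lit 438) (nat_lit 236)))) (XT.nd (nat_lit 156) (nat_lit 0) (nat_lit 0) (XT.nd (nat_lit 78) (nat_lit 912) (nat_lit 0) (XT.lf (nat_lit 0) (nat_lit 9755581917) (nat_lit 988) (nat_lit 7157511158) (nat_lit 1064) (nat_lit 802423005) (nat_lit 315) (nat_lit 5) (nat_lit 328) (nat_lit 5) (nat_lit 329) (nat_lit 5) (nat_lit 467) (nat_lit 438) (nat_lit 235)) (XT.lf (nat_lit 0) (nat_lit 443259298) (nat_lit 836) (nat_lit 225513065) (nat_lit 912) (nat_lit 17243873585) (nat_lit 303) (nat_lit 5) (nat_lit 314) (nat_lit 5) (nat_lit 315) (nat_lit 5) (nat_lit 468) (nat_lit 438) (nat_lit 234))) (XT.nd (nat_lit 78) (nat_lit 0) (nat_lit 0) (XT.lf (nat_lit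 0) (nat_lit 2251134776) (nat_lit 912) (nat_lit 9045606617) (nat_lit 76) (nat_lit 6815026689) (nat_lit 303) (nat_lit 5) (nat_lit 315) (nat_lit 5) (nat_lit 304) (nat_lit 5) (nat_lit 469) (nat_lit 438) (nat_lit 233)) (XT.lf (nat_lit 0) (nat_lit 3861015695) (nat_lit 912) (nat_lit 460002528) (nat_lit 76) (nat_lit 13993942397) (nat_lit 303) (nat_lit 5) (nat_lit 315) (nat_lit 5) (nat_lit 304) (nat_lit 5) (nat_lit 470) (nat_lit 438) (nat_lit 232)))))) (XT.nd (nat_lit 546) (nat_lit 2204) (nat_lit 0) (XT.nd (nat_lit 234) (nat_lit 1444) (nat_lit 0) (XT.nd (nat_lit 78) (nat_lit 760) (nat_lit 0) (XT.lf (nat_lit 0) (nat_lit 5570642755) (nat_lit 912) (nat_lit 10137291191) (nat_lit 76) (nat_lit 2812937378) (nat_lit 292) (nat_lit 5) (nat_lit 304) (nat_lit 5) (nat_lit 293) (nat_lit 5) (nat_lit 471) (nat_lit 438) (nat_lit 231)) (XT.nd (nat_lit 78) (nat_lit 760) (nat_lit 0) (XT.lf (nat_lit 0) (nat_lit 7340751848) (nat_lit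 912) (nat_lit 1354345323) (nat_lit 76) (nat_lit 10035282461) (nat_lit 292) (nat_lit 5) (nat_lit 304) (nat_lit 5) (nat_lit 293) (nat_lit 5) (nat_lit 472) (nat_lit 438) (nat_lit 230)) (XT.lf (nat_lit 0) (nat_lit 7700209620) (nat_lit 760) (nat_lit 1490721093) (nat_lit 836) (nat_lit 9752259121) (nat_lit 282) (nat_lit 5) (nat_lit 292) (nat_lit 5) (nat_lit 293) (nat_lit 5) (nat_lit 473) (nat_lit 438) (nat_lit 229)))) (XT.nd (nat_lit 156) (nat_lit 684) (nat_lit 0) (XT.nd (nat_lit 78) (nat_lit 760) (nat_lit 0) (XT.lf (nat_lit 0) (nat_lit 11120040352) (nat_lit 836) (nat_lit 2249070864) (nat_lit 76) (nat_lit 5790311457) (nat_lit 282) (nat_lit 5) (nat_lit 293) (nat_lit 5) (nat_lit 283) (nat_lit 5) (nat_lit 474) (nat_lit 438) (nat_lit 228)) (XT.lf (nat_lit 0) (nat_lit 7001654637) (nat_lit 760) (nat_lit 6136258563) (nat_lit 836) (nat_lit 6241068232) (nat_lit 272) (nat_lit 5) (nat_lit 282) (nat_lit 5) (nat_lit 283)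 (nat_lit 5) (nat_lit 475) (nat_lit 438) (nat_lit 227))) (XT.nd (nat_lit 78) (nat_lit 684) (nat_lit 0) (XT.lf (nat_lit 0) (nat_lit 15214313496) (nat_lit 836) (nat_lit 3147998815) (nat_lit 76) (nat_lit 1240260439) (nat_lit 272) (nat_lit 5) (nat_lit 283) (nat_lit 5) (nat_lit 273) (nat_lit 5) (nat_lit 476) (nat_lit 438) (nat_lit 226)) (XT.lf (nat_lit 0) (nat_lit 6302950700) (nat_lit 684) (nat_lit 11105869712) (nat_lit 760) (nat_lit 2420288605) (nat_lit 263) (nat_lit 5) (nat_lit 272) (nat_lit 5) (nat_lit 273) (nat_lit 5) (nat_lit 477) (nat_lit 438) (nat_lit 225))))) (XT.nd (nat_lit 234) (nat_lit 1368) (nat_lit 0) (XT.nd (nat_lit 78) (nat_lit 836) (nat_lit 0) (XT.lf (nat_lit 0) (nat_lit 15980632118) (nat_lit 684) (nat_lit 3682793763) (nat_lit 760) (nat_lit 396430557) (nat_lit 263) (nat_lit 5) (nat_lit 272) (nat_lit 5) (nat_lit 273) (nat_lit 5) (nat_lit 478) (nat_lit 438) (nat_lit 224)) (XT.nd (nat_lit 78) (nat_lit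 0) (nat_lit 0) (XT.lf (nat_lit 0) (nat_lit 1703187658) (nat_lit 836) (nat_lit 14705411719) (nat_lit 76) (nat_lit 3885264114) (nat_lit 252) (nat_lit 5) (nat_lit 263) (nat_lit 5) (nat_lit 253) (nat_lit 5) (nat_lit 479) (nat_lit 438) (nat_lit 223)) (XT.lf (nat_lit 0) (nat_lit 3886645832) (nat_lit 836) (nat_lit 5059420706) (nat_lit 76) (nat_lit 11585492956) (nat_lit 252) (nat_lit 5) (nat_lit 263) (nat_lit 5) (nat_lit 253) (nat_lit 5) (nat_lit 480) (nat_lit 438) (nat_lit 222)))) (XT.nd (nat_lit 156) (nat_lit 684) (nat_lit 0) (XT.nd (nat_lit 78) (nat_lit 0) (nat_lit 0) (XT.lf (nat_lit 0) (nat_lit 4838042084) (nat_lit 684) (nat_lit 1302443304) (nat_lit 760) (nat_lit 14632994035) (nat_lit 243) (nat_lit 5) (nat_lit 252) (nat_lit 5) (nat_lit 253) (nat_lit 5) (nat_lit 481) (nat_lit 438) (nat_lit 221)) (XT.lf (nat_lit 0) (nat_lit 8511101150) (nat_lit 760) (nat_lit 6064874413) (nat_lit 76) (nat_lit 6442832364) (nat_lit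 243) (nat_lit 5) (nat_lit 253) (nat_lit 5) (nat_lit 244) (nat_lit 5) (nat_lit 482) (nat_lit 438) (nat_lit 220))) (XT.nd (nat_lit 78) (nat_lit 0) (nat_lit 0) (XT.lf (nat_lit 0) (nat_lit 4042628370) (nat_lit 684) (nat_lit 6916824225) (nat_lit 760) (nat_lit 10308988026) (nat_lit 234) (nat_lit 5) (nat_lit 243) (nat_lit 5) (nat_lit 244) (nat_lit 5) (nat_lit 483) (nat_lit 438) (nat_lit 219)) (XT.lf (nat_lit 0) (nat_lit 13499059433) (nat_lit 760) (nat_lit 7098768943) (nat_lit 76) (nat_lit 924395828) (nat_lit 234) (nat_lit 5) (nat_lit 244) (nat_lit 5) (nat_lit 235) (nat_lit 5) (nat_lit 484) (nat_lit 438) (nat_lit 218))))))))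
noncomputable def xc223 : XT := (XT.nd (nat_lit 2106) (nat_lit 456) (nat_lit 0) (XT.nd (nat_lit 1014) (nat_lit 3572) (nat_lit 0) (XT.nd (nat_lit 468) (nat_lit 1824) (nat_lit 0) (XT.nd (nat_lit 234) (nat_lit 684) (nat_lit 0) (XT.nd (nat_lit 78) (nat_lit 684) (nat_lit 0) (XT.lf (nat_lit 0) (nat_lit 3222442585) (nat_lit 608) (nat_lit 12929339048) (nat_lit 684) (nat_lit 5628059288) (nat_lit 226) (nat_lit 5) (nat_lit 234) (nat_lit 5) (nat_lit 235) (nat_lit 5) (nat_lit 485) (nat_lit 438) (nat_lit 217)) (XT.nd (nat_lit 78) (nat_lit 684) (nat_lit 0) (XT.lf (nat_lit 0) (nat_lit 13841507017) (nat_lit 608) (nat_lit 5059337187) (nat_lit 684) (nat_lit 3140903900) (nat_lit 226) (nat_lit 5) (nat_lit 234) (nat_lit 5) (nat_lit 235) (nat_lit 5) (nat_lit 486) (nat_lit 438) (nat_lit 216)) (XT.lf (nat_lit 0) (nat_lit 2371096839) (nat_lit 684) (nat_lit 19364188479) (nat_lit 760) (nat_lit 573003939) (nat_lit 217) (nat_lit 5)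 (nat_lit 226) (nat_lit 5) (nat_lit 227) (nat_lit 5) (nat_lit 487) (nat_lit 438) (nat_lit 215)))) (XT.nd (nat_lit 78) (nat_lit 608) (nat_lit 0) (XT.lf (nat_lit 0) (nat_lit 2104068077) (nat_lit 760) (nat_lit 9366016075) (nat_lit 76) (nat_lit 11108121975) (nat_lit 216) (nat_lit 5) (nat_lit 226) (nat_lit 5) (nat_lit 217) (nat_lit 5) (nat_lit 488) (nat_lit 438) (nat_lit 214)) (XT.nd (nat_lit 78) (nat_lit 0) (nat_lit 0) (XT.lf (nat_lit 0) (nat_lit 1426778242) (nat_lit 608) (nat_lit 3405337947) (nat_lit 684) (nat_lit 18021230805) (nat_lit 208) (nat_lit 5) (nat_lit 216) (nat_lit 5) (nat_lit 217) (nat_lit 5) (nat_lit 489) (nat_lit 438) (nat_lit 213)) (XT.lf (nat_lit 0) (nat_lit 7705175422) (nat_lit 684) (nat_lit 10606836010) (nat_lit 76) (nat_lit 4820173730) (nat_lit 208) (nat_lit 5) (nat_lit 217) (nat_lit 5) (nat_lit 209) (nat_lit 5) (nat_lit 490) (nat_lit 438) (nat_lit 212))))) (XT.nd (nat_lit 234) (nat_lit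 1216) (nat_lit 0) (XT.nd (nat_lit 78) (nat_lit 0) (nat_lit 0) (XT.lf (nat_lit 0) (nat_lit 407402067) (nat_lit 608) (nat_lit 10249455338) (nat_lit 684) (nat_lit 12759322875) (nat_lit 200) (nat_lit 5) (nat_lit 208) (nat_lit 5) (nat_lit 209) (nat_lit 5) (nat_lit 491) (nat_lit 438) (nat_lit 211)) (XT.nd (nat_lit 78) (nat_lit 0) (nat_lit 0) (XT.lf (nat_lit 0) (nat_lit 11781053592) (nat_lit 608) (nat_lit 1953710362) (nat_lit 684) (nat_lit 9969750880) (nat_lit 200) (nat_lit 5) (nat_lit 208) (nat_lit 5) (nat_lit 209) (nat_lit 5) (nat_lit 492) (nat_lit 438) (nat_lit 210)) (XT.lf (nat_lit 0) (nat_lit 16912569977) (nat_lit 684) (nat_lit 663327685) (nat_lit 76) (nat_lit 6421954875) (nat_lit 200) (nat_lit 5) (nat_lit 209) (nat_lit 5) (nat_lit 201) (nat_lit 5) (nat_lit 493) (nat_lit 438) (nat_lit 209)))) (XT.nd (nat_lit 156) (nat_lit 684) (nat_lit 0) (XT.nd (nat_lit 78) (nat_lit 0) (nat_lit 0) (XT.lf (nat_lit 0) (nat_lit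 10948111587) (nat_lit 532) (nat_lit 9286005549) (nat_lit 608) (nat_lit 4061339378) (nat_lit 193) (nat_lit 5) (nat_lit 200) (nat_lit 5) (nat_lit 201) (nat_lit 5) (nat_lit 494) (nat_lit 438) (nat_lit 208)) (XT.lf (nat_lit 0) (nat_lit 22796256198) (nat_lit 532) (nat_lit 826500352) (nat_lit 608) (nat_lit 976245951) (nat_lit 193) (nat_lit 5) (nat_lit 200) (nat_lit 5) (nat_lit 201) (nat_lit 5) (nat_lit 495) (nat_lit 438) (nat_lit 207))) (XT.nd (nat_lit 78) (nat_lit 0) (nat_lit 0) (XT.lf (nat_lit 0) (nat_lit 2255006130) (nat_lit 684) (nat_lit 14871826891) (nat_lit 76) (nat_lit 7779249091) (nat_lit 184) (nat_lit 5) (nat_lit 193) (nat_lit 5) (nat_lit 185) (nat_lit 5) (nat_lit 496) (nat_lit 438) (nat_lit 206)) (XT.lf (nat_lit 0) (nat_lit 5551770859) (nat_lit 684) (nat_lit 3103168608) (nat_lit 76) (nat_lit 16563958573) (nat_lit 184) (nat_lit 5) (nat_lit 193) (nat_lit 5) (nat_lit 185) (nat_lit 5) (nat_lit 497) (nat_lit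 438) (nat_lit 205)))))) (XT.nd (nat_lit 546) (nat_lit 1444) (nat_lit 0) (XT.nd (nat_lit 234) (nat_lit 1064) (nat_lit 0) (XT.nd (nat_lit 78) (nat_lit 532) (nat_lit 0) (XT.lf (nat_lit 0) (nat_lit 8969663012) (nat_lit 608) (nat_lit 16522510808) (nat_lit 76) (nat_lit 44695541) (nat_lit 177) (nat_lit 5) (nat_lit 185) (nat_lit 5) (nat_lit 178) (nat_lit 5) (nat_lit 498) (nat_lit 438) (nat_lit 204)) (XT.nd (nat_lit 78) (nat_lit 532) (nat_lit 0) (XT.lf (nat_lit 0) (nat_lit 12530598534) (nat_lit 608) (nat_lit 4506411882) (nat_lit 76) (nat_lit 8822698842) (nat_lit 177) (nat_lit 5) (nat_lit 185) (nat_lit 5) (nat_lit 178) (nat_lit 5) (nat_lit 499) (nat_lit 438) (nat_lit 203)) (XT.lf (nat_lit 0) (nat_lit 7848558604) (nat_lit 532) (nat_lit 8361628922) (nat_lit 608) (nat_lit 9977872535) (nat_lit 170) (nat_lit 5) (nat_lit 177) (nat_lit 5) (nat_lit 178) (nat_lit 5) (nat_lit 500) (nat_lit 438) (nat_lit 202)))) (XT.nd (nat_lit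 156) (nat_lit 608) (nat_lit 0) (XT.nd (nat_lit 78) (nat_lit 456) (nat_lit 0) (XT.lf (nat_lit 0) (nat_lit 19993484409) (nat_lit 608) (nat_lit 6018446404) (nat_lit 76) (nat_lit 510447495) (nat_lit 170) (nat_lit 5) (nat_lit 178) (nat_lit 5) (nat_lit 171) (nat_lit 5) (nat_lit 501) (nat_lit 438) (nat_lit 201)) (XT.lf (nat_lit 0) (nat_lit 6575557535) (nat_lit 456) (nat_lit 17371537827) (nat_lit 532) (nat_lit 2914397289) (nat_lit 164) (nat_lit 5) (nat_lit 170) (nat_lit 5) (nat_lit 171) (nat_lit 5) (nat_lit 502) (nat_lit 438) (nat_lit 200))) (XT.nd (nat_lit 78) (nat_lit 532) (nat_lit 0) (XT.lf (nat_lit 0) (nat_lit 799507948) (nat_lit 532) (nat_lit 7713196817) (nat_lit 76) (nat_lit 18693841834) (nat_lit 163) (nat_lit 5) (nat_lit 170) (nat_lit 5) (nat_lit 164) (nat_lit 5) (nat_lit 503) (nat_lit 438) (nat_lit 199)) (XT.lf (nat_lit 0) (nat_lit 4582576046) (nat_lit 608) (nat_lit 22406222514) (nat_lit 76) (nat_lit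 568642153) (nat_lit 156) (nat_lit 5) (nat_lit 164) (nat_lit 5) (nat_lit 157) (nat_lit 5) (nat_lit 504) (nat_lit 438) (nat_lit 198))))) (XT.nd (nat_lit 234) (nat_lit 988) (nat_lit 0) (XT.nd (nat_lit 78) (nat_lit 456) (nat_lit 0) (XT.lf (nat_lit 0) (nat_lit 8546476324) (nat_lit 608) (nat_lit 9597864906) (nat_lit 76) (nat_lit 9768910552) (nat_lit 156) (nat_lit 5) (nat_lit 164) (nat_lit 5) (nat_lit 157) (nat_lit 5) (nat_lit 505) (nat_lit 438) (nat_lit 197)) (XT.nd (nat_lit 78) (nat_lit 0) (nat_lit 0) (XT.lf (nat_lit 0) (nat_lit 3508453248) (nat_lit 456) (nat_lit 9100738309) (nat_lit 532) (nat_lit 15666599216) (nat_lit 150) (nat_lit 5) (nat_lit 156) (nat_lit 5) (nat_lit 157) (nat_lit 5) (nat_lit 506) (nat_lit 438) (nat_lit 196)) (XT.lf (nat_lit 0) (nat_lit 16815585425) (nat_lit 532) (nat_lit 11642775912) (nat_lit 76) (nat_lit 185973115) (nat_lit 150) (nat_lit 5) (nat_lit 157) (nat_lit 5) (nat_lit 151) (nat_lit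 5) (nat_lit 507) (nat_lit 438) (nat_lit 195)))) (XT.nd (nat_lit 156) (nat_lit 532) (nat_lit 0) (XT.nd (nat_lit 78) (nat_lit 0) (nat_lit 0) (XT.lf (nat_lit 0) (nat_lit 1702161755) (nat_lit 456) (nat_lit 19472117442) (nat_lit 532) (nat_lit 7844608713) (nat_lit 144) (nat_lit 5) (nat_lit 150) (nat_lit 5) (nat_lit 151) (nat_lit 5) (nat_lit 508) (nat_lit 438) (nat_lit 194)) (XT.lf (nat_lit 0) (nat_lit 15467676954) (nat_lit 456) (nat_lit 10227484578) (nat_lit 532) (nat_lit 3704272911) (nat_lit 144) (nat_lit 5) (nat_lit 150) (nat_lit 5) (nat_lit 151) (nat_lit 5) (nat_lit 509) (nat_lit 438) (nat_lit 193))) (XT.nd (nat_lit 78) (nat_lit 456) (nat_lit 0) (XT.lf (nat_lit 0) (nat_lit 508988692) (nat_lit 532) (nat_lit 286562280) (nat_lit 76) (nat_lit 28992037286) (nat_lit 143) (nat_lit 5) (nat_lit 150) (nat_lit 5) (nat_lit 144) (nat_lit 5) (nat_lit 510) (nat_lit 438) (nat_lit 192)) (XT.lf (nat_lit 0) (nat_lit 4901485923)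 (nat_lit 532) (nat_lit 16455575429) (nat_lit 76) (nat_lit 8823064847) (nat_lit 137) (nat_lit 5) (nat_lit 144) (nat_lit 5) (nat_lit 138) (nat_lit 5) (nat_lit 511) (nat_lit 438) (nat_lit 191))))))) (XT.nd (nat_lit 54600) (nat_lit 0) (nat_lit 16264) (XT.nd (nat_lit 54054) (nat_lit 0) (nat_lit 17632) (XT.nd (nat_lit 53742) (nat_lit 0) (nat_lit 17556) (XT.nd (nat_lit 78) (nat_lit 456) (nat_lit 0) (XT.lf (nat_lit 0) (nat_lit 9386048421) (nat_lit 532) (nat_lit 2570039442) (nat_lit 76) (nat_lit 18624344854) (nat_lit 137) (nat_lit 5) (nat_lit 144) (nat_lit 5) (nat_lit 138) (nat_lit 5) (nat_lit 512) (nat_lit 438) (nat_lit 190)) (XT.nd (nat_lit 53586) (nat_lit 0) (nat_lit 17556) (XT.lf (nat_lit 0) (nat_lit 11743249320) (nat_lit 456) (nat_lit 2290367472) (nat_lit 532) (nat_lit 16953664364) (nat_lit 131) (nat_lit 5) (nat_lit 137) (nat_lit 5) (nat_lit 138) (nat_lit 5) (nat_lit 513) (nat_lit 438) (nat_lit 189)) (XT.lf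 (nat_lit 0) (nat_lit 1363493950) (nat_lit 0) (nat_lit 1363493950) (nat_lit 1596) (nat_lit 3988694593) (nat_lit 362) (nat_lit 5) (nat_lit 362) (nat_lit 3) (nat_lit 383) (nat_lit 3) (nat_lit 439) (nat_lit 439) (nat_lit 262)))) (XT.nd (nat_lit 156) (nat_lit 0) (nat_lit 76) (XT.nd (nat_lit 78) (nat_lit 0) (nat_lit 0) (XT.lf (nat_lit 0) (nat_lit 5880744125) (nat_lit 1596) (nat_lit 4784433796) (nat_lit 1672) (nat_lit 2892683962) (nat_lit 362) (nat_lit 5) (nat_lit 383) (nat_lit 3) (nat_lit 384) (nat_lit 5) (nat_lit 440) (nat_lit 439) (nat_lit 261)) (XT.lf (nat_lit 76) (nat_lit 1247350686) (nat_lit 0) (nat_lit 5085620852) (nat_lit 1672) (nat_lit 7353588467) (nat_lit 363) (nat_lit 5) (nat_lit 362) (nat_lit 5) (nat_lit 384) (nat_lit 5) (nat_lit 441) (nat_lit 439) (nat_lit 260))) (XT.nd (nat_lit 78) (nat_lit 0) (nat_lit 0) (XT.lf (nat_lit 0) (nat_lit 6821436640) (nat_lit 1596) (nat_lit 6361753302) (nat_lit 1672)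 (nat_lit 634107856) (nat_lit 363) (nat_lit 5) (nat_lit 384) (nat_lit 5) (nat_lit 385) (nat_lit 5) (nat_lit 442) (nat_lit 439) (nat_lit 259)) (XT.lf (nat_lit 0) (nat_lit 7344471205) (nat_lit 1596) (nat_lit 201373207) (nat_lit 1672) (nat_lit 6404319316) (nat_lit 363) (nat_lit 5) (nat_lit 384) (nat_lit 5) (nat_lit 385) (nat_lit 5) (nat_lit 443) (nat_lit 439) (nat_lit 258))))) (XT.nd (nat_lit 234) (nat_lit 0) (nat_lit 152) (XT.nd (nat_lit 78) (nat_lit 0) (nat_lit 76) (XT.lf (nat_lit 76) (nat_lit 6158131021) (nat_lit 0) (nat_lit 1751112769) (nat_lit 1672) (nat_lit 6175826839) (nat_lit 364) (nat_lit 5) (nat_lit 363) (nat_lit 5) (nat_lit 385) (nat_lit 5) (nat_lit 444) (nat_lit 439) (nat_lit 257)) (XT.nd (nat_lit 78) (nat_lit 0) (nat_lit 0) (XT.lf (nat_lit 0) (nat_lit 8505136840) (nat_lit 1596) (nat_lit 1607130157) (nat_lit 1672) (nat_lit 4110021188) (nat_lit 364) (nat_lit 5) (nat_lit 385) (nat_lit 5) (nat_lit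 386) (nat_lit 5) (nat_lit 445) (nat_lit 439) (nat_lit 256)) (XT.lf (nat_lit 76) (nat_lit 4886645146) (nat_lit 0) (nat_lit 4261252623) (nat_lit 1672) (nat_lit 5213662166) (nat_lit 365) (nat_lit 5) (nat_lit 364) (nat_lit 5) (nat_lit 386) (nat_lit 5) (nat_lit 446) (nat_lit 439) (nat_lit 255)))) (XT.nd (nat_lit 156) (nat_lit 0) (nat_lit 0) (XT.nd (nat_lit 78) (nat_lit 0) (nat_lit 0) (XT.lf (nat_lit 0) (nat_lit 9817231700) (nat_lit 1596) (nat_lit 2987559047) (nat_lit 1672) (nat_lit 1698560687) (nat_lit 365) (nat_lit 5) (nat_lit 386) (nat_lit 5) (nat_lit 387) (nat_lit 5) (nat_lit 447) (nat_lit 439) (nat_lit 254)) (XT.lf (nat_lit 76) (nat_lit 3644131082) (nat_lit 0) (nat_lit 6899642842) (nat_lit 1672) (nat_lit 4103336905) (nat_lit 366) (nat_lit 5) (nat_lit 365) (nat_lit 5) (nat_lit 387) (nat_lit 5) (nat_lit 448) (nat_lit 439) (nat_lit 253))) (XT.nd (nat_lit 78) (nat_lit 0) (nat_lit 76) (XT.lf (nat_lit 76) (nat_lit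 10443999020) (nat_lit 0) (nat_lit 852963205) (nat_lit 1672) (nat_lit 3496549214) (nat_lit 366) (nat_lit 5) (nat_lit 365) (nat_lit 5) (nat_lit 387) (nat_lit 5) (nat_lit 449) (nat_lit 439) (nat_lit 252)) (XT.lf (nat_lit 76) (nat_lit 2429340552) (nat_lit 0) (nat_lit 9678394515) (nat_lit 1672) (nat_lit 2834262748) (nat_lit 367) (nat_lit 5) (nat_lit 366) (nat_lit 5) (nat_lit 388) (nat_lit 5) (nat_lit 450) (nat_lit 439) (nat_lit 251)))))) (XT.nd (nat_lit 546) (nat_lit 0) (nat_lit 152) (XT.nd (nat_lit 234) (nat_lit 1596) (nat_lit 0) (XT.nd (nat_lit 78) (nat_lit 0) (nat_lit 76) (XT.lf (nat_lit 76) (nat_lit 9391999982) (nat_lit 0) (nat_lit 3569883778) (nat_lit 1672) (nat_lit 2131034958) (nat_lit 367) (nat_lit 5) (nat_lit 366) (nat_lit 5) (nat_lit 388) (nat_lit 5) (nat_lit 451) (nat_lit 439) (nat_lit 250)) (XT.nd (nat_lit 78) (nat_lit 0) (nat_lit 0) (XT.lf (nat_lit 76) (nat_lit 1240972678) (nat_lit 0) (nat_lit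 12610003445) (nat_lit 1672) (nat_lit 1395532556) (nat_lit 368) (nat_lit 5) (nat_lit 367) (nat_lit 5) (nat_lit 389) (nat_lit 5) (nat_lit 452) (nat_lit 439) (nat_lit 249)) (XT.lf (nat_lit 76) (nat_lit 8369975211) (nat_lit 0) (nat_lit 6442258916) (nat_lit 1672) (nat_lit 589856332) (nat_lit 368) (nat_lit 5) (nat_lit 367) (nat_lit 5) (nat_lit 389) (nat_lit 5) (nat_lit 453) (nat_lit 439) (nat_lit 248)))) (XT.nd (nat_lit 156) (nat_lit 0) (nat_lit 76) (XT.nd (nat_lit 78) (nat_lit 0) (nat_lit 76) (XT.lf (nat_lit 76) (nat_lit 75200941) (nat_lit 0) (nat_lit 146909492) (nat_lit 1748) (nat_lit 15338786347) (nat_lit 346) (nat_lit 5) (nat_lit 345) (nat_lit 5) (nat_lit 368) (nat_lit 5) (nat_lit 454) (nat_lit 439) (nat_lit 247)) (XT.lf (nat_lit 0) (nat_lit 1123519116) (nat_lit 1672) (nat_lit 8352090351) (nat_lit 1748) (nat_lit 6245577019) (nat_lit 346) (nat_lit 5) (nat_lit 368) (nat_lit 5) (nat_lit 369) (nat_lit 5) (nat_lit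 455) (nat_lit 439) (nat_lit 246))) (XT.nd (nat_lit 78) (nat_lit 0) (nat_lit 76) (XT.lf (nat_lit 0) (nat_lit 2036923436) (nat_lit 1672) (nat_lit 1081868479) (nat_lit 1748) (nat_lit 12766017835) (nat_lit 346) (nat_lit 5) (nat_lit 368) (nat_lit 5) (nat_lit 369) (nat_lit 5) (nat_lit 456) (nat_lit 439) (nat_lit 245)) (XT.lf (nat_lit 0) (nat_lit 3025501276) (nat_lit 1672) (nat_lit 9660273156) (nat_lit 1748) (nat_lit 3364799909) (nat_lit 347) (nat_lit 5) (nat_lit 369) (nat_lit 5) (nat_lit 370) (nat_lit 5) (nat_lit 457) (nat_lit 439) (nat_lit 244))))) (XT.nd (nat_lit 234) (nat_lit 0) (nat_lit 76) (XT.nd (nat_lit 78) (nat_lit 0) (nat_lit 76) (XT.lf (nat_lit 0) (nat_lit 4055059137) (nat_lit 1672) (nat_lit 2218736399) (nat_lit 1748) (nat_lit 9945441353) (nat_lit 347) (nat_lit 5) (nat_lit 369) (nat_lit 5) (nat_lit 370) (nat_lit 5) (nat_lit 458) (nat_lit 439) (nat_lit 243)) (XT.nd (nat_lit 78) (nat_lit 0) (nat_lit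 0) (XT.lf (nat_lit 0) (nat_lit 5135867681) (nat_lit 1672) (nat_lit 10954733274) (nat_lit 1748) (nat_lit 300065246) (nat_lit 348) (nat_lit 5) (nat_lit 370) (nat_lit 5) (nat_lit 371) (nat_lit 5) (nat_lit 459) (nat_lit 439) (nat_lit 242)) (XT.lf (nat_lit 0) (nat_lit 6288314489) (nat_lit 1672) (nat_lit 3338220458) (nat_lit 1748) (nat_lit 6937995278) (nat_lit 348) (nat_lit 5) (nat_lit 370) (nat_lit 5) (nat_lit 371) (nat_lit 5) (nat_lit 460) (nat_lit 439) (nat_lit 241)))) (XT.nd (nat_lit 156) (nat_lit 0) (nat_lit 76) (XT.nd (nat_lit 78) (nat_lit 0) (nat_lit 76) (XT.lf (nat_lit 76) (nat_lit 4484418511) (nat_lit 0) (nat_lit 3002121550) (nat_lit 1748) (nat_lit 9254883314) (nat_lit 349) (nat_lit 5) (nat_lit 348) (nat_lit 5) (nat_lit 371) (nat_lit 5) (nat_lit 461) (nat_lit 439) (nat_lit 240)) (XT.lf (nat_lit 0) (nat_lit 8749373589) (nat_lit 1672) (nat_lit 4442298236) (nat_lit 1748) (nat_lit 3729376009) (nat_lit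 349) (nat_lit 5) (nat_lit 371) (nat_lit 5) (nat_lit 372) (nat_lit 5) (nat_lit 462) (nat_lit 439) (nat_lit 239))) (XT.nd (nat_lit 78) (nat_lit 0) (nat_lit 76) (XT.lf (nat_lit 76) (nat_lit 3550359315) (nat_lit 0) (nat_lit 6523875937) (nat_lit 1748) (nat_lit 7029300292) (nat_lit 350) (nat_lit 5) (nat_lit 349) (nat_lit 5) (nat_lit 372) (nat_lit 5) (nat_lit 463) (nat_lit 439) (nat_lit 238)) (XT.lf (nat_lit 0) (nat_lit 11451335982) (nat_lit 1672) (nat_lit 5533114639) (nat_lit 76) (nat_lit 304713620) (nat_lit 350) (nat_lit 5) (nat_lit 372) (nat_lit 5) (nat_lit 351) (nat_lit 5) (nat_lit 464) (nat_lit 439) (nat_lit 237))))))))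
noncomputable def xc224 : XT := (XT.nd (nat_lit 2106) (nat_lit 5396) (nat_lit 0) (XT.nd (nat_lit 1014) (nat_lit 4864) (nat_lit 0) (XT.nd (nat_lit 468) (nat_lit 2356) (nat_lit 0) (XT.nd (nat_lit 234) (nat_lit 912) (nat_lit 0) (XT.nd (nat_lit 78) (nat_lit 988) (nat_lit 0) (XT.lf (nat_lit 0) (nat_lit 2633658437) (nat_lit 1672) (nat_lit 10276677162) (nat_lit 1748) (nat_lit 4567088726) (nat_lit 328) (nat_lit 5) (nat_lit 350) (nat_lit 5) (nat_lit 351) (nat_lit 5) (nat_lit 465) (nat_lit 439) (nat_lit 236)) (XT.nd (nat_lit 78) (nat_lit 988) (nat_lit 0) (XT.lf (nat_lit 0) (nat_lit 11033776694) (nat_lit 1672) (nat_lit 3396005754) (nat_lit 1748) (nat_lit 3239047652) (nat_lit 328) (nat_lit 5) (nat_lit 350) (nat_lit 5) (nat_lit 351) (nat_lit 5) (nat_lit 466) (nat_lit 439) (nat_lit 235)) (XT.lf (nat_lit 0) (nat_lit 1732009283) (nat_lit 988) (nat_lit 14276630164) (nat_lit 1064) (nat_lit 1854849837) (nat_lit 315) (nat_lit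 5) (nat_lit 328) (nat_lit 5) (nat_lit 329) (nat_lit 5) (nat_lit 467) (nat_lit 439) (nat_lit 234)))) (XT.nd (nat_lit 78) (nat_lit 912) (nat_lit 0) (XT.lf (nat_lit 0) (nat_lit 10328575755) (nat_lit 988) (nat_lit 7351702507) (nat_lit 1064) (nat_lit 380544904) (nat_lit 315) (nat_lit 5) (nat_lit 328) (nat_lit 5) (nat_lit 329) (nat_lit 5) (nat_lit 468) (nat_lit 439) (nat_lit 233)) (XT.nd (nat_lit 78) (nat_lit 0) (nat_lit 0) (XT.lf (nat_lit 0) (nat_lit 833640016) (nat_lit 836) (nat_lit 274693744) (nat_lit 912) (nat_lit 17153633116) (nat_lit 303) (nat_lit 5) (nat_lit 314) (nat_lit 5) (nat_lit 315) (nat_lit 5) (nat_lit 469) (nat_lit 439) (nat_lit 232)) (XT.lf (nat_lit 0) (nat_lit 2713702490) (nat_lit 912) (nat_lit 8843442715) (nat_lit 76) (nat_lit 6908107069) (nat_lit 303) (nat_lit 5) (nat_lit 315) (nat_lit 5) (nat_lit 304) (nat_lit 5) (nat_lit 470) (nat_lit 439) (nat_lit 231))))) (XT.nd (nat_lit 234) (nat_lit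 1520) (nat_lit 0) (XT.nd (nat_lit 78) (nat_lit 836) (nat_lit 0) (XT.lf (nat_lit 0) (nat_lit 4347593870) (nat_lit 912) (nat_lit 93637840) (nat_lit 76) (nat_lit 14231448546) (nat_lit 303) (nat_lit 5) (nat_lit 315) (nat_lit 5) (nat_lit 304) (nat_lit 5) (nat_lit 471) (nat_lit 439) (nat_lit 230)) (XT.nd (nat_lit 78) (nat_lit 0) (nat_lit 0) (XT.lf (nat_lit 0) (nat_lit 6085610157) (nat_lit 912) (nat_lit 9958284236) (nat_lit 76) (nat_lit 2838938542) (nat_lit 292) (nat_lit 5) (nat_lit 304) (nat_lit 5) (nat_lit 293) (nat_lit 5) (nat_lit 472) (nat_lit 439) (nat_lit 229)) (XT.lf (nat_lit 0) (nat_lit 7883208597) (nat_lit 912) (nat_lit 1007164799) (nat_lit 76) (nat_lit 10206323813) (nat_lit 292) (nat_lit 5) (nat_lit 304) (nat_lit 5) (nat_lit 293) (nat_lit 5) (nat_lit 473) (nat_lit 439) (nat_lit 228)))) (XT.nd (nat_lit 156) (nat_lit 760) (nat_lit 0) (XT.nd (nat_lit 78) (nat_lit 0) (nat_lit 0) (XT.lf (nat_lit 0) (nat_lit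 8226018957) (nat_lit 760) (nat_lit 1539028407) (nat_lit 836) (nat_lit 9548830519) (nat_lit 282) (nat_lit 5) (nat_lit 292) (nat_lit 5) (nat_lit 293) (nat_lit 5) (nat_lit 474) (nat_lit 439) (nat_lit 227)) (XT.lf (nat_lit 0) (nat_lit 11724968580) (nat_lit 836) (nat_lit 1921404281) (nat_lit 76) (nat_lit 5888225182) (nat_lit 282) (nat_lit 5) (nat_lit 293) (nat_lit 5) (nat_lit 283) (nat_lit 5) (nat_lit 475) (nat_lit 439) (nat_lit 226))) (XT.nd (nat_lit 78) (nat_lit 0) (nat_lit 0) (XT.lf (nat_lit 0) (nat_lit 7511884098) (nat_lit 760) (nat_lit 6266217809) (nat_lit 836) (nat_lit 5980555118) (nat_lit 272) (nat_lit 5) (nat_lit 282) (nat_lit 5) (nat_lit 283) (nat_lit 5) (nat_lit 476) (nat_lit 439) (nat_lit 225)) (XT.lf (nat_lit 0) (nat_lit 15888583565) (nat_lit 836) (nat_lit 2840226074) (nat_lit 76) (nat_lit 1258066433) (nat_lit 272) (nat_lit 5) (nat_lit 283) (nat_lit 5) (nat_lit 273) (nat_lit 5) (nat_lit 477) (nat_lit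 439) (nat_lit 224)))))) (XT.nd (nat_lit 546) (nat_lit 1976) (nat_lit 0) (XT.nd (nat_lit 234) (nat_lit 1368) (nat_lit 0) (XT.nd (nat_lit 78) (nat_lit 836) (nat_lit 0) (XT.lf (nat_lit 0) (nat_lit 6797303401) (nat_lit 684) (nat_lit 11324813841) (nat_lit 760) (nat_lit 2095929922) (nat_lit 263) (nat_lit 5) (nat_lit 272) (nat_lit 5) (nat_lit 273) (nat_lit 5) (nat_lit 478) (nat_lit 439) (nat_lit 223)) (XT.nd (nat_lit 78) (nat_lit 836) (nat_lit 0) (XT.lf (nat_lit 0) (nat_lit 16661317003) (nat_lit 684) (nat_lit 3753338594) (nat_lit 760) (nat_lit 38903820) (nat_lit 263) (nat_lit 5) (nat_lit 272) (nat_lit 5) (nat_lit 273) (nat_lit 5) (nat_lit 479) (nat_lit 439) (nat_lit 222)) (XT.lf (nat_lit 0) (nat_lit 2093254717) (nat_lit 836) (nat_lit 14628345388) (nat_lit 76) (nat_lit 3970698668) (nat_lit 252) (nat_lit 5) (nat_lit 263) (nat_lit 5) (nat_lit 253) (nat_lit 5) (nat_lit 480) (nat_lit 439) (nat_lit 221)))) (XT.nd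 (nat_lit 156) (nat_lit 684) (nat_lit 0) (XT.nd (nat_lit 78) (nat_lit 684) (nat_lit 0) (XT.lf (nat_lit 0) (nat_lit 4313401597) (nat_lit 836) (nat_lit 4796712488) (nat_lit 76) (nat_lit 11824780533) (nat_lit 252) (nat_lit 5) (nat_lit 263) (nat_lit 5) (nat_lit 253) (nat_lit 5) (nat_lit 481) (nat_lit 439) (nat_lit 220)) (XT.lf (nat_lit 0) (nat_lit 5296305501) (nat_lit 684) (nat_lit 1311515972) (nat_lit 760) (nat_lit 14573927590) (nat_lit 243) (nat_lit 5) (nat_lit 252) (nat_lit 5) (nat_lit 253) (nat_lit 5) (nat_lit 482) (nat_lit 439) (nat_lit 219))) (XT.nd (nat_lit 78) (nat_lit 684) (nat_lit 0) (XT.lf (nat_lit 0) (nat_lit 9019202191) (nat_lit 760) (nat_lit 5824806899) (nat_lit 76) (nat_lit 6588114063) (nat_lit 243) (nat_lit 5) (nat_lit 253) (nat_lit 5) (nat_lit 244) (nat_lit 5) (nat_lit 483) (nat_lit 439) (nat_lit 218)) (XT.lf (nat_lit 0) (nat_lit 4482468539) (nat_lit 684) (nat_lit 7029757833) (nat_lit 760)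 (nat_lit 10174613961) (nat_lit 234) (nat_lit 5) (nat_lit 243) (nat_lit 5) (nat_lit 244) (nat_lit 5) (nat_lit 484) (nat_lit 439) (nat_lit 217))))) (XT.nd (nat_lit 234) (nat_lit 1368) (nat_lit 0) (XT.nd (nat_lit 78) (nat_lit 608) (nat_lit 0) (XT.lf (nat_lit 0) (nat_lit 14096246169) (nat_lit 760) (nat_lit 6882124941) (nat_lit 76) (nat_lit 967461895) (nat_lit 234) (nat_lit 5) (nat_lit 244) (nat_lit 5) (nat_lit 235) (nat_lit 5) (nat_lit 485) (nat_lit 439) (nat_lit 216)) (XT.nd (nat_lit 78) (nat_lit 0) (nat_lit 0) (XT.lf (nat_lit 0) (nat_lit 3643151480) (nat_lit 608) (nat_lit 13154768614) (nat_lit 684) (nat_lit 5410769733) (nat_lit 226) (nat_lit 5) (nat_lit 234) (nat_lit 5) (nat_lit 235) (nat_lit 5) (nat_lit 486) (nat_lit 439) (nat_lit 215)) (XT.lf (nat_lit 0) (nat_lit 14467611710) (nat_lit 608) (nat_lit 5128016857) (nat_lit 684) (nat_lit 2880338898) (nat_lit 226) (nat_lit 5) (nat_lit 234) (nat_lit 5) (nat_lit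 235) (nat_lit 5) (nat_lit 487) (nat_lit 439) (nat_lit 214)))) (XT.nd (nat_lit 156) (nat_lit 608) (nat_lit 0) (XT.nd (nat_lit 78) (nat_lit 76) (nat_lit 0) (XT.lf (nat_lit 0) (nat_lit 2771857877) (nat_lit 684) (nat_lit 19711190529) (nat_lit 760) (nat_lit 264870731) (nat_lit 217) (nat_lit 5) (nat_lit 226) (nat_lit 5) (nat_lit 227) (nat_lit 5) (nat_lit 488) (nat_lit 439) (nat_lit 213)) (XT.lf (nat_lit 0) (nat_lit 2455366853) (nat_lit 760) (nat_lit 9202552088) (nat_lit 76) (nat_lit 11365402872) (nat_lit 216) (nat_lit 5) (nat_lit 226) (nat_lit 5) (nat_lit 217) (nat_lit 5) (nat_lit 489) (nat_lit 439) (nat_lit 212))) (XT.nd (nat_lit 78) (nat_lit 0) (nat_lit 0) (XT.lf (nat_lit 0) (nat_lit 1803790324) (nat_lit 608) (nat_lit 3430385058) (nat_lit 684) (nat_lit 18069871306) (nat_lit 208) (nat_lit 5) (nat_lit 216) (nat_lit 5) (nat_lit 217) (nat_lit 5) (nat_lit 490) (nat_lit 439) (nat_lit 211)) (XT.lf (nat_lit 0) (nat_lit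 8158981324) (nat_lit 684) (nat_lit 10471360778) (nat_lit 76) (nat_lit 4958238884) (nat_lit 208) (nat_lit 5) (nat_lit 217) (nat_lit 5) (nat_lit 209) (nat_lit 5) (nat_lit 491) (nat_lit 439) (nat_lit 210))))))) (XT.nd (nat_lit 1014) (nat_lit 1976) (nat_lit 0) (XT.nd (nat_lit 468) (nat_lit 1596) (nat_lit 0) (XT.nd (nat_lit 234) (nat_lit 1216) (nat_lit 0) (XT.nd (nat_lit 78) (nat_lit 0) (nat_lit 0) (XT.lf (nat_lit 0) (nat_lit 760875140) (nat_lit 608) (nat_lit 10405187368) (nat_lit 684) (nat_lit 12712271164) (nat_lit 200) (nat_lit 5) (nat_lit 208) (nat_lit 5) (nat_lit 209) (nat_lit 5) (nat_lit 492) (nat_lit 439) (nat_lit 209)) (XT.nd (nat_lit 78) (nat_lit 0) (nat_lit 0) (XT.lf (nat_lit 0) (nat_lit 12355228616) (nat_lit 608) (nat_lit 1944493317) (nat_lit 684) (nat_lit 9872833968) (nat_lit 200) (nat_lit 5) (nat_lit 208) (nat_lit 5) (nat_lit 209) (nat_lit 5) (nat_lit 493) (nat_lit 439) (nat_lit 208)) (XT.lf (nat_lit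 0) (nat_lit 17535700042) (nat_lit 684) (nat_lit 339055372) (nat_lit 76) (nat_lit 6597117407) (nat_lit 200) (nat_lit 5) (nat_lit 209) (nat_lit 5) (nat_lit 201) (nat_lit 5) (nat_lit 494) (nat_lit 439) (nat_lit 207)))) (XT.nd (nat_lit 78) (nat_lit 684) (nat_lit 0) (XT.lf (nat_lit 0) (nat_lit 11502392035) (nat_lit 532) (nat_lit 9417877362) (nat_lit 608) (nat_lit 3855232347) (nat_lit 193) (nat_lit 5) (nat_lit 200) (nat_lit 5) (nat_lit 201) (nat_lit 5) (nat_lit 495) (nat_lit 439) (nat_lit 206)) (XT.nd (nat_lit 78) (nat_lit 684) (nat_lit 0) (XT.lf (nat_lit 0) (nat_lit 23580924671) (nat_lit 532) (nat_lit 790237910) (nat_lit 608) (nat_lit 714071048) (nat_lit 193) (nat_lit 5) (nat_lit 200) (nat_lit 5) (nat_lit 201) (nat_lit 5) (nat_lit 496) (nat_lit 439) (nat_lit 205)) (XT.lf (nat_lit 0) (nat_lit 2575168235) (nat_lit 684) (nat_lit 14833435868) (nat_lit 76) (nat_lit 7989877435) (nat_lit 184) (nat_lit 5) (nat_lit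 193) (nat_lit 5) (nat_lit 185) (nat_lit 5) (nat_lit 497) (nat_lit 439) (nat_lit 204))))) (XT.nd (nat_lit 234) (nat_lit 1064) (nat_lit 0) (XT.nd (nat_lit 78) (nat_lit 532) (nat_lit 0) (XT.lf (nat_lit 0) (nat_lit 5932474887) (nat_lit 684) (nat_lit 2835989274) (nat_lit 76) (nat_lit 16949201825) (nat_lit 184) (nat_lit 5) (nat_lit 193) (nat_lit 5) (nat_lit 185) (nat_lit 5) (nat_lit 498) (nat_lit 439) (nat_lit 203)) (XT.nd (nat_lit 78) (nat_lit 0) (nat_lit 0) (XT.lf (nat_lit 0) (nat_lit 9415954135) (nat_lit 608) (nat_lit 16520735175) (nat_lit 76) (nat_lit 105367085) (nat_lit 177) (nat_lit 5) (nat_lit 185) (nat_lit 5) (nat_lit 178) (nat_lit 5) (nat_lit 499) (nat_lit 439) (nat_lit 202)) (XT.lf (nat_lit 0) (nat_lit 13042875077) (nat_lit 608) (nat_lit 4270828502) (nat_lit 76) (nat_lit 9057758342) (nat_lit 177) (nat_lit 5) (nat_lit 185) (nat_lit 5) (nat_lit 178) (nat_lit 5) (nat_lit 500) (nat_lit 439) (nat_lit 201))))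 (XT.nd (nat_lit 156) (nat_lit 532) (nat_lit 0) (XT.nd (nat_lit 78) (nat_lit 0) (nat_lit 0) (XT.lf (nat_lit 0) (nat_lit 8329098554) (nat_lit 532) (nat_lit 8463927440) (nat_lit 608) (nat_lit 9913418427) (nat_lit 170) (nat_lit 5) (nat_lit 177) (nat_lit 5) (nat_lit 178) (nat_lit 5) (nat_lit 501) (nat_lit 439) (nat_lit 200)) (XT.lf (nat_lit 0) (nat_lit 20647330874) (nat_lit 608) (nat_lit 5816732954) (nat_lit 76) (nat_lit 583482365) (nat_lit 170) (nat_lit 5) (nat_lit 178) (nat_lit 5) (nat_lit 171) (nat_lit 5) (nat_lit 502) (nat_lit 439) (nat_lit 199))) (XT.nd (nat_lit 78) (nat_lit 76) (nat_lit 0) (XT.lf (nat_lit 0) (nat_lit 7027032101) (nat_lit 456) (nat_lit 17650079423) (nat_lit 532) (nat_lit 2716393274) (nat_lit 164) (nat_lit 5) (nat_lit 170) (nat_lit 5) (nat_lit 171) (nat_lit 5) (nat_lit 503) (nat_lit 439) (nat_lit 198)) (XT.lf (nat_lit 0) (nat_lit 1063469327) (nat_lit 532) (nat_lit 7550287123) (nat_lit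 76) (nat_lit 19131773055) (nat_lit 163) (nat_lit 5) (nat_lit 170) (nat_lit 5) (nat_lit 164) (nat_lit 5) (nat_lit 504) (nat_lit 439) (nat_lit 197)))))) (XT.nd (nat_lit 546) (nat_lit 0) (nat_lit 0) (XT.nd (nat_lit 234) (nat_lit 988) (nat_lit 0) (XT.nd (nat_lit 78) (nat_lit 456) (nat_lit 0) (XT.lf (nat_lit 0) (nat_lit 4919836406) (nat_lit 608) (nat_lit 22534626049) (nat_lit 76) (nat_lit 649029991) (nat_lit 156) (nat_lit 5) (nat_lit 164) (nat_lit 5) (nat_lit 157) (nat_lit 5) (nat_lit 505) (nat_lit 439) (nat_lit 196)) (XT.nd (nat_lit 78) (nat_lit 456) (nat_lit 0) (XT.lf (nat_lit 0) (nat_lit 8958198830) (nat_lit 608) (nat_lit 9476370327) (nat_lit 76) (nat_lit 10031950523) (nat_lit 156) (nat_lit 5) (nat_lit 164) (nat_lit 5) (nat_lit 157) (nat_lit 5) (nat_lit 506) (nat_lit 439) (nat_lit 195)) (XT.lf (nat_lit 0) (nat_lit 3890012007) (nat_lit 456) (nat_lit 9209456678) (nat_lit 532) (nat_lit 15736898314) (nat_lit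 150) (nat_lit 5) (nat_lit 156) (nat_lit 5) (nat_lit 157) (nat_lit 5) (nat_lit 507) (nat_lit 439) (nat_lit 194)))) (XT.nd (nat_lit 156) (nat_lit 532) (nat_lit 0) (XT.nd (nat_lit 78) (nat_lit 456) (nat_lit 0) (XT.lf (nat_lit 0) (nat_lit 17385788492) (nat_lit 532) (nat_lit 11565971240) (nat_lit 76) (nat_lit 260609344) (nat_lit 150) (nat_lit 5) (nat_lit 157) (nat_lit 5) (nat_lit 151) (nat_lit 5) (nat_lit 508) (nat_lit 439) (nat_lit 193)) (XT.lf (nat_lit 0) (nat_lit 2043827943) (nat_lit 456) (nat_lit 19785239384) (nat_lit 532) (nat_lit 7765401468) (nat_lit 144) (nat_lit 5) (nat_lit 150) (nat_lit 5) (nat_lit 151) (nat_lit 5) (nat_lit 509) (nat_lit 439) (nat_lit 192))) (XT.nd (nat_lit 78) (nat_lit 532) (nat_lit 0) (XT.lf (nat_lit 0) (nat_lit 16078621623) (nat_lit 456) (nat_lit 10357210341) (nat_lit 532) (nat_lit 3546888351) (nat_lit 144) (nat_lit 5) (nat_lit 150) (nat_lit 5) (nat_lit 151) (nat_lit 5) (nat_lit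 510) (nat_lit 439) (nat_lit 191)) (XT.lf (nat_lit 0) (nat_lit 6607932) (nat_lit 456) (nat_lit 736558581) (nat_lit 532) (nat_lit 29635532579) (nat_lit 137) (nat_lit 5) (nat_lit 143) (nat_lit 5) (nat_lit 144) (nat_lit 5) (nat_lit 511) (nat_lit 439) (nat_lit 190))))) (XT.nd (nat_lit 53898) (nat_lit 0) (nat_lit 17100) (XT.nd (nat_lit 53742) (nat_lit 0) (nat_lit 17100) (XT.lf (nat_lit 0) (nat_lit 5221496121) (nat_lit 532) (nat_lit 16483739665) (nat_lit 76) (nat_lit 9073895513) (nat_lit 137) (nat_lit 5) (nat_lit 144) (nat_lit 5) (nat_lit 138) (nat_lit 5) (nat_lit 512) (nat_lit 439) (nat_lit 189)) (XT.nd (nat_lit 78) (nat_lit 0) (nat_lit 0) (XT.lf (nat_lit 0) (nat_lit 1566216107) (nat_lit 0) (nat_lit 1566216107) (nat_lit 1596) (nat_lit 3710176071) (nat_lit 362) (nat_lit 5) (nat_lit 362) (nat_lit 3) (nat_lit 383) (nat_lit 3) (nat_lit 440) (nat_lit 440) (nat_lit 260)) (XT.lf (nat_lit 0) (nat_lit 6684173527) (nat_lit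 1596) (nat_lit 4519378770) (nat_lit 1672) (nat_lit 2611025503) (nat_lit 362) (nat_lit 5) (nat_lit 383) (nat_lit 3) (nat_lit 384) (nat_lit 5) (nat_lit 441) (nat_lit 440) (nat_lit 259)))) (XT.nd (nat_lit 156) (nat_lit 0) (nat_lit 76) (XT.nd (nat_lit 78) (nat_lit 0) (nat_lit 76) (XT.lf (nat_lit 76) (nat_lit 1630668088) (nat_lit 0) (nat_lit 5503656835) (nat_lit 1672) (nat_lit 6811761589) (nat_lit 363) (nat_lit 5) (nat_lit 362) (nat_lit 5) (nat_lit 384) (nat_lit 5) (nat_lit 442) (nat_lit 440) (nat_lit 258)) (XT.lf (nat_lit 0) (nat_lit 7617316522) (nat_lit 1596) (nat_lit 6121705169) (nat_lit 1672) (nat_lit 340736164) (nat_lit 363) (nat_lit 5) (nat_lit 384) (nat_lit 5) (nat_lit 385) (nat_lit 5) (nat_lit 443) (nat_lit 440) (nat_lit 257))) (XT.nd (nat_lit 78) (nat_lit 0) (nat_lit 0) (XT.lf (nat_lit 76) (nat_lit 156736524) (nat_lit 0) (nat_lit 7982162475) (nat_lit 1672) (nat_lit 6076634023) (nat_lit 364) (nat_lit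 5) (nat_lit 363) (nat_lit 5) (nat_lit 385) (nat_lit 5) (nat_lit 444) (nat_lit 440) (nat_lit 256)) (XT.lf (nat_lit 76) (nat_lit 6639006252) (nat_lit 0) (nat_lit 2064588777) (nat_lit 1672) (nat_lit 5649783868) (nat_lit 364) (nat_lit 5) (nat_lit 363) (nat_lit 5) (nat_lit 385) (nat_lit 5) (nat_lit 445) (nat_lit 440) (nat_lit 255))))))))
noncomputable def xc225 : XT := (XT.nd (nat_lit 2106) (nat_lit 8740) (nat_lit 0) (XT.nd (nat_lit 1014) (nat_lit 4028) (nat_lit 0) (XT.nd (nat_lit 468) (nat_lit 1444) (nat_lit 0) (XT.nd (nat_lit 234) (nat_lit 0) (nat_lit 76) (XT.nd (nat_lit 78) (nat_lit 0) (nat_lit 0) (XT.lf (nat_lit 0) (nat_lit 9297159633) (nat_lit 1596) (nat_lit 1273671132) (nat_lit 1672) (nat_lit 3922808100) (nat_lit 364) (nat_lit 5) (nat_lit 385) (nat_lit 5) (nat_lit 386) (nat_lit 5) (nat_lit 446) (nat_lit 440) (nat_lit 254)) (XT.nd (nat_lit 78) (nat_lit 0) (nat_lit 76) (XT.lf (nat_lit 76) (nat_lit 5347574403)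 (nat_lit 0) (nat_lit 4595364979) (nat_lit 1672) (nat_lit 4692966273) (nat_lit 365) (nat_lit 5) (nat_lit 364) (nat_lit 5) (nat_lit 386) (nat_lit 5) (nat_lit 447) (nat_lit 440) (nat_lit 253)) (XT.lf (nat_lit 0) (nat_lit 10612074095) (nat_lit 1596) (nat_lit 2677018292) (nat_lit 1672) (nat_lit 1491724939) (nat_lit 365) (nat_lit 5) (nat_lit 386) (nat_lit 5) (nat_lit 387) (nat_lit 5) (nat_lit 448) (nat_lit 440) (nat_lit 252)))) (XT.nd (nat_lit 78) (nat_lit 0) (nat_lit 0) (XT.lf (nat_lit 76) (nat_lit 4084869509) (nat_lit 0) (nat_lit 7258930768) (nat_lit 1672) (nat_lit 3583850945) (nat_lit 366) (nat_lit 5) (nat_lit 365) (nat_lit 5) (nat_lit 387) (nat_lit 5) (nat_lit 449) (nat_lit 440) (nat_lit 251)) (XT.nd (nat_lit 78) (nat_lit 0) (nat_lit 76) (XT.lf (nat_lit 76) (nat_lit 11013521947) (nat_lit 0) (nat_lit 1086978419) (nat_lit 1672) (nat_lit 2976722651) (nat_lit 366) (nat_lit 5) (nat_lit 365) (nat_lit 5) (nat_lit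 387) (nat_lit 5) (nat_lit 450) (nat_lit 440) (nat_lit 250)) (XT.lf (nat_lit 76) (nat_lit 2849675674) (nat_lit 0) (nat_lit 10067520158) (nat_lit 1672) (nat_lit 2311701041) (nat_lit 367) (nat_lit 5) (nat_lit 366) (nat_lit 5) (nat_lit 388) (nat_lit 5) (nat_lit 451) (nat_lit 440) (nat_lit 249))))) (XT.nd (nat_lit 234) (nat_lit 1596) (nat_lit 0) (XT.nd (nat_lit 78) (nat_lit 0) (nat_lit 76) (XT.lf (nat_lit 76) (nat_lit 9944299110) (nat_lit 0) (nat_lit 3833004740) (nat_lit 1672) (nat_lit 1605766480) (nat_lit 367) (nat_lit 5) (nat_lit 366) (nat_lit 5) (nat_lit 388) (nat_lit 5) (nat_lit 452) (nat_lit 440) (nat_lit 248)) (XT.nd (nat_lit 78) (nat_lit 0) (nat_lit 0) (XT.lf (nat_lit 76) (nat_lit 1640719853) (nat_lit 0) (nat_lit 13033766562) (nat_lit 1672) (nat_lit 865450941) (nat_lit 368) (nat_lit 5) (nat_lit 367) (nat_lit 5) (nat_lit 389) (nat_lit 5) (nat_lit 453) (nat_lit 440) (nat_lit 247)) (XT.lf (nat_lit 76)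 (nat_lit 8904950913) (nat_lit 0) (nat_lit 6739303162) (nat_lit 1672) (nat_lit 54602217) (nat_lit 368) (nat_lit 5) (nat_lit 367) (nat_lit 5) (nat_lit 389) (nat_lit 5) (nat_lit 454) (nat_lit 440) (nat_lit 246)))) (XT.nd (nat_lit 156) (nat_lit 0) (nat_lit 76) (XT.nd (nat_lit 78) (nat_lit 0) (nat_lit 76) (XT.lf (nat_lit 76) (nat_lit 449536234) (nat_lit 0) (nat_lit 308727827) (nat_lit 1748) (nat_lit 15102677718) (nat_lit 346) (nat_lit 5) (nat_lit 345) (nat_lit 5) (nat_lit 368) (nat_lit 5) (nat_lit 455) (nat_lit 440) (nat_lit 245)) (XT.lf (nat_lit 0) (nat_lit 1666263874) (nat_lit 1672) (nat_lit 8141646113) (nat_lit 1748) (nat_lit 6216766596) (nat_lit 346) (nat_lit 5) (nat_lit 368) (nat_lit 5) (nat_lit 369) (nat_lit 5) (nat_lit 456) (nat_lit 440) (nat_lit 244))) (XT.nd (nat_lit 78) (nat_lit 0) (nat_lit 76) (XT.lf (nat_lit 0) (nat_lit 2587734823) (nat_lit 1672) (nat_lit 733421490) (nat_lit 1748) (nat_lit 12870630383)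 (nat_lit 346) (nat_lit 5) (nat_lit 368) (nat_lit 5) (nat_lit 369) (nat_lit 5) (nat_lit 457) (nat_lit 440) (nat_lit 243)) (XT.lf (nat_lit 0) (nat_lit 3587594545) (nat_lit 1672) (nat_lit 9474396950) (nat_lit 1748) (nat_lit 3299055030) (nat_lit 347) (nat_lit 5) (nat_lit 369) (nat_lit 5) (nat_lit 370) (nat_lit 5) (nat_lit 458) (nat_lit 440) (nat_lit 242)))))) (XT.nd (nat_lit 546) (nat_lit 4180) (nat_lit 0) (XT.nd (nat_lit 234) (nat_lit 0) (nat_lit 76) (XT.nd (nat_lit 78) (nat_lit 0) (nat_lit 76) (XT.lf (nat_lit 0) (nat_lit 4627908599) (nat_lit 1672) (nat_lit 1891462433) (nat_lit 1748) (nat_lit 10013917947) (nat_lit 347) (nat_lit 5) (nat_lit 369) (nat_lit 5) (nat_lit 370) (nat_lit 5) (nat_lit 459) (nat_lit 440) (nat_lit 241)) (XT.nd (nat_lit 78) (nat_lit 0) (nat_lit 0) (XT.lf (nat_lit 0) (nat_lit 5722339703) (nat_lit 1672) (nat_lit 10793697710) (nat_lit 1748) (nat_lit 192279093) (nat_lit 348) (nat_lit 5) (nat_lit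 370) (nat_lit 5) (nat_lit 371) (nat_lit 5) (nat_lit 460) (nat_lit 440) (nat_lit 240)) (XT.lf (nat_lit 0) (nat_lit 6888350062) (nat_lit 1672) (nat_lit 3032308172) (nat_lit 1748) (nat_lit 6965198853) (nat_lit 348) (nat_lit 5) (nat_lit 370) (nat_lit 5) (nat_lit 371) (nat_lit 5) (nat_lit 461) (nat_lit 440) (nat_lit 239)))) (XT.nd (nat_lit 156) (nat_lit 0) (nat_lit 76) (XT.nd (nat_lit 78) (nat_lit 0) (nat_lit 76) (XT.lf (nat_lit 76) (nat_lit 4944331756) (nat_lit 0) (nat_lit 3159312737) (nat_lit 1748) (nat_lit 8962790899) (nat_lit 349) (nat_lit 5) (nat_lit 348) (nat_lit 5) (nat_lit 371) (nat_lit 5) (nat_lit 462) (nat_lit 440) (nat_lit 238)) (XT.lf (nat_lit 0) (nat_lit 9381952116) (nat_lit 1672) (nat_lit 4157936280) (nat_lit 1748) (nat_lit 3709968792) (nat_lit 349) (nat_lit 5) (nat_lit 371) (nat_lit 5) (nat_lit 372) (nat_lit 5) (nat_lit 463) (nat_lit 440) (nat_lit 237))) (XT.nd (nat_lit 78) (nat_lit 0) (nat_lit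 76) (XT.lf (nat_lit 76) (nat_lit 3992119108) (nat_lit 0) (nat_lit 6734626703) (nat_lit 1748) (nat_lit 6709389160) (nat_lit 350) (nat_lit 5) (nat_lit 349) (nat_lit 5) (nat_lit 372) (nat_lit 5) (nat_lit 464) (nat_lit 440) (nat_lit 236)) (XT.lf (nat_lit 0) (nat_lit 12122033944) (nat_lit 1672) (nat_lit 5270497444) (nat_lit 76) (nat_lit 233140785) (nat_lit 350) (nat_lit 5) (nat_lit 372) (nat_lit 5) (nat_lit 351) (nat_lit 5) (nat_lit 465) (nat_lit 440) (nat_lit 235))))) (XT.nd (nat_lit 234) (nat_lit 1748) (nat_lit 0) (XT.nd (nat_lit 78) (nat_lit 988) (nat_lit 0) (XT.lf (nat_lit 0) (nat_lit 3057155307) (nat_lit 1672) (nat_lit 10546805658) (nat_lit 1748) (nat_lit 4213870210) (nat_lit 328) (nat_lit 5) (nat_lit 350) (nat_lit 5) (nat_lit 351) (nat_lit 5) (nat_lit 466) (nat_lit 440) (nat_lit 234)) (XT.nd (nat_lit 78) (nat_lit 988) (nat_lit 0) (XT.lf (nat_lit 0) (nat_lit 11618004876) (nat_lit 1672) (nat_lit 3527254254)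 (nat_lit 1748) (nat_lit 2867985182) (nat_lit 328) (nat_lit 5) (nat_lit 350) (nat_lit 5) (nat_lit 351) (nat_lit 5) (nat_lit 467) (nat_lit 440) (nat_lit 233)) (XT.lf (nat_lit 0) (nat_lit 2137122214) (nat_lit 988) (nat_lit 14612203087) (nat_lit 1064) (nat_lit 1462607068) (nat_lit 315) (nat_lit 5) (nat_lit 328) (nat_lit 5) (nat_lit 329) (nat_lit 5) (nat_lit 468) (nat_lit 440) (nat_lit 232)))) (XT.nd (nat_lit 156) (nat_lit 836) (nat_lit 0) (XT.nd (nat_lit 78) (nat_lit 836) (nat_lit 0) (XT.lf (nat_lit 0) (nat_lit 32335809) (nat_lit 1064) (nat_lit 7515242894) (nat_lit 76) (nat_lit 10865803045) (nat_lit 314) (nat_lit 5) (nat_lit 328) (nat_lit 5) (nat_lit 315) (nat_lit 5) (nat_lit 469) (nat_lit 440) (nat_lit 231)) (XT.lf (nat_lit 0) (nat_lit 1217013636) (nat_lit 836) (nat_lit 323123428) (nat_lit 912) (nat_lit 17078483997) (nat_lit 303) (nat_lit 5) (nat_lit 314) (nat_lit 5) (nat_lit 315) (nat_lit 5) (nat_lit 470)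 (nat_lit 440) (nat_lit 230))) (XT.nd (nat_lit 78) (nat_lit 836) (nat_lit 0) (XT.lf (nat_lit 0) (nat_lit 3169307776) (nat_lit 912) (nat_lit 8652110845) (nat_lit 76) (nat_lit 7004727349) (nat_lit 303) (nat_lit 5) (nat_lit 315) (nat_lit 5) (nat_lit 304) (nat_lit 5) (nat_lit 471) (nat_lit 440) (nat_lit 229)) (XT.lf (nat_lit 0) (nat_lit 268998468) (nat_lit 836) (nat_lit 4560755792) (nat_lit 912) (nat_lit 14208098249) (nat_lit 292) (nat_lit 5) (nat_lit 303) (nat_lit 5) (nat_lit 304) (nat_lit 5) (nat_lit 472) (nat_lit 440) (nat_lit 228))))))) (XT.nd (nat_lit 1092) (nat_lit 4332) (nat_lit 0) (XT.nd (nat_lit 546) (nat_lit 2204) (nat_lit 0) (XT.nd (nat_lit 234) (nat_lit 1444) (nat_lit 0) (XT.nd (nat_lit 78) (nat_lit 760) (nat_lit 0) (XT.lf (nat_lit 0) (nat_lit 6595206391) (nat_lit 912) (nat_lit 9790521067) (nat_lit 76) (nat_lit 2866634668) (nat_lit 292) (nat_lit 5) (nat_lit 304) (nat_lit 5) (nat_lit 293) (nat_lit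 5) (nat_lit 473) (nat_lit 440) (nat_lit 227)) (XT.nd (nat_lit 78) (nat_lit 760) (nat_lit 0) (XT.lf (nat_lit 0) (nat_lit 8421151232) (nat_lit 912) (nat_lit 667573925) (nat_lit 76) (nat_lit 10381937892) (nat_lit 292) (nat_lit 5) (nat_lit 304) (nat_lit 5) (nat_lit 293) (nat_lit 5) (nat_lit 474) (nat_lit 440) (nat_lit 226)) (XT.lf (nat_lit 0) (nat_lit 8747906834) (nat_lit 760) (nat_lit 1587583766) (nat_lit 836) (nat_lit 9356806568) (nat_lit 282) (nat_lit 5) (nat_lit 292) (nat_lit 5) (nat_lit 293) (nat_lit 5) (nat_lit 475) (nat_lit 440) (nat_lit 225)))) (XT.nd (nat_lit 156) (nat_lit 684) (nat_lit 0) (XT.nd (nat_lit 78) (nat_lit 760) (nat_lit 0) (XT.lf (nat_lit 0) (nat_lit 12327141367) (nat_lit 836) (nat_lit 1601654743) (nat_lit 76) (nat_lit 5988791968) (nat_lit 282) (nat_lit 5) (nat_lit 293) (nat_lit 5) (nat_lit 283) (nat_lit 5) (nat_lit 476) (nat_lit 440) (nat_lit 224)) (XT.lf (nat_lit 0) (nat_lit 8017942972)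 (nat_lit 760) (nat_lit 6398495333) (nat_lit 836) (nat_lit 5729794748) (nat_lit 272) (nat_lit 5) (nat_lit 282) (nat_lit 5) (nat_lit 283) (nat_lit 5) (nat_lit 477) (nat_lit 440) (nat_lit 223))) (XT.nd (nat_lit 78) (nat_lit 684) (nat_lit 0) (XT.lf (nat_lit 0) (nat_lit 16561972114) (nat_lit 836) (nat_lit 2540693881) (nat_lit 76) (nat_lit 1276500335) (nat_lit 272) (nat_lit 5) (nat_lit 283) (nat_lit 5) (nat_lit 273) (nat_lit 5) (nat_lit 478) (nat_lit 440) (nat_lit 222)) (XT.lf (nat_lit 0) (nat_lit 7287241863) (nat_lit 684) (nat_lit 11548260074) (nat_lit 760) (nat_lit 1779558963) (nat_lit 263) (nat_lit 5) (nat_lit 272) (nat_lit 5) (nat_lit 273) (nat_lit 5) (nat_lit 479) (nat_lit 440) (nat_lit 221))))) (XT.nd (nat_lit 234) (nat_lit 1368) (nat_lit 0) (XT.nd (nat_lit 78) (nat_lit 760) (nat_lit 0) (XT.lf (nat_lit 0) (nat_lit 307495915) (nat_lit 760) (nat_lit 3515855752) (nat_lit 76) (nat_lit 17032035334) (nat_lit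 262) (nat_lit 5) (nat_lit 272) (nat_lit 5) (nat_lit 263) (nat_lit 5) (nat_lit 480) (nat_lit 440) (nat_lit 220)) (XT.nd (nat_lit 78) (nat_lit 0) (nat_lit 0) (XT.lf (nat_lit 0) (nat_lit 2477299074) (nat_lit 836) (nat_lit 14564150892) (nat_lit 76) (nat_lit 4057541777) (nat_lit 252) (nat_lit 5) (nat_lit 263) (nat_lit 5) (nat_lit 253) (nat_lit 5) (nat_lit 481) (nat_lit 440) (nat_lit 219)) (XT.lf (nat_lit 0) (nat_lit 4735139495) (nat_lit 836) (nat_lit 4542880655) (nat_lit 76) (nat_lit 12068559610) (nat_lit 252) (nat_lit 5) (nat_lit 263) (nat_lit 5) (nat_lit 253) (nat_lit 5) (nat_lit 482) (nat_lit 440) (nat_lit 218)))) (XT.nd (nat_lit 156) (nat_lit 684) (nat_lit 0) (XT.nd (nat_lit 78) (nat_lit 0) (nat_lit 0) (XT.lf (nat_lit 0) (nat_lit 5749696601) (nat_lit 684) (nat_lit 1321429300) (nat_lit 760) (nat_lit 14527337778) (nat_lit 243) (nat_lit 5) (nat_lit 252) (nat_lit 5) (nat_lit 253) (nat_lit 5) (nat_lit 483)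 (nat_lit 440) (nat_lit 217)) (XT.lf (nat_lit 0) (nat_lit 9524344999) (nat_lit 760) (nat_lit 5593970277) (nat_lit 76) (nat_lit 6735663590) (nat_lit 243) (nat_lit 5) (nat_lit 253) (nat_lit 5) (nat_lit 244) (nat_lit 5) (nat_lit 484) (nat_lit 440) (nat_lit 216))) (XT.nd (nat_lit 78) (nat_lit 0) (nat_lit 0) (XT.lf (nat_lit 0) (nat_lit 4917165585) (nat_lit 684) (nat_lit 7145936538) (nat_lit 760) (nat_lit 10050776536) (nat_lit 234) (nat_lit 5) (nat_lit 243) (nat_lit 5) (nat_lit 244) (nat_lit 5) (nat_lit 485) (nat_lit 440) (nat_lit 215)) (XT.lf (nat_lit 0) (nat_lit 14692670848) (nat_lit 760) (nat_lit 6675073686) (nat_lit 76) (nat_lit 1010434883) (nat_lit 234) (nat_lit 5) (nat_lit 244) (nat_lit 5) (nat_lit 235) (nat_lit 5) (nat_lit 486) (nat_lit 440) (nat_lit 214)))))) (XT.nd (nat_lit 546) (nat_lit 1748) (nat_lit 0) (XT.nd (nat_lit 234) (nat_lit 1216) (nat_lit 0) (XT.nd (nat_lit 78) (nat_lit 760) (nat_lit 0) (XT.lf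 (nat_lit 0) (nat_lit 4058440541) (nat_lit 608) (nat_lit 13385994306) (nat_lit 684) (nat_lit 5201942893) (nat_lit 226) (nat_lit 5) (nat_lit 234) (nat_lit 5) (nat_lit 235) (nat_lit 5) (nat_lit 487) (nat_lit 440) (nat_lit 213)) (XT.nd (nat_lit 78) (nat_lit 760) (nat_lit 0) (XT.lf (nat_lit 0) (nat_lit 15092675740) (nat_lit 608) (nat_lit 5199332409) (nat_lit 684) (nat_lit 2627119956) (nat_lit 226) (nat_lit 5) (nat_lit 234) (nat_lit 5) (nat_lit 235) (nat_lit 5) (nat_lit 488) (nat_lit 440) (nat_lit 212)) (XT.lf (nat_lit 0) (nat_lit 36529485) (nat_lit 760) (nat_lit 20029922190) (nat_lit 76) (nat_lit 3130138931) (nat_lit 216) (nat_lit 5) (nat_lit 226) (nat_lit 5) (nat_lit 217) (nat_lit 5) (nat_lit 489) (nat_lit 440) (nat_lit 211)))) (XT.nd (nat_lit 156) (nat_lit 608) (nat_lit 0) (XT.nd (nat_lit 78) (nat_lit 608) (nat_lit 0) (XT.lf (nat_lit 0) (nat_lit 2801684316) (nat_lit 760) (nat_lit 9049440203) (nat_lit 76)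 (nat_lit 11626465695) (nat_lit 216) (nat_lit 5) (nat_lit 226) (nat_lit 5) (nat_lit 217) (nat_lit 5) (nat_lit 490) (nat_lit 440) (nat_lit 210)) (XT.lf (nat_lit 0) (nat_lit 2174810879) (nat_lit 608) (nat_lit 3457605170) (nat_lit 684) (nat_lit 18131591574) (nat_lit 208) (nat_lit 5) (nat_lit 216) (nat_lit 5) (nat_lit 217) (nat_lit 5) (nat_lit 491) (nat_lit 440) (nat_lit 209))) (XT.nd (nat_lit 78) (nat_lit 608) (nat_lit 0) (XT.lf (nat_lit 0) (nat_lit 8610225534) (nat_lit 684) (nat_lit 10346674237) (nat_lit 76) (nat_lit 5097447567) (nat_lit 208) (nat_lit 5) (nat_lit 217) (nat_lit 5) (nat_lit 209) (nat_lit 5) (nat_lit 492) (nat_lit 440) (nat_lit 208)) (XT.lf (nat_lit 0) (nat_lit 1108008283) (nat_lit 608) (nat_lit 10565946750) (nat_lit 684) (nat_lit 12676014695) (nat_lit 200) (nat_lit 5) (nat_lit 208) (nat_lit 5) (nat_lit 209) (nat_lit 5) (nat_lit 493) (nat_lit 440) (nat_lit 207))))) (XT.nd (nat_lit 234) (nat_lit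 1216) (nat_lit 0) (XT.nd (nat_lit 78) (nat_lit 532) (nat_lit 0) (XT.lf (nat_lit 0) (nat_lit 12927740679) (nat_lit 608) (nat_lit 1936967139) (nat_lit 684) (nat_lit 9785484870) (nat_lit 200) (nat_lit 5) (nat_lit 208) (nat_lit 5) (nat_lit 209) (nat_lit 5) (nat_lit 494) (nat_lit 440) (nat_lit 206)) (XT.nd (nat_lit 78) (nat_lit 532) (nat_lit 0) (XT.lf (nat_lit 0) (nat_lit 18160230523) (nat_lit 684) (nat_lit 21404659) (nat_lit 76) (nat_lit 6773968863) (nat_lit 200) (nat_lit 5) (nat_lit 209) (nat_lit 5) (nat_lit 201) (nat_lit 5) (nat_lit 495) (nat_lit 440) (nat_lit 205)) (XT.lf (nat_lit 0) (nat_lit 12054737276) (nat_lit 532) (nat_lit 9554477606) (nat_lit 608) (nat_lit 3656160698) (nat_lit 193) (nat_lit 5) (nat_lit 200) (nat_lit 5) (nat_lit 201) (nat_lit 5) (nat_lit 496) (nat_lit 440) (nat_lit 204)))) (XT.nd (nat_lit 156) (nat_lit 532) (nat_lit 0) (XT.nd (nat_lit 78) (nat_lit 684) (nat_lit 0) (XT.lf (nat_lit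 0) (nat_lit 24368521009) (nat_lit 532) (nat_lit 755300214) (nat_lit 608) (nat_lit 457591394) (nat_lit 193) (nat_lit 5) (nat_lit 200) (nat_lit 5) (nat_lit 201) (nat_lit 5) (nat_lit 497) (nat_lit 440) (nat_lit 203)) (XT.lf (nat_lit 0) (nat_lit 2891052590) (nat_lit 684) (nat_lit 14807317618) (nat_lit 76) (nat_lit 8202580945) (nat_lit 184) (nat_lit 5) (nat_lit 193) (nat_lit 5) (nat_lit 185) (nat_lit 5) (nat_lit 498) (nat_lit 440) (nat_lit 202))) (XT.nd (nat_lit 78) (nat_lit 532) (nat_lit 0) (XT.lf (nat_lit 0) (nat_lit 6310321434) (nat_lit 684) (nat_lit 2576251248) (nat_lit 76) (nat_lit 17340054450) (nat_lit 184) (nat_lit 5) (nat_lit 193) (nat_lit 5) (nat_lit 185) (nat_lit 5) (nat_lit 499) (nat_lit 440) (nat_lit 201)) (XT.lf (nat_lit 0) (nat_lit 9860807112) (nat_lit 608) (nat_lit 16531824763) (nat_lit 76) (nat_lit 164930822) (nat_lit 177) (nat_lit 5) (nat_lit 185) (nat_lit 5) (nat_lit 178) (nat_lit 5) (nat_lit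 500) (nat_lit 440) (nat_lit 200))))))))
noncomputable def xc226 : XT := (XT.nd (nat_lit 55848) (nat_lit 0) (nat_lit 8740) (XT.nd (nat_lit 54756) (nat_lit 0) (nat_lit 15808) (XT.nd (nat_lit 468) (nat_lit 1444) (nat_lit 0) (XT.nd (nat_lit 234) (nat_lit 1064) (nat_lit 0) (XT.nd (nat_lit 78) (nat_lit 532) (nat_lit 0) (XT.lf (nat_lit 0) (nat_lit 13555236396) (nat_lit 608) (nat_lit 4043181234) (nat_lit 76) (nat_lit 9295243308) (nat_lit 177) (nat_lit 5) (nat_lit 185) (nat_lit 5) (nat_lit 178) (nat_lit 5) (nat_lit 501) (nat_lit 440) (nat_lit 199)) (XT.nd (nat_lit 78) (nat_lit 0) (nat_lit 0) (XT.lf (nat_lit 0) (nat_lit 8806684733) (nat_lit 532) (nat_lit 8570793396) (nat_lit 608) (nat_lit 9857927127) (nat_lit 170) (nat_lit 5) (nat_lit 177) (nat_lit 5) (nat_lit 178) (nat_lit 5) (nat_lit 502) (nat_lit 440) (nat_lit 198)) (XT.lf (nat_lit 0) (nat_lit 21304392040) (nat_lit 608) (nat_lit 5623492087) (nat_lit 76) (nat_lit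 655538326) (nat_lit 170) (nat_lit 5) (nat_lit 178) (nat_lit 5) (nat_lit 171) (nat_lit 5) (nat_lit 503) (nat_lit 440) (nat_lit 197)))) (XT.nd (nat_lit 78) (nat_lit 608) (nat_lit 0) (XT.lf (nat_lit 0) (nat_lit 7475111588) (nat_lit 456) (nat_lit 17936866901) (nat_lit 532) (nat_lit 2524381309) (nat_lit 164) (nat_lit 5) (nat_lit 170) (nat_lit 5) (nat_lit 171) (nat_lit 5) (nat_lit 504) (nat_lit 440) (nat_lit 196)) (XT.nd (nat_lit 78) (nat_lit 532) (nat_lit 0) (XT.lf (nat_lit 0) (nat_lit 1323080909) (nat_lit 532) (nat_lit 7396435474) (nat_lit 76) (nat_lit 19575975591) (nat_lit 163) (nat_lit 5) (nat_lit 170) (nat_lit 5) (nat_lit 164) (nat_lit 5) (nat_lit 505) (nat_lit 440) (nat_lit 195)) (XT.lf (nat_lit 0) (nat_lit 5254304683) (nat_lit 608) (nat_lit 22678012808) (nat_lit 76) (nat_lit 728345650) (nat_lit 156) (nat_lit 5) (nat_lit 164) (nat_lit 5) (nat_lit 157) (nat_lit 5) (nat_lit 506) (nat_lit 440) (nat_lit 194)))))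 (XT.nd (nat_lit 234) (nat_lit 988) (nat_lit 0) (XT.nd (nat_lit 78) (nat_lit 456) (nat_lit 0) (XT.lf (nat_lit 0) (nat_lit 9368805502) (nat_lit 608) (nat_lit 9364617574) (nat_lit 76) (nat_lit 10297623906) (nat_lit 156) (nat_lit 5) (nat_lit 164) (nat_lit 5) (nat_lit 157) (nat_lit 5) (nat_lit 507) (nat_lit 440) (nat_lit 193)) (XT.nd (nat_lit 78) (nat_lit 0) (nat_lit 0) (XT.lf (nat_lit 0) (nat_lit 4267110300) (nat_lit 456) (nat_lit 9323195603) (nat_lit 532) (nat_lit 15818040657) (nat_lit 150) (nat_lit 5) (nat_lit 156) (nat_lit 5) (nat_lit 157) (nat_lit 5) (nat_lit 508) (nat_lit 440) (nat_lit 192)) (XT.lf (nat_lit 0) (nat_lit 17958313334) (nat_lit 532) (nat_lit 11499654956) (nat_lit 76) (nat_lit 333984512) (nat_lit 150) (nat_lit 5) (nat_lit 157) (nat_lit 5) (nat_lit 151) (nat_lit 5) (nat_lit 509) (nat_lit 440) (nat_lit 191)))) (XT.nd (nat_lit 156) (nat_lit 532) (nat_lit 0) (XT.nd (nat_lit 78) (nat_lit 0) (nat_lit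 0) (XT.lf (nat_lit 0) (nat_lit 2380382080) (nat_lit 456) (nat_lit 20107587379) (nat_lit 532) (nat_lit 7693778107) (nat_lit 144) (nat_lit 5) (nat_lit 150) (nat_lit 5) (nat_lit 151) (nat_lit 5) (nat_lit 510) (nat_lit 440) (nat_lit 190)) (XT.lf (nat_lit 0) (nat_lit 16690074034) (nat_lit 456) (nat_lit 10492436125) (nat_lit 532) (nat_lit 3395344362) (nat_lit 144) (nat_lit 5) (nat_lit 150) (nat_lit 5) (nat_lit 151) (nat_lit 5) (nat_lit 511) (nat_lit 440) (nat_lit 189))) (XT.nd (nat_lit 53820) (nat_lit 0) (nat_lit 17100) (XT.lf (nat_lit 0) (nat_lit 297768430) (nat_lit 456) (nat_lit 677409655) (nat_lit 532) (nat_lit 30006597304) (nat_lit 137) (nat_lit 5) (nat_lit 143) (nat_lit 5) (nat_lit 144) (nat_lit 5) (nat_lit 512) (nat_lit 440) (nat_lit 188)) (XT.lf (nat_lit 0) (nat_lit 1766179682) (nat_lit 0) (nat_lit 1766179682) (nat_lit 1596) (nat_lit 3440000109) (nat_lit 362) (nat_lit 5) (nat_lit 362) (nat_lit 3) (nat_lit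 383) (nat_lit 3) (nat_lit 441) (nat_lit 441) (nat_lit 258)))))) (XT.nd (nat_lit 546) (nat_lit 1292) (nat_lit 0) (XT.nd (nat_lit 234) (nat_lit 0) (nat_lit 76) (XT.nd (nat_lit 78) (nat_lit 0) (nat_lit 0) (XT.lf (nat_lit 0) (nat_lit 7477040503) (nat_lit 1596) (nat_lit 4263030761) (nat_lit 1672) (nat_lit 2336917545) (nat_lit 362) (nat_lit 5) (nat_lit 383) (nat_lit 3) (nat_lit 384) (nat_lit 5) (nat_lit 442) (nat_lit 441) (nat_lit 257)) (XT.nd (nat_lit 78) (nat_lit 0) (nat_lit 76) (XT.lf (nat_lit 76) (nat_lit 2007735879) (nat_lit 0) (nat_lit 5917770308) (nat_lit 1672) (nat_lit 6285848948) (nat_lit 363) (nat_lit 5) (nat_lit 362) (nat_lit 5) (nat_lit 384) (nat_lit 5) (nat_lit 443) (nat_lit 441) (nat_lit 256)) (XT.lf (nat_lit 0) (nat_lit 8403506709) (nat_lit 1596) (nat_lit 5891118126) (nat_lit 1672) (nat_lit 53381483) (nat_lit 363) (nat_lit 5) (nat_lit 384) (nat_lit 5) (nat_lit 385) (nat_lit 5) (nat_lit 444) (nat_lit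 441) (nat_lit 255)))) (XT.nd (nat_lit 156) (nat_lit 0) (nat_lit 76) (XT.nd (nat_lit 78) (nat_lit 0) (nat_lit 0) (XT.lf (nat_lit 76) (nat_lit 510569893) (nat_lit 0) (nat_lit 8414799601) (nat_lit 1672) (nat_lit 5561343656) (nat_lit 364) (nat_lit 5) (nat_lit 363) (nat_lit 5) (nat_lit 385) (nat_lit 5) (nat_lit 445) (nat_lit 441) (nat_lit 254)) (XT.lf (nat_lit 76) (nat_lit 7115608571) (nat_lit 0) (nat_lit 2373521608) (nat_lit 1672) (nat_lit 5138443225) (nat_lit 364) (nat_lit 5) (nat_lit 363) (nat_lit 5) (nat_lit 385) (nat_lit 5) (nat_lit 446) (nat_lit 441) (nat_lit 253))) (XT.nd (nat_lit 78) (nat_lit 0) (nat_lit 0) (XT.lf (nat_lit 0) (nat_lit 10080872969) (nat_lit 1596) (nat_lit 947739684) (nat_lit 1672) (nat_lit 3742312405) (nat_lit 364) (nat_lit 5) (nat_lit 385) (nat_lit 5) (nat_lit 386) (nat_lit 5) (nat_lit 447) (nat_lit 441) (nat_lit 252)) (XT.lf (nat_lit 76) (nat_lit 5803618889) (nat_lit 0) (nat_lit 4926494984)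 (nat_lit 1672) (nat_lit 4186124775) (nat_lit 365) (nat_lit 5) (nat_lit 364) (nat_lit 5) (nat_lit 386) (nat_lit 5) (nat_lit 448) (nat_lit 441) (nat_lit 251))))) (XT.nd (nat_lit 234) (nat_lit 1520) (nat_lit 0) (XT.nd (nat_lit 78) (nat_lit 0) (nat_lit 0) (XT.lf (nat_lit 0) (nat_lit 11399572940) (nat_lit 1596) (nat_lit 2374645608) (nat_lit 1672) (nat_lit 1290103303) (nat_lit 365) (nat_lit 5) (nat_lit 386) (nat_lit 5) (nat_lit 387) (nat_lit 5) (nat_lit 449) (nat_lit 441) (nat_lit 250)) (XT.nd (nat_lit 78) (nat_lit 0) (nat_lit 0) (XT.lf (nat_lit 76) (nat_lit 4520138415) (nat_lit 0) (nat_lit 7616811295) (nat_lit 1672) (nat_lit 3077334290) (nat_lit 366) (nat_lit 5) (nat_lit 365) (nat_lit 5) (nat_lit 387) (nat_lit 5) (nat_lit 450) (nat_lit 441) (nat_lit 249)) (XT.lf (nat_lit 76) (nat_lit 11580431127) (nat_lit 0) (nat_lit 1317249274) (nat_lit 1672) (nat_lit 2469400561) (nat_lit 366) (nat_lit 5) (nat_lit 365) (nat_lit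 5) (nat_lit 387) (nat_lit 5) (nat_lit 451) (nat_lit 441) (nat_lit 248)))) (XT.nd (nat_lit 156) (nat_lit 1596) (nat_lit 0) (XT.nd (nat_lit 78) (nat_lit 0) (nat_lit 0) (XT.lf (nat_lit 76) (nat_lit 3263982057) (nat_lit 0) (nat_lit 10456834567) (nat_lit 1672) (nat_lit 1801180966) (nat_lit 367) (nat_lit 5) (nat_lit 366) (nat_lit 5) (nat_lit 388) (nat_lit 5) (nat_lit 452) (nat_lit 441) (nat_lit 247)) (XT.lf (nat_lit 76) (nat_lit 10493491828) (nat_lit 0) (nat_lit 4093943273) (nat_lit 1672) (nat_lit 1092044460) (nat_lit 367) (nat_lit 5) (nat_lit 366) (nat_lit 5) (nat_lit 388) (nat_lit 5) (nat_lit 453) (nat_lit 441) (nat_lit 246))) (XT.nd (nat_lit 78) (nat_lit 1672) (nat_lit 0) (XT.lf (nat_lit 76) (nat_lit 2033903071) (nat_lit 0) (nat_lit 13459342939) (nat_lit 1672) (nat_lit 346435213) (nat_lit 368) (nat_lit 5) (nat_lit 367) (nat_lit 5) (nat_lit 389) (nat_lit 5) (nat_lit 454) (nat_lit 441) (nat_lit 245)) (XT.lf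 (nat_lit 0) (nat_lit 463948679) (nat_lit 1672) (nat_lit 6568694898) (nat_lit 1748) (nat_lit 8969290677) (nat_lit 345) (nat_lit 5) (nat_lit 367) (nat_lit 5) (nat_lit 368) (nat_lit 5) (nat_lit 455) (nat_lit 441) (nat_lit 244))))))) (XT.nd (nat_lit 1014) (nat_lit 5776) (nat_lit 0) (XT.nd (nat_lit 468) (nat_lit 1292) (nat_lit 0) (XT.nd (nat_lit 234) (nat_lit 0) (nat_lit 152) (XT.nd (nat_lit 78) (nat_lit 0) (nat_lit 76) (XT.lf (nat_lit 76) (nat_lit 816880740) (nat_lit 0) (nat_lit 467613019) (nat_lit 1748) (nat_lit 14882927778) (nat_lit 346) (nat_lit 5) (nat_lit 345) (nat_lit 5) (nat_lit 368) (nat_lit 5) (nat_lit 456) (nat_lit 441) (nat_lit 243)) (XT.nd (nat_lit 78) (nat_lit 0) (nat_lit 0) (XT.lf (nat_lit 0) (nat_lit 2199660640) (nat_lit 1672) (nat_lit 7941651234) (nat_lit 1748) (nat_lit 6193349175) (nat_lit 346) (nat_lit 5) (nat_lit 368) (nat_lit 5) (nat_lit 369) (nat_lit 5) (nat_lit 457) (nat_lit 441) (nat_lit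 242)) (XT.lf (nat_lit 0) (nat_lit 3129755684) (nat_lit 1672) (nat_lit 392376389) (nat_lit 1748) (nat_lit 12983187351) (nat_lit 346) (nat_lit 5) (nat_lit 368) (nat_lit 5) (nat_lit 369) (nat_lit 5) (nat_lit 458) (nat_lit 441) (nat_lit 241)))) (XT.nd (nat_lit 78) (nat_lit 0) (nat_lit 0) (XT.lf (nat_lit 0) (nat_lit 4141452592) (nat_lit 1672) (nat_lit 9299523424) (nat_lit 1748) (nat_lit 3237161393) (nat_lit 347) (nat_lit 5) (nat_lit 369) (nat_lit 5) (nat_lit 370) (nat_lit 5) (nat_lit 459) (nat_lit 441) (nat_lit 240)) (XT.nd (nat_lit 78) (nat_lit 0) (nat_lit 76) (XT.lf (nat_lit 0) (nat_lit 5193119864) (nat_lit 1672) (nat_lit 1572074558) (nat_lit 1748) (nat_lit 10088828916) (nat_lit 347) (nat_lit 5) (nat_lit 369) (nat_lit 5) (nat_lit 370) (nat_lit 5) (nat_lit 460) (nat_lit 441) (nat_lit 239)) (XT.lf (nat_lit 0) (nat_lit 6301756382) (nat_lit 1672) (nat_lit 10644202355) (nat_lit 1748) (nat_lit 86755723) (nat_lit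 348) (nat_lit 5) (nat_lit 370) (nat_lit 5) (nat_lit 371) (nat_lit 5) (nat_lit 461) (nat_lit 441) (nat_lit 238))))) (XT.nd (nat_lit 234) (nat_lit 1520) (nat_lit 0) (XT.nd (nat_lit 78) (nat_lit 0) (nat_lit 0) (XT.lf (nat_lit 0) (nat_lit 7481969892) (nat_lit 1672) (nat_lit 2734749130) (nat_lit 1748) (nat_lit 6997278367) (nat_lit 348) (nat_lit 5) (nat_lit 370) (nat_lit 5) (nat_lit 371) (nat_lit 5) (nat_lit 462) (nat_lit 441) (nat_lit 237)) (XT.nd (nat_lit 78) (nat_lit 0) (nat_lit 76) (XT.lf (nat_lit 76) (nat_lit 5399066984) (nat_lit 0) (nat_lit 3315875343) (nat_lit 1748) (nat_lit 8683386508) (nat_lit 349) (nat_lit 5) (nat_lit 348) (nat_lit 5) (nat_lit 371) (nat_lit 5) (nat_lit 463) (nat_lit 441) (nat_lit 236)) (XT.lf (nat_lit 0) (nat_lit 10009413395) (nat_lit 1672) (nat_lit 3882379202) (nat_lit 1748) (nat_lit 3693823361) (nat_lit 349) (nat_lit 5) (nat_lit 371) (nat_lit 5) (nat_lit 372) (nat_lit 5) (nat_lit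 464) (nat_lit 441) (nat_lit 235)))) (XT.nd (nat_lit 156) (nat_lit 1596) (nat_lit 0) (XT.nd (nat_lit 78) (nat_lit 0) (nat_lit 76) (XT.lf (nat_lit 76) (nat_lit 4428317321) (nat_lit 0) (nat_lit 6946475376) (nat_lit 1748) (nat_lit 6400961471) (nat_lit 350) (nat_lit 5) (nat_lit 349) (nat_lit 5) (nat_lit 372) (nat_lit 5) (nat_lit 465) (nat_lit 441) (nat_lit 234)) (XT.lf (nat_lit 0) (nat_lit 12788995232) (nat_lit 1672) (nat_lit 5017122802) (nat_lit 76) (nat_lit 163152402) (nat_lit 350) (nat_lit 5) (nat_lit 372) (nat_lit 5) (nat_lit 351) (nat_lit 5) (nat_lit 466) (nat_lit 441) (nat_lit 233))) (XT.nd (nat_lit 78) (nat_lit 0) (nat_lit 0) (XT.lf (nat_lit 0) (nat_lit 3474722579) (nat_lit 1672) (nat_lit 10819828423) (nat_lit 1748) (nat_lit 3870850141) (nat_lit 328) (nat_lit 5) (nat_lit 350) (nat_lit 5) (nat_lit 351) (nat_lit 5) (nat_lit 467) (nat_lit 441) (nat_lit 232)) (XT.lf (nat_lit 0) (nat_lit 12199800430) (nat_lit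 1672) (nat_lit 3658668606) (nat_lit 1748) (nat_lit 2506425795) (nat_lit 328) (nat_lit 5) (nat_lit 350) (nat_lit 5) (nat_lit 351) (nat_lit 5) (nat_lit 468) (nat_lit 441) (nat_lit 231)))))) (XT.nd (nat_lit 546) (nat_lit 3040) (nat_lit 0) (XT.nd (nat_lit 234) (nat_lit 836) (nat_lit 0) (XT.nd (nat_lit 78) (nat_lit 912) (nat_lit 0) (XT.lf (nat_lit 0) (nat_lit 2535951496) (nat_lit 988) (nat_lit 14952544342) (nat_lit 1064) (nat_lit 1079191231) (nat_lit 315) (nat_lit 5) (nat_lit 328) (nat_lit 5) (nat_lit 329) (nat_lit 5) (nat_lit 469) (nat_lit 441) (nat_lit 230)) (XT.nd (nat_lit 78) (nat_lit 836) (nat_lit 0) (XT.lf (nat_lit 0) (nat_lit 432252882) (nat_lit 1064) (nat_lit 7310752192) (nat_lit 76) (nat_lit 11030274177) (nat_lit 314) (nat_lit 5) (nat_lit 328) (nat_lit 5) (nat_lit 315) (nat_lit 5) (nat_lit 470) (nat_lit 441) (nat_lit 229)) (XT.lf (nat_lit 0) (nat_lit 1593815288) (nat_lit 836) (nat_lit 370854457) (nat_lit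 912) (nat_lit 17018071957) (nat_lit 303) (nat_lit 5) (nat_lit 314) (nat_lit 5) (nat_lit 315) (nat_lit 5) (nat_lit 471) (nat_lit 441) (nat_lit 228)))) (XT.nd (nat_lit 156) (nat_lit 0) (nat_lit 0) (XT.nd (nat_lit 78) (nat_lit 836) (nat_lit 0) (XT.lf (nat_lit 0) (nat_lit 3618440987) (nat_lit 912) (nat_lit 8471250020) (nat_lit 76) (nat_lit 7104893155) (nat_lit 303) (nat_lit 5) (nat_lit 315) (nat_lit 5) (nat_lit 304) (nat_lit 5) (nat_lit 472) (nat_lit 441) (nat_lit 227)) (XT.lf (nat_lit 0) (nat_lit 625953170) (nat_lit 836) (nat_lit 4680862219) (nat_lit 912) (nat_lit 14103822313) (nat_lit 292) (nat_lit 5) (nat_lit 303) (nat_lit 5) (nat_lit 304) (nat_lit 5) (nat_lit 473) (nat_lit 441) (nat_lit 226))) (XT.nd (nat_lit 78) (nat_lit 0) (nat_lit 0) (XT.lf (nat_lit 0) (nat_lit 7099932541) (nat_lit 912) (nat_lit 9633650929) (nat_lit 76) (nat_lit 2896014031) (nat_lit 292) (nat_lit 5) (nat_lit 304) (nat_lit 5) (nat_lit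 293) (nat_lit 5) (nat_lit 474) (nat_lit 441) (nat_lit 225)) (XT.lf (nat_lit 0) (nat_lit 8955086043) (nat_lit 912) (nat_lit 335160149) (nat_lit 76) (nat_lit 10562171424) (nat_lit 292) (nat_lit 5) (nat_lit 304) (nat_lit 5) (nat_lit 293) (nat_lit 5) (nat_lit 475) (nat_lit 441) (nat_lit 224))))) (XT.nd (nat_lit 234) (nat_lit 1520) (nat_lit 0) (XT.nd (nat_lit 78) (nat_lit 760) (nat_lit 0) (XT.lf (nat_lit 0) (nat_lit 9266355453) (nat_lit 760) (nat_lit 1636420016) (nat_lit 836) (nat_lit 9175814517) (nat_lit 282) (nat_lit 5) (nat_lit 292) (nat_lit 5) (nat_lit 293) (nat_lit 5) (nat_lit 476) (nat_lit 441) (nat_lit 223)) (XT.nd (nat_lit 78) (nat_lit 760) (nat_lit 0) (XT.lf (nat_lit 0) (nat_lit 12927080402) (nat_lit 836) (nat_lit 1289418688) (nat_lit 76) (nat_lit 6092037899) (nat_lit 282) (nat_lit 5) (nat_lit 293) (nat_lit 5) (nat_lit 283) (nat_lit 5) (nat_lit 477) (nat_lit 441) (nat_lit 222)) (XT.lf (nat_lit 0)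 (nat_lit 8520306053) (nat_lit 760) (nat_lit 6533148407) (nat_lit 836) (nat_lit 5488401147) (nat_lit 272) (nat_lit 5) (nat_lit 282) (nat_lit 5) (nat_lit 283) (nat_lit 5) (nat_lit 478) (nat_lit 441) (nat_lit 221)))) (XT.nd (nat_lit 156) (nat_lit 836) (nat_lit 0) (XT.nd (nat_lit 78) (nat_lit 684) (nat_lit 0) (XT.lf (nat_lit 0) (nat_lit 17235019397) (nat_lit 836) (nat_lit 2249008033) (nat_lit 76) (nat_lit 1295564149) (nat_lit 272) (nat_lit 5) (nat_lit 283) (nat_lit 5) (nat_lit 273) (nat_lit 5) (nat_lit 479) (nat_lit 441) (nat_lit 220)) (XT.lf (nat_lit 0) (nat_lit 7773233138) (nat_lit 684) (nat_lit 11776293669) (nat_lit 760) (nat_lit 1470773406) (nat_lit 263) (nat_lit 5) (nat_lit 272) (nat_lit 5) (nat_lit 273) (nat_lit 5) (nat_lit 480) (nat_lit 441) (nat_lit 219))) (XT.nd (nat_lit 78) (nat_lit 760) (nat_lit 0) (XT.lf (nat_lit 0) (nat_lit 646842083) (nat_lit 760) (nat_lit 3247866572) (nat_lit 76) (nat_lit 17370818809)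 (nat_lit 262) (nat_lit 5) (nat_lit 272) (nat_lit 5) (nat_lit 263) (nat_lit 5) (nat_lit 481) (nat_lit 441) (nat_lit 218)) (XT.lf (nat_lit 0) (nat_lit 2855737082) (nat_lit 836) (nat_lit 14512525985) (nat_lit 76) (nat_lit 4145833266) (nat_lit 252) (nat_lit 5) (nat_lit 263) (nat_lit 5) (nat_lit 253) (nat_lit 5) (nat_lit 482) (nat_lit 441) (nat_lit 217))))))))
noncomputable def xc227 : XT := (XT.nd (nat_lit 2106) (nat_lit 456) (nat_lit 0) (XT.nd (nat_lit 1014) (nat_lit 3800) (nat_lit 0) (XT.nd (nat_lit 468) (nat_lit 1976) (nat_lit 0) (XT.nd (nat_lit 234) (nat_lit 1292) (nat_lit 0) (XT.nd (nat_lit 78) (nat_lit 684) (nat_lit 0) (XT.lf (nat_lit 0) (nat_lit 5152285448) (nat_lit 836) (nat_lit 4297554028) (nat_lit 76) (nat_lit 12316931442) (nat_lit 252) (nat_lit 5) (nat_lit 263) (nat_lit 5) (nat_lit 253) (nat_lit 5) (nat_lit 483) (nat_lit 441) (nat_lit 216)) (XT.nd (nat_lit 78) (nat_lit 0) (nat_lit 0) (XT.lf (nat_lit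 0) (nat_lit 6198663035) (nat_lit 684) (nat_lit 1332174503) (nat_lit 760) (nat_lit 14492943776) (nat_lit 243) (nat_lit 5) (nat_lit 252) (nat_lit 5) (nat_lit 253) (nat_lit 5) (nat_lit 484) (nat_lit 441) (nat_lit 215)) (XT.lf (nat_lit 0) (nat_lit 10026979885) (nat_lit 760) (nat_lit 5372004278) (nat_lit 76) (nat_lit 6885551070) (nat_lit 243) (nat_lit 5) (nat_lit 253) (nat_lit 5) (nat_lit 244) (nat_lit 5) (nat_lit 485) (nat_lit 441) (nat_lit 214)))) (XT.nd (nat_lit 78) (nat_lit 608) (nat_lit 0) (XT.lf (nat_lit 0) (nat_lit 5347157951) (nat_lit 684) (nat_lit 7265386937) (nat_lit 760) (nat_lit 9937172973) (nat_lit 234) (nat_lit 5) (nat_lit 243) (nat_lit 5) (nat_lit 244) (nat_lit 5) (nat_lit 486) (nat_lit 441) (nat_lit 213)) (XT.nd (nat_lit 78) (nat_lit 608) (nat_lit 0) (XT.lf (nat_lit 0) (nat_lit 15288811613) (nat_lit 760) (nat_lit 6477266284) (nat_lit 76) (nat_lit 1053349993) (nat_lit 234) (nat_lit 5) (nat_lit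 244) (nat_lit 5) (nat_lit 235) (nat_lit 5) (nat_lit 487) (nat_lit 441) (nat_lit 212)) (XT.lf (nat_lit 0) (nat_lit 4468738563) (nat_lit 608) (nat_lit 13623082050) (nat_lit 684) (nat_lit 5001250652) (nat_lit 226) (nat_lit 5) (nat_lit 234) (nat_lit 5) (nat_lit 235) (nat_lit 5) (nat_lit 488) (nat_lit 441) (nat_lit 211))))) (XT.nd (nat_lit 234) (nat_lit 1216) (nat_lit 0) (XT.nd (nat_lit 78) (nat_lit 760) (nat_lit 0) (XT.lf (nat_lit 0) (nat_lit 15717204952) (nat_lit 608) (nat_lit 5273287546) (nat_lit 684) (nat_lit 2380906376) (nat_lit 226) (nat_lit 5) (nat_lit 234) (nat_lit 5) (nat_lit 235) (nat_lit 5) (nat_lit 489) (nat_lit 441) (nat_lit 210)) (XT.nd (nat_lit 78) (nat_lit 0) (nat_lit 0) (XT.lf (nat_lit 0) (nat_lit 328642551) (nat_lit 760) (nat_lit 20099968746) (nat_lit 76) (nat_lit 3225834617) (nat_lit 216) (nat_lit 5) (nat_lit 226) (nat_lit 5) (nat_lit 217) (nat_lit 5) (nat_lit 490) (nat_lit 441) (nat_lit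 209)) (XT.lf (nat_lit 0) (nat_lit 3143387096) (nat_lit 760) (nat_lit 8906358529) (nat_lit 76) (nat_lit 11891439036) (nat_lit 216) (nat_lit 5) (nat_lit 226) (nat_lit 5) (nat_lit 217) (nat_lit 5) (nat_lit 491) (nat_lit 441) (nat_lit 208)))) (XT.nd (nat_lit 156) (nat_lit 608) (nat_lit 0) (XT.nd (nat_lit 78) (nat_lit 0) (nat_lit 0) (XT.lf (nat_lit 0) (nat_lit 2540245533) (nat_lit 608) (nat_lit 3486976814) (nat_lit 684) (nat_lit 18206183076) (nat_lit 208) (nat_lit 5) (nat_lit 216) (nat_lit 5) (nat_lit 217) (nat_lit 5) (nat_lit 492) (nat_lit 441) (nat_lit 207)) (XT.lf (nat_lit 0) (nat_lit 9059308729) (nat_lit 684) (nat_lit 10232468009) (nat_lit 76) (nat_lit 5237885470) (nat_lit 208) (nat_lit 5) (nat_lit 217) (nat_lit 5) (nat_lit 209) (nat_lit 5) (nat_lit 493) (nat_lit 441) (nat_lit 206))) (XT.nd (nat_lit 78) (nat_lit 0) (nat_lit 0) (XT.lf (nat_lit 0) (nat_lit 1449195400) (nat_lit 608) (nat_lit 10731759760)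 (nat_lit 684) (nat_lit 12650313639) (nat_lit 200) (nat_lit 5) (nat_lit 208) (nat_lit 5) (nat_lit 209) (nat_lit 5) (nat_lit 494) (nat_lit 441) (nat_lit 205)) (XT.lf (nat_lit 0) (nat_lit 13499067013) (nat_lit 608) (nat_lit 1931092830) (nat_lit 684) (nat_lit 9707448146) (nat_lit 200) (nat_lit 5) (nat_lit 208) (nat_lit 5) (nat_lit 209) (nat_lit 5) (nat_lit 495) (nat_lit 441) (nat_lit 204)))))) (XT.nd (nat_lit 546) (nat_lit 2052) (nat_lit 0) (XT.nd (nat_lit 234) (nat_lit 1216) (nat_lit 0) (XT.nd (nat_lit 78) (nat_lit 0) (nat_lit 0) (XT.lf (nat_lit 0) (nat_lit 293854945) (nat_lit 532) (nat_lit 18494671942) (nat_lit 608) (nat_lit 6660666428) (nat_lit 193) (nat_lit 5) (nat_lit 200) (nat_lit 5) (nat_lit 201) (nat_lit 5) (nat_lit 496) (nat_lit 441) (nat_lit 203)) (XT.nd (nat_lit 78) (nat_lit 0) (nat_lit 0) (XT.lf (nat_lit 0) (nat_lit 12605614222) (nat_lit 532) (nat_lit 9695819654) (nat_lit 608) (nat_lit 3463831878)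 (nat_lit 193) (nat_lit 5) (nat_lit 200) (nat_lit 5) (nat_lit 201) (nat_lit 5) (nat_lit 497) (nat_lit 441) (nat_lit 202)) (XT.lf (nat_lit 0) (nat_lit 25159599468) (nat_lit 532) (nat_lit 721634156) (nat_lit 608) (nat_lit 206496130) (nat_lit 193) (nat_lit 5) (nat_lit 200) (nat_lit 5) (nat_lit 201) (nat_lit 5) (nat_lit 498) (nat_lit 441) (nat_lit 201)))) (XT.nd (nat_lit 156) (nat_lit 532) (nat_lit 0) (XT.nd (nat_lit 78) (nat_lit 0) (nat_lit 0) (XT.lf (nat_lit 0) (nat_lit 3202988397) (nat_lit 684) (nat_lit 14793211214) (nat_lit 76) (nat_lit 8417484122) (nat_lit 184) (nat_lit 5) (nat_lit 193) (nat_lit 5) (nat_lit 185) (nat_lit 5) (nat_lit 499) (nat_lit 441) (nat_lit 200)) (XT.lf (nat_lit 0) (nat_lit 6685659975) (nat_lit 684) (nat_lit 2323606905) (nat_lit 76) (nat_lit 17736710008) (nat_lit 184) (nat_lit 5) (nat_lit 193) (nat_lit 5) (nat_lit 185) (nat_lit 5) (nat_lit 500) (nat_lit 441) (nat_lit 199))) (XT.nd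 (nat_lit 78) (nat_lit 0) (nat_lit 0) (XT.lf (nat_lit 0) (nat_lit 10304595624) (nat_lit 608) (nat_lit 16555535927) (nat_lit 76) (nat_lit 223454732) (nat_lit 177) (nat_lit 5) (nat_lit 185) (nat_lit 5) (nat_lit 178) (nat_lit 5) (nat_lit 501) (nat_lit 441) (nat_lit 198)) (XT.lf (nat_lit 0) (nat_lit 14068078741) (nat_lit 608) (nat_lit 3823137670) (nat_lit 76) (nat_lit 9535290619) (nat_lit 177) (nat_lit 5) (nat_lit 185) (nat_lit 5) (nat_lit 178) (nat_lit 5) (nat_lit 502) (nat_lit 441) (nat_lit 197))))) (XT.nd (nat_lit 234) (nat_lit 1064) (nat_lit 0) (XT.nd (nat_lit 78) (nat_lit 456) (nat_lit 0) (XT.lf (nat_lit 0) (nat_lit 9281745963) (nat_lit 532) (nat_lit 8682220229) (nat_lit 608) (nat_lit 9811179798) (nat_lit 170) (nat_lit 5) (nat_lit 177) (nat_lit 5) (nat_lit 178) (nat_lit 5) (nat_lit 503) (nat_lit 441) (nat_lit 196)) (XT.nd (nat_lit 78) (nat_lit 456) (nat_lit 0) (XT.lf (nat_lit 0) (nat_lit 21965115163)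 (nat_lit 608) (nat_lit 5438407597) (nat_lit 76) (nat_lit 726690532) (nat_lit 170) (nat_lit 5) (nat_lit 178) (nat_lit 5) (nat_lit 171) (nat_lit 5) (nat_lit 504) (nat_lit 441) (nat_lit 195)) (XT.lf (nat_lit 0) (nat_lit 7920210557) (nat_lit 456) (nat_lit 18231961303) (nat_lit 532) (nat_lit 2338094780) (nat_lit 164) (nat_lit 5) (nat_lit 170) (nat_lit 5) (nat_lit 171) (nat_lit 5) (nat_lit 505) (nat_lit 441) (nat_lit 194)))) (XT.nd (nat_lit 156) (nat_lit 456) (nat_lit 0) (XT.nd (nat_lit 78) (nat_lit 532) (nat_lit 0) (XT.lf (nat_lit 0) (nat_lit 1578629605) (nat_lit 532) (nat_lit 7251344776) (nat_lit 76) (nat_lit 20026671453) (nat_lit 163) (nat_lit 5) (nat_lit 170) (nat_lit 5) (nat_lit 164) (nat_lit 5) (nat_lit 506) (nat_lit 441) (nat_lit 193)) (XT.lf (nat_lit 0) (nat_lit 5586295380) (nat_lit 608) (nat_lit 22836200359) (nat_lit 76) (nat_lit 806671752) (nat_lit 156) (nat_lit 5) (nat_lit 164) (nat_lit 5) (nat_lit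 157) (nat_lit 5) (nat_lit 507) (nat_lit 441) (nat_lit 192))) (XT.nd (nat_lit 78) (nat_lit 456) (nat_lit 0) (XT.lf (nat_lit 0) (nat_lit 9778637104) (nat_lit 608) (nat_lit 9262328842) (nat_lit 76) (nat_lit 10566085392) (nat_lit 156) (nat_lit 5) (nat_lit 164) (nat_lit 5) (nat_lit 157) (nat_lit 5) (nat_lit 508) (nat_lit 441) (nat_lit 191)) (XT.lf (nat_lit 0) (nat_lit 4640128451) (nat_lit 456) (nat_lit 9441944975) (nat_lit 532) (nat_lit 15909876650) (nat_lit 150) (nat_lit 5) (nat_lit 156) (nat_lit 5) (nat_lit 157) (nat_lit 5) (nat_lit 509) (nat_lit 441) (nat_lit 190))))))) (XT.nd (nat_lit 54912) (nat_lit 0) (nat_lit 15276) (XT.nd (nat_lit 54366) (nat_lit 0) (nat_lit 16644) (XT.nd (nat_lit 54054) (nat_lit 0) (nat_lit 16568) (XT.nd (nat_lit 78) (nat_lit 456) (nat_lit 0) (XT.lf (nat_lit 0) (nat_lit 18533559063) (nat_lit 532) (nat_lit 11443569905) (nat_lit 76) (nat_lit 406180333) (nat_lit 150) (nat_lit 5) (nat_lit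 157) (nat_lit 5) (nat_lit 151) (nat_lit 5) (nat_lit 510) (nat_lit 441) (nat_lit 189)) (XT.nd (nat_lit 78) (nat_lit 0) (nat_lit 0) (XT.lf (nat_lit 0) (nat_lit 2712185779) (nat_lit 456) (nat_lit 20439230869) (nat_lit 532) (nat_lit 7629534301) (nat_lit 144) (nat_lit 5) (nat_lit 150) (nat_lit 5) (nat_lit 151) (nat_lit 5) (nat_lit 511) (nat_lit 441) (nat_lit 188)) (XT.lf (nat_lit 0) (nat_lit 17302499100) (nat_lit 456) (nat_lit 10633159104) (nat_lit 532) (nat_lit 3249408732) (nat_lit 144) (nat_lit 5) (nat_lit 150) (nat_lit 5) (nat_lit 151) (nat_lit 5) (nat_lit 512) (nat_lit 441) (nat_lit 187)))) (XT.nd (nat_lit 156) (nat_lit 0) (nat_lit 0) (XT.nd (nat_lit 78) (nat_lit 0) (nat_lit 0) (XT.lf (nat_lit 0) (nat_lit 1963594061) (nat_lit 0) (nat_lit 1963594061) (nat_lit 1596) (nat_lit 3177793304) (nat_lit 362) (nat_lit 5) (nat_lit 362) (nat_lit 3) (nat_lit 383) (nat_lit 3) (nat_lit 442) (nat_lit 442) (nat_lit 256))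 (XT.lf (nat_lit 0) (nat_lit 8260167919) (nat_lit 1596) (nat_lit 4015019957) (nat_lit 1672) (nat_lit 2069999160) (nat_lit 362) (nat_lit 5) (nat_lit 383) (nat_lit 3) (nat_lit 384) (nat_lit 5) (nat_lit 443) (nat_lit 442) (nat_lit 255))) (XT.nd (nat_lit 78) (nat_lit 0) (nat_lit 0) (XT.lf (nat_lit 76) (nat_lit 2378969440) (nat_lit 0) (nat_lit 6328359793) (nat_lit 1672) (nat_lit 5775130063) (nat_lit 363) (nat_lit 5) (nat_lit 362) (nat_lit 5) (nat_lit 384) (nat_lit 5) (nat_lit 444) (nat_lit 442) (nat_lit 254)) (XT.lf (nat_lit 76) (nat_lit 8950978441) (nat_lit 0) (nat_lit 231331285) (nat_lit 1672) (nat_lit 5439798255) (nat_lit 363) (nat_lit 5) (nat_lit 362) (nat_lit 5) (nat_lit 384) (nat_lit 5) (nat_lit 445) (nat_lit 442) (nat_lit 253))))) (XT.nd (nat_lit 234) (nat_lit 0) (nat_lit 76) (XT.nd (nat_lit 78) (nat_lit 0) (nat_lit 0) (XT.lf (nat_lit 76) (nat_lit 857861873) (nat_lit 0) (nat_lit 8845488784) (nat_lit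 1672) (nat_lit 5060476098) (nat_lit 364) (nat_lit 5) (nat_lit 363) (nat_lit 5) (nat_lit 385) (nat_lit 5) (nat_lit 446) (nat_lit 442) (nat_lit 252)) (XT.nd (nat_lit 78) (nat_lit 0) (nat_lit 76) (XT.lf (nat_lit 76) (nat_lit 7588391902) (nat_lit 0) (nat_lit 2678240266) (nat_lit 1672) (nat_lit 4641119509) (nat_lit 364) (nat_lit 5) (nat_lit 363) (nat_lit 5) (nat_lit 385) (nat_lit 5) (nat_lit 447) (nat_lit 442) (nat_lit 251)) (XT.lf (nat_lit 0) (nat_lit 10857048428) (nat_lit 1596) (nat_lit 628935085) (nat_lit 1672) (nat_lit 3568262212) (nat_lit 364) (nat_lit 5) (nat_lit 385) (nat_lit 5) (nat_lit 386) (nat_lit 5) (nat_lit 448) (nat_lit 442) (nat_lit 250)))) (XT.nd (nat_lit 156) (nat_lit 0) (nat_lit 76) (XT.nd (nat_lit 78) (nat_lit 0) (nat_lit 76) (XT.lf (nat_lit 76) (nat_lit 6255228557) (nat_lit 0) (nat_lit 5254958280) (nat_lit 1672) (nat_lit 3692472392) (nat_lit 365) (nat_lit 5) (nat_lit 364) (nat_lit 5) (nat_lit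 386) (nat_lit 5) (nat_lit 449) (nat_lit 442) (nat_lit 249)) (XT.lf (nat_lit 0) (nat_lit 12180483817) (nat_lit 1596) (nat_lit 2080046008) (nat_lit 1672) (nat_lit 1093436959) (nat_lit 365) (nat_lit 5) (nat_lit 386) (nat_lit 5) (nat_lit 387) (nat_lit 5) (nat_lit 450) (nat_lit 442) (nat_lit 248))) (XT.nd (nat_lit 78) (nat_lit 0) (nat_lit 0) (XT.lf (nat_lit 76) (nat_lit 4950383087) (nat_lit 0) (nat_lit 7973589958) (nat_lit 1672) (nat_lit 2583139266) (nat_lit 366) (nat_lit 5) (nat_lit 365) (nat_lit 5) (nat_lit 387) (nat_lit 5) (nat_lit 451) (nat_lit 442) (nat_lit 247)) (XT.lf (nat_lit 76) (nat_lit 12145218086) (nat_lit 0) (nat_lit 1544028021) (nat_lit 1672) (nat_lit 1973943759) (nat_lit 366) (nat_lit 5) (nat_lit 365) (nat_lit 5) (nat_lit 387) (nat_lit 5) (nat_lit 452) (nat_lit 442) (nat_lit 246)))))) (XT.nd (nat_lit 546) (nat_lit 0) (nat_lit 152) (XT.nd (nat_lit 234) (nat_lit 0) (nat_lit 0) (XT.nd (nat_lit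 78) (nat_lit 1596) (nat_lit 0) (XT.lf (nat_lit 76) (nat_lit 3672699675) (nat_lit 0) (nat_lit 10846636393) (nat_lit 1672) (nat_lit 1302069930) (nat_lit 367) (nat_lit 5) (nat_lit 366) (nat_lit 5) (nat_lit 388) (nat_lit 5) (nat_lit 453) (nat_lit 442) (nat_lit 245)) (XT.nd (nat_lit 78) (nat_lit 1596) (nat_lit 0) (XT.lf (nat_lit 76) (nat_lit 11040065562) (nat_lit 0) (nat_lit 4352944820) (nat_lit 1672) (nat_lit 589243530) (nat_lit 367) (nat_lit 5) (nat_lit 366) (nat_lit 5) (nat_lit 388) (nat_lit 5) (nat_lit 454) (nat_lit 442) (nat_lit 244)) (XT.lf (nat_lit 0) (nat_lit 160008259) (nat_lit 1672) (nat_lit 13725945536) (nat_lit 1748) (nat_lit 2259874394) (nat_lit 345) (nat_lit 5) (nat_lit 367) (nat_lit 5) (nat_lit 368) (nat_lit 5) (nat_lit 455) (nat_lit 442) (nat_lit 243)))) (XT.nd (nat_lit 156) (nat_lit 0) (nat_lit 76) (XT.nd (nat_lit 78) (nat_lit 0) (nat_lit 0) (XT.lf (nat_lit 0) (nat_lit 971990148) (nat_lit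 1672) (nat_lit 6353349279) (nat_lit 1748) (nat_lit 8986150624) (nat_lit 345) (nat_lit 5) (nat_lit 367) (nat_lit 5) (nat_lit 368) (nat_lit 5) (nat_lit 456) (nat_lit 442) (nat_lit 242)) (XT.lf (nat_lit 76) (nat_lit 1177656822) (nat_lit 0) (nat_lit 623745975) (nat_lit 1748) (nat_lit 14679045104) (nat_lit 346) (nat_lit 5) (nat_lit 345) (nat_lit 5) (nat_lit 368) (nat_lit 5) (nat_lit 457) (nat_lit 442) (nat_lit 241))) (XT.nd (nat_lit 78) (nat_lit 0) (nat_lit 0) (XT.lf (nat_lit 0) (nat_lit 2724306955) (nat_lit 1672) (nat_lit 7751745502) (nat_lit 1748) (nat_lit 6175200825) (nat_lit 346) (nat_lit 5) (nat_lit 368) (nat_lit 5) (nat_lit 369) (nat_lit 5) (nat_lit 458) (nat_lit 442) (nat_lit 240)) (XT.lf (nat_lit 0) (nat_lit 3663579330) (nat_lit 1672) (nat_lit 58323175) (nat_lit 1748) (nat_lit 13103620379) (nat_lit 346) (nat_lit 5) (nat_lit 368) (nat_lit 5) (nat_lit 369) (nat_lit 5) (nat_lit 459) (nat_lit 442) (nat_lit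 239))))) (XT.nd (nat_lit 234) (nat_lit 0) (nat_lit 76) (XT.nd (nat_lit 78) (nat_lit 0) (nat_lit 0) (XT.lf (nat_lit 0) (nat_lit 4687667029) (nat_lit 1672) (nat_lit 9135301027) (nat_lit 1748) (nat_lit 3178995415) (nat_lit 347) (nat_lit 5) (nat_lit 369) (nat_lit 5) (nat_lit 370) (nat_lit 5) (nat_lit 460) (nat_lit 442) (nat_lit 238)) (XT.nd (nat_lit 78) (nat_lit 0) (nat_lit 0) (XT.lf (nat_lit 0) (nat_lit 5751281659) (nat_lit 1672) (nat_lit 1260170103) (nat_lit 1748) (nat_lit 10170106273) (nat_lit 347) (nat_lit 5) (nat_lit 369) (nat_lit 5) (nat_lit 370) (nat_lit 5) (nat_lit 461) (nat_lit 442) (nat_lit 237)) (XT.lf (nat_lit 76) (nat_lit 6857963260) (nat_lit 0) (nat_lit 16852203) (nat_lit 1748) (nat_lit 10489162041) (nat_lit 348) (nat_lit 5) (nat_lit 347) (nat_lit 5) (nat_lit 370) (nat_lit 5) (nat_lit 462) (nat_lit 442) (nat_lit 236)))) (XT.nd (nat_lit 156) (nat_lit 0) (nat_lit 76) (XT.nd (nat_lit 78) (nat_lit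 0) (nat_lit 0) (XT.lf (nat_lit 0) (nat_lit 8069760798) (nat_lit 1672) (nat_lit 2445148452) (nat_lit 1748) (nat_lit 7034163129) (nat_lit 348) (nat_lit 5) (nat_lit 370) (nat_lit 5) (nat_lit 371) (nat_lit 5) (nat_lit 463) (nat_lit 442) (nat_lit 235)) (XT.lf (nat_lit 76) (nat_lit 5849078881) (nat_lit 0) (nat_lit 3471943283) (nat_lit 1748) (nat_lit 8416204364) (nat_lit 349) (nat_lit 5) (nat_lit 348) (nat_lit 5) (nat_lit 371) (nat_lit 5) (nat_lit 464) (nat_lit 442) (nat_lit 234))) (XT.nd (nat_lit 78) (nat_lit 0) (nat_lit 0) (XT.lf (nat_lit 0) (nat_lit 10632345067) (nat_lit 1672) (nat_lit 3615240355) (nat_lit 1748) (nat_lit 3680863220) (nat_lit 349) (nat_lit 5) (nat_lit 371) (nat_lit 5) (nat_lit 372) (nat_lit 5) (nat_lit 465) (nat_lit 442) (nat_lit 233)) (XT.lf (nat_lit 76) (nat_lit 4859401767) (nat_lit 0) (nat_lit 7159564956) (nat_lit 1748) (nat_lit 6103552526) (nat_lit 350) (nat_lit 5) (nat_lit 349) (nat_lit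 5) (nat_lit 372) (nat_lit 5) (nat_lit 466) (nat_lit 442) (nat_lit 232))))))))
noncomputable def xc228 : XT := (XT.nd (nat_lit 2106) (nat_lit 4408) (nat_lit 0) (XT.nd (nat_lit 1014) (nat_lit 4864) (nat_lit 0) (XT.nd (nat_lit 468) (nat_lit 2356) (nat_lit 0) (XT.nd (nat_lit 234) (nat_lit 1900) (nat_lit 0) (XT.nd (nat_lit 78) (nat_lit 1672) (nat_lit 0) (XT.lf (nat_lit 0) (nat_lit 13452811093) (nat_lit 1672) (nat_lit 4772612711) (nat_lit 76) (nat_lit 94663048) (nat_lit 350) (nat_lit 5) (nat_lit 372) (nat_lit 5) (nat_lit 351) (nat_lit 5) (nat_lit 467) (nat_lit 442) (nat_lit 231)) (XT.nd (nat_lit 78) (nat_lit 0) (nat_lit 0) (XT.lf (nat_lit 0) (nat_lit 3886800811) (nat_lit 1672) (nat_lit 11095900743) (nat_lit 1748) (nat_lit 3537562152) (nat_lit 328) (nat_lit 5) (nat_lit 350) (nat_lit 5) (nat_lit 351) (nat_lit 5) (nat_lit 468) (nat_lit 442) (nat_lit 230)) (XT.lf (nat_lit 0) (nat_lit 12779662890) (nat_lit 1672)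 (nat_lit 3790347617) (nat_lit 1748) (nat_lit 2153902358) (nat_lit 328) (nat_lit 5) (nat_lit 350) (nat_lit 5) (nat_lit 351) (nat_lit 5) (nat_lit 469) (nat_lit 442) (nat_lit 229)))) (XT.nd (nat_lit 78) (nat_lit 912) (nat_lit 0) (XT.lf (nat_lit 0) (nat_lit 2928930077) (nat_lit 988) (nat_lit 15297824749) (nat_lit 1064) (nat_lit 704131477) (nat_lit 315) (nat_lit 5) (nat_lit 328) (nat_lit 5) (nat_lit 329) (nat_lit 5) (nat_lit 470) (nat_lit 442) (nat_lit 228)) (XT.nd (nat_lit 78) (nat_lit 836) (nat_lit 0) (XT.lf (nat_lit 0) (nat_lit 824664142) (nat_lit 1064) (nat_lit 7115948819) (nat_lit 76) (nat_lit 11200086764) (nat_lit 314) (nat_lit 5) (nat_lit 328) (nat_lit 5) (nat_lit 315) (nat_lit 5) (nat_lit 471) (nat_lit 442) (nat_lit 227)) (XT.lf (nat_lit 0) (nat_lit 1964466468) (nat_lit 836) (nat_lit 417937598) (nat_lit 912) (nat_lit 16972061116) (nat_lit 303) (nat_lit 5) (nat_lit 314) (nat_lit 5) (nat_lit 315) (nat_lit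 5) (nat_lit 472) (nat_lit 442) (nat_lit 226))))) (XT.nd (nat_lit 234) (nat_lit 1520) (nat_lit 0) (XT.nd (nat_lit 78) (nat_lit 836) (nat_lit 0) (XT.lf (nat_lit 0) (nat_lit 4061577834) (nat_lit 912) (nat_lit 8300514465) (nat_lit 76) (nat_lit 7208612759) (nat_lit 303) (nat_lit 5) (nat_lit 315) (nat_lit 5) (nat_lit 304) (nat_lit 5) (nat_lit 473) (nat_lit 442) (nat_lit 225)) (XT.nd (nat_lit 78) (nat_lit 0) (nat_lit 0) (XT.lf (nat_lit 0) (nat_lit 976394891) (nat_lit 836) (nat_lit 4802248891) (nat_lit 912) (nat_lit 14012544377) (nat_lit 292) (nat_lit 5) (nat_lit 303) (nat_lit 5) (nat_lit 304) (nat_lit 5) (nat_lit 474) (nat_lit 442) (nat_lit 224)) (XT.lf (nat_lit 0) (nat_lit 7600276081) (nat_lit 912) (nat_lit 9487338405) (nat_lit 76) (nat_lit 2927066443) (nat_lit 292) (nat_lit 5) (nat_lit 304) (nat_lit 5) (nat_lit 293) (nat_lit 5) (nat_lit 475) (nat_lit 442) (nat_lit 223)))) (XT.nd (nat_lit 156) (nat_lit 760)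 (nat_lit 0) (XT.nd (nat_lit 78) (nat_lit 760) (nat_lit 0) (XT.lf (nat_lit 0) (nat_lit 9485506282) (nat_lit 912) (nat_lit 9524585) (nat_lit 76) (nat_lit 10747073805) (nat_lit 292) (nat_lit 5) (nat_lit 304) (nat_lit 5) (nat_lit 293) (nat_lit 5) (nat_lit 476) (nat_lit 442) (nat_lit 222)) (XT.lf (nat_lit 0) (nat_lit 9781834891) (nat_lit 760) (nat_lit 1685569575) (nat_lit 836) (nat_lit 9005497490) (nat_lit 282) (nat_lit 5) (nat_lit 292) (nat_lit 5) (nat_lit 293) (nat_lit 5) (nat_lit 477) (nat_lit 442) (nat_lit 221))) (XT.nd (nat_lit 78) (nat_lit 760) (nat_lit 0) (XT.lf (nat_lit 0) (nat_lit 13525295413) (nat_lit 836) (nat_lit 984306302) (nat_lit 76) (nat_lit 6197990625) (nat_lit 282) (nat_lit 5) (nat_lit 293) (nat_lit 5) (nat_lit 283) (nat_lit 5) (nat_lit 478) (nat_lit 442) (nat_lit 220)) (XT.lf (nat_lit 0) (nat_lit 9019435955) (nat_lit 760) (nat_lit 6670235027) (nat_lit 836) (nat_lit 5256003180) (nat_lit 272)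 (nat_lit 5) (nat_lit 282) (nat_lit 5) (nat_lit 283) (nat_lit 5) (nat_lit 479) (nat_lit 442) (nat_lit 219)))))) (XT.nd (nat_lit 546) (nat_lit 2660) (nat_lit 0) (XT.nd (nat_lit 234) (nat_lit 1444) (nat_lit 0) (XT.nd (nat_lit 78) (nat_lit 760) (nat_lit 0) (XT.lf (nat_lit 0) (nat_lit 17908254810) (nat_lit 836) (nat_lit 1964788149) (nat_lit 76) (nat_lit 1315260330) (nat_lit 272) (nat_lit 5) (nat_lit 283) (nat_lit 5) (nat_lit 273) (nat_lit 5) (nat_lit 480) (nat_lit 442) (nat_lit 218)) (XT.nd (nat_lit 78) (nat_lit 76) (nat_lit 0) (XT.lf (nat_lit 0) (nat_lit 8255732055) (nat_lit 684) (nat_lit 12009001774) (nat_lit 760) (nat_lit 1169184705) (nat_lit 263) (nat_lit 5) (nat_lit 272) (nat_lit 5) (nat_lit 273) (nat_lit 5) (nat_lit 481) (nat_lit 442) (nat_lit 217)) (XT.lf (nat_lit 0) (nat_lit 980036757) (nat_lit 760) (nat_lit 2987654454) (nat_lit 76) (nat_lit 17716450072) (nat_lit 262) (nat_lit 5) (nat_lit 272) (nat_lit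 5) (nat_lit 263) (nat_lit 5) (nat_lit 482) (nat_lit 442) (nat_lit 216)))) (XT.nd (nat_lit 156) (nat_lit 684) (nat_lit 0) (XT.nd (nat_lit 78) (nat_lit 0) (nat_lit 0) (XT.lf (nat_lit 0) (nat_lit 3228972570) (nat_lit 836) (nat_lit 14473184113) (nat_lit 76) (nat_lit 4235613304) (nat_lit 252) (nat_lit 5) (nat_lit 263) (nat_lit 5) (nat_lit 253) (nat_lit 5) (nat_lit 483) (nat_lit 442) (nat_lit 215)) (XT.lf (nat_lit 0) (nat_lit 5565253458) (nat_lit 836) (nat_lit 4060375313) (nat_lit 76) (nat_lit 12569998868) (nat_lit 252) (nat_lit 5) (nat_lit 263) (nat_lit 5) (nat_lit 253) (nat_lit 5) (nat_lit 484) (nat_lit 442) (nat_lit 214))) (XT.nd (nat_lit 78) (nat_lit 0) (nat_lit 0) (XT.lf (nat_lit 0) (nat_lit 6643640237) (nat_lit 684) (nat_lit 1343743615) (nat_lit 760) (nat_lit 14470479740) (nat_lit 243) (nat_lit 5) (nat_lit 252) (nat_lit 5) (nat_lit 253) (nat_lit 5) (nat_lit 485) (nat_lit 442) (nat_lit 213)) (XT.lf (nat_lit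 0) (nat_lit 10527546382) (nat_lit 760) (nat_lit 5158562582) (nat_lit 76) (nat_lit 7037847067) (nat_lit 243) (nat_lit 5) (nat_lit 253) (nat_lit 5) (nat_lit 244) (nat_lit 5) (nat_lit 486) (nat_lit 442) (nat_lit 212))))) (XT.nd (nat_lit 234) (nat_lit 1368) (nat_lit 0) (XT.nd (nat_lit 78) (nat_lit 608) (nat_lit 0) (XT.lf (nat_lit 0) (nat_lit 5772871827) (nat_lit 684) (nat_lit 7388137649) (nat_lit 760) (nat_lit 9833514382) (nat_lit 234) (nat_lit 5) (nat_lit 243) (nat_lit 5) (nat_lit 244) (nat_lit 5) (nat_lit 487) (nat_lit 442) (nat_lit 211)) (XT.nd (nat_lit 78) (nat_lit 608) (nat_lit 0) (XT.lf (nat_lit 0) (nat_lit 15885137006) (nat_lit 760) (nat_lit 6288367862) (nat_lit 76) (nat_lit 1096241686) (nat_lit 234) (nat_lit 5) (nat_lit 244) (nat_lit 5) (nat_lit 235) (nat_lit 5) (nat_lit 488) (nat_lit 442) (nat_lit 210)) (XT.lf (nat_lit 0) (nat_lit 4874462058) (nat_lit 608) (nat_lit 13866101033) (nat_lit 684) (nat_lit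 4808377647) (nat_lit 226) (nat_lit 5) (nat_lit 234) (nat_lit 5) (nat_lit 235) (nat_lit 5) (nat_lit 489) (nat_lit 442) (nat_lit 209)))) (XT.nd (nat_lit 156) (nat_lit 608) (nat_lit 0) (XT.nd (nat_lit 78) (nat_lit 760) (nat_lit 0) (XT.lf (nat_lit 0) (nat_lit 16341694858) (nat_lit 608) (nat_lit 5349887945) (nat_lit 684) (nat_lit 2141369583) (nat_lit 226) (nat_lit 5) (nat_lit 234) (nat_lit 5) (nat_lit 235) (nat_lit 5) (nat_lit 490) (nat_lit 442) (nat_lit 208)) (XT.lf (nat_lit 0) (nat_lit 615283141) (nat_lit 760) (nat_lit 20184251965) (nat_lit 76) (nat_lit 3322159179) (nat_lit 216) (nat_lit 5) (nat_lit 226) (nat_lit 5) (nat_lit 217) (nat_lit 5) (nat_lit 491) (nat_lit 442) (nat_lit 207))) (XT.nd (nat_lit 78) (nat_lit 608) (nat_lit 0) (XT.lf (nat_lit 0) (nat_lit 3480831053) (nat_lit 760) (nat_lit 8772999272) (nat_lit 76) (nat_lit 12160452002) (nat_lit 216) (nat_lit 5) (nat_lit 226) (nat_lit 5) (nat_lit 217) (nat_lit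 5) (nat_lit 492) (nat_lit 442) (nat_lit 206)) (XT.lf (nat_lit 0) (nat_lit 2900487618) (nat_lit 608) (nat_lit 3518480615) (nat_lit 684) (nat_lit 18293451366) (nat_lit 208) (nat_lit 5) (nat_lit 216) (nat_lit 5) (nat_lit 217) (nat_lit 5) (nat_lit 493) (nat_lit 442) (nat_lit 205))))))) (XT.nd (nat_lit 1014) (nat_lit 1064) (nat_lit 0) (XT.nd (nat_lit 468) (nat_lit 2128) (nat_lit 0) (XT.nd (nat_lit 234) (nat_lit 608) (nat_lit 0) (XT.nd (nat_lit 78) (nat_lit 608) (nat_lit 0) (XT.lf (nat_lit 0) (nat_lit 9506622051) (nat_lit 684) (nat_lit 10128447904) (nat_lit 76) (nat_lit 5379637559) (nat_lit 208) (nat_lit 5) (nat_lit 217) (nat_lit 5) (nat_lit 209) (nat_lit 5) (nat_lit 494) (nat_lit 442) (nat_lit 204)) (XT.nd (nat_lit 78) (nat_lit 0) (nat_lit 0) (XT.lf (nat_lit 0) (nat_lit 1784818054) (nat_lit 608) (nat_lit 10902656080) (nat_lit 684) (nat_lit 12634941067) (nat_lit 200) (nat_lit 5) (nat_lit 208) (nat_lit 5) (nat_lit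 209) (nat_lit 5) (nat_lit 495) (nat_lit 442) (nat_lit 203)) (XT.lf (nat_lit 0) (nat_lit 14069674575) (nat_lit 608) (nat_lit 1926833436) (nat_lit 684) (nat_lit 9638480595) (nat_lit 200) (nat_lit 5) (nat_lit 208) (nat_lit 5) (nat_lit 209) (nat_lit 5) (nat_lit 496) (nat_lit 442) (nat_lit 202)))) (XT.nd (nat_lit 78) (nat_lit 76) (nat_lit 0) (XT.lf (nat_lit 0) (nat_lit 603440083) (nat_lit 532) (nat_lit 18815793318) (nat_lit 608) (nat_lit 6533632664) (nat_lit 193) (nat_lit 5) (nat_lit 200) (nat_lit 5) (nat_lit 201) (nat_lit 5) (nat_lit 497) (nat_lit 442) (nat_lit 201)) (XT.nd (nat_lit 78) (nat_lit 76) (nat_lit 0) (XT.lf (nat_lit 0) (nat_lit 13155479486) (nat_lit 532) (nat_lit 9841920300) (nat_lit 608) (nat_lit 3277964308) (nat_lit 193) (nat_lit 5) (nat_lit 200) (nat_lit 5) (nat_lit 201) (nat_lit 5) (nat_lit 498) (nat_lit 442) (nat_lit 200)) (XT.lf (nat_lit 0) (nat_lit 38997076) (nat_lit 608) (nat_lit 649929888)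 (nat_lit 76) (nat_lit 25915447377) (nat_lit 192) (nat_lit 5) (nat_lit 200) (nat_lit 5) (nat_lit 193) (nat_lit 5) (nat_lit 499) (nat_lit 442) (nat_lit 199))))) (XT.nd (nat_lit 234) (nat_lit 988) (nat_lit 0) (XT.nd (nat_lit 78) (nat_lit 532) (nat_lit 0) (XT.lf (nat_lit 0) (nat_lit 3511295334) (nat_lit 684) (nat_lit 14790870176) (nat_lit 76) (nat_lit 8634710735) (nat_lit 184) (nat_lit 5) (nat_lit 193) (nat_lit 5) (nat_lit 185) (nat_lit 5) (nat_lit 500) (nat_lit 442) (nat_lit 198)) (XT.nd (nat_lit 78) (nat_lit 532) (nat_lit 0) (XT.lf (nat_lit 0) (nat_lit 7058831183) (nat_lit 684) (nat_lit 2077720942) (nat_lit 76) (nat_lit 18139362767) (nat_lit 184) (nat_lit 5) (nat_lit 193) (nat_lit 5) (nat_lit 185) (nat_lit 5) (nat_lit 501) (nat_lit 442) (nat_lit 197)) (XT.lf (nat_lit 0) (nat_lit 10747685201) (nat_lit 608) (nat_lit 16591639598) (nat_lit 76) (nat_lit 281004655) (nat_lit 177) (nat_lit 5) (nat_lit 185) (nat_lit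 5) (nat_lit 178) (nat_lit 5) (nat_lit 502) (nat_lit 442) (nat_lit 196)))) (XT.nd (nat_lit 156) (nat_lit 456) (nat_lit 0) (XT.nd (nat_lit 78) (nat_lit 532) (nat_lit 0) (XT.lf (nat_lit 0) (nat_lit 14581790967) (nat_lit 608) (nat_lit 3610377829) (nat_lit 76) (nat_lit 9778036459) (nat_lit 177) (nat_lit 5) (nat_lit 185) (nat_lit 5) (nat_lit 178) (nat_lit 5) (nat_lit 503) (nat_lit 442) (nat_lit 195)) (XT.lf (nat_lit 0) (nat_lit 9754700697) (nat_lit 532) (nat_lit 8798205046) (nat_lit 608) (nat_lit 9772968685) (nat_lit 170) (nat_lit 5) (nat_lit 177) (nat_lit 5) (nat_lit 178) (nat_lit 5) (nat_lit 504) (nat_lit 442) (nat_lit 194))) (XT.nd (nat_lit 78) (nat_lit 456) (nat_lit 0) (XT.lf (nat_lit 0) (nat_lit 22629941576) (nat_lit 608) (nat_lit 5261175815) (nat_lit 76) (nat_lit 797011963) (nat_lit 170) (nat_lit 5) (nat_lit 178) (nat_lit 5) (nat_lit 171) (nat_lit 5) (nat_lit 505) (nat_lit 442) (nat_lit 193)) (XT.lf (nat_lit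 0) (nat_lit 8362733124) (nat_lit 456) (nat_lit 18535428926) (nat_lit 532) (nat_lit 2157276750) (nat_lit 164) (nat_lit 5) (nat_lit 170) (nat_lit 5) (nat_lit 171) (nat_lit 5) (nat_lit 506) (nat_lit 442) (nat_lit 192)))))) (XT.nd (nat_lit 54522) (nat_lit 0) (nat_lit 16112) (XT.nd (nat_lit 234) (nat_lit 456) (nat_lit 0) (XT.nd (nat_lit 78) (nat_lit 532) (nat_lit 0) (XT.lf (nat_lit 0) (nat_lit 1830393545) (nat_lit 532) (nat_lit 7114730564) (nat_lit 76) (nat_lit 20484083342) (nat_lit 163) (nat_lit 5) (nat_lit 170) (nat_lit 5) (nat_lit 164) (nat_lit 5) (nat_lit 507) (nat_lit 442) (nat_lit 191)) (XT.nd (nat_lit 78) (nat_lit 0) (nat_lit 0) (XT.lf (nat_lit 0) (nat_lit 5916114908) (nat_lit 608) (nat_lit 23009021344) (nat_lit 76) (nat_lit 884088528) (nat_lit 156) (nat_lit 5) (nat_lit 164) (nat_lit 5) (nat_lit 157) (nat_lit 5) (nat_lit 508) (nat_lit 442) (nat_lit 190)) (XT.lf (nat_lit 0) (nat_lit 10188027122) (nat_lit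 608) (nat_lit 9169239122) (nat_lit 76) (nat_lit 10837488806) (nat_lit 156) (nat_lit 5) (nat_lit 164) (nat_lit 5) (nat_lit 157) (nat_lit 5) (nat_lit 509) (nat_lit 442) (nat_lit 189)))) (XT.nd (nat_lit 54132) (nat_lit 0) (nat_lit 16112) (XT.nd (nat_lit 78) (nat_lit 0) (nat_lit 0) (XT.lf (nat_lit 0) (nat_lit 5009436157) (nat_lit 456) (nat_lit 9565698771) (nat_lit 532) (nat_lit 16012267935) (nat_lit 150) (nat_lit 5) (nat_lit 156) (nat_lit 5) (nat_lit 157) (nat_lit 5) (nat_lit 510) (nat_lit 442) (nat_lit 188)) (XT.lf (nat_lit 0) (nat_lit 19111919077) (nat_lit 532) (nat_lit 11397471916) (nat_lit 76) (nat_lit 477275998) (nat_lit 150) (nat_lit 5) (nat_lit 157) (nat_lit 5) (nat_lit 151) (nat_lit 5) (nat_lit 511) (nat_lit 442) (nat_lit 187))) (XT.nd (nat_lit 78) (nat_lit 0) (nat_lit 0) (XT.lf (nat_lit 0) (nat_lit 2158662545) (nat_lit 0) (nat_lit 2158662545) (nat_lit 1596) (nat_lit 2923195760) (nat_lit 362) (nat_lit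 5) (nat_lit 362) (nat_lit 3) (nat_lit 383) (nat_lit 3) (nat_lit 443) (nat_lit 443) (nat_lit 254)) (XT.lf (nat_lit 0) (nat_lit 9034354944) (nat_lit 1596) (nat_lit 3774990273) (nat_lit 1672) (nat_lit 1809922081) (nat_lit 362) (nat_lit 5) (nat_lit 383) (nat_lit 3) (nat_lit 384) (nat_lit 5) (nat_lit 444) (nat_lit 443) (nat_lit 253))))) (XT.nd (nat_lit 234) (nat_lit 0) (nat_lit 76) (XT.nd (nat_lit 78) (nat_lit 0) (nat_lit 0) (XT.lf (nat_lit 76) (nat_lit 2744771478) (nat_lit 0) (nat_lit 6735813263) (nat_lit 1672) (nat_lit 5278910380) (nat_lit 363) (nat_lit 5) (nat_lit 362) (nat_lit 5) (nat_lit 384) (nat_lit 5) (nat_lit 445) (nat_lit 443) (nat_lit 252)) (XT.nd (nat_lit 78) (nat_lit 0) (nat_lit 76) (XT.lf (nat_lit 76) (nat_lit 9441980999) (nat_lit 0) (nat_lit 511336611) (nat_lit 1672) (nat_lit 4948866491) (nat_lit 363) (nat_lit 5) (nat_lit 362) (nat_lit 5) (nat_lit 384) (nat_lit 5) (nat_lit 446) (nat_lit 443)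 (nat_lit 251)) (XT.lf (nat_lit 76) (nat_lit 1199010443) (nat_lit 0) (nat_lit 9274602703) (nat_lit 1672) (nat_lit 4573359561) (nat_lit 364) (nat_lit 5) (nat_lit 363) (nat_lit 5) (nat_lit 385) (nat_lit 5) (nat_lit 447) (nat_lit 443) (nat_lit 250)))) (XT.nd (nat_lit 156) (nat_lit 0) (nat_lit 76) (XT.nd (nat_lit 78) (nat_lit 0) (nat_lit 76) (XT.lf (nat_lit 76) (nat_lit 8057798302) (nat_lit 0) (nat_lit 2979064036) (nat_lit 1672) (nat_lit 4157151645) (nat_lit 364) (nat_lit 5) (nat_lit 363) (nat_lit 5) (nat_lit 385) (nat_lit 5) (nat_lit 448) (nat_lit 443) (nat_lit 249)) (XT.lf (nat_lit 0) (nat_lit 11626436609) (nat_lit 1596) (nat_lit 316870004) (nat_lit 1672) (nat_lit 3400395968) (nat_lit 364) (nat_lit 5) (nat_lit 385) (nat_lit 5) (nat_lit 386) (nat_lit 5) (nat_lit 449) (nat_lit 443) (nat_lit 248))) (XT.nd (nat_lit 78) (nat_lit 0) (nat_lit 76) (XT.lf (nat_lit 76) (nat_lit 6702841097) (nat_lit 0) (nat_lit 5581062248)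 (nat_lit 1672) (nat_lit 3211367131) (nat_lit 365) (nat_lit 5) (nat_lit 364) (nat_lit 5) (nat_lit 386) (nat_lit 5) (nat_lit 450) (nat_lit 443) (nat_lit 247)) (XT.lf (nat_lit 0) (nat_lit 12955542377) (nat_lit 1596) (nat_lit 1792838285) (nat_lit 1672) (nat_lit 901476007) (nat_lit 365) (nat_lit 5) (nat_lit 386) (nat_lit 5) (nat_lit 387) (nat_lit 5) (nat_lit 451) (nat_lit 443) (nat_lit 246))))))))
noncomputable def xc229 : XT := (XT.nd (nat_lit 2106) (nat_lit 8512) (nat_lit 0) (XT.nd (nat_lit 1014) (nat_lit 4788) (nat_lit 0) (XT.nd (nat_lit 468) (nat_lit 0) (nat_lit 0) (XT.nd (nat_lit 234) (nat_lit 1520) (nat_lit 0) (XT.nd (nat_lit 78) (nat_lit 0) (nat_lit 0) (XT.lf (nat_lit 76) (nat_lit 5376036177) (nat_lit 0) (nat_lit 8329565445) (nat_lit 1672) (nat_lit 2100640471) (nat_lit 366) (nat_lit 5) (nat_lit 365) (nat_lit 5) (nat_lit 387) (nat_lit 5) (nat_lit 452) (nat_lit 443) (nat_lit 245)) (XT.nd (nat_lit 78)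 (nat_lit 0) (nat_lit 76) (XT.lf (nat_lit 76) (nat_lit 12708363064) (nat_lit 0) (nat_lit 1767559256) (nat_lit 1672) (nat_lit 1489734810) (nat_lit 366) (nat_lit 5) (nat_lit 365) (nat_lit 5) (nat_lit 387) (nat_lit 5) (nat_lit 453) (nat_lit 443) (nat_lit 244)) (XT.lf (nat_lit 76) (nat_lit 4076255529) (nat_lit 0) (nat_lit 11237218809) (nat_lit 1672) (nat_lit 813756603) (nat_lit 367) (nat_lit 5) (nat_lit 366) (nat_lit 5) (nat_lit 388) (nat_lit 5) (nat_lit 454) (nat_lit 443) (nat_lit 243)))) (XT.nd (nat_lit 78) (nat_lit 1596) (nat_lit 0) (XT.lf (nat_lit 76) (nat_lit 11584496149) (nat_lit 0) (nat_lit 4610248508) (nat_lit 1672) (nat_lit 96759062) (nat_lit 367) (nat_lit 5) (nat_lit 366) (nat_lit 5) (nat_lit 388) (nat_lit 5) (nat_lit 455) (nat_lit 443) (nat_lit 242)) (XT.nd (nat_lit 78) (nat_lit 0) (nat_lit 0) (XT.lf (nat_lit 0) (nat_lit 652191263) (nat_lit 1672) (nat_lit 13660543352) (nat_lit 1748) (nat_lit 2145732797)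 (nat_lit 345) (nat_lit 5) (nat_lit 367) (nat_lit 5) (nat_lit 368) (nat_lit 5) (nat_lit 456) (nat_lit 443) (nat_lit 241)) (XT.lf (nat_lit 0) (nat_lit 1470824892) (nat_lit 1672) (nat_lit 6147160290) (nat_lit 1748) (nat_lit 9009658848) (nat_lit 345) (nat_lit 5) (nat_lit 367) (nat_lit 5) (nat_lit 368) (nat_lit 5) (nat_lit 457) (nat_lit 443) (nat_lit 240))))) (XT.nd (nat_lit 234) (nat_lit 0) (nat_lit 152) (XT.nd (nat_lit 78) (nat_lit 0) (nat_lit 76) (XT.lf (nat_lit 76) (nat_lit 1532273460) (nat_lit 0) (nat_lit 777301916) (nat_lit 1748) (nat_lit 14490560235) (nat_lit 346) (nat_lit 5) (nat_lit 345) (nat_lit 5) (nat_lit 368) (nat_lit 5) (nat_lit 458) (nat_lit 443) (nat_lit 239)) (XT.nd (nat_lit 78) (nat_lit 0) (nat_lit 0) (XT.lf (nat_lit 0) (nat_lit 3240781851) (nat_lit 1672) (nat_lit 7571583607) (nat_lit 1748) (nat_lit 6162204136) (nat_lit 346) (nat_lit 5) (nat_lit 368) (nat_lit 5) (nat_lit 369) (nat_lit 5)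 (nat_lit 459) (nat_lit 443) (nat_lit 238)) (XT.lf (nat_lit 76) (nat_lit 272711337) (nat_lit 0) (nat_lit 3918840355) (nat_lit 1748) (nat_lit 12960927851) (nat_lit 347) (nat_lit 5) (nat_lit 346) (nat_lit 5) (nat_lit 369) (nat_lit 5) (nat_lit 460) (nat_lit 443) (nat_lit 237)))) (XT.nd (nat_lit 156) (nat_lit 0) (nat_lit 0) (XT.nd (nat_lit 78) (nat_lit 0) (nat_lit 0) (XT.lf (nat_lit 0) (nat_lit 5226811936) (nat_lit 1672) (nat_lit 8981393374) (nat_lit 1748) (nat_lit 3124438831) (nat_lit 347) (nat_lit 5) (nat_lit 369) (nat_lit 5) (nat_lit 370) (nat_lit 5) (nat_lit 461) (nat_lit 443) (nat_lit 236)) (XT.lf (nat_lit 0) (nat_lit 6302965691) (nat_lit 1672) (nat_lit 955360100) (nat_lit 1748) (nat_lit 10257688308) (nat_lit 347) (nat_lit 5) (nat_lit 369) (nat_lit 5) (nat_lit 370) (nat_lit 5) (nat_lit 462) (nat_lit 443) (nat_lit 235))) (XT.nd (nat_lit 78) (nat_lit 0) (nat_lit 76) (XT.lf (nat_lit 76) (nat_lit 7322964790)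 (nat_lit 0) (nat_lit 119572021) (nat_lit 1748) (nat_lit 10259682479) (nat_lit 348) (nat_lit 5) (nat_lit 347) (nat_lit 5) (nat_lit 370) (nat_lit 5) (nat_lit 463) (nat_lit 443) (nat_lit 234)) (XT.lf (nat_lit 0) (nat_lit 8652293564) (nat_lit 1672) (nat_lit 2163125181) (nat_lit 1748) (nat_lit 7075787562) (nat_lit 348) (nat_lit 5) (nat_lit 370) (nat_lit 5) (nat_lit 371) (nat_lit 5) (nat_lit 464) (nat_lit 443) (nat_lit 233)))))) (XT.nd (nat_lit 546) (nat_lit 2508) (nat_lit 0) (XT.nd (nat_lit 234) (nat_lit 2508) (nat_lit 0) (XT.nd (nat_lit 78) (nat_lit 0) (nat_lit 76) (XT.lf (nat_lit 76) (nat_lit 6294809552) (nat_lit 0) (nat_lit 3627647464) (nat_lit 1748) (nat_lit 8160797315) (nat_lit 349) (nat_lit 5) (nat_lit 348) (nat_lit 5) (nat_lit 371) (nat_lit 5) (nat_lit 465) (nat_lit 443) (nat_lit 232)) (XT.nd (nat_lit 78) (nat_lit 0) (nat_lit 0) (XT.lf (nat_lit 0) (nat_lit 11251319730) (nat_lit 1672) (nat_lit 3356147208)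 (nat_lit 1748) (nat_lit 3671015847) (nat_lit 349) (nat_lit 5) (nat_lit 371) (nat_lit 5) (nat_lit 372) (nat_lit 5) (nat_lit 466) (nat_lit 443) (nat_lit 231)) (XT.lf (nat_lit 76) (nat_lit 5285807506) (nat_lit 0) (nat_lit 7374036602) (nat_lit 1748) (nat_lit 5816715296) (nat_lit 350) (nat_lit 5) (nat_lit 349) (nat_lit 5) (nat_lit 372) (nat_lit 5) (nat_lit 467) (nat_lit 443) (nat_lit 230)))) (XT.nd (nat_lit 156) (nat_lit 988) (nat_lit 0) (XT.nd (nat_lit 78) (nat_lit 1672) (nat_lit 0) (XT.lf (nat_lit 0) (nat_lit 14114058738) (nat_lit 1672) (nat_lit 4536603462) (nat_lit 76) (nat_lit 27590141) (nat_lit 350) (nat_lit 5) (nat_lit 372) (nat_lit 5) (nat_lit 351) (nat_lit 5) (nat_lit 468) (nat_lit 443) (nat_lit 229)) (XT.lf (nat_lit 0) (nat_lit 4293817663) (nat_lit 1672) (nat_lit 11375177228) (nat_lit 1748) (nat_lit 3213556579) (nat_lit 328) (nat_lit 5) (nat_lit 350) (nat_lit 5) (nat_lit 351) (nat_lit 5) (nat_lit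 469) (nat_lit 443) (nat_lit 228))) (XT.nd (nat_lit 78) (nat_lit 988) (nat_lit 0) (XT.lf (nat_lit 0) (nat_lit 13358080496) (nat_lit 1672) (nat_lit 3922388363) (nat_lit 1748) (nat_lit 1809963919) (nat_lit 328) (nat_lit 5) (nat_lit 350) (nat_lit 5) (nat_lit 351) (nat_lit 5) (nat_lit 470) (nat_lit 443) (nat_lit 227)) (XT.lf (nat_lit 0) (nat_lit 3316477874) (nat_lit 988) (nat_lit 15648215615) (nat_lit 1064) (nat_lit 336972682) (nat_lit 315) (nat_lit 5) (nat_lit 328) (nat_lit 5) (nat_lit 329) (nat_lit 5) (nat_lit 471) (nat_lit 443) (nat_lit 226))))) (XT.nd (nat_lit 234) (nat_lit 1596) (nat_lit 0) (XT.nd (nat_lit 78) (nat_lit 836) (nat_lit 0) (XT.lf (nat_lit 0) (nat_lit 1210021518) (nat_lit 1064) (nat_lit 6930491539) (nat_lit 76) (nat_lit 11375267954) (nat_lit 314) (nat_lit 5) (nat_lit 328) (nat_lit 5) (nat_lit 315) (nat_lit 5) (nat_lit 472) (nat_lit 443) (nat_lit 225)) (XT.nd (nat_lit 78) (nat_lit 0) (nat_lit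 0) (XT.lf (nat_lit 0) (nat_lit 2329375630) (nat_lit 836) (nat_lit 464422120) (nat_lit 912) (nat_lit 16940133365) (nat_lit 303) (nat_lit 5) (nat_lit 314) (nat_lit 5) (nat_lit 315) (nat_lit 5) (nat_lit 473) (nat_lit 443) (nat_lit 224)) (XT.lf (nat_lit 0) (nat_lit 4499180044) (nat_lit 912) (nat_lit 8139573047) (nat_lit 76) (nat_lit 7315897030) (nat_lit 303) (nat_lit 5) (nat_lit 315) (nat_lit 5) (nat_lit 304) (nat_lit 5) (nat_lit 474) (nat_lit 443) (nat_lit 223)))) (XT.nd (nat_lit 156) (nat_lit 760) (nat_lit 0) (XT.nd (nat_lit 78) (nat_lit 0) (nat_lit 0) (XT.lf (nat_lit 0) (nat_lit 1320723497) (nat_lit 836) (nat_lit 4924984975) (nat_lit 912) (nat_lit 13933938687) (nat_lit 292) (nat_lit 5) (nat_lit 303) (nat_lit 5) (nat_lit 304) (nat_lit 5) (nat_lit 475) (nat_lit 443) (nat_lit 222)) (XT.lf (nat_lit 0) (nat_lit 8096711522) (nat_lit 912) (nat_lit 9351262852) (nat_lit 76) (nat_lit 2959783216) (nat_lit 292) (nat_lit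 5) (nat_lit 304) (nat_lit 5) (nat_lit 293) (nat_lit 5) (nat_lit 476) (nat_lit 443) (nat_lit 221))) (XT.nd (nat_lit 78) (nat_lit 0) (nat_lit 0) (XT.lf (nat_lit 0) (nat_lit 313834568) (nat_lit 760) (nat_lit 9701095853) (nat_lit 836) (nat_lit 10624900142) (nat_lit 282) (nat_lit 5) (nat_lit 292) (nat_lit 5) (nat_lit 293) (nat_lit 5) (nat_lit 477) (nat_lit 443) (nat_lit 220)) (XT.lf (nat_lit 0) (nat_lit 10294803699) (nat_lit 760) (nat_lit 1735064472) (nat_lit 836) (nat_lit 8845513902) (nat_lit 282) (nat_lit 5) (nat_lit 292) (nat_lit 5) (nat_lit 293) (nat_lit 5) (nat_lit 478) (nat_lit 443) (nat_lit 219))))))) (XT.nd (nat_lit 1092) (nat_lit 3496) (nat_lit 0) (XT.nd (nat_lit 546) (nat_lit 2736) (nat_lit 0) (XT.nd (nat_lit 234) (nat_lit 1520) (nat_lit 0) (XT.nd (nat_lit 78) (nat_lit 760) (nat_lit 0) (XT.lf (nat_lit 0) (nat_lit 14122284791) (nat_lit 836) (nat_lit 685940948) (nat_lit 76) (nat_lit 6306679357) (nat_lit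 282) (nat_lit 5) (nat_lit 293) (nat_lit 5) (nat_lit 283) (nat_lit 5) (nat_lit 479) (nat_lit 443) (nat_lit 218)) (XT.nd (nat_lit 78) (nat_lit 0) (nat_lit 0) (XT.lf (nat_lit 0) (nat_lit 9515783709) (nat_lit 760) (nat_lit 6809813941) (nat_lit 836) (nat_lit 5032243976) (nat_lit 272) (nat_lit 5) (nat_lit 282) (nat_lit 5) (nat_lit 283) (nat_lit 5) (nat_lit 480) (nat_lit 443) (nat_lit 217)) (XT.lf (nat_lit 0) (nat_lit 18582197516) (nat_lit 836) (nat_lit 1687667107) (nat_lit 76) (nat_lit 1335591774) (nat_lit 272) (nat_lit 5) (nat_lit 283) (nat_lit 5) (nat_lit 273) (nat_lit 5) (nat_lit 481) (nat_lit 443) (nat_lit 216)))) (XT.nd (nat_lit 156) (nat_lit 760) (nat_lit 0) (XT.nd (nat_lit 78) (nat_lit 76) (nat_lit 0) (XT.lf (nat_lit 0) (nat_lit 8735181812) (nat_lit 684) (nat_lit 12246473458) (nat_lit 760) (nat_lit 874417526) (nat_lit 263) (nat_lit 5) (nat_lit 272) (nat_lit 5) (nat_lit 273) (nat_lit 5) (nat_lit 482)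 (nat_lit 443) (nat_lit 215)) (XT.lf (nat_lit 0) (nat_lit 1307459323) (nat_lit 760) (nat_lit 2734864819) (nat_lit 76) (nat_lit 18069063278) (nat_lit 262) (nat_lit 5) (nat_lit 272) (nat_lit 5) (nat_lit 263) (nat_lit 5) (nat_lit 483) (nat_lit 443) (nat_lit 214))) (XT.nd (nat_lit 78) (nat_lit 0) (nat_lit 0) (XT.lf (nat_lit 0) (nat_lit 3597397415) (nat_lit 836) (nat_lit 14445853878) (nat_lit 76) (nat_lit 4326922430) (nat_lit 252) (nat_lit 5) (nat_lit 263) (nat_lit 5) (nat_lit 253) (nat_lit 5) (nat_lit 484) (nat_lit 443) (nat_lit 213)) (XT.lf (nat_lit 0) (nat_lit 5974446168) (nat_lit 836) (nat_lit 3831000547) (nat_lit 76) (nat_lit 12827866355) (nat_lit 252) (nat_lit 5) (nat_lit 263) (nat_lit 5) (nat_lit 253) (nat_lit 5) (nat_lit 485) (nat_lit 443) (nat_lit 212))))) (XT.nd (nat_lit 234) (nat_lit 1368) (nat_lit 0) (XT.nd (nat_lit 78) (nat_lit 684) (nat_lit 0) (XT.lf (nat_lit 0) (nat_lit 7085052009) (nat_lit 684)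 (nat_lit 1356129466) (nat_lit 760) (nat_lit 14459694303) (nat_lit 243) (nat_lit 5) (nat_lit 252) (nat_lit 5) (nat_lit 253) (nat_lit 5) (nat_lit 486) (nat_lit 443) (nat_lit 211)) (XT.nd (nat_lit 78) (nat_lit 684) (nat_lit 0) (XT.lf (nat_lit 0) (nat_lit 11026473798) (nat_lit 760) (nat_lit 4953312283) (nat_lit 76) (nat_lit 7192622631) (nat_lit 243) (nat_lit 5) (nat_lit 253) (nat_lit 5) (nat_lit 244) (nat_lit 5) (nat_lit 487) (nat_lit 443) (nat_lit 210)) (XT.lf (nat_lit 0) (nat_lit 6194721724) (nat_lit 684) (nat_lit 7514219291) (nat_lit 760) (nat_lit 9739525259) (nat_lit 234) (nat_lit 5) (nat_lit 243) (nat_lit 5) (nat_lit 244) (nat_lit 5) (nat_lit 488) (nat_lit 443) (nat_lit 209)))) (XT.nd (nat_lit 156) (nat_lit 760) (nat_lit 0) (XT.nd (nat_lit 78) (nat_lit 608) (nat_lit 0) (XT.lf (nat_lit 0) (nat_lit 16482106530) (nat_lit 760) (nat_lit 6108057031) (nat_lit 76) (nat_lit 1139143735) (nat_lit 234) (nat_lit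 5) (nat_lit 244) (nat_lit 5) (nat_lit 235) (nat_lit 5) (nat_lit 489) (nat_lit 443) (nat_lit 208)) (XT.lf (nat_lit 0) (nat_lit 5276015815) (nat_lit 608) (nat_lit 14115123690) (nat_lit 684) (nat_lit 4623020768) (nat_lit 226) (nat_lit 5) (nat_lit 234) (nat_lit 5) (nat_lit 235) (nat_lit 5) (nat_lit 490) (nat_lit 443) (nat_lit 207))) (XT.nd (nat_lit 78) (nat_lit 760) (nat_lit 0) (XT.lf (nat_lit 0) (nat_lit 16966631222) (nat_lit 608) (nat_lit 5429141230) (nat_lit 684) (nat_lit 1908192630) (nat_lit 226) (nat_lit 5) (nat_lit 234) (nat_lit 5) (nat_lit 235) (nat_lit 5) (nat_lit 491) (nat_lit 443) (nat_lit 206)) (XT.lf (nat_lit 0) (nat_lit 896781172) (nat_lit 760) (nat_lit 20282558155) (nat_lit 76) (nat_lit 3419175094) (nat_lit 216) (nat_lit 5) (nat_lit 226) (nat_lit 5) (nat_lit 217) (nat_lit 5) (nat_lit 492) (nat_lit 443) (nat_lit 205)))))) (XT.nd (nat_lit 546) (nat_lit 1748) (nat_lit 0) (XT.nd (nat_lit 234) (nat_lit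 1140) (nat_lit 0) (XT.nd (nat_lit 78) (nat_lit 608) (nat_lit 0) (XT.lf (nat_lit 0) (nat_lit 3814361760) (nat_lit 760) (nat_lit 8649068228) (nat_lit 76) (nat_lit 12433634308) (nat_lit 216) (nat_lit 5) (nat_lit 226) (nat_lit 5) (nat_lit 217) (nat_lit 5) (nat_lit 493) (nat_lit 443) (nat_lit 204)) (XT.nd (nat_lit 78) (nat_lit 0) (nat_lit 0) (XT.lf (nat_lit 0) (nat_lit 3255918722) (nat_lit 608) (nat_lit 3552099233) (nat_lit 684) (nat_lit 18393215653) (nat_lit 208) (nat_lit 5) (nat_lit 216) (nat_lit 5) (nat_lit 217) (nat_lit 5) (nat_lit 494) (nat_lit 443) (nat_lit 203)) (XT.lf (nat_lit 0) (nat_lit 9952547599) (nat_lit 684) (nat_lit 10034333407) (nat_lit 76) (nat_lit 5522788152) (nat_lit 208) (nat_lit 5) (nat_lit 217) (nat_lit 5) (nat_lit 209) (nat_lit 5) (nat_lit 495) (nat_lit 443) (nat_lit 202)))) (XT.nd (nat_lit 156) (nat_lit 532) (nat_lit 0) (XT.nd (nat_lit 78) (nat_lit 0) (nat_lit 0) (XT.lf (nat_lit 0)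 (nat_lit 2115246004) (nat_lit 608) (nat_lit 11078668760) (nat_lit 684) (nat_lit 12629682522) (nat_lit 200) (nat_lit 5) (nat_lit 208) (nat_lit 5) (nat_lit 209) (nat_lit 5) (nat_lit 496) (nat_lit 443) (nat_lit 201)) (XT.lf (nat_lit 0) (nat_lit 14640020605) (nat_lit 608) (nat_lit 1924153986) (nat_lit 684) (nat_lit 9578350827) (nat_lit 200) (nat_lit 5) (nat_lit 208) (nat_lit 5) (nat_lit 209) (nat_lit 5) (nat_lit 497) (nat_lit 443) (nat_lit 200))) (XT.nd (nat_lit 78) (nat_lit 0) (nat_lit 0) (XT.lf (nat_lit 0) (nat_lit 907423571) (nat_lit 532) (nat_lit 19145231000) (nat_lit 608) (nat_lit 6414163937) (nat_lit 193) (nat_lit 5) (nat_lit 200) (nat_lit 5) (nat_lit 201) (nat_lit 5) (nat_lit 498) (nat_lit 443) (nat_lit 199)) (XT.lf (nat_lit 0) (nat_lit 13704779945) (nat_lit 532) (nat_lit 9992799702) (nat_lit 608) (nat_lit 3098286947) (nat_lit 193) (nat_lit 5) (nat_lit 200) (nat_lit 5) (nat_lit 201) (nat_lit 5) (nat_lit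 499) (nat_lit 443) (nat_lit 198))))) (XT.nd (nat_lit 234) (nat_lit 1064) (nat_lit 0) (XT.nd (nat_lit 78) (nat_lit 608) (nat_lit 0) (XT.lf (nat_lit 0) (nat_lit 277051845) (nat_lit 608) (nat_lit 379003572) (nat_lit 76) (nat_lit 26475468540) (nat_lit 192) (nat_lit 5) (nat_lit 200) (nat_lit 5) (nat_lit 193) (nat_lit 5) (nat_lit 500) (nat_lit 443) (nat_lit 197)) (XT.nd (nat_lit 78) (nat_lit 0) (nat_lit 0) (XT.lf (nat_lit 0) (nat_lit 3816283994) (nat_lit 684) (nat_lit 14800061990) (nat_lit 76) (nat_lit 8854383929) (nat_lit 184) (nat_lit 5) (nat_lit 193) (nat_lit 5) (nat_lit 185) (nat_lit 5) (nat_lit 501) (nat_lit 443) (nat_lit 196)) (XT.lf (nat_lit 0) (nat_lit 7430167369) (nat_lit 684) (nat_lit 1838269881) (nat_lit 76) (nat_lit 18548207846) (nat_lit 184) (nat_lit 5) (nat_lit 193) (nat_lit 5) (nat_lit 185) (nat_lit 5) (nat_lit 502) (nat_lit 443) (nat_lit 195)))) (XT.nd (nat_lit 156) (nat_lit 532) (nat_lit 0)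 (XT.nd (nat_lit 78) (nat_lit 0) (nat_lit 0) (XT.lf (nat_lit 0) (nat_lit 11190433661) (nat_lit 608) (nat_lit 16639920827) (nat_lit 76) (nat_lit 337644383) (nat_lit 177) (nat_lit 5) (nat_lit 185) (nat_lit 5) (nat_lit 178) (nat_lit 5) (nat_lit 503) (nat_lit 443) (nat_lit 194)) (XT.lf (nat_lit 0) (nat_lit 15096754979) (nat_lit 608) (nat_lit 3404593656) (nat_lit 76) (nat_lit 10023616438) (nat_lit 177) (nat_lit 5) (nat_lit 185) (nat_lit 5) (nat_lit 178) (nat_lit 5) (nat_lit 504) (nat_lit 443) (nat_lit 193))) (XT.nd (nat_lit 78) (nat_lit 0) (nat_lit 0) (XT.lf (nat_lit 0) (nat_lit 10225957547) (nat_lit 532) (nat_lit 8918748551) (nat_lit 608) (nat_lit 9743096735) (nat_lit 170) (nat_lit 5) (nat_lit 177) (nat_lit 5) (nat_lit 178) (nat_lit 5) (nat_lit 505) (nat_lit 443) (nat_lit 192)) (XT.lf (nat_lit 0) (nat_lit 23299307140) (nat_lit 608) (nat_lit 5091505123) (nat_lit 76) (nat_lit 866573520) (nat_lit 170) (nat_lit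 5) (nat_lit 178) (nat_lit 5) (nat_lit 171) (nat_lit 5) (nat_lit 506) (nat_lit 443) (nat_lit 191))))))))
noncomputable def xc230 : XT := (XT.nd (nat_lit 56160) (nat_lit 0) (nat_lit 5016) (XT.nd (nat_lit 55068) (nat_lit 0) (nat_lit 14744) (XT.nd (nat_lit 54522) (nat_lit 0) (nat_lit 16112) (XT.nd (nat_lit 234) (nat_lit 456) (nat_lit 0) (XT.nd (nat_lit 78) (nat_lit 608) (nat_lit 0) (XT.lf (nat_lit 0) (nat_lit 8803073480) (nat_lit 456) (nat_lit 18847341269) (nat_lit 532) (nat_lit 1981679565) (nat_lit 164) (nat_lit 5) (nat_lit 170) (nat_lit 5) (nat_lit 171) (nat_lit 5) (nat_lit 507) (nat_lit 443) (nat_lit 190)) (XT.nd (nat_lit 78) (nat_lit 532) (nat_lit 0) (XT.lf (nat_lit 0) (nat_lit 2078642465) (nat_lit 532) (nat_lit 6986320536) (nat_lit 76) (nat_lit 20948434809) (nat_lit 163) (nat_lit 5) (nat_lit 170) (nat_lit 5) (nat_lit 164) (nat_lit 5) (nat_lit 508) (nat_lit 443) (nat_lit 189)) (XT.lf (nat_lit 0) (nat_lit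 6244061985) (nat_lit 608) (nat_lit 23196323048) (nat_lit 76) (nat_lit 960673933) (nat_lit 156) (nat_lit 5) (nat_lit 164) (nat_lit 5) (nat_lit 157) (nat_lit 5) (nat_lit 509) (nat_lit 443) (nat_lit 188)))) (XT.nd (nat_lit 78) (nat_lit 456) (nat_lit 0) (XT.lf (nat_lit 0) (nat_lit 10597302154) (nat_lit 608) (nat_lit 9085095746) (nat_lit 76) (nat_lit 11111987244) (nat_lit 156) (nat_lit 5) (nat_lit 164) (nat_lit 5) (nat_lit 157) (nat_lit 5) (nat_lit 510) (nat_lit 443) (nat_lit 187)) (XT.nd (nat_lit 54132) (nat_lit 0) (nat_lit 16112) (XT.lf (nat_lit 0) (nat_lit 5375392985) (nat_lit 456) (nat_lit 9694454978) (nat_lit 532) (nat_lit 16125087066) (nat_lit 150) (nat_lit 5) (nat_lit 156) (nat_lit 5) (nat_lit 157) (nat_lit 5) (nat_lit 511) (nat_lit 443) (nat_lit 186)) (XT.lf (nat_lit 0) (nat_lit 2351582626) (nat_lit 0) (nat_lit 2351582626) (nat_lit 1596) (nat_lit 2675860549) (nat_lit 362) (nat_lit 5) (nat_lit 362)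 (nat_lit 3) (nat_lit 383) (nat_lit 3) (nat_lit 444) (nat_lit 444) (nat_lit 252))))) (XT.nd (nat_lit 234) (nat_lit 0) (nat_lit 76) (XT.nd (nat_lit 78) (nat_lit 0) (nat_lit 0) (XT.lf (nat_lit 0) (nat_lit 9800378132) (nat_lit 1596) (nat_lit 3542598802) (nat_lit 1672) (nat_lit 1556350182) (nat_lit 362) (nat_lit 5) (nat_lit 383) (nat_lit 3) (nat_lit 384) (nat_lit 5) (nat_lit 445) (nat_lit 444) (nat_lit 251)) (XT.nd (nat_lit 78) (nat_lit 0) (nat_lit 0) (XT.lf (nat_lit 76) (nat_lit 3105532583) (nat_lit 0) (nat_lit 7140508646) (nat_lit 1672) (nat_lit 4796520225) (nat_lit 363) (nat_lit 5) (nat_lit 362) (nat_lit 5) (nat_lit 384) (nat_lit 5) (nat_lit 446) (nat_lit 444) (nat_lit 250)) (XT.lf (nat_lit 76) (nat_lit 9930688928) (nat_lit 0) (nat_lit 786248752) (nat_lit 1672) (nat_lit 4471404250) (nat_lit 363) (nat_lit 5) (nat_lit 362) (nat_lit 5) (nat_lit 384) (nat_lit 5) (nat_lit 447) (nat_lit 444) (nat_lit 249))))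 (XT.nd (nat_lit 156) (nat_lit 0) (nat_lit 76) (XT.nd (nat_lit 78) (nat_lit 0) (nat_lit 0) (XT.lf (nat_lit 76) (nat_lit 1534401007) (nat_lit 0) (nat_lit 9702505506) (nat_lit 1672) (nat_lit 4099346111) (nat_lit 364) (nat_lit 5) (nat_lit 363) (nat_lit 5) (nat_lit 385) (nat_lit 5) (nat_lit 448) (nat_lit 444) (nat_lit 248)) (XT.lf (nat_lit 76) (nat_lit 8524258537) (nat_lit 0) (nat_lit 3276302914) (nat_lit 1672) (nat_lit 3685901893) (nat_lit 364) (nat_lit 5) (nat_lit 363) (nat_lit 5) (nat_lit 385) (nat_lit 5) (nat_lit 449) (nat_lit 444) (nat_lit 247))) (XT.nd (nat_lit 78) (nat_lit 0) (nat_lit 0) (XT.lf (nat_lit 0) (nat_lit 12389768121) (nat_lit 1596) (nat_lit 11169934) (nat_lit 1672) (nat_lit 3238462049) (nat_lit 364) (nat_lit 5) (nat_lit 385) (nat_lit 5) (nat_lit 386) (nat_lit 5) (nat_lit 450) (nat_lit 444) (nat_lit 246)) (XT.lf (nat_lit 76) (nat_lit 7146882510) (nat_lit 0) (nat_lit 5905106410) (nat_lit 1672)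 (nat_lit 2742189333) (nat_lit 365) (nat_lit 5) (nat_lit 364) (nat_lit 5) (nat_lit 386) (nat_lit 5) (nat_lit 451) (nat_lit 444) (nat_lit 245)))))) (XT.nd (nat_lit 546) (nat_lit 0) (nat_lit 76) (XT.nd (nat_lit 234) (nat_lit 1596) (nat_lit 0) (XT.nd (nat_lit 78) (nat_lit 0) (nat_lit 0) (XT.lf (nat_lit 0) (nat_lit 13725465301) (nat_lit 1596) (nat_lit 1512654449) (nat_lit 1672) (nat_lit 713979104) (nat_lit 365) (nat_lit 5) (nat_lit 386) (nat_lit 5) (nat_lit 387) (nat_lit 5) (nat_lit 452) (nat_lit 444) (nat_lit 244)) (XT.nd (nat_lit 78) (nat_lit 0) (nat_lit 0) (XT.lf (nat_lit 76) (nat_lit 5797518289) (nat_lit 0) (nat_lit 8685029964) (nat_lit 1672) (nat_lit 1629233844) (nat_lit 366) (nat_lit 5) (nat_lit 365) (nat_lit 5) (nat_lit 387) (nat_lit 5) (nat_lit 453) (nat_lit 444) (nat_lit 243)) (XT.lf (nat_lit 76) (nat_lit 13270335607) (nat_lit 0) (nat_lit 1988080255) (nat_lit 1672) (nat_lit 1016177118) (nat_lit 366)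 (nat_lit 5) (nat_lit 365) (nat_lit 5) (nat_lit 387) (nat_lit 5) (nat_lit 454) (nat_lit 444) (nat_lit 242)))) (XT.nd (nat_lit 156) (nat_lit 0) (nat_lit 76) (XT.nd (nat_lit 78) (nat_lit 1672) (nat_lit 0) (XT.lf (nat_lit 76) (nat_lit 4475064243) (nat_lit 0) (nat_lit 11628869844) (nat_lit 1672) (nat_lit 335650031) (nat_lit 367) (nat_lit 5) (nat_lit 366) (nat_lit 5) (nat_lit 388) (nat_lit 5) (nat_lit 455) (nat_lit 444) (nat_lit 241)) (XT.lf (nat_lit 0) (nat_lit 380931324) (nat_lit 1672) (nat_lit 4482599883) (nat_lit 1748) (nat_lit 11743760854) (nat_lit 344) (nat_lit 5) (nat_lit 366) (nat_lit 5) (nat_lit 367) (nat_lit 5) (nat_lit 456) (nat_lit 444) (nat_lit 240))) (XT.nd (nat_lit 78) (nat_lit 0) (nat_lit 0) (XT.lf (nat_lit 0) (nat_lit 1135230128) (nat_lit 1672) (nat_lit 13607032675) (nat_lit 1748) (nat_lit 2035495698) (nat_lit 345) (nat_lit 5) (nat_lit 367) (nat_lit 5) (nat_lit 368) (nat_lit 5) (nat_lit 457)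 (nat_lit 444) (nat_lit 239)) (XT.lf (nat_lit 0) (nat_lit 1961020841) (nat_lit 1672) (nat_lit 5949788256) (nat_lit 1748) (nat_lit 9039703246) (nat_lit 345) (nat_lit 5) (nat_lit 367) (nat_lit 5) (nat_lit 368) (nat_lit 5) (nat_lit 458) (nat_lit 444) (nat_lit 238))))) (XT.nd (nat_lit 234) (nat_lit 0) (nat_lit 152) (XT.nd (nat_lit 78) (nat_lit 0) (nat_lit 76) (XT.lf (nat_lit 76) (nat_lit 1881126831) (nat_lit 0) (nat_lit 928450629) (nat_lit 1748) (nat_lit 14317024869) (nat_lit 346) (nat_lit 5) (nat_lit 345) (nat_lit 5) (nat_lit 368) (nat_lit 5) (nat_lit 459) (nat_lit 444) (nat_lit 237)) (XT.nd (nat_lit 78) (nat_lit 0) (nat_lit 0) (XT.lf (nat_lit 0) (nat_lit 3749646659) (nat_lit 1672) (nat_lit 7400834575) (nat_lit 1748) (nat_lit 6154248003) (nat_lit 346) (nat_lit 5) (nat_lit 368) (nat_lit 5) (nat_lit 369) (nat_lit 5) (nat_lit 460) (nat_lit 444) (nat_lit 236)) (XT.lf (nat_lit 76) (nat_lit 598226659) (nat_lit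 0) (nat_lit 4114576440) (nat_lit 1748) (nat_lit 12773535699) (nat_lit 347) (nat_lit 5) (nat_lit 346) (nat_lit 5) (nat_lit 369) (nat_lit 5) (nat_lit 461) (nat_lit 444) (nat_lit 235)))) (XT.nd (nat_lit 156) (nat_lit 0) (nat_lit 0) (XT.nd (nat_lit 78) (nat_lit 0) (nat_lit 0) (XT.lf (nat_lit 0) (nat_lit 5759444644) (nat_lit 1672) (nat_lit 8837478688) (nat_lit 1748) (nat_lit 3073378500) (nat_lit 347) (nat_lit 5) (nat_lit 369) (nat_lit 5) (nat_lit 370) (nat_lit 5) (nat_lit 462) (nat_lit 444) (nat_lit 234)) (XT.lf (nat_lit 0) (nat_lit 6848727426) (nat_lit 1672) (nat_lit 657268720) (nat_lit 1748) (nat_lit 10351519420) (nat_lit 347) (nat_lit 5) (nat_lit 369) (nat_lit 5) (nat_lit 370) (nat_lit 5) (nat_lit 463) (nat_lit 444) (nat_lit 233))) (XT.nd (nat_lit 78) (nat_lit 0) (nat_lit 76) (XT.lf (nat_lit 76) (nat_lit 7784535835) (nat_lit 0) (nat_lit 220370588) (nat_lit 1748) (nat_lit 10042670436) (nat_lit 348) (nat_lit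 5) (nat_lit 347) (nat_lit 5) (nat_lit 370) (nat_lit 5) (nat_lit 464) (nat_lit 444) (nat_lit 232)) (XT.lf (nat_lit 0) (nat_lit 9230123702) (nat_lit 1672) (nat_lit 1888311714) (nat_lit 1748) (nat_lit 7122091059) (nat_lit 348) (nat_lit 5) (nat_lit 370) (nat_lit 5) (nat_lit 371) (nat_lit 5) (nat_lit 465) (nat_lit 444) (nat_lit 231))))))) (XT.nd (nat_lit 1092) (nat_lit 5016) (nat_lit 0) (XT.nd (nat_lit 546) (nat_lit 2432) (nat_lit 0) (XT.nd (nat_lit 234) (nat_lit 2584) (nat_lit 0) (XT.nd (nat_lit 78) (nat_lit 0) (nat_lit 76) (XT.lf (nat_lit 76) (nat_lit 6736689110) (nat_lit 0) (nat_lit 3783115941) (nat_lit 1748) (nat_lit 7916736122) (nat_lit 349) (nat_lit 5) (nat_lit 348) (nat_lit 5) (nat_lit 371) (nat_lit 5) (nat_lit 466) (nat_lit 444) (nat_lit 230)) (XT.nd (nat_lit 78) (nat_lit 0) (nat_lit 0) (XT.lf (nat_lit 0) (nat_lit 11866895685) (nat_lit 1672) (nat_lit 3104740785) (nat_lit 1748) (nat_lit 3664212561)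 (nat_lit 349) (nat_lit 5) (nat_lit 371) (nat_lit 5) (nat_lit 372) (nat_lit 5) (nat_lit 467) (nat_lit 444) (nat_lit 229)) (XT.lf (nat_lit 76) (nat_lit 5707957436) (nat_lit 0) (nat_lit 7590029778) (nat_lit 1748) (nat_lit 5540019729) (nat_lit 350) (nat_lit 5) (nat_lit 349) (nat_lit 5) (nat_lit 372) (nat_lit 5) (nat_lit 468) (nat_lit 444) (nat_lit 228)))) (XT.nd (nat_lit 156) (nat_lit 1064) (nat_lit 0) (XT.nd (nat_lit 78) (nat_lit 1596) (nat_lit 0) (XT.lf (nat_lit 76) (nat_lit 14734899899) (nat_lit 0) (nat_lit 38653126) (nat_lit 1748) (nat_lit 4270342918) (nat_lit 350) (nat_lit 5) (nat_lit 349) (nat_lit 5) (nat_lit 372) (nat_lit 5) (nat_lit 469) (nat_lit 444) (nat_lit 227)) (XT.lf (nat_lit 0) (nat_lit 4696188475) (nat_lit 1672) (nat_lit 11657811943) (nat_lit 1748) (nat_lit 2898399783) (nat_lit 328) (nat_lit 5) (nat_lit 350) (nat_lit 5) (nat_lit 351) (nat_lit 5) (nat_lit 470) (nat_lit 444) (nat_lit 226)))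 (XT.nd (nat_lit 78) (nat_lit 1064) (nat_lit 0) (XT.lf (nat_lit 0) (nat_lit 13935530791) (nat_lit 1672) (nat_lit 4054886297) (nat_lit 1748) (nat_lit 1474175033) (nat_lit 328) (nat_lit 5) (nat_lit 350) (nat_lit 5) (nat_lit 351) (nat_lit 5) (nat_lit 471) (nat_lit 444) (nat_lit 225)) (XT.lf (nat_lit 0) (nat_lit 22427173) (nat_lit 1064) (nat_lit 15981311186) (nat_lit 76) (nat_lit 3676424681) (nat_lit 314) (nat_lit 5) (nat_lit 328) (nat_lit 5) (nat_lit 315) (nat_lit 5) (nat_lit 472) (nat_lit 444) (nat_lit 224))))) (XT.nd (nat_lit 234) (nat_lit 1596) (nat_lit 0) (XT.nd (nat_lit 78) (nat_lit 836) (nat_lit 0) (XT.lf (nat_lit 0) (nat_lit 1588762599) (nat_lit 1064) (nat_lit 6754053066) (nat_lit 76) (nat_lit 11555848528) (nat_lit 314) (nat_lit 5) (nat_lit 328) (nat_lit 5) (nat_lit 315) (nat_lit 5) (nat_lit 473) (nat_lit 444) (nat_lit 223)) (XT.nd (nat_lit 78) (nat_lit 0) (nat_lit 0) (XT.lf (nat_lit 0) (nat_lit 2688938761)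 (nat_lit 836) (nat_lit 510355863) (nat_lit 912) (nat_lit 16921987769) (nat_lit 303) (nat_lit 5) (nat_lit 314) (nat_lit 5) (nat_lit 315) (nat_lit 5) (nat_lit 474) (nat_lit 444) (nat_lit 222)) (XT.lf (nat_lit 0) (nat_lit 4931695990) (nat_lit 912) (nat_lit 7988108735) (nat_lit 76) (nat_lit 7426759391) (nat_lit 303) (nat_lit 5) (nat_lit 315) (nat_lit 5) (nat_lit 304) (nat_lit 5) (nat_lit 475) (nat_lit 444) (nat_lit 221)))) (XT.nd (nat_lit 156) (nat_lit 760) (nat_lit 0) (XT.nd (nat_lit 78) (nat_lit 0) (nat_lit 0) (XT.lf (nat_lit 0) (nat_lit 1659326268) (nat_lit 836) (nat_lit 5049139332) (nat_lit 912) (nat_lit 13867695721) (nat_lit 292) (nat_lit 5) (nat_lit 303) (nat_lit 5) (nat_lit 304) (nat_lit 5) (nat_lit 476) (nat_lit 444) (nat_lit 220)) (XT.lf (nat_lit 0) (nat_lit 8589701039) (nat_lit 912) (nat_lit 9225117865) (nat_lit 76) (nat_lit 2994157123) (nat_lit 292) (nat_lit 5) (nat_lit 304) (nat_lit 5) (nat_lit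 293) (nat_lit 5) (nat_lit 477) (nat_lit 444) (nat_lit 219))) (XT.nd (nat_lit 78) (nat_lit 0) (nat_lit 0) (XT.lf (nat_lit 0) (nat_lit 631221172) (nat_lit 760) (nat_lit 9910591796) (nat_lit 836) (nat_lit 10503973108) (nat_lit 282) (nat_lit 5) (nat_lit 292) (nat_lit 5) (nat_lit 293) (nat_lit 5) (nat_lit 478) (nat_lit 444) (nat_lit 218)) (XT.lf (nat_lit 0) (nat_lit 10805709492) (nat_lit 760) (nat_lit 1784936375) (nat_lit 836) (nat_lit 8695536889) (nat_lit 282) (nat_lit 5) (nat_lit 292) (nat_lit 5) (nat_lit 293) (nat_lit 5) (nat_lit 479) (nat_lit 444) (nat_lit 217)))))) (XT.nd (nat_lit 546) (nat_lit 2736) (nat_lit 0) (XT.nd (nat_lit 234) (nat_lit 1520) (nat_lit 0) (XT.nd (nat_lit 78) (nat_lit 760) (nat_lit 0) (XT.lf (nat_lit 0) (nat_lit 14718536206) (nat_lit 836) (nat_lit 393958614) (nat_lit 76) (nat_lit 6418134858) (nat_lit 282) (nat_lit 5) (nat_lit 293) (nat_lit 5) (nat_lit 283) (nat_lit 5) (nat_lit 480)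 (nat_lit 444) (nat_lit 216)) (XT.nd (nat_lit 78) (nat_lit 0) (nat_lit 0) (XT.lf (nat_lit 0) (nat_lit 10009789345) (nat_lit 760) (nat_lit 6951944681) (nat_lit 836) (nat_lit 4816780371) (nat_lit 272) (nat_lit 5) (nat_lit 282) (nat_lit 5) (nat_lit 283) (nat_lit 5) (nat_lit 481) (nat_lit 444) (nat_lit 215)) (XT.lf (nat_lit 0) (nat_lit 19257357047) (nat_lit 836) (nat_lit 1417290494) (nat_lit 76) (nat_lit 1356561816) (nat_lit 272) (nat_lit 5) (nat_lit 283) (nat_lit 5) (nat_lit 273) (nat_lit 5) (nat_lit 482) (nat_lit 444) (nat_lit 214)))) (XT.nd (nat_lit 156) (nat_lit 760) (nat_lit 0) (XT.nd (nat_lit 78) (nat_lit 76) (nat_lit 0) (XT.lf (nat_lit 0) (nat_lit 9212014548) (nat_lit 684) (nat_lit 12488799744) (nat_lit 760) (nat_lit 586109189) (nat_lit 263) (nat_lit 5) (nat_lit 272) (nat_lit 5) (nat_lit 273) (nat_lit 5) (nat_lit 483) (nat_lit 444) (nat_lit 213)) (XT.lf (nat_lit 0) (nat_lit 1629477244) (nat_lit 760)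 (nat_lit 2489155807) (nat_lit 76) (nat_lit 18428795374) (nat_lit 262) (nat_lit 5) (nat_lit 272) (nat_lit 5) (nat_lit 263) (nat_lit 5) (nat_lit 484) (nat_lit 444) (nat_lit 212))) (XT.nd (nat_lit 78) (nat_lit 0) (nat_lit 0) (XT.lf (nat_lit 0) (nat_lit 3961392070) (nat_lit 836) (nat_lit 14430278532) (nat_lit 76) (nat_lit 4419801574) (nat_lit 252) (nat_lit 5) (nat_lit 263) (nat_lit 5) (nat_lit 253) (nat_lit 5) (nat_lit 485) (nat_lit 444) (nat_lit 211)) (XT.lf (nat_lit 0) (nat_lit 6380255392) (nat_lit 836) (nat_lit 3609098575) (nat_lit 76) (nat_lit 13090640050) (nat_lit 252) (nat_lit 5) (nat_lit 263) (nat_lit 5) (nat_lit 253) (nat_lit 5) (nat_lit 486) (nat_lit 444) (nat_lit 210))))) (XT.nd (nat_lit 234) (nat_lit 1368) (nat_lit 0) (XT.nd (nat_lit 78) (nat_lit 684) (nat_lit 0) (XT.lf (nat_lit 0) (nat_lit 7523311073) (nat_lit 684) (nat_lit 1369325660) (nat_lit 760) (nat_lit 14460350095) (nat_lit 243) (nat_lit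 5) (nat_lit 252) (nat_lit 5) (nat_lit 253) (nat_lit 5) (nat_lit 487) (nat_lit 444) (nat_lit 209)) (XT.nd (nat_lit 78) (nat_lit 684) (nat_lit 0) (XT.lf (nat_lit 0) (nat_lit 11524181752) (nat_lit 760) (nat_lit 4755933363) (nat_lit 76) (nat_lit 7349949346) (nat_lit 243) (nat_lit 5) (nat_lit 253) (nat_lit 5) (nat_lit 244) (nat_lit 5) (nat_lit 488) (nat_lit 444) (nat_lit 208)) (XT.lf (nat_lit 0) (nat_lit 6613111028) (nat_lit 684) (nat_lit 7643664470) (nat_lit 760) (nat_lit 9654943013) (nat_lit 234) (nat_lit 5) (nat_lit 243) (nat_lit 5) (nat_lit 244) (nat_lit 5) (nat_lit 489) (nat_lit 444) (nat_lit 207)))) (XT.nd (nat_lit 156) (nat_lit 760) (nat_lit 0) (XT.nd (nat_lit 78) (nat_lit 608) (nat_lit 0) (XT.lf (nat_lit 0) (nat_lit 17080171174) (nat_lit 760) (nat_lit 5936025371) (nat_lit 76) (nat_lit 1182089253) (nat_lit 234) (nat_lit 5) (nat_lit 244) (nat_lit 5) (nat_lit 235) (nat_lit 5) (nat_lit 490) (nat_lit 444)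 (nat_lit 206)) (XT.lf (nat_lit 0) (nat_lit 5673793453) (nat_lit 608) (nat_lit 14370225698) (nat_lit 684) (nat_lit 4444888689) (nat_lit 226) (nat_lit 5) (nat_lit 234) (nat_lit 5) (nat_lit 235) (nat_lit 5) (nat_lit 491) (nat_lit 444) (nat_lit 205))) (XT.nd (nat_lit 78) (nat_lit 760) (nat_lit 0) (XT.lf (nat_lit 0) (nat_lit 17592490632) (nat_lit 608) (nat_lit 5511056931) (nat_lit 684) (nat_lit 1681069723) (nat_lit 226) (nat_lit 5) (nat_lit 234) (nat_lit 5) (nat_lit 235) (nat_lit 5) (nat_lit 492) (nat_lit 444) (nat_lit 204)) (XT.lf (nat_lit 0) (nat_lit 1173456095) (nat_lit 760) (nat_lit 20394688700) (nat_lit 76) (nat_lit 3516944150) (nat_lit 216) (nat_lit 5) (nat_lit 226) (nat_lit 5) (nat_lit 217) (nat_lit 5) (nat_lit 493) (nat_lit 444) (nat_lit 203))))))))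
noncomputable def xc231 : XT := (XT.nd (nat_lit 56316) (nat_lit 0) (nat_lit 8816) (XT.nd (nat_lit 1014) (nat_lit 1064) (nat_lit 0) (XT.nd (nat_lit 468) (nat_lit 1748) (nat_lit 0) (XT.nd (nat_lit 234) (nat_lit 1140) (nat_lit 0) (XT.nd (nat_lit 78) (nat_lit 608) (nat_lit 0) (XT.lf (nat_lit 0) (nat_lit 4144314976) (nat_lit 760) (nat_lit 8534284282) (nat_lit 76) (nat_lit 12711116362) (nat_lit 216) (nat_lit 5) (nat_lit 226) (nat_lit 5) (nat_lit 217) (nat_lit 5) (nat_lit 494) (nat_lit 444) (nat_lit 202)) (XT.nd (nat_lit 78) (nat_lit 0) (nat_lit 0) (XT.lf (nat_lit 0) (nat_lit 3606909215) (nat_lit 608) (nat_lit 3587817309) (nat_lit 684) (nat_lit 18505308397) (nat_lit 208) (nat_lit 5) (nat_lit 216) (nat_lit 5) (nat_lit 217) (nat_lit 5) (nat_lit 495) (nat_lit 444) (nat_lit 201)) (XT.lf (nat_lit 0) (nat_lit 10397458899) (nat_lit 684) (nat_lit 9949857201) (nat_lit 76) (nat_lit 5667421003) (nat_lit 208) (nat_lit 5)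 (nat_lit 217) (nat_lit 5) (nat_lit 209) (nat_lit 5) (nat_lit 496) (nat_lit 444) (nat_lit 200)))) (XT.nd (nat_lit 78) (nat_lit 532) (nat_lit 0) (XT.lf (nat_lit 0) (nat_lit 2440837727) (nat_lit 608) (nat_lit 11259834176) (nat_lit 684) (nat_lit 12634335604) (nat_lit 200) (nat_lit 5) (nat_lit 208) (nat_lit 5) (nat_lit 209) (nat_lit 5) (nat_lit 497) (nat_lit 444) (nat_lit 199)) (XT.nd (nat_lit 78) (nat_lit 532) (nat_lit 0) (XT.lf (nat_lit 0) (nat_lit 15210553176) (nat_lit 608) (nat_lit 1923021419) (nat_lit 684) (nat_lit 9526838856) (nat_lit 200) (nat_lit 5) (nat_lit 208) (nat_lit 5) (nat_lit 209) (nat_lit 5) (nat_lit 498) (nat_lit 444) (nat_lit 198)) (XT.lf (nat_lit 0) (nat_lit 1206151325) (nat_lit 532) (nat_lit 19483077774) (nat_lit 608) (nat_lit 6302019130) (nat_lit 193) (nat_lit 5) (nat_lit 200) (nat_lit 5) (nat_lit 201) (nat_lit 5) (nat_lit 499) (nat_lit 444) (nat_lit 197))))) (XT.nd (nat_lit 234) (nat_lit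 1064) (nat_lit 0) (XT.nd (nat_lit 78) (nat_lit 684) (nat_lit 0) (XT.lf (nat_lit 0) (nat_lit 14253953272) (nat_lit 532) (nat_lit 10148481337) (nat_lit 608) (nat_lit 2924538876) (nat_lit 193) (nat_lit 5) (nat_lit 200) (nat_lit 5) (nat_lit 201) (nat_lit 5) (nat_lit 500) (nat_lit 444) (nat_lit 196)) (XT.nd (nat_lit 78) (nat_lit 608) (nat_lit 0) (XT.lf (nat_lit 0) (nat_lit 510654039) (nat_lit 608) (nat_lit 113683880) (nat_lit 76) (nat_lit 27045070391) (nat_lit 192) (nat_lit 5) (nat_lit 200) (nat_lit 5) (nat_lit 193) (nat_lit 5) (nat_lit 501) (nat_lit 444) (nat_lit 195)) (XT.lf (nat_lit 0) (nat_lit 4118256304) (nat_lit 684) (nat_lit 14820567661) (nat_lit 76) (nat_lit 9076626336) (nat_lit 184) (nat_lit 5) (nat_lit 193) (nat_lit 5) (nat_lit 185) (nat_lit 5) (nat_lit 502) (nat_lit 444) (nat_lit 194)))) (XT.nd (nat_lit 156) (nat_lit 532) (nat_lit 0) (XT.nd (nat_lit 78) (nat_lit 532) (nat_lit 0) (XT.lf (nat_lit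 0) (nat_lit 7799992903) (nat_lit 684) (nat_lit 1604941584) (nat_lit 76) (nat_lit 18963441344) (nat_lit 184) (nat_lit 5) (nat_lit 193) (nat_lit 5) (nat_lit 185) (nat_lit 5) (nat_lit 503) (nat_lit 444) (nat_lit 193)) (XT.lf (nat_lit 0) (nat_lit 11633191542) (nat_lit 608) (nat_lit 16700178332) (nat_lit 76) (nat_lit 393435751) (nat_lit 177) (nat_lit 5) (nat_lit 185) (nat_lit 5) (nat_lit 178) (nat_lit 5) (nat_lit 504) (nat_lit 444) (nat_lit 192))) (XT.nd (nat_lit 78) (nat_lit 532) (nat_lit 0) (XT.lf (nat_lit 0) (nat_lit 15613346165) (nat_lit 608) (nat_lit 3205488558) (nat_lit 76) (nat_lit 10272165708) (nat_lit 177) (nat_lit 5) (nat_lit 185) (nat_lit 5) (nat_lit 178) (nat_lit 5) (nat_lit 505) (nat_lit 444) (nat_lit 191)) (XT.lf (nat_lit 0) (nat_lit 10695915795) (nat_lit 532) (nat_lit 9043854975) (nat_lit 608) (nat_lit 9721377235) (nat_lit 170) (nat_lit 5) (nat_lit 177) (nat_lit 5) (nat_lit 178) (nat_lit 5)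 (nat_lit 506) (nat_lit 444) (nat_lit 190)))))) (XT.nd (nat_lit 54756) (nat_lit 0) (nat_lit 15656) (XT.nd (nat_lit 234) (nat_lit 532) (nat_lit 0) (XT.nd (nat_lit 78) (nat_lit 532) (nat_lit 0) (XT.lf (nat_lit 0) (nat_lit 23973642700) (nat_lit 608) (nat_lit 4929115495) (nat_lit 76) (nat_lit 935444128) (nat_lit 170) (nat_lit 5) (nat_lit 178) (nat_lit 5) (nat_lit 171) (nat_lit 5) (nat_lit 507) (nat_lit 444) (nat_lit 189)) (XT.nd (nat_lit 78) (nat_lit 76) (nat_lit 0) (XT.lf (nat_lit 0) (nat_lit 9241616393) (nat_lit 456) (nat_lit 19167774989) (nat_lit 532) (nat_lit 1811064482) (nat_lit 164) (nat_lit 5) (nat_lit 170) (nat_lit 5) (nat_lit 171) (nat_lit 5) (nat_lit 508) (nat_lit 444) (nat_lit 188)) (XT.lf (nat_lit 0) (nat_lit 2323638083) (nat_lit 532) (nat_lit 6865854098) (nat_lit 76) (nat_lit 21419950411) (nat_lit 163) (nat_lit 5) (nat_lit 170) (nat_lit 5) (nat_lit 164) (nat_lit 5) (nat_lit 509) (nat_lit 444)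 (nat_lit 187)))) (XT.nd (nat_lit 54366) (nat_lit 0) (nat_lit 15656) (XT.nd (nat_lit 54288) (nat_lit 0) (nat_lit 15656) (XT.lf (nat_lit 0) (nat_lit 6570428019) (nat_lit 608) (nat_lit 23397967000) (nat_lit 76) (nat_lit 1036503746) (nat_lit 156) (nat_lit 5) (nat_lit 164) (nat_lit 5) (nat_lit 157) (nat_lit 5) (nat_lit 510) (nat_lit 444) (nat_lit 186)) (XT.lf (nat_lit 0) (nat_lit 2542546257) (nat_lit 0) (nat_lit 2542546257) (nat_lit 1596) (nat_lit 2435453188) (nat_lit 362) (nat_lit 5) (nat_lit 362) (nat_lit 3) (nat_lit 383) (nat_lit 3) (nat_lit 445) (nat_lit 445) (nat_lit 250))) (XT.nd (nat_lit 78) (nat_lit 0) (nat_lit 0) (XT.lf (nat_lit 0) (nat_lit 10558992469) (nat_lit 1596) (nat_lit 3317515296) (nat_lit 1672) (nat_lit 1308958980) (nat_lit 362) (nat_lit 5) (nat_lit 383) (nat_lit 3) (nat_lit 384) (nat_lit 5) (nat_lit 446) (nat_lit 445) (nat_lit 249)) (XT.lf (nat_lit 76) (nat_lit 3461631773) (nat_lit 0) (nat_lit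 7542814318) (nat_lit 1672) (nat_lit 4327313796) (nat_lit 363) (nat_lit 5) (nat_lit 362) (nat_lit 5) (nat_lit 384) (nat_lit 5) (nat_lit 447) (nat_lit 445) (nat_lit 248))))) (XT.nd (nat_lit 234) (nat_lit 0) (nat_lit 152) (XT.nd (nat_lit 78) (nat_lit 0) (nat_lit 76) (XT.lf (nat_lit 76) (nat_lit 10417526764) (nat_lit 0) (nat_lit 1056381080) (nat_lit 1672) (nat_lit 4006776615) (nat_lit 363) (nat_lit 5) (nat_lit 362) (nat_lit 5) (nat_lit 384) (nat_lit 5) (nat_lit 448) (nat_lit 445) (nat_lit 247)) (XT.nd (nat_lit 78) (nat_lit 0) (nat_lit 0) (XT.lf (nat_lit 76) (nat_lit 1864406938) (nat_lit 0) (nat_lit 10129553261) (nat_lit 1672) (nat_lit 3637810695) (nat_lit 364) (nat_lit 5) (nat_lit 363) (nat_lit 5) (nat_lit 385) (nat_lit 5) (nat_lit 449) (nat_lit 445) (nat_lit 246)) (XT.lf (nat_lit 76) (nat_lit 8988192640) (nat_lit 0) (nat_lit 3570258035) (nat_lit 1672) (nat_lit 3226754893) (nat_lit 364) (nat_lit 5) (nat_lit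 363) (nat_lit 5) (nat_lit 385) (nat_lit 5) (nat_lit 450) (nat_lit 445) (nat_lit 245)))) (XT.nd (nat_lit 156) (nat_lit 0) (nat_lit 76) (XT.nd (nat_lit 78) (nat_lit 0) (nat_lit 0) (XT.lf (nat_lit 76) (nat_lit 292361717) (nat_lit 0) (nat_lit 12857291033) (nat_lit 1672) (nat_lit 2791754862) (nat_lit 365) (nat_lit 5) (nat_lit 364) (nat_lit 5) (nat_lit 386) (nat_lit 5) (nat_lit 451) (nat_lit 445) (nat_lit 244)) (XT.lf (nat_lit 76) (nat_lit 7587767672) (nat_lit 0) (nat_lit 6227382814) (nat_lit 1672) (nat_lit 2284340751) (nat_lit 365) (nat_lit 5) (nat_lit 364) (nat_lit 5) (nat_lit 386) (nat_lit 5) (nat_lit 452) (nat_lit 445) (nat_lit 243))) (XT.nd (nat_lit 78) (nat_lit 0) (nat_lit 0) (XT.lf (nat_lit 0) (nat_lit 14490951227) (nat_lit 1596) (nat_lit 1239139177) (nat_lit 1672) (nat_lit 530713104) (nat_lit 365) (nat_lit 5) (nat_lit 386) (nat_lit 5) (nat_lit 387) (nat_lit 5) (nat_lit 453) (nat_lit 445) (nat_lit 242))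 (XT.lf (nat_lit 76) (nat_lit 6215238539) (nat_lit 0) (nat_lit 9040269597) (nat_lit 1672) (nat_lit 1168335788) (nat_lit 366) (nat_lit 5) (nat_lit 365) (nat_lit 5) (nat_lit 387) (nat_lit 5) (nat_lit 454) (nat_lit 445) (nat_lit 241))))))) (XT.nd (nat_lit 1092) (nat_lit 5472) (nat_lit 0) (XT.nd (nat_lit 546) (nat_lit 0) (nat_lit 152) (XT.nd (nat_lit 234) (nat_lit 0) (nat_lit 76) (XT.nd (nat_lit 78) (nat_lit 1596) (nat_lit 0) (XT.lf (nat_lit 76) (nat_lit 13831595148) (nat_lit 0) (nat_lit 2205821305) (nat_lit 1672) (nat_lit 552694059) (nat_lit 366) (nat_lit 5) (nat_lit 365) (nat_lit 5) (nat_lit 387) (nat_lit 5) (nat_lit 455) (nat_lit 445) (nat_lit 240)) (XT.nd (nat_lit 78) (nat_lit 0) (nat_lit 0) (XT.lf (nat_lit 0) (nat_lit 131079253) (nat_lit 1672) (nat_lit 11889913846) (nat_lit 1748) (nat_lit 4737569758) (nat_lit 344) (nat_lit 5) (nat_lit 366) (nat_lit 5) (nat_lit 367) (nat_lit 5) (nat_lit 456) (nat_lit 445)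 (nat_lit 239)) (XT.lf (nat_lit 0) (nat_lit 848306943) (nat_lit 1672) (nat_lit 4266689548) (nat_lit 1748) (nat_lit 11814777293) (nat_lit 344) (nat_lit 5) (nat_lit 366) (nat_lit 5) (nat_lit 367) (nat_lit 5) (nat_lit 457) (nat_lit 445) (nat_lit 238)))) (XT.nd (nat_lit 156) (nat_lit 0) (nat_lit 0) (XT.nd (nat_lit 78) (nat_lit 0) (nat_lit 0) (XT.lf (nat_lit 0) (nat_lit 1609679290) (nat_lit 1672) (nat_lit 13565138780) (nat_lit 1748) (nat_lit 1929000928) (nat_lit 345) (nat_lit 5) (nat_lit 367) (nat_lit 5) (nat_lit 368) (nat_lit 5) (nat_lit 458) (nat_lit 445) (nat_lit 237)) (XT.lf (nat_lit 0) (nat_lit 2443128080) (nat_lit 1672) (nat_lit 5760907013) (nat_lit 1748) (nat_lit 9076178993) (nat_lit 345) (nat_lit 5) (nat_lit 367) (nat_lit 5) (nat_lit 368) (nat_lit 5) (nat_lit 459) (nat_lit 445) (nat_lit 236))) (XT.nd (nat_lit 78) (nat_lit 0) (nat_lit 76) (XT.lf (nat_lit 76) (nat_lit 2224600870) (nat_lit 0) (nat_lit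 1077356698) (nat_lit 1748) (nat_lit 14158011108) (nat_lit 346) (nat_lit 5) (nat_lit 345) (nat_lit 5) (nat_lit 368) (nat_lit 5) (nat_lit 460) (nat_lit 445) (nat_lit 235)) (XT.lf (nat_lit 0) (nat_lit 4251445792) (nat_lit 1672) (nat_lit 7239181231) (nat_lit 1748) (nat_lit 6151227411) (nat_lit 346) (nat_lit 5) (nat_lit 368) (nat_lit 5) (nat_lit 369) (nat_lit 5) (nat_lit 461) (nat_lit 445) (nat_lit 234))))) (XT.nd (nat_lit 234) (nat_lit 0) (nat_lit 76) (XT.nd (nat_lit 78) (nat_lit 0) (nat_lit 76) (XT.lf (nat_lit 76) (nat_lit 917823924) (nat_lit 0) (nat_lit 4309670044) (nat_lit 1748) (nat_lit 12599738143) (nat_lit 347) (nat_lit 5) (nat_lit 346) (nat_lit 5) (nat_lit 369) (nat_lit 5) (nat_lit 462) (nat_lit 445) (nat_lit 233)) (XT.nd (nat_lit 78) (nat_lit 0) (nat_lit 0) (XT.lf (nat_lit 0) (nat_lit 6286106499) (nat_lit 1672) (nat_lit 8703249259) (nat_lit 1748) (nat_lit 3025706212) (nat_lit 347) (nat_lit 5) (nat_lit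 369) (nat_lit 5) (nat_lit 370) (nat_lit 5) (nat_lit 463) (nat_lit 445) (nat_lit 232)) (XT.lf (nat_lit 0) (nat_lit 7389106838) (nat_lit 1672) (nat_lit 365532719) (nat_lit 1748) (nat_lit 10451549948) (nat_lit 347) (nat_lit 5) (nat_lit 369) (nat_lit 5) (nat_lit 370) (nat_lit 5) (nat_lit 464) (nat_lit 445) (nat_lit 231)))) (XT.nd (nat_lit 156) (nat_lit 0) (nat_lit 76) (XT.nd (nat_lit 78) (nat_lit 0) (nat_lit 76) (XT.lf (nat_lit 76) (nat_lit 8243102128) (nat_lit 0) (nat_lit 319363858) (nat_lit 1748) (nat_lit 9837712913) (nat_lit 348) (nat_lit 5) (nat_lit 347) (nat_lit 5) (nat_lit 370) (nat_lit 5) (nat_lit 465) (nat_lit 445) (nat_lit 230)) (XT.lf (nat_lit 0) (nat_lit 9803792176) (nat_lit 1672) (nat_lit 1620353254) (nat_lit 1748) (nat_lit 7173017834) (nat_lit 348) (nat_lit 5) (nat_lit 370) (nat_lit 5) (nat_lit 371) (nat_lit 5) (nat_lit 466) (nat_lit 445) (nat_lit 229))) (XT.nd (nat_lit 78) (nat_lit 0) (nat_lit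 76) (XT.lf (nat_lit 76) (nat_lit 7175136239) (nat_lit 0) (nat_lit 3938474076) (nat_lit 1748) (nat_lit 7683608772) (nat_lit 349) (nat_lit 5) (nat_lit 348) (nat_lit 5) (nat_lit 371) (nat_lit 5) (nat_lit 467) (nat_lit 445) (nat_lit 228)) (XT.lf (nat_lit 0) (nat_lit 12479617643) (nat_lit 1672) (nat_lit 2860675116) (nat_lit 1748) (nat_lit 3660388389) (nat_lit 349) (nat_lit 5) (nat_lit 371) (nat_lit 5) (nat_lit 372) (nat_lit 5) (nat_lit 468) (nat_lit 445) (nat_lit 227)))))) (XT.nd (nat_lit 546) (nat_lit 2356) (nat_lit 0) (XT.nd (nat_lit 234) (nat_lit 1900) (nat_lit 0) (XT.nd (nat_lit 78) (nat_lit 1596) (nat_lit 0) (XT.lf (nat_lit 76) (nat_lit 6126262855) (nat_lit 0) (nat_lit 7807682395) (nat_lit 1748) (nat_lit 5273052079) (nat_lit 350) (nat_lit 5) (nat_lit 349) (nat_lit 5) (nat_lit 372) (nat_lit 5) (nat_lit 469) (nat_lit 445) (nat_lit 226)) (XT.nd (nat_lit 78) (nat_lit 1596) (nat_lit 0) (XT.lf (nat_lit 76)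 (nat_lit 15327780515) (nat_lit 0) (nat_lit 103986995) (nat_lit 1748) (nat_lit 3985388948) (nat_lit 350) (nat_lit 5) (nat_lit 349) (nat_lit 5) (nat_lit 372) (nat_lit 5) (nat_lit 470) (nat_lit 445) (nat_lit 225)) (XT.lf (nat_lit 0) (nat_lit 5094316837) (nat_lit 1672) (nat_lit 11943958541) (nat_lit 1748) (nat_lit 2591673500) (nat_lit 328) (nat_lit 5) (nat_lit 350) (nat_lit 5) (nat_lit 351) (nat_lit 5) (nat_lit 471) (nat_lit 445) (nat_lit 224)))) (XT.nd (nat_lit 156) (nat_lit 836) (nat_lit 0) (XT.nd (nat_lit 78) (nat_lit 1064) (nat_lit 0) (XT.lf (nat_lit 0) (nat_lit 14512481205) (nat_lit 1672) (nat_lit 4187935356) (nat_lit 1748) (nat_lit 1146115123) (nat_lit 328) (nat_lit 5) (nat_lit 350) (nat_lit 5) (nat_lit 351) (nat_lit 5) (nat_lit 472) (nat_lit 445) (nat_lit 223)) (XT.lf (nat_lit 0) (nat_lit 370464590) (nat_lit 1064) (nat_lit 15992066523) (nat_lit 76) (nat_lit 3703948484) (nat_lit 314) (nat_lit 5) (nat_lit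 328) (nat_lit 5) (nat_lit 315) (nat_lit 5) (nat_lit 473) (nat_lit 445) (nat_lit 222))) (XT.nd (nat_lit 78) (nat_lit 836) (nat_lit 0) (XT.lf (nat_lit 0) (nat_lit 1961311256) (nat_lit 1064) (nat_lit 6586319532) (nat_lit 76) (nat_lit 11741862861) (nat_lit 314) (nat_lit 5) (nat_lit 328) (nat_lit 5) (nat_lit 315) (nat_lit 5) (nat_lit 474) (nat_lit 445) (nat_lit 221)) (XT.lf (nat_lit 0) (nat_lit 3043539930) (nat_lit 836) (nat_lit 555785299) (nat_lit 912) (nat_lit 16917339997) (nat_lit 303) (nat_lit 5) (nat_lit 314) (nat_lit 5) (nat_lit 315) (nat_lit 5) (nat_lit 475) (nat_lit 445) (nat_lit 220))))) (XT.nd (nat_lit 234) (nat_lit 1520) (nat_lit 0) (XT.nd (nat_lit 78) (nat_lit 836) (nat_lit 0) (XT.lf (nat_lit 0) (nat_lit 5359561308) (nat_lit 912) (nat_lit 7845818071) (nat_lit 76) (nat_lit 7541215784) (nat_lit 303) (nat_lit 5) (nat_lit 315) (nat_lit 5) (nat_lit 304) (nat_lit 5) (nat_lit 476) (nat_lit 445) (nat_lit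 219)) (XT.nd (nat_lit 78) (nat_lit 0) (nat_lit 0) (XT.lf (nat_lit 0) (nat_lit 1992578442) (nat_lit 836) (nat_lit 5174780575) (nat_lit 912) (nat_lit 13813521628) (nat_lit 292) (nat_lit 5) (nat_lit 303) (nat_lit 5) (nat_lit 304) (nat_lit 5) (nat_lit 477) (nat_lit 445) (nat_lit 218)) (XT.lf (nat_lit 0) (nat_lit 9079695066) (nat_lit 912) (nat_lit 9108610761) (nat_lit 76) (nat_lit 3030182367) (nat_lit 292) (nat_lit 5) (nat_lit 304) (nat_lit 5) (nat_lit 293) (nat_lit 5) (nat_lit 478) (nat_lit 445) (nat_lit 217)))) (XT.nd (nat_lit 156) (nat_lit 760) (nat_lit 0) (XT.nd (nat_lit 78) (nat_lit 0) (nat_lit 0) (XT.lf (nat_lit 0) (nat_lit 942874731) (nat_lit 760) (nat_lit 10123676781) (nat_lit 836) (nat_lit 10393574834) (nat_lit 282) (nat_lit 5) (nat_lit 292) (nat_lit 5) (nat_lit 293) (nat_lit 5) (nat_lit 479) (nat_lit 445) (nat_lit 216)) (XT.lf (nat_lit 0) (nat_lit 11314989501) (nat_lit 760) (nat_lit 1835216622) (nat_lit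 836) (nat_lit 8555253767) (nat_lit 282) (nat_lit 5) (nat_lit 292) (nat_lit 5) (nat_lit 293) (nat_lit 5) (nat_lit 480) (nat_lit 445) (nat_lit 215))) (XT.nd (nat_lit 78) (nat_lit 760) (nat_lit 0) (XT.lf (nat_lit 0) (nat_lit 15314527191) (nat_lit 836) (nat_lit 108007382) (nat_lit 76) (nat_lit 6532389437) (nat_lit 282) (nat_lit 5) (nat_lit 293) (nat_lit 5) (nat_lit 283) (nat_lit 5) (nat_lit 481) (nat_lit 445) (nat_lit 214)) (XT.lf (nat_lit 0) (nat_lit 10501882442) (nat_lit 760) (nat_lit 7096687594) (nat_lit 836) (nat_lit 4609282371) (nat_lit 272) (nat_lit 5) (nat_lit 282) (nat_lit 5) (nat_lit 283) (nat_lit 5) (nat_lit 482) (nat_lit 445) (nat_lit 213))))))))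
noncomputable def xc232 : XT := (XT.nd (nat_lit 2106) (nat_lit 76) (nat_lit 0) (XT.nd (nat_lit 1014) (nat_lit 3952) (nat_lit 0) (XT.nd (nat_lit 468) (nat_lit 2052) (nat_lit 0) (XT.nd (nat_lit 234) (nat_lit 1444) (nat_lit 0) (XT.nd (nat_lit 78) (nat_lit 760) (nat_lit 0) (XT.lf (nat_lit 0) (nat_lit 19934233889) (nat_lit 836) (nat_lit 1153316086) (nat_lit 76) (nat_lit 1378174219) (nat_lit 272) (nat_lit 5) (nat_lit 283) (nat_lit 5) (nat_lit 273) (nat_lit 5) (nat_lit 483) (nat_lit 445) (nat_lit 212)) (XT.nd (nat_lit 78) (nat_lit 76) (nat_lit 0) (XT.lf (nat_lit 0) (nat_lit 9686651898) (nat_lit 684) (nat_lit 12736073641) (nat_lit 760) (nat_lit 303909144) (nat_lit 263) (nat_lit 5) (nat_lit 272) (nat_lit 5) (nat_lit 273) (nat_lit 5) (nat_lit 484) (nat_lit 445) (nat_lit 211)) (XT.lf (nat_lit 0) (nat_lit 1946446579) (nat_lit 760) (nat_lit 2250197757) (nat_lit 76) (nat_lit 18795786152) (nat_lit 262) (nat_lit 5) (nat_lit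 272) (nat_lit 5) (nat_lit 263) (nat_lit 5) (nat_lit 485) (nat_lit 445) (nat_lit 210)))) (XT.nd (nat_lit 78) (nat_lit 684) (nat_lit 0) (XT.lf (nat_lit 0) (nat_lit 4321326089) (nat_lit 836) (nat_lit 14426215491) (nat_lit 76) (nat_lit 4514292084) (nat_lit 252) (nat_lit 5) (nat_lit 263) (nat_lit 5) (nat_lit 253) (nat_lit 5) (nat_lit 486) (nat_lit 445) (nat_lit 209)) (XT.nd (nat_lit 78) (nat_lit 684) (nat_lit 0) (XT.lf (nat_lit 0) (nat_lit 6783062634) (nat_lit 836) (nat_lit 3394350535) (nat_lit 76) (nat_lit 13358427830) (nat_lit 252) (nat_lit 5) (nat_lit 263) (nat_lit 5) (nat_lit 253) (nat_lit 5) (nat_lit 487) (nat_lit 445) (nat_lit 208)) (XT.lf (nat_lit 0) (nat_lit 7958819608) (nat_lit 684) (nat_lit 1383326557) (nat_lit 760) (nat_lit 14472223290) (nat_lit 243) (nat_lit 5) (nat_lit 252) (nat_lit 5) (nat_lit 253) (nat_lit 5) (nat_lit 488) (nat_lit 445) (nat_lit 207))))) (XT.nd (nat_lit 234) (nat_lit 1368) (nat_lit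 0) (XT.nd (nat_lit 78) (nat_lit 684) (nat_lit 0) (XT.lf (nat_lit 0) (nat_lit 12021080687) (nat_lit 760) (nat_lit 4566118192) (nat_lit 76) (nat_lit 7509899374) (nat_lit 243) (nat_lit 5) (nat_lit 253) (nat_lit 5) (nat_lit 244) (nat_lit 5) (nat_lit 489) (nat_lit 445) (nat_lit 206)) (XT.nd (nat_lit 78) (nat_lit 0) (nat_lit 0) (XT.lf (nat_lit 0) (nat_lit 7028432522) (nat_lit 684) (nat_lit 7776507765) (nat_lit 760) (nat_lit 9579517507) (nat_lit 234) (nat_lit 5) (nat_lit 243) (nat_lit 5) (nat_lit 244) (nat_lit 5) (nat_lit 490) (nat_lit 445) (nat_lit 205)) (XT.lf (nat_lit 0) (nat_lit 17679773938) (nat_lit 760) (nat_lit 5771976944) (nat_lit 76) (nat_lit 1225110742) (nat_lit 234) (nat_lit 5) (nat_lit 244) (nat_lit 5) (nat_lit 235) (nat_lit 5) (nat_lit 491) (nat_lit 445) (nat_lit 204)))) (XT.nd (nat_lit 156) (nat_lit 760) (nat_lit 0) (XT.nd (nat_lit 78) (nat_lit 0) (nat_lit 0) (XT.lf (nat_lit 0) (nat_lit 6068177935)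 (nat_lit 608) (nat_lit 14631485974) (nat_lit 684) (nat_lit 4273701404) (nat_lit 226) (nat_lit 5) (nat_lit 234) (nat_lit 5) (nat_lit 235) (nat_lit 5) (nat_lit 492) (nat_lit 445) (nat_lit 203)) (XT.lf (nat_lit 0) (nat_lit 18219741046) (nat_lit 608) (nat_lit 5595646464) (nat_lit 684) (nat_lit 1459705766) (nat_lit 226) (nat_lit 5) (nat_lit 234) (nat_lit 5) (nat_lit 235) (nat_lit 5) (nat_lit 493) (nat_lit 445) (nat_lit 202))) (XT.nd (nat_lit 78) (nat_lit 0) (nat_lit 0) (XT.lf (nat_lit 0) (nat_lit 1445617355) (nat_lit 760) (nat_lit 20520459621) (nat_lit 76) (nat_lit 3615527511) (nat_lit 216) (nat_lit 5) (nat_lit 226) (nat_lit 5) (nat_lit 217) (nat_lit 5) (nat_lit 494) (nat_lit 445) (nat_lit 201)) (XT.lf (nat_lit 0) (nat_lit 4471017097) (nat_lit 760) (nat_lit 8428378934) (nat_lit 76) (nat_lit 12993029353) (nat_lit 216) (nat_lit 5) (nat_lit 226) (nat_lit 5) (nat_lit 217) (nat_lit 5) (nat_lit 495) (nat_lit 445)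 (nat_lit 200)))))) (XT.nd (nat_lit 546) (nat_lit 1520) (nat_lit 0) (XT.nd (nat_lit 234) (nat_lit 1216) (nat_lit 0) (XT.nd (nat_lit 78) (nat_lit 608) (nat_lit 0) (XT.lf (nat_lit 0) (nat_lit 3953818754) (nat_lit 608) (nat_lit 3625621416) (nat_lit 684) (nat_lit 18629574918) (nat_lit 208) (nat_lit 5) (nat_lit 216) (nat_lit 5) (nat_lit 217) (nat_lit 5) (nat_lit 496) (nat_lit 445) (nat_lit 199)) (XT.nd (nat_lit 78) (nat_lit 608) (nat_lit 0) (XT.lf (nat_lit 0) (nat_lit 10841721369) (nat_lit 684) (nat_lit 9874764693) (nat_lit 76) (nat_lit 5813619373) (nat_lit 208) (nat_lit 5) (nat_lit 217) (nat_lit 5) (nat_lit 209) (nat_lit 5) (nat_lit 497) (nat_lit 445) (nat_lit 198)) (XT.lf (nat_lit 0) (nat_lit 2761940912) (nat_lit 608) (nat_lit 11446191990) (nat_lit 684) (nat_lit 12648709583) (nat_lit 200) (nat_lit 5) (nat_lit 208) (nat_lit 5) (nat_lit 209) (nat_lit 5) (nat_lit 498) (nat_lit 445) (nat_lit 197)))) (XT.nd (nat_lit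 156) (nat_lit 684) (nat_lit 0) (XT.nd (nat_lit 78) (nat_lit 532) (nat_lit 0) (XT.lf (nat_lit 0) (nat_lit 15781711721) (nat_lit 608) (nat_lit 1923404525) (nat_lit 684) (nat_lit 9483735698) (nat_lit 200) (nat_lit 5) (nat_lit 208) (nat_lit 5) (nat_lit 209) (nat_lit 5) (nat_lit 499) (nat_lit 445) (nat_lit 196)) (XT.lf (nat_lit 0) (nat_lit 1499958399) (nat_lit 532) (nat_lit 19829431133) (nat_lit 608) (nat_lit 6196967543) (nat_lit 193) (nat_lit 5) (nat_lit 200) (nat_lit 5) (nat_lit 201) (nat_lit 5) (nat_lit 500) (nat_lit 445) (nat_lit 195))) (XT.nd (nat_lit 78) (nat_lit 684) (nat_lit 0) (XT.lf (nat_lit 0) (nat_lit 14803428462) (nat_lit 532) (nat_lit 10308991948) (nat_lit 608) (nat_lit 2756468899) (nat_lit 193) (nat_lit 5) (nat_lit 200) (nat_lit 5) (nat_lit 201) (nat_lit 5) (nat_lit 501) (nat_lit 445) (nat_lit 194)) (XT.lf (nat_lit 0) (nat_lit 148290024) (nat_lit 608) (nat_lit 592745157) (nat_lit 684) (nat_lit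 27477180211) (nat_lit 184) (nat_lit 5) (nat_lit 192) (nat_lit 5) (nat_lit 193) (nat_lit 5) (nat_lit 502) (nat_lit 445) (nat_lit 193))))) (XT.nd (nat_lit 234) (nat_lit 988) (nat_lit 0) (XT.nd (nat_lit 78) (nat_lit 532) (nat_lit 0) (XT.lf (nat_lit 0) (nat_lit 4417505926) (nat_lit 684) (nat_lit 14852181274) (nat_lit 76) (nat_lit 9301560178) (nat_lit 184) (nat_lit 5) (nat_lit 193) (nat_lit 5) (nat_lit 185) (nat_lit 5) (nat_lit 503) (nat_lit 445) (nat_lit 192)) (XT.nd (nat_lit 78) (nat_lit 532) (nat_lit 0) (XT.lf (nat_lit 0) (nat_lit 8168624620) (nat_lit 684) (nat_lit 1377434788) (nat_lit 76) (nat_lit 19385260480) (nat_lit 184) (nat_lit 5) (nat_lit 193) (nat_lit 5) (nat_lit 185) (nat_lit 5) (nat_lit 504) (nat_lit 445) (nat_lit 191)) (XT.lf (nat_lit 0) (nat_lit 12076302517) (nat_lit 608) (nat_lit 16772224084) (nat_lit 76) (nat_lit 448438723) (nat_lit 177) (nat_lit 5) (nat_lit 185) (nat_lit 5) (nat_lit 178)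 (nat_lit 5) (nat_lit 505) (nat_lit 445) (nat_lit 190)))) (XT.nd (nat_lit 156) (nat_lit 456) (nat_lit 0) (XT.nd (nat_lit 78) (nat_lit 532) (nat_lit 0) (XT.lf (nat_lit 0) (nat_lit 16131933817) (nat_lit 608) (nat_lit 3012776941) (nat_lit 76) (nat_lit 10523819078) (nat_lit 177) (nat_lit 5) (nat_lit 185) (nat_lit 5) (nat_lit 178) (nat_lit 5) (nat_lit 506) (nat_lit 445) (nat_lit 189)) (XT.lf (nat_lit 0) (nat_lit 11164965884) (nat_lit 532) (nat_lit 9173532011) (nat_lit 608) (nat_lit 9707633467) (nat_lit 170) (nat_lit 5) (nat_lit 177) (nat_lit 5) (nat_lit 178) (nat_lit 5) (nat_lit 507) (nat_lit 445) (nat_lit 188))) (XT.nd (nat_lit 78) (nat_lit 456) (nat_lit 0) (XT.lf (nat_lit 0) (nat_lit 24653374509) (nat_lit 608) (nat_lit 4773738048) (nat_lit 76) (nat_lit 1003690820) (nat_lit 170) (nat_lit 5) (nat_lit 178) (nat_lit 5) (nat_lit 171) (nat_lit 5) (nat_lit 508) (nat_lit 445) (nat_lit 187)) (XT.lf (nat_lit 0) (nat_lit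 9678737690) (nat_lit 456) (nat_lit 19496811856) (nat_lit 532) (nat_lit 1645201310) (nat_lit 164) (nat_lit 5) (nat_lit 170) (nat_lit 5) (nat_lit 171) (nat_lit 5) (nat_lit 509) (nat_lit 445) (nat_lit 186))))))) (XT.nd (nat_lit 55302) (nat_lit 0) (nat_lit 13756) (XT.nd (nat_lit 54756) (nat_lit 0) (nat_lit 13756) (XT.nd (nat_lit 54522) (nat_lit 0) (nat_lit 15124) (XT.nd (nat_lit 54366) (nat_lit 0) (nat_lit 15124) (XT.lf (nat_lit 0) (nat_lit 2565634460) (nat_lit 532) (nat_lit 6753081937) (nat_lit 76) (nat_lit 21898855864) (nat_lit 163) (nat_lit 5) (nat_lit 170) (nat_lit 5) (nat_lit 164) (nat_lit 5) (nat_lit 510) (nat_lit 445) (nat_lit 185)) (XT.nd (nat_lit 78) (nat_lit 0) (nat_lit 0) (XT.lf (nat_lit 0) (nat_lit 2731740107) (nat_lit 0) (nat_lit 2731740107) (nat_lit 1596) (nat_lit 2201651128) (nat_lit 362) (nat_lit 5) (nat_lit 362) (nat_lit 3) (nat_lit 383) (nat_lit 3) (nat_lit 446) (nat_lit 446) (nat_lit 248))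 (XT.lf (nat_lit 0) (nat_lit 11310932386) (nat_lit 1596) (nat_lit 3099421654) (nat_lit 1672) (nat_lit 1067435155) (nat_lit 362) (nat_lit 5) (nat_lit 383) (nat_lit 3) (nat_lit 384) (nat_lit 5) (nat_lit 447) (nat_lit 446) (nat_lit 247)))) (XT.nd (nat_lit 78) (nat_lit 0) (nat_lit 0) (XT.lf (nat_lit 76) (nat_lit 3813437014) (nat_lit 0) (nat_lit 7943089577) (nat_lit 1672) (nat_lit 3870668190) (nat_lit 363) (nat_lit 5) (nat_lit 362) (nat_lit 5) (nat_lit 384) (nat_lit 5) (nat_lit 448) (nat_lit 446) (nat_lit 246)) (XT.nd (nat_lit 78) (nat_lit 0) (nat_lit 76) (XT.lf (nat_lit 76) (nat_lit 10902909265) (nat_lit 0) (nat_lit 1322037106) (nat_lit 1672) (nat_lit 3554371086) (nat_lit 363) (nat_lit 5) (nat_lit 362) (nat_lit 5) (nat_lit 384) (nat_lit 5) (nat_lit 449) (nat_lit 446) (nat_lit 245)) (XT.lf (nat_lit 76) (nat_lit 2189390108) (nat_lit 0) (nat_lit 10556094388) (nat_lit 1672) (nat_lit 3188150205) (nat_lit 364) (nat_lit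 5) (nat_lit 363) (nat_lit 5) (nat_lit 385) (nat_lit 5) (nat_lit 450) (nat_lit 446) (nat_lit 244))))) (XT.nd (nat_lit 234) (nat_lit 1444) (nat_lit 0) (XT.nd (nat_lit 78) (nat_lit 0) (nat_lit 76) (XT.lf (nat_lit 76) (nat_lit 9450010445) (nat_lit 0) (nat_lit 3861222080) (nat_lit 1672) (nat_lit 2779116752) (nat_lit 364) (nat_lit 5) (nat_lit 363) (nat_lit 5) (nat_lit 385) (nat_lit 5) (nat_lit 451) (nat_lit 446) (nat_lit 243)) (XT.nd (nat_lit 78) (nat_lit 0) (nat_lit 0) (XT.lf (nat_lit 76) (nat_lit 590314355) (nat_lit 0) (nat_lit 13314607713) (nat_lit 1672) (nat_lit 2344950382) (nat_lit 365) (nat_lit 5) (nat_lit 364) (nat_lit 5) (nat_lit 386) (nat_lit 5) (nat_lit 452) (nat_lit 446) (nat_lit 242)) (XT.lf (nat_lit 76) (nat_lit 8025900873) (nat_lit 0) (nat_lit 6548176410) (nat_lit 1672) (nat_lit 1837243666) (nat_lit 365) (nat_lit 5) (nat_lit 364) (nat_lit 5) (nat_lit 386) (nat_lit 5) (nat_lit 453) (nat_lit 446)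 (nat_lit 241)))) (XT.nd (nat_lit 156) (nat_lit 1596) (nat_lit 0) (XT.nd (nat_lit 78) (nat_lit 0) (nat_lit 0) (XT.lf (nat_lit 0) (nat_lit 15252681652) (nat_lit 1596) (nat_lit 971949295) (nat_lit 1672) (nat_lit 351452720) (nat_lit 365) (nat_lit 5) (nat_lit 386) (nat_lit 5) (nat_lit 387) (nat_lit 5) (nat_lit 454) (nat_lit 446) (nat_lit 240)) (XT.lf (nat_lit 76) (nat_lit 6629595102) (nat_lit 0) (nat_lit 9395564641) (nat_lit 1672) (nat_lit 717382306) (nat_lit 366) (nat_lit 5) (nat_lit 365) (nat_lit 5) (nat_lit 387) (nat_lit 5) (nat_lit 455) (nat_lit 446) (nat_lit 239))) (XT.nd (nat_lit 78) (nat_lit 1596) (nat_lit 0) (XT.lf (nat_lit 76) (nat_lit 14392591553) (nat_lit 0) (nat_lit 2421006017) (nat_lit 1672) (nat_lit 98728139) (nat_lit 366) (nat_lit 5) (nat_lit 365) (nat_lit 5) (nat_lit 387) (nat_lit 5) (nat_lit 456) (nat_lit 446) (nat_lit 238)) (XT.lf (nat_lit 0) (nat_lit 584442988) (nat_lit 1672) (nat_lit 11828141209)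 (nat_lit 1748) (nat_lit 4671675292) (nat_lit 344) (nat_lit 5) (nat_lit 366) (nat_lit 5) (nat_lit 367) (nat_lit 5) (nat_lit 457) (nat_lit 446) (nat_lit 237)))))) (XT.nd (nat_lit 546) (nat_lit 0) (nat_lit 228) (XT.nd (nat_lit 234) (nat_lit 0) (nat_lit 76) (XT.nd (nat_lit 78) (nat_lit 0) (nat_lit 76) (XT.lf (nat_lit 0) (nat_lit 1307177151) (nat_lit 1672) (nat_lit 4058326365) (nat_lit 1748) (nat_lit 11893576896) (nat_lit 344) (nat_lit 5) (nat_lit 366) (nat_lit 5) (nat_lit 367) (nat_lit 5) (nat_lit 458) (nat_lit 446) (nat_lit 236)) (XT.nd (nat_lit 78) (nat_lit 0) (nat_lit 0) (XT.lf (nat_lit 0) (nat_lit 2076075644) (nat_lit 1672) (nat_lit 13534601351) (nat_lit 1748) (nat_lit 1826092399) (nat_lit 345) (nat_lit 5) (nat_lit 367) (nat_lit 5) (nat_lit 368) (nat_lit 5) (nat_lit 459) (nat_lit 446) (nat_lit 235)) (XT.lf (nat_lit 0) (nat_lit 2917679630) (nat_lit 1672) (nat_lit 5580203385) (nat_lit 1748) (nat_lit 9118988311)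 (nat_lit 345) (nat_lit 5) (nat_lit 367) (nat_lit 5) (nat_lit 368) (nat_lit 5) (nat_lit 460) (nat_lit 446) (nat_lit 234)))) (XT.nd (nat_lit 156) (nat_lit 0) (nat_lit 76) (XT.nd (nat_lit 78) (nat_lit 0) (nat_lit 76) (XT.lf (nat_lit 76) (nat_lit 2563067802) (nat_lit 0) (nat_lit 1224179742) (nat_lit 1748) (nat_lit 14013110721) (nat_lit 346) (nat_lit 5) (nat_lit 345) (nat_lit 5) (nat_lit 368) (nat_lit 5) (nat_lit 461) (nat_lit 446) (nat_lit 233)) (XT.lf (nat_lit 0) (nat_lit 4746707503) (nat_lit 1672) (nat_lit 7086319685) (nat_lit 1748) (nat_lit 6153043240) (nat_lit 346) (nat_lit 5) (nat_lit 368) (nat_lit 5) (nat_lit 369) (nat_lit 5) (nat_lit 462) (nat_lit 446) (nat_lit 232))) (XT.nd (nat_lit 78) (nat_lit 0) (nat_lit 76) (XT.lf (nat_lit 76) (nat_lit 1231867381) (nat_lit 0) (nat_lit 4504285277) (nat_lit 1748) (nat_lit 12439133645) (nat_lit 347) (nat_lit 5) (nat_lit 346) (nat_lit 5) (nat_lit 369) (nat_lit 5)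 (nat_lit 463) (nat_lit 446) (nat_lit 231)) (XT.lf (nat_lit 0) (nat_lit 6807323594) (nat_lit 1672) (nat_lit 8578410936) (nat_lit 1748) (nat_lit 2981318513) (nat_lit 347) (nat_lit 5) (nat_lit 369) (nat_lit 5) (nat_lit 370) (nat_lit 5) (nat_lit 464) (nat_lit 446) (nat_lit 230))))) (XT.nd (nat_lit 234) (nat_lit 0) (nat_lit 76) (XT.nd (nat_lit 78) (nat_lit 0) (nat_lit 0) (XT.lf (nat_lit 0) (nat_lit 7924629137) (nat_lit 1672) (nat_lit 79800914) (nat_lit 1748) (nat_lit 10557736021) (nat_lit 347) (nat_lit 5) (nat_lit 369) (nat_lit 5) (nat_lit 370) (nat_lit 5) (nat_lit 465) (nat_lit 446) (nat_lit 229)) (XT.nd (nat_lit 78) (nat_lit 0) (nat_lit 76) (XT.lf (nat_lit 76) (nat_lit 8699078719) (nat_lit 0) (nat_lit 416664109) (nat_lit 1748) (nat_lit 9644414374) (nat_lit 348) (nat_lit 5) (nat_lit 347) (nat_lit 5) (nat_lit 370) (nat_lit 5) (nat_lit 466) (nat_lit 446) (nat_lit 228)) (XT.lf (nat_lit 0) (nat_lit 10373826113)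 (nat_lit 1672) (nat_lit 1358907288) (nat_lit 1748) (nat_lit 7228516785) (nat_lit 348) (nat_lit 5) (nat_lit 370) (nat_lit 5) (nat_lit 371) (nat_lit 5) (nat_lit 467) (nat_lit 446) (nat_lit 227)))) (XT.nd (nat_lit 156) (nat_lit 0) (nat_lit 76) (XT.nd (nat_lit 78) (nat_lit 0) (nat_lit 76) (XT.lf (nat_lit 76) (nat_lit 7610558751) (nat_lit 0) (nat_lit 4093844688) (nat_lit 1748) (nat_lit 7461019825) (nat_lit 349) (nat_lit 5) (nat_lit 348) (nat_lit 5) (nat_lit 371) (nat_lit 5) (nat_lit 468) (nat_lit 446) (nat_lit 226)) (XT.lf (nat_lit 0) (nat_lit 13090017420) (nat_lit 1672) (nat_lit 2623616720) (nat_lit 1748) (nat_lit 3659481947) (nat_lit 349) (nat_lit 5) (nat_lit 371) (nat_lit 5) (nat_lit 372) (nat_lit 5) (nat_lit 469) (nat_lit 446) (nat_lit 225))) (XT.nd (nat_lit 78) (nat_lit 0) (nat_lit 0) (XT.lf (nat_lit 76) (nat_lit 6541124012) (nat_lit 0) (nat_lit 8027130951) (nat_lit 1748) (nat_lit 5015414271) (nat_lit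 350) (nat_lit 5) (nat_lit 349) (nat_lit 5) (nat_lit 372) (nat_lit 5) (nat_lit 470) (nat_lit 446) (nat_lit 224)) (XT.lf (nat_lit 76) (nat_lit 15920939949) (nat_lit 0) (nat_lit 168120566) (nat_lit 1748) (nat_lit 3709117462) (nat_lit 350) (nat_lit 5) (nat_lit 349) (nat_lit 5) (nat_lit 372) (nat_lit 5) (nat_lit 471) (nat_lit 446) (nat_lit 223))))))))
noncomputable def xc233 : XT := (XT.nd (nat_lit 2106) (nat_lit 2888) (nat_lit 0) (XT.nd (nat_lit 1014) (nat_lit 4864) (nat_lit 0) (XT.nd (nat_lit 468) (nat_lit 2356) (nat_lit 0) (XT.nd (nat_lit 234) (nat_lit 836) (nat_lit 0) (XT.nd (nat_lit 78) (nat_lit 1064) (nat_lit 0) (XT.lf (nat_lit 0) (nat_lit 5488595132) (nat_lit 1672) (nat_lit 12233770392) (nat_lit 1748) (nat_lit 2292974214) (nat_lit 328) (nat_lit 5) (nat_lit 350) (nat_lit 5) (nat_lit 351) (nat_lit 5) (nat_lit 472) (nat_lit 446) (nat_lit 222)) (XT.nd (nat_lit 78) (nat_lit 1064) (nat_lit 0) (XT.lf (nat_lit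 0) (nat_lit 15089389611) (nat_lit 1672) (nat_lit 4321628063) (nat_lit 1748) (nat_lit 825377861) (nat_lit 328) (nat_lit 5) (nat_lit 350) (nat_lit 5) (nat_lit 351) (nat_lit 5) (nat_lit 473) (nat_lit 446) (nat_lit 221)) (XT.lf (nat_lit 0) (nat_lit 711965455) (nat_lit 1064) (nat_lit 16015030800) (nat_lit 76) (nat_lit 3733809181) (nat_lit 314) (nat_lit 5) (nat_lit 328) (nat_lit 5) (nat_lit 315) (nat_lit 5) (nat_lit 474) (nat_lit 446) (nat_lit 220)))) (XT.nd (nat_lit 78) (nat_lit 836) (nat_lit 0) (XT.lf (nat_lit 0) (nat_lit 2328078239) (nat_lit 1064) (nat_lit 6426989988) (nat_lit 76) (nat_lit 11933348871) (nat_lit 314) (nat_lit 5) (nat_lit 328) (nat_lit 5) (nat_lit 315) (nat_lit 5) (nat_lit 475) (nat_lit 446) (nat_lit 219)) (XT.nd (nat_lit 78) (nat_lit 0) (nat_lit 0) (XT.lf (nat_lit 0) (nat_lit 3393551822) (nat_lit 836) (nat_lit 600755598) (nat_lit 912) (nat_lit 16925921776) (nat_lit 303) (nat_lit 5) (nat_lit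 314) (nat_lit 5) (nat_lit 315) (nat_lit 5) (nat_lit 476) (nat_lit 446) (nat_lit 218)) (XT.lf (nat_lit 0) (nat_lit 5783199475) (nat_lit 912) (nat_lit 7712410674) (nat_lit 76) (nat_lit 7659284625) (nat_lit 303) (nat_lit 5) (nat_lit 315) (nat_lit 5) (nat_lit 304) (nat_lit 5) (nat_lit 477) (nat_lit 446) (nat_lit 217))))) (XT.nd (nat_lit 234) (nat_lit 760) (nat_lit 0) (XT.nd (nat_lit 78) (nat_lit 760) (nat_lit 0) (XT.lf (nat_lit 0) (nat_lit 2320843745) (nat_lit 836) (nat_lit 5301977125) (nat_lit 912) (nat_lit 13771137689) (nat_lit 292) (nat_lit 5) (nat_lit 303) (nat_lit 5) (nat_lit 304) (nat_lit 5) (nat_lit 478) (nat_lit 446) (nat_lit 216)) (XT.nd (nat_lit 78) (nat_lit 760) (nat_lit 0) (XT.lf (nat_lit 0) (nat_lit 9567132879) (nat_lit 912) (nat_lit 9001462080) (nat_lit 76) (nat_lit 3067854547) (nat_lit 292) (nat_lit 5) (nat_lit 304) (nat_lit 5) (nat_lit 293) (nat_lit 5) (nat_lit 479) (nat_lit 446) (nat_lit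 215)) (XT.lf (nat_lit 0) (nat_lit 1249149696) (nat_lit 760) (nat_lit 10340445924) (nat_lit 836) (nat_lit 10293413135) (nat_lit 282) (nat_lit 5) (nat_lit 292) (nat_lit 5) (nat_lit 293) (nat_lit 5) (nat_lit 480) (nat_lit 446) (nat_lit 214)))) (XT.nd (nat_lit 156) (nat_lit 0) (nat_lit 0) (XT.nd (nat_lit 78) (nat_lit 760) (nat_lit 0) (XT.lf (nat_lit 0) (nat_lit 11823071125) (nat_lit 760) (nat_lit 1885936255) (nat_lit 836) (nat_lit 8424365513) (nat_lit 282) (nat_lit 5) (nat_lit 292) (nat_lit 5) (nat_lit 293) (nat_lit 5) (nat_lit 481) (nat_lit 446) (nat_lit 213)) (XT.lf (nat_lit 0) (nat_lit 174542234) (nat_lit 760) (nat_lit 15737316723) (nat_lit 836) (nat_lit 6476067953) (nat_lit 272) (nat_lit 5) (nat_lit 282) (nat_lit 5) (nat_lit 283) (nat_lit 5) (nat_lit 482) (nat_lit 446) (nat_lit 212))) (XT.nd (nat_lit 78) (nat_lit 0) (nat_lit 0) (XT.lf (nat_lit 0) (nat_lit 10992482672) (nat_lit 760) (nat_lit 7244103871)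 (nat_lit 836) (nat_lit 4409432640) (nat_lit 272) (nat_lit 5) (nat_lit 282) (nat_lit 5) (nat_lit 283) (nat_lit 5) (nat_lit 483) (nat_lit 446) (nat_lit 211)) (XT.lf (nat_lit 0) (nat_lit 20613320048) (nat_lit 836) (nat_lit 895413340) (nat_lit 76) (nat_lit 1400433173) (nat_lit 272) (nat_lit 5) (nat_lit 283) (nat_lit 5) (nat_lit 273) (nat_lit 5) (nat_lit 484) (nat_lit 446) (nat_lit 210)))))) (XT.nd (nat_lit 546) (nat_lit 1976) (nat_lit 0) (XT.nd (nat_lit 234) (nat_lit 1368) (nat_lit 0) (XT.nd (nat_lit 78) (nat_lit 836) (nat_lit 0) (XT.lf (nat_lit 0) (nat_lit 10159505522) (nat_lit 684) (nat_lit 12988390176) (nat_lit 760) (nat_lit 27478456) (nat_lit 263) (nat_lit 5) (nat_lit 272) (nat_lit 5) (nat_lit 273) (nat_lit 5) (nat_lit 485) (nat_lit 446) (nat_lit 209)) (XT.nd (nat_lit 78) (nat_lit 760) (nat_lit 0) (XT.lf (nat_lit 0) (nat_lit 2258712487) (nat_lit 760) (nat_lit 2017672718) (nat_lit 76) (nat_lit 19170178298)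 (nat_lit 262) (nat_lit 5) (nat_lit 272) (nat_lit 5) (nat_lit 263) (nat_lit 5) (nat_lit 486) (nat_lit 446) (nat_lit 208)) (XT.lf (nat_lit 0) (nat_lit 4677558624) (nat_lit 836) (nat_lit 14433435868) (nat_lit 76) (nat_lit 4610435748) (nat_lit 252) (nat_lit 5) (nat_lit 263) (nat_lit 5) (nat_lit 253) (nat_lit 5) (nat_lit 487) (nat_lit 446) (nat_lit 207)))) (XT.nd (nat_lit 156) (nat_lit 684) (nat_lit 0) (XT.nd (nat_lit 78) (nat_lit 684) (nat_lit 0) (XT.lf (nat_lit 0) (nat_lit 7183239586) (nat_lit 836) (nat_lit 3186449376) (nat_lit 76) (nat_lit 13631339350) (nat_lit 252) (nat_lit 5) (nat_lit 263) (nat_lit 5) (nat_lit 253) (nat_lit 5) (nat_lit 488) (nat_lit 446) (nat_lit 206)) (XT.lf (nat_lit 0) (nat_lit 8391969774) (nat_lit 684) (nat_lit 1398127252) (nat_lit 760) (nat_lit 14495103157) (nat_lit 243) (nat_lit 5) (nat_lit 252) (nat_lit 5) (nat_lit 253) (nat_lit 5) (nat_lit 489) (nat_lit 446) (nat_lit 205))) (XT.nd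 (nat_lit 78) (nat_lit 684) (nat_lit 0) (XT.lf (nat_lit 0) (nat_lit 12517572370) (nat_lit 760) (nat_lit 4383571045) (nat_lit 76) (nat_lit 7672545497) (nat_lit 243) (nat_lit 5) (nat_lit 253) (nat_lit 5) (nat_lit 244) (nat_lit 5) (nat_lit 490) (nat_lit 446) (nat_lit 204)) (XT.lf (nat_lit 0) (nat_lit 7441068910) (nat_lit 684) (nat_lit 7912785715) (nat_lit 760) (nat_lit 9513010619) (nat_lit 234) (nat_lit 5) (nat_lit 243) (nat_lit 5) (nat_lit 244) (nat_lit 5) (nat_lit 491) (nat_lit 446) (nat_lit 203))))) (XT.nd (nat_lit 234) (nat_lit 1368) (nat_lit 0) (XT.nd (nat_lit 78) (nat_lit 608) (nat_lit 0) (XT.lf (nat_lit 0) (nat_lit 18281350328) (nat_lit 760) (nat_lit 5615627810) (nat_lit 76) (nat_lit 1268240123) (nat_lit 234) (nat_lit 5) (nat_lit 244) (nat_lit 5) (nat_lit 235) (nat_lit 5) (nat_lit 492) (nat_lit 446) (nat_lit 202)) (XT.nd (nat_lit 78) (nat_lit 0) (nat_lit 0) (XT.lf (nat_lit 0) (nat_lit 6459542082) (nat_lit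 608) (nat_lit 14898986668) (nat_lit 684) (nat_lit 4109189794) (nat_lit 226) (nat_lit 5) (nat_lit 234) (nat_lit 5) (nat_lit 235) (nat_lit 5) (nat_lit 493) (nat_lit 446) (nat_lit 201)) (XT.lf (nat_lit 0) (nat_lit 18848842326) (nat_lit 608) (nat_lit 5682923094) (nat_lit 684) (nat_lit 1243815922) (nat_lit 226) (nat_lit 5) (nat_lit 234) (nat_lit 5) (nat_lit 235) (nat_lit 5) (nat_lit 494) (nat_lit 446) (nat_lit 200)))) (XT.nd (nat_lit 156) (nat_lit 608) (nat_lit 0) (XT.nd (nat_lit 78) (nat_lit 0) (nat_lit 0) (XT.lf (nat_lit 0) (nat_lit 1713564821) (nat_lit 760) (nat_lit 20659701133) (nat_lit 76) (nat_lit 3714985771) (nat_lit 216) (nat_lit 5) (nat_lit 226) (nat_lit 5) (nat_lit 217) (nat_lit 5) (nat_lit 495) (nat_lit 446) (nat_lit 199)) (XT.lf (nat_lit 0) (nat_lit 4794785594) (nat_lit 760) (nat_lit 8331095847) (nat_lit 76) (nat_lit 13279505342) (nat_lit 216) (nat_lit 5) (nat_lit 226) (nat_lit 5) (nat_lit 217)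 (nat_lit 5) (nat_lit 496) (nat_lit 446) (nat_lit 198))) (XT.nd (nat_lit 78) (nat_lit 0) (nat_lit 0) (XT.lf (nat_lit 0) (nat_lit 4296996778) (nat_lit 608) (nat_lit 3665500013) (nat_lit 684) (nat_lit 18765873022) (nat_lit 208) (nat_lit 5) (nat_lit 216) (nat_lit 5) (nat_lit 217) (nat_lit 5) (nat_lit 497) (nat_lit 446) (nat_lit 197)) (XT.lf (nat_lit 0) (nat_lit 11285692754) (nat_lit 684) (nat_lit 9808813570) (nat_lit 76) (nat_lit 5961466107) (nat_lit 208) (nat_lit 5) (nat_lit 217) (nat_lit 5) (nat_lit 209) (nat_lit 5) (nat_lit 498) (nat_lit 446) (nat_lit 196))))))) (XT.nd (nat_lit 55536) (nat_lit 0) (nat_lit 13148) (XT.nd (nat_lit 546) (nat_lit 1064) (nat_lit 0) (XT.nd (nat_lit 234) (nat_lit 684) (nat_lit 0) (XT.nd (nat_lit 78) (nat_lit 532) (nat_lit 0) (XT.lf (nat_lit 0) (nat_lit 3078892948) (nat_lit 608) (nat_lit 11637785121) (nat_lit 684) (nat_lit 12672625015) (nat_lit 200) (nat_lit 5) (nat_lit 208) (nat_lit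 5) (nat_lit 209) (nat_lit 5) (nat_lit 499) (nat_lit 446) (nat_lit 195)) (XT.nd (nat_lit 78) (nat_lit 532) (nat_lit 0) (XT.lf (nat_lit 0) (nat_lit 16353927541) (nat_lit 608) (nat_lit 1925273881) (nat_lit 684) (nat_lit 9448843000) (nat_lit 200) (nat_lit 5) (nat_lit 208) (nat_lit 5) (nat_lit 209) (nat_lit 5) (nat_lit 500) (nat_lit 446) (nat_lit 194)) (XT.lf (nat_lit 0) (nat_lit 1789169455) (nat_lit 532) (nat_lit 20184393270) (nat_lit 608) (nat_lit 6098788507) (nat_lit 193) (nat_lit 5) (nat_lit 200) (nat_lit 5) (nat_lit 201) (nat_lit 5) (nat_lit 501) (nat_lit 446) (nat_lit 193)))) (XT.nd (nat_lit 156) (nat_lit 0) (nat_lit 0) (XT.nd (nat_lit 78) (nat_lit 684) (nat_lit 0) (XT.lf (nat_lit 0) (nat_lit 15353626333) (nat_lit 532) (nat_lit 10474361507) (nat_lit 608) (nat_lit 2593835152) (nat_lit 193) (nat_lit 5) (nat_lit 200) (nat_lit 5) (nat_lit 201) (nat_lit 5) (nat_lit 502) (nat_lit 446) (nat_lit 192)) (XT.lf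 (nat_lit 0) (nat_lit 406723528) (nat_lit 608) (nat_lit 561484280) (nat_lit 684) (nat_lit 27809954032) (nat_lit 184) (nat_lit 5) (nat_lit 192) (nat_lit 5) (nat_lit 193) (nat_lit 5) (nat_lit 503) (nat_lit 446) (nat_lit 191))) (XT.nd (nat_lit 78) (nat_lit 0) (nat_lit 0) (XT.lf (nat_lit 0) (nat_lit 4714318651) (nat_lit 684) (nat_lit 14894709579) (nat_lit 76) (nat_lit 9529307371) (nat_lit 184) (nat_lit 5) (nat_lit 193) (nat_lit 5) (nat_lit 185) (nat_lit 5) (nat_lit 504) (nat_lit 446) (nat_lit 190)) (XT.lf (nat_lit 0) (nat_lit 8536372217) (nat_lit 684) (nat_lit 1155458659) (nat_lit 76) (nat_lit 19813863719) (nat_lit 184) (nat_lit 5) (nat_lit 193) (nat_lit 5) (nat_lit 185) (nat_lit 5) (nat_lit 505) (nat_lit 446) (nat_lit 189))))) (XT.nd (nat_lit 234) (nat_lit 0) (nat_lit 0) (XT.nd (nat_lit 78) (nat_lit 532) (nat_lit 0) (XT.lf (nat_lit 0) (nat_lit 12520103791) (nat_lit 608) (nat_lit 16855882891) (nat_lit 76)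 (nat_lit 502711473) (nat_lit 177) (nat_lit 5) (nat_lit 185) (nat_lit 5) (nat_lit 178) (nat_lit 5) (nat_lit 506) (nat_lit 446) (nat_lit 188)) (XT.nd (nat_lit 78) (nat_lit 532) (nat_lit 0) (XT.lf (nat_lit 0) (nat_lit 16652881537) (nat_lit 608) (nat_lit 2826183780) (nat_lit 76) (nat_lit 10778711122) (nat_lit 177) (nat_lit 5) (nat_lit 185) (nat_lit 5) (nat_lit 178) (nat_lit 5) (nat_lit 507) (nat_lit 446) (nat_lit 187)) (XT.lf (nat_lit 0) (nat_lit 11633489897) (nat_lit 532) (nat_lit 9307790748) (nat_lit 608) (nat_lit 9701698370) (nat_lit 170) (nat_lit 5) (nat_lit 177) (nat_lit 5) (nat_lit 178) (nat_lit 5) (nat_lit 508) (nat_lit 446) (nat_lit 186)))) (XT.nd (nat_lit 54600) (nat_lit 0) (nat_lit 14592) (XT.nd (nat_lit 54522) (nat_lit 0) (nat_lit 14592) (XT.lf (nat_lit 0) (nat_lit 25338924654) (nat_lit 608) (nat_lit 4625114619) (nat_lit 76) (nat_lit 1071378833) (nat_lit 170) (nat_lit 5) (nat_lit 178) (nat_lit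 5) (nat_lit 171) (nat_lit 5) (nat_lit 509) (nat_lit 446) (nat_lit 185)) (XT.lf (nat_lit 0) (nat_lit 2919345809) (nat_lit 0) (nat_lit 2919345809) (nat_lit 1596) (nat_lit 1974143279) (nat_lit 362) (nat_lit 5) (nat_lit 362) (nat_lit 3) (nat_lit 383) (nat_lit 3) (nat_lit 447) (nat_lit 447) (nat_lit 246))) (XT.nd (nat_lit 78) (nat_lit 0) (nat_lit 0) (XT.lf (nat_lit 0) (nat_lit 12056912730) (nat_lit 1596) (nat_lit 2888011446) (nat_lit 1672) (nat_lit 831476089) (nat_lit 362) (nat_lit 5) (nat_lit 383) (nat_lit 3) (nat_lit 384) (nat_lit 5) (nat_lit 448) (nat_lit 447) (nat_lit 245)) (XT.lf (nat_lit 76) (nat_lit 4161305721) (nat_lit 0) (nat_lit 8341685099) (nat_lit 1672) (nat_lit 3425982474) (nat_lit 363) (nat_lit 5) (nat_lit 362) (nat_lit 5) (nat_lit 384) (nat_lit 5) (nat_lit 449) (nat_lit 447) (nat_lit 244)))))) (XT.nd (nat_lit 546) (nat_lit 1444) (nat_lit 0) (XT.nd (nat_lit 234) (nat_lit 0) (nat_lit 152) (XT.nd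 (nat_lit 78) (nat_lit 0) (nat_lit 76) (XT.lf (nat_lit 76) (nat_lit 11387241928) (nat_lit 0) (nat_lit 1583510917) (nat_lit 1672) (nat_lit 3113596666) (nat_lit 363) (nat_lit 5) (nat_lit 362) (nat_lit 5) (nat_lit 384) (nat_lit 5) (nat_lit 450) (nat_lit 447) (nat_lit 243)) (XT.nd (nat_lit 78) (nat_lit 0) (nat_lit 0) (XT.lf (nat_lit 76) (nat_lit 2509701393) (nat_lit 0) (nat_lit 10982470084) (nat_lit 1672) (nat_lit 2749782583) (nat_lit 364) (nat_lit 5) (nat_lit 363) (nat_lit 5) (nat_lit 385) (nat_lit 5) (nat_lit 451) (nat_lit 447) (nat_lit 242)) (XT.lf (nat_lit 76) (nat_lit 9910112108) (nat_lit 0) (nat_lit 4149479667) (nat_lit 1672) (nat_lit 2342414159) (nat_lit 364) (nat_lit 5) (nat_lit 363) (nat_lit 5) (nat_lit 385) (nat_lit 5) (nat_lit 452) (nat_lit 447) (nat_lit 241)))) (XT.nd (nat_lit 156) (nat_lit 0) (nat_lit 76) (XT.nd (nat_lit 78) (nat_lit 0) (nat_lit 0) (XT.lf (nat_lit 76) (nat_lit 882883237) (nat_lit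 0) (nat_lit 13773297847) (nat_lit 1672) (nat_lit 1908727920) (nat_lit 365) (nat_lit 5) (nat_lit 364) (nat_lit 5) (nat_lit 386) (nat_lit 5) (nat_lit 453) (nat_lit 447) (nat_lit 240)) (XT.lf (nat_lit 76) (nat_lit 8461676336) (nat_lit 0) (nat_lit 6867765409) (nat_lit 1672) (nat_lit 1400340040) (nat_lit 365) (nat_lit 5) (nat_lit 364) (nat_lit 5) (nat_lit 386) (nat_lit 5) (nat_lit 454) (nat_lit 447) (nat_lit 239))) (XT.nd (nat_lit 78) (nat_lit 0) (nat_lit 0) (XT.lf (nat_lit 0) (nat_lit 16011321790) (nat_lit 1596) (nat_lit 710753271) (nat_lit 1672) (nat_lit 175980193) (nat_lit 365) (nat_lit 5) (nat_lit 386) (nat_lit 5) (nat_lit 387) (nat_lit 5) (nat_lit 455) (nat_lit 447) (nat_lit 238)) (XT.lf (nat_lit 76) (nat_lit 7040975732) (nat_lit 0) (nat_lit 9751189939) (nat_lit 1672) (nat_lit 275828186) (nat_lit 366) (nat_lit 5) (nat_lit 365) (nat_lit 5) (nat_lit 387) (nat_lit 5) (nat_lit 456) (nat_lit 447) (nat_lit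 237))))) (XT.nd (nat_lit 234) (nat_lit 0) (nat_lit 152) (XT.nd (nat_lit 78) (nat_lit 0) (nat_lit 76) (XT.lf (nat_lit 0) (nat_lit 341718554) (nat_lit 1672) (nat_lit 2289839968) (nat_lit 1748) (nat_lit 14609754000) (nat_lit 343) (nat_lit 5) (nat_lit 365) (nat_lit 5) (nat_lit 366) (nat_lit 5) (nat_lit 457) (nat_lit 447) (nat_lit 236)) (XT.nd (nat_lit 78) (nat_lit 0) (nat_lit 0) (XT.lf (nat_lit 0) (nat_lit 1029371131) (nat_lit 1672) (nat_lit 11776765823) (nat_lit 1748) (nat_lit 4610701011) (nat_lit 344) (nat_lit 5) (nat_lit 366) (nat_lit 5) (nat_lit 367) (nat_lit 5) (nat_lit 458) (nat_lit 447) (nat_lit 235)) (XT.lf (nat_lit 0) (nat_lit 1758065089) (nat_lit 1672) (nat_lit 3857200529) (nat_lit 1748) (nat_lit 11980068251) (nat_lit 344) (nat_lit 5) (nat_lit 366) (nat_lit 5) (nat_lit 367) (nat_lit 5) (nat_lit 459) (nat_lit 447) (nat_lit 234)))) (XT.nd (nat_lit 156) (nat_lit 0) (nat_lit 0) (XT.nd (nat_lit 78) (nat_lit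 0) (nat_lit 0) (XT.lf (nat_lit 0) (nat_lit 2534939302) (nat_lit 1672) (nat_lit 13515173997) (nat_lit 1748) (nat_lit 1726619872) (nat_lit 345) (nat_lit 5) (nat_lit 367) (nat_lit 5) (nat_lit 368) (nat_lit 5) (nat_lit 460) (nat_lit 447) (nat_lit 233)) (XT.lf (nat_lit 0) (nat_lit 3385192188) (nat_lit 1672) (nat_lit 5407376686) (nat_lit 1748) (nat_lit 9168040258) (nat_lit 345) (nat_lit 5) (nat_lit 367) (nat_lit 5) (nat_lit 368) (nat_lit 5) (nat_lit 461) (nat_lit 447) (nat_lit 232))) (XT.nd (nat_lit 78) (nat_lit 0) (nat_lit 76) (XT.lf (nat_lit 76) (nat_lit 2896888669) (nat_lit 0) (nat_lit 1369074631) (nat_lit 1748) (nat_lit 13881934441) (nat_lit 346) (nat_lit 5) (nat_lit 345) (nat_lit 5) (nat_lit 368) (nat_lit 5) (nat_lit 462) (nat_lit 447) (nat_lit 231)) (XT.lf (nat_lit 0) (nat_lit 5235944608) (nat_lit 1672) (nat_lit 6941958833) (nat_lit 1748) (nat_lit 6159602067) (nat_lit 346) (nat_lit 5) (nat_lit 368) (nat_lit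 5) (nat_lit 369) (nat_lit 5) (nat_lit 463) (nat_lit 447) (nat_lit 230))))))))
noncomputable def xc234 : XT := (XT.nd (nat_lit 2106) (nat_lit 5548) (nat_lit 0) (XT.nd (nat_lit 1014) (nat_lit 5396) (nat_lit 0) (XT.nd (nat_lit 468) (nat_lit 2432) (nat_lit 0) (XT.nd (nat_lit 234) (nat_lit 0) (nat_lit 76) (XT.nd (nat_lit 78) (nat_lit 0) (nat_lit 76) (XT.lf (nat_lit 76) (nat_lit 1540709822) (nat_lit 0) (nat_lit 4698582663) (nat_lit 1748) (nat_lit 12291338790) (nat_lit 347) (nat_lit 5) (nat_lit 346) (nat_lit 5) (nat_lit 369) (nat_lit 5) (nat_lit 464) (nat_lit 447) (nat_lit 229)) (XT.nd (nat_lit 78) (nat_lit 0) (nat_lit 0) (XT.lf (nat_lit 0) (nat_lit 7323607479) (nat_lit 1672) (nat_lit 8462682626) (nat_lit 1748) (nat_lit 2940116525) (nat_lit 347) (nat_lit 5) (nat_lit 369) (nat_lit 5) (nat_lit 370) (nat_lit 5) (nat_lit 465) (nat_lit 447) (nat_lit 228)) (XT.lf (nat_lit 76) (nat_lit 202927764) (nat_lit 0) (nat_lit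 8254195235) (nat_lit 1748) (nat_lit 10468429187) (nat_lit 348) (nat_lit 5) (nat_lit 347) (nat_lit 5) (nat_lit 370) (nat_lit 5) (nat_lit 466) (nat_lit 447) (nat_lit 227)))) (XT.nd (nat_lit 78) (nat_lit 0) (nat_lit 76) (XT.lf (nat_lit 76) (nat_lit 9152870509) (nat_lit 0) (nat_lit 512380103) (nat_lit 1748) (nat_lit 9462396089) (nat_lit 348) (nat_lit 5) (nat_lit 347) (nat_lit 5) (nat_lit 370) (nat_lit 5) (nat_lit 467) (nat_lit 447) (nat_lit 226)) (XT.nd (nat_lit 78) (nat_lit 0) (nat_lit 0) (XT.lf (nat_lit 0) (nat_lit 10940739479) (nat_lit 1672) (nat_lit 1103643074) (nat_lit 1748) (nat_lit 7288541364) (nat_lit 348) (nat_lit 5) (nat_lit 370) (nat_lit 5) (nat_lit 371) (nat_lit 5) (nat_lit 468) (nat_lit 447) (nat_lit 225)) (XT.lf (nat_lit 76) (nat_lit 8043354112) (nat_lit 0) (nat_lit 4249348198) (nat_lit 1748) (nat_lit 7248589777) (nat_lit 349) (nat_lit 5) (nat_lit 348) (nat_lit 5) (nat_lit 371) (nat_lit 5) (nat_lit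 469) (nat_lit 447) (nat_lit 224))))) (XT.nd (nat_lit 234) (nat_lit 2660) (nat_lit 0) (XT.nd (nat_lit 78) (nat_lit 0) (nat_lit 0) (XT.lf (nat_lit 0) (nat_lit 13698614601) (nat_lit 1672) (nat_lit 2393244091) (nat_lit 1748) (nat_lit 3661435322) (nat_lit 349) (nat_lit 5) (nat_lit 371) (nat_lit 5) (nat_lit 372) (nat_lit 5) (nat_lit 470) (nat_lit 447) (nat_lit 223)) (XT.nd (nat_lit 78) (nat_lit 0) (nat_lit 0) (XT.lf (nat_lit 76) (nat_lit 6952930633) (nat_lit 0) (nat_lit 8248510659) (nat_lit 1748) (nat_lit 4766723276) (nat_lit 350) (nat_lit 5) (nat_lit 349) (nat_lit 5) (nat_lit 372) (nat_lit 5) (nat_lit 471) (nat_lit 447) (nat_lit 222)) (XT.lf (nat_lit 76) (nat_lit 16514833395) (nat_lit 0) (nat_lit 231127182) (nat_lit 1748) (nat_lit 3441143655) (nat_lit 350) (nat_lit 5) (nat_lit 349) (nat_lit 5) (nat_lit 372) (nat_lit 5) (nat_lit 472) (nat_lit 447) (nat_lit 221)))) (XT.nd (nat_lit 156) (nat_lit 1064) (nat_lit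 0) (XT.nd (nat_lit 78) (nat_lit 0) (nat_lit 0) (XT.lf (nat_lit 0) (nat_lit 5879405057) (nat_lit 1672) (nat_lit 12527400701) (nat_lit 1748) (nat_lit 2001912557) (nat_lit 328) (nat_lit 5) (nat_lit 350) (nat_lit 5) (nat_lit 351) (nat_lit 5) (nat_lit 473) (nat_lit 447) (nat_lit 220)) (XT.lf (nat_lit 0) (nat_lit 15666704876) (nat_lit 1672) (nat_lit 4456055626) (nat_lit 1748) (nat_lit 511570574) (nat_lit 328) (nat_lit 5) (nat_lit 350) (nat_lit 5) (nat_lit 351) (nat_lit 5) (nat_lit 474) (nat_lit 447) (nat_lit 219))) (XT.nd (nat_lit 78) (nat_lit 0) (nat_lit 0) (XT.lf (nat_lit 0) (nat_lit 1047323155) (nat_lit 1064) (nat_lit 16049982460) (nat_lit 76) (nat_lit 3765984141) (nat_lit 314) (nat_lit 5) (nat_lit 328) (nat_lit 5) (nat_lit 315) (nat_lit 5) (nat_lit 475) (nat_lit 447) (nat_lit 218)) (XT.lf (nat_lit 0) (nat_lit 2689461756) (nat_lit 1064) (nat_lit 6275775910) (nat_lit 76) (nat_lit 12130347983) (nat_lit 314)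 (nat_lit 5) (nat_lit 328) (nat_lit 5) (nat_lit 315) (nat_lit 5) (nat_lit 476) (nat_lit 447) (nat_lit 217)))))) (XT.nd (nat_lit 546) (nat_lit 2204) (nat_lit 0) (XT.nd (nat_lit 234) (nat_lit 1520) (nat_lit 0) (XT.nd (nat_lit 78) (nat_lit 836) (nat_lit 0) (XT.lf (nat_lit 0) (nat_lit 3739336250) (nat_lit 836) (nat_lit 645310688) (nat_lit 912) (nat_lit 16947480369) (nat_lit 303) (nat_lit 5) (nat_lit 314) (nat_lit 5) (nat_lit 315) (nat_lit 5) (nat_lit 477) (nat_lit 447) (nat_lit 216)) (XT.nd (nat_lit 78) (nat_lit 836) (nat_lit 0) (XT.lf (nat_lit 0) (nat_lit 6203022385) (nat_lit 912) (nat_lit 7587608754) (nat_lit 76) (nat_lit 7780986778) (nat_lit 303) (nat_lit 5) (nat_lit 315) (nat_lit 5) (nat_lit 304) (nat_lit 5) (nat_lit 478) (nat_lit 447) (nat_lit 215)) (XT.lf (nat_lit 0) (nat_lit 2644474897) (nat_lit 836) (nat_lit 5430797270) (nat_lit 912) (nat_lit 13740279810) (nat_lit 292) (nat_lit 5) (nat_lit 303) (nat_lit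 5) (nat_lit 304) (nat_lit 5) (nat_lit 479) (nat_lit 447) (nat_lit 214)))) (XT.nd (nat_lit 156) (nat_lit 760) (nat_lit 0) (XT.nd (nat_lit 78) (nat_lit 760) (nat_lit 0) (XT.lf (nat_lit 0) (nat_lit 10052443157) (nat_lit 912) (nat_lit 8903405107) (nat_lit 76) (nat_lit 3107170628) (nat_lit 292) (nat_lit 5) (nat_lit 304) (nat_lit 5) (nat_lit 293) (nat_lit 5) (nat_lit 480) (nat_lit 447) (nat_lit 213)) (XT.lf (nat_lit 0) (nat_lit 1550389389) (nat_lit 760) (nat_lit 10560995334) (nat_lit 836) (nat_lit 10203209506) (nat_lit 282) (nat_lit 5) (nat_lit 292) (nat_lit 5) (nat_lit 293) (nat_lit 5) (nat_lit 481) (nat_lit 447) (nat_lit 212))) (XT.nd (nat_lit 78) (nat_lit 760) (nat_lit 0) (XT.lf (nat_lit 0) (nat_lit 12330372448) (nat_lit 760) (nat_lit 1937126051) (nat_lit 836) (nat_lit 8302586264) (nat_lit 282) (nat_lit 5) (nat_lit 292) (nat_lit 5) (nat_lit 293) (nat_lit 5) (nat_lit 482) (nat_lit 447) (nat_lit 211)) (XT.lf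 (nat_lit 0) (nat_lit 453094433) (nat_lit 760) (nat_lit 16057438082) (nat_lit 836) (nat_lit 6319280118) (nat_lit 272) (nat_lit 5) (nat_lit 282) (nat_lit 5) (nat_lit 283) (nat_lit 5) (nat_lit 483) (nat_lit 447) (nat_lit 210))))) (XT.nd (nat_lit 234) (nat_lit 1444) (nat_lit 0) (XT.nd (nat_lit 78) (nat_lit 760) (nat_lit 0) (XT.lf (nat_lit 0) (nat_lit 11482000320) (nat_lit 760) (nat_lit 7394255580) (nat_lit 836) (nat_lit 4216926005) (nat_lit 272) (nat_lit 5) (nat_lit 282) (nat_lit 5) (nat_lit 283) (nat_lit 5) (nat_lit 484) (nat_lit 447) (nat_lit 209)) (XT.nd (nat_lit 78) (nat_lit 760) (nat_lit 0) (XT.lf (nat_lit 0) (nat_lit 21295099598) (nat_lit 836) (nat_lit 643262911) (nat_lit 76) (nat_lit 1423343288) (nat_lit 272) (nat_lit 5) (nat_lit 283) (nat_lit 5) (nat_lit 273) (nat_lit 5) (nat_lit 485) (nat_lit 447) (nat_lit 208)) (XT.lf (nat_lit 0) (nat_lit 240316994) (nat_lit 760) (nat_lit 13003916779) (nat_lit 76)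 (nat_lit 10389047979) (nat_lit 262) (nat_lit 5) (nat_lit 272) (nat_lit 5) (nat_lit 263) (nat_lit 5) (nat_lit 486) (nat_lit 447) (nat_lit 207)))) (XT.nd (nat_lit 156) (nat_lit 684) (nat_lit 0) (XT.nd (nat_lit 78) (nat_lit 760) (nat_lit 0) (XT.lf (nat_lit 0) (nat_lit 2566609705) (nat_lit 760) (nat_lit 1791273967) (nat_lit 76) (nat_lit 19552117449) (nat_lit 262) (nat_lit 5) (nat_lit 272) (nat_lit 5) (nat_lit 263) (nat_lit 5) (nat_lit 487) (nat_lit 447) (nat_lit 206)) (XT.lf (nat_lit 0) (nat_lit 5030438914) (nat_lit 836) (nat_lit 14451724027) (nat_lit 76) (nat_lit 4708274819) (nat_lit 252) (nat_lit 5) (nat_lit 263) (nat_lit 5) (nat_lit 253) (nat_lit 5) (nat_lit 488) (nat_lit 447) (nat_lit 205))) (XT.nd (nat_lit 78) (nat_lit 684) (nat_lit 0) (XT.lf (nat_lit 0) (nat_lit 7581148611) (nat_lit 836) (nat_lit 2985099385) (nat_lit 76) (nat_lit 13909486094) (nat_lit 252) (nat_lit 5) (nat_lit 263) (nat_lit 5) (nat_lit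 253) (nat_lit 5) (nat_lit 489) (nat_lit 447) (nat_lit 204)) (XT.lf (nat_lit 0) (nat_lit 8823144208) (nat_lit 684) (nat_lit 1413723557) (nat_lit 760) (nat_lit 14528791651) (nat_lit 243) (nat_lit 5) (nat_lit 252) (nat_lit 5) (nat_lit 253) (nat_lit 5) (nat_lit 490) (nat_lit 447) (nat_lit 203))))))) (XT.nd (nat_lit 1014) (nat_lit 1748) (nat_lit 0) (XT.nd (nat_lit 468) (nat_lit 1748) (nat_lit 0) (XT.nd (nat_lit 234) (nat_lit 1368) (nat_lit 0) (XT.nd (nat_lit 78) (nat_lit 684) (nat_lit 0) (XT.lf (nat_lit 0) (nat_lit 13014050374) (nat_lit 760) (nat_lit 4208007642) (nat_lit 76) (nat_lit 7837961167) (nat_lit 243) (nat_lit 5) (nat_lit 253) (nat_lit 5) (nat_lit 244) (nat_lit 5) (nat_lit 491) (nat_lit 447) (nat_lit 202)) (XT.nd (nat_lit 78) (nat_lit 0) (nat_lit 0) (XT.lf (nat_lit 0) (nat_lit 7851393304) (nat_lit 684) (nat_lit 8052536810) (nat_lit 760) (nat_lit 9455195823) (nat_lit 234) (nat_lit 5) (nat_lit 243) (nat_lit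 5) (nat_lit 244) (nat_lit 5) (nat_lit 492) (nat_lit 447) (nat_lit 201)) (XT.lf (nat_lit 0) (nat_lit 18885328846) (nat_lit 760) (nat_lit 5466705579) (nat_lit 76) (nat_lit 1311508776) (nat_lit 234) (nat_lit 5) (nat_lit 244) (nat_lit 5) (nat_lit 235) (nat_lit 5) (nat_lit 493) (nat_lit 447) (nat_lit 200)))) (XT.nd (nat_lit 78) (nat_lit 760) (nat_lit 0) (XT.lf (nat_lit 0) (nat_lit 6848249061) (nat_lit 608) (nat_lit 15172813167) (nat_lit 684) (nat_lit 3951095198) (nat_lit 226) (nat_lit 5) (nat_lit 234) (nat_lit 5) (nat_lit 235) (nat_lit 5) (nat_lit 494) (nat_lit 447) (nat_lit 199)) (XT.nd (nat_lit 78) (nat_lit 760) (nat_lit 0) (XT.lf (nat_lit 0) (nat_lit 19480246758) (nat_lit 608) (nat_lit 5772901914) (nat_lit 684) (nat_lit 1033125190) (nat_lit 226) (nat_lit 5) (nat_lit 234) (nat_lit 5) (nat_lit 235) (nat_lit 5) (nat_lit 495) (nat_lit 447) (nat_lit 198)) (XT.lf (nat_lit 0) (nat_lit 1977589211) (nat_lit 760)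 (nat_lit 20812257248) (nat_lit 76) (nat_lit 3815379018) (nat_lit 216) (nat_lit 5) (nat_lit 226) (nat_lit 5) (nat_lit 217) (nat_lit 5) (nat_lit 496) (nat_lit 447) (nat_lit 197))))) (XT.nd (nat_lit 234) (nat_lit 1140) (nat_lit 0) (XT.nd (nat_lit 78) (nat_lit 608) (nat_lit 0) (XT.lf (nat_lit 0) (nat_lit 5115929437) (nat_lit 760) (nat_lit 8242190403) (nat_lit 76) (nat_lit 13570677343) (nat_lit 216) (nat_lit 5) (nat_lit 226) (nat_lit 5) (nat_lit 217) (nat_lit 5) (nat_lit 497) (nat_lit 447) (nat_lit 196)) (XT.nd (nat_lit 78) (nat_lit 0) (nat_lit 0) (XT.lf (nat_lit 0) (nat_lit 4636782973) (nat_lit 608) (nat_lit 3707443393) (nat_lit 684) (nat_lit 18914072649) (nat_lit 208) (nat_lit 5) (nat_lit 216) (nat_lit 5) (nat_lit 217) (nat_lit 5) (nat_lit 498) (nat_lit 447) (nat_lit 195)) (XT.lf (nat_lit 0) (nat_lit 11729723563) (nat_lit 684) (nat_lit 9751773370) (nat_lit 76) (nat_lit 6111043705) (nat_lit 208) (nat_lit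 5) (nat_lit 217) (nat_lit 5) (nat_lit 209) (nat_lit 5) (nat_lit 499) (nat_lit 447) (nat_lit 194)))) (XT.nd (nat_lit 156) (nat_lit 532) (nat_lit 0) (XT.nd (nat_lit 78) (nat_lit 0) (nat_lit 0) (XT.lf (nat_lit 0) (nat_lit 3392021380) (nat_lit 608) (nat_lit 11834659712) (nat_lit 684) (nat_lit 12705913386) (nat_lit 200) (nat_lit 5) (nat_lit 208) (nat_lit 5) (nat_lit 209) (nat_lit 5) (nat_lit 500) (nat_lit 447) (nat_lit 193)) (XT.lf (nat_lit 0) (nat_lit 16927624301) (nat_lit 608) (nat_lit 1928601798) (nat_lit 684) (nat_lit 9421972675) (nat_lit 200) (nat_lit 5) (nat_lit 208) (nat_lit 5) (nat_lit 209) (nat_lit 5) (nat_lit 501) (nat_lit 447) (nat_lit 192))) (XT.nd (nat_lit 78) (nat_lit 0) (nat_lit 0) (XT.lf (nat_lit 0) (nat_lit 2074099217) (nat_lit 532) (nat_lit 20548071057) (nat_lit 608) (nat_lit 6007271017) (nat_lit 193) (nat_lit 5) (nat_lit 200) (nat_lit 5) (nat_lit 201) (nat_lit 5) (nat_lit 502) (nat_lit 447)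 (nat_lit 191)) (XT.lf (nat_lit 0) (nat_lit 15904960010) (nat_lit 532) (nat_lit 10644623169) (nat_lit 608) (nat_lit 2436404738) (nat_lit 193) (nat_lit 5) (nat_lit 200) (nat_lit 5) (nat_lit 201) (nat_lit 5) (nat_lit 503) (nat_lit 447) (nat_lit 190)))))) (XT.nd (nat_lit 55068) (nat_lit 0) (nat_lit 14592) (XT.nd (nat_lit 234) (nat_lit 1064) (nat_lit 0) (XT.nd (nat_lit 78) (nat_lit 0) (nat_lit 0) (XT.lf (nat_lit 0) (nat_lit 660405579) (nat_lit 608) (nat_lit 531272423) (nat_lit 684) (nat_lit 28157800764) (nat_lit 184) (nat_lit 5) (nat_lit 192) (nat_lit 5) (nat_lit 193) (nat_lit 5) (nat_lit 504) (nat_lit 447) (nat_lit 189)) (XT.nd (nat_lit 78) (nat_lit 0) (nat_lit 0) (XT.lf (nat_lit 0) (nat_lit 5008972774) (nat_lit 684) (nat_lit 14947971590) (nat_lit 76) (nat_lit 9759989625) (nat_lit 184) (nat_lit 5) (nat_lit 193) (nat_lit 5) (nat_lit 185) (nat_lit 5) (nat_lit 505) (nat_lit 447) (nat_lit 188)) (XT.lf (nat_lit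 0) (nat_lit 8903538632) (nat_lit 684) (nat_lit 938732361) (nat_lit 76) (nat_lit 20249450902) (nat_lit 184) (nat_lit 5) (nat_lit 193) (nat_lit 5) (nat_lit 185) (nat_lit 5) (nat_lit 506) (nat_lit 447) (nat_lit 187)))) (XT.nd (nat_lit 156) (nat_lit 532) (nat_lit 0) (XT.nd (nat_lit 78) (nat_lit 0) (nat_lit 0) (XT.lf (nat_lit 0) (nat_lit 12964926498) (nat_lit 608) (nat_lit 16950992020) (nat_lit 76) (nat_lit 556310469) (nat_lit 177) (nat_lit 5) (nat_lit 185) (nat_lit 5) (nat_lit 178) (nat_lit 5) (nat_lit 507) (nat_lit 447) (nat_lit 186)) (XT.lf (nat_lit 0) (nat_lit 17176547629) (nat_lit 608) (nat_lit 2645444192) (nat_lit 76) (nat_lit 11036976292) (nat_lit 177) (nat_lit 5) (nat_lit 185) (nat_lit 5) (nat_lit 178) (nat_lit 5) (nat_lit 508) (nat_lit 447) (nat_lit 185))) (XT.nd (nat_lit 54600) (nat_lit 0) (nat_lit 14592) (XT.lf (nat_lit 0) (nat_lit 12101862016) (nat_lit 532) (nat_lit 9446645618) (nat_lit 608) (nat_lit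 9703414222) (nat_lit 170) (nat_lit 5) (nat_lit 177) (nat_lit 5) (nat_lit 178) (nat_lit 5) (nat_lit 509) (nat_lit 447) (nat_lit 184)) (XT.lf (nat_lit 0) (nat_lit 3105540203) (nat_lit 0) (nat_lit 3105540203) (nat_lit 1596) (nat_lit 1752629535) (nat_lit 362) (nat_lit 5) (nat_lit 362) (nat_lit 3) (nat_lit 383) (nat_lit 3) (nat_lit 448) (nat_lit 448) (nat_lit 244))))) (XT.nd (nat_lit 234) (nat_lit 0) (nat_lit 76) (XT.nd (nat_lit 78) (nat_lit 0) (nat_lit 0) (XT.lf (nat_lit 0) (nat_lit 12797629700) (nat_lit 1596) (nat_lit 2682989435) (nat_lit 1672) (nat_lit 600789415) (nat_lit 362) (nat_lit 5) (nat_lit 383) (nat_lit 3) (nat_lit 384) (nat_lit 5) (nat_lit 449) (nat_lit 448) (nat_lit 243)) (XT.nd (nat_lit 78) (nat_lit 0) (nat_lit 0) (XT.lf (nat_lit 76) (nat_lit 4505585245) (nat_lit 0) (nat_lit 8738943378) (nat_lit 1672) (nat_lit 2992676788) (nat_lit 363) (nat_lit 5) (nat_lit 362) (nat_lit 5) (nat_lit 384) (nat_lit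 5) (nat_lit 450) (nat_lit 448) (nat_lit 242)) (XT.lf (nat_lit 76) (nat_lit 11870921481) (nat_lit 0) (nat_lit 1841087584) (nat_lit 1672) (nat_lit 2683882976) (nat_lit 363) (nat_lit 5) (nat_lit 362) (nat_lit 5) (nat_lit 384) (nat_lit 5) (nat_lit 451) (nat_lit 448) (nat_lit 241)))) (XT.nd (nat_lit 156) (nat_lit 0) (nat_lit 76) (XT.nd (nat_lit 78) (nat_lit 0) (nat_lit 0) (XT.lf (nat_lit 76) (nat_lit 2825681160) (nat_lit 0) (nat_lit 11409014726) (nat_lit 1672) (nat_lit 2322145952) (nat_lit 364) (nat_lit 5) (nat_lit 363) (nat_lit 5) (nat_lit 385) (nat_lit 5) (nat_lit 452) (nat_lit 448) (nat_lit 240)) (XT.lf (nat_lit 76) (nat_lit 10368888604) (nat_lit 0) (nat_lit 4435307731) (nat_lit 1672) (nat_lit 1916093538) (nat_lit 364) (nat_lit 5) (nat_lit 363) (nat_lit 5) (nat_lit 385) (nat_lit 5) (nat_lit 453) (nat_lit 448) (nat_lit 239))) (XT.nd (nat_lit 78) (nat_lit 0) (nat_lit 0) (XT.lf (nat_lit 76) (nat_lit 1170401143)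 (nat_lit 0) (nat_lit 14233690736) (nat_lit 1672) (nat_lit 1482541204) (nat_lit 365) (nat_lit 5) (nat_lit 364) (nat_lit 5) (nat_lit 386) (nat_lit 5) (nat_lit 454) (nat_lit 448) (nat_lit 238)) (XT.lf (nat_lit 76) (nat_lit 8895478727) (nat_lit 0) (nat_lit 7186421631) (nat_lit 1672) (nat_lit 973090689) (nat_lit 365) (nat_lit 5) (nat_lit 364) (nat_lit 5) (nat_lit 386) (nat_lit 5) (nat_lit 455) (nat_lit 448) (nat_lit 237))))))))
noncomputable def xc235 : XT := (XT.nd (nat_lit 2106) (nat_lit 7980) (nat_lit 0) (XT.nd (nat_lit 1014) (nat_lit 4636) (nat_lit 0) (XT.nd (nat_lit 468) (nat_lit 0) (nat_lit 152) (XT.nd (nat_lit 234) (nat_lit 0) (nat_lit 76) (XT.nd (nat_lit 78) (nat_lit 1672) (nat_lit 0) (XT.lf (nat_lit 0) (nat_lit 16767521414) (nat_lit 1596) (nat_lit 455230725) (nat_lit 1672) (nat_lit 4084973) (nat_lit 365) (nat_lit 5) (nat_lit 386) (nat_lit 5) (nat_lit 387) (nat_lit 5) (nat_lit 456) (nat_lit 448) (nat_lit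 236)) (XT.nd (nat_lit 78) (nat_lit 0) (nat_lit 0) (XT.lf (nat_lit 0) (nat_lit 154796629) (nat_lit 1672) (nat_lit 9951579808) (nat_lit 1748) (nat_lit 7293922872) (nat_lit 343) (nat_lit 5) (nat_lit 365) (nat_lit 5) (nat_lit 366) (nat_lit 5) (nat_lit 457) (nat_lit 448) (nat_lit 235)) (XT.lf (nat_lit 0) (nat_lit 772524976) (nat_lit 1672) (nat_lit 2066860294) (nat_lit 1748) (nat_lit 14737840798) (nat_lit 343) (nat_lit 5) (nat_lit 365) (nat_lit 5) (nat_lit 366) (nat_lit 5) (nat_lit 458) (nat_lit 448) (nat_lit 234)))) (XT.nd (nat_lit 78) (nat_lit 0) (nat_lit 0) (XT.lf (nat_lit 0) (nat_lit 1466374627) (nat_lit 1672) (nat_lit 11735543920) (nat_lit 1748) (nat_lit 4554503087) (nat_lit 344) (nat_lit 5) (nat_lit 366) (nat_lit 5) (nat_lit 367) (nat_lit 5) (nat_lit 459) (nat_lit 448) (nat_lit 233)) (XT.nd (nat_lit 78) (nat_lit 0) (nat_lit 76) (XT.lf (nat_lit 0) (nat_lit 2201477444) (nat_lit 1672) (nat_lit 3663013933)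 (nat_lit 1748) (nat_lit 12074167709) (nat_lit 344) (nat_lit 5) (nat_lit 366) (nat_lit 5) (nat_lit 367) (nat_lit 5) (nat_lit 460) (nat_lit 448) (nat_lit 232)) (XT.lf (nat_lit 0) (nat_lit 2986774329) (nat_lit 1672) (nat_lit 13506623785) (nat_lit 1748) (nat_lit 1630438722) (nat_lit 345) (nat_lit 5) (nat_lit 367) (nat_lit 5) (nat_lit 368) (nat_lit 5) (nat_lit 461) (nat_lit 448) (nat_lit 231))))) (XT.nd (nat_lit 234) (nat_lit 0) (nat_lit 76) (XT.nd (nat_lit 78) (nat_lit 0) (nat_lit 0) (XT.lf (nat_lit 0) (nat_lit 3846166857) (nat_lit 1672) (nat_lit 5242138248) (nat_lit 1748) (nat_lit 9223250527) (nat_lit 345) (nat_lit 5) (nat_lit 367) (nat_lit 5) (nat_lit 368) (nat_lit 5) (nat_lit 462) (nat_lit 448) (nat_lit 230)) (XT.nd (nat_lit 78) (nat_lit 0) (nat_lit 76) (XT.lf (nat_lit 76) (nat_lit 3226413823) (nat_lit 0) (nat_lit 1512191700) (nat_lit 1748) (nat_lit 13764111293) (nat_lit 346) (nat_lit 5) (nat_lit 345)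 (nat_lit 5) (nat_lit 368) (nat_lit 5) (nat_lit 463) (nat_lit 448) (nat_lit 229)) (XT.lf (nat_lit 0) (nat_lit 5719655192) (nat_lit 1672) (nat_lit 6805819881) (nat_lit 1748) (nat_lit 6170815987) (nat_lit 346) (nat_lit 5) (nat_lit 368) (nat_lit 5) (nat_lit 369) (nat_lit 5) (nat_lit 464) (nat_lit 448) (nat_lit 228)))) (XT.nd (nat_lit 156) (nat_lit 0) (nat_lit 76) (XT.nd (nat_lit 78) (nat_lit 0) (nat_lit 76) (XT.lf (nat_lit 76) (nat_lit 1844693081) (nat_lit 0) (nat_lit 4892719330) (nat_lit 1748) (nat_lit 12155987626) (nat_lit 347) (nat_lit 5) (nat_lit 346) (nat_lit 5) (nat_lit 369) (nat_lit 5) (nat_lit 465) (nat_lit 448) (nat_lit 227)) (XT.lf (nat_lit 0) (nat_lit 7835455843) (nat_lit 1672) (nat_lit 8355795824) (nat_lit 1748) (nat_lit 2902005785) (nat_lit 347) (nat_lit 5) (nat_lit 369) (nat_lit 5) (nat_lit 370) (nat_lit 5) (nat_lit 466) (nat_lit 448) (nat_lit 226))) (XT.nd (nat_lit 78) (nat_lit 0) (nat_lit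 0) (XT.lf (nat_lit 76) (nat_lit 481310061) (nat_lit 0) (nat_lit 8504948466) (nat_lit 1748) (nat_lit 10310242308) (nat_lit 348) (nat_lit 5) (nat_lit 347) (nat_lit 5) (nat_lit 370) (nat_lit 5) (nat_lit 467) (nat_lit 448) (nat_lit 225)) (XT.lf (nat_lit 76) (nat_lit 9604872764) (nat_lit 0) (nat_lit 606617240) (nat_lit 1748) (nat_lit 9291295517) (nat_lit 348) (nat_lit 5) (nat_lit 347) (nat_lit 5) (nat_lit 370) (nat_lit 5) (nat_lit 468) (nat_lit 448) (nat_lit 224)))))) (XT.nd (nat_lit 546) (nat_lit 3496) (nat_lit 0) (XT.nd (nat_lit 234) (nat_lit 1520) (nat_lit 0) (XT.nd (nat_lit 78) (nat_lit 0) (nat_lit 0) (XT.lf (nat_lit 0) (nat_lit 11505033743) (nat_lit 1672) (nat_lit 854241157) (nat_lit 1748) (nat_lit 7353049449) (nat_lit 348) (nat_lit 5) (nat_lit 370) (nat_lit 5) (nat_lit 371) (nat_lit 5) (nat_lit 469) (nat_lit 448) (nat_lit 223)) (XT.nd (nat_lit 78) (nat_lit 0) (nat_lit 76) (XT.lf (nat_lit 76) (nat_lit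 8473909955) (nat_lit 0) (nat_lit 4405102766) (nat_lit 1748) (nat_lit 7045954455) (nat_lit 349) (nat_lit 5) (nat_lit 348) (nat_lit 5) (nat_lit 371) (nat_lit 5) (nat_lit 470) (nat_lit 448) (nat_lit 222)) (XT.lf (nat_lit 0) (nat_lit 14305917182) (nat_lit 1672) (nat_lit 2169247225) (nat_lit 1748) (nat_lit 3666193956) (nat_lit 349) (nat_lit 5) (nat_lit 371) (nat_lit 5) (nat_lit 372) (nat_lit 5) (nat_lit 471) (nat_lit 448) (nat_lit 221)))) (XT.nd (nat_lit 156) (nat_lit 1596) (nat_lit 0) (XT.nd (nat_lit 78) (nat_lit 0) (nat_lit 0) (XT.lf (nat_lit 76) (nat_lit 7362062429) (nat_lit 0) (nat_lit 8471955583) (nat_lit 1748) (nat_lit 4526610530) (nat_lit 350) (nat_lit 5) (nat_lit 349) (nat_lit 5) (nat_lit 372) (nat_lit 5) (nat_lit 472) (nat_lit 448) (nat_lit 220)) (XT.lf (nat_lit 76) (nat_lit 17109907695) (nat_lit 0) (nat_lit 293077874) (nat_lit 1748) (nat_lit 3181096712) (nat_lit 350) (nat_lit 5) (nat_lit 349) (nat_lit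 5) (nat_lit 372) (nat_lit 5) (nat_lit 473) (nat_lit 448) (nat_lit 219))) (XT.nd (nat_lit 78) (nat_lit 0) (nat_lit 0) (XT.lf (nat_lit 0) (nat_lit 6267118132) (nat_lit 1672) (nat_lit 12825002638) (nat_lit 1748) (nat_lit 1718112725) (nat_lit 328) (nat_lit 5) (nat_lit 350) (nat_lit 5) (nat_lit 351) (nat_lit 5) (nat_lit 474) (nat_lit 448) (nat_lit 218)) (XT.lf (nat_lit 0) (nat_lit 16244867379) (nat_lit 1672) (nat_lit 4591308035) (nat_lit 1748) (nat_lit 204313668) (nat_lit 328) (nat_lit 5) (nat_lit 350) (nat_lit 5) (nat_lit 351) (nat_lit 5) (nat_lit 475) (nat_lit 448) (nat_lit 217))))) (XT.nd (nat_lit 234) (nat_lit 1596) (nat_lit 0) (XT.nd (nat_lit 78) (nat_lit 836) (nat_lit 0) (XT.lf (nat_lit 0) (nat_lit 1376918591) (nat_lit 1064) (nat_lit 16096713601) (nat_lit 76) (nat_lit 3800452975) (nat_lit 314) (nat_lit 5) (nat_lit 328) (nat_lit 5) (nat_lit 315) (nat_lit 5) (nat_lit 476) (nat_lit 448) (nat_lit 216)) (XT.nd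 (nat_lit 78) (nat_lit 836) (nat_lit 0) (XT.lf (nat_lit 0) (nat_lit 3045848023) (nat_lit 1064) (nat_lit 6132400734) (nat_lit 76) (nat_lit 12332905090) (nat_lit 314) (nat_lit 5) (nat_lit 328) (nat_lit 5) (nat_lit 315) (nat_lit 5) (nat_lit 477) (nat_lit 448) (nat_lit 215)) (XT.lf (nat_lit 0) (nat_lit 4081244652) (nat_lit 836) (nat_lit 689493313) (nat_lit 912) (nat_lit 16981778070) (nat_lit 303) (nat_lit 5) (nat_lit 314) (nat_lit 5) (nat_lit 315) (nat_lit 5) (nat_lit 478) (nat_lit 448) (nat_lit 214)))) (XT.nd (nat_lit 156) (nat_lit 760) (nat_lit 0) (XT.nd (nat_lit 78) (nat_lit 836) (nat_lit 0) (XT.lf (nat_lit 0) (nat_lit 6619430892) (nat_lit 912) (nat_lit 7471146653) (nat_lit 76) (nat_lit 7906345518) (nat_lit 303) (nat_lit 5) (nat_lit 315) (nat_lit 5) (nat_lit 304) (nat_lit 5) (nat_lit 479) (nat_lit 448) (nat_lit 213)) (XT.lf (nat_lit 0) (nat_lit 2963814104) (nat_lit 836) (nat_lit 5561309218) (nat_lit 912)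 (nat_lit 13720698023) (nat_lit 292) (nat_lit 5) (nat_lit 303) (nat_lit 5) (nat_lit 304) (nat_lit 5) (nat_lit 480) (nat_lit 448) (nat_lit 212))) (XT.nd (nat_lit 78) (nat_lit 760) (nat_lit 0) (XT.lf (nat_lit 0) (nat_lit 10536044519) (nat_lit 912) (nat_lit 8814185422) (nat_lit 76) (nat_lit 3148128910) (nat_lit 292) (nat_lit 5) (nat_lit 304) (nat_lit 5) (nat_lit 293) (nat_lit 5) (nat_lit 481) (nat_lit 448) (nat_lit 211)) (XT.lf (nat_lit 0) (nat_lit 1846926492) (nat_lit 760) (nat_lit 10785422173) (nat_lit 836) (nat_lit 10122698638) (nat_lit 282) (nat_lit 5) (nat_lit 292) (nat_lit 5) (nat_lit 293) (nat_lit 5) (nat_lit 482) (nat_lit 448) (nat_lit 210))))))) (XT.nd (nat_lit 1092) (nat_lit 3724) (nat_lit 0) (XT.nd (nat_lit 546) (nat_lit 1976) (nat_lit 0) (XT.nd (nat_lit 234) (nat_lit 1520) (nat_lit 0) (XT.nd (nat_lit 78) (nat_lit 760) (nat_lit 0) (XT.lf (nat_lit 0) (nat_lit 12837302755) (nat_lit 760) (nat_lit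 1988816544) (nat_lit 836) (nat_lit 8189642833) (nat_lit 282) (nat_lit 5) (nat_lit 292) (nat_lit 5) (nat_lit 293) (nat_lit 5) (nat_lit 483) (nat_lit 448) (nat_lit 209)) (XT.nd (nat_lit 78) (nat_lit 0) (nat_lit 0) (XT.lf (nat_lit 0) (nat_lit 726536709) (nat_lit 760) (nat_lit 16383753149) (nat_lit 836) (nat_lit 6170474261) (nat_lit 272) (nat_lit 5) (nat_lit 282) (nat_lit 5) (nat_lit 283) (nat_lit 5) (nat_lit 484) (nat_lit 448) (nat_lit 208)) (XT.lf (nat_lit 0) (nat_lit 11970836785) (nat_lit 760) (nat_lit 7547205697) (nat_lit 836) (nat_lit 4031468977) (nat_lit 272) (nat_lit 5) (nat_lit 282) (nat_lit 5) (nat_lit 283) (nat_lit 5) (nat_lit 485) (nat_lit 448) (nat_lit 207)))) (XT.nd (nat_lit 156) (nat_lit 760) (nat_lit 0) (XT.nd (nat_lit 78) (nat_lit 760) (nat_lit 0) (XT.lf (nat_lit 0) (nat_lit 21980049216) (nat_lit 836) (nat_lit 396556181) (nat_lit 76) (nat_lit 1446909588) (nat_lit 272) (nat_lit 5) (nat_lit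 283) (nat_lit 5) (nat_lit 273) (nat_lit 5) (nat_lit 486) (nat_lit 448) (nat_lit 206)) (XT.lf (nat_lit 0) (nat_lit 502694872) (nat_lit 760) (nat_lit 13002473345) (nat_lit 76) (nat_lit 10595393238) (nat_lit 262) (nat_lit 5) (nat_lit 272) (nat_lit 5) (nat_lit 263) (nat_lit 5) (nat_lit 487) (nat_lit 448) (nat_lit 205))) (XT.nd (nat_lit 78) (nat_lit 760) (nat_lit 0) (XT.lf (nat_lit 0) (nat_lit 2870463015) (nat_lit 760) (nat_lit 1570705555) (nat_lit 76) (nat_lit 19941752248) (nat_lit 262) (nat_lit 5) (nat_lit 272) (nat_lit 5) (nat_lit 263) (nat_lit 5) (nat_lit 488) (nat_lit 448) (nat_lit 204)) (XT.lf (nat_lit 0) (nat_lit 5380306745) (nat_lit 836) (nat_lit 14480877156) (nat_lit 76) (nat_lit 4807852038) (nat_lit 252) (nat_lit 5) (nat_lit 263) (nat_lit 5) (nat_lit 253) (nat_lit 5) (nat_lit 489) (nat_lit 448) (nat_lit 203))))) (XT.nd (nat_lit 234) (nat_lit 1292) (nat_lit 0) (XT.nd (nat_lit 78) (nat_lit 684) (nat_lit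 0) (XT.lf (nat_lit 0) (nat_lit 7977143203) (nat_lit 836) (nat_lit 2790015734) (nat_lit 76) (nat_lit 14192981426) (nat_lit 252) (nat_lit 5) (nat_lit 263) (nat_lit 5) (nat_lit 253) (nat_lit 5) (nat_lit 490) (nat_lit 448) (nat_lit 202)) (XT.nd (nat_lit 78) (nat_lit 0) (nat_lit 0) (XT.lf (nat_lit 0) (nat_lit 9252716509) (nat_lit 684) (nat_lit 1430111984) (nat_lit 760) (nat_lit 14573103000) (nat_lit 243) (nat_lit 5) (nat_lit 252) (nat_lit 5) (nat_lit 253) (nat_lit 5) (nat_lit 491) (nat_lit 448) (nat_lit 201)) (XT.lf (nat_lit 0) (nat_lit 13510900544) (nat_lit 760) (nat_lit 4039154701) (nat_lit 76) (nat_lit 8006220544) (nat_lit 243) (nat_lit 5) (nat_lit 253) (nat_lit 5) (nat_lit 244) (nat_lit 5) (nat_lit 492) (nat_lit 448) (nat_lit 200)))) (XT.nd (nat_lit 156) (nat_lit 608) (nat_lit 0) (XT.nd (nat_lit 78) (nat_lit 0) (nat_lit 0) (XT.lf (nat_lit 0) (nat_lit 8259769705) (nat_lit 684) (nat_lit 8195801484) (nat_lit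 760) (nat_lit 9405857786) (nat_lit 234) (nat_lit 5) (nat_lit 243) (nat_lit 5) (nat_lit 244) (nat_lit 5) (nat_lit 493) (nat_lit 448) (nat_lit 199)) (XT.lf (nat_lit 0) (nat_lit 19492131453) (nat_lit 760) (nat_lit 5324948969) (nat_lit 76) (nat_lit 1354947574) (nat_lit 234) (nat_lit 5) (nat_lit 244) (nat_lit 5) (nat_lit 235) (nat_lit 5) (nat_lit 494) (nat_lit 448) (nat_lit 198))) (XT.nd (nat_lit 78) (nat_lit 0) (nat_lit 0) (XT.lf (nat_lit 0) (nat_lit 7234652852) (nat_lit 608) (nat_lit 15453054095) (nat_lit 684) (nat_lit 3799169013) (nat_lit 226) (nat_lit 5) (nat_lit 234) (nat_lit 5) (nat_lit 235) (nat_lit 5) (nat_lit 495) (nat_lit 448) (nat_lit 197)) (XT.lf (nat_lit 0) (nat_lit 20114399546) (nat_lit 608) (nat_lit 5865599820) (nat_lit 684) (nat_lit 827367999) (nat_lit 226) (nat_lit 5) (nat_lit 234) (nat_lit 5) (nat_lit 235) (nat_lit 5) (nat_lit 496) (nat_lit 448) (nat_lit 196)))))) (XT.nd (nat_lit 546) (nat_lit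 1216) (nat_lit 0) (XT.nd (nat_lit 234) (nat_lit 1140) (nat_lit 0) (XT.nd (nat_lit 78) (nat_lit 608) (nat_lit 0) (XT.lf (nat_lit 0) (nat_lit 2237972497) (nat_lit 760) (nat_lit 20977985373) (nat_lit 76) (nat_lit 3916766887) (nat_lit 216) (nat_lit 5) (nat_lit 226) (nat_lit 5) (nat_lit 217) (nat_lit 5) (nat_lit 497) (nat_lit 448) (nat_lit 195)) (XT.nd (nat_lit 78) (nat_lit 608) (nat_lit 0) (XT.lf (nat_lit 0) (nat_lit 5434749498) (nat_lit 760) (nat_lit 8161429289) (nat_lit 76) (nat_lit 13866679408) (nat_lit 216) (nat_lit 5) (nat_lit 226) (nat_lit 5) (nat_lit 217) (nat_lit 5) (nat_lit 498) (nat_lit 448) (nat_lit 194)) (XT.lf (nat_lit 0) (nat_lit 4973507733) (nat_lit 608) (nat_lit 3751443644) (nat_lit 684) (nat_lit 19074055531) (nat_lit 208) (nat_lit 5) (nat_lit 216) (nat_lit 5) (nat_lit 217) (nat_lit 5) (nat_lit 499) (nat_lit 448) (nat_lit 193)))) (XT.nd (nat_lit 156) (nat_lit 532) (nat_lit 0) (XT.nd (nat_lit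 78) (nat_lit 608) (nat_lit 0) (XT.lf (nat_lit 0) (nat_lit 12174157474) (nat_lit 684) (nat_lit 9703425070) (nat_lit 76) (nat_lit 6262434395) (nat_lit 208) (nat_lit 5) (nat_lit 217) (nat_lit 5) (nat_lit 209) (nat_lit 5) (nat_lit 500) (nat_lit 448) (nat_lit 192)) (XT.lf (nat_lit 0) (nat_lit 3701644366) (nat_lit 608) (nat_lit 12036865101) (nat_lit 684) (nat_lit 12748416766) (nat_lit 200) (nat_lit 5) (nat_lit 208) (nat_lit 5) (nat_lit 209) (nat_lit 5) (nat_lit 501) (nat_lit 448) (nat_lit 191))) (XT.nd (nat_lit 78) (nat_lit 532) (nat_lit 0) (XT.lf (nat_lit 0) (nat_lit 17503218511) (nat_lit 608) (nat_lit 1933362261) (nat_lit 684) (nat_lit 9402946553) (nat_lit 200) (nat_lit 5) (nat_lit 208) (nat_lit 5) (nat_lit 209) (nat_lit 5) (nat_lit 502) (nat_lit 448) (nat_lit 190)) (XT.lf (nat_lit 0) (nat_lit 2355052918) (nat_lit 532) (nat_lit 20920576040) (nat_lit 608) (nat_lit 5922213382) (nat_lit 193) (nat_lit 5) (nat_lit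 200) (nat_lit 5) (nat_lit 201) (nat_lit 5) (nat_lit 503) (nat_lit 448) (nat_lit 189))))) (XT.nd (nat_lit 312) (nat_lit 532) (nat_lit 0) (XT.nd (nat_lit 78) (nat_lit 684) (nat_lit 0) (XT.lf (nat_lit 0) (nat_lit 16457835403) (nat_lit 532) (nat_lit 10819813242) (nat_lit 608) (nat_lit 2283953366) (nat_lit 193) (nat_lit 5) (nat_lit 200) (nat_lit 5) (nat_lit 201) (nat_lit 5) (nat_lit 504) (nat_lit 448) (nat_lit 188)) (XT.nd (nat_lit 78) (nat_lit 0) (nat_lit 0) (XT.lf (nat_lit 0) (nat_lit 909626360) (nat_lit 608) (nat_lit 502065555) (nat_lit 684) (nat_lit 28520695007) (nat_lit 184) (nat_lit 5) (nat_lit 192) (nat_lit 5) (nat_lit 193) (nat_lit 5) (nat_lit 505) (nat_lit 448) (nat_lit 187)) (XT.lf (nat_lit 0) (nat_lit 5301739455) (nat_lit 684) (nat_lit 15011798207) (nat_lit 76) (nat_lit 9993728544) (nat_lit 184) (nat_lit 5) (nat_lit 193) (nat_lit 5) (nat_lit 185) (nat_lit 5) (nat_lit 506) (nat_lit 448) (nat_lit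 186)))) (XT.nd (nat_lit 54756) (nat_lit 0) (nat_lit 14060) (XT.nd (nat_lit 78) (nat_lit 0) (nat_lit 0) (XT.lf (nat_lit 0) (nat_lit 13411096069) (nat_lit 608) (nat_lit 17057400817) (nat_lit 76) (nat_lit 609290549) (nat_lit 177) (nat_lit 5) (nat_lit 185) (nat_lit 5) (nat_lit 178) (nat_lit 5) (nat_lit 508) (nat_lit 448) (nat_lit 184)) (XT.lf (nat_lit 0) (nat_lit 17703285485) (nat_lit 608) (nat_lit 2470303033) (nat_lit 76) (nat_lit 11298749025) (nat_lit 177) (nat_lit 5) (nat_lit 185) (nat_lit 5) (nat_lit 178) (nat_lit 5) (nat_lit 509) (nat_lit 448) (nat_lit 183))) (XT.nd (nat_lit 78) (nat_lit 0) (nat_lit 0) (XT.lf (nat_lit 0) (nat_lit 3290495565) (nat_lit 0) (nat_lit 3290495565) (nat_lit 1596) (nat_lit 1536820333) (nat_lit 362) (nat_lit 5) (nat_lit 362) (nat_lit 3) (nat_lit 383) (nat_lit 3) (nat_lit 449) (nat_lit 449) (nat_lit 242)) (XT.lf (nat_lit 0) (nat_lit 13533761759) (nat_lit 1596) (nat_lit 2484071139)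 (nat_lit 1672) (nat_lit 375092596) (nat_lit 362) (nat_lit 5) (nat_lit 383) (nat_lit 3) (nat_lit 384) (nat_lit 5) (nat_lit 450) (nat_lit 449) (nat_lit 241))))))))
noncomputable def xc236 : XT := (XT.nd (nat_lit 2106) (nat_lit 9196) (nat_lit 0) (XT.nd (nat_lit 1014) (nat_lit 2204) (nat_lit 0) (XT.nd (nat_lit 468) (nat_lit 1444) (nat_lit 0) (XT.nd (nat_lit 234) (nat_lit 0) (nat_lit 76) (XT.nd (nat_lit 78) (nat_lit 0) (nat_lit 0) (XT.lf (nat_lit 76) (nat_lit 4846613336) (nat_lit 0) (nat_lit 9135199156) (nat_lit 1672) (nat_lit 2570191478) (nat_lit 363) (nat_lit 5) (nat_lit 362) (nat_lit 5) (nat_lit 384) (nat_lit 5) (nat_lit 451) (nat_lit 449) (nat_lit 240)) (XT.nd (nat_lit 78) (nat_lit 0) (nat_lit 76) (XT.lf (nat_lit 76) (nat_lit 12354336368) (nat_lit 0) (nat_lit 2095043561) (nat_lit 1672) (nat_lit 2264679414) (nat_lit 363) (nat_lit 5) (nat_lit 362) (nat_lit 5) (nat_lit 384) (nat_lit 5) (nat_lit 452) (nat_lit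 449) (nat_lit 239)) (XT.lf (nat_lit 76) (nat_lit 3137659738) (nat_lit 0) (nat_lit 11836056266) (nat_lit 1672) (nat_lit 1904697789) (nat_lit 364) (nat_lit 5) (nat_lit 363) (nat_lit 5) (nat_lit 385) (nat_lit 5) (nat_lit 453) (nat_lit 449) (nat_lit 238)))) (XT.nd (nat_lit 78) (nat_lit 0) (nat_lit 76) (XT.lf (nat_lit 76) (nat_lit 10826722214) (nat_lit 0) (nat_lit 4718975892) (nat_lit 1672) (nat_lit 1499620230) (nat_lit 364) (nat_lit 5) (nat_lit 363) (nat_lit 5) (nat_lit 385) (nat_lit 5) (nat_lit 454) (nat_lit 449) (nat_lit 237)) (XT.nd (nat_lit 78) (nat_lit 0) (nat_lit 0) (XT.lf (nat_lit 76) (nat_lit 1453190405) (nat_lit 0) (nat_lit 14696110545) (nat_lit 1672) (nat_lit 1065862468) (nat_lit 365) (nat_lit 5) (nat_lit 364) (nat_lit 5) (nat_lit 386) (nat_lit 5) (nat_lit 455) (nat_lit 449) (nat_lit 236)) (XT.lf (nat_lit 76) (nat_lit 9327683634) (nat_lit 0) (nat_lit 7504410842) (nat_lit 1672) (nat_lit 554974502)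 (nat_lit 365) (nat_lit 5) (nat_lit 364) (nat_lit 5) (nat_lit 386) (nat_lit 5) (nat_lit 456) (nat_lit 449) (nat_lit 235))))) (XT.nd (nat_lit 234) (nat_lit 0) (nat_lit 76) (XT.nd (nat_lit 78) (nat_lit 1596) (nat_lit 0) (XT.lf (nat_lit 76) (nat_lit 17356375625) (nat_lit 0) (nat_lit 166621854) (nat_lit 1672) (nat_lit 39531933) (nat_lit 365) (nat_lit 5) (nat_lit 364) (nat_lit 5) (nat_lit 386) (nat_lit 5) (nat_lit 457) (nat_lit 449) (nat_lit 234)) (XT.nd (nat_lit 78) (nat_lit 0) (nat_lit 0) (XT.lf (nat_lit 0) (nat_lit 573551435) (nat_lit 1672) (nat_lit 9887105058) (nat_lit 1748) (nat_lit 7278910857) (nat_lit 343) (nat_lit 5) (nat_lit 365) (nat_lit 5) (nat_lit 366) (nat_lit 5) (nat_lit 458) (nat_lit 449) (nat_lit 233)) (XT.lf (nat_lit 0) (nat_lit 1195484175) (nat_lit 1672) (nat_lit 1849857944) (nat_lit 1748) (nat_lit 14874861857) (nat_lit 343) (nat_lit 5) (nat_lit 365) (nat_lit 5) (nat_lit 366) (nat_lit 5) (nat_lit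 459) (nat_lit 449) (nat_lit 232)))) (XT.nd (nat_lit 156) (nat_lit 0) (nat_lit 76) (XT.nd (nat_lit 78) (nat_lit 0) (nat_lit 0) (XT.lf (nat_lit 0) (nat_lit 1895948250) (nat_lit 1672) (nat_lit 11704244400) (nat_lit 1748) (nat_lit 4502944221) (nat_lit 344) (nat_lit 5) (nat_lit 366) (nat_lit 5) (nat_lit 367) (nat_lit 5) (nat_lit 460) (nat_lit 449) (nat_lit 231)) (XT.lf (nat_lit 0) (nat_lit 2637905159) (nat_lit 1672) (nat_lit 3475479703) (nat_lit 1748) (nat_lit 12175799174) (nat_lit 344) (nat_lit 5) (nat_lit 366) (nat_lit 5) (nat_lit 367) (nat_lit 5) (nat_lit 461) (nat_lit 449) (nat_lit 230))) (XT.nd (nat_lit 78) (nat_lit 0) (nat_lit 0) (XT.lf (nat_lit 0) (nat_lit 3432069447) (nat_lit 1672) (nat_lit 13508730798) (nat_lit 1748) (nat_lit 1537409716) (nat_lit 345) (nat_lit 5) (nat_lit 367) (nat_lit 5) (nat_lit 368) (nat_lit 5) (nat_lit 462) (nat_lit 449) (nat_lit 229)) (XT.lf (nat_lit 0) (nat_lit 4301089833) (nat_lit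 1672) (nat_lit 5084210950) (nat_lit 1748) (nat_lit 9284541242) (nat_lit 345) (nat_lit 5) (nat_lit 367) (nat_lit 5) (nat_lit 368) (nat_lit 5) (nat_lit 463) (nat_lit 449) (nat_lit 228)))))) (XT.nd (nat_lit 546) (nat_lit 2356) (nat_lit 0) (XT.nd (nat_lit 234) (nat_lit 0) (nat_lit 152) (XT.nd (nat_lit 78) (nat_lit 0) (nat_lit 76) (XT.lf (nat_lit 76) (nat_lit 3551983411) (nat_lit 0) (nat_lit 1653676957) (nat_lit 1748) (nat_lit 13659287948) (nat_lit 346) (nat_lit 5) (nat_lit 345) (nat_lit 5) (nat_lit 368) (nat_lit 5) (nat_lit 464) (nat_lit 449) (nat_lit 227)) (XT.nd (nat_lit 78) (nat_lit 0) (nat_lit 0) (XT.lf (nat_lit 0) (nat_lit 6198323278) (nat_lit 1672) (nat_lit 6677635885) (nat_lit 1748) (nat_lit 6186602432) (nat_lit 346) (nat_lit 5) (nat_lit 368) (nat_lit 5) (nat_lit 369) (nat_lit 5) (nat_lit 465) (nat_lit 449) (nat_lit 226)) (XT.lf (nat_lit 76) (nat_lit 2144148517) (nat_lit 0) (nat_lit 5086849200) (nat_lit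 1748) (nat_lit 12032731042) (nat_lit 347) (nat_lit 5) (nat_lit 346) (nat_lit 5) (nat_lit 369) (nat_lit 5) (nat_lit 466) (nat_lit 449) (nat_lit 225)))) (XT.nd (nat_lit 156) (nat_lit 0) (nat_lit 0) (XT.nd (nat_lit 78) (nat_lit 0) (nat_lit 0) (XT.lf (nat_lit 0) (nat_lit 8343353171) (nat_lit 1672) (nat_lit 8257494156) (nat_lit 1748) (nat_lit 2866896083) (nat_lit 347) (nat_lit 5) (nat_lit 369) (nat_lit 5) (nat_lit 370) (nat_lit 5) (nat_lit 467) (nat_lit 449) (nat_lit 224)) (XT.lf (nat_lit 76) (nat_lit 754607678) (nat_lit 0) (nat_lit 8757390116) (nat_lit 1748) (nat_lit 10163164317) (nat_lit 348) (nat_lit 5) (nat_lit 347) (nat_lit 5) (nat_lit 370) (nat_lit 5) (nat_lit 468) (nat_lit 449) (nat_lit 223))) (XT.nd (nat_lit 78) (nat_lit 0) (nat_lit 76) (XT.lf (nat_lit 76) (nat_lit 10055471607) (nat_lit 0) (nat_lit 699477704) (nat_lit 1748) (nat_lit 9130765705) (nat_lit 348) (nat_lit 5) (nat_lit 347) (nat_lit 5) (nat_lit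 370) (nat_lit 5) (nat_lit 469) (nat_lit 449) (nat_lit 222)) (XT.lf (nat_lit 0) (nat_lit 12067198502) (nat_lit 1672) (nat_lit 610392898) (nat_lit 1748) (nat_lit 7422003227) (nat_lit 348) (nat_lit 5) (nat_lit 370) (nat_lit 5) (nat_lit 371) (nat_lit 5) (nat_lit 470) (nat_lit 449) (nat_lit 221))))) (XT.nd (nat_lit 234) (nat_lit 2584) (nat_lit 0) (XT.nd (nat_lit 78) (nat_lit 0) (nat_lit 76) (XT.lf (nat_lit 76) (nat_lit 8902604571) (nat_lit 0) (nat_lit 4561224433) (nat_lit 1748) (nat_lit 6852764435) (nat_lit 349) (nat_lit 5) (nat_lit 348) (nat_lit 5) (nat_lit 371) (nat_lit 5) (nat_lit 471) (nat_lit 449) (nat_lit 220)) (XT.nd (nat_lit 78) (nat_lit 0) (nat_lit 0) (XT.lf (nat_lit 0) (nat_lit 14912422193) (nat_lit 1672) (nat_lit 1951327144) (nat_lit 1748) (nat_lit 3673706538) (nat_lit 349) (nat_lit 5) (nat_lit 371) (nat_lit 5) (nat_lit 372) (nat_lit 5) (nat_lit 472) (nat_lit 449) (nat_lit 219)) (XT.lf (nat_lit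 76) (nat_lit 7768889591) (nat_lit 0) (nat_lit 8697598762) (nat_lit 1748) (nat_lit 4294721352) (nat_lit 350) (nat_lit 5) (nat_lit 349) (nat_lit 5) (nat_lit 372) (nat_lit 5) (nat_lit 473) (nat_lit 449) (nat_lit 218)))) (XT.nd (nat_lit 156) (nat_lit 1064) (nat_lit 0) (XT.nd (nat_lit 78) (nat_lit 1596) (nat_lit 0) (XT.lf (nat_lit 76) (nat_lit 17706601842) (nat_lit 0) (nat_lit 354041458) (nat_lit 1748) (nat_lit 2928619246) (nat_lit 350) (nat_lit 5) (nat_lit 349) (nat_lit 5) (nat_lit 372) (nat_lit 5) (nat_lit 474) (nat_lit 449) (nat_lit 217)) (XT.lf (nat_lit 0) (nat_lit 6652096185) (nat_lit 1672) (nat_lit 13126729453) (nat_lit 1748) (nat_lit 1441211924) (nat_lit 328) (nat_lit 5) (nat_lit 350) (nat_lit 5) (nat_lit 351) (nat_lit 5) (nat_lit 475) (nat_lit 449) (nat_lit 216))) (XT.nd (nat_lit 78) (nat_lit 988) (nat_lit 0) (XT.lf (nat_lit 0) (nat_lit 95490892) (nat_lit 1748) (nat_lit 4631342472) (nat_lit 76) (nat_lit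 16728177835) (nat_lit 327) (nat_lit 5) (nat_lit 350) (nat_lit 5) (nat_lit 328) (nat_lit 5) (nat_lit 476) (nat_lit 449) (nat_lit 215)) (XT.lf (nat_lit 0) (nat_lit 1701120719) (nat_lit 1064) (nat_lit 16155029546) (nat_lit 76) (nat_lit 3837197474) (nat_lit 314) (nat_lit 5) (nat_lit 328) (nat_lit 5) (nat_lit 315) (nat_lit 5) (nat_lit 477) (nat_lit 449) (nat_lit 214))))))) (XT.nd (nat_lit 1014) (nat_lit 4484) (nat_lit 0) (XT.nd (nat_lit 468) (nat_lit 2280) (nat_lit 0) (XT.nd (nat_lit 234) (nat_lit 1596) (nat_lit 0) (XT.nd (nat_lit 78) (nat_lit 836) (nat_lit 0) (XT.lf (nat_lit 0) (nat_lit 3397611803) (nat_lit 1064) (nat_lit 5996599408) (nat_lit 76) (nat_lit 12541068525) (nat_lit 314) (nat_lit 5) (nat_lit 328) (nat_lit 5) (nat_lit 315) (nat_lit 5) (nat_lit 478) (nat_lit 449) (nat_lit 213)) (XT.nd (nat_lit 78) (nat_lit 0) (nat_lit 0) (XT.lf (nat_lit 0) (nat_lit 4419618561) (nat_lit 836) (nat_lit 733345089) (nat_lit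 912) (nat_lit 17028591730) (nat_lit 303) (nat_lit 5) (nat_lit 314) (nat_lit 5) (nat_lit 315) (nat_lit 5) (nat_lit 479) (nat_lit 449) (nat_lit 212)) (XT.lf (nat_lit 0) (nat_lit 7032815338) (nat_lit 912) (nat_lit 7362770397) (nat_lit 76) (nat_lit 8035386504) (nat_lit 303) (nat_lit 5) (nat_lit 315) (nat_lit 5) (nat_lit 304) (nat_lit 5) (nat_lit 480) (nat_lit 449) (nat_lit 211)))) (XT.nd (nat_lit 78) (nat_lit 760) (nat_lit 0) (XT.lf (nat_lit 0) (nat_lit 3279193528) (nat_lit 836) (nat_lit 5693581158) (nat_lit 912) (nat_lit 13712156021) (nat_lit 292) (nat_lit 5) (nat_lit 303) (nat_lit 5) (nat_lit 304) (nat_lit 5) (nat_lit 481) (nat_lit 449) (nat_lit 210)) (XT.nd (nat_lit 78) (nat_lit 760) (nat_lit 0) (XT.lf (nat_lit 0) (nat_lit 11018346050) (nat_lit 912) (nat_lit 8733560454) (nat_lit 76) (nat_lit 3190729001) (nat_lit 292) (nat_lit 5) (nat_lit 304) (nat_lit 5) (nat_lit 293) (nat_lit 5) (nat_lit 482) (nat_lit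 449) (nat_lit 209)) (XT.lf (nat_lit 0) (nat_lit 2139083510) (nat_lit 760) (nat_lit 11013824706) (nat_lit 836) (nat_lit 10051627948) (nat_lit 282) (nat_lit 5) (nat_lit 292) (nat_lit 5) (nat_lit 293) (nat_lit 5) (nat_lit 483) (nat_lit 449) (nat_lit 208))))) (XT.nd (nat_lit 234) (nat_lit 1520) (nat_lit 0) (XT.nd (nat_lit 78) (nat_lit 760) (nat_lit 0) (XT.lf (nat_lit 0) (nat_lit 13344263014) (nat_lit 760) (nat_lit 2041038061) (nat_lit 836) (nat_lit 8085274256) (nat_lit 282) (nat_lit 5) (nat_lit 292) (nat_lit 5) (nat_lit 293) (nat_lit 5) (nat_lit 484) (nat_lit 449) (nat_lit 207)) (XT.nd (nat_lit 78) (nat_lit 0) (nat_lit 0) (XT.lf (nat_lit 0) (nat_lit 995181618) (nat_lit 760) (nat_lit 16716393904) (nat_lit 836) (nat_lit 6029378307) (nat_lit 272) (nat_lit 5) (nat_lit 282) (nat_lit 5) (nat_lit 283) (nat_lit 5) (nat_lit 485) (nat_lit 449) (nat_lit 206)) (XT.lf (nat_lit 0) (nat_lit 12459385064) (nat_lit 760) (nat_lit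 7703018136) (nat_lit 836) (nat_lit 3852779298) (nat_lit 272) (nat_lit 5) (nat_lit 282) (nat_lit 5) (nat_lit 283) (nat_lit 5) (nat_lit 486) (nat_lit 449) (nat_lit 205)))) (XT.nd (nat_lit 156) (nat_lit 760) (nat_lit 0) (XT.nd (nat_lit 78) (nat_lit 760) (nat_lit 0) (XT.lf (nat_lit 0) (nat_lit 22668638691) (nat_lit 836) (nat_lit 154994813) (nat_lit 76) (nat_lit 1471137509) (nat_lit 272) (nat_lit 5) (nat_lit 283) (nat_lit 5) (nat_lit 273) (nat_lit 5) (nat_lit 487) (nat_lit 449) (nat_lit 204)) (XT.lf (nat_lit 0) (nat_lit 760318491) (nat_lit 760) (nat_lit 13011156251) (nat_lit 76) (nat_lit 10805921152) (nat_lit 262) (nat_lit 5) (nat_lit 272) (nat_lit 5) (nat_lit 263) (nat_lit 5) (nat_lit 488) (nat_lit 449) (nat_lit 203))) (XT.nd (nat_lit 78) (nat_lit 760) (nat_lit 0) (XT.lf (nat_lit 0) (nat_lit 3170587688) (nat_lit 760) (nat_lit 1355681861) (nat_lit 76) (nat_lit 20339234400) (nat_lit 262) (nat_lit 5) (nat_lit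 272) (nat_lit 5) (nat_lit 263) (nat_lit 5) (nat_lit 489) (nat_lit 449) (nat_lit 202)) (XT.lf (nat_lit 0) (nat_lit 5727492899) (nat_lit 836) (nat_lit 14520704858) (nat_lit 76) (nat_lit 4909210658) (nat_lit 252) (nat_lit 5) (nat_lit 263) (nat_lit 5) (nat_lit 253) (nat_lit 5) (nat_lit 490) (nat_lit 449) (nat_lit 201)))))) (XT.nd (nat_lit 546) (nat_lit 2508) (nat_lit 0) (XT.nd (nat_lit 234) (nat_lit 1292) (nat_lit 0) (XT.nd (nat_lit 78) (nat_lit 684) (nat_lit 0) (XT.lf (nat_lit 0) (nat_lit 8371568439) (nat_lit 836) (nat_lit 2600924047) (nat_lit 76) (nat_lit 14481940642) (nat_lit 252) (nat_lit 5) (nat_lit 263) (nat_lit 5) (nat_lit 253) (nat_lit 5) (nat_lit 491) (nat_lit 449) (nat_lit 200)) (XT.nd (nat_lit 78) (nat_lit 0) (nat_lit 0) (XT.lf (nat_lit 0) (nat_lit 9681051710) (nat_lit 684) (nat_lit 1447289729) (nat_lit 760) (nat_lit 14627863325) (nat_lit 243) (nat_lit 5) (nat_lit 252) (nat_lit 5) (nat_lit 253)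 (nat_lit 5) (nat_lit 492) (nat_lit 449) (nat_lit 199)) (XT.lf (nat_lit 0) (nat_lit 14008501448) (nat_lit 760) (nat_lit 3876749507) (nat_lit 76) (nat_lit 8177398543) (nat_lit 243) (nat_lit 5) (nat_lit 253) (nat_lit 5) (nat_lit 244) (nat_lit 5) (nat_lit 493) (nat_lit 449) (nat_lit 198)))) (XT.nd (nat_lit 156) (nat_lit 608) (nat_lit 0) (XT.nd (nat_lit 78) (nat_lit 0) (nat_lit 0) (XT.lf (nat_lit 0) (nat_lit 8666553463) (nat_lit 684) (nat_lit 8342622106) (nat_lit 760) (nat_lit 9364791981) (nat_lit 234) (nat_lit 5) (nat_lit 243) (nat_lit 5) (nat_lit 244) (nat_lit 5) (nat_lit 494) (nat_lit 449) (nat_lit 197)) (XT.lf (nat_lit 0) (nat_lit 20102174035) (nat_lit 760) (nat_lit 5190107385) (nat_lit 76) (nat_lit 1398586916) (nat_lit 234) (nat_lit 5) (nat_lit 244) (nat_lit 5) (nat_lit 235) (nat_lit 5) (nat_lit 495) (nat_lit 449) (nat_lit 196))) (XT.nd (nat_lit 78) (nat_lit 0) (nat_lit 0) (XT.lf (nat_lit 0) (nat_lit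 7619098705) (nat_lit 608) (nat_lit 15739801321) (nat_lit 684) (nat_lit 3653172301) (nat_lit 226) (nat_lit 5) (nat_lit 234) (nat_lit 5) (nat_lit 235) (nat_lit 5) (nat_lit 496) (nat_lit 449) (nat_lit 195)) (XT.lf (nat_lit 0) (nat_lit 20751739298) (nat_lit 608) (nat_lit 5961035487) (nat_lit 684) (nat_lit 626287817) (nat_lit 226) (nat_lit 5) (nat_lit 234) (nat_lit 5) (nat_lit 235) (nat_lit 5) (nat_lit 497) (nat_lit 449) (nat_lit 194))))) (XT.nd (nat_lit 234) (nat_lit 1140) (nat_lit 0) (XT.nd (nat_lit 78) (nat_lit 608) (nat_lit 0) (XT.lf (nat_lit 0) (nat_lit 2494988291) (nat_lit 760) (nat_lit 21156755941) (nat_lit 76) (nat_lit 4019208614) (nat_lit 216) (nat_lit 5) (nat_lit 226) (nat_lit 5) (nat_lit 217) (nat_lit 5) (nat_lit 498) (nat_lit 449) (nat_lit 193)) (XT.nd (nat_lit 78) (nat_lit 608) (nat_lit 0) (XT.lf (nat_lit 0) (nat_lit 5751538944) (nat_lit 760) (nat_lit 8088590091) (nat_lit 76) (nat_lit 14167646711)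 (nat_lit 216) (nat_lit 5) (nat_lit 226) (nat_lit 5) (nat_lit 217) (nat_lit 5) (nat_lit 499) (nat_lit 449) (nat_lit 192)) (XT.lf (nat_lit 0) (nat_lit 5307492594) (nat_lit 608) (nat_lit 3797494608) (nat_lit 684) (nat_lit 19245714869) (nat_lit 208) (nat_lit 5) (nat_lit 216) (nat_lit 5) (nat_lit 217) (nat_lit 5) (nat_lit 500) (nat_lit 449) (nat_lit 191)))) (XT.nd (nat_lit 156) (nat_lit 532) (nat_lit 0) (XT.nd (nat_lit 78) (nat_lit 608) (nat_lit 0) (XT.lf (nat_lit 0) (nat_lit 12619331742) (nat_lit 684) (nat_lit 9663560692) (nat_lit 76) (nat_lit 6415720198) (nat_lit 208) (nat_lit 5) (nat_lit 217) (nat_lit 5) (nat_lit 209) (nat_lit 5) (nat_lit 501) (nat_lit 449) (nat_lit 190)) (XT.lf (nat_lit 0) (nat_lit 4008071101) (nat_lit 608) (nat_lit 12244453802) (nat_lit 684) (nat_lit 12799987478) (nat_lit 200) (nat_lit 5) (nat_lit 208) (nat_lit 5) (nat_lit 209) (nat_lit 5) (nat_lit 502) (nat_lit 449) (nat_lit 189))) (XT.nd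 (nat_lit 78) (nat_lit 532) (nat_lit 0) (XT.lf (nat_lit 0) (nat_lit 18081119986) (nat_lit 608) (nat_lit 1939530878) (nat_lit 684) (nat_lit 9391596049) (nat_lit 200) (nat_lit 5) (nat_lit 208) (nat_lit 5) (nat_lit 209) (nat_lit 5) (nat_lit 503) (nat_lit 449) (nat_lit 188)) (XT.lf (nat_lit 0) (nat_lit 2632326714) (nat_lit 532) (nat_lit 21302024432) (nat_lit 608) (nat_lit 5843422878) (nat_lit 193) (nat_lit 5) (nat_lit 200) (nat_lit 5) (nat_lit 201) (nat_lit 5) (nat_lit 504) (nat_lit 449) (nat_lit 187))))))))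
noncomputable def xc237 : XT := (XT.nd (nat_lit 56862) (nat_lit 0) (nat_lit 2432) (XT.nd (nat_lit 55770) (nat_lit 0) (nat_lit 12084) (XT.nd (nat_lit 55224) (nat_lit 0) (nat_lit 12008) (XT.nd (nat_lit 234) (nat_lit 0) (nat_lit 0) (XT.nd (nat_lit 78) (nat_lit 684) (nat_lit 0) (XT.lf (nat_lit 0) (nat_lit 17012651658) (nat_lit 532) (nat_lit 10999971146) (nat_lit 608) (nat_lit 2136265011) (nat_lit 193) (nat_lit 5) (nat_lit 200) (nat_lit 5) (nat_lit 201) (nat_lit 5) (nat_lit 505) (nat_lit 449) (nat_lit 186)) (XT.nd (nat_lit 78) (nat_lit 0) (nat_lit 0) (XT.lf (nat_lit 0) (nat_lit 1154666897) (nat_lit 608) (nat_lit 473821287) (nat_lit 684) (nat_lit 28898623543) (nat_lit 184) (nat_lit 5) (nat_lit 192) (nat_lit 5) (nat_lit 193) (nat_lit 5) (nat_lit 506) (nat_lit 449) (nat_lit 185)) (XT.lf (nat_lit 0) (nat_lit 5592883074) (nat_lit 684) (nat_lit 15086031849) (nat_lit 76) (nat_lit 10230645719) (nat_lit 184) (nat_lit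 5) (nat_lit 193) (nat_lit 5) (nat_lit 185) (nat_lit 5) (nat_lit 507) (nat_lit 449) (nat_lit 184)))) (XT.nd (nat_lit 54834) (nat_lit 0) (nat_lit 13528) (XT.lf (nat_lit 0) (nat_lit 9637308062) (nat_lit 684) (nat_lit 519953431) (nat_lit 76) (nat_lit 21142384123) (nat_lit 184) (nat_lit 5) (nat_lit 193) (nat_lit 5) (nat_lit 185) (nat_lit 5) (nat_lit 508) (nat_lit 449) (nat_lit 183)) (XT.nd (nat_lit 78) (nat_lit 0) (nat_lit 0) (XT.lf (nat_lit 0) (nat_lit 3474379830) (nat_lit 0) (nat_lit 3474379830) (nat_lit 1596) (nat_lit 1326436216) (nat_lit 362) (nat_lit 5) (nat_lit 362) (nat_lit 3) (nat_lit 383) (nat_lit 3) (nat_lit 450) (nat_lit 450) (nat_lit 240)) (XT.lf (nat_lit 0) (nat_lit 14265970505) (nat_lit 1596) (nat_lit 2290982392) (nat_lit 1672) (nat_lit 154112512) (nat_lit 362) (nat_lit 5) (nat_lit 383) (nat_lit 3) (nat_lit 384) (nat_lit 5) (nat_lit 451) (nat_lit 450) (nat_lit 239))))) (XT.nd (nat_lit 234) (nat_lit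 1520) (nat_lit 0) (XT.nd (nat_lit 78) (nat_lit 0) (nat_lit 0) (XT.lf (nat_lit 76) (nat_lit 5184718601) (nat_lit 0) (nat_lit 9530779831) (nat_lit 1672) (nat_lit 2157986266) (nat_lit 363) (nat_lit 5) (nat_lit 362) (nat_lit 5) (nat_lit 384) (nat_lit 5) (nat_lit 452) (nat_lit 450) (nat_lit 238)) (XT.nd (nat_lit 78) (nat_lit 0) (nat_lit 76) (XT.lf (nat_lit 76) (nat_lit 12837867211) (nat_lit 0) (nat_lit 2345647071) (nat_lit 1672) (nat_lit 1855454334) (nat_lit 363) (nat_lit 5) (nat_lit 362) (nat_lit 5) (nat_lit 384) (nat_lit 5) (nat_lit 453) (nat_lit 450) (nat_lit 237)) (XT.lf (nat_lit 76) (nat_lit 3445957872) (nat_lit 0) (nat_lit 12263916613) (nat_lit 1672) (nat_lit 1496914118) (nat_lit 364) (nat_lit 5) (nat_lit 363) (nat_lit 5) (nat_lit 385) (nat_lit 5) (nat_lit 454) (nat_lit 450) (nat_lit 236)))) (XT.nd (nat_lit 156) (nat_lit 1596) (nat_lit 0) (XT.nd (nat_lit 78) (nat_lit 0) (nat_lit 76) (XT.lf (nat_lit 76)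 (nat_lit 11283986991) (nat_lit 0) (nat_lit 5000746803) (nat_lit 1672) (nat_lit 1092477707) (nat_lit 364) (nat_lit 5) (nat_lit 363) (nat_lit 5) (nat_lit 385) (nat_lit 5) (nat_lit 455) (nat_lit 450) (nat_lit 235)) (XT.lf (nat_lit 76) (nat_lit 1731563362) (nat_lit 0) (nat_lit 15160876657) (nat_lit 1672) (nat_lit 658181677) (nat_lit 365) (nat_lit 5) (nat_lit 364) (nat_lit 5) (nat_lit 386) (nat_lit 5) (nat_lit 456) (nat_lit 450) (nat_lit 234))) (XT.nd (nat_lit 78) (nat_lit 1672) (nat_lit 0) (XT.lf (nat_lit 76) (nat_lit 9758658041) (nat_lit 0) (nat_lit 7821993079) (nat_lit 1672) (nat_lit 145487679) (nat_lit 365) (nat_lit 5) (nat_lit 364) (nat_lit 5) (nat_lit 386) (nat_lit 5) (nat_lit 457) (nat_lit 450) (nat_lit 233)) (XT.lf (nat_lit 76) (nat_lit 35908399) (nat_lit 0) (nat_lit 331462622) (nat_lit 1748) (nat_lit 17537854482) (nat_lit 343) (nat_lit 5) (nat_lit 342) (nat_lit 5) (nat_lit 365) (nat_lit 5) (nat_lit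 458) (nat_lit 450) (nat_lit 232)))))) (XT.nd (nat_lit 546) (nat_lit 0) (nat_lit 228) (XT.nd (nat_lit 234) (nat_lit 0) (nat_lit 76) (XT.nd (nat_lit 78) (nat_lit 0) (nat_lit 0) (XT.lf (nat_lit 0) (nat_lit 984540797) (nat_lit 1672) (nat_lit 9831573085) (nat_lit 1748) (nat_lit 7269846174) (nat_lit 343) (nat_lit 5) (nat_lit 365) (nat_lit 5) (nat_lit 366) (nat_lit 5) (nat_lit 459) (nat_lit 450) (nat_lit 231)) (XT.nd (nat_lit 78) (nat_lit 0) (nat_lit 76) (XT.lf (nat_lit 0) (nat_lit 1611078499) (nat_lit 1672) (nat_lit 1638547187) (nat_lit 1748) (nat_lit 15020748408) (nat_lit 343) (nat_lit 5) (nat_lit 365) (nat_lit 5) (nat_lit 366) (nat_lit 5) (nat_lit 460) (nat_lit 450) (nat_lit 230)) (XT.lf (nat_lit 0) (nat_lit 2318571300) (nat_lit 1672) (nat_lit 11682648398) (nat_lit 1748) (nat_lit 4455893409) (nat_lit 344) (nat_lit 5) (nat_lit 366) (nat_lit 5) (nat_lit 367) (nat_lit 5) (nat_lit 461) (nat_lit 450) (nat_lit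 229)))) (XT.nd (nat_lit 156) (nat_lit 0) (nat_lit 76) (XT.nd (nat_lit 78) (nat_lit 0) (nat_lit 76) (XT.lf (nat_lit 0) (nat_lit 3067824130) (nat_lit 1672) (nat_lit 3294321757) (nat_lit 1748) (nat_lit 12284893887) (nat_lit 344) (nat_lit 5) (nat_lit 366) (nat_lit 5) (nat_lit 367) (nat_lit 5) (nat_lit 462) (nat_lit 450) (nat_lit 228)) (XT.lf (nat_lit 0) (nat_lit 3871298718) (nat_lit 1672) (nat_lit 13521287706) (nat_lit 1748) (nat_lit 1447398797) (nat_lit 345) (nat_lit 5) (nat_lit 367) (nat_lit 5) (nat_lit 368) (nat_lit 5) (nat_lit 463) (nat_lit 450) (nat_lit 227))) (XT.nd (nat_lit 78) (nat_lit 0) (nat_lit 0) (XT.lf (nat_lit 0) (nat_lit 4750433082) (nat_lit 1672) (nat_lit 4933328789) (nat_lit 1748) (nat_lit 9351840780) (nat_lit 345) (nat_lit 5) (nat_lit 367) (nat_lit 5) (nat_lit 368) (nat_lit 5) (nat_lit 464) (nat_lit 450) (nat_lit 226)) (XT.lf (nat_lit 76) (nat_lit 3873927839) (nat_lit 0) (nat_lit 1793672279)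 (nat_lit 1748) (nat_lit 13567128098) (nat_lit 346) (nat_lit 5) (nat_lit 345) (nat_lit 5) (nat_lit 368) (nat_lit 5) (nat_lit 465) (nat_lit 450) (nat_lit 225))))) (XT.nd (nat_lit 234) (nat_lit 0) (nat_lit 76) (XT.nd (nat_lit 78) (nat_lit 0) (nat_lit 0) (XT.lf (nat_lit 0) (nat_lit 6672419484) (nat_lit 1672) (nat_lit 6557151316) (nat_lit 1748) (nat_lit 6206884006) (nat_lit 346) (nat_lit 5) (nat_lit 368) (nat_lit 5) (nat_lit 369) (nat_lit 5) (nat_lit 466) (nat_lit 450) (nat_lit 224)) (XT.nd (nat_lit 78) (nat_lit 0) (nat_lit 76) (XT.lf (nat_lit 76) (nat_lit 2439397477) (nat_lit 0) (nat_lit 5281123174) (nat_lit 1748) (nat_lit 11921236167) (nat_lit 347) (nat_lit 5) (nat_lit 346) (nat_lit 5) (nat_lit 369) (nat_lit 5) (nat_lit 467) (nat_lit 450) (nat_lit 223)) (XT.lf (nat_lit 0) (nat_lit 8847771378) (nat_lit 1672) (nat_lit 8167532943) (nat_lit 1748) (nat_lit 2834701308) (nat_lit 347) (nat_lit 5) (nat_lit 369) (nat_lit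 5) (nat_lit 370) (nat_lit 5) (nat_lit 468) (nat_lit 450) (nat_lit 222)))) (XT.nd (nat_lit 156) (nat_lit 0) (nat_lit 76) (XT.nd (nat_lit 78) (nat_lit 0) (nat_lit 0) (XT.lf (nat_lit 76) (nat_lit 1023132564) (nat_lit 0) (nat_lit 9011683133) (nat_lit 1748) (nat_lit 10026863170) (nat_lit 348) (nat_lit 5) (nat_lit 347) (nat_lit 5) (nat_lit 370) (nat_lit 5) (nat_lit 469) (nat_lit 450) (nat_lit 221)) (XT.lf (nat_lit 76) (nat_lit 10505044503) (nat_lit 0) (nat_lit 791060605) (nat_lit 1748) (nat_lit 8980474712) (nat_lit 348) (nat_lit 5) (nat_lit 347) (nat_lit 5) (nat_lit 370) (nat_lit 5) (nat_lit 470) (nat_lit 450) (nat_lit 220))) (XT.nd (nat_lit 78) (nat_lit 0) (nat_lit 0) (XT.lf (nat_lit 0) (nat_lit 12627712104) (nat_lit 1672) (nat_lit 371800024) (nat_lit 1748) (nat_lit 7495369079) (nat_lit 348) (nat_lit 5) (nat_lit 370) (nat_lit 5) (nat_lit 371) (nat_lit 5) (nat_lit 471) (nat_lit 450) (nat_lit 219)) (XT.lf (nat_lit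 76) (nat_lit 9329807390) (nat_lit 0) (nat_lit 4717827250) (nat_lit 1748) (nat_lit 6668684478) (nat_lit 349) (nat_lit 5) (nat_lit 348) (nat_lit 5) (nat_lit 371) (nat_lit 5) (nat_lit 472) (nat_lit 450) (nat_lit 218))))))) (XT.nd (nat_lit 1092) (nat_lit 4256) (nat_lit 0) (XT.nd (nat_lit 546) (nat_lit 3192) (nat_lit 0) (XT.nd (nat_lit 234) (nat_lit 2660) (nat_lit 0) (XT.nd (nat_lit 78) (nat_lit 0) (nat_lit 0) (XT.lf (nat_lit 0) (nat_lit 15518616299) (nat_lit 1672) (nat_lit 1739195455) (nat_lit 1748) (nat_lit 3683924905) (nat_lit 349) (nat_lit 5) (nat_lit 371) (nat_lit 5) (nat_lit 372) (nat_lit 5) (nat_lit 473) (nat_lit 450) (nat_lit 217)) (XT.nd (nat_lit 78) (nat_lit 0) (nat_lit 0) (XT.lf (nat_lit 76) (nat_lit 8173773258) (nat_lit 0) (nat_lit 8925572331) (nat_lit 1748) (nat_lit 4070714406) (nat_lit 350) (nat_lit 5) (nat_lit 349) (nat_lit 5) (nat_lit 372) (nat_lit 5) (nat_lit 474) (nat_lit 450) (nat_lit 216))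 (XT.lf (nat_lit 76) (nat_lit 18305347482) (nat_lit 0) (nat_lit 414084634) (nat_lit 1748) (nat_lit 2683366756) (nat_lit 350) (nat_lit 5) (nat_lit 349) (nat_lit 5) (nat_lit 372) (nat_lit 5) (nat_lit 475) (nat_lit 450) (nat_lit 215)))) (XT.nd (nat_lit 156) (nat_lit 988) (nat_lit 0) (XT.nd (nat_lit 78) (nat_lit 76) (nat_lit 0) (XT.lf (nat_lit 0) (nat_lit 7034691830) (nat_lit 1672) (nat_lit 13432734593) (nat_lit 1748) (nat_lit 1170859831) (nat_lit 328) (nat_lit 5) (nat_lit 350) (nat_lit 5) (nat_lit 351) (nat_lit 5) (nat_lit 476) (nat_lit 450) (nat_lit 214)) (XT.lf (nat_lit 0) (nat_lit 386864024) (nat_lit 1748) (nat_lit 4475181744) (nat_lit 76) (nat_lit 17015996137) (nat_lit 327) (nat_lit 5) (nat_lit 350) (nat_lit 5) (nat_lit 328) (nat_lit 5) (nat_lit 477) (nat_lit 450) (nat_lit 213))) (XT.nd (nat_lit 78) (nat_lit 0) (nat_lit 0) (XT.lf (nat_lit 0) (nat_lit 2020287074) (nat_lit 1064) (nat_lit 16224748430) (nat_lit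 76) (nat_lit 3876201554) (nat_lit 314) (nat_lit 5) (nat_lit 328) (nat_lit 5) (nat_lit 315) (nat_lit 5) (nat_lit 478) (nat_lit 450) (nat_lit 212)) (XT.lf (nat_lit 0) (nat_lit 3745116923) (nat_lit 1064) (nat_lit 5868117958) (nat_lit 76) (nat_lit 12754890023) (nat_lit 314) (nat_lit 5) (nat_lit 328) (nat_lit 5) (nat_lit 315) (nat_lit 5) (nat_lit 479) (nat_lit 450) (nat_lit 211))))) (XT.nd (nat_lit 234) (nat_lit 1520) (nat_lit 0) (XT.nd (nat_lit 78) (nat_lit 836) (nat_lit 0) (XT.lf (nat_lit 0) (nat_lit 4754790071) (nat_lit 836) (nat_lit 776906560) (nat_lit 912) (nat_lit 17087712295) (nat_lit 303) (nat_lit 5) (nat_lit 314) (nat_lit 5) (nat_lit 315) (nat_lit 5) (nat_lit 480) (nat_lit 450) (nat_lit 210)) (XT.nd (nat_lit 78) (nat_lit 836) (nat_lit 0) (XT.lf (nat_lit 0) (nat_lit 7443556062) (nat_lit 912) (nat_lit 7262237272) (nat_lit 76) (nat_lit 8168137752) (nat_lit 303) (nat_lit 5) (nat_lit 315) (nat_lit 5) (nat_lit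 304) (nat_lit 5) (nat_lit 481) (nat_lit 450) (nat_lit 209)) (XT.lf (nat_lit 0) (nat_lit 3590935743) (nat_lit 836) (nat_lit 5827681304) (nat_lit 912) (nat_lit 13714430704) (nat_lit 292) (nat_lit 5) (nat_lit 303) (nat_lit 5) (nat_lit 304) (nat_lit 5) (nat_lit 482) (nat_lit 450) (nat_lit 208)))) (XT.nd (nat_lit 156) (nat_lit 760) (nat_lit 0) (XT.nd (nat_lit 78) (nat_lit 760) (nat_lit 0) (XT.lf (nat_lit 0) (nat_lit 11499747805) (nat_lit 912) (nat_lit 8661299063) (nat_lit 76) (nat_lit 3234971795) (nat_lit 292) (nat_lit 5) (nat_lit 304) (nat_lit 5) (nat_lit 293) (nat_lit 5) (nat_lit 483) (nat_lit 450) (nat_lit 207)) (XT.lf (nat_lit 0) (nat_lit 2427173223) (nat_lit 760) (nat_lit 11246302364) (nat_lit 836) (nat_lit 9989757141) (nat_lit 282) (nat_lit 5) (nat_lit 292) (nat_lit 5) (nat_lit 293) (nat_lit 5) (nat_lit 484) (nat_lit 450) (nat_lit 206))) (XT.nd (nat_lit 78) (nat_lit 760) (nat_lit 0) (XT.lf (nat_lit 0)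 (nat_lit 13851646356) (nat_lit 760) (nat_lit 2093820747) (nat_lit 836) (nat_lit 7989231343) (nat_lit 282) (nat_lit 5) (nat_lit 292) (nat_lit 5) (nat_lit 293) (nat_lit 5) (nat_lit 485) (nat_lit 450) (nat_lit 205)) (XT.lf (nat_lit 0) (nat_lit 1259331861) (nat_lit 760) (nat_lit 17055494650) (nat_lit 836) (nat_lit 5895731503) (nat_lit 272) (nat_lit 5) (nat_lit 282) (nat_lit 5) (nat_lit 283) (nat_lit 5) (nat_lit 486) (nat_lit 450) (nat_lit 204)))))) (XT.nd (nat_lit 546) (nat_lit 2052) (nat_lit 0) (XT.nd (nat_lit 234) (nat_lit 1444) (nat_lit 0) (XT.nd (nat_lit 78) (nat_lit 760) (nat_lit 0) (XT.lf (nat_lit 0) (nat_lit 12948030227) (nat_lit 760) (nat_lit 7861757781) (nat_lit 836) (nat_lit 3680585501) (nat_lit 272) (nat_lit 5) (nat_lit 282) (nat_lit 5) (nat_lit 283) (nat_lit 5) (nat_lit 487) (nat_lit 450) (nat_lit 203)) (XT.nd (nat_lit 78) (nat_lit 76) (nat_lit 0) (XT.lf (nat_lit 0) (nat_lit 82795562) (nat_lit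 684) (nat_lit 23279073429) (nat_lit 760) (nat_lit 1413774894) (nat_lit 263) (nat_lit 5) (nat_lit 272) (nat_lit 5) (nat_lit 273) (nat_lit 5) (nat_lit 488) (nat_lit 450) (nat_lit 202)) (XT.lf (nat_lit 0) (nat_lit 1013481148) (nat_lit 760) (nat_lit 13029773686) (nat_lit 76) (nat_lit 11020713209) (nat_lit 262) (nat_lit 5) (nat_lit 272) (nat_lit 5) (nat_lit 263) (nat_lit 5) (nat_lit 489) (nat_lit 450) (nat_lit 201)))) (XT.nd (nat_lit 156) (nat_lit 684) (nat_lit 0) (XT.nd (nat_lit 78) (nat_lit 760) (nat_lit 0) (XT.lf (nat_lit 0) (nat_lit 3467289919) (nat_lit 760) (nat_lit 1145927174) (nat_lit 76) (nat_lit 20744718730) (nat_lit 262) (nat_lit 5) (nat_lit 272) (nat_lit 5) (nat_lit 263) (nat_lit 5) (nat_lit 490) (nat_lit 450) (nat_lit 200)) (XT.lf (nat_lit 0) (nat_lit 6072319592) (nat_lit 836) (nat_lit 14571028757) (nat_lit 76) (nat_lit 5012394466) (nat_lit 252) (nat_lit 5) (nat_lit 263) (nat_lit 5) (nat_lit 253)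 (nat_lit 5) (nat_lit 491) (nat_lit 450) (nat_lit 199))) (XT.nd (nat_lit 78) (nat_lit 684) (nat_lit 0) (XT.lf (nat_lit 0) (nat_lit 8764761410) (nat_lit 836) (nat_lit 2417559981) (nat_lit 76) (nat_lit 14776481019) (nat_lit 252) (nat_lit 5) (nat_lit 263) (nat_lit 5) (nat_lit 253) (nat_lit 5) (nat_lit 492) (nat_lit 450) (nat_lit 198)) (XT.lf (nat_lit 0) (nat_lit 10108506722) (nat_lit 684) (nat_lit 1465254656) (nat_lit 760) (nat_lit 14692910274) (nat_lit 243) (nat_lit 5) (nat_lit 252) (nat_lit 5) (nat_lit 253) (nat_lit 5) (nat_lit 493) (nat_lit 450) (nat_lit 197))))) (XT.nd (nat_lit 234) (nat_lit 1368) (nat_lit 0) (XT.nd (nat_lit 78) (nat_lit 684) (nat_lit 0) (XT.lf (nat_lit 0) (nat_lit 14507224815) (nat_lit 760) (nat_lit 3720539507) (nat_lit 76) (nat_lit 8351570878) (nat_lit 243) (nat_lit 5) (nat_lit 253) (nat_lit 5) (nat_lit 244) (nat_lit 5) (nat_lit 494) (nat_lit 450) (nat_lit 196)) (XT.nd (nat_lit 78)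 (nat_lit 0) (nat_lit 0) (XT.lf (nat_lit 0) (nat_lit 9072091727) (nat_lit 684) (nat_lit 8493042976) (nat_lit 760) (nat_lit 9331804313) (nat_lit 234) (nat_lit 5) (nat_lit 243) (nat_lit 5) (nat_lit 244) (nat_lit 5) (nat_lit 495) (nat_lit 450) (nat_lit 195)) (XT.lf (nat_lit 0) (nat_lit 20715866836) (nat_lit 760) (nat_lit 5061940518) (nat_lit 76) (nat_lit 1442456761) (nat_lit 234) (nat_lit 5) (nat_lit 244) (nat_lit 5) (nat_lit 235) (nat_lit 5) (nat_lit 496) (nat_lit 450) (nat_lit 194)))) (XT.nd (nat_lit 156) (nat_lit 760) (nat_lit 0) (XT.nd (nat_lit 78) (nat_lit 0) (nat_lit 0) (XT.lf (nat_lit 0) (nat_lit 8001923582) (nat_lit 608) (nat_lit 16033149966) (nat_lit 684) (nat_lit 3512875411) (nat_lit 226) (nat_lit 5) (nat_lit 234) (nat_lit 5) (nat_lit 235) (nat_lit 5) (nat_lit 497) (nat_lit 450) (nat_lit 193)) (XT.lf (nat_lit 0) (nat_lit 21392698498) (nat_lit 608) (nat_lit 6059229353) (nat_lit 684) (nat_lit 429636774)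 (nat_lit 226) (nat_lit 5) (nat_lit 234) (nat_lit 5) (nat_lit 235) (nat_lit 5) (nat_lit 498) (nat_lit 450) (nat_lit 192))) (XT.nd (nat_lit 78) (nat_lit 0) (nat_lit 0) (XT.lf (nat_lit 0) (nat_lit 2748902230) (nat_lit 760) (nat_lit 21348452056) (nat_lit 76) (nat_lit 4122763096) (nat_lit 216) (nat_lit 5) (nat_lit 226) (nat_lit 5) (nat_lit 217) (nat_lit 5) (nat_lit 499) (nat_lit 450) (nat_lit 191)) (XT.lf (nat_lit 0) (nat_lit 6066583617) (nat_lit 760) (nat_lit 8023460909) (nat_lit 76) (nat_lit 14473715635) (nat_lit 216) (nat_lit 5) (nat_lit 226) (nat_lit 5) (nat_lit 217) (nat_lit 5) (nat_lit 500) (nat_lit 450) (nat_lit 190))))))))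
noncomputable def xc238 : XT := (XT.nd (nat_lit 56940) (nat_lit 0) (nat_lit 3800) (XT.nd (nat_lit 55848) (nat_lit 0) (nat_lit 12008) (XT.nd (nat_lit 468) (nat_lit 684) (nat_lit 0) (XT.nd (nat_lit 234) (nat_lit 532) (nat_lit 0) (XT.nd (nat_lit 78) (nat_lit 608) (nat_lit 0) (XT.lf (nat_lit 0) (nat_lit 5639050660) (nat_lit 608) (nat_lit 3845591839) (nat_lit 684) (nat_lit 19428955030) (nat_lit 208) (nat_lit 5) (nat_lit 216) (nat_lit 5) (nat_lit 217) (nat_lit 5) (nat_lit 501) (nat_lit 450) (nat_lit 189)) (XT.nd (nat_lit 78) (nat_lit 608) (nat_lit 0) (XT.lf (nat_lit 0) (nat_lit 13065577584) (nat_lit 684) (nat_lit 9631982926) (nat_lit 76) (nat_lit 6570983003) (nat_lit 208) (nat_lit 5) (nat_lit 217) (nat_lit 5) (nat_lit 209) (nat_lit 5) (nat_lit 502) (nat_lit 450) (nat_lit 188)) (XT.lf (nat_lit 0) (nat_lit 4311602233) (nat_lit 608) (nat_lit 12457481478) (nat_lit 684) (nat_lit 12860487782) (nat_lit 200) (nat_lit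 5) (nat_lit 208) (nat_lit 5) (nat_lit 209) (nat_lit 5) (nat_lit 503) (nat_lit 450) (nat_lit 187)))) (XT.nd (nat_lit 78) (nat_lit 532) (nat_lit 0) (XT.lf (nat_lit 0) (nat_lit 18661732298) (nat_lit 608) (nat_lit 1947084828) (nat_lit 684) (nat_lit 9387761847) (nat_lit 200) (nat_lit 5) (nat_lit 208) (nat_lit 5) (nat_lit 209) (nat_lit 5) (nat_lit 504) (nat_lit 450) (nat_lit 186)) (XT.nd (nat_lit 78) (nat_lit 0) (nat_lit 0) (XT.lf (nat_lit 0) (nat_lit 2906208098) (nat_lit 532) (nat_lit 21692537116) (nat_lit 608) (nat_lit 5770715431) (nat_lit 193) (nat_lit 5) (nat_lit 200) (nat_lit 5) (nat_lit 201) (nat_lit 5) (nat_lit 505) (nat_lit 450) (nat_lit 185)) (XT.lf (nat_lit 0) (nat_lit 17569801602) (nat_lit 532) (nat_lit 11185139388) (nat_lit 608) (nat_lit 1993131581) (nat_lit 193) (nat_lit 5) (nat_lit 200) (nat_lit 5) (nat_lit 201) (nat_lit 5) (nat_lit 506) (nat_lit 450) (nat_lit 184))))) (XT.nd (nat_lit 55068) (nat_lit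 0) (nat_lit 13528) (XT.nd (nat_lit 78) (nat_lit 0) (nat_lit 0) (XT.lf (nat_lit 0) (nat_lit 1395799459) (nat_lit 608) (nat_lit 446498810) (nat_lit 684) (nat_lit 29291585091) (nat_lit 184) (nat_lit 5) (nat_lit 192) (nat_lit 5) (nat_lit 193) (nat_lit 5) (nat_lit 507) (nat_lit 450) (nat_lit 183)) (XT.nd (nat_lit 54912) (nat_lit 0) (nat_lit 13528) (XT.lf (nat_lit 0) (nat_lit 5882661563) (nat_lit 684) (nat_lit 15170526111) (nat_lit 76) (nat_lit 10470862829) (nat_lit 184) (nat_lit 5) (nat_lit 193) (nat_lit 5) (nat_lit 185) (nat_lit 5) (nat_lit 508) (nat_lit 450) (nat_lit 182)) (XT.lf (nat_lit 0) (nat_lit 3657356809) (nat_lit 0) (nat_lit 3657356809) (nat_lit 1596) (nat_lit 1121207421) (nat_lit 362) (nat_lit 5) (nat_lit 362) (nat_lit 3) (nat_lit 383) (nat_lit 3) (nat_lit 451) (nat_lit 451) (nat_lit 238)))) (XT.nd (nat_lit 156) (nat_lit 0) (nat_lit 0) (XT.nd (nat_lit 78) (nat_lit 0) (nat_lit 0) (XT.lf (nat_lit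 0) (nat_lit 14932067739) (nat_lit 0) (nat_lit 63244403) (nat_lit 1596) (nat_lit 2040625153) (nat_lit 362) (nat_lit 5) (nat_lit 362) (nat_lit 3) (nat_lit 383) (nat_lit 3) (nat_lit 452) (nat_lit 451) (nat_lit 237)) (XT.lf (nat_lit 76) (nat_lit 5520220929) (nat_lit 0) (nat_lit 9926005858) (nat_lit 1672) (nat_lit 1755539455) (nat_lit 363) (nat_lit 5) (nat_lit 362) (nat_lit 5) (nat_lit 384) (nat_lit 5) (nat_lit 453) (nat_lit 451) (nat_lit 236))) (XT.nd (nat_lit 78) (nat_lit 0) (nat_lit 76) (XT.lf (nat_lit 76) (nat_lit 13321887258) (nat_lit 0) (nat_lit 2593158474) (nat_lit 1672) (nat_lit 1455694267) (nat_lit 363) (nat_lit 5) (nat_lit 362) (nat_lit 5) (nat_lit 384) (nat_lit 5) (nat_lit 454) (nat_lit 451) (nat_lit 235)) (XT.lf (nat_lit 76) (nat_lit 3750887159) (nat_lit 0) (nat_lit 12692911998) (nat_lit 1672) (nat_lit 1098288746) (nat_lit 364) (nat_lit 5) (nat_lit 363) (nat_lit 5) (nat_lit 385) (nat_lit 5) (nat_lit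 455) (nat_lit 451) (nat_lit 234)))))) (XT.nd (nat_lit 546) (nat_lit 0) (nat_lit 152) (XT.nd (nat_lit 234) (nat_lit 0) (nat_lit 0) (XT.nd (nat_lit 78) (nat_lit 1596) (nat_lit 0) (XT.lf (nat_lit 76) (nat_lit 11741049211) (nat_lit 0) (nat_lit 5280876497) (nat_lit 1672) (nat_lit 694166815) (nat_lit 364) (nat_lit 5) (nat_lit 363) (nat_lit 5) (nat_lit 385) (nat_lit 5) (nat_lit 456) (nat_lit 451) (nat_lit 233)) (XT.nd (nat_lit 78) (nat_lit 1672) (nat_lit 0) (XT.lf (nat_lit 76) (nat_lit 2005822801) (nat_lit 0) (nat_lit 15628304013) (nat_lit 1672) (nat_lit 259005788) (nat_lit 365) (nat_lit 5) (nat_lit 364) (nat_lit 5) (nat_lit 386) (nat_lit 5) (nat_lit 457) (nat_lit 451) (nat_lit 232)) (XT.lf (nat_lit 0) (nat_lit 252501390) (nat_lit 1672) (nat_lit 7885227157) (nat_lit 1748) (nat_lit 9934564975) (nat_lit 342) (nat_lit 5) (nat_lit 364) (nat_lit 5) (nat_lit 365) (nat_lit 5) (nat_lit 458) (nat_lit 451) (nat_lit 231))))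 (XT.nd (nat_lit 156) (nat_lit 0) (nat_lit 76) (XT.nd (nat_lit 78) (nat_lit 0) (nat_lit 76) (XT.lf (nat_lit 76) (nat_lit 275683134) (nat_lit 0) (nat_lit 491717387) (nat_lit 1748) (nat_lit 17487675583) (nat_lit 343) (nat_lit 5) (nat_lit 342) (nat_lit 5) (nat_lit 365) (nat_lit 5) (nat_lit 459) (nat_lit 451) (nat_lit 230)) (XT.lf (nat_lit 0) (nat_lit 1388236162) (nat_lit 1672) (nat_lit 9784765414) (nat_lit 1748) (nat_lit 7266605171) (nat_lit 343) (nat_lit 5) (nat_lit 365) (nat_lit 5) (nat_lit 366) (nat_lit 5) (nat_lit 460) (nat_lit 451) (nat_lit 229))) (XT.nd (nat_lit 78) (nat_lit 0) (nat_lit 76) (XT.lf (nat_lit 0) (nat_lit 2019775117) (nat_lit 1672) (nat_lit 1432652315) (nat_lit 1748) (nat_lit 15175439918) (nat_lit 343) (nat_lit 5) (nat_lit 365) (nat_lit 5) (nat_lit 366) (nat_lit 5) (nat_lit 461) (nat_lit 451) (nat_lit 228)) (XT.lf (nat_lit 0) (nat_lit 2734708283) (nat_lit 1672) (nat_lit 11670548875) (nat_lit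 1748) (nat_lit 4413225718) (nat_lit 344) (nat_lit 5) (nat_lit 366) (nat_lit 5) (nat_lit 367) (nat_lit 5) (nat_lit 462) (nat_lit 451) (nat_lit 227))))) (XT.nd (nat_lit 234) (nat_lit 0) (nat_lit 76) (XT.nd (nat_lit 78) (nat_lit 0) (nat_lit 76) (XT.lf (nat_lit 0) (nat_lit 3491695864) (nat_lit 1672) (nat_lit 3119274379) (nat_lit 1748) (nat_lit 12401390236) (nat_lit 344) (nat_lit 5) (nat_lit 366) (nat_lit 5) (nat_lit 367) (nat_lit 5) (nat_lit 463) (nat_lit 451) (nat_lit 226)) (XT.nd (nat_lit 78) (nat_lit 0) (nat_lit 0) (XT.lf (nat_lit 0) (nat_lit 4304922194) (nat_lit 1672) (nat_lit 13544099361) (nat_lit 1748) (nat_lit 1360276884) (nat_lit 345) (nat_lit 5) (nat_lit 367) (nat_lit 5) (nat_lit 368) (nat_lit 5) (nat_lit 464) (nat_lit 451) (nat_lit 225)) (XT.lf (nat_lit 0) (nat_lit 5194654981) (nat_lit 1672) (nat_lit 4789236445) (nat_lit 1748) (nat_lit 9425083587) (nat_lit 345) (nat_lit 5) (nat_lit 367) (nat_lit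 5) (nat_lit 368) (nat_lit 5) (nat_lit 465) (nat_lit 451) (nat_lit 224)))) (XT.nd (nat_lit 156) (nat_lit 0) (nat_lit 76) (XT.nd (nat_lit 78) (nat_lit 0) (nat_lit 76) (XT.lf (nat_lit 76) (nat_lit 4192568217) (nat_lit 0) (nat_lit 1932315605) (nat_lit 1748) (nat_lit 13487311867) (nat_lit 346) (nat_lit 5) (nat_lit 345) (nat_lit 5) (nat_lit 368) (nat_lit 5) (nat_lit 466) (nat_lit 451) (nat_lit 223)) (XT.lf (nat_lit 0) (nat_lit 7142401649) (nat_lit 1672) (nat_lit 6444121633) (nat_lit 1748) (nat_lit 6231588319) (nat_lit 346) (nat_lit 5) (nat_lit 368) (nat_lit 5) (nat_lit 369) (nat_lit 5) (nat_lit 467) (nat_lit 451) (nat_lit 222))) (XT.nd (nat_lit 78) (nat_lit 0) (nat_lit 76) (XT.lf (nat_lit 76) (nat_lit 2730751736) (nat_lit 0) (nat_lit 5475689303) (nat_lit 1748) (nat_lit 11821185789) (nat_lit 347) (nat_lit 5) (nat_lit 346) (nat_lit 5) (nat_lit 369) (nat_lit 5) (nat_lit 468) (nat_lit 451) (nat_lit 221)) (XT.lf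 (nat_lit 0) (nat_lit 9349170428) (nat_lit 1672) (nat_lit 8085678781) (nat_lit 1748) (nat_lit 2805339301) (nat_lit 347) (nat_lit 5) (nat_lit 369) (nat_lit 5) (nat_lit 370) (nat_lit 5) (nat_lit 469) (nat_lit 451) (nat_lit 220))))))) (XT.nd (nat_lit 1092) (nat_lit 4408) (nat_lit 0) (XT.nd (nat_lit 546) (nat_lit 4180) (nat_lit 0) (XT.nd (nat_lit 234) (nat_lit 0) (nat_lit 76) (XT.nd (nat_lit 78) (nat_lit 0) (nat_lit 0) (XT.lf (nat_lit 76) (nat_lit 1287186847) (nat_lit 0) (nat_lit 9267988705) (nat_lit 1748) (nat_lit 9901021701) (nat_lit 348) (nat_lit 5) (nat_lit 347) (nat_lit 5) (nat_lit 370) (nat_lit 5) (nat_lit 470) (nat_lit 451) (nat_lit 219)) (XT.nd (nat_lit 78) (nat_lit 0) (nat_lit 76) (XT.lf (nat_lit 76) (nat_lit 10953960718) (nat_lit 0) (nat_lit 881462121) (nat_lit 1748) (nat_lit 8840105057) (nat_lit 348) (nat_lit 5) (nat_lit 347) (nat_lit 5) (nat_lit 370) (nat_lit 5) (nat_lit 471) (nat_lit 451) (nat_lit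 218)) (XT.lf (nat_lit 0) (nat_lit 13187042232) (nat_lit 1672) (nat_lit 138174190) (nat_lit 1748) (nat_lit 7573117471) (nat_lit 348) (nat_lit 5) (nat_lit 370) (nat_lit 5) (nat_lit 371) (nat_lit 5) (nat_lit 472) (nat_lit 451) (nat_lit 217)))) (XT.nd (nat_lit 156) (nat_lit 0) (nat_lit 76) (XT.nd (nat_lit 78) (nat_lit 0) (nat_lit 76) (XT.lf (nat_lit 76) (nat_lit 9755879439) (nat_lit 0) (nat_lit 4875023402) (nat_lit 1748) (nat_lit 6493392996) (nat_lit 349) (nat_lit 5) (nat_lit 348) (nat_lit 5) (nat_lit 371) (nat_lit 5) (nat_lit 473) (nat_lit 451) (nat_lit 216)) (XT.lf (nat_lit 0) (nat_lit 16124976382) (nat_lit 1672) (nat_lit 1532573912) (nat_lit 1748) (nat_lit 3696803938) (nat_lit 349) (nat_lit 5) (nat_lit 371) (nat_lit 5) (nat_lit 372) (nat_lit 5) (nat_lit 474) (nat_lit 451) (nat_lit 215))) (XT.nd (nat_lit 78) (nat_lit 0) (nat_lit 0) (XT.lf (nat_lit 76) (nat_lit 8577065982) (nat_lit 0) (nat_lit 9156007648)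 (nat_lit 1748) (nat_lit 3854261170) (nat_lit 350) (nat_lit 5) (nat_lit 349) (nat_lit 5) (nat_lit 372) (nat_lit 5) (nat_lit 475) (nat_lit 451) (nat_lit 214)) (XT.lf (nat_lit 76) (nat_lit 18906569391) (nat_lit 0) (nat_lit 473272082) (nat_lit 1748) (nat_lit 2445007106) (nat_lit 350) (nat_lit 5) (nat_lit 349) (nat_lit 5) (nat_lit 372) (nat_lit 5) (nat_lit 476) (nat_lit 451) (nat_lit 213))))) (XT.nd (nat_lit 234) (nat_lit 1672) (nat_lit 0) (XT.nd (nat_lit 78) (nat_lit 1064) (nat_lit 0) (XT.lf (nat_lit 0) (nat_lit 7415248912) (nat_lit 1672) (nat_lit 13743171822) (nat_lit 1748) (nat_lit 906718077) (nat_lit 328) (nat_lit 5) (nat_lit 350) (nat_lit 5) (nat_lit 351) (nat_lit 5) (nat_lit 477) (nat_lit 451) (nat_lit 212)) (XT.nd (nat_lit 78) (nat_lit 988) (nat_lit 0) (XT.lf (nat_lit 0) (nat_lit 672824405) (nat_lit 1748) (nat_lit 4325558527) (nat_lit 76) (nat_lit 17311385981) (nat_lit 327) (nat_lit 5) (nat_lit 350)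 (nat_lit 5) (nat_lit 328) (nat_lit 5) (nat_lit 478) (nat_lit 451) (nat_lit 211)) (XT.lf (nat_lit 0) (nat_lit 2334764270) (nat_lit 1064) (nat_lit 16305700812) (nat_lit 76) (nat_lit 3917451201) (nat_lit 314) (nat_lit 5) (nat_lit 328) (nat_lit 5) (nat_lit 315) (nat_lit 5) (nat_lit 479) (nat_lit 451) (nat_lit 210)))) (XT.nd (nat_lit 156) (nat_lit 836) (nat_lit 0) (XT.nd (nat_lit 78) (nat_lit 836) (nat_lit 0) (XT.lf (nat_lit 0) (nat_lit 4088716765) (nat_lit 1064) (nat_lit 5746713076) (nat_lit 76) (nat_lit 12974424702) (nat_lit 314) (nat_lit 5) (nat_lit 328) (nat_lit 5) (nat_lit 315) (nat_lit 5) (nat_lit 480) (nat_lit 451) (nat_lit 209)) (XT.lf (nat_lit 0) (nat_lit 5087082277) (nat_lit 836) (nat_lit 820217249) (nat_lit 912) (nat_lit 17158944367) (nat_lit 303) (nat_lit 5) (nat_lit 314) (nat_lit 5) (nat_lit 315) (nat_lit 5) (nat_lit 481) (nat_lit 451) (nat_lit 208))) (XT.nd (nat_lit 78) (nat_lit 836) (nat_lit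 0) (XT.lf (nat_lit 0) (nat_lit 7852023893) (nat_lit 912) (nat_lit 7169315416) (nat_lit 76) (nat_lit 8304629609) (nat_lit 303) (nat_lit 5) (nat_lit 315) (nat_lit 5) (nat_lit 304) (nat_lit 5) (nat_lit 482) (nat_lit 451) (nat_lit 207)) (XT.lf (nat_lit 0) (nat_lit 3899354175) (nat_lit 836) (nat_lit 5963677954) (nat_lit 912) (nat_lit 13727311746) (nat_lit 292) (nat_lit 5) (nat_lit 303) (nat_lit 5) (nat_lit 304) (nat_lit 5) (nat_lit 483) (nat_lit 451) (nat_lit 206)))))) (XT.nd (nat_lit 546) (nat_lit 2128) (nat_lit 0) (XT.nd (nat_lit 234) (nat_lit 1520) (nat_lit 0) (XT.nd (nat_lit 78) (nat_lit 760) (nat_lit 0) (XT.lf (nat_lit 0) (nat_lit 11980641295) (nat_lit 912) (nat_lit 8597181139) (nat_lit 76) (nat_lit 3280859441) (nat_lit 292) (nat_lit 5) (nat_lit 304) (nat_lit 5) (nat_lit 293) (nat_lit 5) (nat_lit 484) (nat_lit 451) (nat_lit 205)) (XT.nd (nat_lit 78) (nat_lit 0) (nat_lit 0) (XT.lf (nat_lit 0) (nat_lit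 2711499120) (nat_lit 760) (nat_lit 11482955788) (nat_lit 836) (nat_lit 9936857775) (nat_lit 282) (nat_lit 5) (nat_lit 292) (nat_lit 5) (nat_lit 293) (nat_lit 5) (nat_lit 485) (nat_lit 451) (nat_lit 204)) (XT.lf (nat_lit 0) (nat_lit 14359838531) (nat_lit 760) (nat_lit 2147194591) (nat_lit 836) (nat_lit 7901276256) (nat_lit 282) (nat_lit 5) (nat_lit 292) (nat_lit 5) (nat_lit 293) (nat_lit 5) (nat_lit 486) (nat_lit 451) (nat_lit 203)))) (XT.nd (nat_lit 156) (nat_lit 760) (nat_lit 0) (XT.nd (nat_lit 78) (nat_lit 0) (nat_lit 0) (XT.lf (nat_lit 0) (nat_lit 1519280716) (nat_lit 760) (nat_lit 17401192075) (nat_lit 836) (nat_lit 5769283992) (nat_lit 272) (nat_lit 5) (nat_lit 282) (nat_lit 5) (nat_lit 283) (nat_lit 5) (nat_lit 487) (nat_lit 451) (nat_lit 202)) (XT.lf (nat_lit 0) (nat_lit 13437149868) (nat_lit 760) (nat_lit 8023490517) (nat_lit 836) (nat_lit 3514626486) (nat_lit 272) (nat_lit 5) (nat_lit 282) (nat_lit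 5) (nat_lit 283) (nat_lit 5) (nat_lit 488) (nat_lit 451) (nat_lit 201))) (XT.nd (nat_lit 78) (nat_lit 76) (nat_lit 0) (XT.lf (nat_lit 0) (nat_lit 318007094) (nat_lit 684) (nat_lit 23742642553) (nat_lit 760) (nat_lit 1205659607) (nat_lit 263) (nat_lit 5) (nat_lit 272) (nat_lit 5) (nat_lit 273) (nat_lit 5) (nat_lit 489) (nat_lit 451) (nat_lit 200)) (XT.lf (nat_lit 0) (nat_lit 1262466925) (nat_lit 760) (nat_lit 13058145312) (nat_lit 76) (nat_lit 11239852612) (nat_lit 262) (nat_lit 5) (nat_lit 272) (nat_lit 5) (nat_lit 263) (nat_lit 5) (nat_lit 490) (nat_lit 451) (nat_lit 199))))) (XT.nd (nat_lit 234) (nat_lit 1368) (nat_lit 0) (XT.nd (nat_lit 78) (nat_lit 760) (nat_lit 0) (XT.lf (nat_lit 0) (nat_lit 3760867242) (nat_lit 760) (nat_lit 941175279) (nat_lit 76) (nat_lit 21158363241) (nat_lit 262) (nat_lit 5) (nat_lit 272) (nat_lit 5) (nat_lit 263) (nat_lit 5) (nat_lit 491) (nat_lit 451) (nat_lit 198)) (XT.nd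 (nat_lit 78) (nat_lit 0) (nat_lit 0) (XT.lf (nat_lit 0) (nat_lit 6415100888) (nat_lit 836) (nat_lit 14631682129) (nat_lit 76) (nat_lit 5117447810) (nat_lit 252) (nat_lit 5) (nat_lit 263) (nat_lit 5) (nat_lit 253) (nat_lit 5) (nat_lit 492) (nat_lit 451) (nat_lit 197)) (XT.lf (nat_lit 0) (nat_lit 9157051643) (nat_lit 836) (nat_lit 2239668824) (nat_lit 76) (nat_lit 15076721869) (nat_lit 252) (nat_lit 5) (nat_lit 263) (nat_lit 5) (nat_lit 253) (nat_lit 5) (nat_lit 493) (nat_lit 451) (nat_lit 196)))) (XT.nd (nat_lit 156) (nat_lit 684) (nat_lit 0) (XT.nd (nat_lit 78) (nat_lit 0) (nat_lit 0) (XT.lf (nat_lit 0) (nat_lit 10535430775) (nat_lit 684) (nat_lit 1484005282) (nat_lit 760) (nat_lit 14768092665) (nat_lit 243) (nat_lit 5) (nat_lit 252) (nat_lit 5) (nat_lit 253) (nat_lit 5) (nat_lit 494) (nat_lit 451) (nat_lit 195)) (XT.lf (nat_lit 0) (nat_lit 15007435958) (nat_lit 760) (nat_lit 3570281910) (nat_lit 76)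 (nat_lit 8528814103) (nat_lit 243) (nat_lit 5) (nat_lit 253) (nat_lit 5) (nat_lit 244) (nat_lit 5) (nat_lit 495) (nat_lit 451) (nat_lit 194))) (XT.nd (nat_lit 78) (nat_lit 0) (nat_lit 0) (XT.lf (nat_lit 0) (nat_lit 9476723867) (nat_lit 684) (nat_lit 8647110321) (nat_lit 760) (nat_lit 9306710768) (nat_lit 234) (nat_lit 5) (nat_lit 243) (nat_lit 5) (nat_lit 244) (nat_lit 5) (nat_lit 496) (nat_lit 451) (nat_lit 193)) (XT.lf (nat_lit 0) (nat_lit 21333614892) (nat_lit 760) (nat_lit 4940217953) (nat_lit 76) (nat_lit 1486586661) (nat_lit 234) (nat_lit 5) (nat_lit 244) (nat_lit 5) (nat_lit 235) (nat_lit 5) (nat_lit 497) (nat_lit 451) (nat_lit 192))))))))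
noncomputable def xc239 : XT := (XT.nd (nat_lit 57174) (nat_lit 0) (nat_lit 3116) (XT.nd (nat_lit 56082) (nat_lit 0) (nat_lit 11324) (XT.nd (nat_lit 468) (nat_lit 1140) (nat_lit 0) (XT.nd (nat_lit 234) (nat_lit 608) (nat_lit 0) (XT.nd (nat_lit 78) (nat_lit 760) (nat_lit 0) (XT.lf (nat_lit 0) (nat_lit 8383456578) (nat_lit 608) (nat_lit 16333198413) (nat_lit 684) (nat_lit 3378057626) (nat_lit 226) (nat_lit 5) (nat_lit 234) (nat_lit 5) (nat_lit 235) (nat_lit 5) (nat_lit 498) (nat_lit 451) (nat_lit 191)) (XT.nd (nat_lit 78) (nat_lit 760) (nat_lit 0) (XT.lf (nat_lit 0) (nat_lit 22037703963) (nat_lit 608) (nat_lit 6160203593) (nat_lit 684) (nat_lit 237175300) (nat_lit 226) (nat_lit 5) (nat_lit 234) (nat_lit 5) (nat_lit 235) (nat_lit 5) (nat_lit 499) (nat_lit 451) (nat_lit 190)) (XT.lf (nat_lit 0) (nat_lit 2999972328) (nat_lit 760) (nat_lit 21552969152) (nat_lit 76) (nat_lit 4227488936) (nat_lit 216) (nat_lit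 5) (nat_lit 226) (nat_lit 5) (nat_lit 217) (nat_lit 5) (nat_lit 500) (nat_lit 451) (nat_lit 189)))) (XT.nd (nat_lit 78) (nat_lit 608) (nat_lit 0) (XT.lf (nat_lit 0) (nat_lit 6380162400) (nat_lit 760) (nat_lit 7965839985) (nat_lit 76) (nat_lit 14785023848) (nat_lit 216) (nat_lit 5) (nat_lit 226) (nat_lit 5) (nat_lit 217) (nat_lit 5) (nat_lit 501) (nat_lit 451) (nat_lit 188)) (XT.nd (nat_lit 78) (nat_lit 0) (nat_lit 0) (XT.lf (nat_lit 0) (nat_lit 5968487012) (nat_lit 608) (nat_lit 3895732568) (nat_lit 684) (nat_lit 19623691247) (nat_lit 208) (nat_lit 5) (nat_lit 216) (nat_lit 5) (nat_lit 217) (nat_lit 5) (nat_lit 502) (nat_lit 451) (nat_lit 187)) (XT.lf (nat_lit 0) (nat_lit 13513220553) (nat_lit 684) (nat_lit 9608504764) (nat_lit 76) (nat_lit 6728304624) (nat_lit 208) (nat_lit 5) (nat_lit 217) (nat_lit 5) (nat_lit 209) (nat_lit 5) (nat_lit 503) (nat_lit 451) (nat_lit 186))))) (XT.nd (nat_lit 55302) (nat_lit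 0) (nat_lit 12844) (XT.nd (nat_lit 78) (nat_lit 532) (nat_lit 0) (XT.lf (nat_lit 0) (nat_lit 4612530270) (nat_lit 608) (nat_lit 12676006924) (nat_lit 684) (nat_lit 12929789574) (nat_lit 200) (nat_lit 5) (nat_lit 208) (nat_lit 5) (nat_lit 209) (nat_lit 5) (nat_lit 504) (nat_lit 451) (nat_lit 185)) (XT.nd (nat_lit 156) (nat_lit 532) (nat_lit 0) (XT.lf (nat_lit 0) (nat_lit 19245453212) (nat_lit 608) (nat_lit 1956002816) (nat_lit 684) (nat_lit 9391293590) (nat_lit 200) (nat_lit 5) (nat_lit 208) (nat_lit 5) (nat_lit 209) (nat_lit 5) (nat_lit 505) (nat_lit 451) (nat_lit 184)) (XT.lf (nat_lit 0) (nat_lit 18129672175) (nat_lit 532) (nat_lit 11375363532) (nat_lit 608) (nat_lit 1854352604) (nat_lit 193) (nat_lit 5) (nat_lit 200) (nat_lit 5) (nat_lit 201) (nat_lit 5) (nat_lit 507) (nat_lit 451) (nat_lit 182)))) (XT.nd (nat_lit 156) (nat_lit 0) (nat_lit 0) (XT.nd (nat_lit 78) (nat_lit 0) (nat_lit 0) (XT.lf (nat_lit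 0) (nat_lit 3839586397) (nat_lit 0) (nat_lit 3839586397) (nat_lit 1596) (nat_lit 920873476) (nat_lit 362) (nat_lit 5) (nat_lit 362) (nat_lit 3) (nat_lit 383) (nat_lit 3) (nat_lit 452) (nat_lit 452) (nat_lit 236)) (XT.lf (nat_lit 0) (nat_lit 15444596254) (nat_lit 0) (nat_lit 278396451) (nat_lit 1596) (nat_lit 1644657082) (nat_lit 362) (nat_lit 5) (nat_lit 362) (nat_lit 3) (nat_lit 383) (nat_lit 3) (nat_lit 453) (nat_lit 452) (nat_lit 235))) (XT.nd (nat_lit 78) (nat_lit 0) (nat_lit 0) (XT.lf (nat_lit 76) (nat_lit 5853431919) (nat_lit 0) (nat_lit 10321191133) (nat_lit 1672) (nat_lit 1362347152) (nat_lit 363) (nat_lit 5) (nat_lit 362) (nat_lit 5) (nat_lit 384) (nat_lit 5) (nat_lit 454) (nat_lit 452) (nat_lit 234)) (XT.lf (nat_lit 76) (nat_lit 13806762818) (nat_lit 0) (nat_lit 2837830622) (nat_lit 1672) (nat_lit 1064903160) (nat_lit 363) (nat_lit 5) (nat_lit 362) (nat_lit 5) (nat_lit 384) (nat_lit 5) (nat_lit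 455) (nat_lit 452) (nat_lit 233)))))) (XT.nd (nat_lit 546) (nat_lit 0) (nat_lit 152) (XT.nd (nat_lit 234) (nat_lit 0) (nat_lit 0) (XT.nd (nat_lit 78) (nat_lit 1596) (nat_lit 0) (XT.lf (nat_lit 76) (nat_lit 4052750471) (nat_lit 0) (nat_lit 13123353333) (nat_lit 1672) (nat_lit 708332515) (nat_lit 364) (nat_lit 5) (nat_lit 363) (nat_lit 5) (nat_lit 385) (nat_lit 5) (nat_lit 456) (nat_lit 452) (nat_lit 232)) (XT.nd (nat_lit 78) (nat_lit 1596) (nat_lit 0) (XT.lf (nat_lit 76) (nat_lit 12198267812) (nat_lit 0) (nat_lit 5559614709) (nat_lit 1672) (nat_lit 304205048) (nat_lit 364) (nat_lit 5) (nat_lit 363) (nat_lit 5) (nat_lit 385) (nat_lit 5) (nat_lit 457) (nat_lit 452) (nat_lit 231)) (XT.lf (nat_lit 0) (nat_lit 130408906) (nat_lit 1672) (nat_lit 15967419431) (nat_lit 1748) (nat_lit 2144978356) (nat_lit 342) (nat_lit 5) (nat_lit 364) (nat_lit 5) (nat_lit 365) (nat_lit 5) (nat_lit 458) (nat_lit 452) (nat_lit 230))))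 (XT.nd (nat_lit 156) (nat_lit 0) (nat_lit 76) (XT.nd (nat_lit 78) (nat_lit 0) (nat_lit 0) (XT.lf (nat_lit 0) (nat_lit 641012168) (nat_lit 1672) (nat_lit 7811636311) (nat_lit 1748) (nat_lit 9973029278) (nat_lit 342) (nat_lit 5) (nat_lit 364) (nat_lit 5) (nat_lit 365) (nat_lit 5) (nat_lit 459) (nat_lit 452) (nat_lit 229)) (XT.lf (nat_lit 76) (nat_lit 510970505) (nat_lit 0) (nat_lit 649211781) (nat_lit 1748) (nat_lit 17452061939) (nat_lit 343) (nat_lit 5) (nat_lit 342) (nat_lit 5) (nat_lit 365) (nat_lit 5) (nat_lit 460) (nat_lit 452) (nat_lit 228))) (XT.nd (nat_lit 78) (nat_lit 0) (nat_lit 0) (XT.lf (nat_lit 0) (nat_lit 1785094070) (nat_lit 1672) (nat_lit 9746474628) (nat_lit 1748) (nat_lit 7269071139) (nat_lit 343) (nat_lit 5) (nat_lit 365) (nat_lit 5) (nat_lit 366) (nat_lit 5) (nat_lit 461) (nat_lit 452) (nat_lit 227)) (XT.lf (nat_lit 0) (nat_lit 2422026683) (nat_lit 1672) (nat_lit 1231907229) (nat_lit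 1748) (nat_lit 15338883878) (nat_lit 343) (nat_lit 5) (nat_lit 365) (nat_lit 5) (nat_lit 366) (nat_lit 5) (nat_lit 462) (nat_lit 452) (nat_lit 226))))) (XT.nd (nat_lit 234) (nat_lit 0) (nat_lit 76) (XT.nd (nat_lit 78) (nat_lit 0) (nat_lit 0) (XT.lf (nat_lit 0) (nat_lit 3144809558) (nat_lit 1672) (nat_lit 11667750232) (nat_lit 1748) (nat_lit 4374822067) (nat_lit 344) (nat_lit 5) (nat_lit 366) (nat_lit 5) (nat_lit 367) (nat_lit 5) (nat_lit 463) (nat_lit 452) (nat_lit 225)) (XT.nd (nat_lit 78) (nat_lit 0) (nat_lit 76) (XT.lf (nat_lit 0) (nat_lit 3909968124) (nat_lit 1672) (nat_lit 2950081806) (nat_lit 1748) (nat_lit 12525233564) (nat_lit 344) (nat_lit 5) (nat_lit 366) (nat_lit 5) (nat_lit 367) (nat_lit 5) (nat_lit 464) (nat_lit 452) (nat_lit 224)) (XT.lf (nat_lit 0) (nat_lit 4733386558) (nat_lit 1672) (nat_lit 13576982407) (nat_lit 1748) (nat_lit 1275919667) (nat_lit 345) (nat_lit 5) (nat_lit 367) (nat_lit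 5) (nat_lit 368) (nat_lit 5) (nat_lit 465) (nat_lit 452) (nat_lit 223)))) (XT.nd (nat_lit 156) (nat_lit 0) (nat_lit 76) (XT.nd (nat_lit 78) (nat_lit 0) (nat_lit 0) (XT.lf (nat_lit 0) (nat_lit 5634200943) (nat_lit 1672) (nat_lit 4651688879) (nat_lit 1748) (nat_lit 9504210009) (nat_lit 345) (nat_lit 5) (nat_lit 367) (nat_lit 5) (nat_lit 368) (nat_lit 5) (nat_lit 466) (nat_lit 452) (nat_lit 222)) (XT.lf (nat_lit 76) (nat_lit 4508216796) (nat_lit 0) (nat_lit 2069741117) (nat_lit 1748) (nat_lit 13419535235) (nat_lit 346) (nat_lit 5) (nat_lit 345) (nat_lit 5) (nat_lit 368) (nat_lit 5) (nat_lit 467) (nat_lit 452) (nat_lit 221))) (XT.nd (nat_lit 78) (nat_lit 0) (nat_lit 0) (XT.lf (nat_lit 0) (nat_lit 7608715442) (nat_lit 1672) (nat_lit 6338312880) (nat_lit 1748) (nat_lit 6260647837) (nat_lit 346) (nat_lit 5) (nat_lit 368) (nat_lit 5) (nat_lit 369) (nat_lit 5) (nat_lit 468) (nat_lit 452) (nat_lit 220)) (XT.lf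 (nat_lit 76) (nat_lit 3018513936) (nat_lit 0) (nat_lit 5670692964) (nat_lit 1748) (nat_lit 11732277803) (nat_lit 347) (nat_lit 5) (nat_lit 346) (nat_lit 5) (nat_lit 369) (nat_lit 5) (nat_lit 469) (nat_lit 452) (nat_lit 219))))))) (XT.nd (nat_lit 1092) (nat_lit 5244) (nat_lit 0) (XT.nd (nat_lit 546) (nat_lit 3344) (nat_lit 0) (XT.nd (nat_lit 234) (nat_lit 0) (nat_lit 76) (XT.nd (nat_lit 78) (nat_lit 0) (nat_lit 0) (XT.lf (nat_lit 0) (nat_lit 9847998918) (nat_lit 1672) (nat_lit 8011709138) (nat_lit 1748) (nat_lit 2778731715) (nat_lit 347) (nat_lit 5) (nat_lit 369) (nat_lit 5) (nat_lit 370) (nat_lit 5) (nat_lit 470) (nat_lit 452) (nat_lit 218)) (XT.nd (nat_lit 78) (nat_lit 0) (nat_lit 0) (XT.lf (nat_lit 76) (nat_lit 1547063256) (nat_lit 0) (nat_lit 9526466424) (nat_lit 1748) (nat_lit 9785337086) (nat_lit 348) (nat_lit 5) (nat_lit 347) (nat_lit 5) (nat_lit 370) (nat_lit 5) (nat_lit 471) (nat_lit 452) (nat_lit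 217)) (XT.lf (nat_lit 76) (nat_lit 11402581767) (nat_lit 0) (nat_lit 970775623) (nat_lit 1748) (nat_lit 8709353188) (nat_lit 348) (nat_lit 5) (nat_lit 347) (nat_lit 5) (nat_lit 370) (nat_lit 5) (nat_lit 472) (nat_lit 452) (nat_lit 216)))) (XT.nd (nat_lit 156) (nat_lit 0) (nat_lit 76) (XT.nd (nat_lit 78) (nat_lit 0) (nat_lit 0) (XT.lf (nat_lit 76) (nat_lit 91969633) (nat_lit 0) (nat_lit 13654273975) (nat_lit 1748) (nat_lit 7563850346) (nat_lit 349) (nat_lit 5) (nat_lit 348) (nat_lit 5) (nat_lit 371) (nat_lit 5) (nat_lit 473) (nat_lit 452) (nat_lit 215)) (XT.lf (nat_lit 76) (nat_lit 10181173788) (nat_lit 0) (nat_lit 5032923339) (nat_lit 1748) (nat_lit 6326581528) (nat_lit 349) (nat_lit 5) (nat_lit 348) (nat_lit 5) (nat_lit 371) (nat_lit 5) (nat_lit 474) (nat_lit 452) (nat_lit 214))) (XT.nd (nat_lit 78) (nat_lit 0) (nat_lit 0) (XT.lf (nat_lit 0) (nat_lit 16731970102) (nat_lit 1672) (nat_lit 1331194006) (nat_lit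 1748) (nat_lit 3712301469) (nat_lit 349) (nat_lit 5) (nat_lit 371) (nat_lit 5) (nat_lit 372) (nat_lit 5) (nat_lit 475) (nat_lit 452) (nat_lit 213)) (XT.lf (nat_lit 76) (nat_lit 8979112164) (nat_lit 0) (nat_lit 9389035404) (nat_lit 1748) (nat_lit 3645045427) (nat_lit 350) (nat_lit 5) (nat_lit 349) (nat_lit 5) (nat_lit 372) (nat_lit 5) (nat_lit 476) (nat_lit 452) (nat_lit 212))))) (XT.nd (nat_lit 234) (nat_lit 1824) (nat_lit 0) (XT.nd (nat_lit 78) (nat_lit 1672) (nat_lit 0) (XT.lf (nat_lit 76) (nat_lit 19510685938) (nat_lit 0) (nat_lit 531666546) (nat_lit 1748) (nat_lit 2213220027) (nat_lit 350) (nat_lit 5) (nat_lit 349) (nat_lit 5) (nat_lit 372) (nat_lit 5) (nat_lit 477) (nat_lit 452) (nat_lit 211)) (XT.nd (nat_lit 78) (nat_lit 76) (nat_lit 0) (XT.lf (nat_lit 0) (nat_lit 7794102954) (nat_lit 1672) (nat_lit 14058195329) (nat_lit 1748) (nat_lit 648459753) (nat_lit 328) (nat_lit 5) (nat_lit 350) (nat_lit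 5) (nat_lit 351) (nat_lit 5) (nat_lit 478) (nat_lit 452) (nat_lit 210)) (XT.lf (nat_lit 0) (nat_lit 953700252) (nat_lit 1748) (nat_lit 4182228432) (nat_lit 76) (nat_lit 17614428311) (nat_lit 327) (nat_lit 5) (nat_lit 350) (nat_lit 5) (nat_lit 328) (nat_lit 5) (nat_lit 479) (nat_lit 452) (nat_lit 209)))) (XT.nd (nat_lit 156) (nat_lit 836) (nat_lit 0) (XT.nd (nat_lit 78) (nat_lit 0) (nat_lit 0) (XT.lf (nat_lit 0) (nat_lit 2644888482) (nat_lit 1064) (nat_lit 16397729298) (nat_lit 76) (nat_lit 3960934419) (nat_lit 314) (nat_lit 5) (nat_lit 328) (nat_lit 5) (nat_lit 315) (nat_lit 5) (nat_lit 480) (nat_lit 452) (nat_lit 208)) (XT.lf (nat_lit 0) (nat_lit 4428754754) (nat_lit 1064) (nat_lit 5632151719) (nat_lit 76) (nat_lit 13199731033) (nat_lit 314) (nat_lit 5) (nat_lit 328) (nat_lit 5) (nat_lit 315) (nat_lit 5) (nat_lit 481) (nat_lit 452) (nat_lit 207))) (XT.nd (nat_lit 78) (nat_lit 0) (nat_lit 0) (XT.lf (nat_lit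 0) (nat_lit 5416809701) (nat_lit 836) (nat_lit 863315710) (nat_lit 912) (nat_lit 17242105786) (nat_lit 303) (nat_lit 5) (nat_lit 314) (nat_lit 5) (nat_lit 315) (nat_lit 5) (nat_lit 482) (nat_lit 452) (nat_lit 206)) (XT.lf (nat_lit 0) (nat_lit 8258580624) (nat_lit 912) (nat_lit 7083783421) (nat_lit 76) (nat_lit 8444894733) (nat_lit 303) (nat_lit 5) (nat_lit 315) (nat_lit 5) (nat_lit 304) (nat_lit 5) (nat_lit 483) (nat_lit 452) (nat_lit 205)))))) (XT.nd (nat_lit 546) (nat_lit 2204) (nat_lit 0) (XT.nd (nat_lit 234) (nat_lit 1444) (nat_lit 0) (XT.nd (nat_lit 78) (nat_lit 760) (nat_lit 0) (XT.lf (nat_lit 0) (nat_lit 4204753519) (nat_lit 836) (nat_lit 6101639542) (nat_lit 912) (nat_lit 13750601184) (nat_lit 292) (nat_lit 5) (nat_lit 303) (nat_lit 5) (nat_lit 304) (nat_lit 5) (nat_lit 484) (nat_lit 452) (nat_lit 204)) (XT.nd (nat_lit 78) (nat_lit 760) (nat_lit 0) (XT.lf (nat_lit 0) (nat_lit 12461409958) (nat_lit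 912) (nat_lit 8540997209) (nat_lit 76) (nat_lit 3328395325) (nat_lit 292) (nat_lit 5) (nat_lit 304) (nat_lit 5) (nat_lit 293) (nat_lit 5) (nat_lit 485) (nat_lit 452) (nat_lit 203)) (XT.lf (nat_lit 0) (nat_lit 2992355817) (nat_lit 760) (nat_lit 11723886893) (nat_lit 836) (nat_lit 9892712858) (nat_lit 282) (nat_lit 5) (nat_lit 292) (nat_lit 5) (nat_lit 293) (nat_lit 5) (nat_lit 486) (nat_lit 452) (nat_lit 202)))) (XT.nd (nat_lit 156) (nat_lit 684) (nat_lit 0) (XT.nd (nat_lit 78) (nat_lit 760) (nat_lit 0) (XT.lf (nat_lit 0) (nat_lit 14869218354) (nat_lit 760) (nat_lit 2201189452) (nat_lit 836) (nat_lit 7821182102) (nat_lit 282) (nat_lit 5) (nat_lit 292) (nat_lit 5) (nat_lit 293) (nat_lit 5) (nat_lit 487) (nat_lit 452) (nat_lit 201)) (XT.lf (nat_lit 0) (nat_lit 1775312445) (nat_lit 760) (nat_lit 17753625309) (nat_lit 836) (nat_lit 5649796412) (nat_lit 272) (nat_lit 5) (nat_lit 282) (nat_lit 5) (nat_lit 283)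 (nat_lit 5) (nat_lit 488) (nat_lit 452) (nat_lit 200))) (XT.nd (nat_lit 78) (nat_lit 684) (nat_lit 0) (XT.lf (nat_lit 0) (nat_lit 13927114547) (nat_lit 760) (nat_lit 8188283261) (nat_lit 836) (nat_lit 3354651113) (nat_lit 272) (nat_lit 5) (nat_lit 282) (nat_lit 5) (nat_lit 283) (nat_lit 5) (nat_lit 489) (nat_lit 452) (nat_lit 199)) (XT.lf (nat_lit 0) (nat_lit 548853608) (nat_lit 684) (nat_lit 24215561201) (nat_lit 760) (nat_lit 1002561356) (nat_lit 263) (nat_lit 5) (nat_lit 272) (nat_lit 5) (nat_lit 273) (nat_lit 5) (nat_lit 490) (nat_lit 452) (nat_lit 198))))) (XT.nd (nat_lit 234) (nat_lit 1368) (nat_lit 0) (XT.nd (nat_lit 78) (nat_lit 760) (nat_lit 0) (XT.lf (nat_lit 0) (nat_lit 1507551091) (nat_lit 760) (nat_lit 13096101906) (nat_lit 76) (nat_lit 11463424308) (nat_lit 262) (nat_lit 5) (nat_lit 272) (nat_lit 5) (nat_lit 263) (nat_lit 5) (nat_lit 491) (nat_lit 452) (nat_lit 197)) (XT.nd (nat_lit 78)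 (nat_lit 760) (nat_lit 0) (XT.lf (nat_lit 0) (nat_lit 4051608927) (nat_lit 760) (nat_lit 741169067) (nat_lit 76) (nat_lit 21580329175) (nat_lit 262) (nat_lit 5) (nat_lit 272) (nat_lit 5) (nat_lit 263) (nat_lit 5) (nat_lit 492) (nat_lit 452) (nat_lit 196)) (XT.lf (nat_lit 0) (nat_lit 6756143107) (nat_lit 836) (nat_lit 14702509540) (nat_lit 76) (nat_lit 5224415620) (nat_lit 252) (nat_lit 5) (nat_lit 263) (nat_lit 5) (nat_lit 253) (nat_lit 5) (nat_lit 493) (nat_lit 452) (nat_lit 195)))) (XT.nd (nat_lit 156) (nat_lit 684) (nat_lit 0) (XT.nd (nat_lit 78) (nat_lit 684) (nat_lit 0) (XT.lf (nat_lit 0) (nat_lit 9548761501) (nat_lit 836) (nat_lit 2067005111) (nat_lit 76) (nat_lit 15382784594) (nat_lit 252) (nat_lit 5) (nat_lit 263) (nat_lit 5) (nat_lit 253) (nat_lit 5) (nat_lit 494) (nat_lit 452) (nat_lit 194)) (XT.lf (nat_lit 0) (nat_lit 10962165842) (nat_lit 684) (nat_lit 1503540764) (nat_lit 760) (nat_lit 14853270152)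 (nat_lit 243) (nat_lit 5) (nat_lit 252) (nat_lit 5) (nat_lit 253) (nat_lit 5) (nat_lit 495) (nat_lit 452) (nat_lit 193))) (XT.nd (nat_lit 78) (nat_lit 684) (nat_lit 0) (XT.lf (nat_lit 0) (nat_lit 15509494179) (nat_lit 760) (nat_lit 3425743308) (nat_lit 76) (nat_lit 8709205655) (nat_lit 243) (nat_lit 5) (nat_lit 253) (nat_lit 5) (nat_lit 244) (nat_lit 5) (nat_lit 496) (nat_lit 452) (nat_lit 192)) (XT.lf (nat_lit 0) (nat_lit 9880781899) (nat_lit 684) (nat_lit 8804872295) (nat_lit 760) (nat_lit 9289337072) (nat_lit 234) (nat_lit 5) (nat_lit 243) (nat_lit 5) (nat_lit 244) (nat_lit 5) (nat_lit 497) (nat_lit 452) (nat_lit 191))))))))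
noncomputable def xc240 : XT := (XT.nd (nat_lit 57174) (nat_lit 0) (nat_lit 3800) (XT.nd (nat_lit 56082) (nat_lit 0) (nat_lit 11248) (XT.nd (nat_lit 468) (nat_lit 1140) (nat_lit 0) (XT.nd (nat_lit 234) (nat_lit 1368) (nat_lit 0) (XT.nd (nat_lit 78) (nat_lit 608) (nat_lit 0) (XT.lf (nat_lit 0) (nat_lit 21955818446) (nat_lit 760) (nat_lit 4824718799) (nat_lit 76) (nat_lit 1531005787) (nat_lit 234) (nat_lit 5) (nat_lit 244) (nat_lit 5) (nat_lit 235) (nat_lit 5) (nat_lit 498) (nat_lit 452) (nat_lit 190)) (XT.nd (nat_lit 78) (nat_lit 0) (nat_lit 0) (XT.lf (nat_lit 0) (nat_lit 8764019332) (nat_lit 608) (nat_lit 16640048316) (nat_lit 684) (nat_lit 3248506809) (nat_lit 226) (nat_lit 5) (nat_lit 234) (nat_lit 5) (nat_lit 235) (nat_lit 5) (nat_lit 499) (nat_lit 452) (nat_lit 189)) (XT.lf (nat_lit 0) (nat_lit 22687177279) (nat_lit 608) (nat_lit 6263982111) (nat_lit 684) (nat_lit 48671777) (nat_lit 226) (nat_lit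 5) (nat_lit 234) (nat_lit 5) (nat_lit 235) (nat_lit 5) (nat_lit 500) (nat_lit 452) (nat_lit 188)))) (XT.nd (nat_lit 78) (nat_lit 608) (nat_lit 0) (XT.lf (nat_lit 0) (nat_lit 3248449334) (nat_lit 760) (nat_lit 21770214671) (nat_lit 76) (nat_lit 4333444499) (nat_lit 216) (nat_lit 5) (nat_lit 226) (nat_lit 5) (nat_lit 217) (nat_lit 5) (nat_lit 501) (nat_lit 452) (nat_lit 187)) (XT.nd (nat_lit 78) (nat_lit 608) (nat_lit 0) (XT.lf (nat_lit 0) (nat_lit 6692547570) (nat_lit 760) (nat_lit 7915535349) (nat_lit 76) (nat_lit 15101710388) (nat_lit 216) (nat_lit 5) (nat_lit 226) (nat_lit 5) (nat_lit 217) (nat_lit 5) (nat_lit 502) (nat_lit 452) (nat_lit 186)) (XT.lf (nat_lit 0) (nat_lit 6296099100) (nat_lit 608) (nat_lit 3947915666) (nat_lit 684) (nat_lit 19829849343) (nat_lit 208) (nat_lit 5) (nat_lit 216) (nat_lit 5) (nat_lit 217) (nat_lit 5) (nat_lit 503) (nat_lit 452) (nat_lit 185))))) (XT.nd (nat_lit 234) (nat_lit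 532) (nat_lit 0) (XT.nd (nat_lit 78) (nat_lit 608) (nat_lit 0) (XT.lf (nat_lit 0) (nat_lit 13962580906) (nat_lit 684) (nat_lit 9592949157) (nat_lit 76) (nat_lit 6887766873) (nat_lit 208) (nat_lit 5) (nat_lit 217) (nat_lit 5) (nat_lit 209) (nat_lit 5) (nat_lit 504) (nat_lit 452) (nat_lit 184)) (XT.nd (nat_lit 78) (nat_lit 0) (nat_lit 0) (XT.lf (nat_lit 0) (nat_lit 4911139961) (nat_lit 608) (nat_lit 12900092054) (nat_lit 684) (nat_lit 13007774096) (nat_lit 200) (nat_lit 5) (nat_lit 208) (nat_lit 5) (nat_lit 209) (nat_lit 5) (nat_lit 505) (nat_lit 452) (nat_lit 183)) (XT.lf (nat_lit 0) (nat_lit 19832675105) (nat_lit 608) (nat_lit 1966265020) (nat_lit 684) (nat_lit 9402049590) (nat_lit 200) (nat_lit 5) (nat_lit 208) (nat_lit 5) (nat_lit 209) (nat_lit 5) (nat_lit 506) (nat_lit 452) (nat_lit 182)))) (XT.nd (nat_lit 55224) (nat_lit 0) (nat_lit 12844) (XT.nd (nat_lit 55146) (nat_lit 0) (nat_lit 12844) (XT.lf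 (nat_lit 0) (nat_lit 3444902621) (nat_lit 532) (nat_lit 22501262235) (nat_lit 608) (nat_lit 5642854772) (nat_lit 193) (nat_lit 5) (nat_lit 200) (nat_lit 5) (nat_lit 201) (nat_lit 5) (nat_lit 507) (nat_lit 452) (nat_lit 181)) (XT.lf (nat_lit 0) (nat_lit 4021224772) (nat_lit 0) (nat_lit 4021224772) (nat_lit 1596) (nat_lit 725182821) (nat_lit 362) (nat_lit 5) (nat_lit 362) (nat_lit 3) (nat_lit 383) (nat_lit 3) (nat_lit 453) (nat_lit 453) (nat_lit 234))) (XT.nd (nat_lit 78) (nat_lit 0) (nat_lit 0) (XT.lf (nat_lit 0) (nat_lit 15959069841) (nat_lit 0) (nat_lit 489546041) (nat_lit 1596) (nat_lit 1257730371) (nat_lit 362) (nat_lit 5) (nat_lit 362) (nat_lit 3) (nat_lit 383) (nat_lit 3) (nat_lit 454) (nat_lit 453) (nat_lit 233)) (XT.lf (nat_lit 76) (nat_lit 6184655278) (nat_lit 0) (nat_lit 10716643366) (nat_lit 1672) (nat_lit 977922534) (nat_lit 363) (nat_lit 5) (nat_lit 362) (nat_lit 5) (nat_lit 384) (nat_lit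 5) (nat_lit 455) (nat_lit 453) (nat_lit 232)))))) (XT.nd (nat_lit 546) (nat_lit 0) (nat_lit 152) (XT.nd (nat_lit 234) (nat_lit 0) (nat_lit 76) (XT.nd (nat_lit 78) (nat_lit 1596) (nat_lit 0) (XT.lf (nat_lit 76) (nat_lit 14292853682) (nat_lit 0) (nat_lit 3079909205) (nat_lit 1672) (nat_lit 682601654) (nat_lit 363) (nat_lit 5) (nat_lit 362) (nat_lit 5) (nat_lit 384) (nat_lit 5) (nat_lit 456) (nat_lit 453) (nat_lit 231)) (XT.nd (nat_lit 78) (nat_lit 1672) (nat_lit 0) (XT.lf (nat_lit 76) (nat_lit 4351842360) (nat_lit 0) (nat_lit 13555546559) (nat_lit 1672) (nat_lit 326572593) (nat_lit 364) (nat_lit 5) (nat_lit 363) (nat_lit 5) (nat_lit 385) (nat_lit 5) (nat_lit 457) (nat_lit 453) (nat_lit 230)) (XT.lf (nat_lit 0) (nat_lit 76852823) (nat_lit 1672) (nat_lit 5759836652) (nat_lit 1748) (nat_lit 12578626268) (nat_lit 341) (nat_lit 5) (nat_lit 363) (nat_lit 5) (nat_lit 364) (nat_lit 5) (nat_lit 458) (nat_lit 453)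 (nat_lit 229)))) (XT.nd (nat_lit 156) (nat_lit 0) (nat_lit 0) (XT.nd (nat_lit 78) (nat_lit 0) (nat_lit 0) (XT.lf (nat_lit 0) (nat_lit 508958996) (nat_lit 1672) (nat_lit 16060007634) (nat_lit 1748) (nat_lit 2030792633) (nat_lit 342) (nat_lit 5) (nat_lit 364) (nat_lit 5) (nat_lit 365) (nat_lit 5) (nat_lit 459) (nat_lit 453) (nat_lit 228)) (XT.lf (nat_lit 0) (nat_lit 1022402913) (nat_lit 1672) (nat_lit 7745555129) (nat_lit 1748) (nat_lit 10018484678) (nat_lit 342) (nat_lit 5) (nat_lit 364) (nat_lit 5) (nat_lit 365) (nat_lit 5) (nat_lit 460) (nat_lit 453) (nat_lit 227))) (XT.nd (nat_lit 78) (nat_lit 0) (nat_lit 76) (XT.lf (nat_lit 76) (nat_lit 742041231) (nat_lit 0) (nat_lit 804122243) (nat_lit 1748) (nat_lit 17430700298) (nat_lit 343) (nat_lit 5) (nat_lit 342) (nat_lit 5) (nat_lit 365) (nat_lit 5) (nat_lit 461) (nat_lit 453) (nat_lit 226)) (XT.lf (nat_lit 0) (nat_lit 2175556798) (nat_lit 1672) (nat_lit 9716503991)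 (nat_lit 1748) (nat_lit 7277134092) (nat_lit 343) (nat_lit 5) (nat_lit 365) (nat_lit 5) (nat_lit 366) (nat_lit 5) (nat_lit 462) (nat_lit 453) (nat_lit 225))))) (XT.nd (nat_lit 234) (nat_lit 0) (nat_lit 152) (XT.nd (nat_lit 78) (nat_lit 0) (nat_lit 76) (XT.lf (nat_lit 0) (nat_lit 2818271968) (nat_lit 1672) (nat_lit 1036055051) (nat_lit 1748) (nat_lit 15511035605) (nat_lit 343) (nat_lit 5) (nat_lit 365) (nat_lit 5) (nat_lit 366) (nat_lit 5) (nat_lit 463) (nat_lit 453) (nat_lit 224)) (XT.nd (nat_lit 78) (nat_lit 0) (nat_lit 0) (XT.lf (nat_lit 0) (nat_lit 3549311967) (nat_lit 1672) (nat_lit 11674067922) (nat_lit 1748) (nat_lit 4340569022) (nat_lit 344) (nat_lit 5) (nat_lit 366) (nat_lit 5) (nat_lit 367) (nat_lit 5) (nat_lit 464) (nat_lit 453) (nat_lit 223)) (XT.lf (nat_lit 0) (nat_lit 4323075544) (nat_lit 1672) (nat_lit 2786497840) (nat_lit 1748) (nat_lit 12656375994) (nat_lit 344) (nat_lit 5) (nat_lit 366)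 (nat_lit 5) (nat_lit 367) (nat_lit 5) (nat_lit 465) (nat_lit 453) (nat_lit 222)))) (XT.nd (nat_lit 156) (nat_lit 0) (nat_lit 0) (XT.nd (nat_lit 78) (nat_lit 0) (nat_lit 0) (XT.lf (nat_lit 0) (nat_lit 5157125722) (nat_lit 1672) (nat_lit 13619764903) (nat_lit 1748) (nat_lit 1194207424) (nat_lit 345) (nat_lit 5) (nat_lit 367) (nat_lit 5) (nat_lit 368) (nat_lit 5) (nat_lit 466) (nat_lit 453) (nat_lit 221)) (XT.lf (nat_lit 0) (nat_lit 6069504014) (nat_lit 1672) (nat_lit 4520450938) (nat_lit 1748) (nat_lit 9589166135) (nat_lit 345) (nat_lit 5) (nat_lit 367) (nat_lit 5) (nat_lit 368) (nat_lit 5) (nat_lit 467) (nat_lit 453) (nat_lit 220))) (XT.nd (nat_lit 78) (nat_lit 0) (nat_lit 76) (XT.lf (nat_lit 76) (nat_lit 4821177378) (nat_lit 0) (nat_lit 2206079423) (nat_lit 1748) (nat_lit 13363509495) (nat_lit 346) (nat_lit 5) (nat_lit 345) (nat_lit 5) (nat_lit 368) (nat_lit 5) (nat_lit 468) (nat_lit 453) (nat_lit 219))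 (XT.lf (nat_lit 0) (nat_lit 8071794940) (nat_lit 1672) (nat_lit 6239501296) (nat_lit 1748) (nat_lit 6293999733) (nat_lit 346) (nat_lit 5) (nat_lit 368) (nat_lit 5) (nat_lit 369) (nat_lit 5) (nat_lit 469) (nat_lit 453) (nat_lit 218))))))) (XT.nd (nat_lit 1014) (nat_lit 5396) (nat_lit 0) (XT.nd (nat_lit 468) (nat_lit 2432) (nat_lit 0) (XT.nd (nat_lit 234) (nat_lit 0) (nat_lit 76) (XT.nd (nat_lit 78) (nat_lit 0) (nat_lit 76) (XT.lf (nat_lit 76) (nat_lit 3302977990) (nat_lit 0) (nat_lit 5866277022) (nat_lit 1748) (nat_lit 11654224685) (nat_lit 347) (nat_lit 5) (nat_lit 346) (nat_lit 5) (nat_lit 369) (nat_lit 5) (nat_lit 470) (nat_lit 453) (nat_lit 217)) (XT.nd (nat_lit 78) (nat_lit 0) (nat_lit 0) (XT.lf (nat_lit 0) (nat_lit 10344694652) (nat_lit 1672) (nat_lit 7945411968) (nat_lit 1748) (nat_lit 2754803877) (nat_lit 347) (nat_lit 5) (nat_lit 369) (nat_lit 5) (nat_lit 370) (nat_lit 5) (nat_lit 471) (nat_lit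 453) (nat_lit 216)) (XT.lf (nat_lit 76) (nat_lit 1803045535) (nat_lit 0) (nat_lit 9787274438) (nat_lit 1748) (nat_lit 9679520328) (nat_lit 348) (nat_lit 5) (nat_lit 347) (nat_lit 5) (nat_lit 370) (nat_lit 5) (nat_lit 472) (nat_lit 453) (nat_lit 215)))) (XT.nd (nat_lit 78) (nat_lit 0) (nat_lit 76) (XT.lf (nat_lit 76) (nat_lit 11851261848) (nat_lit 0) (nat_lit 1059091807) (nat_lit 1748) (nat_lit 8587928978) (nat_lit 348) (nat_lit 5) (nat_lit 347) (nat_lit 5) (nat_lit 370) (nat_lit 5) (nat_lit 473) (nat_lit 453) (nat_lit 214)) (XT.nd (nat_lit 78) (nat_lit 0) (nat_lit 0) (XT.lf (nat_lit 76) (nat_lit 319472517) (nat_lit 0) (nat_lit 13986574620) (nat_lit 1748) (nat_lit 7424265267) (nat_lit 349) (nat_lit 5) (nat_lit 348) (nat_lit 5) (nat_lit 371) (nat_lit 5) (nat_lit 474) (nat_lit 453) (nat_lit 213)) (XT.lf (nat_lit 76) (nat_lit 10606035980) (nat_lit 0) (nat_lit 5191635890) (nat_lit 1748) (nat_lit 6167954251)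 (nat_lit 349) (nat_lit 5) (nat_lit 348) (nat_lit 5) (nat_lit 371) (nat_lit 5) (nat_lit 475) (nat_lit 453) (nat_lit 212))))) (XT.nd (nat_lit 234) (nat_lit 2660) (nat_lit 0) (XT.nd (nat_lit 78) (nat_lit 0) (nat_lit 0) (XT.lf (nat_lit 0) (nat_lit 17340056440) (nat_lit 1672) (nat_lit 1134796563) (nat_lit 1748) (nat_lit 3730378190) (nat_lit 349) (nat_lit 5) (nat_lit 371) (nat_lit 5) (nat_lit 372) (nat_lit 5) (nat_lit 476) (nat_lit 453) (nat_lit 211)) (XT.nd (nat_lit 78) (nat_lit 0) (nat_lit 0) (XT.lf (nat_lit 76) (nat_lit 9380248484) (nat_lit 0) (nat_lit 9624785741) (nat_lit 1748) (nat_lit 3442762786) (nat_lit 350) (nat_lit 5) (nat_lit 349) (nat_lit 5) (nat_lit 372) (nat_lit 5) (nat_lit 477) (nat_lit 453) (nat_lit 210)) (XT.lf (nat_lit 76) (nat_lit 20118109536) (nat_lit 0) (nat_lit 589328926) (nat_lit 1748) (nat_lit 1987696633) (nat_lit 350) (nat_lit 5) (nat_lit 349) (nat_lit 5) (nat_lit 372) (nat_lit 5) (nat_lit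 478) (nat_lit 453) (nat_lit 209)))) (XT.nd (nat_lit 156) (nat_lit 988) (nat_lit 0) (XT.nd (nat_lit 78) (nat_lit 76) (nat_lit 0) (XT.lf (nat_lit 0) (nat_lit 8171581576) (nat_lit 1672) (nat_lit 14377959841) (nat_lit 1748) (nat_lit 395768927) (nat_lit 328) (nat_lit 5) (nat_lit 350) (nat_lit 5) (nat_lit 351) (nat_lit 5) (nat_lit 479) (nat_lit 453) (nat_lit 208)) (XT.lf (nat_lit 0) (nat_lit 1229809396) (nat_lit 1748) (nat_lit 4044956752) (nat_lit 76) (nat_lit 17925208429) (nat_lit 327) (nat_lit 5) (nat_lit 350) (nat_lit 5) (nat_lit 328) (nat_lit 5) (nat_lit 480) (nat_lit 453) (nat_lit 207))) (XT.nd (nat_lit 78) (nat_lit 0) (nat_lit 0) (XT.lf (nat_lit 0) (nat_lit 2950985911) (nat_lit 1064) (nat_lit 16500688179) (nat_lit 76) (nat_lit 4006641183) (nat_lit 314) (nat_lit 5) (nat_lit 328) (nat_lit 5) (nat_lit 315) (nat_lit 5) (nat_lit 481) (nat_lit 453) (nat_lit 206)) (XT.lf (nat_lit 0) (nat_lit 4765564809) (nat_lit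 1064) (nat_lit 5524210729) (nat_lit 76) (nat_lit 13430870826) (nat_lit 314) (nat_lit 5) (nat_lit 328) (nat_lit 5) (nat_lit 315) (nat_lit 5) (nat_lit 482) (nat_lit 453) (nat_lit 205)))))) (XT.nd (nat_lit 546) (nat_lit 2204) (nat_lit 0) (XT.nd (nat_lit 234) (nat_lit 1520) (nat_lit 0) (XT.nd (nat_lit 78) (nat_lit 836) (nat_lit 0) (XT.lf (nat_lit 0) (nat_lit 5744278708) (nat_lit 836) (nat_lit 906239575) (nat_lit 912) (nat_lit 17337027229) (nat_lit 303) (nat_lit 5) (nat_lit 314) (nat_lit 5) (nat_lit 315) (nat_lit 5) (nat_lit 483) (nat_lit 453) (nat_lit 204)) (XT.nd (nat_lit 78) (nat_lit 836) (nat_lit 0) (XT.lf (nat_lit 0) (nat_lit 8663579470) (nat_lit 912) (nat_lit 7005429964) (nat_lit 76) (nat_lit 8588968072) (nat_lit 303) (nat_lit 5) (nat_lit 315) (nat_lit 5) (nat_lit 304) (nat_lit 5) (nat_lit 484) (nat_lit 453) (nat_lit 203)) (XT.lf (nat_lit 0) (nat_lit 4507430155) (nat_lit 836) (nat_lit 6241634682) (nat_lit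 912) (nat_lit 13784113019) (nat_lit 292) (nat_lit 5) (nat_lit 303) (nat_lit 5) (nat_lit 304) (nat_lit 5) (nat_lit 485) (nat_lit 453) (nat_lit 202)))) (XT.nd (nat_lit 156) (nat_lit 760) (nat_lit 0) (XT.nd (nat_lit 78) (nat_lit 760) (nat_lit 0) (XT.lf (nat_lit 0) (nat_lit 12942429619) (nat_lit 912) (nat_lit 8492548071) (nat_lit 76) (nat_lit 3377584045) (nat_lit 292) (nat_lit 5) (nat_lit 304) (nat_lit 5) (nat_lit 293) (nat_lit 5) (nat_lit 486) (nat_lit 453) (nat_lit 201)) (XT.lf (nat_lit 0) (nat_lit 3270029455) (nat_lit 760) (nat_lit 11969198914) (nat_lit 836) (nat_lit 9857116450) (nat_lit 282) (nat_lit 5) (nat_lit 292) (nat_lit 5) (nat_lit 293) (nat_lit 5) (nat_lit 487) (nat_lit 453) (nat_lit 200))) (XT.nd (nat_lit 78) (nat_lit 760) (nat_lit 0) (XT.lf (nat_lit 0) (nat_lit 15380158135) (nat_lit 760) (nat_lit 2255835088) (nat_lit 836) (nat_lit 7748732543) (nat_lit 282) (nat_lit 5) (nat_lit 292) (nat_lit 5)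 (nat_lit 293) (nat_lit 5) (nat_lit 488) (nat_lit 453) (nat_lit 199)) (XT.lf (nat_lit 0) (nat_lit 2027702695) (nat_lit 760) (nat_lit 18112935985) (nat_lit 836) (nat_lit 5537039494) (nat_lit 272) (nat_lit 5) (nat_lit 282) (nat_lit 5) (nat_lit 283) (nat_lit 5) (nat_lit 489) (nat_lit 453) (nat_lit 198))))) (XT.nd (nat_lit 234) (nat_lit 1444) (nat_lit 0) (XT.nd (nat_lit 78) (nat_lit 760) (nat_lit 0) (XT.lf (nat_lit 0) (nat_lit 14418288211) (nat_lit 760) (nat_lit 8356203995) (nat_lit 836) (nat_lit 3200417816) (nat_lit 272) (nat_lit 5) (nat_lit 282) (nat_lit 5) (nat_lit 283) (nat_lit 5) (nat_lit 490) (nat_lit 453) (nat_lit 197)) (XT.nd (nat_lit 78) (nat_lit 76) (nat_lit 0) (XT.lf (nat_lit 0) (nat_lit 775599972) (nat_lit 684) (nat_lit 24698013330) (nat_lit 760) (nat_lit 804224038) (nat_lit 263) (nat_lit 5) (nat_lit 272) (nat_lit 5) (nat_lit 273) (nat_lit 5) (nat_lit 491) (nat_lit 453) (nat_lit 196)) (XT.lf (nat_lit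 0) (nat_lit 1749000486) (nat_lit 760) (nat_lit 13143485005) (nat_lit 76) (nat_lit 11691515019) (nat_lit 262) (nat_lit 5) (nat_lit 272) (nat_lit 5) (nat_lit 263) (nat_lit 5) (nat_lit 492) (nat_lit 453) (nat_lit 195)))) (XT.nd (nat_lit 156) (nat_lit 684) (nat_lit 0) (XT.nd (nat_lit 78) (nat_lit 760) (nat_lit 0) (XT.lf (nat_lit 0) (nat_lit 4339796374) (nat_lit 760) (nat_lit 545660155) (nat_lit 76) (nat_lit 22010781078) (nat_lit 262) (nat_lit 5) (nat_lit 272) (nat_lit 5) (nat_lit 263) (nat_lit 5) (nat_lit 493) (nat_lit 453) (nat_lit 194)) (XT.lf (nat_lit 0) (nat_lit 7095745209) (nat_lit 836) (nat_lit 14783366506) (nat_lit 76) (nat_lit 5333343429) (nat_lit 252) (nat_lit 5) (nat_lit 263) (nat_lit 5) (nat_lit 253) (nat_lit 5) (nat_lit 494) (nat_lit 453) (nat_lit 193))) (XT.nd (nat_lit 78) (nat_lit 684) (nat_lit 0) (XT.lf (nat_lit 0) (nat_lit 9940206573) (nat_lit 836) (nat_lit 1899332248) (nat_lit 76) (nat_lit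 15694792734) (nat_lit 252) (nat_lit 5) (nat_lit 263) (nat_lit 5) (nat_lit 253) (nat_lit 5) (nat_lit 495) (nat_lit 453) (nat_lit 192)) (XT.lf (nat_lit 0) (nat_lit 11389047039) (nat_lit 684) (nat_lit 1523860883) (nat_lit 760) (nat_lit 14948312904) (nat_lit 243) (nat_lit 5) (nat_lit 252) (nat_lit 5) (nat_lit 253) (nat_lit 5) (nat_lit 496) (nat_lit 453) (nat_lit 191))))))))
noncomputable def xc241 : XT := (XT.nd (nat_lit 57408) (nat_lit 0) (nat_lit 2584) (XT.nd (nat_lit 56316) (nat_lit 0) (nat_lit 10716) (XT.nd (nat_lit 468) (nat_lit 1216) (nat_lit 0) (XT.nd (nat_lit 234) (nat_lit 1368) (nat_lit 0) (XT.nd (nat_lit 78) (nat_lit 684) (nat_lit 0) (XT.lf (nat_lit 0) (nat_lit 16013753172) (nat_lit 760) (nat_lit 3286699312) (nat_lit 76) (nat_lit 8892823899) (nat_lit 243) (nat_lit 5) (nat_lit 253) (nat_lit 5) (nat_lit 244) (nat_lit 5) (nat_lit 497) (nat_lit 453) (nat_lit 190)) (XT.nd (nat_lit 78) (nat_lit 0) (nat_lit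 0) (XT.lf (nat_lit 0) (nat_lit 10284590880) (nat_lit 684) (nat_lit 8966378975) (nat_lit 760) (nat_lit 9279518363) (nat_lit 234) (nat_lit 5) (nat_lit 243) (nat_lit 5) (nat_lit 244) (nat_lit 5) (nat_lit 498) (nat_lit 453) (nat_lit 189)) (XT.lf (nat_lit 0) (nat_lit 22582873355) (nat_lit 760) (nat_lit 4715231328) (nat_lit 76) (nat_lit 1575742967) (nat_lit 234) (nat_lit 5) (nat_lit 244) (nat_lit 5) (nat_lit 235) (nat_lit 5) (nat_lit 499) (nat_lit 453) (nat_lit 188)))) (XT.nd (nat_lit 78) (nat_lit 760) (nat_lit 0) (XT.lf (nat_lit 0) (nat_lit 9143926421) (nat_lit 608) (nat_lit 16953804621) (nat_lit 684) (nat_lit 3124019073) (nat_lit 226) (nat_lit 5) (nat_lit 234) (nat_lit 5) (nat_lit 235) (nat_lit 5) (nat_lit 500) (nat_lit 453) (nat_lit 187)) (XT.nd (nat_lit 78) (nat_lit 684) (nat_lit 0) (XT.lf (nat_lit 0) (nat_lit 134312851) (nat_lit 684) (nat_lit 6235376356) (nat_lit 76) (nat_lit 23206321078) (nat_lit 225)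 (nat_lit 5) (nat_lit 234) (nat_lit 5) (nat_lit 226) (nat_lit 5) (nat_lit 501) (nat_lit 453) (nat_lit 186)) (XT.lf (nat_lit 0) (nat_lit 3494577067) (nat_lit 760) (nat_lit 22000107752) (nat_lit 76) (nat_lit 4440687960) (nat_lit 216) (nat_lit 5) (nat_lit 226) (nat_lit 5) (nat_lit 217) (nat_lit 5) (nat_lit 502) (nat_lit 453) (nat_lit 185))))) (XT.nd (nat_lit 55536) (nat_lit 0) (nat_lit 12312) (XT.nd (nat_lit 78) (nat_lit 1216) (nat_lit 0) (XT.lf (nat_lit 0) (nat_lit 7004005136) (nat_lit 760) (nat_lit 7872364476) (nat_lit 76) (nat_lit 15423915744) (nat_lit 216) (nat_lit 5) (nat_lit 226) (nat_lit 5) (nat_lit 217) (nat_lit 5) (nat_lit 503) (nat_lit 453) (nat_lit 184)) (XT.nd (nat_lit 156) (nat_lit 608) (nat_lit 0) (XT.lf (nat_lit 0) (nat_lit 6622177125) (nat_lit 608) (nat_lit 4002141613) (nat_lit 684) (nat_lit 20047365468) (nat_lit 208) (nat_lit 5) (nat_lit 216) (nat_lit 5) (nat_lit 217) (nat_lit 5) (nat_lit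 504) (nat_lit 453) (nat_lit 183)) (XT.lf (nat_lit 0) (nat_lit 5207708671) (nat_lit 608) (nat_lit 13129801883) (nat_lit 684) (nat_lit 13094331665) (nat_lit 200) (nat_lit 5) (nat_lit 208) (nat_lit 5) (nat_lit 209) (nat_lit 5) (nat_lit 506) (nat_lit 453) (nat_lit 181)))) (XT.nd (nat_lit 156) (nat_lit 0) (nat_lit 0) (XT.nd (nat_lit 78) (nat_lit 0) (nat_lit 0) (XT.lf (nat_lit 0) (nat_lit 4202424592) (nat_lit 0) (nat_lit 4202424592) (nat_lit 1596) (nat_lit 533892433) (nat_lit 362) (nat_lit 5) (nat_lit 362) (nat_lit 3) (nat_lit 383) (nat_lit 3) (nat_lit 454) (nat_lit 454) (nat_lit 232)) (XT.lf (nat_lit 0) (nat_lit 16475849912) (nat_lit 0) (nat_lit 696935637) (nat_lit 1596) (nat_lit 879367243) (nat_lit 362) (nat_lit 5) (nat_lit 362) (nat_lit 3) (nat_lit 383) (nat_lit 3) (nat_lit 455) (nat_lit 454) (nat_lit 231))) (XT.nd (nat_lit 78) (nat_lit 0) (nat_lit 0) (XT.lf (nat_lit 76) (nat_lit 6514187215) (nat_lit 0)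 (nat_lit 11112664440) (nat_lit 1672) (nat_lit 601795132) (nat_lit 363) (nat_lit 5) (nat_lit 362) (nat_lit 5) (nat_lit 384) (nat_lit 5) (nat_lit 456) (nat_lit 454) (nat_lit 230)) (XT.lf (nat_lit 76) (nat_lit 14780513532) (nat_lit 0) (nat_lit 3319633082) (nat_lit 1672) (nat_lit 308326381) (nat_lit 363) (nat_lit 5) (nat_lit 362) (nat_lit 5) (nat_lit 384) (nat_lit 5) (nat_lit 457) (nat_lit 454) (nat_lit 229)))))) (XT.nd (nat_lit 546) (nat_lit 0) (nat_lit 228) (XT.nd (nat_lit 234) (nat_lit 0) (nat_lit 76) (XT.nd (nat_lit 78) (nat_lit 0) (nat_lit 0) (XT.lf (nat_lit 0) (nat_lit 46825923) (nat_lit 1672) (nat_lit 13942652825) (nat_lit 1748) (nat_lit 4601309298) (nat_lit 341) (nat_lit 5) (nat_lit 363) (nat_lit 5) (nat_lit 364) (nat_lit 5) (nat_lit 458) (nat_lit 454) (nat_lit 228)) (XT.nd (nat_lit 78) (nat_lit 0) (nat_lit 76) (XT.lf (nat_lit 0) (nat_lit 446587183) (nat_lit 1672) (nat_lit 5664302034) (nat_lit 1748)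 (nat_lit 12664991713) (nat_lit 341) (nat_lit 5) (nat_lit 363) (nat_lit 5) (nat_lit 364) (nat_lit 5) (nat_lit 459) (nat_lit 454) (nat_lit 227)) (XT.lf (nat_lit 0) (nat_lit 880481805) (nat_lit 1672) (nat_lit 16163252975) (nat_lit 1748) (nat_lit 1920423009) (nat_lit 342) (nat_lit 5) (nat_lit 364) (nat_lit 5) (nat_lit 365) (nat_lit 5) (nat_lit 460) (nat_lit 454) (nat_lit 226)))) (XT.nd (nat_lit 156) (nat_lit 0) (nat_lit 76) (XT.nd (nat_lit 78) (nat_lit 0) (nat_lit 0) (XT.lf (nat_lit 0) (nat_lit 1397109431) (nat_lit 1672) (nat_lit 7686785044) (nat_lit 1748) (nat_lit 10070829394) (nat_lit 342) (nat_lit 5) (nat_lit 364) (nat_lit 5) (nat_lit 365) (nat_lit 5) (nat_lit 461) (nat_lit 454) (nat_lit 225)) (XT.lf (nat_lit 76) (nat_lit 969157446) (nat_lit 0) (nat_lit 956619746) (nat_lit 1748) (nat_lit 17423294620) (nat_lit 343) (nat_lit 5) (nat_lit 342) (nat_lit 5) (nat_lit 365) (nat_lit 5) (nat_lit 462) (nat_lit 454)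 (nat_lit 224))) (XT.nd (nat_lit 78) (nat_lit 0) (nat_lit 0) (XT.lf (nat_lit 0) (nat_lit 2560052984) (nat_lit 1672) (nat_lit 9694667087) (nat_lit 1748) (nat_lit 7290690548) (nat_lit 343) (nat_lit 5) (nat_lit 365) (nat_lit 5) (nat_lit 366) (nat_lit 5) (nat_lit 463) (nat_lit 454) (nat_lit 223)) (XT.lf (nat_lit 0) (nat_lit 3208936476) (nat_lit 1672) (nat_lit 844847737) (nat_lit 1748) (nat_lit 15691858057) (nat_lit 343) (nat_lit 5) (nat_lit 365) (nat_lit 5) (nat_lit 366) (nat_lit 5) (nat_lit 464) (nat_lit 454) (nat_lit 222))))) (XT.nd (nat_lit 234) (nat_lit 0) (nat_lit 76) (XT.nd (nat_lit 78) (nat_lit 0) (nat_lit 0) (XT.lf (nat_lit 0) (nat_lit 3948639438) (nat_lit 1672) (nat_lit 11689328102) (nat_lit 1748) (nat_lit 4310358597) (nat_lit 344) (nat_lit 5) (nat_lit 366) (nat_lit 5) (nat_lit 367) (nat_lit 5) (nat_lit 465) (nat_lit 454) (nat_lit 221)) (XT.nd (nat_lit 78) (nat_lit 0) (nat_lit 76) (XT.lf (nat_lit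 0) (nat_lit 4731440223) (nat_lit 1672) (nat_lit 2628285466) (nat_lit 1748) (nat_lit 12794776254) (nat_lit 344) (nat_lit 5) (nat_lit 366) (nat_lit 5) (nat_lit 367) (nat_lit 5) (nat_lit 466) (nat_lit 454) (nat_lit 220)) (XT.lf (nat_lit 0) (nat_lit 5576561425) (nat_lit 1672) (nat_lit 13672285968) (nat_lit 1748) (nat_lit 1115024833) (nat_lit 345) (nat_lit 5) (nat_lit 367) (nat_lit 5) (nat_lit 368) (nat_lit 5) (nat_lit 467) (nat_lit 454) (nat_lit 219)))) (XT.nd (nat_lit 156) (nat_lit 0) (nat_lit 76) (XT.nd (nat_lit 78) (nat_lit 0) (nat_lit 0) (XT.lf (nat_lit 0) (nat_lit 6500985455) (nat_lit 1672) (nat_lit 4395296984) (nat_lit 1748) (nat_lit 9679903634) (nat_lit 345) (nat_lit 5) (nat_lit 367) (nat_lit 5) (nat_lit 368) (nat_lit 5) (nat_lit 468) (nat_lit 454) (nat_lit 218)) (XT.lf (nat_lit 76) (nat_lit 5131745722) (nat_lit 0) (nat_lit 2341457724) (nat_lit 1748) (nat_lit 13318960725) (nat_lit 346) (nat_lit 5)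 (nat_lit 345) (nat_lit 5) (nat_lit 368) (nat_lit 5) (nat_lit 469) (nat_lit 454) (nat_lit 217))) (XT.nd (nat_lit 78) (nat_lit 0) (nat_lit 0) (XT.lf (nat_lit 0) (nat_lit 8532063201) (nat_lit 1672) (nat_lit 6147472944) (nat_lit 1748) (nat_lit 6331585743) (nat_lit 346) (nat_lit 5) (nat_lit 368) (nat_lit 5) (nat_lit 369) (nat_lit 5) (nat_lit 470) (nat_lit 454) (nat_lit 216)) (XT.lf (nat_lit 76) (nat_lit 3584429492) (nat_lit 0) (nat_lit 6062581993) (nat_lit 1748) (nat_lit 11586752974) (nat_lit 347) (nat_lit 5) (nat_lit 346) (nat_lit 5) (nat_lit 369) (nat_lit 5) (nat_lit 471) (nat_lit 454) (nat_lit 215))))))) (XT.nd (nat_lit 1092) (nat_lit 5244) (nat_lit 0) (XT.nd (nat_lit 546) (nat_lit 3344) (nat_lit 0) (XT.nd (nat_lit 234) (nat_lit 0) (nat_lit 76) (XT.nd (nat_lit 78) (nat_lit 0) (nat_lit 0) (XT.lf (nat_lit 0) (nat_lit 10839685197) (nat_lit 1672) (nat_lit 7886585343) (nat_lit 1748) (nat_lit 2733484660) (nat_lit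 347) (nat_lit 5) (nat_lit 369) (nat_lit 5) (nat_lit 370) (nat_lit 5) (nat_lit 472) (nat_lit 454) (nat_lit 214)) (XT.nd (nat_lit 78) (nat_lit 0) (nat_lit 0) (XT.lf (nat_lit 76) (nat_lit 2055408844) (nat_lit 0) (nat_lit 10050569605) (nat_lit 1748) (nat_lit 9583295760) (nat_lit 348) (nat_lit 5) (nat_lit 347) (nat_lit 5) (nat_lit 370) (nat_lit 5) (nat_lit 473) (nat_lit 454) (nat_lit 213)) (XT.lf (nat_lit 76) (nat_lit 12300348260) (nat_lit 0) (nat_lit 1146498818) (nat_lit 1748) (nat_lit 8475555230) (nat_lit 348) (nat_lit 5) (nat_lit 347) (nat_lit 5) (nat_lit 370) (nat_lit 5) (nat_lit 474) (nat_lit 454) (nat_lit 212)))) (XT.nd (nat_lit 156) (nat_lit 0) (nat_lit 76) (XT.nd (nat_lit 78) (nat_lit 0) (nat_lit 0) (XT.lf (nat_lit 76) (nat_lit 542762669) (nat_lit 0) (nat_lit 14323221881) (nat_lit 1748) (nat_lit 7293183016) (nat_lit 349) (nat_lit 5) (nat_lit 348) (nat_lit 5) (nat_lit 371) (nat_lit 5) (nat_lit 475)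 (nat_lit 454) (nat_lit 211)) (XT.lf (nat_lit 76) (nat_lit 11030804447) (nat_lit 0) (nat_lit 5351268380) (nat_lit 1748) (nat_lit 6017227496) (nat_lit 349) (nat_lit 5) (nat_lit 348) (nat_lit 5) (nat_lit 371) (nat_lit 5) (nat_lit 476) (nat_lit 454) (nat_lit 210))) (XT.nd (nat_lit 78) (nat_lit 0) (nat_lit 0) (XT.lf (nat_lit 0) (nat_lit 17949686226) (nat_lit 1672) (nat_lit 943131361) (nat_lit 1748) (nat_lit 3750997569) (nat_lit 349) (nat_lit 5) (nat_lit 371) (nat_lit 5) (nat_lit 372) (nat_lit 5) (nat_lit 477) (nat_lit 454) (nat_lit 209)) (XT.lf (nat_lit 76) (nat_lit 9780804317) (nat_lit 0) (nat_lit 9863388367) (nat_lit 1748) (nat_lit 3247120204) (nat_lit 350) (nat_lit 5) (nat_lit 349) (nat_lit 5) (nat_lit 372) (nat_lit 5) (nat_lit 478) (nat_lit 454) (nat_lit 208))))) (XT.nd (nat_lit 234) (nat_lit 1824) (nat_lit 0) (XT.nd (nat_lit 78) (nat_lit 1672) (nat_lit 0) (XT.lf (nat_lit 76) (nat_lit 20729247082) (nat_lit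 0) (nat_lit 646318358) (nat_lit 1748) (nat_lit 1768138960) (nat_lit 350) (nat_lit 5) (nat_lit 349) (nat_lit 5) (nat_lit 372) (nat_lit 5) (nat_lit 479) (nat_lit 454) (nat_lit 207)) (XT.nd (nat_lit 78) (nat_lit 76) (nat_lit 0) (XT.lf (nat_lit 0) (nat_lit 8548004905) (nat_lit 1672) (nat_lit 14702620735) (nat_lit 1748) (nat_lit 148340188) (nat_lit 328) (nat_lit 5) (nat_lit 350) (nat_lit 5) (nat_lit 351) (nat_lit 5) (nat_lit 480) (nat_lit 454) (nat_lit 206)) (XT.lf (nat_lit 0) (nat_lit 1501459735) (nat_lit 1748) (nat_lit 3913518085) (nat_lit 76) (nat_lit 18243815973) (nat_lit 327) (nat_lit 5) (nat_lit 350) (nat_lit 5) (nat_lit 328) (nat_lit 5) (nat_lit 481) (nat_lit 454) (nat_lit 205)))) (XT.nd (nat_lit 156) (nat_lit 836) (nat_lit 0) (XT.nd (nat_lit 78) (nat_lit 0) (nat_lit 0) (XT.lf (nat_lit 0) (nat_lit 3253373237) (nat_lit 1064) (nat_lit 16614443096) (nat_lit 76) (nat_lit 4054563391) (nat_lit 314) (nat_lit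 5) (nat_lit 328) (nat_lit 5) (nat_lit 315) (nat_lit 5) (nat_lit 482) (nat_lit 454) (nat_lit 204)) (XT.lf (nat_lit 0) (nat_lit 5099471799) (nat_lit 1064) (nat_lit 5422676466) (nat_lit 76) (nat_lit 13667909207) (nat_lit 314) (nat_lit 5) (nat_lit 328) (nat_lit 5) (nat_lit 315) (nat_lit 5) (nat_lit 483) (nat_lit 454) (nat_lit 203))) (XT.nd (nat_lit 78) (nat_lit 0) (nat_lit 0) (XT.lf (nat_lit 0) (nat_lit 6069787902) (nat_lit 836) (nat_lit 949025603) (nat_lit 912) (nat_lit 17443551825) (nat_lit 303) (nat_lit 5) (nat_lit 314) (nat_lit 5) (nat_lit 315) (nat_lit 5) (nat_lit 484) (nat_lit 454) (nat_lit 202)) (XT.lf (nat_lit 0) (nat_lit 9067365509) (nat_lit 912) (nat_lit 6934053437) (nat_lit 76) (nat_lit 8736886845) (nat_lit 303) (nat_lit 5) (nat_lit 315) (nat_lit 5) (nat_lit 304) (nat_lit 5) (nat_lit 485) (nat_lit 454) (nat_lit 201)))))) (XT.nd (nat_lit 546) (nat_lit 2204) (nat_lit 0) (XT.nd (nat_lit 234) (nat_lit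 1444) (nat_lit 0) (XT.nd (nat_lit 78) (nat_lit 760) (nat_lit 0) (XT.lf (nat_lit 0) (nat_lit 4807672535) (nat_lit 836) (nat_lit 6383732225) (nat_lit 912) (nat_lit 13827672836) (nat_lit 292) (nat_lit 5) (nat_lit 303) (nat_lit 5) (nat_lit 304) (nat_lit 5) (nat_lit 486) (nat_lit 454) (nat_lit 200)) (XT.nd (nat_lit 78) (nat_lit 760) (nat_lit 0) (XT.lf (nat_lit 0) (nat_lit 13424068929) (nat_lit 912) (nat_lit 8451644436) (nat_lit 76) (nat_lit 3428431395) (nat_lit 292) (nat_lit 5) (nat_lit 304) (nat_lit 5) (nat_lit 293) (nat_lit 5) (nat_lit 487) (nat_lit 454) (nat_lit 199)) (XT.lf (nat_lit 0) (nat_lit 3544798097) (nat_lit 760) (nat_lit 12218996468) (nat_lit 836) (nat_lit 9829873287) (nat_lit 282) (nat_lit 5) (nat_lit 292) (nat_lit 5) (nat_lit 293) (nat_lit 5) (nat_lit 488) (nat_lit 454) (nat_lit 198)))) (XT.nd (nat_lit 156) (nat_lit 684) (nat_lit 0) (XT.nd (nat_lit 78) (nat_lit 760) (nat_lit 0) (XT.lf (nat_lit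 0) (nat_lit 15893024095) (nat_lit 760) (nat_lit 2311161177) (nat_lit 836) (nat_lit 7683721417) (nat_lit 282) (nat_lit 5) (nat_lit 292) (nat_lit 5) (nat_lit 293) (nat_lit 5) (nat_lit 489) (nat_lit 454) (nat_lit 197)) (XT.lf (nat_lit 0) (nat_lit 2276718880) (nat_lit 760) (nat_lit 18479268301) (nat_lit 836) (nat_lit 5430793697) (nat_lit 272) (nat_lit 5) (nat_lit 282) (nat_lit 5) (nat_lit 283) (nat_lit 5) (nat_lit 490) (nat_lit 454) (nat_lit 196))) (XT.nd (nat_lit 78) (nat_lit 684) (nat_lit 0) (XT.lf (nat_lit 0) (nat_lit 14911028614) (nat_lit 760) (nat_lit 8527321797) (nat_lit 836) (nat_lit 3051694224) (nat_lit 272) (nat_lit 5) (nat_lit 282) (nat_lit 5) (nat_lit 283) (nat_lit 5) (nat_lit 491) (nat_lit 454) (nat_lit 195)) (XT.lf (nat_lit 0) (nat_lit 998502679) (nat_lit 684) (nat_lit 25190186691) (nat_lit 760) (nat_lit 610400266) (nat_lit 263) (nat_lit 5) (nat_lit 272) (nat_lit 5) (nat_lit 273) (nat_lit 5)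 (nat_lit 492) (nat_lit 454) (nat_lit 194))))) (XT.nd (nat_lit 234) (nat_lit 1368) (nat_lit 0) (XT.nd (nat_lit 78) (nat_lit 760) (nat_lit 0) (XT.lf (nat_lit 0) (nat_lit 1987073896) (nat_lit 760) (nat_lit 13200146574) (nat_lit 76) (nat_lit 11924213279) (nat_lit 262) (nat_lit 5) (nat_lit 272) (nat_lit 5) (nat_lit 263) (nat_lit 5) (nat_lit 493) (nat_lit 454) (nat_lit 193)) (XT.nd (nat_lit 78) (nat_lit 760) (nat_lit 0) (XT.lf (nat_lit 0) (nat_lit 4625703478) (nat_lit 760) (nat_lit 354408524) (nat_lit 76) (nat_lit 22449886856) (nat_lit 262) (nat_lit 5) (nat_lit 272) (nat_lit 5) (nat_lit 263) (nat_lit 5) (nat_lit 494) (nat_lit 454) (nat_lit 192)) (XT.lf (nat_lit 0) (nat_lit 7434199174) (nat_lit 836) (nat_lit 14874119164) (nat_lit 76) (nat_lit 5444277404) (nat_lit 252) (nat_lit 5) (nat_lit 263) (nat_lit 5) (nat_lit 253) (nat_lit 5) (nat_lit 495) (nat_lit 454) (nat_lit 191)))) (XT.nd (nat_lit 156) (nat_lit 684)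 (nat_lit 0) (XT.nd (nat_lit 78) (nat_lit 684) (nat_lit 0) (XT.lf (nat_lit 0) (nat_lit 10331696059) (nat_lit 836) (nat_lit 1736422156) (nat_lit 76) (nat_lit 16012872027) (nat_lit 252) (nat_lit 5) (nat_lit 263) (nat_lit 5) (nat_lit 253) (nat_lit 5) (nat_lit 496) (nat_lit 454) (nat_lit 190)) (XT.lf (nat_lit 0) (nat_lit 11816403028) (nat_lit 684) (nat_lit 1544966036) (nat_lit 760) (nat_lit 15053101297) (nat_lit 243) (nat_lit 5) (nat_lit 252) (nat_lit 5) (nat_lit 253) (nat_lit 5) (nat_lit 497) (nat_lit 454) (nat_lit 189))) (XT.nd (nat_lit 78) (nat_lit 684) (nat_lit 0) (XT.lf (nat_lit 0) (nat_lit 16520561406) (nat_lit 760) (nat_lit 3152934200) (nat_lit 76) (nat_lit 9079748170) (nat_lit 243) (nat_lit 5) (nat_lit 253) (nat_lit 5) (nat_lit 244) (nat_lit 5) (nat_lit 498) (nat_lit 454) (nat_lit 188)) (XT.lf (nat_lit 0) (nat_lit 10688469302) (nat_lit 684) (nat_lit 9131682366) (nat_lit 760) (nat_lit 9277098878) (nat_lit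 234) (nat_lit 5) (nat_lit 243) (nat_lit 5) (nat_lit 244) (nat_lit 5) (nat_lit 499) (nat_lit 454) (nat_lit 187))))))))
noncomputable def xc242 : XT := (XT.nd (nat_lit 57486) (nat_lit 0) (nat_lit 1368) (XT.nd (nat_lit 56394) (nat_lit 0) (nat_lit 10184) (XT.nd (nat_lit 55848) (nat_lit 0) (nat_lit 10032) (XT.nd (nat_lit 234) (nat_lit 1292) (nat_lit 0) (XT.nd (nat_lit 78) (nat_lit 684) (nat_lit 0) (XT.lf (nat_lit 0) (nat_lit 23215171479) (nat_lit 760) (nat_lit 4611552634) (nat_lit 76) (nat_lit 1620826708) (nat_lit 234) (nat_lit 5) (nat_lit 244) (nat_lit 5) (nat_lit 235) (nat_lit 5) (nat_lit 500) (nat_lit 454) (nat_lit 186)) (XT.nd (nat_lit 78) (nat_lit 76) (nat_lit 0) (XT.lf (nat_lit 0) (nat_lit 9523485749) (nat_lit 608) (nat_lit 17274575580) (nat_lit 684) (nat_lit 3004398462) (nat_lit 226) (nat_lit 5) (nat_lit 234) (nat_lit 5) (nat_lit 235) (nat_lit 5) (nat_lit 501) (nat_lit 454) (nat_lit 185)) (XT.lf (nat_lit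 0) (nat_lit 313188034) (nat_lit 684) (nat_lit 6164766427) (nat_lit 76) (nat_lit 23685900566) (nat_lit 225) (nat_lit 5) (nat_lit 234) (nat_lit 5) (nat_lit 226) (nat_lit 5) (nat_lit 502) (nat_lit 454) (nat_lit 184)))) (XT.nd (nat_lit 78) (nat_lit 608) (nat_lit 0) (XT.lf (nat_lit 0) (nat_lit 3738592740) (nat_lit 760) (nat_lit 22242578946) (nat_lit 76) (nat_lit 4549277355) (nat_lit 216) (nat_lit 5) (nat_lit 226) (nat_lit 5) (nat_lit 217) (nat_lit 5) (nat_lit 503) (nat_lit 454) (nat_lit 183)) (XT.nd (nat_lit 156) (nat_lit 608) (nat_lit 0) (XT.lf (nat_lit 0) (nat_lit 7314795171) (nat_lit 760) (nat_lit 7836153960) (nat_lit 76) (nat_lit 15751781937) (nat_lit 216) (nat_lit 5) (nat_lit 226) (nat_lit 5) (nat_lit 217) (nat_lit 5) (nat_lit 504) (nat_lit 454) (nat_lit 182)) (XT.lf (nat_lit 0) (nat_lit 14867710397) (nat_lit 684) (nat_lit 9584945215) (nat_lit 76) (nat_lit 7213440852) (nat_lit 208) (nat_lit 5) (nat_lit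 217) (nat_lit 5) (nat_lit 209) (nat_lit 5) (nat_lit 506) (nat_lit 454) (nat_lit 180))))) (XT.nd (nat_lit 234) (nat_lit 1672) (nat_lit 0) (XT.nd (nat_lit 78) (nat_lit 0) (nat_lit 0) (XT.lf (nat_lit 0) (nat_lit 4383335179) (nat_lit 0) (nat_lit 4383335179) (nat_lit 1596) (nat_lit 346767470) (nat_lit 362) (nat_lit 5) (nat_lit 362) (nat_lit 3) (nat_lit 383) (nat_lit 3) (nat_lit 455) (nat_lit 455) (nat_lit 230)) (XT.nd (nat_lit 78) (nat_lit 0) (nat_lit 0) (XT.lf (nat_lit 0) (nat_lit 16995292588) (nat_lit 0) (nat_lit 900800027) (nat_lit 1596) (nat_lit 509105938) (nat_lit 362) (nat_lit 5) (nat_lit 362) (nat_lit 3) (nat_lit 383) (nat_lit 3) (nat_lit 456) (nat_lit 455) (nat_lit 229)) (XT.lf (nat_lit 76) (nat_lit 6842316818) (nat_lit 0) (nat_lit 11509550761) (nat_lit 1672) (nat_lit 233510146) (nat_lit 363) (nat_lit 5) (nat_lit 362) (nat_lit 5) (nat_lit 384) (nat_lit 5) (nat_lit 457) (nat_lit 455) (nat_lit 228))))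 (XT.nd (nat_lit 156) (nat_lit 0) (nat_lit 76) (XT.nd (nat_lit 78) (nat_lit 0) (nat_lit 76) (XT.lf (nat_lit 0) (nat_lit 57605165) (nat_lit 1672) (nat_lit 3499242872) (nat_lit 1748) (nat_lit 15212098604) (nat_lit 340) (nat_lit 5) (nat_lit 362) (nat_lit 5) (nat_lit 363) (nat_lit 5) (nat_lit 458) (nat_lit 455) (nat_lit 227)) (XT.lf (nat_lit 0) (nat_lit 408740190) (nat_lit 1672) (nat_lit 14014906517) (nat_lit 1748) (nat_lit 4531367758) (nat_lit 341) (nat_lit 5) (nat_lit 363) (nat_lit 5) (nat_lit 364) (nat_lit 5) (nat_lit 459) (nat_lit 455) (nat_lit 226))) (XT.nd (nat_lit 78) (nat_lit 0) (nat_lit 76) (XT.lf (nat_lit 0) (nat_lit 809418680) (nat_lit 1672) (nat_lit 5575039678) (nat_lit 1748) (nat_lit 12759499660) (nat_lit 341) (nat_lit 5) (nat_lit 363) (nat_lit 5) (nat_lit 364) (nat_lit 5) (nat_lit 460) (nat_lit 455) (nat_lit 225)) (XT.lf (nat_lit 0) (nat_lit 1245403657) (nat_lit 1672) (nat_lit 16277026675) (nat_lit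 1748) (nat_lit 1813708942) (nat_lit 342) (nat_lit 5) (nat_lit 364) (nat_lit 5) (nat_lit 365) (nat_lit 5) (nat_lit 461) (nat_lit 455) (nat_lit 224)))))) (XT.nd (nat_lit 546) (nat_lit 0) (nat_lit 228) (XT.nd (nat_lit 234) (nat_lit 0) (nat_lit 76) (XT.nd (nat_lit 78) (nat_lit 0) (nat_lit 0) (XT.lf (nat_lit 0) (nat_lit 1765553792) (nat_lit 1672) (nat_lit 7635137059) (nat_lit 1748) (nat_lit 10129968995) (nat_lit 342) (nat_lit 5) (nat_lit 364) (nat_lit 5) (nat_lit 365) (nat_lit 5) (nat_lit 462) (nat_lit 455) (nat_lit 223)) (XT.nd (nat_lit 78) (nat_lit 0) (nat_lit 76) (XT.lf (nat_lit 76) (nat_lit 1192573073) (nat_lit 0) (nat_lit 1106870036) (nat_lit 1748) (nat_lit 17429565506) (nat_lit 343) (nat_lit 5) (nat_lit 342) (nat_lit 5) (nat_lit 365) (nat_lit 5) (nat_lit 463) (nat_lit 455) (nat_lit 222)) (XT.lf (nat_lit 0) (nat_lit 2938998229) (nat_lit 1672) (nat_lit 9680787473) (nat_lit 1748) (nat_lit 7309643320) (nat_lit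 343) (nat_lit 5) (nat_lit 365) (nat_lit 5) (nat_lit 366) (nat_lit 5) (nat_lit 464) (nat_lit 455) (nat_lit 221)))) (XT.nd (nat_lit 156) (nat_lit 0) (nat_lit 76) (XT.nd (nat_lit 78) (nat_lit 0) (nat_lit 76) (XT.lf (nat_lit 0) (nat_lit 3594433035) (nat_lit 1672) (nat_lit 658045715) (nat_lit 1748) (nat_lit 15881321650) (nat_lit 343) (nat_lit 5) (nat_lit 365) (nat_lit 5) (nat_lit 366) (nat_lit 5) (nat_lit 465) (nat_lit 455) (nat_lit 220)) (XT.lf (nat_lit 0) (nat_lit 4343203569) (nat_lit 1672) (nat_lit 11713367281) (nat_lit 1748) (nat_lit 4284088063) (nat_lit 344) (nat_lit 5) (nat_lit 366) (nat_lit 5) (nat_lit 367) (nat_lit 5) (nat_lit 466) (nat_lit 455) (nat_lit 219))) (XT.nd (nat_lit 78) (nat_lit 0) (nat_lit 76) (XT.lf (nat_lit 0) (nat_lit 5135472305) (nat_lit 1672) (nat_lit 2475216485) (nat_lit 1748) (nat_lit 12940399518) (nat_lit 344) (nat_lit 5) (nat_lit 366) (nat_lit 5) (nat_lit 367) (nat_lit 5) (nat_lit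 467) (nat_lit 455) (nat_lit 218)) (XT.lf (nat_lit 0) (nat_lit 5992103792) (nat_lit 1672) (nat_lit 13734395439) (nat_lit 1748) (nat_lit 1038260796) (nat_lit 345) (nat_lit 5) (nat_lit 367) (nat_lit 5) (nat_lit 368) (nat_lit 5) (nat_lit 468) (nat_lit 455) (nat_lit 217))))) (XT.nd (nat_lit 234) (nat_lit 0) (nat_lit 76) (XT.nd (nat_lit 78) (nat_lit 0) (nat_lit 0) (XT.lf (nat_lit 0) (nat_lit 6929055300) (nat_lit 1672) (nat_lit 4276010523) (nat_lit 1748) (nat_lit 9776379615) (nat_lit 345) (nat_lit 5) (nat_lit 367) (nat_lit 5) (nat_lit 368) (nat_lit 5) (nat_lit 469) (nat_lit 455) (nat_lit 216)) (XT.nd (nat_lit 78) (nat_lit 0) (nat_lit 76) (XT.lf (nat_lit 76) (nat_lit 5440209929) (nat_lit 0) (nat_lit 2475999981) (nat_lit 1748) (nat_lit 13285629291) (nat_lit 346) (nat_lit 5) (nat_lit 345) (nat_lit 5) (nat_lit 368) (nat_lit 5) (nat_lit 470) (nat_lit 455) (nat_lit 215)) (XT.lf (nat_lit 0) (nat_lit 8989932803) (nat_lit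 1672) (nat_lit 6062023346) (nat_lit 1748) (nat_lit 6373352036) (nat_lit 346) (nat_lit 5) (nat_lit 368) (nat_lit 5) (nat_lit 369) (nat_lit 5) (nat_lit 471) (nat_lit 455) (nat_lit 214)))) (XT.nd (nat_lit 156) (nat_lit 0) (nat_lit 76) (XT.nd (nat_lit 78) (nat_lit 0) (nat_lit 76) (XT.lf (nat_lit 76) (nat_lit 3863146092) (nat_lit 0) (nat_lit 6259746195) (nat_lit 1748) (nat_lit 11529602793) (nat_lit 347) (nat_lit 5) (nat_lit 346) (nat_lit 5) (nat_lit 369) (nat_lit 5) (nat_lit 472) (nat_lit 455) (nat_lit 213)) (XT.lf (nat_lit 0) (nat_lit 11333388408) (nat_lit 1672) (nat_lit 7835037097) (nat_lit 1748) (nat_lit 2714706358) (nat_lit 347) (nat_lit 5) (nat_lit 369) (nat_lit 5) (nat_lit 370) (nat_lit 5) (nat_lit 473) (nat_lit 455) (nat_lit 212))) (XT.nd (nat_lit 78) (nat_lit 0) (nat_lit 0) (XT.lf (nat_lit 76) (nat_lit 2304420133) (nat_lit 0) (nat_lit 10316507640) (nat_lit 1748) (nat_lit 9496400570) (nat_lit 348) (nat_lit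 5) (nat_lit 347) (nat_lit 5) (nat_lit 370) (nat_lit 5) (nat_lit 474) (nat_lit 455) (nat_lit 211)) (XT.lf (nat_lit 76) (nat_lit 12750181805) (nat_lit 0) (nat_lit 1233082366) (nat_lit 1748) (nat_lit 8371967211) (nat_lit 348) (nat_lit 5) (nat_lit 347) (nat_lit 5) (nat_lit 370) (nat_lit 5) (nat_lit 475) (nat_lit 455) (nat_lit 210))))))) (XT.nd (nat_lit 1014) (nat_lit 5016) (nat_lit 0) (XT.nd (nat_lit 468) (nat_lit 2660) (nat_lit 0) (XT.nd (nat_lit 234) (nat_lit 1596) (nat_lit 0) (XT.nd (nat_lit 78) (nat_lit 0) (nat_lit 0) (XT.lf (nat_lit 76) (nat_lit 762096106) (nat_lit 0) (nat_lit 14664391978) (nat_lit 1748) (nat_lit 7170335069) (nat_lit 349) (nat_lit 5) (nat_lit 348) (nat_lit 5) (nat_lit 371) (nat_lit 5) (nat_lit 476) (nat_lit 455) (nat_lit 209)) (XT.nd (nat_lit 78) (nat_lit 0) (nat_lit 76) (XT.lf (nat_lit 76) (nat_lit 11455810912) (nat_lit 0) (nat_lit 5511926748) (nat_lit 1748) (nat_lit 5874129294) (nat_lit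 349) (nat_lit 5) (nat_lit 348) (nat_lit 5) (nat_lit 371) (nat_lit 5) (nat_lit 477) (nat_lit 455) (nat_lit 208)) (XT.lf (nat_lit 0) (nat_lit 18561302652) (nat_lit 1672) (nat_lit 755956759) (nat_lit 1748) (nat_lit 3774125762) (nat_lit 349) (nat_lit 5) (nat_lit 371) (nat_lit 5) (nat_lit 372) (nat_lit 5) (nat_lit 478) (nat_lit 455) (nat_lit 207)))) (XT.nd (nat_lit 78) (nat_lit 1672) (nat_lit 0) (XT.lf (nat_lit 76) (nat_lit 10181102124) (nat_lit 0) (nat_lit 10104972657) (nat_lit 1748) (nat_lit 3057835543) (nat_lit 350) (nat_lit 5) (nat_lit 349) (nat_lit 5) (nat_lit 372) (nat_lit 5) (nat_lit 479) (nat_lit 455) (nat_lit 206)) (XT.nd (nat_lit 78) (nat_lit 1672) (nat_lit 0) (XT.lf (nat_lit 76) (nat_lit 21344500378) (nat_lit 0) (nat_lit 702692296) (nat_lit 1748) (nat_lit 1554259519) (nat_lit 350) (nat_lit 5) (nat_lit 349) (nat_lit 5) (nat_lit 372) (nat_lit 5) (nat_lit 480) (nat_lit 455) (nat_lit 205)) (XT.lf (nat_lit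 0) (nat_lit 92887378) (nat_lit 1748) (nat_lit 14938823441) (nat_lit 76) (nat_lit 8830175272) (nat_lit 327) (nat_lit 5) (nat_lit 350) (nat_lit 5) (nat_lit 328) (nat_lit 5) (nat_lit 481) (nat_lit 455) (nat_lit 204))))) (XT.nd (nat_lit 234) (nat_lit 1672) (nat_lit 0) (XT.nd (nat_lit 78) (nat_lit 988) (nat_lit 0) (XT.lf (nat_lit 0) (nat_lit 1768949667) (nat_lit 1748) (nat_lit 3787695980) (nat_lit 76) (nat_lit 18570344902) (nat_lit 327) (nat_lit 5) (nat_lit 350) (nat_lit 5) (nat_lit 328) (nat_lit 5) (nat_lit 482) (nat_lit 455) (nat_lit 203)) (XT.nd (nat_lit 78) (nat_lit 0) (nat_lit 0) (XT.lf (nat_lit 0) (nat_lit 3552358049) (nat_lit 1064) (nat_lit 16738870706) (nat_lit 76) (nat_lit 4104694821) (nat_lit 314) (nat_lit 5) (nat_lit 328) (nat_lit 5) (nat_lit 315) (nat_lit 5) (nat_lit 483) (nat_lit 455) (nat_lit 202)) (XT.lf (nat_lit 0) (nat_lit 5430791968) (nat_lit 1064) (nat_lit 5327344454) (nat_lit 76) (nat_lit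 13910914609) (nat_lit 314) (nat_lit 5) (nat_lit 328) (nat_lit 5) (nat_lit 315) (nat_lit 5) (nat_lit 484) (nat_lit 455) (nat_lit 201)))) (XT.nd (nat_lit 156) (nat_lit 836) (nat_lit 0) (XT.nd (nat_lit 78) (nat_lit 0) (nat_lit 0) (XT.lf (nat_lit 0) (nat_lit 6393628507) (nat_lit 836) (nat_lit 991709726) (nat_lit 912) (nat_lit 17561534791) (nat_lit 303) (nat_lit 5) (nat_lit 314) (nat_lit 5) (nat_lit 315) (nat_lit 5) (nat_lit 485) (nat_lit 455) (nat_lit 200)) (XT.lf (nat_lit 0) (nat_lit 9470276112) (nat_lit 912) (nat_lit 6869461604) (nat_lit 76) (nat_lit 8888690529) (nat_lit 303) (nat_lit 5) (nat_lit 315) (nat_lit 5) (nat_lit 304) (nat_lit 5) (nat_lit 486) (nat_lit 455) (nat_lit 199))) (XT.nd (nat_lit 78) (nat_lit 0) (nat_lit 0) (XT.lf (nat_lit 0) (nat_lit 5105761566) (nat_lit 836) (nat_lit 6528001304) (nat_lit 912) (nat_lit 13881117448) (nat_lit 292) (nat_lit 5) (nat_lit 303) (nat_lit 5) (nat_lit 304) (nat_lit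 5) (nat_lit 487) (nat_lit 455) (nat_lit 198)) (XT.lf (nat_lit 0) (nat_lit 13906689790) (nat_lit 912) (nat_lit 8418106587) (nat_lit 76) (nat_lit 3480944341) (nat_lit 292) (nat_lit 5) (nat_lit 304) (nat_lit 5) (nat_lit 293) (nat_lit 5) (nat_lit 488) (nat_lit 455) (nat_lit 197)))))) (XT.nd (nat_lit 546) (nat_lit 2736) (nat_lit 0) (XT.nd (nat_lit 234) (nat_lit 760) (nat_lit 0) (XT.nd (nat_lit 78) (nat_lit 760) (nat_lit 0) (XT.lf (nat_lit 0) (nat_lit 3816932095) (nat_lit 760) (nat_lit 12473385601) (nat_lit 836) (nat_lit 9810798423) (nat_lit 282) (nat_lit 5) (nat_lit 292) (nat_lit 5) (nat_lit 293) (nat_lit 5) (nat_lit 489) (nat_lit 455) (nat_lit 196)) (XT.nd (nat_lit 78) (nat_lit 760) (nat_lit 0) (XT.lf (nat_lit 0) (nat_lit 16408176769) (nat_lit 760) (nat_lit 2367197345) (nat_lit 836) (nat_lit 7625952385) (nat_lit 282) (nat_lit 5) (nat_lit 292) (nat_lit 5) (nat_lit 293) (nat_lit 5) (nat_lit 490) (nat_lit 455)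 (nat_lit 195)) (XT.lf (nat_lit 0) (nat_lit 2522620549) (nat_lit 760) (nat_lit 18852769082) (nat_lit 836) (nat_lit 5330848837) (nat_lit 272) (nat_lit 5) (nat_lit 282) (nat_lit 5) (nat_lit 283) (nat_lit 5) (nat_lit 491) (nat_lit 455) (nat_lit 194)))) (XT.nd (nat_lit 156) (nat_lit 76) (nat_lit 0) (XT.nd (nat_lit 78) (nat_lit 684) (nat_lit 0) (XT.lf (nat_lit 0) (nat_lit 15405687708) (nat_lit 760) (nat_lit 8701706875) (nat_lit 836) (nat_lit 2908256801) (nat_lit 272) (nat_lit 5) (nat_lit 282) (nat_lit 5) (nat_lit 283) (nat_lit 5) (nat_lit 492) (nat_lit 455) (nat_lit 193)) (XT.lf (nat_lit 0) (nat_lit 1217810207) (nat_lit 684) (nat_lit 25692272908) (nat_lit 760) (nat_lit 420851013) (nat_lit 263) (nat_lit 5) (nat_lit 272) (nat_lit 5) (nat_lit 273) (nat_lit 5) (nat_lit 493) (nat_lit 455) (nat_lit 192))) (XT.nd (nat_lit 78) (nat_lit 0) (nat_lit 0) (XT.lf (nat_lit 0) (nat_lit 2222022409) (nat_lit 760) (nat_lit 13265948688)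 (nat_lit 76) (nat_lit 12161609463) (nat_lit 262) (nat_lit 5) (nat_lit 272) (nat_lit 5) (nat_lit 263) (nat_lit 5) (nat_lit 494) (nat_lit 455) (nat_lit 191)) (XT.lf (nat_lit 0) (nat_lit 4909596994) (nat_lit 760) (nat_lit 167182167) (nat_lit 76) (nat_lit 22897817846) (nat_lit 262) (nat_lit 5) (nat_lit 272) (nat_lit 5) (nat_lit 263) (nat_lit 5) (nat_lit 495) (nat_lit 455) (nat_lit 190))))) (XT.nd (nat_lit 234) (nat_lit 1292) (nat_lit 0) (XT.nd (nat_lit 78) (nat_lit 684) (nat_lit 0) (XT.lf (nat_lit 0) (nat_lit 7771790368) (nat_lit 836) (nat_lit 14974643962) (nat_lit 76) (nat_lit 5557264362) (nat_lit 252) (nat_lit 5) (nat_lit 263) (nat_lit 5) (nat_lit 253) (nat_lit 5) (nat_lit 496) (nat_lit 455) (nat_lit 189)) (XT.nd (nat_lit 78) (nat_lit 684) (nat_lit 0) (XT.lf (nat_lit 0) (nat_lit 10723533127) (nat_lit 836) (nat_lit 1578054926) (nat_lit 76) (nat_lit 16337150457) (nat_lit 252) (nat_lit 5) (nat_lit 263) (nat_lit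 5) (nat_lit 253) (nat_lit 5) (nat_lit 497) (nat_lit 455) (nat_lit 188)) (XT.lf (nat_lit 0) (nat_lit 12244556394) (nat_lit 684) (nat_lit 1566857221) (nat_lit 760) (nat_lit 15167525620) (nat_lit 243) (nat_lit 5) (nat_lit 252) (nat_lit 5) (nat_lit 253) (nat_lit 5) (nat_lit 498) (nat_lit 455) (nat_lit 187)))) (XT.nd (nat_lit 156) (nat_lit 608) (nat_lit 0) (XT.nd (nat_lit 78) (nat_lit 684) (nat_lit 0) (XT.lf (nat_lit 0) (nat_lit 17030262494) (nat_lit 760) (nat_lit 3024240579) (nat_lit 76) (nat_lit 9270058812) (nat_lit 243) (nat_lit 5) (nat_lit 253) (nat_lit 5) (nat_lit 244) (nat_lit 5) (nat_lit 499) (nat_lit 455) (nat_lit 186)) (XT.lf (nat_lit 0) (nat_lit 11092729465) (nat_lit 684) (nat_lit 9300836401) (nat_lit 760) (nat_lit 9281931654) (nat_lit 234) (nat_lit 5) (nat_lit 243) (nat_lit 5) (nat_lit 244) (nat_lit 5) (nat_lit 500) (nat_lit 455) (nat_lit 185))) (XT.nd (nat_lit 78) (nat_lit 608) (nat_lit 0) (XT.lf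 (nat_lit 0) (nat_lit 23853101068) (nat_lit 760) (nat_lit 4513488299) (nat_lit 76) (nat_lit 1666285227) (nat_lit 234) (nat_lit 5) (nat_lit 244) (nat_lit 5) (nat_lit 235) (nat_lit 5) (nat_lit 501) (nat_lit 455) (nat_lit 184)) (XT.lf (nat_lit 0) (nat_lit 9902998907) (nat_lit 608) (nat_lit 17602472769) (nat_lit 684) (nat_lit 2889456643) (nat_lit 226) (nat_lit 5) (nat_lit 234) (nat_lit 5) (nat_lit 235) (nat_lit 5) (nat_lit 502) (nat_lit 455) (nat_lit 183))))))))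
noncomputable def xc243 : XT := (XT.nd (nat_lit 57642) (nat_lit 0) (nat_lit 0) (XT.nd (nat_lit 56550) (nat_lit 0) (nat_lit 9728) (XT.nd (nat_lit 56004) (nat_lit 0) (nat_lit 9500) (XT.nd (nat_lit 55770) (nat_lit 0) (nat_lit 9424) (XT.nd (nat_lit 156) (nat_lit 684) (nat_lit 0) (XT.lf (nat_lit 0) (nat_lit 488799090) (nat_lit 684) (nat_lit 6100328715) (nat_lit 76) (nat_lit 24174471582) (nat_lit 225) (nat_lit 5) (nat_lit 234) (nat_lit 5) (nat_lit 226) (nat_lit 5) (nat_lit 503) (nat_lit 455) (nat_lit 182)) (XT.nd (nat_lit 55536) (nat_lit 0) (nat_lit 11096) (XT.lf (nat_lit 0) (nat_lit 7625172133) (nat_lit 760) (nat_lit 7806739203) (nat_lit 76) (nat_lit 16085452599) (nat_lit 216) (nat_lit 5) (nat_lit 226) (nat_lit 5) (nat_lit 217) (nat_lit 5) (nat_lit 505) (nat_lit 455) (nat_lit 180)) (XT.lf (nat_lit 0) (nat_lit 4564102705) (nat_lit 0) (nat_lit 4564102705) (nat_lit 1596) (nat_lit 163580932) (nat_lit 362) (nat_lit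 5) (nat_lit 362) (nat_lit 3) (nat_lit 383) (nat_lit 3) (nat_lit 456) (nat_lit 456) (nat_lit 228)))) (XT.nd (nat_lit 78) (nat_lit 1672) (nat_lit 0) (XT.lf (nat_lit 0) (nat_lit 17517749071) (nat_lit 0) (nat_lit 1101366659) (nat_lit 1596) (nat_lit 146500042) (nat_lit 362) (nat_lit 5) (nat_lit 362) (nat_lit 3) (nat_lit 383) (nat_lit 3) (nat_lit 457) (nat_lit 456) (nat_lit 227)) (XT.nd (nat_lit 78) (nat_lit 0) (nat_lit 0) (XT.lf (nat_lit 0) (nat_lit 125701706) (nat_lit 1672) (nat_lit 11781048364) (nat_lit 1748) (nat_lit 7042781186) (nat_lit 340) (nat_lit 5) (nat_lit 362) (nat_lit 5) (nat_lit 363) (nat_lit 5) (nat_lit 458) (nat_lit 456) (nat_lit 226)) (XT.lf (nat_lit 0) (nat_lit 412441854) (nat_lit 1672) (nat_lit 3377730341) (nat_lit 1748) (nat_lit 15346717153) (nat_lit 340) (nat_lit 5) (nat_lit 362) (nat_lit 5) (nat_lit 363) (nat_lit 5) (nat_lit 459) (nat_lit 456) (nat_lit 225))))) (XT.nd (nat_lit 234) (nat_lit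 0) (nat_lit 76) (XT.nd (nat_lit 78) (nat_lit 0) (nat_lit 0) (XT.lf (nat_lit 0) (nat_lit 763875537) (nat_lit 1672) (nat_lit 14096627789) (nat_lit 1748) (nat_lit 4466316792) (nat_lit 341) (nat_lit 5) (nat_lit 363) (nat_lit 5) (nat_lit 364) (nat_lit 5) (nat_lit 460) (nat_lit 456) (nat_lit 224)) (XT.nd (nat_lit 78) (nat_lit 0) (nat_lit 76) (XT.lf (nat_lit 0) (nat_lit 1165764448) (nat_lit 1672) (nat_lit 5491857277) (nat_lit 1748) (nat_lit 12862063847) (nat_lit 341) (nat_lit 5) (nat_lit 363) (nat_lit 5) (nat_lit 364) (nat_lit 5) (nat_lit 461) (nat_lit 456) (nat_lit 223)) (XT.lf (nat_lit 0) (nat_lit 1604137389) (nat_lit 1672) (nat_lit 16401210653) (nat_lit 1748) (nat_lit 1710495879) (nat_lit 342) (nat_lit 5) (nat_lit 364) (nat_lit 5) (nat_lit 365) (nat_lit 5) (nat_lit 462) (nat_lit 456) (nat_lit 222)))) (XT.nd (nat_lit 156) (nat_lit 0) (nat_lit 76) (XT.nd (nat_lit 78) (nat_lit 0) (nat_lit 0) (XT.lf (nat_lit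 0) (nat_lit 2128144926) (nat_lit 1672) (nat_lit 7590431412) (nat_lit 1748) (nat_lit 10195816177) (nat_lit 342) (nat_lit 5) (nat_lit 364) (nat_lit 5) (nat_lit 365) (nat_lit 5) (nat_lit 463) (nat_lit 456) (nat_lit 221)) (XT.lf (nat_lit 76) (nat_lit 1412534183) (nat_lit 0) (nat_lit 1255033865) (nat_lit 1748) (nat_lit 17449249660) (nat_lit 343) (nat_lit 5) (nat_lit 342) (nat_lit 5) (nat_lit 365) (nat_lit 5) (nat_lit 464) (nat_lit 456) (nat_lit 220))) (XT.nd (nat_lit 78) (nat_lit 0) (nat_lit 0) (XT.lf (nat_lit 0) (nat_lit 3312795673) (nat_lit 1672) (nat_lit 9674698344) (nat_lit 1748) (nat_lit 7333901315) (nat_lit 343) (nat_lit 5) (nat_lit 365) (nat_lit 5) (nat_lit 366) (nat_lit 5) (nat_lit 465) (nat_lit 456) (nat_lit 219)) (XT.lf (nat_lit 0) (nat_lit 3975162361) (nat_lit 1672) (nat_lit 475417532) (nat_lit 1748) (nat_lit 16079404092) (nat_lit 343) (nat_lit 5) (nat_lit 365) (nat_lit 5) (nat_lit 366) (nat_lit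 5) (nat_lit 466) (nat_lit 456) (nat_lit 218)))))) (XT.nd (nat_lit 546) (nat_lit 0) (nat_lit 228) (XT.nd (nat_lit 234) (nat_lit 0) (nat_lit 76) (XT.nd (nat_lit 78) (nat_lit 0) (nat_lit 0) (XT.lf (nat_lit 0) (nat_lit 4733404186) (nat_lit 1672) (nat_lit 11746031989) (nat_lit 1748) (nat_lit 4261659765) (nat_lit 344) (nat_lit 5) (nat_lit 366) (nat_lit 5) (nat_lit 367) (nat_lit 5) (nat_lit 467) (nat_lit 456) (nat_lit 217)) (XT.nd (nat_lit 78) (nat_lit 0) (nat_lit 76) (XT.lf (nat_lit 0) (nat_lit 5535570521) (nat_lit 1672) (nat_lit 2327071170) (nat_lit 1748) (nat_lit 13093217254) (nat_lit 344) (nat_lit 5) (nat_lit 366) (nat_lit 5) (nat_lit 367) (nat_lit 5) (nat_lit 468) (nat_lit 456) (nat_lit 216)) (XT.lf (nat_lit 0) (nat_lit 6404151883) (nat_lit 1672) (nat_lit 13805953543) (nat_lit 1748) (nat_lit 963808276) (nat_lit 345) (nat_lit 5) (nat_lit 367) (nat_lit 5) (nat_lit 368) (nat_lit 5) (nat_lit 469) (nat_lit 456)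 (nat_lit 215)))) (XT.nd (nat_lit 156) (nat_lit 0) (nat_lit 76) (XT.nd (nat_lit 78) (nat_lit 0) (nat_lit 0) (XT.lf (nat_lit 0) (nat_lit 7354112892) (nat_lit 1672) (nat_lit 4162383866) (nat_lit 1748) (nat_lit 9878556486) (nat_lit 345) (nat_lit 5) (nat_lit 367) (nat_lit 5) (nat_lit 368) (nat_lit 5) (nat_lit 470) (nat_lit 456) (nat_lit 214)) (XT.lf (nat_lit 76) (nat_lit 5746850818) (nat_lit 0) (nat_lit 2609827077) (nat_lit 1748) (nat_lit 13263269358) (nat_lit 346) (nat_lit 5) (nat_lit 345) (nat_lit 5) (nat_lit 368) (nat_lit 5) (nat_lit 471) (nat_lit 456) (nat_lit 213))) (XT.nd (nat_lit 78) (nat_lit 0) (nat_lit 0) (XT.lf (nat_lit 0) (nat_lit 9445806370) (nat_lit 1672) (nat_lit 5982957146) (nat_lit 1748) (nat_lit 6419249083) (nat_lit 346) (nat_lit 5) (nat_lit 368) (nat_lit 5) (nat_lit 369) (nat_lit 5) (nat_lit 472) (nat_lit 456) (nat_lit 212)) (XT.lf (nat_lit 76) (nat_lit 4139397874) (nat_lit 0) (nat_lit 6457905904)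 (nat_lit 1748) (nat_lit 11482527375) (nat_lit 347) (nat_lit 5) (nat_lit 346) (nat_lit 5) (nat_lit 369) (nat_lit 5) (nat_lit 473) (nat_lit 456) (nat_lit 211))))) (XT.nd (nat_lit 234) (nat_lit 0) (nat_lit 76) (XT.nd (nat_lit 78) (nat_lit 0) (nat_lit 0) (XT.lf (nat_lit 0) (nat_lit 11826212950) (nat_lit 1672) (nat_lit 7790584480) (nat_lit 1748) (nat_lit 2698404565) (nat_lit 347) (nat_lit 5) (nat_lit 369) (nat_lit 5) (nat_lit 370) (nat_lit 5) (nat_lit 474) (nat_lit 456) (nat_lit 210)) (XT.nd (nat_lit 78) (nat_lit 0) (nat_lit 0) (XT.lf (nat_lit 76) (nat_lit 2550338516) (nat_lit 0) (nat_lit 10585243254) (nat_lit 1748) (nat_lit 9418584343) (nat_lit 348) (nat_lit 5) (nat_lit 347) (nat_lit 5) (nat_lit 370) (nat_lit 5) (nat_lit 475) (nat_lit 456) (nat_lit 209)) (XT.lf (nat_lit 76) (nat_lit 13201097187) (nat_lit 0) (nat_lit 1318925838) (nat_lit 1748) (nat_lit 8276912204) (nat_lit 348) (nat_lit 5) (nat_lit 347) (nat_lit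 5) (nat_lit 370) (nat_lit 5) (nat_lit 476) (nat_lit 456) (nat_lit 208)))) (XT.nd (nat_lit 156) (nat_lit 0) (nat_lit 76) (XT.nd (nat_lit 78) (nat_lit 0) (nat_lit 0) (XT.lf (nat_lit 76) (nat_lit 977720749) (nat_lit 0) (nat_lit 15010261190) (nat_lit 1748) (nat_lit 7055464562) (nat_lit 349) (nat_lit 5) (nat_lit 348) (nat_lit 5) (nat_lit 371) (nat_lit 5) (nat_lit 477) (nat_lit 456) (nat_lit 207)) (XT.lf (nat_lit 76) (nat_lit 11881380779) (nat_lit 0) (nat_lit 5673715648) (nat_lit 1748) (nat_lit 5738398930) (nat_lit 349) (nat_lit 5) (nat_lit 348) (nat_lit 5) (nat_lit 371) (nat_lit 5) (nat_lit 478) (nat_lit 456) (nat_lit 206))) (XT.nd (nat_lit 78) (nat_lit 0) (nat_lit 0) (XT.lf (nat_lit 0) (nat_lit 19175341758) (nat_lit 1672) (nat_lit 573039342) (nat_lit 1748) (nat_lit 3799731539) (nat_lit 349) (nat_lit 5) (nat_lit 371) (nat_lit 5) (nat_lit 372) (nat_lit 5) (nat_lit 479) (nat_lit 456) (nat_lit 205)) (XT.lf (nat_lit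 76) (nat_lit 10581457847) (nat_lit 0) (nat_lit 10349667769) (nat_lit 1748) (nat_lit 2874637137) (nat_lit 350) (nat_lit 5) (nat_lit 349) (nat_lit 5) (nat_lit 372) (nat_lit 5) (nat_lit 480) (nat_lit 456) (nat_lit 204))))))) (XT.nd (nat_lit 1092) (nat_lit 3572) (nat_lit 0) (XT.nd (nat_lit 546) (nat_lit 3040) (nat_lit 0) (XT.nd (nat_lit 234) (nat_lit 1824) (nat_lit 0) (XT.nd (nat_lit 78) (nat_lit 1672) (nat_lit 0) (XT.lf (nat_lit 76) (nat_lit 21964266543) (nat_lit 0) (nat_lit 758506592) (nat_lit 1748) (nat_lit 1345780869) (nat_lit 350) (nat_lit 5) (nat_lit 349) (nat_lit 5) (nat_lit 372) (nat_lit 5) (nat_lit 481) (nat_lit 456) (nat_lit 203)) (XT.nd (nat_lit 78) (nat_lit 0) (nat_lit 0) (XT.lf (nat_lit 0) (nat_lit 327549771) (nat_lit 1748) (nat_lit 15037509257) (nat_lit 76) (nat_lit 8969183297) (nat_lit 327) (nat_lit 5) (nat_lit 350) (nat_lit 5) (nat_lit 328) (nat_lit 5) (nat_lit 482) (nat_lit 456) (nat_lit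 202)) (XT.lf (nat_lit 0) (nat_lit 2032568508) (nat_lit 1748) (nat_lit 3667282593) (nat_lit 76) (nat_lit 18904893486) (nat_lit 327) (nat_lit 5) (nat_lit 350) (nat_lit 5) (nat_lit 328) (nat_lit 5) (nat_lit 483) (nat_lit 456) (nat_lit 201)))) (XT.nd (nat_lit 156) (nat_lit 836) (nat_lit 0) (XT.nd (nat_lit 78) (nat_lit 0) (nat_lit 0) (XT.lf (nat_lit 0) (nat_lit 3848239262) (nat_lit 1064) (nat_lit 16873858373) (nat_lit 76) (nat_lit 4157031087) (nat_lit 314) (nat_lit 5) (nat_lit 328) (nat_lit 5) (nat_lit 315) (nat_lit 5) (nat_lit 484) (nat_lit 456) (nat_lit 200)) (XT.lf (nat_lit 0) (nat_lit 5759833348) (nat_lit 1064) (nat_lit 5238019043) (nat_lit 76) (nat_lit 14159958755) (nat_lit 314) (nat_lit 5) (nat_lit 328) (nat_lit 5) (nat_lit 315) (nat_lit 5) (nat_lit 485) (nat_lit 456) (nat_lit 199))) (XT.nd (nat_lit 78) (nat_lit 0) (nat_lit 0) (XT.lf (nat_lit 0) (nat_lit 6716084744) (nat_lit 836) (nat_lit 1034327091)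 (nat_lit 912) (nat_lit 17690843081) (nat_lit 303) (nat_lit 5) (nat_lit 314) (nat_lit 5) (nat_lit 315) (nat_lit 5) (nat_lit 486) (nat_lit 456) (nat_lit 198)) (XT.lf (nat_lit 0) (nat_lit 9872641354) (nat_lit 912) (nat_lit 6811471269) (nat_lit 76) (nat_lit 9044420844) (nat_lit 303) (nat_lit 5) (nat_lit 315) (nat_lit 5) (nat_lit 304) (nat_lit 5) (nat_lit 487) (nat_lit 456) (nat_lit 197))))) (XT.nd (nat_lit 234) (nat_lit 1444) (nat_lit 0) (XT.nd (nat_lit 78) (nat_lit 760) (nat_lit 0) (XT.lf (nat_lit 0) (nat_lit 5401970972) (nat_lit 836) (nat_lit 6674511382) (nat_lit 912) (nat_lit 13944294540) (nat_lit 292) (nat_lit 5) (nat_lit 303) (nat_lit 5) (nat_lit 304) (nat_lit 5) (nat_lit 488) (nat_lit 456) (nat_lit 196)) (XT.nd (nat_lit 78) (nat_lit 760) (nat_lit 0) (XT.lf (nat_lit 0) (nat_lit 14390647771) (nat_lit 912) (nat_lit 8391764049) (nat_lit 76) (nat_lit 3535131008) (nat_lit 292) (nat_lit 5) (nat_lit 304) (nat_lit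 5) (nat_lit 293) (nat_lit 5) (nat_lit 489) (nat_lit 456) (nat_lit 195)) (XT.lf (nat_lit 0) (nat_lit 4086694455) (nat_lit 760) (nat_lit 12732473847) (nat_lit 836) (nat_lit 9799716881) (nat_lit 282) (nat_lit 5) (nat_lit 292) (nat_lit 5) (nat_lit 293) (nat_lit 5) (nat_lit 490) (nat_lit 456) (nat_lit 194)))) (XT.nd (nat_lit 156) (nat_lit 684) (nat_lit 0) (XT.nd (nat_lit 78) (nat_lit 760) (nat_lit 0) (XT.lf (nat_lit 0) (nat_lit 16925971400) (nat_lit 760) (nat_lit 2423973188) (nat_lit 836) (nat_lit 7575238580) (nat_lit 282) (nat_lit 5) (nat_lit 292) (nat_lit 5) (nat_lit 293) (nat_lit 5) (nat_lit 491) (nat_lit 456) (nat_lit 193)) (XT.lf (nat_lit 0) (nat_lit 2765659746) (nat_lit 760) (nat_lit 19233587837) (nat_lit 836) (nat_lit 5237003747) (nat_lit 272) (nat_lit 5) (nat_lit 282) (nat_lit 5) (nat_lit 283) (nat_lit 5) (nat_lit 492) (nat_lit 456) (nat_lit 192))) (XT.nd (nat_lit 78) (nat_lit 684) (nat_lit 0) (XT.lf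 (nat_lit 0) (nat_lit 15902612036) (nat_lit 760) (nat_lit 8879430594) (nat_lit 836) (nat_lit 2769890499) (nat_lit 272) (nat_lit 5) (nat_lit 282) (nat_lit 5) (nat_lit 283) (nat_lit 5) (nat_lit 493) (nat_lit 456) (nat_lit 191)) (XT.lf (nat_lit 0) (nat_lit 1433763367) (nat_lit 684) (nat_lit 26204467543) (nat_lit 760) (nat_lit 235345254) (nat_lit 263) (nat_lit 5) (nat_lit 272) (nat_lit 5) (nat_lit 273) (nat_lit 5) (nat_lit 494) (nat_lit 456) (nat_lit 190)))))) (XT.nd (nat_lit 546) (nat_lit 1368) (nat_lit 0) (XT.nd (nat_lit 234) (nat_lit 1368) (nat_lit 0) (XT.nd (nat_lit 78) (nat_lit 760) (nat_lit 0) (XT.lf (nat_lit 0) (nat_lit 2454089766) (nat_lit 760) (nat_lit 13340763223) (nat_lit 76) (nat_lit 12403795822) (nat_lit 262) (nat_lit 5) (nat_lit 272) (nat_lit 5) (nat_lit 263) (nat_lit 5) (nat_lit 495) (nat_lit 456) (nat_lit 189)) (XT.nd (nat_lit 78) (nat_lit 0) (nat_lit 0) (XT.lf (nat_lit 0) (nat_lit 16459110)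 (nat_lit 760) (nat_lit 5175384636) (nat_lit 836) (nat_lit 23338396632) (nat_lit 252) (nat_lit 5) (nat_lit 262) (nat_lit 5) (nat_lit 263) (nat_lit 5) (nat_lit 496) (nat_lit 456) (nat_lit 188)) (XT.lf (nat_lit 0) (nat_lit 8108797888) (nat_lit 836) (nat_lit 15084827358) (nat_lit 76) (nat_lit 5672351796) (nat_lit 252) (nat_lit 5) (nat_lit 263) (nat_lit 5) (nat_lit 253) (nat_lit 5) (nat_lit 497) (nat_lit 456) (nat_lit 187)))) (XT.nd (nat_lit 156) (nat_lit 684) (nat_lit 0) (XT.nd (nat_lit 78) (nat_lit 684) (nat_lit 0) (XT.lf (nat_lit 0) (nat_lit 11116015273) (nat_lit 836) (nat_lit 1424018493) (nat_lit 76) (nat_lit 16667758315) (nat_lit 252) (nat_lit 5) (nat_lit 263) (nat_lit 5) (nat_lit 253) (nat_lit 5) (nat_lit 498) (nat_lit 456) (nat_lit 186)) (XT.lf (nat_lit 0) (nat_lit 12673824018) (nat_lit 684) (nat_lit 1589536026) (nat_lit 760) (nat_lit 15291485800) (nat_lit 243) (nat_lit 5) (nat_lit 252) (nat_lit 5)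 (nat_lit 253) (nat_lit 5) (nat_lit 499) (nat_lit 456) (nat_lit 185))) (XT.nd (nat_lit 78) (nat_lit 684) (nat_lit 0) (XT.lf (nat_lit 0) (nat_lit 17543195559) (nat_lit 760) (nat_lit 2900419061) (nat_lit 76) (nat_lit 9463837227) (nat_lit 243) (nat_lit 5) (nat_lit 253) (nat_lit 5) (nat_lit 244) (nat_lit 5) (nat_lit 500) (nat_lit 456) (nat_lit 184)) (XT.lf (nat_lit 0) (nat_lit 11497677842) (nat_lit 684) (nat_lit 9473896946) (nat_lit 760) (nat_lit 9293878245) (nat_lit 234) (nat_lit 5) (nat_lit 243) (nat_lit 5) (nat_lit 244) (nat_lit 5) (nat_lit 501) (nat_lit 456) (nat_lit 183))))) (XT.nd (nat_lit 55848) (nat_lit 0) (nat_lit 9348) (XT.nd (nat_lit 78) (nat_lit 1368) (nat_lit 0) (XT.lf (nat_lit 0) (nat_lit 24497047135) (nat_lit 760) (nat_lit 4420852080) (nat_lit 76) (nat_lit 1712146480) (nat_lit 234) (nat_lit 5) (nat_lit 244) (nat_lit 5) (nat_lit 235) (nat_lit 5) (nat_lit 502) (nat_lit 456) (nat_lit 182)) (XT.nd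 (nat_lit 156) (nat_lit 760) (nat_lit 0) (XT.lf (nat_lit 0) (nat_lit 10282761542) (nat_lit 608) (nat_lit 17937611111) (nat_lit 684) (nat_lit 2779012608) (nat_lit 226) (nat_lit 5) (nat_lit 234) (nat_lit 5) (nat_lit 235) (nat_lit 5) (nat_lit 503) (nat_lit 456) (nat_lit 181)) (XT.lf (nat_lit 0) (nat_lit 4221205603) (nat_lit 760) (nat_lit 22765033256) (nat_lit 76) (nat_lit 4770725669) (nat_lit 216) (nat_lit 5) (nat_lit 226) (nat_lit 5) (nat_lit 217) (nat_lit 5) (nat_lit 505) (nat_lit 456) (nat_lit 179)))) (XT.nd (nat_lit 156) (nat_lit 0) (nat_lit 76) (XT.nd (nat_lit 78) (nat_lit 0) (nat_lit 0) (XT.lf (nat_lit 0) (nat_lit 15678315) (nat_lit 1748) (nat_lit 4729086838) (nat_lit 1748) (nat_lit 4729086838) (nat_lit 339) (nat_lit 3) (nat_lit 362) (nat_lit 3) (nat_lit 362) (nat_lit 5) (nat_lit 457) (nat_lit 457) (nat_lit 226)) (XT.lf (nat_lit 0) (nat_lit 206142630) (nat_lit 1748) (nat_lit 1091330004) (nat_lit 1748)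 (nat_lit 17836040065) (nat_lit 339) (nat_lit 3) (nat_lit 362) (nat_lit 3) (nat_lit 362) (nat_lit 5) (nat_lit 458) (nat_lit 457) (nat_lit 225))) (XT.nd (nat_lit 78) (nat_lit 0) (nat_lit 0) (XT.lf (nat_lit 0) (nat_lit 474965333) (nat_lit 1672) (nat_lit 11828926793) (nat_lit 1748) (nat_lit 7017339336) (nat_lit 340) (nat_lit 5) (nat_lit 362) (nat_lit 5) (nat_lit 363) (nat_lit 5) (nat_lit 459) (nat_lit 457) (nat_lit 224)) (XT.lf (nat_lit 0) (nat_lit 760641273) (nat_lit 1672) (nat_lit 3261223636) (nat_lit 1748) (nat_lit 15490614756) (nat_lit 340) (nat_lit 5) (nat_lit 362) (nat_lit 5) (nat_lit 363) (nat_lit 5) (nat_lit 460) (nat_lit 457) (nat_lit 223))))))))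
noncomputable def xc244 : XT := (XT.nd (nat_lit 2106) (nat_lit 5244) (nat_lit 0) (XT.nd (nat_lit 1014) (nat_lit 2888) (nat_lit 0) (XT.nd (nat_lit 468) (nat_lit 0) (nat_lit 152) (XT.nd (nat_lit 234) (nat_lit 0) (nat_lit 76) (XT.nd (nat_lit 78) (nat_lit 0) (nat_lit 0) (XT.lf (nat_lit 0) (nat_lit 1112640689) (nat_lit 1672) (nat_lit 14187694468) (nat_lit 1748) (nat_lit 4406009985) (nat_lit 341) (nat_lit 5) (nat_lit 363) (nat_lit 5) (nat_lit 364) (nat_lit 5) (nat_lit 461) (nat_lit 457) (nat_lit 222)) (XT.nd (nat_lit 78) (nat_lit 0) (nat_lit 76) (XT.lf (nat_lit 0) (nat_lit 1516028405) (nat_lit 1672) (nat_lit 5414571014) (nat_lit 1748) (nat_lit 12972605965) (nat_lit 341) (nat_lit 5) (nat_lit 363) (nat_lit 5) (nat_lit 364) (nat_lit 5) (nat_lit 462) (nat_lit 457) (nat_lit 221)) (XT.lf (nat_lit 0) (nat_lit 1957082939) (nat_lit 1672) (nat_lit 16535697231) (nat_lit 1748) (nat_lit 1610635014) (nat_lit 342) (nat_lit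 5) (nat_lit 364) (nat_lit 5) (nat_lit 365) (nat_lit 5) (nat_lit 463) (nat_lit 457) (nat_lit 220)))) (XT.nd (nat_lit 78) (nat_lit 0) (nat_lit 0) (XT.lf (nat_lit 0) (nat_lit 2485279199) (nat_lit 1672) (nat_lit 7552497261) (nat_lit 1748) (nat_lit 10268290557) (nat_lit 342) (nat_lit 5) (nat_lit 364) (nat_lit 5) (nat_lit 365) (nat_lit 5) (nat_lit 464) (nat_lit 457) (nat_lit 219)) (XT.nd (nat_lit 78) (nat_lit 0) (nat_lit 76) (XT.lf (nat_lit 76) (nat_lit 1629279338) (nat_lit 0) (nat_lit 1401267210) (nat_lit 1748) (nat_lit 17482099362) (nat_lit 343) (nat_lit 5) (nat_lit 342) (nat_lit 5) (nat_lit 365) (nat_lit 5) (nat_lit 465) (nat_lit 457) (nat_lit 218)) (XT.lf (nat_lit 0) (nat_lit 3681836553) (nat_lit 1672) (nat_lit 9676242216) (nat_lit 1748) (nat_lit 7363379350) (nat_lit 343) (nat_lit 5) (nat_lit 365) (nat_lit 5) (nat_lit 366) (nat_lit 5) (nat_lit 466) (nat_lit 457) (nat_lit 217))))) (XT.nd (nat_lit 234) (nat_lit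 0) (nat_lit 152) (XT.nd (nat_lit 78) (nat_lit 0) (nat_lit 76) (XT.lf (nat_lit 0) (nat_lit 4351513615) (nat_lit 1672) (nat_lit 296739515) (nat_lit 1748) (nat_lit 16286090221) (nat_lit 343) (nat_lit 5) (nat_lit 365) (nat_lit 5) (nat_lit 366) (nat_lit 5) (nat_lit 467) (nat_lit 457) (nat_lit 216)) (XT.nd (nat_lit 78) (nat_lit 0) (nat_lit 0) (XT.lf (nat_lit 0) (nat_lit 5119629888) (nat_lit 1672) (nat_lit 11787178467) (nat_lit 1748) (nat_lit 4242980946) (nat_lit 344) (nat_lit 5) (nat_lit 366) (nat_lit 5) (nat_lit 367) (nat_lit 5) (nat_lit 468) (nat_lit 457) (nat_lit 215)) (XT.lf (nat_lit 0) (nat_lit 5932122733) (nat_lit 1672) (nat_lit 2183637925) (nat_lit 1748) (nat_lit 13253207076) (nat_lit 344) (nat_lit 5) (nat_lit 366) (nat_lit 5) (nat_lit 367) (nat_lit 5) (nat_lit 469) (nat_lit 457) (nat_lit 214)))) (XT.nd (nat_lit 156) (nat_lit 0) (nat_lit 0) (XT.nd (nat_lit 78) (nat_lit 0) (nat_lit 0) (XT.lf (nat_lit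 0) (nat_lit 6813094221) (nat_lit 1672) (nat_lit 13886830587) (nat_lit 1748) (nat_lit 891564126) (nat_lit 345) (nat_lit 5) (nat_lit 367) (nat_lit 5) (nat_lit 368) (nat_lit 5) (nat_lit 470) (nat_lit 457) (nat_lit 213)) (XT.lf (nat_lit 0) (nat_lit 7776547404) (nat_lit 1672) (nat_lit 4054217791) (nat_lit 1748) (nat_lit 9986401816) (nat_lit 345) (nat_lit 5) (nat_lit 367) (nat_lit 5) (nat_lit 368) (nat_lit 5) (nat_lit 471) (nat_lit 457) (nat_lit 212))) (XT.nd (nat_lit 78) (nat_lit 0) (nat_lit 76) (XT.lf (nat_lit 76) (nat_lit 6051942285) (nat_lit 0) (nat_lit 2743056968) (nat_lit 1748) (nat_lit 13251648433) (nat_lit 346) (nat_lit 5) (nat_lit 345) (nat_lit 5) (nat_lit 368) (nat_lit 5) (nat_lit 472) (nat_lit 457) (nat_lit 211)) (XT.lf (nat_lit 0) (nat_lit 9900077083) (nat_lit 1672) (nat_lit 5910087774) (nat_lit 1748) (nat_lit 6469231534) (nat_lit 346) (nat_lit 5) (nat_lit 368) (nat_lit 5) (nat_lit 369) (nat_lit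 5) (nat_lit 473) (nat_lit 457) (nat_lit 210)))))) (XT.nd (nat_lit 546) (nat_lit 3268) (nat_lit 0) (XT.nd (nat_lit 234) (nat_lit 0) (nat_lit 76) (XT.nd (nat_lit 78) (nat_lit 0) (nat_lit 76) (XT.lf (nat_lit 76) (nat_lit 4413447711) (nat_lit 0) (nat_lit 6657195495) (nat_lit 1748) (nat_lit 11445292614) (nat_lit 347) (nat_lit 5) (nat_lit 346) (nat_lit 5) (nat_lit 369) (nat_lit 5) (nat_lit 474) (nat_lit 457) (nat_lit 209)) (XT.nd (nat_lit 78) (nat_lit 0) (nat_lit 0) (XT.lf (nat_lit 0) (nat_lit 12318558791) (nat_lit 1672) (nat_lit 7753053842) (nat_lit 1748) (nat_lit 2684518061) (nat_lit 347) (nat_lit 5) (nat_lit 369) (nat_lit 5) (nat_lit 370) (nat_lit 5) (nat_lit 475) (nat_lit 457) (nat_lit 208)) (XT.lf (nat_lit 76) (nat_lit 2793415625) (nat_lit 0) (nat_lit 10856930300) (nat_lit 1748) (nat_lit 9349608626) (nat_lit 348) (nat_lit 5) (nat_lit 347) (nat_lit 5) (nat_lit 370) (nat_lit 5) (nat_lit 476) (nat_lit 457)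 (nat_lit 207)))) (XT.nd (nat_lit 156) (nat_lit 0) (nat_lit 76) (XT.nd (nat_lit 78) (nat_lit 0) (nat_lit 76) (XT.lf (nat_lit 76) (nat_lit 13653423385) (nat_lit 0) (nat_lit 1404110415) (nat_lit 1748) (nat_lit 8190149072) (nat_lit 348) (nat_lit 5) (nat_lit 347) (nat_lit 5) (nat_lit 370) (nat_lit 5) (nat_lit 477) (nat_lit 457) (nat_lit 206)) (XT.lf (nat_lit 76) (nat_lit 1189876781) (nat_lit 0) (nat_lit 15361005988) (nat_lit 1748) (nat_lit 6948325864) (nat_lit 349) (nat_lit 5) (nat_lit 348) (nat_lit 5) (nat_lit 371) (nat_lit 5) (nat_lit 478) (nat_lit 457) (nat_lit 205))) (XT.nd (nat_lit 78) (nat_lit 0) (nat_lit 76) (XT.lf (nat_lit 76) (nat_lit 12307833508) (nat_lit 0) (nat_lit 5836738563) (nat_lit 1748) (nat_lit 5609786527) (nat_lit 349) (nat_lit 5) (nat_lit 348) (nat_lit 5) (nat_lit 371) (nat_lit 5) (nat_lit 479) (nat_lit 457) (nat_lit 204)) (XT.lf (nat_lit 0) (nat_lit 19792232920) (nat_lit 1672) (nat_lit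 394153578) (nat_lit 1748) (nat_lit 3827786206) (nat_lit 349) (nat_lit 5) (nat_lit 371) (nat_lit 5) (nat_lit 372) (nat_lit 5) (nat_lit 480) (nat_lit 457) (nat_lit 203))))) (XT.nd (nat_lit 234) (nat_lit 1824) (nat_lit 0) (XT.nd (nat_lit 78) (nat_lit 1672) (nat_lit 0) (XT.lf (nat_lit 76) (nat_lit 10982181275) (nat_lit 0) (nat_lit 10597602741) (nat_lit 1748) (nat_lit 2697263369) (nat_lit 350) (nat_lit 5) (nat_lit 349) (nat_lit 5) (nat_lit 372) (nat_lit 5) (nat_lit 481) (nat_lit 457) (nat_lit 202)) (XT.nd (nat_lit 78) (nat_lit 1672) (nat_lit 0) (XT.lf (nat_lit 76) (nat_lit 22588938414) (nat_lit 0) (nat_lit 813815564) (nat_lit 1748) (nat_lit 1142435202) (nat_lit 350) (nat_lit 5) (nat_lit 349) (nat_lit 5) (nat_lit 372) (nat_lit 5) (nat_lit 482) (nat_lit 457) (nat_lit 201)) (XT.lf (nat_lit 0) (nat_lit 557865323) (nat_lit 1748) (nat_lit 15145938553) (nat_lit 76) (nat_lit 9112431361) (nat_lit 327) (nat_lit 5) (nat_lit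 350) (nat_lit 5) (nat_lit 328) (nat_lit 5) (nat_lit 483) (nat_lit 457) (nat_lit 200)))) (XT.nd (nat_lit 156) (nat_lit 836) (nat_lit 0) (XT.nd (nat_lit 78) (nat_lit 988) (nat_lit 0) (XT.lf (nat_lit 0) (nat_lit 2292596895) (nat_lit 1748) (nat_lit 3552078354) (nat_lit 76) (nat_lit 19247564295) (nat_lit 327) (nat_lit 5) (nat_lit 350) (nat_lit 5) (nat_lit 328) (nat_lit 5) (nat_lit 484) (nat_lit 457) (nat_lit 199)) (XT.lf (nat_lit 0) (nat_lit 4141307519) (nat_lit 1064) (nat_lit 17019303874) (nat_lit 76) (nat_lit 4211569604) (nat_lit 314) (nat_lit 5) (nat_lit 328) (nat_lit 5) (nat_lit 315) (nat_lit 5) (nat_lit 485) (nat_lit 457) (nat_lit 198))) (XT.nd (nat_lit 78) (nat_lit 836) (nat_lit 0) (XT.lf (nat_lit 0) (nat_lit 6086896164) (nat_lit 1064) (nat_lit 5154513083) (nat_lit 76) (nat_lit 14415116651) (nat_lit 314) (nat_lit 5) (nat_lit 328) (nat_lit 5) (nat_lit 315) (nat_lit 5) (nat_lit 486) (nat_lit 457) (nat_lit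 197)) (XT.lf (nat_lit 0) (nat_lit 7037434185) (nat_lit 836) (nat_lit 1076912105) (nat_lit 912) (nat_lit 17831355055) (nat_lit 303) (nat_lit 5) (nat_lit 314) (nat_lit 5) (nat_lit 315) (nat_lit 5) (nat_lit 487) (nat_lit 457) (nat_lit 196))))))) (XT.nd (nat_lit 1014) (nat_lit 684) (nat_lit 0) (XT.nd (nat_lit 468) (nat_lit 2204) (nat_lit 0) (XT.nd (nat_lit 234) (nat_lit 1520) (nat_lit 0) (XT.nd (nat_lit 78) (nat_lit 836) (nat_lit 0) (XT.lf (nat_lit 0) (nat_lit 10274784415) (nat_lit 912) (nat_lit 6759907954) (nat_lit 76) (nat_lit 9204121742) (nat_lit 303) (nat_lit 5) (nat_lit 315) (nat_lit 5) (nat_lit 304) (nat_lit 5) (nat_lit 488) (nat_lit 457) (nat_lit 195)) (XT.nd (nat_lit 78) (nat_lit 0) (nat_lit 0) (XT.lf (nat_lit 0) (nat_lit 5696567653) (nat_lit 836) (nat_lit 6823332302) (nat_lit 912) (nat_lit 14017062345) (nat_lit 292) (nat_lit 5) (nat_lit 303) (nat_lit 5) (nat_lit 304) (nat_lit 5) (nat_lit 489) (nat_lit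 457) (nat_lit 194)) (XT.lf (nat_lit 0) (nat_lit 14876292507) (nat_lit 912) (nat_lit 8372455280) (nat_lit 76) (nat_lit 3591000660) (nat_lit 292) (nat_lit 5) (nat_lit 304) (nat_lit 5) (nat_lit 293) (nat_lit 5) (nat_lit 490) (nat_lit 457) (nat_lit 193)))) (XT.nd (nat_lit 78) (nat_lit 760) (nat_lit 0) (XT.lf (nat_lit 0) (nat_lit 4354341183) (nat_lit 760) (nat_lit 12996370281) (nat_lit 836) (nat_lit 9796463324) (nat_lit 282) (nat_lit 5) (nat_lit 292) (nat_lit 5) (nat_lit 293) (nat_lit 5) (nat_lit 491) (nat_lit 457) (nat_lit 192)) (XT.nd (nat_lit 78) (nat_lit 760) (nat_lit 0) (XT.lf (nat_lit 0) (nat_lit 17446758318) (nat_lit 760) (nat_lit 2481518296) (nat_lit 836) (nat_lit 7531402277) (nat_lit 282) (nat_lit 5) (nat_lit 292) (nat_lit 5) (nat_lit 293) (nat_lit 5) (nat_lit 492) (nat_lit 457) (nat_lit 191)) (XT.lf (nat_lit 0) (nat_lit 3006081348) (nat_lit 760) (nat_lit 19621876831) (nat_lit 836) (nat_lit 5149065942)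 (nat_lit 272) (nat_lit 5) (nat_lit 282) (nat_lit 5) (nat_lit 283) (nat_lit 5) (nat_lit 493) (nat_lit 457) (nat_lit 190))))) (XT.nd (nat_lit 234) (nat_lit 1444) (nat_lit 0) (XT.nd (nat_lit 78) (nat_lit 760) (nat_lit 0) (XT.lf (nat_lit 0) (nat_lit 16402143107) (nat_lit 760) (nat_lit 9060565517) (nat_lit 836) (nat_lit 2636388427) (nat_lit 272) (nat_lit 5) (nat_lit 282) (nat_lit 5) (nat_lit 283) (nat_lit 5) (nat_lit 494) (nat_lit 457) (nat_lit 189)) (XT.nd (nat_lit 78) (nat_lit 76) (nat_lit 0) (XT.lf (nat_lit 0) (nat_lit 1646595648) (nat_lit 684) (nat_lit 26726970173) (nat_lit 760) (nat_lit 53659638) (nat_lit 263) (nat_lit 5) (nat_lit 272) (nat_lit 5) (nat_lit 273) (nat_lit 5) (nat_lit 495) (nat_lit 457) (nat_lit 188)) (XT.lf (nat_lit 0) (nat_lit 2683512688) (nat_lit 760) (nat_lit 13424471569) (nat_lit 76) (nat_lit 12650866519) (nat_lit 262) (nat_lit 5) (nat_lit 272) (nat_lit 5) (nat_lit 263) (nat_lit 5)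 (nat_lit 496) (nat_lit 457) (nat_lit 187)))) (XT.nd (nat_lit 156) (nat_lit 684) (nat_lit 0) (XT.nd (nat_lit 78) (nat_lit 0) (nat_lit 0) (XT.lf (nat_lit 0) (nat_lit 198690561) (nat_lit 760) (nat_lit 5274976117) (nat_lit 836) (nat_lit 23623457817) (nat_lit 252) (nat_lit 5) (nat_lit 262) (nat_lit 5) (nat_lit 263) (nat_lit 5) (nat_lit 497) (nat_lit 457) (nat_lit 186)) (XT.lf (nat_lit 0) (nat_lit 8445494908) (nat_lit 836) (nat_lit 15204565541) (nat_lit 76) (nat_lit 5789587900) (nat_lit 252) (nat_lit 5) (nat_lit 263) (nat_lit 5) (nat_lit 253) (nat_lit 5) (nat_lit 498) (nat_lit 457) (nat_lit 185))) (XT.nd (nat_lit 78) (nat_lit 684) (nat_lit 0) (XT.lf (nat_lit 0) (nat_lit 11509434659) (nat_lit 836) (nat_lit 1274108309) (nat_lit 76) (nat_lit 17004828255) (nat_lit 252) (nat_lit 5) (nat_lit 263) (nat_lit 5) (nat_lit 253) (nat_lit 5) (nat_lit 499) (nat_lit 457) (nat_lit 184)) (XT.lf (nat_lit 0) (nat_lit 13104517430)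 (nat_lit 684) (nat_lit 1613004622) (nat_lit 760) (nat_lit 15424891129) (nat_lit 243) (nat_lit 5) (nat_lit 252) (nat_lit 5) (nat_lit 253) (nat_lit 5) (nat_lit 500) (nat_lit 457) (nat_lit 183)))))) (XT.nd (nat_lit 56394) (nat_lit 0) (nat_lit 8132) (XT.nd (nat_lit 56082) (nat_lit 0) (nat_lit 7980) (XT.nd (nat_lit 78) (nat_lit 684) (nat_lit 0) (XT.lf (nat_lit 0) (nat_lit 18059695587) (nat_lit 760) (nat_lit 2781277952) (nat_lit 76) (nat_lit 9661165912) (nat_lit 243) (nat_lit 5) (nat_lit 253) (nat_lit 5) (nat_lit 244) (nat_lit 5) (nat_lit 501) (nat_lit 457) (nat_lit 182)) (XT.nd (nat_lit 55926) (nat_lit 0) (nat_lit 7980) (XT.lf (nat_lit 0) (nat_lit 11903615432) (nat_lit 684) (nat_lit 9650921807) (nat_lit 760) (nat_lit 9312808441) (nat_lit 234) (nat_lit 5) (nat_lit 243) (nat_lit 5) (nat_lit 244) (nat_lit 5) (nat_lit 502) (nat_lit 457) (nat_lit 181)) (XT.lf (nat_lit 0) (nat_lit 189331524) (nat_lit 1748) (nat_lit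 4735176500) (nat_lit 1748) (nat_lit 4735176500) (nat_lit 339) (nat_lit 3) (nat_lit 362) (nat_lit 3) (nat_lit 362) (nat_lit 5) (nat_lit 458) (nat_lit 458) (nat_lit 224)))) (XT.nd (nat_lit 156) (nat_lit 0) (nat_lit 76) (XT.nd (nat_lit 78) (nat_lit 0) (nat_lit 76) (XT.lf (nat_lit 0) (nat_lit 550147137) (nat_lit 1748) (nat_lit 939642732) (nat_lit 1748) (nat_lit 18019246994) (nat_lit 339) (nat_lit 3) (nat_lit 362) (nat_lit 3) (nat_lit 362) (nat_lit 5) (nat_lit 459) (nat_lit 458) (nat_lit 223)) (XT.lf (nat_lit 0) (nat_lit 817749525) (nat_lit 1672) (nat_lit 11885053063) (nat_lit 1748) (nat_lit 6997846182) (nat_lit 340) (nat_lit 5) (nat_lit 362) (nat_lit 5) (nat_lit 363) (nat_lit 5) (nat_lit 460) (nat_lit 458) (nat_lit 222))) (XT.nd (nat_lit 78) (nat_lit 0) (nat_lit 76) (XT.lf (nat_lit 0) (nat_lit 1102603985) (nat_lit 1672) (nat_lit 3149534122) (nat_lit 1748) (nat_lit 15643721227) (nat_lit 340) (nat_lit 5) (nat_lit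 362) (nat_lit 5) (nat_lit 363) (nat_lit 5) (nat_lit 461) (nat_lit 458) (nat_lit 221)) (XT.lf (nat_lit 0) (nat_lit 1455431413) (nat_lit 1672) (nat_lit 14287994034) (nat_lit 1748) (nat_lit 4350307480) (nat_lit 341) (nat_lit 5) (nat_lit 363) (nat_lit 5) (nat_lit 364) (nat_lit 5) (nat_lit 462) (nat_lit 458) (nat_lit 220))))) (XT.nd (nat_lit 234) (nat_lit 0) (nat_lit 76) (XT.nd (nat_lit 78) (nat_lit 0) (nat_lit 76) (XT.lf (nat_lit 0) (nat_lit 1860601827) (nat_lit 1672) (nat_lit 5343005255) (nat_lit 1748) (nat_lit 13091055432) (nat_lit 341) (nat_lit 5) (nat_lit 363) (nat_lit 5) (nat_lit 364) (nat_lit 5) (nat_lit 463) (nat_lit 458) (nat_lit 219)) (XT.nd (nat_lit 78) (nat_lit 0) (nat_lit 0) (XT.lf (nat_lit 0) (nat_lit 2304627906) (nat_lit 1672) (nat_lit 16680388843) (nat_lit 1748) (nat_lit 1513983064) (nat_lit 342) (nat_lit 5) (nat_lit 364) (nat_lit 5) (nat_lit 365) (nat_lit 5) (nat_lit 464) (nat_lit 458) (nat_lit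 218)) (XT.lf (nat_lit 0) (nat_lit 2837340968) (nat_lit 1672) (nat_lit 7521172370) (nat_lit 1748) (nat_lit 10347318475) (nat_lit 342) (nat_lit 5) (nat_lit 364) (nat_lit 5) (nat_lit 365) (nat_lit 5) (nat_lit 465) (nat_lit 458) (nat_lit 217)))) (XT.nd (nat_lit 156) (nat_lit 0) (nat_lit 76) (XT.nd (nat_lit 78) (nat_lit 0) (nat_lit 76) (XT.lf (nat_lit 76) (nat_lit 1843039927) (nat_lit 0) (nat_lit 1545721493) (nat_lit 1748) (nat_lit 17527881977) (nat_lit 343) (nat_lit 5) (nat_lit 342) (nat_lit 5) (nat_lit 365) (nat_lit 5) (nat_lit 466) (nat_lit 458) (nat_lit 216)) (XT.lf (nat_lit 0) (nat_lit 4046500741) (nat_lit 1672) (nat_lit 9685270621) (nat_lit 1748) (nat_lit 7397997964) (nat_lit 343) (nat_lit 5) (nat_lit 365) (nat_lit 5) (nat_lit 366) (nat_lit 5) (nat_lit 467) (nat_lit 458) (nat_lit 215))) (XT.nd (nat_lit 78) (nat_lit 0) (nat_lit 76) (XT.lf (nat_lit 0) (nat_lit 4723864924) (nat_lit 1672) (nat_lit 121795444)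 (nat_lit 1748) (nat_lit 16501371856) (nat_lit 343) (nat_lit 5) (nat_lit 365) (nat_lit 5) (nat_lit 366) (nat_lit 5) (nat_lit 468) (nat_lit 458) (nat_lit 214)) (XT.lf (nat_lit 0) (nat_lit 5502258566) (nat_lit 1672) (nat_lit 11836672362) (nat_lit 1748) (nat_lit 4227963581) (nat_lit 344) (nat_lit 5) (nat_lit 366) (nat_lit 5) (nat_lit 367) (nat_lit 5) (nat_lit 469) (nat_lit 458) (nat_lit 213))))))))
noncomputable def xc245 : XT := (XT.nd (nat_lit 2106) (nat_lit 2128) (nat_lit 0) (XT.nd (nat_lit 1014) (nat_lit 6232) (nat_lit 0) (XT.nd (nat_lit 468) (nat_lit 0) (nat_lit 228) (XT.nd (nat_lit 234) (nat_lit 0) (nat_lit 76) (XT.nd (nat_lit 78) (nat_lit 0) (nat_lit 76) (XT.lf (nat_lit 0) (nat_lit 6325506443) (nat_lit 1672) (nat_lit 2044712964) (nat_lit 1748) (nat_lit 13420352605) (nat_lit 344) (nat_lit 5) (nat_lit 366) (nat_lit 5) (nat_lit 367) (nat_lit 5) (nat_lit 470) (nat_lit 458) (nat_lit 212)) (XT.nd (nat_lit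 78) (nat_lit 0) (nat_lit 0) (XT.lf (nat_lit 0) (nat_lit 7219309296) (nat_lit 1672) (nat_lit 13976906658) (nat_lit 1748) (nat_lit 821428938) (nat_lit 345) (nat_lit 5) (nat_lit 367) (nat_lit 5) (nat_lit 368) (nat_lit 5) (nat_lit 471) (nat_lit 458) (nat_lit 211)) (XT.lf (nat_lit 0) (nat_lit 8196738343) (nat_lit 1672) (nat_lit 3951321225) (nat_lit 1748) (nat_lit 10099888215) (nat_lit 345) (nat_lit 5) (nat_lit 367) (nat_lit 5) (nat_lit 368) (nat_lit 5) (nat_lit 472) (nat_lit 458) (nat_lit 210)))) (XT.nd (nat_lit 78) (nat_lit 0) (nat_lit 76) (XT.lf (nat_lit 76) (nat_lit 6355751652) (nat_lit 0) (nat_lit 2875804832) (nat_lit 1748) (nat_lit 13250546922) (nat_lit 346) (nat_lit 5) (nat_lit 345) (nat_lit 5) (nat_lit 368) (nat_lit 5) (nat_lit 473) (nat_lit 458) (nat_lit 209)) (XT.nd (nat_lit 78) (nat_lit 0) (nat_lit 0) (XT.lf (nat_lit 0) (nat_lit 10353129168) (nat_lit 1672) (nat_lit 5843237131) (nat_lit 1748) (nat_lit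 6523258099) (nat_lit 346) (nat_lit 5) (nat_lit 368) (nat_lit 5) (nat_lit 369) (nat_lit 5) (nat_lit 474) (nat_lit 458) (nat_lit 208)) (XT.lf (nat_lit 76) (nat_lit 4685551614) (nat_lit 0) (nat_lit 6857747588) (nat_lit 1748) (nat_lit 11417676640) (nat_lit 347) (nat_lit 5) (nat_lit 346) (nat_lit 5) (nat_lit 369) (nat_lit 5) (nat_lit 475) (nat_lit 458) (nat_lit 207))))) (XT.nd (nat_lit 234) (nat_lit 0) (nat_lit 76) (XT.nd (nat_lit 78) (nat_lit 0) (nat_lit 0) (XT.lf (nat_lit 0) (nat_lit 12810817685) (nat_lit 1672) (nat_lit 7722280309) (nat_lit 1748) (nat_lit 2672988705) (nat_lit 347) (nat_lit 5) (nat_lit 369) (nat_lit 5) (nat_lit 370) (nat_lit 5) (nat_lit 476) (nat_lit 458) (nat_lit 206)) (XT.nd (nat_lit 78) (nat_lit 0) (nat_lit 0) (XT.lf (nat_lit 76) (nat_lit 3033895952) (nat_lit 0) (nat_lit 11131721907) (nat_lit 1748) (nat_lit 9289246509) (nat_lit 348) (nat_lit 5) (nat_lit 347) (nat_lit 5) (nat_lit 370) (nat_lit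 5) (nat_lit 477) (nat_lit 458) (nat_lit 205)) (XT.lf (nat_lit 76) (nat_lit 14107484023) (nat_lit 0) (nat_lit 1488715173) (nat_lit 1748) (nat_lit 8111447848) (nat_lit 348) (nat_lit 5) (nat_lit 347) (nat_lit 5) (nat_lit 370) (nat_lit 5) (nat_lit 478) (nat_lit 458) (nat_lit 204)))) (XT.nd (nat_lit 156) (nat_lit 0) (nat_lit 76) (XT.nd (nat_lit 78) (nat_lit 0) (nat_lit 0) (XT.lf (nat_lit 76) (nat_lit 1398796977) (nat_lit 0) (nat_lit 15716803168) (nat_lit 1748) (nat_lit 6848684163) (nat_lit 349) (nat_lit 5) (nat_lit 348) (nat_lit 5) (nat_lit 371) (nat_lit 5) (nat_lit 479) (nat_lit 458) (nat_lit 203)) (XT.lf (nat_lit 76) (nat_lit 12735482983) (nat_lit 0) (nat_lit 6001097903) (nat_lit 1748) (nat_lit 5488052633) (nat_lit 349) (nat_lit 5) (nat_lit 348) (nat_lit 5) (nat_lit 371) (nat_lit 5) (nat_lit 480) (nat_lit 458) (nat_lit 202))) (XT.nd (nat_lit 78) (nat_lit 0) (nat_lit 0) (XT.lf (nat_lit 0) (nat_lit 20412399307)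 (nat_lit 1672) (nat_lit 219081486) (nat_lit 1748) (nat_lit 3858263534) (nat_lit 349) (nat_lit 5) (nat_lit 371) (nat_lit 5) (nat_lit 372) (nat_lit 5) (nat_lit 481) (nat_lit 458) (nat_lit 201)) (XT.lf (nat_lit 76) (nat_lit 11383576411) (nat_lit 0) (nat_lit 10848906600) (nat_lit 1748) (nat_lit 2525462279) (nat_lit 350) (nat_lit 5) (nat_lit 349) (nat_lit 5) (nat_lit 372) (nat_lit 5) (nat_lit 482) (nat_lit 458) (nat_lit 200)))))) (XT.nd (nat_lit 546) (nat_lit 3116) (nat_lit 0) (XT.nd (nat_lit 234) (nat_lit 1824) (nat_lit 0) (XT.nd (nat_lit 78) (nat_lit 1672) (nat_lit 0) (XT.lf (nat_lit 76) (nat_lit 23218904938) (nat_lit 0) (nat_lit 868672075) (nat_lit 1748) (nat_lit 943963947) (nat_lit 350) (nat_lit 5) (nat_lit 349) (nat_lit 5) (nat_lit 372) (nat_lit 5) (nat_lit 483) (nat_lit 458) (nat_lit 199)) (XT.nd (nat_lit 78) (nat_lit 0) (nat_lit 0) (XT.lf (nat_lit 0) (nat_lit 784098135) (nat_lit 1748) (nat_lit 15264004489)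 (nat_lit 76) (nat_lit 9259947576) (nat_lit 327) (nat_lit 5) (nat_lit 350) (nat_lit 5) (nat_lit 328) (nat_lit 5) (nat_lit 484) (nat_lit 458) (nat_lit 198)) (XT.lf (nat_lit 0) (nat_lit 2549307172) (nat_lit 1748) (nat_lit 3441891651) (nat_lit 76) (nat_lit 19598464196) (nat_lit 327) (nat_lit 5) (nat_lit 350) (nat_lit 5) (nat_lit 328) (nat_lit 5) (nat_lit 485) (nat_lit 458) (nat_lit 197)))) (XT.nd (nat_lit 156) (nat_lit 836) (nat_lit 0) (XT.nd (nat_lit 78) (nat_lit 0) (nat_lit 0) (XT.lf (nat_lit 0) (nat_lit 4431845579) (nat_lit 1064) (nat_lit 17175115108) (nat_lit 76) (nat_lit 4268309546) (nat_lit 314) (nat_lit 5) (nat_lit 328) (nat_lit 5) (nat_lit 315) (nat_lit 5) (nat_lit 486) (nat_lit 458) (nat_lit 196)) (XT.lf (nat_lit 0) (nat_lit 6412273215) (nat_lit 1064) (nat_lit 5076647616) (nat_lit 76) (nat_lit 14676466582) (nat_lit 314) (nat_lit 5) (nat_lit 328) (nat_lit 5) (nat_lit 315) (nat_lit 5) (nat_lit 487)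 (nat_lit 458) (nat_lit 195))) (XT.nd (nat_lit 78) (nat_lit 0) (nat_lit 0) (XT.lf (nat_lit 0) (nat_lit 7357948099) (nat_lit 836) (nat_lit 1119498476) (nat_lit 912) (nat_lit 17982960156) (nat_lit 303) (nat_lit 5) (nat_lit 314) (nat_lit 5) (nat_lit 315) (nat_lit 5) (nat_lit 488) (nat_lit 458) (nat_lit 194)) (XT.lf (nat_lit 0) (nat_lit 10677021967) (nat_lit 912) (nat_lit 6714605594) (nat_lit 76) (nat_lit 9367839394) (nat_lit 303) (nat_lit 5) (nat_lit 315) (nat_lit 5) (nat_lit 304) (nat_lit 5) (nat_lit 489) (nat_lit 458) (nat_lit 193))))) (XT.nd (nat_lit 234) (nat_lit 1520) (nat_lit 0) (XT.nd (nat_lit 78) (nat_lit 760) (nat_lit 0) (XT.lf (nat_lit 0) (nat_lit 5989812022) (nat_lit 836) (nat_lit 6974534330) (nat_lit 912) (nat_lit 14099289322) (nat_lit 292) (nat_lit 5) (nat_lit 303) (nat_lit 5) (nat_lit 304) (nat_lit 5) (nat_lit 490) (nat_lit 458) (nat_lit 192)) (XT.nd (nat_lit 78) (nat_lit 760) (nat_lit 0) (XT.lf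 (nat_lit 0) (nat_lit 15363968090) (nat_lit 912) (nat_lit 8360027367) (nat_lit 76) (nat_lit 3648563688) (nat_lit 292) (nat_lit 5) (nat_lit 304) (nat_lit 5) (nat_lit 293) (nat_lit 5) (nat_lit 491) (nat_lit 458) (nat_lit 191)) (XT.lf (nat_lit 0) (nat_lit 4620121624) (nat_lit 760) (nat_lit 13265185573) (nat_lit 836) (nat_lit 9800881733) (nat_lit 282) (nat_lit 5) (nat_lit 292) (nat_lit 5) (nat_lit 293) (nat_lit 5) (nat_lit 492) (nat_lit 458) (nat_lit 190)))) (XT.nd (nat_lit 156) (nat_lit 760) (nat_lit 0) (XT.nd (nat_lit 78) (nat_lit 760) (nat_lit 0) (XT.lf (nat_lit 0) (nat_lit 17970883305) (nat_lit 760) (nat_lit 2539862276) (nat_lit 836) (nat_lit 7494274581) (nat_lit 282) (nat_lit 5) (nat_lit 292) (nat_lit 5) (nat_lit 293) (nat_lit 5) (nat_lit 493) (nat_lit 458) (nat_lit 189)) (XT.lf (nat_lit 0) (nat_lit 3244123396) (nat_lit 760) (nat_lit 20017791144) (nat_lit 836) (nat_lit 5066851298) (nat_lit 272) (nat_lit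 5) (nat_lit 282) (nat_lit 5) (nat_lit 283) (nat_lit 5) (nat_lit 494) (nat_lit 458) (nat_lit 188))) (XT.nd (nat_lit 78) (nat_lit 760) (nat_lit 0) (XT.lf (nat_lit 0) (nat_lit 16904617755) (nat_lit 760) (nat_lit 9245185431) (nat_lit 836) (nat_lit 2507551526) (nat_lit 272) (nat_lit 5) (nat_lit 282) (nat_lit 5) (nat_lit 283) (nat_lit 5) (nat_lit 495) (nat_lit 458) (nat_lit 187)) (XT.lf (nat_lit 0) (nat_lit 122790025) (nat_lit 760) (nat_lit 27136370459) (nat_lit 76) (nat_lit 1732919521) (nat_lit 262) (nat_lit 5) (nat_lit 272) (nat_lit 5) (nat_lit 263) (nat_lit 5) (nat_lit 496) (nat_lit 458) (nat_lit 186))))))) (XT.nd (nat_lit 57018) (nat_lit 0) (nat_lit 8208) (XT.nd (nat_lit 56472) (nat_lit 0) (nat_lit 7980) (XT.nd (nat_lit 234) (nat_lit 1368) (nat_lit 0) (XT.nd (nat_lit 78) (nat_lit 760) (nat_lit 0) (XT.lf (nat_lit 0) (nat_lit 2910521203) (nat_lit 760) (nat_lit 13516964346) (nat_lit 76) (nat_lit 12902917664)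 (nat_lit 262) (nat_lit 5) (nat_lit 272) (nat_lit 5) (nat_lit 263) (nat_lit 5) (nat_lit 497) (nat_lit 458) (nat_lit 185)) (XT.nd (nat_lit 78) (nat_lit 0) (nat_lit 0) (XT.lf (nat_lit 0) (nat_lit 377503153) (nat_lit 760) (nat_lit 5376711499) (nat_lit 836) (nat_lit 23921276121) (nat_lit 252) (nat_lit 5) (nat_lit 262) (nat_lit 5) (nat_lit 263) (nat_lit 5) (nat_lit 498) (nat_lit 458) (nat_lit 184)) (XT.lf (nat_lit 0) (nat_lit 8782149003) (nat_lit 836) (nat_lit 15333764152) (nat_lit 76) (nat_lit 5909021592) (nat_lit 252) (nat_lit 5) (nat_lit 263) (nat_lit 5) (nat_lit 253) (nat_lit 5) (nat_lit 499) (nat_lit 458) (nat_lit 183)))) (XT.nd (nat_lit 312) (nat_lit 684) (nat_lit 0) (XT.nd (nat_lit 78) (nat_lit 684) (nat_lit 0) (XT.lf (nat_lit 0) (nat_lit 11904078447) (nat_lit 836) (nat_lit 1128127044) (nat_lit 76) (nat_lit 17348495343) (nat_lit 252) (nat_lit 5) (nat_lit 263) (nat_lit 5) (nat_lit 253) (nat_lit 5) (nat_lit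 500) (nat_lit 458) (nat_lit 182)) (XT.lf (nat_lit 0) (nat_lit 13536943160) (nat_lit 684) (nat_lit 1637265747) (nat_lit 760) (nat_lit 15567660013) (nat_lit 243) (nat_lit 5) (nat_lit 252) (nat_lit 5) (nat_lit 253) (nat_lit 5) (nat_lit 501) (nat_lit 458) (nat_lit 181))) (XT.nd (nat_lit 55848) (nat_lit 0) (nat_lit 7980) (XT.lf (nat_lit 0) (nat_lit 25804514709) (nat_lit 760) (nat_lit 4251158053) (nat_lit 76) (nat_lit 1805187862) (nat_lit 234) (nat_lit 5) (nat_lit 244) (nat_lit 5) (nat_lit 235) (nat_lit 5) (nat_lit 504) (nat_lit 458) (nat_lit 178)) (XT.lf (nat_lit 0) (nat_lit 359726809) (nat_lit 1748) (nat_lit 4744824210) (nat_lit 1748) (nat_lit 4744824210) (nat_lit 339) (nat_lit 3) (nat_lit 362) (nat_lit 3) (nat_lit 362) (nat_lit 5) (nat_lit 459) (nat_lit 459) (nat_lit 222))))) (XT.nd (nat_lit 234) (nat_lit 0) (nat_lit 152) (XT.nd (nat_lit 78) (nat_lit 0) (nat_lit 76) (XT.lf (nat_lit 0) (nat_lit 887833714)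 (nat_lit 1748) (nat_lit 791659470) (nat_lit 1748) (nat_lit 18212855817) (nat_lit 339) (nat_lit 3) (nat_lit 362) (nat_lit 3) (nat_lit 362) (nat_lit 5) (nat_lit 460) (nat_lit 459) (nat_lit 221)) (XT.nd (nat_lit 78) (nat_lit 0) (nat_lit 0) (XT.lf (nat_lit 0) (nat_lit 1154447541) (nat_lit 1672) (nat_lit 11949309039) (nat_lit 1748) (nat_lit 6984169944) (nat_lit 340) (nat_lit 5) (nat_lit 362) (nat_lit 5) (nat_lit 363) (nat_lit 5) (nat_lit 461) (nat_lit 459) (nat_lit 220)) (XT.lf (nat_lit 0) (nat_lit 1438717855) (nat_lit 1672) (nat_lit 3042480603) (nat_lit 1748) (nat_lit 15805974905) (nat_lit 340) (nat_lit 5) (nat_lit 362) (nat_lit 5) (nat_lit 363) (nat_lit 5) (nat_lit 462) (nat_lit 459) (nat_lit 219)))) (XT.nd (nat_lit 156) (nat_lit 0) (nat_lit 76) (XT.nd (nat_lit 78) (nat_lit 0) (nat_lit 0) (XT.lf (nat_lit 0) (nat_lit 1792631074) (nat_lit 1672) (nat_lit 14397423347) (nat_lit 1748) (nat_lit 4299075735) (nat_lit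 341) (nat_lit 5) (nat_lit 363) (nat_lit 5) (nat_lit 364) (nat_lit 5) (nat_lit 463) (nat_lit 459) (nat_lit 218)) (XT.lf (nat_lit 0) (nat_lit 2199863895) (nat_lit 1672) (nat_lit 5276992254) (nat_lit 1748) (nat_lit 13217349193) (nat_lit 341) (nat_lit 5) (nat_lit 363) (nat_lit 5) (nat_lit 364) (nat_lit 5) (nat_lit 464) (nat_lit 459) (nat_lit 217))) (XT.nd (nat_lit 78) (nat_lit 0) (nat_lit 0) (XT.lf (nat_lit 0) (nat_lit 2647148096) (nat_lit 1672) (nat_lit 16835197761) (nat_lit 1748) (nat_lit 1420402046) (nat_lit 342) (nat_lit 5) (nat_lit 364) (nat_lit 5) (nat_lit 365) (nat_lit 5) (nat_lit 465) (nat_lit 459) (nat_lit 216)) (XT.lf (nat_lit 0) (nat_lit 3184703113) (nat_lit 1672) (nat_lit 7496302819) (nat_lit 1748) (nat_lit 10432832806) (nat_lit 342) (nat_lit 5) (nat_lit 364) (nat_lit 5) (nat_lit 365) (nat_lit 5) (nat_lit 466) (nat_lit 459) (nat_lit 215)))))) (XT.nd (nat_lit 546) (nat_lit 0) (nat_lit 228) (XT.nd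 (nat_lit 234) (nat_lit 0) (nat_lit 152) (XT.nd (nat_lit 78) (nat_lit 0) (nat_lit 76) (XT.lf (nat_lit 76) (nat_lit 2054040481) (nat_lit 0) (nat_lit 1688543784) (nat_lit 1748) (nat_lit 17586379473) (nat_lit 343) (nat_lit 5) (nat_lit 342) (nat_lit 5) (nat_lit 365) (nat_lit 5) (nat_lit 467) (nat_lit 459) (nat_lit 214)) (XT.nd (nat_lit 78) (nat_lit 0) (nat_lit 0) (XT.lf (nat_lit 0) (nat_lit 4407157262) (nat_lit 1672) (nat_lit 9701643817) (nat_lit 1748) (nat_lit 7437683248) (nat_lit 343) (nat_lit 5) (nat_lit 365) (nat_lit 5) (nat_lit 366) (nat_lit 5) (nat_lit 468) (nat_lit 459) (nat_lit 213)) (XT.lf (nat_lit 76) (nat_lit 50283235) (nat_lit 0) (nat_lit 5042627132) (nat_lit 1748) (nat_lit 16675290887) (nat_lit 344) (nat_lit 5) (nat_lit 343) (nat_lit 5) (nat_lit 366) (nat_lit 5) (nat_lit 469) (nat_lit 459) (nat_lit 212)))) (XT.nd (nat_lit 156) (nat_lit 0) (nat_lit 76) (XT.nd (nat_lit 78) (nat_lit 0) (nat_lit 0)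 (XT.lf (nat_lit 0) (nat_lit 5881657909) (nat_lit 1672) (nat_lit 11894388437) (nat_lit 1748) (nat_lit 4216524213) (nat_lit 344) (nat_lit 5) (nat_lit 366) (nat_lit 5) (nat_lit 367) (nat_lit 5) (nat_lit 470) (nat_lit 459) (nat_lit 211)) (XT.lf (nat_lit 0) (nat_lit 6716089289) (nat_lit 1672) (nat_lit 1910099995) (nat_lit 1748) (nat_lit 13594643345) (nat_lit 344) (nat_lit 5) (nat_lit 366) (nat_lit 5) (nat_lit 367) (nat_lit 5) (nat_lit 471) (nat_lit 459) (nat_lit 210))) (XT.nd (nat_lit 78) (nat_lit 0) (nat_lit 0) (XT.lf (nat_lit 0) (nat_lit 7623166061) (nat_lit 1672) (nat_lit 14076071338) (nat_lit 1748) (nat_lit 753306892) (nat_lit 345) (nat_lit 5) (nat_lit 367) (nat_lit 5) (nat_lit 368) (nat_lit 5) (nat_lit 472) (nat_lit 459) (nat_lit 209)) (XT.lf (nat_lit 0) (nat_lit 8615056031) (nat_lit 1672) (nat_lit 3853510930) (nat_lit 1748) (nat_lit 10218993209) (nat_lit 345) (nat_lit 5) (nat_lit 367) (nat_lit 5) (nat_lit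 368) (nat_lit 5) (nat_lit 473) (nat_lit 459) (nat_lit 208))))) (XT.nd (nat_lit 234) (nat_lit 0) (nat_lit 152) (XT.nd (nat_lit 78) (nat_lit 0) (nat_lit 76) (XT.lf (nat_lit 76) (nat_lit 6658540005) (nat_lit 0) (nat_lit 3008183218) (nat_lit 1748) (nat_lit 13259757708) (nat_lit 346) (nat_lit 5) (nat_lit 345) (nat_lit 5) (nat_lit 368) (nat_lit 5) (nat_lit 474) (nat_lit 459) (nat_lit 207)) (XT.nd (nat_lit 78) (nat_lit 0) (nat_lit 0) (XT.lf (nat_lit 0) (nat_lit 10805338372) (nat_lit 1672) (nat_lit 5782235286) (nat_lit 1748) (nat_lit 6581291441) (nat_lit 346) (nat_lit 5) (nat_lit 368) (nat_lit 5) (nat_lit 369) (nat_lit 5) (nat_lit 475) (nat_lit 459) (nat_lit 206)) (XT.lf (nat_lit 76) (nat_lit 4955959059) (nat_lit 0) (nat_lit 7059693181) (nat_lit 1748) (nat_lit 11399469402) (nat_lit 347) (nat_lit 5) (nat_lit 346) (nat_lit 5) (nat_lit 369) (nat_lit 5) (nat_lit 476) (nat_lit 459) (nat_lit 205)))) (XT.nd (nat_lit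 156) (nat_lit 0) (nat_lit 0) (XT.nd (nat_lit 78) (nat_lit 0) (nat_lit 0) (XT.lf (nat_lit 0) (nat_lit 13303373637) (nat_lit 1672) (nat_lit 7698107490) (nat_lit 1748) (nat_lit 2663761322) (nat_lit 347) (nat_lit 5) (nat_lit 369) (nat_lit 5) (nat_lit 370) (nat_lit 5) (nat_lit 477) (nat_lit 459) (nat_lit 204)) (XT.lf (nat_lit 76) (nat_lit 3272017175) (nat_lit 0) (nat_lit 11409770609) (nat_lit 1748) (nat_lit 9237282217) (nat_lit 348) (nat_lit 5) (nat_lit 347) (nat_lit 5) (nat_lit 370) (nat_lit 5) (nat_lit 478) (nat_lit 459) (nat_lit 203))) (XT.nd (nat_lit 78) (nat_lit 0) (nat_lit 76) (XT.lf (nat_lit 76) (nat_lit 14563597727) (nat_lit 0) (nat_lit 1572817186) (nat_lit 1748) (nat_lit 8040589333) (nat_lit 348) (nat_lit 5) (nat_lit 347) (nat_lit 5) (nat_lit 370) (nat_lit 5) (nat_lit 479) (nat_lit 459) (nat_lit 202)) (XT.lf (nat_lit 76) (nat_lit 1604707039) (nat_lit 0) (nat_lit 16077829985) (nat_lit 1748) (nat_lit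 6756315077) (nat_lit 349) (nat_lit 5) (nat_lit 348) (nat_lit 5) (nat_lit 371) (nat_lit 5) (nat_lit 480) (nat_lit 459) (nat_lit 201))))))))
noncomputable def xc246 : XT := (XT.nd (nat_lit 58188) (nat_lit 0) (nat_lit 3040) (XT.nd (nat_lit 1014) (nat_lit 2280) (nat_lit 0) (XT.nd (nat_lit 468) (nat_lit 3420) (nat_lit 0) (XT.nd (nat_lit 234) (nat_lit 1596) (nat_lit 0) (XT.nd (nat_lit 78) (nat_lit 0) (nat_lit 76) (XT.lf (nat_lit 76) (nat_lit 13164637860) (nat_lit 0) (nat_lit 6166895110) (nat_lit 1748) (nat_lit 5372967833) (nat_lit 349) (nat_lit 5) (nat_lit 348) (nat_lit 5) (nat_lit 371) (nat_lit 5) (nat_lit 481) (nat_lit 459) (nat_lit 200)) (XT.nd (nat_lit 78) (nat_lit 0) (nat_lit 0) (XT.lf (nat_lit 0) (nat_lit 21036258336) (nat_lit 1672) (nat_lit 47612325) (nat_lit 1748) (nat_lit 3891139689) (nat_lit 349) (nat_lit 5) (nat_lit 371) (nat_lit 5) (nat_lit 372) (nat_lit 5) (nat_lit 482) (nat_lit 459) (nat_lit 199))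 (XT.lf (nat_lit 76) (nat_lit 11785941818) (nat_lit 0) (nat_lit 11103708458) (nat_lit 1748) (nat_lit 2358991173) (nat_lit 350) (nat_lit 5) (nat_lit 349) (nat_lit 5) (nat_lit 372) (nat_lit 5) (nat_lit 483) (nat_lit 459) (nat_lit 198)))) (XT.nd (nat_lit 78) (nat_lit 1672) (nat_lit 0) (XT.lf (nat_lit 76) (nat_lit 23854551545) (nat_lit 0) (nat_lit 923127601) (nat_lit 1748) (nat_lit 750117391) (nat_lit 350) (nat_lit 5) (nat_lit 349) (nat_lit 5) (nat_lit 372) (nat_lit 5) (nat_lit 484) (nat_lit 459) (nat_lit 197)) (XT.nd (nat_lit 78) (nat_lit 0) (nat_lit 0) (XT.lf (nat_lit 0) (nat_lit 1006503960) (nat_lit 1748) (nat_lit 15391609805) (nat_lit 76) (nat_lit 9411762816) (nat_lit 327) (nat_lit 5) (nat_lit 350) (nat_lit 5) (nat_lit 328) (nat_lit 5) (nat_lit 485) (nat_lit 459) (nat_lit 196)) (XT.lf (nat_lit 0) (nat_lit 2802963768) (nat_lit 1748) (nat_lit 3336538530) (nat_lit 76) (nat_lit 19957704352) (nat_lit 327) (nat_lit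 5) (nat_lit 350) (nat_lit 5) (nat_lit 328) (nat_lit 5) (nat_lit 486) (nat_lit 459) (nat_lit 195))))) (XT.nd (nat_lit 234) (nat_lit 1596) (nat_lit 0) (XT.nd (nat_lit 78) (nat_lit 836) (nat_lit 0) (XT.lf (nat_lit 0) (nat_lit 4720128695) (nat_lit 1064) (nat_lit 17341209832) (nat_lit 76) (nat_lit 4327251814) (nat_lit 314) (nat_lit 5) (nat_lit 328) (nat_lit 5) (nat_lit 315) (nat_lit 5) (nat_lit 487) (nat_lit 459) (nat_lit 194)) (XT.nd (nat_lit 78) (nat_lit 836) (nat_lit 0) (XT.lf (nat_lit 0) (nat_lit 6736250251) (nat_lit 1064) (nat_lit 5004251571) (nat_lit 76) (nat_lit 14944090106) (nat_lit 314) (nat_lit 5) (nat_lit 328) (nat_lit 5) (nat_lit 315) (nat_lit 5) (nat_lit 488) (nat_lit 459) (nat_lit 193)) (XT.lf (nat_lit 0) (nat_lit 7677891789) (nat_lit 836) (nat_lit 1162119249) (nat_lit 912) (nat_lit 18145558614) (nat_lit 303) (nat_lit 5) (nat_lit 314) (nat_lit 5) (nat_lit 315) (nat_lit 5) (nat_lit 489) (nat_lit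 459) (nat_lit 192)))) (XT.nd (nat_lit 156) (nat_lit 760) (nat_lit 0) (XT.nd (nat_lit 78) (nat_lit 836) (nat_lit 0) (XT.lf (nat_lit 0) (nat_lit 11079664543) (nat_lit 912) (nat_lit 6675406242) (nat_lit 76) (nat_lit 9535622189) (nat_lit 303) (nat_lit 5) (nat_lit 315) (nat_lit 5) (nat_lit 304) (nat_lit 5) (nat_lit 490) (nat_lit 459) (nat_lit 191)) (XT.lf (nat_lit 0) (nat_lit 6281958336) (nat_lit 836) (nat_lit 7128188207) (nat_lit 912) (nat_lit 14190853857) (nat_lit 292) (nat_lit 5) (nat_lit 303) (nat_lit 5) (nat_lit 304) (nat_lit 5) (nat_lit 491) (nat_lit 459) (nat_lit 190))) (XT.nd (nat_lit 78) (nat_lit 760) (nat_lit 0) (XT.lf (nat_lit 0) (nat_lit 15854013438) (nat_lit 912) (nat_lit 8354335739) (nat_lit 76) (nat_lit 3707831592) (nat_lit 292) (nat_lit 5) (nat_lit 304) (nat_lit 5) (nat_lit 293) (nat_lit 5) (nat_lit 492) (nat_lit 459) (nat_lit 189)) (XT.lf (nat_lit 0) (nat_lit 4884278783) (nat_lit 760) (nat_lit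 13539032043) (nat_lit 836) (nat_lit 9812825111) (nat_lit 282) (nat_lit 5) (nat_lit 292) (nat_lit 5) (nat_lit 293) (nat_lit 5) (nat_lit 493) (nat_lit 459) (nat_lit 188)))))) (XT.nd (nat_lit 546) (nat_lit 0) (nat_lit 0) (XT.nd (nat_lit 234) (nat_lit 1520) (nat_lit 0) (XT.nd (nat_lit 78) (nat_lit 760) (nat_lit 0) (XT.lf (nat_lit 0) (nat_lit 18498687958) (nat_lit 760) (nat_lit 2599034775) (nat_lit 836) (nat_lit 7463695115) (nat_lit 282) (nat_lit 5) (nat_lit 292) (nat_lit 5) (nat_lit 293) (nat_lit 5) (nat_lit 494) (nat_lit 459) (nat_lit 187)) (XT.nd (nat_lit 78) (nat_lit 0) (nat_lit 0) (XT.lf (nat_lit 0) (nat_lit 3480017419) (nat_lit 760) (nat_lit 20421488735) (nat_lit 836) (nat_lit 4990183746) (nat_lit 272) (nat_lit 5) (nat_lit 282) (nat_lit 5) (nat_lit 283) (nat_lit 5) (nat_lit 495) (nat_lit 459) (nat_lit 186)) (XT.lf (nat_lit 0) (nat_lit 17410368497) (nat_lit 760) (nat_lit 9433365383) (nat_lit 836) (nat_lit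 2383188264) (nat_lit 272) (nat_lit 5) (nat_lit 282) (nat_lit 5) (nat_lit 283) (nat_lit 5) (nat_lit 496) (nat_lit 459) (nat_lit 185)))) (XT.nd (nat_lit 156) (nat_lit 760) (nat_lit 0) (XT.nd (nat_lit 78) (nat_lit 0) (nat_lit 0) (XT.lf (nat_lit 0) (nat_lit 295185298) (nat_lit 760) (nat_lit 27506552129) (nat_lit 76) (nat_lit 1766630671) (nat_lit 262) (nat_lit 5) (nat_lit 272) (nat_lit 5) (nat_lit 263) (nat_lit 5) (nat_lit 497) (nat_lit 459) (nat_lit 184)) (XT.lf (nat_lit 0) (nat_lit 3135338952) (nat_lit 760) (nat_lit 13618141144) (nat_lit 76) (nat_lit 13160047350) (nat_lit 262) (nat_lit 5) (nat_lit 272) (nat_lit 5) (nat_lit 263) (nat_lit 5) (nat_lit 498) (nat_lit 459) (nat_lit 183))) (XT.nd (nat_lit 78) (nat_lit 0) (nat_lit 0) (XT.lf (nat_lit 0) (nat_lit 553102795) (nat_lit 760) (nat_lit 5480627755) (nat_lit 836) (nat_lit 24231832696) (nat_lit 252) (nat_lit 5) (nat_lit 262) (nat_lit 5) (nat_lit 263) (nat_lit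 5) (nat_lit 499) (nat_lit 459) (nat_lit 182)) (XT.lf (nat_lit 0) (nat_lit 9119022467) (nat_lit 836) (nat_lit 15472338032) (nat_lit 76) (nat_lit 6030702538) (nat_lit 252) (nat_lit 5) (nat_lit 263) (nat_lit 5) (nat_lit 253) (nat_lit 5) (nat_lit 500) (nat_lit 459) (nat_lit 181))))) (XT.nd (nat_lit 56316) (nat_lit 0) (nat_lit 6688) (XT.nd (nat_lit 56160) (nat_lit 0) (nat_lit 6612) (XT.lf (nat_lit 0) (nat_lit 12300229119) (nat_lit 836) (nat_lit 985884288) (nat_lit 76) (nat_lit 17698897126) (nat_lit 252) (nat_lit 5) (nat_lit 263) (nat_lit 5) (nat_lit 253) (nat_lit 5) (nat_lit 501) (nat_lit 459) (nat_lit 180)) (XT.nd (nat_lit 78) (nat_lit 0) (nat_lit 0) (XT.lf (nat_lit 0) (nat_lit 527060381) (nat_lit 1748) (nat_lit 4757967696) (nat_lit 1748) (nat_lit 4757967696) (nat_lit 339) (nat_lit 3) (nat_lit 362) (nat_lit 3) (nat_lit 362) (nat_lit 5) (nat_lit 460) (nat_lit 460) (nat_lit 220)) (XT.lf (nat_lit 0) (nat_lit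 1219588499) (nat_lit 1748) (nat_lit 647192662) (nat_lit 1748) (nat_lit 18416812936) (nat_lit 339) (nat_lit 3) (nat_lit 362) (nat_lit 3) (nat_lit 362) (nat_lit 5) (nat_lit 461) (nat_lit 460) (nat_lit 219)))) (XT.nd (nat_lit 156) (nat_lit 0) (nat_lit 76) (XT.nd (nat_lit 78) (nat_lit 0) (nat_lit 0) (XT.lf (nat_lit 0) (nat_lit 1485440208) (nat_lit 1672) (nat_lit 12021585219) (nat_lit 1748) (nat_lit 6976185945) (nat_lit 340) (nat_lit 5) (nat_lit 362) (nat_lit 5) (nat_lit 363) (nat_lit 5) (nat_lit 462) (nat_lit 460) (nat_lit 218)) (XT.lf (nat_lit 0) (nat_lit 1769358601) (nat_lit 1672) (nat_lit 2939889038) (nat_lit 1748) (nat_lit 15977322444) (nat_lit 340) (nat_lit 5) (nat_lit 362) (nat_lit 5) (nat_lit 363) (nat_lit 5) (nat_lit 463) (nat_lit 460) (nat_lit 217))) (XT.nd (nat_lit 78) (nat_lit 0) (nat_lit 0) (XT.lf (nat_lit 0) (nat_lit 2124611178) (nat_lit 1672) (nat_lit 14515888377) (nat_lit 1748) (nat_lit 4252187301)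 (nat_lit 341) (nat_lit 5) (nat_lit 363) (nat_lit 5) (nat_lit 364) (nat_lit 5) (nat_lit 464) (nat_lit 460) (nat_lit 216)) (XT.lf (nat_lit 0) (nat_lit 2534182234) (nat_lit 1672) (nat_lit 5216371867) (nat_lit 1748) (nat_lit 13351431522) (nat_lit 341) (nat_lit 5) (nat_lit 363) (nat_lit 5) (nat_lit 364) (nat_lit 5) (nat_lit 465) (nat_lit 460) (nat_lit 215))))))) (XT.nd (nat_lit 1092) (nat_lit 3800) (nat_lit 0) (XT.nd (nat_lit 546) (nat_lit 0) (nat_lit 228) (XT.nd (nat_lit 234) (nat_lit 0) (nat_lit 76) (XT.nd (nat_lit 78) (nat_lit 0) (nat_lit 0) (XT.lf (nat_lit 0) (nat_lit 2985008044) (nat_lit 1672) (nat_lit 17000045835) (nat_lit 1748) (nat_lit 1329759069) (nat_lit 342) (nat_lit 5) (nat_lit 364) (nat_lit 5) (nat_lit 365) (nat_lit 5) (nat_lit 466) (nat_lit 460) (nat_lit 214)) (XT.nd (nat_lit 78) (nat_lit 0) (nat_lit 0) (XT.lf (nat_lit 0) (nat_lit 3527727553) (nat_lit 1672) (nat_lit 7477742717) (nat_lit 1748)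 (nat_lit 10524772778) (nat_lit 342) (nat_lit 5) (nat_lit 364) (nat_lit 5) (nat_lit 365) (nat_lit 5) (nat_lit 467) (nat_lit 460) (nat_lit 213)) (XT.lf (nat_lit 76) (nat_lit 2262498987) (nat_lit 0) (nat_lit 1829877002) (nat_lit 1748) (nat_lit 17657387972) (nat_lit 343) (nat_lit 5) (nat_lit 342) (nat_lit 5) (nat_lit 365) (nat_lit 5) (nat_lit 468) (nat_lit 460) (nat_lit 212)))) (XT.nd (nat_lit 156) (nat_lit 0) (nat_lit 76) (XT.nd (nat_lit 78) (nat_lit 0) (nat_lit 0) (XT.lf (nat_lit 0) (nat_lit 4764164793) (nat_lit 1672) (nat_lit 9725230502) (nat_lit 1748) (nat_lit 7482366675) (nat_lit 343) (nat_lit 5) (nat_lit 365) (nat_lit 5) (nat_lit 366) (nat_lit 5) (nat_lit 469) (nat_lit 460) (nat_lit 211)) (XT.lf (nat_lit 76) (nat_lit 220613734) (nat_lit 0) (nat_lit 5238846744) (nat_lit 1748) (nat_lit 16738541594) (nat_lit 344) (nat_lit 5) (nat_lit 343) (nat_lit 5) (nat_lit 366) (nat_lit 5) (nat_lit 470) (nat_lit 460)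 (nat_lit 210))) (XT.nd (nat_lit 78) (nat_lit 0) (nat_lit 0) (XT.lf (nat_lit 0) (nat_lit 6258185888) (nat_lit 1672) (nat_lit 11960210296) (nat_lit 1748) (nat_lit 4208583803) (nat_lit 344) (nat_lit 5) (nat_lit 366) (nat_lit 5) (nat_lit 367) (nat_lit 5) (nat_lit 471) (nat_lit 460) (nat_lit 209)) (XT.lf (nat_lit 0) (nat_lit 7104229527) (nat_lit 1672) (nat_lit 1779609926) (nat_lit 1748) (nat_lit 13776074550) (nat_lit 344) (nat_lit 5) (nat_lit 366) (nat_lit 5) (nat_lit 367) (nat_lit 5) (nat_lit 472) (nat_lit 460) (nat_lit 208))))) (XT.nd (nat_lit 234) (nat_lit 0) (nat_lit 76) (XT.nd (nat_lit 78) (nat_lit 0) (nat_lit 0) (XT.lf (nat_lit 0) (nat_lit 8025024403) (nat_lit 1672) (nat_lit 14184223432) (nat_lit 1748) (nat_lit 687105609) (nat_lit 345) (nat_lit 5) (nat_lit 367) (nat_lit 5) (nat_lit 368) (nat_lit 5) (nat_lit 473) (nat_lit 460) (nat_lit 207)) (XT.nd (nat_lit 78) (nat_lit 0) (nat_lit 0) (XT.lf (nat_lit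 0) (nat_lit 9031862074) (nat_lit 1672) (nat_lit 3760611215) (nat_lit 1748) (nat_lit 10343699131) (nat_lit 345) (nat_lit 5) (nat_lit 367) (nat_lit 5) (nat_lit 368) (nat_lit 5) (nat_lit 474) (nat_lit 460) (nat_lit 206)) (XT.lf (nat_lit 76) (nat_lit 6960562516) (nat_lit 0) (nat_lit 3140302177) (nat_lit 1748) (nat_lit 13279085741) (nat_lit 346) (nat_lit 5) (nat_lit 345) (nat_lit 5) (nat_lit 368) (nat_lit 5) (nat_lit 475) (nat_lit 460) (nat_lit 205)))) (XT.nd (nat_lit 156) (nat_lit 0) (nat_lit 76) (XT.nd (nat_lit 78) (nat_lit 0) (nat_lit 0) (XT.lf (nat_lit 0) (nat_lit 11257072417) (nat_lit 1672) (nat_lit 5726920180) (nat_lit 1748) (nat_lit 6643298065) (nat_lit 346) (nat_lit 5) (nat_lit 368) (nat_lit 5) (nat_lit 369) (nat_lit 5) (nat_lit 476) (nat_lit 460) (nat_lit 204)) (XT.lf (nat_lit 76) (nat_lit 5224913316) (nat_lit 0) (nat_lit 7263161786) (nat_lit 1748) (nat_lit 11390472274) (nat_lit 347) (nat_lit 5) (nat_lit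 346) (nat_lit 5) (nat_lit 369) (nat_lit 5) (nat_lit 477) (nat_lit 460) (nat_lit 203))) (XT.nd (nat_lit 78) (nat_lit 0) (nat_lit 0) (XT.lf (nat_lit 0) (nat_lit 13796603354) (nat_lit 1672) (nat_lit 7680387185) (nat_lit 1748) (nat_lit 2656783610) (nat_lit 347) (nat_lit 5) (nat_lit 369) (nat_lit 5) (nat_lit 370) (nat_lit 5) (nat_lit 478) (nat_lit 460) (nat_lit 202)) (XT.lf (nat_lit 76) (nat_lit 3508010483) (nat_lit 0) (nat_lit 11691228482) (nat_lit 1748) (nat_lit 9193510732) (nat_lit 348) (nat_lit 5) (nat_lit 347) (nat_lit 5) (nat_lit 370) (nat_lit 5) (nat_lit 479) (nat_lit 460) (nat_lit 201)))))) (XT.nd (nat_lit 546) (nat_lit 2660) (nat_lit 0) (XT.nd (nat_lit 234) (nat_lit 1520) (nat_lit 0) (XT.nd (nat_lit 78) (nat_lit 0) (nat_lit 76) (XT.lf (nat_lit 76) (nat_lit 15022078470) (nat_lit 0) (nat_lit 1656491628) (nat_lit 1748) (nat_lit 7977364718) (nat_lit 348) (nat_lit 5) (nat_lit 347) (nat_lit 5) (nat_lit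 370) (nat_lit 5) (nat_lit 480) (nat_lit 460) (nat_lit 200)) (XT.nd (nat_lit 78) (nat_lit 0) (nat_lit 0) (XT.lf (nat_lit 76) (nat_lit 1807825903) (nat_lit 0) (nat_lit 16444264280) (nat_lit 1748) (nat_lit 6671004268) (nat_lit 349) (nat_lit 5) (nat_lit 348) (nat_lit 5) (nat_lit 371) (nat_lit 5) (nat_lit 481) (nat_lit 460) (nat_lit 199)) (XT.lf (nat_lit 76) (nat_lit 13595601915) (nat_lit 0) (nat_lit 6334230753) (nat_lit 1748) (nat_lit 5264312375) (nat_lit 349) (nat_lit 5) (nat_lit 348) (nat_lit 5) (nat_lit 371) (nat_lit 5) (nat_lit 482) (nat_lit 460) (nat_lit 198)))) (XT.nd (nat_lit 156) (nat_lit 1672) (nat_lit 0) (XT.nd (nat_lit 78) (nat_lit 0) (nat_lit 0) (XT.lf (nat_lit 76) (nat_lit 122058538) (nat_lit 0) (nat_lit 21542956052) (nat_lit 1748) (nat_lit 3805127113) (nat_lit 350) (nat_lit 5) (nat_lit 349) (nat_lit 5) (nat_lit 372) (nat_lit 5) (nat_lit 483) (nat_lit 460) (nat_lit 197)) (XT.lf (nat_lit 76) (nat_lit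 12189570956) (nat_lit 0) (nat_lit 11362137612) (nat_lit 1748) (nat_lit 2197616256) (nat_lit 350) (nat_lit 5) (nat_lit 349) (nat_lit 5) (nat_lit 372) (nat_lit 5) (nat_lit 484) (nat_lit 460) (nat_lit 196))) (XT.nd (nat_lit 78) (nat_lit 1672) (nat_lit 0) (XT.lf (nat_lit 76) (nat_lit 24496260519) (nat_lit 0) (nat_lit 977232294) (nat_lit 1748) (nat_lit 560654308) (nat_lit 350) (nat_lit 5) (nat_lit 349) (nat_lit 5) (nat_lit 372) (nat_lit 5) (nat_lit 485) (nat_lit 460) (nat_lit 195)) (XT.lf (nat_lit 0) (nat_lit 1225330562) (nat_lit 1748) (nat_lit 15528666556) (nat_lit 76) (nat_lit 9567910692) (nat_lit 327) (nat_lit 5) (nat_lit 350) (nat_lit 5) (nat_lit 328) (nat_lit 5) (nat_lit 486) (nat_lit 460) (nat_lit 194))))) (XT.nd (nat_lit 234) (nat_lit 1672) (nat_lit 0) (XT.nd (nat_lit 78) (nat_lit 988) (nat_lit 0) (XT.lf (nat_lit 0) (nat_lit 3053823556) (nat_lit 1748) (nat_lit 3235842393) (nat_lit 76) (nat_lit 20325400223)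 (nat_lit 327) (nat_lit 5) (nat_lit 350) (nat_lit 5) (nat_lit 328) (nat_lit 5) (nat_lit 487) (nat_lit 460) (nat_lit 193)) (XT.nd (nat_lit 78) (nat_lit 0) (nat_lit 0) (XT.lf (nat_lit 0) (nat_lit 5006424967) (nat_lit 1064) (nat_lit 17517515404) (nat_lit 76) (nat_lit 4388398999) (nat_lit 314) (nat_lit 5) (nat_lit 328) (nat_lit 5) (nat_lit 315) (nat_lit 5) (nat_lit 488) (nat_lit 460) (nat_lit 192)) (XT.lf (nat_lit 0) (nat_lit 7059106333) (nat_lit 1064) (nat_lit 4937161480) (nat_lit 76) (nat_lit 15218072054) (nat_lit 314) (nat_lit 5) (nat_lit 328) (nat_lit 5) (nat_lit 315) (nat_lit 5) (nat_lit 489) (nat_lit 460) (nat_lit 191)))) (XT.nd (nat_lit 156) (nat_lit 836) (nat_lit 0) (XT.nd (nat_lit 78) (nat_lit 0) (nat_lit 0) (XT.lf (nat_lit 0) (nat_lit 7997524911) (nat_lit 836) (nat_lit 1204806850) (nat_lit 912) (nat_lit 18319061150) (nat_lit 303) (nat_lit 5) (nat_lit 314) (nat_lit 5) (nat_lit 315) (nat_lit 5) (nat_lit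 490) (nat_lit 460) (nat_lit 190)) (XT.lf (nat_lit 0) (nat_lit 11483016904) (nat_lit 912) (nat_lit 6642159788) (nat_lit 76) (nat_lit 9707520722) (nat_lit 303) (nat_lit 5) (nat_lit 315) (nat_lit 5) (nat_lit 304) (nat_lit 5) (nat_lit 491) (nat_lit 460) (nat_lit 189))) (XT.nd (nat_lit 78) (nat_lit 0) (nat_lit 0) (XT.lf (nat_lit 0) (nat_lit 6573255012) (nat_lit 836) (nat_lit 7284365187) (nat_lit 912) (nat_lit 14291643972) (nat_lit 292) (nat_lit 5) (nat_lit 303) (nat_lit 5) (nat_lit 304) (nat_lit 5) (nat_lit 492) (nat_lit 460) (nat_lit 188)) (XT.lf (nat_lit 0) (nat_lit 16346762667) (nat_lit 912) (nat_lit 8355243893) (nat_lit 76) (nat_lit 3768816972) (nat_lit 292) (nat_lit 5) (nat_lit 304) (nat_lit 5) (nat_lit 293) (nat_lit 5) (nat_lit 493) (nat_lit 460) (nat_lit 187))))))))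
noncomputable def xc247 : XT := (XT.nd (nat_lit 58266) (nat_lit 0) (nat_lit 1444) (XT.nd (nat_lit 57174) (nat_lit 0) (nat_lit 7448) (XT.nd (nat_lit 468) (nat_lit 1444) (nat_lit 0) (XT.nd (nat_lit 234) (nat_lit 760) (nat_lit 0) (XT.nd (nat_lit 78) (nat_lit 760) (nat_lit 0) (XT.lf (nat_lit 0) (nat_lit 5147049639) (nat_lit 760) (nat_lit 13818023717) (nat_lit 836) (nat_lit 9832155185) (nat_lit 282) (nat_lit 5) (nat_lit 292) (nat_lit 5) (nat_lit 293) (nat_lit 5) (nat_lit 494) (nat_lit 460) (nat_lit 186)) (XT.nd (nat_lit 78) (nat_lit 760) (nat_lit 0) (XT.lf (nat_lit 0) (nat_lit 19030510031) (nat_lit 760) (nat_lit 2659065503) (nat_lit 836) (nat_lit 7439511734) (nat_lit 282) (nat_lit 5) (nat_lit 292) (nat_lit 5) (nat_lit 293) (nat_lit 5) (nat_lit 495) (nat_lit 460) (nat_lit 185)) (XT.lf (nat_lit 0) (nat_lit 3713988735) (nat_lit 760) (nat_lit 20833130513) (nat_lit 836) (nat_lit 4918894978) (nat_lit 272) (nat_lit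 5) (nat_lit 282) (nat_lit 5) (nat_lit 283) (nat_lit 5) (nat_lit 496) (nat_lit 460) (nat_lit 184)))) (XT.nd (nat_lit 78) (nat_lit 760) (nat_lit 0) (XT.lf (nat_lit 0) (nat_lit 17919723874) (nat_lit 760) (nat_lit 9625181714) (nat_lit 836) (nat_lit 2263114340) (nat_lit 272) (nat_lit 5) (nat_lit 282) (nat_lit 5) (nat_lit 283) (nat_lit 5) (nat_lit 497) (nat_lit 460) (nat_lit 183)) (XT.nd (nat_lit 78) (nat_lit 0) (nat_lit 0) (XT.lf (nat_lit 0) (nat_lit 464429519) (nat_lit 760) (nat_lit 27890837594) (nat_lit 76) (nat_lit 1801052826) (nat_lit 262) (nat_lit 5) (nat_lit 272) (nat_lit 5) (nat_lit 263) (nat_lit 5) (nat_lit 498) (nat_lit 460) (nat_lit 182)) (XT.lf (nat_lit 0) (nat_lit 3358183491) (nat_lit 760) (nat_lit 13727910263) (nat_lit 76) (nat_lit 13422355691) (nat_lit 262) (nat_lit 5) (nat_lit 272) (nat_lit 5) (nat_lit 263) (nat_lit 5) (nat_lit 499) (nat_lit 460) (nat_lit 181))))) (XT.nd (nat_lit 56394) (nat_lit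 0) (nat_lit 7296) (XT.nd (nat_lit 234) (nat_lit 684) (nat_lit 0) (XT.lf (nat_lit 0) (nat_lit 725688859) (nat_lit 760) (nat_lit 5586762827) (nat_lit 836) (nat_lit 24555118959) (nat_lit 252) (nat_lit 5) (nat_lit 262) (nat_lit 5) (nat_lit 263) (nat_lit 5) (nat_lit 500) (nat_lit 460) (nat_lit 180)) (XT.nd (nat_lit 56082) (nat_lit 0) (nat_lit 7296) (XT.lf (nat_lit 0) (nat_lit 14408194701) (nat_lit 684) (nat_lit 1688179350) (nat_lit 760) (nat_lit 15881006204) (nat_lit 243) (nat_lit 5) (nat_lit 252) (nat_lit 5) (nat_lit 253) (nat_lit 5) (nat_lit 503) (nat_lit 460) (nat_lit 177)) (XT.lf (nat_lit 0) (nat_lit 691522232) (nat_lit 1748) (nat_lit 4774548620) (nat_lit 1748) (nat_lit 4774548620) (nat_lit 339) (nat_lit 3) (nat_lit 362) (nat_lit 3) (nat_lit 362) (nat_lit 5) (nat_lit 461) (nat_lit 461) (nat_lit 218)))) (XT.nd (nat_lit 156) (nat_lit 0) (nat_lit 76) (XT.nd (nat_lit 78) (nat_lit 0) (nat_lit 76) (XT.lf (nat_lit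 0) (nat_lit 1545785451) (nat_lit 1748) (nat_lit 506061162) (nat_lit 1748) (nat_lit 18631073842) (nat_lit 339) (nat_lit 3) (nat_lit 362) (nat_lit 3) (nat_lit 362) (nat_lit 5) (nat_lit 462) (nat_lit 461) (nat_lit 217)) (XT.lf (nat_lit 0) (nat_lit 1811096452) (nat_lit 1672) (nat_lit 12101780474) (nat_lit 1748) (nat_lit 6973776371) (nat_lit 340) (nat_lit 5) (nat_lit 362) (nat_lit 5) (nat_lit 363) (nat_lit 5) (nat_lit 463) (nat_lit 461) (nat_lit 216))) (XT.nd (nat_lit 78) (nat_lit 0) (nat_lit 76) (XT.lf (nat_lit 0) (nat_lit 2094890321) (nat_lit 1672) (nat_lit 2841592261) (nat_lit 1748) (nat_lit 16157718606) (nat_lit 340) (nat_lit 5) (nat_lit 362) (nat_lit 5) (nat_lit 363) (nat_lit 5) (nat_lit 464) (nat_lit 461) (nat_lit 215)) (XT.lf (nat_lit 0) (nat_lit 2451731893) (nat_lit 1672) (nat_lit 14643303957) (nat_lit 1748) (nat_lit 4209520601) (nat_lit 341) (nat_lit 5) (nat_lit 363) (nat_lit 5) (nat_lit 364) (nat_lit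 5) (nat_lit 465) (nat_lit 461) (nat_lit 214)))))) (XT.nd (nat_lit 546) (nat_lit 0) (nat_lit 228) (XT.nd (nat_lit 234) (nat_lit 0) (nat_lit 76) (XT.nd (nat_lit 78) (nat_lit 0) (nat_lit 76) (XT.lf (nat_lit 0) (nat_lit 2863913419) (nat_lit 1672) (nat_lit 5160991277) (nat_lit 1748) (nat_lit 13493253832) (nat_lit 341) (nat_lit 5) (nat_lit 363) (nat_lit 5) (nat_lit 364) (nat_lit 5) (nat_lit 466) (nat_lit 461) (nat_lit 213)) (XT.nd (nat_lit 78) (nat_lit 0) (nat_lit 0) (XT.lf (nat_lit 0) (nat_lit 3318561517) (nat_lit 1672) (nat_lit 17174864244) (nat_lit 1748) (nat_lit 1241926128) (nat_lit 342) (nat_lit 5) (nat_lit 364) (nat_lit 5) (nat_lit 365) (nat_lit 5) (nat_lit 467) (nat_lit 461) (nat_lit 212)) (XT.lf (nat_lit 0) (nat_lit 3866765743) (nat_lit 1672) (nat_lit 7465353936) (nat_lit 1748) (nat_lit 10623083801) (nat_lit 342) (nat_lit 5) (nat_lit 364) (nat_lit 5) (nat_lit 365) (nat_lit 5) (nat_lit 468) (nat_lit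 461) (nat_lit 211)))) (XT.nd (nat_lit 156) (nat_lit 0) (nat_lit 76) (XT.nd (nat_lit 78) (nat_lit 0) (nat_lit 76) (XT.lf (nat_lit 76) (nat_lit 2468627183) (nat_lit 0) (nat_lit 1969860107) (nat_lit 1748) (nat_lit 17740717304) (nat_lit 343) (nat_lit 5) (nat_lit 342) (nat_lit 5) (nat_lit 365) (nat_lit 5) (nat_lit 469) (nat_lit 461) (nat_lit 210)) (XT.lf (nat_lit 0) (nat_lit 5117872142) (nat_lit 1672) (nat_lit 9755907554) (nat_lit 1748) (nat_lit 7531984944) (nat_lit 343) (nat_lit 5) (nat_lit 365) (nat_lit 5) (nat_lit 366) (nat_lit 5) (nat_lit 470) (nat_lit 461) (nat_lit 209))) (XT.nd (nat_lit 78) (nat_lit 0) (nat_lit 76) (XT.lf (nat_lit 76) (nat_lit 387775754) (nat_lit 0) (nat_lit 5435287528) (nat_lit 1748) (nat_lit 16813551651) (nat_lit 344) (nat_lit 5) (nat_lit 343) (nat_lit 5) (nat_lit 366) (nat_lit 5) (nat_lit 471) (nat_lit 461) (nat_lit 208)) (XT.lf (nat_lit 0) (nat_lit 6632191226) (nat_lit 1672) (nat_lit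 12034030121) (nat_lit 1748) (nat_lit 4204067575) (nat_lit 344) (nat_lit 5) (nat_lit 366) (nat_lit 5) (nat_lit 367) (nat_lit 5) (nat_lit 472) (nat_lit 461) (nat_lit 207))))) (XT.nd (nat_lit 234) (nat_lit 0) (nat_lit 76) (XT.nd (nat_lit 78) (nat_lit 0) (nat_lit 76) (XT.lf (nat_lit 0) (nat_lit 7490276490) (nat_lit 1672) (nat_lit 1653060575) (nat_lit 1748) (nat_lit 13964647116) (nat_lit 344) (nat_lit 5) (nat_lit 366) (nat_lit 5) (nat_lit 367) (nat_lit 5) (nat_lit 473) (nat_lit 461) (nat_lit 206)) (XT.nd (nat_lit 78) (nat_lit 0) (nat_lit 0) (XT.lf (nat_lit 0) (nat_lit 8425235599) (nat_lit 1672) (nat_lit 14301270711) (nat_lit 1748) (nat_lit 622736013) (nat_lit 345) (nat_lit 5) (nat_lit 367) (nat_lit 5) (nat_lit 368) (nat_lit 5) (nat_lit 474) (nat_lit 461) (nat_lit 205)) (XT.lf (nat_lit 0) (nat_lit 9447509814) (nat_lit 1672) (nat_lit 3672453646) (nat_lit 1748) (nat_lit 10473993008) (nat_lit 345) (nat_lit 5)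 (nat_lit 367) (nat_lit 5) (nat_lit 368) (nat_lit 5) (nat_lit 475) (nat_lit 461) (nat_lit 204)))) (XT.nd (nat_lit 156) (nat_lit 0) (nat_lit 76) (XT.nd (nat_lit 78) (nat_lit 0) (nat_lit 76) (XT.lf (nat_lit 76) (nat_lit 7262068759) (nat_lit 0) (nat_lit 3272269404) (nat_lit 1748) (nat_lit 13308347654) (nat_lit 346) (nat_lit 5) (nat_lit 345) (nat_lit 5) (nat_lit 368) (nat_lit 5) (nat_lit 476) (nat_lit 461) (nat_lit 203)) (XT.lf (nat_lit 0) (nat_lit 11708691449) (nat_lit 1672) (nat_lit 5677137350) (nat_lit 1748) (nat_lit 6709248221) (nat_lit 346) (nat_lit 5) (nat_lit 368) (nat_lit 5) (nat_lit 369) (nat_lit 5) (nat_lit 477) (nat_lit 461) (nat_lit 202))) (XT.nd (nat_lit 78) (nat_lit 0) (nat_lit 76) (XT.lf (nat_lit 76) (nat_lit 5492651756) (nat_lit 0) (nat_lit 7468281559) (nat_lit 1748) (nat_lit 11390497679) (nat_lit 347) (nat_lit 5) (nat_lit 346) (nat_lit 5) (nat_lit 369) (nat_lit 5) (nat_lit 478) (nat_lit 461)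 (nat_lit 201)) (XT.lf (nat_lit 0) (nat_lit 14290876678) (nat_lit 1672) (nat_lit 7668979114) (nat_lit 1748) (nat_lit 2652006039) (nat_lit 347) (nat_lit 5) (nat_lit 369) (nat_lit 5) (nat_lit 370) (nat_lit 5) (nat_lit 479) (nat_lit 461) (nat_lit 200))))))) (XT.nd (nat_lit 1092) (nat_lit 2280) (nat_lit 0) (XT.nd (nat_lit 546) (nat_lit 4180) (nat_lit 0) (XT.nd (nat_lit 234) (nat_lit 0) (nat_lit 76) (XT.nd (nat_lit 78) (nat_lit 0) (nat_lit 0) (XT.lf (nat_lit 76) (nat_lit 3742100877) (nat_lit 0) (nat_lit 11976247266) (nat_lit 1748) (nat_lit 9157737416) (nat_lit 348) (nat_lit 5) (nat_lit 347) (nat_lit 5) (nat_lit 370) (nat_lit 5) (nat_lit 480) (nat_lit 461) (nat_lit 199)) (XT.nd (nat_lit 78) (nat_lit 0) (nat_lit 76) (XT.lf (nat_lit 76) (nat_lit 15483235907) (nat_lit 0) (nat_lit 1739811867) (nat_lit 1748) (nat_lit 7921575217) (nat_lit 348) (nat_lit 5) (nat_lit 347) (nat_lit 5) (nat_lit 370) (nat_lit 5) (nat_lit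 481) (nat_lit 461) (nat_lit 198)) (XT.lf (nat_lit 76) (nat_lit 2008366046) (nat_lit 0) (nat_lit 16816284605) (nat_lit 1748) (nat_lit 6592547085) (nat_lit 349) (nat_lit 5) (nat_lit 348) (nat_lit 5) (nat_lit 371) (nat_lit 5) (nat_lit 482) (nat_lit 461) (nat_lit 197)))) (XT.nd (nat_lit 156) (nat_lit 0) (nat_lit 76) (XT.nd (nat_lit 78) (nat_lit 0) (nat_lit 76) (XT.lf (nat_lit 76) (nat_lit 14028674370) (nat_lit 0) (nat_lit 6503204622) (nat_lit 1748) (nat_lit 5161875810) (nat_lit 349) (nat_lit 5) (nat_lit 348) (nat_lit 5) (nat_lit 371) (nat_lit 5) (nat_lit 483) (nat_lit 461) (nat_lit 196)) (XT.lf (nat_lit 76) (nat_lit 289117652) (nat_lit 0) (nat_lit 22009457315) (nat_lit 1748) (nat_lit 3676764224) (nat_lit 350) (nat_lit 5) (nat_lit 349) (nat_lit 5) (nat_lit 372) (nat_lit 5) (nat_lit 484) (nat_lit 461) (nat_lit 195))) (XT.nd (nat_lit 78) (nat_lit 0) (nat_lit 0) (XT.lf (nat_lit 76) (nat_lit 12594752515) (nat_lit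 0) (nat_lit 11624323640) (nat_lit 1748) (nat_lit 2041112276) (nat_lit 350) (nat_lit 5) (nat_lit 349) (nat_lit 5) (nat_lit 372) (nat_lit 5) (nat_lit 485) (nat_lit 461) (nat_lit 194)) (XT.lf (nat_lit 76) (nat_lit 25144411357) (nat_lit 0) (nat_lit 1031035054) (nat_lit 1748) (nat_lit 375341605) (nat_lit 350) (nat_lit 5) (nat_lit 349) (nat_lit 5) (nat_lit 372) (nat_lit 5) (nat_lit 486) (nat_lit 461) (nat_lit 193))))) (XT.nd (nat_lit 234) (nat_lit 1672) (nat_lit 0) (XT.nd (nat_lit 78) (nat_lit 988) (nat_lit 0) (XT.lf (nat_lit 0) (nat_lit 1440818067) (nat_lit 1748) (nat_lit 15675095860) (nat_lit 76) (nat_lit 9728427517) (nat_lit 327) (nat_lit 5) (nat_lit 350) (nat_lit 5) (nat_lit 328) (nat_lit 5) (nat_lit 487) (nat_lit 461) (nat_lit 192)) (XT.nd (nat_lit 78) (nat_lit 988) (nat_lit 0) (XT.lf (nat_lit 0) (nat_lit 3302136198) (nat_lit 1748) (nat_lit 3139633724) (nat_lit 76) (nat_lit 20701671572) (nat_lit 327) (nat_lit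 5) (nat_lit 350) (nat_lit 5) (nat_lit 328) (nat_lit 5) (nat_lit 488) (nat_lit 461) (nat_lit 191)) (XT.lf (nat_lit 0) (nat_lit 5290995698) (nat_lit 1064) (nat_lit 17703968533) (nat_lit 76) (nat_lit 4451755358) (nat_lit 314) (nat_lit 5) (nat_lit 328) (nat_lit 5) (nat_lit 315) (nat_lit 5) (nat_lit 489) (nat_lit 461) (nat_lit 190)))) (XT.nd (nat_lit 156) (nat_lit 836) (nat_lit 0) (XT.nd (nat_lit 78) (nat_lit 836) (nat_lit 0) (XT.lf (nat_lit 0) (nat_lit 7381114178) (nat_lit 1064) (nat_lit 4875221201) (nat_lit 76) (nat_lit 15498500534) (nat_lit 314) (nat_lit 5) (nat_lit 328) (nat_lit 5) (nat_lit 315) (nat_lit 5) (nat_lit 490) (nat_lit 461) (nat_lit 189)) (XT.lf (nat_lit 0) (nat_lit 8317101790) (nat_lit 836) (nat_lit 1247593123) (nat_lit 912) (nat_lit 18503388705) (nat_lit 303) (nat_lit 5) (nat_lit 314) (nat_lit 5) (nat_lit 315) (nat_lit 5) (nat_lit 491) (nat_lit 461) (nat_lit 188))) (XT.nd (nat_lit 78) (nat_lit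 836) (nat_lit 0) (XT.lf (nat_lit 0) (nat_lit 11887378386) (nat_lit 912) (nat_lit 6614723688) (nat_lit 76) (nat_lit 9883587792) (nat_lit 303) (nat_lit 5) (nat_lit 315) (nat_lit 5) (nat_lit 304) (nat_lit 5) (nat_lit 492) (nat_lit 461) (nat_lit 187)) (XT.lf (nat_lit 0) (nat_lit 6863944939) (nat_lit 836) (nat_lit 7443137089) (nat_lit 912) (nat_lit 14401557050) (nat_lit 292) (nat_lit 5) (nat_lit 303) (nat_lit 5) (nat_lit 304) (nat_lit 5) (nat_lit 493) (nat_lit 461) (nat_lit 186)))))) (XT.nd (nat_lit 56862) (nat_lit 0) (nat_lit 5852) (XT.nd (nat_lit 234) (nat_lit 1520) (nat_lit 0) (XT.nd (nat_lit 78) (nat_lit 760) (nat_lit 0) (XT.lf (nat_lit 0) (nat_lit 16842545440) (nat_lit 912) (nat_lit 8362623126) (nat_lit 76) (nat_lit 3831533516) (nat_lit 292) (nat_lit 5) (nat_lit 304) (nat_lit 5) (nat_lit 293) (nat_lit 5) (nat_lit 494) (nat_lit 461) (nat_lit 185)) (XT.nd (nat_lit 78) (nat_lit 0) (nat_lit 0) (XT.lf (nat_lit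 0) (nat_lit 5408665450) (nat_lit 760) (nat_lit 14102276380) (nat_lit 836) (nat_lit 9858742128) (nat_lit 282) (nat_lit 5) (nat_lit 292) (nat_lit 5) (nat_lit 293) (nat_lit 5) (nat_lit 495) (nat_lit 461) (nat_lit 184)) (XT.lf (nat_lit 0) (nat_lit 19566683779) (nat_lit 760) (nat_lit 2719984253) (nat_lit 836) (nat_lit 7421580243) (nat_lit 282) (nat_lit 5) (nat_lit 292) (nat_lit 5) (nat_lit 293) (nat_lit 5) (nat_lit 496) (nat_lit 461) (nat_lit 183)))) (XT.nd (nat_lit 156) (nat_lit 760) (nat_lit 0) (XT.nd (nat_lit 78) (nat_lit 0) (nat_lit 0) (XT.lf (nat_lit 0) (nat_lit 3946256752) (nat_lit 760) (nat_lit 21252880400) (nat_lit 836) (nat_lit 4852824162) (nat_lit 272) (nat_lit 5) (nat_lit 282) (nat_lit 5) (nat_lit 283) (nat_lit 5) (nat_lit 497) (nat_lit 461) (nat_lit 182)) (XT.lf (nat_lit 0) (nat_lit 18433008786) (nat_lit 760) (nat_lit 9820712091) (nat_lit 836) (nat_lit 2147152396) (nat_lit 272) (nat_lit 5) (nat_lit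 282) (nat_lit 5) (nat_lit 283) (nat_lit 5) (nat_lit 498) (nat_lit 461) (nat_lit 181))) (XT.nd (nat_lit 78) (nat_lit 0) (nat_lit 0) (XT.lf (nat_lit 0) (nat_lit 630715913) (nat_lit 760) (nat_lit 28289248754) (nat_lit 76) (nat_lit 1836198779) (nat_lit 262) (nat_lit 5) (nat_lit 272) (nat_lit 5) (nat_lit 263) (nat_lit 5) (nat_lit 499) (nat_lit 461) (nat_lit 180)) (XT.lf (nat_lit 0) (nat_lit 3579266576) (nat_lit 760) (nat_lit 13846188476) (nat_lit 76) (nat_lit 13689944860) (nat_lit 262) (nat_lit 5) (nat_lit 272) (nat_lit 5) (nat_lit 263) (nat_lit 5) (nat_lit 500) (nat_lit 461) (nat_lit 179))))) (XT.nd (nat_lit 234) (nat_lit 0) (nat_lit 76) (XT.nd (nat_lit 78) (nat_lit 0) (nat_lit 0) (XT.lf (nat_lit 0) (nat_lit 853296393) (nat_lit 1748) (nat_lit 4794512459) (nat_lit 1748) (nat_lit 4794512459) (nat_lit 339) (nat_lit 3) (nat_lit 362) (nat_lit 3) (nat_lit 362) (nat_lit 5) (nat_lit 462) (nat_lit 462) (nat_lit 216))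 (XT.nd (nat_lit 78) (nat_lit 0) (nat_lit 76) (XT.lf (nat_lit 0) (nat_lit 1866786879) (nat_lit 1748) (nat_lit 368089967) (nat_lit 1748) (nat_lit 18855602899) (nat_lit 339) (nat_lit 3) (nat_lit 362) (nat_lit 3) (nat_lit 362) (nat_lit 5) (nat_lit 463) (nat_lit 462) (nat_lit 215)) (XT.lf (nat_lit 0) (nat_lit 2131773821) (nat_lit 1672) (nat_lit 12189801812) (nat_lit 1748) (nat_lit 6976830048) (nat_lit 340) (nat_lit 5) (nat_lit 362) (nat_lit 5) (nat_lit 363) (nat_lit 5) (nat_lit 464) (nat_lit 462) (nat_lit 214)))) (XT.nd (nat_lit 156) (nat_lit 0) (nat_lit 76) (XT.nd (nat_lit 78) (nat_lit 0) (nat_lit 76) (XT.lf (nat_lit 0) (nat_lit 2415666010) (nat_lit 1672) (nat_lit 2747429722) (nat_lit 1748) (nat_lit 16347126066) (nat_lit 340) (nat_lit 5) (nat_lit 362) (nat_lit 5) (nat_lit 363) (nat_lit 5) (nat_lit 465) (nat_lit 462) (nat_lit 213)) (XT.lf (nat_lit 0) (nat_lit 2774342550) (nat_lit 1672) (nat_lit 14779593538)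 (nat_lit 1748) (nat_lit 4170959719) (nat_lit 341) (nat_lit 5) (nat_lit 363) (nat_lit 5) (nat_lit 364) (nat_lit 5) (nat_lit 466) (nat_lit 462) (nat_lit 212))) (XT.nd (nat_lit 78) (nat_lit 0) (nat_lit 76) (XT.lf (nat_lit 0) (nat_lit 3189403472) (nat_lit 1672) (nat_lit 5110704732) (nat_lit 1748) (nat_lit 13642774503) (nat_lit 341) (nat_lit 5) (nat_lit 363) (nat_lit 5) (nat_lit 364) (nat_lit 5) (nat_lit 467) (nat_lit 462) (nat_lit 211)) (XT.lf (nat_lit 0) (nat_lit 3648152001) (nat_lit 1672) (nat_lit 17359593259) (nat_lit 1748) (nat_lit 1156779913) (nat_lit 342) (nat_lit 5) (nat_lit 364) (nat_lit 5) (nat_lit 365) (nat_lit 5) (nat_lit 468) (nat_lit 462) (nat_lit 210))))))))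
noncomputable def xc248 : XT := (XT.nd (nat_lit 2106) (nat_lit 1520) (nat_lit 0) (XT.nd (nat_lit 1014) (nat_lit 3800) (nat_lit 0) (XT.nd (nat_lit 468) (nat_lit 0) (nat_lit 228) (XT.nd (nat_lit 234) (nat_lit 0) (nat_lit 76) (XT.nd (nat_lit 78) (nat_lit 0) (nat_lit 0) (XT.lf (nat_lit 0) (nat_lit 4202159150) (nat_lit 1672) (nat_lit 7459005849) (nat_lit 1748) (nat_lit 10727717302) (nat_lit 342) (nat_lit 5) (nat_lit 364) (nat_lit 5) (nat_lit 365) (nat_lit 5) (nat_lit 469) (nat_lit 462) (nat_lit 209)) (XT.nd (nat_lit 78) (nat_lit 0) (nat_lit 76) (XT.lf (nat_lit 76) (nat_lit 2672630846) (nat_lit 0) (nat_lit 2108628288) (nat_lit 1748) (nat_lit 17836190602) (nat_lit 343) (nat_lit 5) (nat_lit 342) (nat_lit 5) (nat_lit 365) (nat_lit 5) (nat_lit 470) (nat_lit 462) (nat_lit 208)) (XT.lf (nat_lit 0) (nat_lit 5468618717) (nat_lit 1672) (nat_lit 9793559771) (nat_lit 1748) (nat_lit 7586479829) (nat_lit 343) (nat_lit 5)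 (nat_lit 365) (nat_lit 5) (nat_lit 366) (nat_lit 5) (nat_lit 471) (nat_lit 462) (nat_lit 207)))) (XT.nd (nat_lit 78) (nat_lit 0) (nat_lit 76) (XT.lf (nat_lit 76) (nat_lit 551961243) (nat_lit 0) (nat_lit 5632097709) (nat_lit 1748) (nat_lit 16900148736) (nat_lit 344) (nat_lit 5) (nat_lit 343) (nat_lit 5) (nat_lit 366) (nat_lit 5) (nat_lit 472) (nat_lit 462) (nat_lit 206)) (XT.nd (nat_lit 78) (nat_lit 0) (nat_lit 0) (XT.lf (nat_lit 0) (nat_lit 7004013846) (nat_lit 1672) (nat_lit 12115748419) (nat_lit 1748) (nat_lit 4202904883) (nat_lit 344) (nat_lit 5) (nat_lit 366) (nat_lit 5) (nat_lit 367) (nat_lit 5) (nat_lit 473) (nat_lit 462) (nat_lit 205)) (XT.lf (nat_lit 0) (nat_lit 7874571035) (nat_lit 1672) (nat_lit 1530276391) (nat_lit 1748) (nat_lit 14160367466) (nat_lit 344) (nat_lit 5) (nat_lit 366) (nat_lit 5) (nat_lit 367) (nat_lit 5) (nat_lit 474) (nat_lit 462) (nat_lit 204))))) (XT.nd (nat_lit 234) (nat_lit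 0) (nat_lit 76) (XT.nd (nat_lit 78) (nat_lit 0) (nat_lit 0) (XT.lf (nat_lit 0) (nat_lit 8824142760) (nat_lit 1672) (nat_lit 14427129661) (nat_lit 1748) (nat_lit 560112197) (nat_lit 345) (nat_lit 5) (nat_lit 367) (nat_lit 5) (nat_lit 368) (nat_lit 5) (nat_lit 475) (nat_lit 462) (nat_lit 203)) (XT.nd (nat_lit 78) (nat_lit 0) (nat_lit 0) (XT.lf (nat_lit 0) (nat_lit 9862344764) (nat_lit 1672) (nat_lit 3588876773) (nat_lit 1748) (nat_lit 10609866461) (nat_lit 345) (nat_lit 5) (nat_lit 367) (nat_lit 5) (nat_lit 368) (nat_lit 5) (nat_lit 476) (nat_lit 462) (nat_lit 202)) (XT.lf (nat_lit 76) (nat_lit 7563303014) (nat_lit 0) (nat_lit 3404190362) (nat_lit 1748) (nat_lit 13347371392) (nat_lit 346) (nat_lit 5) (nat_lit 345) (nat_lit 5) (nat_lit 368) (nat_lit 5) (nat_lit 477) (nat_lit 462) (nat_lit 201)))) (XT.nd (nat_lit 156) (nat_lit 0) (nat_lit 76) (XT.nd (nat_lit 78) (nat_lit 0) (nat_lit 0) (XT.lf (nat_lit 0)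 (nat_lit 12160548462) (nat_lit 1672) (nat_lit 5632739657) (nat_lit 1748) (nat_lit 6779115802) (nat_lit 346) (nat_lit 5) (nat_lit 368) (nat_lit 5) (nat_lit 369) (nat_lit 5) (nat_lit 478) (nat_lit 462) (nat_lit 200)) (XT.lf (nat_lit 76) (nat_lit 5759406149) (nat_lit 0) (nat_lit 7675179425) (nat_lit 1748) (nat_lit 11399368724) (nat_lit 347) (nat_lit 5) (nat_lit 346) (nat_lit 5) (nat_lit 369) (nat_lit 5) (nat_lit 479) (nat_lit 462) (nat_lit 199))) (XT.nd (nat_lit 78) (nat_lit 0) (nat_lit 0) (XT.lf (nat_lit 0) (nat_lit 14786557011) (nat_lit 1672) (nat_lit 7663750646) (nat_lit 1748) (nat_lit 2649381758) (nat_lit 347) (nat_lit 5) (nat_lit 369) (nat_lit 5) (nat_lit 370) (nat_lit 5) (nat_lit 480) (nat_lit 462) (nat_lit 198)) (XT.lf (nat_lit 76) (nat_lit 3974507471) (nat_lit 0) (nat_lit 12264978492) (nat_lit 1748) (nat_lit 9129777660) (nat_lit 348) (nat_lit 5) (nat_lit 347) (nat_lit 5) (nat_lit 370) (nat_lit 5)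 (nat_lit 481) (nat_lit 462) (nat_lit 197)))))) (XT.nd (nat_lit 546) (nat_lit 2660) (nat_lit 0) (XT.nd (nat_lit 234) (nat_lit 1520) (nat_lit 0) (XT.nd (nat_lit 78) (nat_lit 0) (nat_lit 76) (XT.lf (nat_lit 76) (nat_lit 15947375700) (nat_lit 0) (nat_lit 1822849556) (nat_lit 1748) (nat_lit 7873031717) (nat_lit 348) (nat_lit 5) (nat_lit 347) (nat_lit 5) (nat_lit 370) (nat_lit 5) (nat_lit 482) (nat_lit 462) (nat_lit 196)) (XT.nd (nat_lit 78) (nat_lit 0) (nat_lit 0) (XT.lf (nat_lit 76) (nat_lit 2206533775) (nat_lit 0) (nat_lit 17194070351) (nat_lit 1748) (nat_lit 6520748210) (nat_lit 349) (nat_lit 5) (nat_lit 348) (nat_lit 5) (nat_lit 371) (nat_lit 5) (nat_lit 483) (nat_lit 462) (nat_lit 195)) (XT.lf (nat_lit 76) (nat_lit 14464150218) (nat_lit 0) (nat_lit 6673915826) (nat_lit 1748) (nat_lit 5065456644) (nat_lit 349) (nat_lit 5) (nat_lit 348) (nat_lit 5) (nat_lit 371) (nat_lit 5) (nat_lit 484) (nat_lit 462) (nat_lit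 194)))) (XT.nd (nat_lit 156) (nat_lit 1672) (nat_lit 0) (XT.nd (nat_lit 78) (nat_lit 0) (nat_lit 0) (XT.lf (nat_lit 76) (nat_lit 453125632) (nat_lit 0) (nat_lit 22483904575) (nat_lit 1748) (nat_lit 3553773719) (nat_lit 350) (nat_lit 5) (nat_lit 349) (nat_lit 5) (nat_lit 372) (nat_lit 5) (nat_lit 485) (nat_lit 462) (nat_lit 193)) (XT.lf (nat_lit 76) (nat_lit 13001770730) (nat_lit 0) (nat_lit 11890396499) (nat_lit 1748) (nat_lit 1889262179) (nat_lit 350) (nat_lit 5) (nat_lit 349) (nat_lit 5) (nat_lit 372) (nat_lit 5) (nat_lit 486) (nat_lit 462) (nat_lit 192))) (XT.nd (nat_lit 78) (nat_lit 1672) (nat_lit 0) (XT.lf (nat_lit 76) (nat_lit 25799381117) (nat_lit 0) (nat_lit 1084583585) (nat_lit 1748) (nat_lit 193953983) (nat_lit 350) (nat_lit 5) (nat_lit 349) (nat_lit 5) (nat_lit 372) (nat_lit 5) (nat_lit 487) (nat_lit 462) (nat_lit 191)) (XT.lf (nat_lit 0) (nat_lit 1653199302) (nat_lit 1748) (nat_lit 15830827663)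 (nat_lit 76) (nat_lit 9893352288) (nat_lit 327) (nat_lit 5) (nat_lit 350) (nat_lit 5) (nat_lit 328) (nat_lit 5) (nat_lit 488) (nat_lit 462) (nat_lit 190))))) (XT.nd (nat_lit 234) (nat_lit 1672) (nat_lit 0) (XT.nd (nat_lit 78) (nat_lit 988) (nat_lit 0) (XT.lf (nat_lit 0) (nat_lit 3548144485) (nat_lit 1748) (nat_lit 3047749815) (nat_lit 76) (nat_lit 21086642474) (nat_lit 327) (nat_lit 5) (nat_lit 350) (nat_lit 5) (nat_lit 328) (nat_lit 5) (nat_lit 489) (nat_lit 462) (nat_lit 189)) (XT.nd (nat_lit 78) (nat_lit 0) (nat_lit 0) (XT.lf (nat_lit 0) (nat_lit 5574095727) (nat_lit 1064) (nat_lit 17900515052) (nat_lit 76) (nat_lit 4517326778) (nat_lit 314) (nat_lit 5) (nat_lit 328) (nat_lit 5) (nat_lit 315) (nat_lit 5) (nat_lit 490) (nat_lit 462) (nat_lit 188)) (XT.lf (nat_lit 0) (nat_lit 7702540496) (nat_lit 1064) (nat_lit 4818281652) (nat_lit 76) (nat_lit 15785466929) (nat_lit 314) (nat_lit 5) (nat_lit 328) (nat_lit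 5) (nat_lit 315) (nat_lit 5) (nat_lit 491) (nat_lit 462) (nat_lit 187)))) (XT.nd (nat_lit 156) (nat_lit 836) (nat_lit 0) (XT.nd (nat_lit 78) (nat_lit 0) (nat_lit 0) (XT.lf (nat_lit 0) (nat_lit 8636871719) (nat_lit 836) (nat_lit 1290509360) (nat_lit 912) (nat_lit 18698472177) (nat_lit 303) (nat_lit 5) (nat_lit 314) (nat_lit 5) (nat_lit 315) (nat_lit 5) (nat_lit 492) (nat_lit 462) (nat_lit 186)) (XT.lf (nat_lit 0) (nat_lit 12293043240) (nat_lit 912) (nat_lit 6592962707) (nat_lit 76) (nat_lit 10063878402) (nat_lit 303) (nat_lit 5) (nat_lit 315) (nat_lit 5) (nat_lit 304) (nat_lit 5) (nat_lit 493) (nat_lit 462) (nat_lit 185))) (XT.nd (nat_lit 78) (nat_lit 0) (nat_lit 0) (XT.lf (nat_lit 0) (nat_lit 7154265770) (nat_lit 836) (nat_lit 7604576338) (nat_lit 912) (nat_lit 14520499569) (nat_lit 292) (nat_lit 5) (nat_lit 303) (nat_lit 5) (nat_lit 304) (nat_lit 5) (nat_lit 494) (nat_lit 462) (nat_lit 184)) (XT.lf (nat_lit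 0) (nat_lit 17341687314) (nat_lit 912) (nat_lit 8376352286) (nat_lit 76) (nat_lit 3895995987) (nat_lit 292) (nat_lit 5) (nat_lit 304) (nat_lit 5) (nat_lit 293) (nat_lit 5) (nat_lit 495) (nat_lit 462) (nat_lit 183))))))) (XT.nd (nat_lit 57486) (nat_lit 0) (nat_lit 5396) (XT.nd (nat_lit 56940) (nat_lit 0) (nat_lit 5168) (XT.nd (nat_lit 234) (nat_lit 0) (nat_lit 0) (XT.nd (nat_lit 78) (nat_lit 760) (nat_lit 0) (XT.lf (nat_lit 0) (nat_lit 5669352041) (nat_lit 760) (nat_lit 14391907633) (nat_lit 836) (nat_lit 9892464299) (nat_lit 282) (nat_lit 5) (nat_lit 292) (nat_lit 5) (nat_lit 293) (nat_lit 5) (nat_lit 496) (nat_lit 462) (nat_lit 182)) (XT.nd (nat_lit 78) (nat_lit 760) (nat_lit 0) (XT.lf (nat_lit 0) (nat_lit 20107540280) (nat_lit 760) (nat_lit 2781820924) (nat_lit 836) (nat_lit 7409764131) (nat_lit 282) (nat_lit 5) (nat_lit 292) (nat_lit 5) (nat_lit 293) (nat_lit 5) (nat_lit 497) (nat_lit 462) (nat_lit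 181)) (XT.lf (nat_lit 0) (nat_lit 4177035254) (nat_lit 760) (nat_lit 21680905403) (nat_lit 836) (nat_lit 4791817674) (nat_lit 272) (nat_lit 5) (nat_lit 282) (nat_lit 5) (nat_lit 283) (nat_lit 5) (nat_lit 498) (nat_lit 462) (nat_lit 180)))) (XT.nd (nat_lit 56550) (nat_lit 0) (nat_lit 5092) (XT.lf (nat_lit 0) (nat_lit 18950544811) (nat_lit 760) (nat_lit 10020035543) (nat_lit 836) (nat_lit 2035131746) (nat_lit 272) (nat_lit 5) (nat_lit 282) (nat_lit 5) (nat_lit 283) (nat_lit 5) (nat_lit 499) (nat_lit 462) (nat_lit 179)) (XT.nd (nat_lit 78) (nat_lit 0) (nat_lit 0) (XT.lf (nat_lit 0) (nat_lit 1012561203) (nat_lit 1748) (nat_lit 4817808385) (nat_lit 1748) (nat_lit 4817808385) (nat_lit 339) (nat_lit 3) (nat_lit 362) (nat_lit 3) (nat_lit 362) (nat_lit 5) (nat_lit 463) (nat_lit 463) (nat_lit 214)) (XT.lf (nat_lit 0) (nat_lit 2182943953) (nat_lit 1748) (nat_lit 233109956) (nat_lit 1748) (nat_lit 19090373147) (nat_lit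 339) (nat_lit 3) (nat_lit 362) (nat_lit 3) (nat_lit 362) (nat_lit 5) (nat_lit 464) (nat_lit 463) (nat_lit 213))))) (XT.nd (nat_lit 234) (nat_lit 0) (nat_lit 76) (XT.nd (nat_lit 78) (nat_lit 0) (nat_lit 0) (XT.lf (nat_lit 0) (nat_lit 2447818985) (nat_lit 1672) (nat_lit 12285564138) (nat_lit 1748) (nat_lit 6985242225) (nat_lit 340) (nat_lit 5) (nat_lit 362) (nat_lit 5) (nat_lit 363) (nat_lit 5) (nat_lit 465) (nat_lit 463) (nat_lit 212)) (XT.nd (nat_lit 78) (nat_lit 0) (nat_lit 76) (XT.lf (nat_lit 0) (nat_lit 2732028044) (nat_lit 1672) (nat_lit 2657247229) (nat_lit 1748) (nat_lit 16545515231) (nat_lit 340) (nat_lit 5) (nat_lit 362) (nat_lit 5) (nat_lit 363) (nat_lit 5) (nat_lit 466) (nat_lit 463) (nat_lit 211)) (XT.lf (nat_lit 0) (nat_lit 3092782131) (nat_lit 1672) (nat_lit 14924688967) (nat_lit 1748) (nat_lit 4136394202) (nat_lit 341) (nat_lit 5) (nat_lit 363) (nat_lit 5) (nat_lit 364) (nat_lit 5) (nat_lit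 467) (nat_lit 463) (nat_lit 210)))) (XT.nd (nat_lit 156) (nat_lit 0) (nat_lit 76) (XT.nd (nat_lit 78) (nat_lit 0) (nat_lit 76) (XT.lf (nat_lit 0) (nat_lit 3510988335) (nat_lit 1672) (nat_lit 5065373296) (nat_lit 1748) (nat_lit 13799958707) (nat_lit 341) (nat_lit 5) (nat_lit 363) (nat_lit 5) (nat_lit 364) (nat_lit 5) (nat_lit 468) (nat_lit 463) (nat_lit 209)) (XT.lf (nat_lit 0) (nat_lit 3974113171) (nat_lit 1672) (nat_lit 17554182019) (nat_lit 1748) (nat_lit 1074201614) (nat_lit 342) (nat_lit 5) (nat_lit 364) (nat_lit 5) (nat_lit 365) (nat_lit 5) (nat_lit 469) (nat_lit 463) (nat_lit 208))) (XT.nd (nat_lit 78) (nat_lit 0) (nat_lit 0) (XT.lf (nat_lit 0) (nat_lit 4534239715) (nat_lit 1672) (nat_lit 7458575079) (nat_lit 1748) (nat_lit 10838630572) (nat_lit 342) (nat_lit 5) (nat_lit 364) (nat_lit 5) (nat_lit 365) (nat_lit 5) (nat_lit 470) (nat_lit 463) (nat_lit 207)) (XT.lf (nat_lit 76) (nat_lit 2874710068)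 (nat_lit 0) (nat_lit 2246313135) (nat_lit 1748) (nat_lit 17943643894) (nat_lit 343) (nat_lit 5) (nat_lit 342) (nat_lit 5) (nat_lit 365) (nat_lit 5) (nat_lit 471) (nat_lit 463) (nat_lit 206)))))) (XT.nd (nat_lit 546) (nat_lit 0) (nat_lit 228) (XT.nd (nat_lit 234) (nat_lit 0) (nat_lit 76) (XT.nd (nat_lit 78) (nat_lit 0) (nat_lit 0) (XT.lf (nat_lit 0) (nat_lit 5816734971) (nat_lit 1672) (nat_lit 9838079627) (nat_lit 1748) (nat_lit 7645798033) (nat_lit 343) (nat_lit 5) (nat_lit 365) (nat_lit 5) (nat_lit 366) (nat_lit 5) (nat_lit 472) (nat_lit 463) (nat_lit 205)) (XT.nd (nat_lit 78) (nat_lit 0) (nat_lit 76) (XT.lf (nat_lit 76) (nat_lit 713356075) (nat_lit 0) (nat_lit 5829422891) (nat_lit 1748) (nat_lit 16998172906) (nat_lit 344) (nat_lit 5) (nat_lit 343) (nat_lit 5) (nat_lit 366) (nat_lit 5) (nat_lit 473) (nat_lit 463) (nat_lit 204)) (XT.lf (nat_lit 0) (nat_lit 7373985315) (nat_lit 1672) (nat_lit 12205273784)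 (nat_lit 1748) (nat_lit 4205029066) (nat_lit 344) (nat_lit 5) (nat_lit 366) (nat_lit 5) (nat_lit 367) (nat_lit 5) (nat_lit 474) (nat_lit 463) (nat_lit 203)))) (XT.nd (nat_lit 156) (nat_lit 0) (nat_lit 76) (XT.nd (nat_lit 78) (nat_lit 0) (nat_lit 76) (XT.lf (nat_lit 0) (nat_lit 8257445978) (nat_lit 1672) (nat_lit 1411088189) (nat_lit 1748) (nat_lit 14363247449) (nat_lit 344) (nat_lit 5) (nat_lit 366) (nat_lit 5) (nat_lit 367) (nat_lit 5) (nat_lit 475) (nat_lit 463) (nat_lit 202)) (XT.lf (nat_lit 0) (nat_lit 9222081256) (nat_lit 1672) (nat_lit 14561725248) (nat_lit 1748) (nat_lit 499151297) (nat_lit 345) (nat_lit 5) (nat_lit 367) (nat_lit 5) (nat_lit 368) (nat_lit 5) (nat_lit 476) (nat_lit 463) (nat_lit 201))) (XT.nd (nat_lit 78) (nat_lit 0) (nat_lit 0) (XT.lf (nat_lit 0) (nat_lit 10276705033) (nat_lit 1672) (nat_lit 3509725871) (nat_lit 1748) (nat_lit 10751315609) (nat_lit 345) (nat_lit 5) (nat_lit 367)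 (nat_lit 5) (nat_lit 368) (nat_lit 5) (nat_lit 477) (nat_lit 463) (nat_lit 200)) (XT.lf (nat_lit 76) (nat_lit 7864504561) (nat_lit 0) (nat_lit 3536168412) (nat_lit 1748) (nat_lit 13395995852) (nat_lit 346) (nat_lit 5) (nat_lit 345) (nat_lit 5) (nat_lit 368) (nat_lit 5) (nat_lit 478) (nat_lit 463) (nat_lit 199))))) (XT.nd (nat_lit 234) (nat_lit 0) (nat_lit 76) (XT.nd (nat_lit 78) (nat_lit 0) (nat_lit 0) (XT.lf (nat_lit 0) (nat_lit 12612989711) (nat_lit 1672) (nat_lit 5593587030) (nat_lit 1748) (nat_lit 6852878257) (nat_lit 346) (nat_lit 5) (nat_lit 368) (nat_lit 5) (nat_lit 369) (nat_lit 5) (nat_lit 479) (nat_lit 463) (nat_lit 198)) (XT.nd (nat_lit 78) (nat_lit 0) (nat_lit 76) (XT.lf (nat_lit 76) (nat_lit 6025402959) (nat_lit 0) (nat_lit 7883981202) (nat_lit 1748) (nat_lit 11416918855) (nat_lit 347) (nat_lit 5) (nat_lit 346) (nat_lit 5) (nat_lit 369) (nat_lit 5) (nat_lit 480) (nat_lit 463) (nat_lit 197))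 (XT.lf (nat_lit 0) (nat_lit 15284001723) (nat_lit 1672) (nat_lit 7664576553) (nat_lit 1748) (nat_lit 2648866509) (nat_lit 347) (nat_lit 5) (nat_lit 369) (nat_lit 5) (nat_lit 370) (nat_lit 5) (nat_lit 481) (nat_lit 463) (nat_lit 196)))) (XT.nd (nat_lit 156) (nat_lit 0) (nat_lit 76) (XT.nd (nat_lit 78) (nat_lit 0) (nat_lit 0) (XT.lf (nat_lit 76) (nat_lit 4205443772) (nat_lit 0) (nat_lit 12557573602) (nat_lit 1748) (nat_lit 9109456541) (nat_lit 348) (nat_lit 5) (nat_lit 347) (nat_lit 5) (nat_lit 370) (nat_lit 5) (nat_lit 482) (nat_lit 463) (nat_lit 195)) (XT.lf (nat_lit 76) (nat_lit 16414799833) (nat_lit 0) (nat_lit 1905674724) (nat_lit 1748) (nat_lit 7831554438) (nat_lit 348) (nat_lit 5) (nat_lit 347) (nat_lit 5) (nat_lit 370) (nat_lit 5) (nat_lit 483) (nat_lit 463) (nat_lit 194))) (XT.nd (nat_lit 78) (nat_lit 0) (nat_lit 0) (XT.lf (nat_lit 76) (nat_lit 2402529510) (nat_lit 0) (nat_lit 17577801867) (nat_lit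 1748) (nat_lit 6455421329) (nat_lit 349) (nat_lit 5) (nat_lit 348) (nat_lit 5) (nat_lit 371) (nat_lit 5) (nat_lit 484) (nat_lit 463) (nat_lit 193)) (XT.lf (nat_lit 76) (nat_lit 14902320537) (nat_lit 0) (nat_lit 6846462876) (nat_lit 1748) (nat_lit 4974862007) (nat_lit 349) (nat_lit 5) (nat_lit 348) (nat_lit 5) (nat_lit 371) (nat_lit 5) (nat_lit 485) (nat_lit 463) (nat_lit 192))))))))
noncomputable def xc249 : XT := (XT.nd (nat_lit 58656) (nat_lit 0) (nat_lit 760) (XT.nd (nat_lit 1014) (nat_lit 760) (nat_lit 0) (XT.nd (nat_lit 468) (nat_lit 2432) (nat_lit 0) (XT.nd (nat_lit 234) (nat_lit 2660) (nat_lit 0) (XT.nd (nat_lit 78) (nat_lit 0) (nat_lit 0) (XT.lf (nat_lit 76) (nat_lit 614269679) (nat_lit 0) (nat_lit 22966510496) (nat_lit 1748) (nat_lit 3435954740) (nat_lit 350) (nat_lit 5) (nat_lit 349) (nat_lit 5) (nat_lit 372) (nat_lit 5) (nat_lit 486) (nat_lit 463) (nat_lit 191)) (XT.nd (nat_lit 78) (nat_lit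 0) (nat_lit 0) (XT.lf (nat_lit 76) (nat_lit 13410905687) (nat_lit 0) (nat_lit 12160486614) (nat_lit 1748) (nat_lit 1741856782) (nat_lit 350) (nat_lit 5) (nat_lit 349) (nat_lit 5) (nat_lit 372) (nat_lit 5) (nat_lit 487) (nat_lit 463) (nat_lit 190)) (XT.lf (nat_lit 76) (nat_lit 26461544762) (nat_lit 0) (nat_lit 1137924458) (nat_lit 1748) (nat_lit 16273611) (nat_lit 350) (nat_lit 5) (nat_lit 349) (nat_lit 5) (nat_lit 372) (nat_lit 5) (nat_lit 488) (nat_lit 463) (nat_lit 189)))) (XT.nd (nat_lit 78) (nat_lit 988) (nat_lit 0) (XT.lf (nat_lit 0) (nat_lit 1862700114) (nat_lit 1748) (nat_lit 15995800507) (nat_lit 76) (nat_lit 10062726658) (nat_lit 327) (nat_lit 5) (nat_lit 350) (nat_lit 5) (nat_lit 328) (nat_lit 5) (nat_lit 489) (nat_lit 463) (nat_lit 188)) (XT.nd (nat_lit 78) (nat_lit 988) (nat_lit 0) (XT.lf (nat_lit 0) (nat_lit 3792084654) (nat_lit 1748) (nat_lit 2960034509) (nat_lit 76) (nat_lit 21480441328)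 (nat_lit 327) (nat_lit 5) (nat_lit 350) (nat_lit 5) (nat_lit 328) (nat_lit 5) (nat_lit 490) (nat_lit 463) (nat_lit 187)) (XT.lf (nat_lit 0) (nat_lit 5855973754) (nat_lit 1064) (nat_lit 18107109694) (nat_lit 76) (nat_lit 4585120749) (nat_lit 314) (nat_lit 5) (nat_lit 328) (nat_lit 5) (nat_lit 315) (nat_lit 5) (nat_lit 491) (nat_lit 463) (nat_lit 186))))) (XT.nd (nat_lit 234) (nat_lit 1596) (nat_lit 0) (XT.nd (nat_lit 78) (nat_lit 836) (nat_lit 0) (XT.lf (nat_lit 0) (nat_lit 8023646318) (nat_lit 1064) (nat_lit 4766200561) (nat_lit 76) (nat_lit 16079065910) (nat_lit 314) (nat_lit 5) (nat_lit 328) (nat_lit 5) (nat_lit 315) (nat_lit 5) (nat_lit 492) (nat_lit 463) (nat_lit 185)) (XT.nd (nat_lit 78) (nat_lit 0) (nat_lit 0) (XT.lf (nat_lit 0) (nat_lit 8957079255) (nat_lit 836) (nat_lit 1333586343) (nat_lit 912) (nat_lit 18904252172) (nat_lit 303) (nat_lit 5) (nat_lit 314) (nat_lit 5) (nat_lit 315) (nat_lit 5)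 (nat_lit 493) (nat_lit 463) (nat_lit 184)) (XT.lf (nat_lit 0) (nat_lit 12700300957) (nat_lit 912) (nat_lit 6576748667) (nat_lit 76) (nat_lit 10248449756) (nat_lit 303) (nat_lit 5) (nat_lit 315) (nat_lit 5) (nat_lit 304) (nat_lit 5) (nat_lit 494) (nat_lit 463) (nat_lit 183)))) (XT.nd (nat_lit 156) (nat_lit 760) (nat_lit 0) (XT.nd (nat_lit 78) (nat_lit 0) (nat_lit 0) (XT.lf (nat_lit 0) (nat_lit 7444450213) (nat_lit 836) (nat_lit 7768756011) (nat_lit 912) (nat_lit 14648386856) (nat_lit 292) (nat_lit 5) (nat_lit 303) (nat_lit 5) (nat_lit 304) (nat_lit 5) (nat_lit 495) (nat_lit 463) (nat_lit 182)) (XT.lf (nat_lit 0) (nat_lit 17844510070) (nat_lit 912) (nat_lit 8396317525) (nat_lit 76) (nat_lit 3962220212) (nat_lit 292) (nat_lit 5) (nat_lit 304) (nat_lit 5) (nat_lit 293) (nat_lit 5) (nat_lit 496) (nat_lit 463) (nat_lit 181))) (XT.nd (nat_lit 78) (nat_lit 0) (nat_lit 0) (XT.lf (nat_lit 0) (nat_lit 5929330086)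 (nat_lit 760) (nat_lit 14687036948) (nat_lit 836) (nat_lit 9933207979) (nat_lit 282) (nat_lit 5) (nat_lit 292) (nat_lit 5) (nat_lit 293) (nat_lit 5) (nat_lit 497) (nat_lit 463) (nat_lit 180)) (XT.lf (nat_lit 0) (nat_lit 20653407757) (nat_lit 760) (nat_lit 2844605541) (nat_lit 836) (nat_lit 7403934310) (nat_lit 282) (nat_lit 5) (nat_lit 292) (nat_lit 5) (nat_lit 293) (nat_lit 5) (nat_lit 498) (nat_lit 463) (nat_lit 179)))))) (XT.nd (nat_lit 57096) (nat_lit 0) (nat_lit 5320) (XT.nd (nat_lit 56784) (nat_lit 0) (nat_lit 5168) (XT.nd (nat_lit 56628) (nat_lit 0) (nat_lit 5092) (XT.lf (nat_lit 0) (nat_lit 4406532674) (nat_lit 760) (nat_lit 22117375678) (nat_lit 836) (nat_lit 4735728834) (nat_lit 272) (nat_lit 5) (nat_lit 282) (nat_lit 5) (nat_lit 283) (nat_lit 5) (nat_lit 499) (nat_lit 463) (nat_lit 178)) (XT.nd (nat_lit 78) (nat_lit 0) (nat_lit 0) (XT.lf (nat_lit 0) (nat_lit 1169489552) (nat_lit 1748) (nat_lit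 4844389155) (nat_lit 1748) (nat_lit 4844389155) (nat_lit 339) (nat_lit 3) (nat_lit 362) (nat_lit 3) (nat_lit 362) (nat_lit 5) (nat_lit 464) (nat_lit 464) (nat_lit 212)) (XT.lf (nat_lit 0) (nat_lit 2494597197) (nat_lit 1748) (nat_lit 100957651) (nat_lit 1748) (nat_lit 19335366106) (nat_lit 339) (nat_lit 3) (nat_lit 362) (nat_lit 3) (nat_lit 362) (nat_lit 5) (nat_lit 465) (nat_lit 464) (nat_lit 211)))) (XT.nd (nat_lit 156) (nat_lit 0) (nat_lit 76) (XT.nd (nat_lit 78) (nat_lit 0) (nat_lit 0) (XT.lf (nat_lit 0) (nat_lit 2759568222) (nat_lit 1672) (nat_lit 12388990040) (nat_lit 1748) (nat_lit 6998914367) (nat_lit 340) (nat_lit 5) (nat_lit 362) (nat_lit 5) (nat_lit 363) (nat_lit 5) (nat_lit 466) (nat_lit 464) (nat_lit 210)) (XT.lf (nat_lit 0) (nat_lit 3044308661) (nat_lit 1672) (nat_lit 2570896702) (nat_lit 1748) (nat_lit 16752864062) (nat_lit 340) (nat_lit 5) (nat_lit 362) (nat_lit 5) (nat_lit 363) (nat_lit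 5) (nat_lit 467) (nat_lit 464) (nat_lit 209))) (XT.nd (nat_lit 78) (nat_lit 0) (nat_lit 0) (XT.lf (nat_lit 0) (nat_lit 3407379729) (nat_lit 1672) (nat_lit 15078530265) (nat_lit 1748) (nat_lit 4105718864) (nat_lit 341) (nat_lit 5) (nat_lit 363) (nat_lit 5) (nat_lit 364) (nat_lit 5) (nat_lit 468) (nat_lit 464) (nat_lit 208)) (XT.lf (nat_lit 0) (nat_lit 3828994332) (nat_lit 1672) (nat_lit 5024864603) (nat_lit 1748) (nat_lit 13964778252) (nat_lit 341) (nat_lit 5) (nat_lit 363) (nat_lit 5) (nat_lit 364) (nat_lit 5) (nat_lit 469) (nat_lit 464) (nat_lit 207))))) (XT.nd (nat_lit 234) (nat_lit 0) (nat_lit 76) (XT.nd (nat_lit 78) (nat_lit 0) (nat_lit 0) (XT.lf (nat_lit 0) (nat_lit 4296769338) (nat_lit 1672) (nat_lit 17758588320) (nat_lit 1748) (nat_lit 994076749) (nat_lit 342) (nat_lit 5) (nat_lit 364) (nat_lit 5) (nat_lit 365) (nat_lit 5) (nat_lit 470) (nat_lit 464) (nat_lit 206)) (XT.nd (nat_lit 78) (nat_lit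 0) (nat_lit 0) (XT.lf (nat_lit 0) (nat_lit 4863330298) (nat_lit 1672) (nat_lit 7463945267) (nat_lit 1748) (nat_lit 10955786618) (nat_lit 342) (nat_lit 5) (nat_lit 364) (nat_lit 5) (nat_lit 365) (nat_lit 5) (nat_lit 471) (nat_lit 464) (nat_lit 205)) (XT.lf (nat_lit 76) (nat_lit 3075059521) (nat_lit 0) (nat_lit 2383042822) (nat_lit 1748) (nat_lit 18062925730) (nat_lit 343) (nat_lit 5) (nat_lit 342) (nat_lit 5) (nat_lit 365) (nat_lit 5) (nat_lit 472) (nat_lit 464) (nat_lit 204)))) (XT.nd (nat_lit 156) (nat_lit 0) (nat_lit 76) (XT.nd (nat_lit 78) (nat_lit 0) (nat_lit 0) (XT.lf (nat_lit 0) (nat_lit 6162542835) (nat_lit 1672) (nat_lit 9889367036) (nat_lit 1748) (nat_lit 7709891047) (nat_lit 343) (nat_lit 5) (nat_lit 365) (nat_lit 5) (nat_lit 366) (nat_lit 5) (nat_lit 473) (nat_lit 464) (nat_lit 203)) (XT.lf (nat_lit 76) (nat_lit 872140312) (nat_lit 0) (nat_lit 6027406224) (nat_lit 1748) (nat_lit 17107476230)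 (nat_lit 344) (nat_lit 5) (nat_lit 343) (nat_lit 5) (nat_lit 366) (nat_lit 5) (nat_lit 474) (nat_lit 464) (nat_lit 202))) (XT.nd (nat_lit 78) (nat_lit 0) (nat_lit 0) (XT.lf (nat_lit 0) (nat_lit 7742429258) (nat_lit 1672) (nat_lit 12302522662) (nat_lit 1748) (nat_lit 4210377327) (nat_lit 344) (nat_lit 5) (nat_lit 366) (nat_lit 5) (nat_lit 367) (nat_lit 5) (nat_lit 475) (nat_lit 464) (nat_lit 201)) (XT.lf (nat_lit 0) (nat_lit 8639226502) (nat_lit 1672) (nat_lit 1295332897) (nat_lit 1748) (nat_lit 14573304240) (nat_lit 344) (nat_lit 5) (nat_lit 366) (nat_lit 5) (nat_lit 367) (nat_lit 5) (nat_lit 476) (nat_lit 464) (nat_lit 200))))))) (XT.nd (nat_lit 1092) (nat_lit 3344) (nat_lit 0) (XT.nd (nat_lit 546) (nat_lit 1444) (nat_lit 0) (XT.nd (nat_lit 234) (nat_lit 0) (nat_lit 76) (XT.nd (nat_lit 78) (nat_lit 0) (nat_lit 0) (XT.lf (nat_lit 0) (nat_lit 9619379130) (nat_lit 1672) (nat_lit 14704990698) (nat_lit 1748)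 (nat_lit 439773362) (nat_lit 345) (nat_lit 5) (nat_lit 367) (nat_lit 5) (nat_lit 368) (nat_lit 5) (nat_lit 477) (nat_lit 464) (nat_lit 199)) (XT.nd (nat_lit 78) (nat_lit 0) (nat_lit 0) (XT.lf (nat_lit 0) (nat_lit 10690921730) (nat_lit 1672) (nat_lit 3434852687) (nat_lit 1748) (nat_lit 10898340979) (nat_lit 345) (nat_lit 5) (nat_lit 367) (nat_lit 5) (nat_lit 368) (nat_lit 5) (nat_lit 478) (nat_lit 464) (nat_lit 198)) (XT.lf (nat_lit 76) (nat_lit 8165907961) (nat_lit 0) (nat_lit 3668304931) (nat_lit 1748) (nat_lit 13454070549) (nat_lit 346) (nat_lit 5) (nat_lit 345) (nat_lit 5) (nat_lit 368) (nat_lit 5) (nat_lit 479) (nat_lit 464) (nat_lit 197)))) (XT.nd (nat_lit 156) (nat_lit 0) (nat_lit 76) (XT.nd (nat_lit 78) (nat_lit 0) (nat_lit 0) (XT.lf (nat_lit 0) (nat_lit 13066355118) (nat_lit 1672) (nat_lit 5559546217) (nat_lit 1748) (nat_lit 6930516502) (nat_lit 346) (nat_lit 5) (nat_lit 368) (nat_lit 5) (nat_lit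 369) (nat_lit 5) (nat_lit 480) (nat_lit 464) (nat_lit 196)) (XT.lf (nat_lit 76) (nat_lit 6290863621) (nat_lit 0) (nat_lit 8094811718) (nat_lit 1748) (nat_lit 11442991522) (nat_lit 347) (nat_lit 5) (nat_lit 346) (nat_lit 5) (nat_lit 369) (nat_lit 5) (nat_lit 481) (nat_lit 464) (nat_lit 195))) (XT.nd (nat_lit 78) (nat_lit 0) (nat_lit 0) (XT.lf (nat_lit 0) (nat_lit 15783562545) (nat_lit 1672) (nat_lit 7671338762) (nat_lit 1748) (nat_lit 2650418536) (nat_lit 347) (nat_lit 5) (nat_lit 369) (nat_lit 5) (nat_lit 370) (nat_lit 5) (nat_lit 482) (nat_lit 464) (nat_lit 194)) (XT.lf (nat_lit 76) (nat_lit 4435117960) (nat_lit 0) (nat_lit 12854184071) (nat_lit 1748) (nat_lit 9096608503) (nat_lit 348) (nat_lit 5) (nat_lit 347) (nat_lit 5) (nat_lit 370) (nat_lit 5) (nat_lit 483) (nat_lit 464) (nat_lit 193))))) (XT.nd (nat_lit 234) (nat_lit 1596) (nat_lit 0) (XT.nd (nat_lit 78) (nat_lit 0) (nat_lit 76) (XT.lf (nat_lit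 76) (nat_lit 16885806921) (nat_lit 0) (nat_lit 1988355863) (nat_lit 1748) (nat_lit 7796972615) (nat_lit 348) (nat_lit 5) (nat_lit 347) (nat_lit 5) (nat_lit 370) (nat_lit 5) (nat_lit 484) (nat_lit 464) (nat_lit 192)) (XT.nd (nat_lit 78) (nat_lit 0) (nat_lit 0) (XT.lf (nat_lit 76) (nat_lit 2596548055) (nat_lit 0) (nat_lit 17967660585) (nat_lit 1748) (nat_lit 6396388805) (nat_lit 349) (nat_lit 5) (nat_lit 348) (nat_lit 5) (nat_lit 371) (nat_lit 5) (nat_lit 485) (nat_lit 464) (nat_lit 191)) (XT.lf (nat_lit 76) (nat_lit 15343472785) (nat_lit 0) (nat_lit 7020943781) (nat_lit 1748) (nat_lit 4889907334) (nat_lit 349) (nat_lit 5) (nat_lit 348) (nat_lit 5) (nat_lit 371) (nat_lit 5) (nat_lit 486) (nat_lit 464) (nat_lit 190)))) (XT.nd (nat_lit 156) (nat_lit 1748) (nat_lit 0) (XT.nd (nat_lit 78) (nat_lit 0) (nat_lit 0) (XT.lf (nat_lit 76) (nat_lit 772731095) (nat_lit 0) (nat_lit 23457489907) (nat_lit 1748) (nat_lit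 3323114383) (nat_lit 350) (nat_lit 5) (nat_lit 349) (nat_lit 5) (nat_lit 372) (nat_lit 5) (nat_lit 487) (nat_lit 464) (nat_lit 189)) (XT.lf (nat_lit 76) (nat_lit 13822433626) (nat_lit 0) (nat_lit 12434724976) (nat_lit 1748) (nat_lit 1598694456) (nat_lit 350) (nat_lit 5) (nat_lit 349) (nat_lit 5) (nat_lit 372) (nat_lit 5) (nat_lit 488) (nat_lit 464) (nat_lit 188))) (XT.nd (nat_lit 78) (nat_lit 0) (nat_lit 76) (XT.lf (nat_lit 0) (nat_lit 155839172) (nat_lit 1748) (nat_lit 1034218237) (nat_lit 1824) (nat_lit 26974390551) (nat_lit 326) (nat_lit 5) (nat_lit 349) (nat_lit 5) (nat_lit 350) (nat_lit 5) (nat_lit 489) (nat_lit 464) (nat_lit 187)) (XT.lf (nat_lit 0) (nat_lit 2069539685) (nat_lit 1748) (nat_lit 16169961319) (nat_lit 76) (nat_lit 10236594921) (nat_lit 327) (nat_lit 5) (nat_lit 350) (nat_lit 5) (nat_lit 328) (nat_lit 5) (nat_lit 490) (nat_lit 464) (nat_lit 186)))))) (XT.nd (nat_lit 546) (nat_lit 760)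 (nat_lit 0) (XT.nd (nat_lit 234) (nat_lit 1672) (nat_lit 0) (XT.nd (nat_lit 78) (nat_lit 988) (nat_lit 0) (XT.lf (nat_lit 0) (nat_lit 4034186709) (nat_lit 1748) (nat_lit 2876337946) (nat_lit 76) (nat_lit 21883200870) (nat_lit 327) (nat_lit 5) (nat_lit 350) (nat_lit 5) (nat_lit 328) (nat_lit 5) (nat_lit 491) (nat_lit 464) (nat_lit 185)) (XT.nd (nat_lit 78) (nat_lit 0) (nat_lit 0) (XT.lf (nat_lit 0) (nat_lit 6136872653) (nat_lit 1064) (nat_lit 18323715884) (nat_lit 76) (nat_lit 4655146343) (nat_lit 314) (nat_lit 5) (nat_lit 328) (nat_lit 5) (nat_lit 315) (nat_lit 5) (nat_lit 492) (nat_lit 464) (nat_lit 184)) (XT.lf (nat_lit 0) (nat_lit 8344687307) (nat_lit 1064) (nat_lit 4718842215) (nat_lit 76) (nat_lit 16379395443) (nat_lit 314) (nat_lit 5) (nat_lit 328) (nat_lit 5) (nat_lit 315) (nat_lit 5) (nat_lit 493) (nat_lit 464) (nat_lit 183)))) (XT.nd (nat_lit 156) (nat_lit 836) (nat_lit 0) (XT.nd (nat_lit 78)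 (nat_lit 0) (nat_lit 0) (XT.lf (nat_lit 0) (nat_lit 9277964497) (nat_lit 836) (nat_lit 1376854375) (nat_lit 912) (nat_lit 19120678769) (nat_lit 303) (nat_lit 5) (nat_lit 314) (nat_lit 5) (nat_lit 315) (nat_lit 5) (nat_lit 494) (nat_lit 464) (nat_lit 182)) (XT.lf (nat_lit 0) (nat_lit 13109436593) (nat_lit 912) (nat_lit 6565960212) (nat_lit 76) (nat_lit 10437361259) (nat_lit 303) (nat_lit 5) (nat_lit 315) (nat_lit 5) (nat_lit 304) (nat_lit 5) (nat_lit 495) (nat_lit 464) (nat_lit 181))) (XT.nd (nat_lit 78) (nat_lit 0) (nat_lit 0) (XT.lf (nat_lit 0) (nat_lit 7734726306) (nat_lit 836) (nat_lit 7935749880) (nat_lit 912) (nat_lit 14785142844) (nat_lit 292) (nat_lit 5) (nat_lit 303) (nat_lit 5) (nat_lit 304) (nat_lit 5) (nat_lit 496) (nat_lit 464) (nat_lit 180)) (XT.lf (nat_lit 0) (nat_lit 18351332038) (nat_lit 912) (nat_lit 8422412074) (nat_lit 76) (nat_lit 4030223081) (nat_lit 292) (nat_lit 5) (nat_lit 304)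 (nat_lit 5) (nat_lit 293) (nat_lit 5) (nat_lit 497) (nat_lit 464) (nat_lit 179))))) (XT.nd (nat_lit 56940) (nat_lit 0) (nat_lit 4408) (XT.nd (nat_lit 56784) (nat_lit 0) (nat_lit 4332) (XT.lf (nat_lit 0) (nat_lit 6188815386) (nat_lit 760) (nat_lit 14987785725) (nat_lit 836) (nat_lit 9980867135) (nat_lit 282) (nat_lit 5) (nat_lit 292) (nat_lit 5) (nat_lit 293) (nat_lit 5) (nat_lit 498) (nat_lit 464) (nat_lit 178)) (XT.nd (nat_lit 78) (nat_lit 0) (nat_lit 0) (XT.lf (nat_lit 0) (nat_lit 1324249130) (nat_lit 1748) (nat_lit 4874211005) (nat_lit 1748) (nat_lit 4874211005) (nat_lit 339) (nat_lit 3) (nat_lit 362) (nat_lit 3) (nat_lit 362) (nat_lit 5) (nat_lit 465) (nat_lit 465) (nat_lit 210)) (XT.lf (nat_lit 76) (nat_lit 28904108) (nat_lit 0) (nat_lit 2773360514) (nat_lit 1748) (nat_lit 19561855155) (nat_lit 340) (nat_lit 5) (nat_lit 339) (nat_lit 3) (nat_lit 362) (nat_lit 5) (nat_lit 466) (nat_lit 465) (nat_lit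 209)))) (XT.nd (nat_lit 156) (nat_lit 0) (nat_lit 76) (XT.nd (nat_lit 78) (nat_lit 0) (nat_lit 0) (XT.lf (nat_lit 0) (nat_lit 3067347876) (nat_lit 1672) (nat_lit 12500009575) (nat_lit 1748) (nat_lit 7017753955) (nat_lit 340) (nat_lit 5) (nat_lit 362) (nat_lit 5) (nat_lit 363) (nat_lit 5) (nat_lit 467) (nat_lit 465) (nat_lit 208)) (XT.lf (nat_lit 0) (nat_lit 3352830412) (nat_lit 1672) (nat_lit 2488235944) (nat_lit 1748) (nat_lit 16969157913) (nat_lit 340) (nat_lit 5) (nat_lit 362) (nat_lit 5) (nat_lit 363) (nat_lit 5) (nat_lit 468) (nat_lit 465) (nat_lit 207))) (XT.nd (nat_lit 78) (nat_lit 0) (nat_lit 0) (XT.lf (nat_lit 0) (nat_lit 3718455000) (nat_lit 1672) (nat_lit 15241065421) (nat_lit 1748) (nat_lit 4078833605) (nat_lit 341) (nat_lit 5) (nat_lit 363) (nat_lit 5) (nat_lit 364) (nat_lit 5) (nat_lit 469) (nat_lit 465) (nat_lit 206)) (XT.lf (nat_lit 0) (nat_lit 4143738608) (nat_lit 1672) (nat_lit 4989052631)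 (nat_lit 1748) (nat_lit 14137211429) (nat_lit 341) (nat_lit 5) (nat_lit 363) (nat_lit 5) (nat_lit 364) (nat_lit 5) (nat_lit 470) (nat_lit 465) (nat_lit 205))))))))
noncomputable def xc250 : XT := (XT.nd (nat_lit 58968) (nat_lit 0) (nat_lit 2584) (XT.nd (nat_lit 1014) (nat_lit 3800) (nat_lit 0) (XT.nd (nat_lit 468) (nat_lit 0) (nat_lit 152) (XT.nd (nat_lit 234) (nat_lit 0) (nat_lit 76) (XT.nd (nat_lit 78) (nat_lit 0) (nat_lit 0) (XT.lf (nat_lit 0) (nat_lit 4616435890) (nat_lit 1672) (nat_lit 17972778406) (nat_lit 1748) (nat_lit 916294983) (nat_lit 342) (nat_lit 5) (nat_lit 364) (nat_lit 5) (nat_lit 365) (nat_lit 5) (nat_lit 471) (nat_lit 465) (nat_lit 204)) (XT.nd (nat_lit 78) (nat_lit 0) (nat_lit 0) (XT.lf (nat_lit 0) (nat_lit 5189745105) (nat_lit 1672) (nat_lit 7475006839) (nat_lit 1748) (nat_lit 11079154016) (nat_lit 342) (nat_lit 5) (nat_lit 364) (nat_lit 5) (nat_lit 365) (nat_lit 5) (nat_lit 472)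 (nat_lit 465) (nat_lit 203)) (XT.lf (nat_lit 76) (nat_lit 3273868720) (nat_lit 0) (nat_lit 2518942263) (nat_lit 1748) (nat_lit 18193896816) (nat_lit 343) (nat_lit 5) (nat_lit 342) (nat_lit 5) (nat_lit 365) (nat_lit 5) (nat_lit 473) (nat_lit 465) (nat_lit 202)))) (XT.nd (nat_lit 78) (nat_lit 0) (nat_lit 0) (XT.lf (nat_lit 0) (nat_lit 6506356133) (nat_lit 1672) (nat_lit 9947329134) (nat_lit 1748) (nat_lit 7778715025) (nat_lit 343) (nat_lit 5) (nat_lit 365) (nat_lit 5) (nat_lit 366) (nat_lit 5) (nat_lit 474) (nat_lit 465) (nat_lit 201)) (XT.nd (nat_lit 78) (nat_lit 0) (nat_lit 76) (XT.lf (nat_lit 76) (nat_lit 1028488459) (nat_lit 0) (nat_lit 6226188562) (nat_lit 1748) (nat_lit 17227922434) (nat_lit 344) (nat_lit 5) (nat_lit 343) (nat_lit 5) (nat_lit 366) (nat_lit 5) (nat_lit 475) (nat_lit 465) (nat_lit 200)) (XT.lf (nat_lit 0) (nat_lit 8109661770) (nat_lit 1672) (nat_lit 12407419139) (nat_lit 1748) (nat_lit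 4218890602) (nat_lit 344) (nat_lit 5) (nat_lit 366) (nat_lit 5) (nat_lit 367) (nat_lit 5) (nat_lit 476) (nat_lit 465) (nat_lit 199))))) (XT.nd (nat_lit 234) (nat_lit 0) (nat_lit 76) (XT.nd (nat_lit 78) (nat_lit 0) (nat_lit 76) (XT.lf (nat_lit 0) (nat_lit 9020230567) (nat_lit 1672) (nat_lit 1182853303) (nat_lit 1748) (nat_lit 14790560255) (nat_lit 344) (nat_lit 5) (nat_lit 366) (nat_lit 5) (nat_lit 367) (nat_lit 5) (nat_lit 477) (nat_lit 465) (nat_lit 198)) (XT.nd (nat_lit 78) (nat_lit 0) (nat_lit 0) (XT.lf (nat_lit 0) (nat_lit 10016357494) (nat_lit 1672) (nat_lit 14856867275) (nat_lit 1748) (nat_lit 381901238) (nat_lit 345) (nat_lit 5) (nat_lit 367) (nat_lit 5) (nat_lit 368) (nat_lit 5) (nat_lit 478) (nat_lit 465) (nat_lit 197)) (XT.lf (nat_lit 0) (nat_lit 11105319362) (nat_lit 1672) (nat_lit 3364115195) (nat_lit 1748) (nat_lit 11050947415) (nat_lit 345) (nat_lit 5) (nat_lit 367) (nat_lit 5) (nat_lit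 368) (nat_lit 5) (nat_lit 479) (nat_lit 465) (nat_lit 196)))) (XT.nd (nat_lit 156) (nat_lit 0) (nat_lit 76) (XT.nd (nat_lit 78) (nat_lit 0) (nat_lit 76) (XT.lf (nat_lit 76) (nat_lit 8467743334) (nat_lit 0) (nat_lit 3800699434) (nat_lit 1748) (nat_lit 13521455285) (nat_lit 346) (nat_lit 5) (nat_lit 345) (nat_lit 5) (nat_lit 368) (nat_lit 5) (nat_lit 480) (nat_lit 465) (nat_lit 195)) (XT.lf (nat_lit 0) (nat_lit 13520978658) (nat_lit 1672) (nat_lit 5530490551) (nat_lit 1748) (nat_lit 7012014836) (nat_lit 346) (nat_lit 5) (nat_lit 368) (nat_lit 5) (nat_lit 369) (nat_lit 5) (nat_lit 481) (nat_lit 465) (nat_lit 194))) (XT.nd (nat_lit 78) (nat_lit 0) (nat_lit 76) (XT.lf (nat_lit 76) (nat_lit 6556004809) (nat_lit 0) (nat_lit 8307794930) (nat_lit 1748) (nat_lit 11477439867) (nat_lit 347) (nat_lit 5) (nat_lit 346) (nat_lit 5) (nat_lit 369) (nat_lit 5) (nat_lit 482) (nat_lit 465) (nat_lit 193)) (XT.lf (nat_lit 0)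 (nat_lit 16285585956) (nat_lit 1672) (nat_lit 7683926128) (nat_lit 1748) (nat_lit 2653998512) (nat_lit 347) (nat_lit 5) (nat_lit 369) (nat_lit 5) (nat_lit 370) (nat_lit 5) (nat_lit 483) (nat_lit 465) (nat_lit 192)))))) (XT.nd (nat_lit 546) (nat_lit 2584) (nat_lit 0) (XT.nd (nat_lit 234) (nat_lit 1596) (nat_lit 0) (XT.nd (nat_lit 78) (nat_lit 0) (nat_lit 0) (XT.lf (nat_lit 76) (nat_lit 4663733154) (nat_lit 0) (nat_lit 13154961522) (nat_lit 1748) (nat_lit 9091077034) (nat_lit 348) (nat_lit 5) (nat_lit 347) (nat_lit 5) (nat_lit 370) (nat_lit 5) (nat_lit 484) (nat_lit 465) (nat_lit 191)) (XT.nd (nat_lit 78) (nat_lit 0) (nat_lit 76) (XT.lf (nat_lit 76) (nat_lit 17360692505) (nat_lit 0) (nat_lit 2070960009) (nat_lit 1748) (nat_lit 7769124187) (nat_lit 348) (nat_lit 5) (nat_lit 347) (nat_lit 5) (nat_lit 370) (nat_lit 5) (nat_lit 485) (nat_lit 465) (nat_lit 190)) (XT.lf (nat_lit 76) (nat_lit 2788778857) (nat_lit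 0) (nat_lit 18363829137) (nat_lit 1748) (nat_lit 6343481372) (nat_lit 349) (nat_lit 5) (nat_lit 348) (nat_lit 5) (nat_lit 371) (nat_lit 5) (nat_lit 486) (nat_lit 465) (nat_lit 189)))) (XT.nd (nat_lit 156) (nat_lit 1672) (nat_lit 0) (XT.nd (nat_lit 78) (nat_lit 0) (nat_lit 76) (XT.lf (nat_lit 76) (nat_lit 15787891105) (nat_lit 0) (nat_lit 7197456129) (nat_lit 1748) (nat_lit 4810416060) (nat_lit 349) (nat_lit 5) (nat_lit 348) (nat_lit 5) (nat_lit 371) (nat_lit 5) (nat_lit 487) (nat_lit 465) (nat_lit 188)) (XT.lf (nat_lit 76) (nat_lit 928685546) (nat_lit 0) (nat_lit 23957059930) (nat_lit 1748) (nat_lit 3215067394) (nat_lit 350) (nat_lit 5) (nat_lit 349) (nat_lit 5) (nat_lit 372) (nat_lit 5) (nat_lit 488) (nat_lit 465) (nat_lit 187))) (XT.nd (nat_lit 78) (nat_lit 1748) (nat_lit 0) (XT.lf (nat_lit 76) (nat_lit 14236627230) (nat_lit 0) (nat_lit 12713243225) (nat_lit 1748) (nat_lit 1459580818) (nat_lit 350)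 (nat_lit 5) (nat_lit 349) (nat_lit 5) (nat_lit 372) (nat_lit 5) (nat_lit 489) (nat_lit 465) (nat_lit 186)) (XT.lf (nat_lit 0) (nat_lit 324488977) (nat_lit 1748) (nat_lit 917497736) (nat_lit 1824) (nat_lit 27482278576) (nat_lit 326) (nat_lit 5) (nat_lit 349) (nat_lit 5) (nat_lit 350) (nat_lit 5) (nat_lit 490) (nat_lit 465) (nat_lit 185))))) (XT.nd (nat_lit 234) (nat_lit 1672) (nat_lit 0) (XT.nd (nat_lit 78) (nat_lit 988) (nat_lit 0) (XT.lf (nat_lit 0) (nat_lit 2273930833) (nat_lit 1748) (nat_lit 16353265199) (nat_lit 76) (nat_lit 10415003991) (nat_lit 327) (nat_lit 5) (nat_lit 350) (nat_lit 5) (nat_lit 328) (nat_lit 5) (nat_lit 491) (nat_lit 465) (nat_lit 184)) (XT.nd (nat_lit 78) (nat_lit 988) (nat_lit 0) (XT.lf (nat_lit 0) (nat_lit 4274674712) (nat_lit 1748) (nat_lit 2796516326) (nat_lit 76) (nat_lit 22295058193) (nat_lit 327) (nat_lit 5) (nat_lit 350) (nat_lit 5) (nat_lit 328) (nat_lit 5) (nat_lit 492)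 (nat_lit 465) (nat_lit 183)) (XT.lf (nat_lit 0) (nat_lit 6417029775) (nat_lit 1064) (nat_lit 18550305537) (nat_lit 76) (nat_lit 4727414186) (nat_lit 314) (nat_lit 5) (nat_lit 328) (nat_lit 5) (nat_lit 315) (nat_lit 5) (nat_lit 493) (nat_lit 465) (nat_lit 182)))) (XT.nd (nat_lit 156) (nat_lit 836) (nat_lit 0) (XT.nd (nat_lit 78) (nat_lit 836) (nat_lit 0) (XT.lf (nat_lit 0) (nat_lit 8665914062) (nat_lit 1064) (nat_lit 4676077232) (nat_lit 76) (nat_lit 16686556800) (nat_lit 314) (nat_lit 5) (nat_lit 328) (nat_lit 5) (nat_lit 315) (nat_lit 5) (nat_lit 494) (nat_lit 465) (nat_lit 181)) (XT.lf (nat_lit 0) (nat_lit 9599763366) (nat_lit 836) (nat_lit 1420343313) (nat_lit 912) (nat_lit 19347711291) (nat_lit 303) (nat_lit 5) (nat_lit 314) (nat_lit 5) (nat_lit 315) (nat_lit 5) (nat_lit 495) (nat_lit 465) (nat_lit 180))) (XT.nd (nat_lit 78) (nat_lit 836) (nat_lit 0) (XT.lf (nat_lit 0) (nat_lit 13520731069) (nat_lit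 912) (nat_lit 6560482581) (nat_lit 76) (nat_lit 10630674524) (nat_lit 303) (nat_lit 5) (nat_lit 315) (nat_lit 5) (nat_lit 304) (nat_lit 5) (nat_lit 496) (nat_lit 465) (nat_lit 179)) (XT.lf (nat_lit 0) (nat_lit 8025317689) (nat_lit 836) (nat_lit 8105632456) (nat_lit 912) (nat_lit 14930699843) (nat_lit 292) (nat_lit 5) (nat_lit 303) (nat_lit 5) (nat_lit 304) (nat_lit 5) (nat_lit 497) (nat_lit 465) (nat_lit 178))))))) (XT.nd (nat_lit 1092) (nat_lit 988) (nat_lit 0) (XT.nd (nat_lit 546) (nat_lit 0) (nat_lit 228) (XT.nd (nat_lit 234) (nat_lit 0) (nat_lit 76) (XT.nd (nat_lit 78) (nat_lit 0) (nat_lit 0) (XT.lf (nat_lit 0) (nat_lit 1477002650) (nat_lit 1748) (nat_lit 4907233544) (nat_lit 1748) (nat_lit 4907233544) (nat_lit 339) (nat_lit 3) (nat_lit 362) (nat_lit 3) (nat_lit 362) (nat_lit 5) (nat_lit 466) (nat_lit 466) (nat_lit 208)) (XT.nd (nat_lit 78) (nat_lit 0) (nat_lit 76) (XT.lf (nat_lit 76) (nat_lit 157557373)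 (nat_lit 0) (nat_lit 2949169458) (nat_lit 1748) (nat_lit 19699453170) (nat_lit 340) (nat_lit 5) (nat_lit 339) (nat_lit 3) (nat_lit 362) (nat_lit 5) (nat_lit 467) (nat_lit 466) (nat_lit 207)) (XT.lf (nat_lit 0) (nat_lit 3371474813) (nat_lit 1672) (nat_lit 12618560069) (nat_lit 1748) (nat_lit 7041674299) (nat_lit 340) (nat_lit 5) (nat_lit 362) (nat_lit 5) (nat_lit 363) (nat_lit 5) (nat_lit 468) (nat_lit 466) (nat_lit 206)))) (XT.nd (nat_lit 156) (nat_lit 0) (nat_lit 76) (XT.nd (nat_lit 78) (nat_lit 0) (nat_lit 76) (XT.lf (nat_lit 0) (nat_lit 3657906608) (nat_lit 1672) (nat_lit 2409128410) (nat_lit 1748) (nat_lit 17194389370) (nat_lit 340) (nat_lit 5) (nat_lit 362) (nat_lit 5) (nat_lit 363) (nat_lit 5) (nat_lit 469) (nat_lit 466) (nat_lit 205)) (XT.lf (nat_lit 0) (nat_lit 4026318599) (nat_lit 1672) (nat_lit 15412250196) (nat_lit 1748) (nat_lit 4055643230) (nat_lit 341) (nat_lit 5) (nat_lit 363) (nat_lit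 5) (nat_lit 364) (nat_lit 5) (nat_lit 470) (nat_lit 466) (nat_lit 204))) (XT.nd (nat_lit 78) (nat_lit 0) (nat_lit 76) (XT.lf (nat_lit 0) (nat_lit 4455529555) (nat_lit 1672) (nat_lit 4957817475) (nat_lit 1748) (nat_lit 14317242866) (nat_lit 341) (nat_lit 5) (nat_lit 363) (nat_lit 5) (nat_lit 364) (nat_lit 5) (nat_lit 471) (nat_lit 466) (nat_lit 203)) (XT.lf (nat_lit 0) (nat_lit 4933419707) (nat_lit 1672) (nat_lit 18196726785) (nat_lit 1748) (nat_lit 840749968) (nat_lit 342) (nat_lit 5) (nat_lit 364) (nat_lit 5) (nat_lit 365) (nat_lit 5) (nat_lit 472) (nat_lit 466) (nat_lit 202))))) (XT.nd (nat_lit 234) (nat_lit 0) (nat_lit 76) (XT.nd (nat_lit 78) (nat_lit 0) (nat_lit 0) (XT.lf (nat_lit 0) (nat_lit 5513790104) (nat_lit 1672) (nat_lit 7491656790) (nat_lit 1748) (nat_lit 11208706788) (nat_lit 342) (nat_lit 5) (nat_lit 364) (nat_lit 5) (nat_lit 365) (nat_lit 5) (nat_lit 473) (nat_lit 466) (nat_lit 201)) (XT.nd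 (nat_lit 78) (nat_lit 0) (nat_lit 76) (XT.lf (nat_lit 76) (nat_lit 3471322266) (nat_lit 0) (nat_lit 2654133281) (nat_lit 1748) (nat_lit 18336429664) (nat_lit 343) (nat_lit 5) (nat_lit 342) (nat_lit 5) (nat_lit 365) (nat_lit 5) (nat_lit 474) (nat_lit 466) (nat_lit 200)) (XT.lf (nat_lit 0) (nat_lit 6848480988) (nat_lit 1672) (nat_lit 10011880058) (nat_lit 1748) (nat_lit 7852230653) (nat_lit 343) (nat_lit 5) (nat_lit 365) (nat_lit 5) (nat_lit 366) (nat_lit 5) (nat_lit 475) (nat_lit 466) (nat_lit 199)))) (XT.nd (nat_lit 156) (nat_lit 0) (nat_lit 76) (XT.nd (nat_lit 78) (nat_lit 0) (nat_lit 76) (XT.lf (nat_lit 76) (nat_lit 1182569705) (nat_lit 0) (nat_lit 6425908616) (nat_lit 1748) (nat_lit 17359386572) (nat_lit 344) (nat_lit 5) (nat_lit 343) (nat_lit 5) (nat_lit 366) (nat_lit 5) (nat_lit 476) (nat_lit 466) (nat_lit 198)) (XT.lf (nat_lit 0) (nat_lit 8475991805) (nat_lit 1672) (nat_lit 12519894726) (nat_lit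 1748) (nat_lit 4230513443) (nat_lit 344) (nat_lit 5) (nat_lit 366) (nat_lit 5) (nat_lit 367) (nat_lit 5) (nat_lit 477) (nat_lit 466) (nat_lit 197))) (XT.nd (nat_lit 78) (nat_lit 0) (nat_lit 76) (XT.lf (nat_lit 0) (nat_lit 9400769296) (nat_lit 1672) (nat_lit 1073497825) (nat_lit 1748) (nat_lit 15015043057) (nat_lit 344) (nat_lit 5) (nat_lit 366) (nat_lit 5) (nat_lit 367) (nat_lit 5) (nat_lit 478) (nat_lit 466) (nat_lit 196)) (XT.lf (nat_lit 0) (nat_lit 10413330916) (nat_lit 1672) (nat_lit 15017304085) (nat_lit 1748) (nat_lit 325460456) (nat_lit 345) (nat_lit 5) (nat_lit 367) (nat_lit 5) (nat_lit 368) (nat_lit 5) (nat_lit 479) (nat_lit 466) (nat_lit 195)))))) (XT.nd (nat_lit 546) (nat_lit 1444) (nat_lit 0) (XT.nd (nat_lit 234) (nat_lit 0) (nat_lit 76) (XT.nd (nat_lit 78) (nat_lit 0) (nat_lit 0) (XT.lf (nat_lit 0) (nat_lit 11520216212) (nat_lit 1672) (nat_lit 3297377366) (nat_lit 1748) (nat_lit 11209144004)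 (nat_lit 345) (nat_lit 5) (nat_lit 367) (nat_lit 5) (nat_lit 368) (nat_lit 5) (nat_lit 480) (nat_lit 466) (nat_lit 194)) (XT.nd (nat_lit 78) (nat_lit 0) (nat_lit 76) (XT.lf (nat_lit 76) (nat_lit 8770236622) (nat_lit 0) (nat_lit 3933449681) (nat_lit 1748) (nat_lit 13598019843) (nat_lit 346) (nat_lit 5) (nat_lit 345) (nat_lit 5) (nat_lit 368) (nat_lit 5) (nat_lit 481) (nat_lit 466) (nat_lit 193)) (XT.lf (nat_lit 0) (nat_lit 13977188732) (nat_lit 1672) (nat_lit 5506299717) (nat_lit 1748) (nat_lit 7097360866) (nat_lit 346) (nat_lit 5) (nat_lit 368) (nat_lit 5) (nat_lit 369) (nat_lit 5) (nat_lit 482) (nat_lit 466) (nat_lit 192)))) (XT.nd (nat_lit 156) (nat_lit 0) (nat_lit 76) (XT.nd (nat_lit 78) (nat_lit 0) (nat_lit 76) (XT.lf (nat_lit 76) (nat_lit 6821038704) (nat_lit 0) (nat_lit 8523054038) (nat_lit 1748) (nat_lit 11520126414) (nat_lit 347) (nat_lit 5) (nat_lit 346) (nat_lit 5) (nat_lit 369) (nat_lit 5)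 (nat_lit 483) (nat_lit 466) (nat_lit 191)) (XT.lf (nat_lit 0) (nat_lit 16790413554) (nat_lit 1672) (nat_lit 7702234207) (nat_lit 1748) (nat_lit 2659569451) (nat_lit 347) (nat_lit 5) (nat_lit 369) (nat_lit 5) (nat_lit 370) (nat_lit 5) (nat_lit 484) (nat_lit 466) (nat_lit 190))) (XT.nd (nat_lit 78) (nat_lit 0) (nat_lit 0) (XT.lf (nat_lit 76) (nat_lit 4891487666) (nat_lit 0) (nat_lit 13460057839) (nat_lit 1748) (nat_lit 9092714377) (nat_lit 348) (nat_lit 5) (nat_lit 347) (nat_lit 5) (nat_lit 370) (nat_lit 5) (nat_lit 485) (nat_lit 466) (nat_lit 189)) (XT.lf (nat_lit 76) (nat_lit 17839749344) (nat_lit 0) (nat_lit 2153552823) (nat_lit 1748) (nat_lit 7747855497) (nat_lit 348) (nat_lit 5) (nat_lit 347) (nat_lit 5) (nat_lit 370) (nat_lit 5) (nat_lit 486) (nat_lit 466) (nat_lit 188))))) (XT.nd (nat_lit 234) (nat_lit 1672) (nat_lit 0) (XT.nd (nat_lit 78) (nat_lit 0) (nat_lit 0) (XT.lf (nat_lit 76) (nat_lit 2979406262)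 (nat_lit 0) (nat_lit 18766491476) (nat_lit 1748) (nat_lit 6296537842) (nat_lit 349) (nat_lit 5) (nat_lit 348) (nat_lit 5) (nat_lit 371) (nat_lit 5) (nat_lit 487) (nat_lit 466) (nat_lit 187)) (XT.nd (nat_lit 78) (nat_lit 0) (nat_lit 76) (XT.lf (nat_lit 76) (nat_lit 16235856600) (nat_lit 0) (nat_lit 7376097169) (nat_lit 1748) (nat_lit 4736219325) (nat_lit 349) (nat_lit 5) (nat_lit 348) (nat_lit 5) (nat_lit 371) (nat_lit 5) (nat_lit 488) (nat_lit 466) (nat_lit 186)) (XT.lf (nat_lit 76) (nat_lit 1082303306) (nat_lit 0) (nat_lit 24465440099) (nat_lit 1748) (nat_lit 3111635873) (nat_lit 350) (nat_lit 5) (nat_lit 349) (nat_lit 5) (nat_lit 372) (nat_lit 5) (nat_lit 489) (nat_lit 466) (nat_lit 185)))) (XT.nd (nat_lit 156) (nat_lit 0) (nat_lit 76) (XT.nd (nat_lit 78) (nat_lit 1748) (nat_lit 0) (XT.lf (nat_lit 76) (nat_lit 14653755901) (nat_lit 0) (nat_lit 12996173746) (nat_lit 1748) (nat_lit 1324328445) (nat_lit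 350) (nat_lit 5) (nat_lit 349) (nat_lit 5) (nat_lit 372) (nat_lit 5) (nat_lit 490) (nat_lit 466) (nat_lit 184)) (XT.lf (nat_lit 0) (nat_lit 490083930) (nat_lit 1748) (nat_lit 803778423) (nat_lit 1824) (nat_lit 28001551419) (nat_lit 326) (nat_lit 5) (nat_lit 349) (nat_lit 5) (nat_lit 350) (nat_lit 5) (nat_lit 491) (nat_lit 466) (nat_lit 183))) (XT.nd (nat_lit 78) (nat_lit 0) (nat_lit 0) (XT.lf (nat_lit 0) (nat_lit 2476080302) (nat_lit 1748) (nat_lit 16545675229) (nat_lit 76) (nat_lit 10598003391) (nat_lit 327) (nat_lit 5) (nat_lit 350) (nat_lit 5) (nat_lit 328) (nat_lit 5) (nat_lit 492) (nat_lit 466) (nat_lit 182)) (XT.lf (nat_lit 0) (nat_lit 4513767081) (nat_lit 1748) (nat_lit 2720431678) (nat_lit 76) (nat_lit 22716154768) (nat_lit 327) (nat_lit 5) (nat_lit 350) (nat_lit 5) (nat_lit 328) (nat_lit 5) (nat_lit 493) (nat_lit 466) (nat_lit 181))))))))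
noncomputable def xc251 : XT := (XT.nd (nat_lit 59046) (nat_lit 0) (nat_lit 836) (XT.nd (nat_lit 57954) (nat_lit 0) (nat_lit 3040) (XT.nd (nat_lit 57408) (nat_lit 0) (nat_lit 2812) (XT.nd (nat_lit 234) (nat_lit 0) (nat_lit 0) (XT.nd (nat_lit 78) (nat_lit 836) (nat_lit 0) (XT.lf (nat_lit 0) (nat_lit 6696677242) (nat_lit 1064) (nat_lit 18786858876) (nat_lit 76) (nat_lit 4801936438) (nat_lit 314) (nat_lit 5) (nat_lit 328) (nat_lit 5) (nat_lit 315) (nat_lit 5) (nat_lit 494) (nat_lit 466) (nat_lit 180)) (XT.nd (nat_lit 78) (nat_lit 836) (nat_lit 0) (XT.lf (nat_lit 0) (nat_lit 8987572413) (nat_lit 1064) (nat_lit 4637782333) (nat_lit 76) (nat_lit 17000654571) (nat_lit 314) (nat_lit 5) (nat_lit 328) (nat_lit 5) (nat_lit 315) (nat_lit 5) (nat_lit 495) (nat_lit 466) (nat_lit 179)) (XT.lf (nat_lit 0) (nat_lit 9922707863) (nat_lit 836) (nat_lit 1464082600) (nat_lit 912) (nat_lit 19585318100) (nat_lit 303) (nat_lit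 5) (nat_lit 314) (nat_lit 5) (nat_lit 315) (nat_lit 5) (nat_lit 496) (nat_lit 466) (nat_lit 178)))) (XT.nd (nat_lit 57018) (nat_lit 0) (nat_lit 2736) (XT.lf (nat_lit 0) (nat_lit 13934461477) (nat_lit 912) (nat_lit 6560207385) (nat_lit 76) (nat_lit 10828453374) (nat_lit 303) (nat_lit 5) (nat_lit 315) (nat_lit 5) (nat_lit 304) (nat_lit 5) (nat_lit 497) (nat_lit 466) (nat_lit 177)) (XT.nd (nat_lit 78) (nat_lit 0) (nat_lit 0) (XT.lf (nat_lit 0) (nat_lit 1627908079) (nat_lit 1748) (nat_lit 4943419659) (nat_lit 1748) (nat_lit 4943419659) (nat_lit 339) (nat_lit 3) (nat_lit 362) (nat_lit 3) (nat_lit 362) (nat_lit 5) (nat_lit 467) (nat_lit 467) (nat_lit 206)) (XT.lf (nat_lit 76) (nat_lit 283810388) (nat_lit 0) (nat_lit 3123821565) (nat_lit 1748) (nat_lit 19849652261) (nat_lit 340) (nat_lit 5) (nat_lit 339) (nat_lit 3) (nat_lit 362) (nat_lit 5) (nat_lit 468) (nat_lit 467) (nat_lit 205))))) (XT.nd (nat_lit 234)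 (nat_lit 0) (nat_lit 76) (XT.nd (nat_lit 78) (nat_lit 0) (nat_lit 0) (XT.lf (nat_lit 0) (nat_lit 3672256845) (nat_lit 1672) (nat_lit 12744585924) (nat_lit 1748) (nat_lit 7070594352) (nat_lit 340) (nat_lit 5) (nat_lit 362) (nat_lit 5) (nat_lit 363) (nat_lit 5) (nat_lit 469) (nat_lit 467) (nat_lit 204)) (XT.nd (nat_lit 78) (nat_lit 0) (nat_lit 76) (XT.lf (nat_lit 0) (nat_lit 3959841736) (nat_lit 1672) (nat_lit 2333442992) (nat_lit 1748) (nat_lit 17428558105) (nat_lit 340) (nat_lit 5) (nat_lit 362) (nat_lit 5) (nat_lit 363) (nat_lit 5) (nat_lit 470) (nat_lit 467) (nat_lit 203)) (XT.lf (nat_lit 0) (nat_lit 4331272594) (nat_lit 1672) (nat_lit 15592047936) (nat_lit 1748) (nat_lit 4036057279) (nat_lit 341) (nat_lit 5) (nat_lit 363) (nat_lit 5) (nat_lit 364) (nat_lit 5) (nat_lit 471) (nat_lit 467) (nat_lit 202)))) (XT.nd (nat_lit 156) (nat_lit 0) (nat_lit 76) (XT.nd (nat_lit 78) (nat_lit 0) (nat_lit 76) (XT.lf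 (nat_lit 0) (nat_lit 4764667228) (nat_lit 1672) (nat_lit 4931045134) (nat_lit 1748) (nat_lit 14504863394) (nat_lit 341) (nat_lit 5) (nat_lit 363) (nat_lit 5) (nat_lit 364) (nat_lit 5) (nat_lit 472) (nat_lit 467) (nat_lit 201)) (XT.lf (nat_lit 0) (nat_lit 5248019568) (nat_lit 1672) (nat_lit 18430416040) (nat_lit 1748) (nat_lit 767339174) (nat_lit 342) (nat_lit 5) (nat_lit 364) (nat_lit 5) (nat_lit 365) (nat_lit 5) (nat_lit 473) (nat_lit 467) (nat_lit 200))) (XT.nd (nat_lit 78) (nat_lit 0) (nat_lit 0) (XT.lf (nat_lit 0) (nat_lit 5835763423) (nat_lit 1672) (nat_lit 7513798475) (nat_lit 1748) (nat_lit 11344424263) (nat_lit 342) (nat_lit 5) (nat_lit 364) (nat_lit 5) (nat_lit 365) (nat_lit 5) (nat_lit 474) (nat_lit 467) (nat_lit 199)) (XT.lf (nat_lit 76) (nat_lit 3667600088) (nat_lit 0) (nat_lit 2788734760) (nat_lit 1748) (nat_lit 18490408269) (nat_lit 343) (nat_lit 5) (nat_lit 342) (nat_lit 5) (nat_lit 365)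 (nat_lit 5) (nat_lit 475) (nat_lit 467) (nat_lit 198)))))) (XT.nd (nat_lit 546) (nat_lit 0) (nat_lit 228) (XT.nd (nat_lit 234) (nat_lit 0) (nat_lit 76) (XT.nd (nat_lit 78) (nat_lit 0) (nat_lit 0) (XT.lf (nat_lit 0) (nat_lit 7189216211) (nat_lit 1672) (nat_lit 10082940748) (nat_lit 1748) (nat_lit 7930403032) (nat_lit 343) (nat_lit 5) (nat_lit 365) (nat_lit 5) (nat_lit 366) (nat_lit 5) (nat_lit 476) (nat_lit 467) (nat_lit 197)) (XT.nd (nat_lit 78) (nat_lit 0) (nat_lit 76) (XT.lf (nat_lit 76) (nat_lit 1334548162) (nat_lit 0) (nat_lit 6626703108) (nat_lit 1748) (nat_lit 17501754704) (nat_lit 344) (nat_lit 5) (nat_lit 343) (nat_lit 5) (nat_lit 366) (nat_lit 5) (nat_lit 477) (nat_lit 467) (nat_lit 196)) (XT.lf (nat_lit 0) (nat_lit 8841721560) (nat_lit 1672) (nat_lit 12639888165) (nat_lit 1748) (nat_lit 4245193905) (nat_lit 344) (nat_lit 5) (nat_lit 366) (nat_lit 5) (nat_lit 367) (nat_lit 5) (nat_lit 478) (nat_lit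 467) (nat_lit 195)))) (XT.nd (nat_lit 156) (nat_lit 0) (nat_lit 76) (XT.nd (nat_lit 78) (nat_lit 0) (nat_lit 76) (XT.lf (nat_lit 0) (nat_lit 9781147347) (nat_lit 1672) (nat_lit 967120276) (nat_lit 1748) (nat_lit 15246785284) (nat_lit 344) (nat_lit 5) (nat_lit 366) (nat_lit 5) (nat_lit 367) (nat_lit 5) (nat_lit 479) (nat_lit 467) (nat_lit 194)) (XT.lf (nat_lit 0) (nat_lit 10810607791) (nat_lit 1672) (nat_lit 15186257879) (nat_lit 1748) (nat_lit 270379116) (nat_lit 345) (nat_lit 5) (nat_lit 367) (nat_lit 5) (nat_lit 368) (nat_lit 5) (nat_lit 480) (nat_lit 467) (nat_lit 193))) (XT.nd (nat_lit 78) (nat_lit 0) (nat_lit 0) (XT.lf (nat_lit 0) (nat_lit 11935924710) (nat_lit 1672) (nat_lit 3234508945) (nat_lit 1748) (nat_lit 11372943993) (nat_lit 345) (nat_lit 5) (nat_lit 367) (nat_lit 5) (nat_lit 368) (nat_lit 5) (nat_lit 481) (nat_lit 467) (nat_lit 192)) (XT.lf (nat_lit 76) (nat_lit 9073609849) (nat_lit 0) (nat_lit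 4066651796) (nat_lit 1748) (nat_lit 13683643690) (nat_lit 346) (nat_lit 5) (nat_lit 345) (nat_lit 5) (nat_lit 368) (nat_lit 5) (nat_lit 482) (nat_lit 467) (nat_lit 191))))) (XT.nd (nat_lit 234) (nat_lit 0) (nat_lit 76) (XT.nd (nat_lit 78) (nat_lit 0) (nat_lit 0) (XT.lf (nat_lit 0) (nat_lit 14435308536) (nat_lit 1672) (nat_lit 5486859540) (nat_lit 1748) (nat_lit 7186545427) (nat_lit 346) (nat_lit 5) (nat_lit 368) (nat_lit 5) (nat_lit 369) (nat_lit 5) (nat_lit 483) (nat_lit 467) (nat_lit 190)) (XT.nd (nat_lit 78) (nat_lit 0) (nat_lit 76) (XT.lf (nat_lit 76) (nat_lit 7086173240) (nat_lit 0) (nat_lit 8740711590) (nat_lit 1748) (nat_lit 11570922781) (nat_lit 347) (nat_lit 5) (nat_lit 346) (nat_lit 5) (nat_lit 369) (nat_lit 5) (nat_lit 484) (nat_lit 467) (nat_lit 189)) (XT.lf (nat_lit 0) (nat_lit 17298382416) (nat_lit 1672) (nat_lit 7726165047) (nat_lit 1748) (nat_lit 2667096643) (nat_lit 347) (nat_lit 5) (nat_lit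 369) (nat_lit 5) (nat_lit 370) (nat_lit 5) (nat_lit 485) (nat_lit 467) (nat_lit 188)))) (XT.nd (nat_lit 156) (nat_lit 0) (nat_lit 76) (XT.nd (nat_lit 78) (nat_lit 0) (nat_lit 0) (XT.lf (nat_lit 76) (nat_lit 5118575251) (nat_lit 0) (nat_lit 13769625284) (nat_lit 1748) (nat_lit 9101381240) (nat_lit 348) (nat_lit 5) (nat_lit 347) (nat_lit 5) (nat_lit 370) (nat_lit 5) (nat_lit 486) (nat_lit 467) (nat_lit 187)) (XT.lf (nat_lit 76) (nat_lit 18323267695) (nat_lit 0) (nat_lit 2236198673) (nat_lit 1748) (nat_lit 7733021013) (nat_lit 348) (nat_lit 5) (nat_lit 347) (nat_lit 5) (nat_lit 370) (nat_lit 5) (nat_lit 487) (nat_lit 467) (nat_lit 186))) (XT.nd (nat_lit 78) (nat_lit 0) (nat_lit 0) (XT.lf (nat_lit 76) (nat_lit 3168609753) (nat_lit 0) (nat_lit 19175832990) (nat_lit 1748) (nat_lit 6255404819) (nat_lit 349) (nat_lit 5) (nat_lit 348) (nat_lit 5) (nat_lit 371) (nat_lit 5) (nat_lit 488) (nat_lit 467) (nat_lit 185))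 (XT.lf (nat_lit 76) (nat_lit 16687647621) (nat_lit 0) (nat_lit 7556963901) (nat_lit 1748) (nat_lit 4667155692) (nat_lit 349) (nat_lit 5) (nat_lit 348) (nat_lit 5) (nat_lit 371) (nat_lit 5) (nat_lit 489) (nat_lit 467) (nat_lit 184))))))) (XT.nd (nat_lit 58188) (nat_lit 0) (nat_lit 2128) (XT.nd (nat_lit 57642) (nat_lit 0) (nat_lit 1900) (XT.nd (nat_lit 234) (nat_lit 912) (nat_lit 0) (XT.nd (nat_lit 78) (nat_lit 1748) (nat_lit 0) (XT.lf (nat_lit 76) (nat_lit 1233749497) (nat_lit 0) (nat_lit 24982852486) (nat_lit 1748) (nat_lit 3012648993) (nat_lit 350) (nat_lit 5) (nat_lit 349) (nat_lit 5) (nat_lit 372) (nat_lit 5) (nat_lit 490) (nat_lit 467) (nat_lit 183)) (XT.nd (nat_lit 78) (nat_lit 1748) (nat_lit 0) (XT.lf (nat_lit 76) (nat_lit 15074086043) (nat_lit 0) (nat_lit 13283649756) (nat_lit 1748) (nat_lit 1192756586) (nat_lit 350) (nat_lit 5) (nat_lit 349) (nat_lit 5) (nat_lit 372) (nat_lit 5) (nat_lit 491)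 (nat_lit 467) (nat_lit 182)) (XT.lf (nat_lit 0) (nat_lit 652812534) (nat_lit 1748) (nat_lit 692913135) (nat_lit 1824) (nat_lit 28532389130) (nat_lit 326) (nat_lit 5) (nat_lit 349) (nat_lit 5) (nat_lit 350) (nat_lit 5) (nat_lit 492) (nat_lit 467) (nat_lit 181)))) (XT.nd (nat_lit 156) (nat_lit 988) (nat_lit 0) (XT.nd (nat_lit 78) (nat_lit 0) (nat_lit 0) (XT.lf (nat_lit 0) (nat_lit 2676189040) (nat_lit 1748) (nat_lit 16747162288) (nat_lit 76) (nat_lit 10785645234) (nat_lit 327) (nat_lit 5) (nat_lit 350) (nat_lit 5) (nat_lit 328) (nat_lit 5) (nat_lit 493) (nat_lit 467) (nat_lit 180)) (XT.lf (nat_lit 0) (nat_lit 4751676866) (nat_lit 1748) (nat_lit 2647951640) (nat_lit 76) (nat_lit 23146636467) (nat_lit 327) (nat_lit 5) (nat_lit 350) (nat_lit 5) (nat_lit 328) (nat_lit 5) (nat_lit 494) (nat_lit 467) (nat_lit 179))) (XT.nd (nat_lit 78) (nat_lit 0) (nat_lit 0) (XT.lf (nat_lit 0) (nat_lit 6976042229) (nat_lit 1064)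 (nat_lit 19033364246) (nat_lit 76) (nat_lit 4878726771) (nat_lit 314) (nat_lit 5) (nat_lit 328) (nat_lit 5) (nat_lit 315) (nat_lit 5) (nat_lit 495) (nat_lit 467) (nat_lit 178)) (XT.lf (nat_lit 0) (nat_lit 9309903706) (nat_lit 1064) (nat_lit 4603840130) (nat_lit 76) (nat_lit 17321796686) (nat_lit 314) (nat_lit 5) (nat_lit 328) (nat_lit 5) (nat_lit 315) (nat_lit 5) (nat_lit 496) (nat_lit 467) (nat_lit 177))))) (XT.nd (nat_lit 234) (nat_lit 0) (nat_lit 76) (XT.nd (nat_lit 78) (nat_lit 0) (nat_lit 0) (XT.lf (nat_lit 0) (nat_lit 1777118852) (nat_lit 1748) (nat_lit 4982735422) (nat_lit 1748) (nat_lit 4982735422) (nat_lit 339) (nat_lit 3) (nat_lit 362) (nat_lit 3) (nat_lit 362) (nat_lit 5) (nat_lit 468) (nat_lit 468) (nat_lit 204)) (XT.nd (nat_lit 78) (nat_lit 0) (nat_lit 76) (XT.lf (nat_lit 76) (nat_lit 407808267) (nat_lit 0) (nat_lit 3297475156) (nat_lit 1748) (nat_lit 20012321995) (nat_lit 340) (nat_lit 5)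 (nat_lit 339) (nat_lit 3) (nat_lit 362) (nat_lit 5) (nat_lit 469) (nat_lit 468) (nat_lit 203)) (XT.lf (nat_lit 0) (nat_lit 3969993155) (nat_lit 1672) (nat_lit 12878038440) (nat_lit 1748) (nat_lit 7104438541) (nat_lit 340) (nat_lit 5) (nat_lit 362) (nat_lit 5) (nat_lit 363) (nat_lit 5) (nat_lit 470) (nat_lit 468) (nat_lit 202)))) (XT.nd (nat_lit 156) (nat_lit 0) (nat_lit 76) (XT.nd (nat_lit 78) (nat_lit 0) (nat_lit 76) (XT.lf (nat_lit 0) (nat_lit 4258931878) (nat_lit 1672) (nat_lit 2261053810) (nat_lit 1748) (nat_lit 17671670740) (nat_lit 340) (nat_lit 5) (nat_lit 362) (nat_lit 5) (nat_lit 363) (nat_lit 5) (nat_lit 471) (nat_lit 468) (nat_lit 201)) (XT.lf (nat_lit 0) (nat_lit 4633610870) (nat_lit 1672) (nat_lit 15780429395) (nat_lit 1748) (nat_lit 4019989867) (nat_lit 341) (nat_lit 5) (nat_lit 363) (nat_lit 5) (nat_lit 364) (nat_lit 5) (nat_lit 472) (nat_lit 468) (nat_lit 200))) (XT.nd (nat_lit 78) (nat_lit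 0) (nat_lit 76) (XT.lf (nat_lit 0) (nat_lit 5071443734) (nat_lit 1672) (nat_lit 4908627311) (nat_lit 1748) (nat_lit 14700069919) (nat_lit 341) (nat_lit 5) (nat_lit 363) (nat_lit 5) (nat_lit 364) (nat_lit 5) (nat_lit 473) (nat_lit 468) (nat_lit 199)) (XT.lf (nat_lit 0) (nat_lit 5560526545) (nat_lit 1672) (nat_lit 18673836664) (nat_lit 1748) (nat_lit 695963742) (nat_lit 342) (nat_lit 5) (nat_lit 364) (nat_lit 5) (nat_lit 365) (nat_lit 5) (nat_lit 474) (nat_lit 468) (nat_lit 198)))))) (XT.nd (nat_lit 546) (nat_lit 0) (nat_lit 228) (XT.nd (nat_lit 234) (nat_lit 0) (nat_lit 76) (XT.nd (nat_lit 78) (nat_lit 0) (nat_lit 0) (XT.lf (nat_lit 0) (nat_lit 6155955736) (nat_lit 1672) (nat_lit 7541341408) (nat_lit 1748) (nat_lit 11486290969) (nat_lit 342) (nat_lit 5) (nat_lit 364) (nat_lit 5) (nat_lit 365) (nat_lit 5) (nat_lit 475) (nat_lit 468) (nat_lit 197)) (XT.nd (nat_lit 78) (nat_lit 0) (nat_lit 76) (XT.lf (nat_lit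 76) (nat_lit 3862877672) (nat_lit 0) (nat_lit 2922862793) (nat_lit 1748) (nat_lit 18655727788) (nat_lit 343) (nat_lit 5) (nat_lit 342) (nat_lit 5) (nat_lit 365) (nat_lit 5) (nat_lit 476) (nat_lit 468) (nat_lit 196)) (XT.lf (nat_lit 0) (nat_lit 7528853671) (nat_lit 1672) (nat_lit 10160438748) (nat_lit 1748) (nat_lit 8013201563) (nat_lit 343) (nat_lit 5) (nat_lit 365) (nat_lit 5) (nat_lit 366) (nat_lit 5) (nat_lit 477) (nat_lit 468) (nat_lit 195)))) (XT.nd (nat_lit 156) (nat_lit 0) (nat_lit 76) (XT.nd (nat_lit 78) (nat_lit 0) (nat_lit 76) (XT.lf (nat_lit 76) (nat_lit 1484583092) (nat_lit 0) (nat_lit 6828706913) (nat_lit 1748) (nat_lit 17654923594) (nat_lit 344) (nat_lit 5) (nat_lit 343) (nat_lit 5) (nat_lit 366) (nat_lit 5) (nat_lit 478) (nat_lit 468) (nat_lit 194)) (XT.lf (nat_lit 0) (nat_lit 9207146839) (nat_lit 1672) (nat_lit 12767345237) (nat_lit 1748) (nat_lit 4262883436) (nat_lit 344) (nat_lit 5)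 (nat_lit 366) (nat_lit 5) (nat_lit 367) (nat_lit 5) (nat_lit 479) (nat_lit 468) (nat_lit 193))) (XT.nd (nat_lit 78) (nat_lit 0) (nat_lit 76) (XT.lf (nat_lit 0) (nat_lit 10161663283) (nat_lit 1672) (nat_lit 863579650) (nat_lit 1748) (nat_lit 15485824571) (nat_lit 344) (nat_lit 5) (nat_lit 366) (nat_lit 5) (nat_lit 367) (nat_lit 5) (nat_lit 480) (nat_lit 468) (nat_lit 192)) (XT.lf (nat_lit 0) (nat_lit 11208490706) (nat_lit 1672) (nat_lit 15363692873) (nat_lit 1748) (nat_lit 216587786) (nat_lit 345) (nat_lit 5) (nat_lit 367) (nat_lit 5) (nat_lit 368) (nat_lit 5) (nat_lit 481) (nat_lit 468) (nat_lit 191))))) (XT.nd (nat_lit 234) (nat_lit 0) (nat_lit 76) (XT.nd (nat_lit 78) (nat_lit 0) (nat_lit 0) (XT.lf (nat_lit 0) (nat_lit 12352751791) (nat_lit 1672) (nat_lit 3175385238) (nat_lit 1748) (nat_lit 11542364723) (nat_lit 345) (nat_lit 5) (nat_lit 367) (nat_lit 5) (nat_lit 368) (nat_lit 5) (nat_lit 482) (nat_lit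 468) (nat_lit 190)) (XT.nd (nat_lit 78) (nat_lit 0) (nat_lit 76) (XT.lf (nat_lit 76) (nat_lit 9378081367) (nat_lit 0) (nat_lit 4200400365) (nat_lit 1748) (nat_lit 13778215688) (nat_lit 346) (nat_lit 5) (nat_lit 345) (nat_lit 5) (nat_lit 368) (nat_lit 5) (nat_lit 483) (nat_lit 468) (nat_lit 189)) (XT.lf (nat_lit 0) (nat_lit 14895656411) (nat_lit 1672) (nat_lit 5472061771) (nat_lit 1748) (nat_lit 7279562518) (nat_lit 346) (nat_lit 5) (nat_lit 368) (nat_lit 5) (nat_lit 369) (nat_lit 5) (nat_lit 484) (nat_lit 468) (nat_lit 188)))) (XT.nd (nat_lit 156) (nat_lit 0) (nat_lit 76) (XT.nd (nat_lit 78) (nat_lit 0) (nat_lit 76) (XT.lf (nat_lit 76) (nat_lit 7351612355) (nat_lit 0) (nat_lit 8960889596) (nat_lit 1748) (nat_lit 11629709401) (nat_lit 347) (nat_lit 5) (nat_lit 346) (nat_lit 5) (nat_lit 369) (nat_lit 5) (nat_lit 485) (nat_lit 468) (nat_lit 187)) (XT.lf (nat_lit 0) (nat_lit 17809825450) (nat_lit 1672) (nat_lit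 7755626983) (nat_lit 1748) (nat_lit 2676547576) (nat_lit 347) (nat_lit 5) (nat_lit 369) (nat_lit 5) (nat_lit 370) (nat_lit 5) (nat_lit 486) (nat_lit 468) (nat_lit 186))) (XT.nd (nat_lit 78) (nat_lit 0) (nat_lit 0) (XT.lf (nat_lit 76) (nat_lit 5345185349) (nat_lit 0) (nat_lit 14083816606) (nat_lit 1748) (nat_lit 9116946518) (nat_lit 348) (nat_lit 5) (nat_lit 347) (nat_lit 5) (nat_lit 370) (nat_lit 5) (nat_lit 487) (nat_lit 468) (nat_lit 185)) (XT.lf (nat_lit 76) (nat_lit 18811535591) (nat_lit 0) (nat_lit 2318960701) (nat_lit 1748) (nat_lit 7724483055) (nat_lit 348) (nat_lit 5) (nat_lit 347) (nat_lit 5) (nat_lit 370) (nat_lit 5) (nat_lit 488) (nat_lit 468) (nat_lit 184))))))))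
noncomputable def xc252 : XT := (XT.nd (nat_lit 59358) (nat_lit 0) (nat_lit 0) (XT.nd (nat_lit 58266) (nat_lit 0) (nat_lit 1216) (XT.nd (nat_lit 468) (nat_lit 0) (nat_lit 76) (XT.nd (nat_lit 234) (nat_lit 1672) (nat_lit 0) (XT.nd (nat_lit 78) (nat_lit 0) (nat_lit 0) (XT.lf (nat_lit 76) (nat_lit 3356564192) (nat_lit 0) (nat_lit 19592040619) (nat_lit 1748) (nat_lit 6219936425) (nat_lit 349) (nat_lit 5) (nat_lit 348) (nat_lit 5) (nat_lit 371) (nat_lit 5) (nat_lit 489) (nat_lit 468) (nat_lit 183)) (XT.nd (nat_lit 78) (nat_lit 0) (nat_lit 76) (XT.lf (nat_lit 76) (nat_lit 17143540028) (nat_lit 0) (nat_lit 7740153149) (nat_lit 1748) (nat_lit 4603070874) (nat_lit 349) (nat_lit 5) (nat_lit 348) (nat_lit 5) (nat_lit 371) (nat_lit 5) (nat_lit 490) (nat_lit 468) (nat_lit 182)) (XT.lf (nat_lit 76) (nat_lit 1383184314) (nat_lit 0) (nat_lit 25509521825) (nat_lit 1748) (nat_lit 2917942729) (nat_lit 350) (nat_lit 5) (nat_lit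 349) (nat_lit 5) (nat_lit 372) (nat_lit 5) (nat_lit 491) (nat_lit 468) (nat_lit 181)))) (XT.nd (nat_lit 78) (nat_lit 1748) (nat_lit 0) (XT.lf (nat_lit 76) (nat_lit 15497881321) (nat_lit 0) (nat_lit 13575805387) (nat_lit 1748) (nat_lit 1064690890) (nat_lit 350) (nat_lit 5) (nat_lit 349) (nat_lit 5) (nat_lit 372) (nat_lit 5) (nat_lit 492) (nat_lit 468) (nat_lit 180)) (XT.nd (nat_lit 78) (nat_lit 0) (nat_lit 76) (XT.lf (nat_lit 0) (nat_lit 812857372) (nat_lit 1748) (nat_lit 584759809) (nat_lit 1824) (nat_lit 29074977206) (nat_lit 326) (nat_lit 5) (nat_lit 349) (nat_lit 5) (nat_lit 350) (nat_lit 5) (nat_lit 493) (nat_lit 468) (nat_lit 179)) (XT.lf (nat_lit 0) (nat_lit 2874452471) (nat_lit 1748) (nat_lit 16957704876) (nat_lit 76) (nat_lit 10977984221) (nat_lit 327) (nat_lit 5) (nat_lit 350) (nat_lit 5) (nat_lit 328) (nat_lit 5) (nat_lit 494) (nat_lit 468) (nat_lit 178))))) (XT.nd (nat_lit 57486) (nat_lit 0)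 (nat_lit 988) (XT.nd (nat_lit 57330) (nat_lit 0) (nat_lit 912) (XT.lf (nat_lit 0) (nat_lit 4988612021) (nat_lit 1748) (nat_lit 2578949243) (nat_lit 76) (nat_lit 23586653590) (nat_lit 327) (nat_lit 5) (nat_lit 350) (nat_lit 5) (nat_lit 328) (nat_lit 5) (nat_lit 495) (nat_lit 468) (nat_lit 177)) (XT.nd (nat_lit 78) (nat_lit 0) (nat_lit 0) (XT.lf (nat_lit 0) (nat_lit 1924784077) (nat_lit 1748) (nat_lit 5025150002) (nat_lit 1748) (nat_lit 5025150002) (nat_lit 339) (nat_lit 3) (nat_lit 362) (nat_lit 3) (nat_lit 362) (nat_lit 5) (nat_lit 469) (nat_lit 469) (nat_lit 202)) (XT.lf (nat_lit 76) (nat_lit 529691530) (nat_lit 0) (nat_lit 3470284675) (nat_lit 1748) (nat_lit 20187344184) (nat_lit 340) (nat_lit 5) (nat_lit 339) (nat_lit 3) (nat_lit 362) (nat_lit 5) (nat_lit 470) (nat_lit 469) (nat_lit 201)))) (XT.nd (nat_lit 156) (nat_lit 0) (nat_lit 76) (XT.nd (nat_lit 78) (nat_lit 0) (nat_lit 0) (XT.lf (nat_lit 0)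 (nat_lit 4264974692) (nat_lit 1672) (nat_lit 13018875639) (nat_lit 1748) (nat_lit 7143136598) (nat_lit 340) (nat_lit 5) (nat_lit 362) (nat_lit 5) (nat_lit 363) (nat_lit 5) (nat_lit 471) (nat_lit 469) (nat_lit 200)) (XT.lf (nat_lit 0) (nat_lit 4555465097) (nat_lit 1672) (nat_lit 2191840014) (nat_lit 1748) (nat_lit 17923740710) (nat_lit 340) (nat_lit 5) (nat_lit 362) (nat_lit 5) (nat_lit 363) (nat_lit 5) (nat_lit 472) (nat_lit 469) (nat_lit 199))) (XT.nd (nat_lit 78) (nat_lit 0) (nat_lit 0) (XT.lf (nat_lit 0) (nat_lit 4933619521) (nat_lit 1672) (nat_lit 15977372565) (nat_lit 1748) (nat_lit 4007359524) (nat_lit 341) (nat_lit 5) (nat_lit 363) (nat_lit 5) (nat_lit 364) (nat_lit 5) (nat_lit 473) (nat_lit 469) (nat_lit 198)) (XT.lf (nat_lit 0) (nat_lit 5376143621) (nat_lit 1672) (nat_lit 4890461213) (nat_lit 1748) (nat_lit 14902865298) (nat_lit 341) (nat_lit 5) (nat_lit 363) (nat_lit 5) (nat_lit 364) (nat_lit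 5) (nat_lit 474) (nat_lit 469) (nat_lit 197)))))) (XT.nd (nat_lit 546) (nat_lit 0) (nat_lit 228) (XT.nd (nat_lit 234) (nat_lit 0) (nat_lit 76) (XT.nd (nat_lit 78) (nat_lit 0) (nat_lit 0) (XT.lf (nat_lit 0) (nat_lit 5871224375) (nat_lit 1672) (nat_lit 18926986891) (nat_lit 1748) (nat_lit 626528330) (nat_lit 342) (nat_lit 5) (nat_lit 364) (nat_lit 5) (nat_lit 365) (nat_lit 5) (nat_lit 475) (nat_lit 469) (nat_lit 196)) (XT.nd (nat_lit 78) (nat_lit 0) (nat_lit 0) (XT.lf (nat_lit 0) (nat_lit 6474650634) (nat_lit 1672) (nat_lit 7574201073) (nat_lit 1748) (nat_lit 11634296507) (nat_lit 342) (nat_lit 5) (nat_lit 364) (nat_lit 5) (nat_lit 365) (nat_lit 5) (nat_lit 476) (nat_lit 469) (nat_lit 195)) (XT.lf (nat_lit 76) (nat_lit 4057326288) (nat_lit 0) (nat_lit 3056630831) (nat_lit 1748) (nat_lit 18832294240) (nat_lit 343) (nat_lit 5) (nat_lit 342) (nat_lit 5) (nat_lit 365) (nat_lit 5) (nat_lit 477) (nat_lit 469)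 (nat_lit 194)))) (XT.nd (nat_lit 156) (nat_lit 0) (nat_lit 76) (XT.nd (nat_lit 78) (nat_lit 0) (nat_lit 0) (XT.lf (nat_lit 0) (nat_lit 7867678664) (nat_lit 1672) (nat_lit 10244308025) (nat_lit 1748) (nat_lit 8100599841) (nat_lit 343) (nat_lit 5) (nat_lit 365) (nat_lit 5) (nat_lit 366) (nat_lit 5) (nat_lit 478) (nat_lit 469) (nat_lit 193)) (XT.lf (nat_lit 76) (nat_lit 1632829124) (nat_lit 0) (nat_lit 7032053198) (nat_lit 1748) (nat_lit 17818800417) (nat_lit 344) (nat_lit 5) (nat_lit 343) (nat_lit 5) (nat_lit 366) (nat_lit 5) (nat_lit 479) (nat_lit 469) (nat_lit 192))) (XT.nd (nat_lit 78) (nat_lit 0) (nat_lit 0) (XT.lf (nat_lit 0) (nat_lit 9572557412) (nat_lit 1672) (nat_lit 12902218581) (nat_lit 1748) (nat_lit 4283536773) (nat_lit 344) (nat_lit 5) (nat_lit 366) (nat_lit 5) (nat_lit 367) (nat_lit 5) (nat_lit 480) (nat_lit 469) (nat_lit 191)) (XT.lf (nat_lit 0) (nat_lit 10542609917) (nat_lit 1672) (nat_lit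 762739910) (nat_lit 1748) (nat_lit 15732203482) (nat_lit 344) (nat_lit 5) (nat_lit 366) (nat_lit 5) (nat_lit 367) (nat_lit 5) (nat_lit 481) (nat_lit 469) (nat_lit 190))))) (XT.nd (nat_lit 234) (nat_lit 0) (nat_lit 76) (XT.nd (nat_lit 78) (nat_lit 0) (nat_lit 0) (XT.lf (nat_lit 0) (nat_lit 11607276782) (nat_lit 1672) (nat_lit 15549580567) (nat_lit 1748) (nat_lit 164019395) (nat_lit 345) (nat_lit 5) (nat_lit 367) (nat_lit 5) (nat_lit 368) (nat_lit 5) (nat_lit 482) (nat_lit 469) (nat_lit 189)) (XT.nd (nat_lit 78) (nat_lit 0) (nat_lit 0) (XT.lf (nat_lit 0) (nat_lit 12770999240) (nat_lit 1672) (nat_lit 3119886900) (nat_lit 1748) (nat_lit 11717427560) (nat_lit 345) (nat_lit 5) (nat_lit 367) (nat_lit 5) (nat_lit 368) (nat_lit 5) (nat_lit 483) (nat_lit 469) (nat_lit 188)) (XT.lf (nat_lit 76) (nat_lit 9683866103) (nat_lit 0) (nat_lit 4334788547) (nat_lit 1748) (nat_lit 13881633832) (nat_lit 346) (nat_lit 5) (nat_lit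 345) (nat_lit 5) (nat_lit 368) (nat_lit 5) (nat_lit 484) (nat_lit 469) (nat_lit 187)))) (XT.nd (nat_lit 156) (nat_lit 0) (nat_lit 76) (XT.nd (nat_lit 78) (nat_lit 0) (nat_lit 0) (XT.lf (nat_lit 0) (nat_lit 15358546187) (nat_lit 1672) (nat_lit 5461803892) (nat_lit 1748) (nat_lit 7376409230) (nat_lit 346) (nat_lit 5) (nat_lit 368) (nat_lit 5) (nat_lit 369) (nat_lit 5) (nat_lit 485) (nat_lit 469) (nat_lit 186)) (XT.lf (nat_lit 76) (nat_lit 7617556223) (nat_lit 0) (nat_lit 9183709632) (nat_lit 1748) (nat_lit 11696375259) (nat_lit 347) (nat_lit 5) (nat_lit 346) (nat_lit 5) (nat_lit 369) (nat_lit 5) (nat_lit 486) (nat_lit 469) (nat_lit 185))) (XT.nd (nat_lit 78) (nat_lit 0) (nat_lit 0) (XT.lf (nat_lit 0) (nat_lit 18325071733) (nat_lit 1672) (nat_lit 7790534443) (nat_lit 1748) (nat_lit 2687891868) (nat_lit 347) (nat_lit 5) (nat_lit 369) (nat_lit 5) (nat_lit 370) (nat_lit 5) (nat_lit 487) (nat_lit 469) (nat_lit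 184)) (XT.lf (nat_lit 76) (nat_lit 5571503313) (nat_lit 0) (nat_lit 14402785150) (nat_lit 1748) (nat_lit 9139287038) (nat_lit 348) (nat_lit 5) (nat_lit 347) (nat_lit 5) (nat_lit 370) (nat_lit 5) (nat_lit 488) (nat_lit 469) (nat_lit 183))))))) (XT.nd (nat_lit 58344) (nat_lit 0) (nat_lit 1216) (XT.nd (nat_lit 468) (nat_lit 0) (nat_lit 76) (XT.nd (nat_lit 234) (nat_lit 1596) (nat_lit 0) (XT.nd (nat_lit 78) (nat_lit 0) (nat_lit 76) (XT.lf (nat_lit 76) (nat_lit 19304839104) (nat_lit 0) (nat_lit 2401900907) (nat_lit 1748) (nat_lit 7722111529) (nat_lit 348) (nat_lit 5) (nat_lit 347) (nat_lit 5) (nat_lit 370) (nat_lit 5) (nat_lit 489) (nat_lit 469) (nat_lit 182)) (XT.nd (nat_lit 78) (nat_lit 0) (nat_lit 0) (XT.lf (nat_lit 76) (nat_lit 3543440040) (nat_lit 0) (nat_lit 20015302970) (nat_lit 1748) (nat_lit 6189994044) (nat_lit 349) (nat_lit 5) (nat_lit 348) (nat_lit 5) (nat_lit 371) (nat_lit 5) (nat_lit 490) (nat_lit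 469) (nat_lit 181)) (XT.lf (nat_lit 76) (nat_lit 17603807460) (nat_lit 0) (nat_lit 7925761642) (nat_lit 1748) (nat_lit 4543817479) (nat_lit 349) (nat_lit 5) (nat_lit 348) (nat_lit 5) (nat_lit 371) (nat_lit 5) (nat_lit 491) (nat_lit 469) (nat_lit 180)))) (XT.nd (nat_lit 78) (nat_lit 1748) (nat_lit 0) (XT.lf (nat_lit 76) (nat_lit 1530763252) (nat_lit 0) (nat_lit 26045675630) (nat_lit 1748) (nat_lit 2827359597) (nat_lit 350) (nat_lit 5) (nat_lit 349) (nat_lit 5) (nat_lit 372) (nat_lit 5) (nat_lit 492) (nat_lit 469) (nat_lit 179)) (XT.nd (nat_lit 78) (nat_lit 1748) (nat_lit 0) (XT.lf (nat_lit 76) (nat_lit 15925402919) (nat_lit 0) (nat_lit 13872775778) (nat_lit 1748) (nat_lit 939963152) (nat_lit 350) (nat_lit 5) (nat_lit 349) (nat_lit 5) (nat_lit 372) (nat_lit 5) (nat_lit 493) (nat_lit 469) (nat_lit 178)) (XT.lf (nat_lit 0) (nat_lit 970395360) (nat_lit 1748) (nat_lit 479181275) (nat_lit 1824) (nat_lit 29629506637)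 (nat_lit 326) (nat_lit 5) (nat_lit 349) (nat_lit 5) (nat_lit 350) (nat_lit 5) (nat_lit 494) (nat_lit 469) (nat_lit 177))))) (XT.nd (nat_lit 57564) (nat_lit 0) (nat_lit 988) (XT.nd (nat_lit 57408) (nat_lit 0) (nat_lit 912) (XT.lf (nat_lit 0) (nat_lit 3071060753) (nat_lit 1748) (nat_lit 17177288944) (nat_lit 76) (nat_lit 11175077625) (nat_lit 327) (nat_lit 5) (nat_lit 350) (nat_lit 5) (nat_lit 328) (nat_lit 5) (nat_lit 495) (nat_lit 469) (nat_lit 176)) (XT.nd (nat_lit 78) (nat_lit 0) (nat_lit 0) (XT.lf (nat_lit 0) (nat_lit 2071048739) (nat_lit 1748) (nat_lit 5070635578) (nat_lit 1748) (nat_lit 5070635578) (nat_lit 339) (nat_lit 3) (nat_lit 362) (nat_lit 3) (nat_lit 362) (nat_lit 5) (nat_lit 470) (nat_lit 470) (nat_lit 200)) (XT.lf (nat_lit 76) (nat_lit 649596296) (nat_lit 0) (nat_lit 3642400880) (nat_lit 1748) (nat_lit 20374612548) (nat_lit 340) (nat_lit 5) (nat_lit 339) (nat_lit 3) (nat_lit 362) (nat_lit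 5) (nat_lit 471) (nat_lit 470) (nat_lit 199)))) (XT.nd (nat_lit 156) (nat_lit 0) (nat_lit 76) (XT.nd (nat_lit 78) (nat_lit 0) (nat_lit 0) (XT.lf (nat_lit 0) (nat_lit 4557484560) (nat_lit 1672) (nat_lit 13167062100) (nat_lit 1748) (nat_lit 7186623404) (nat_lit 340) (nat_lit 5) (nat_lit 362) (nat_lit 5) (nat_lit 363) (nat_lit 5) (nat_lit 472) (nat_lit 470) (nat_lit 198)) (XT.lf (nat_lit 0) (nat_lit 4849721825) (nat_lit 1672) (nat_lit 2125685587) (nat_lit 1748) (nat_lit 18184788146) (nat_lit 340) (nat_lit 5) (nat_lit 362) (nat_lit 5) (nat_lit 363) (nat_lit 5) (nat_lit 473) (nat_lit 470) (nat_lit 197))) (XT.nd (nat_lit 78) (nat_lit 0) (nat_lit 0) (XT.lf (nat_lit 0) (nat_lit 5231577217) (nat_lit 1672) (nat_lit 16182862522) (nat_lit 1748) (nat_lit 3998089048) (nat_lit 341) (nat_lit 5) (nat_lit 363) (nat_lit 5) (nat_lit 364) (nat_lit 5) (nat_lit 474) (nat_lit 470) (nat_lit 196)) (XT.lf (nat_lit 0) (nat_lit 5679044245)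 (nat_lit 1672) (nat_lit 4876449365) (nat_lit 1748) (nat_lit 15113258225) (nat_lit 341) (nat_lit 5) (nat_lit 363) (nat_lit 5) (nat_lit 364) (nat_lit 5) (nat_lit 475) (nat_lit 470) (nat_lit 195)))))) (XT.nd (nat_lit 546) (nat_lit 0) (nat_lit 228) (XT.nd (nat_lit 234) (nat_lit 0) (nat_lit 76) (XT.nd (nat_lit 78) (nat_lit 0) (nat_lit 0) (XT.lf (nat_lit 0) (nat_lit 6180389826) (nat_lit 1672) (nat_lit 19189872547) (nat_lit 1748) (nat_lit 558940975) (nat_lit 342) (nat_lit 5) (nat_lit 364) (nat_lit 5) (nat_lit 365) (nat_lit 5) (nat_lit 476) (nat_lit 470) (nat_lit 194)) (XT.nd (nat_lit 78) (nat_lit 0) (nat_lit 0) (XT.lf (nat_lit 0) (nat_lit 6792124984) (nat_lit 1672) (nat_lit 7612298740) (nat_lit 1748) (nat_lit 11788435455) (nat_lit 342) (nat_lit 5) (nat_lit 364) (nat_lit 5) (nat_lit 365) (nat_lit 5) (nat_lit 477) (nat_lit 470) (nat_lit 193)) (XT.lf (nat_lit 76) (nat_lit 4251113206) (nat_lit 0) (nat_lit 3190149821)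 (nat_lit 1748) (nat_lit 19020024224) (nat_lit 343) (nat_lit 5) (nat_lit 342) (nat_lit 5) (nat_lit 365) (nat_lit 5) (nat_lit 478) (nat_lit 470) (nat_lit 192)))) (XT.nd (nat_lit 156) (nat_lit 0) (nat_lit 76) (XT.nd (nat_lit 78) (nat_lit 0) (nat_lit 0) (XT.lf (nat_lit 0) (nat_lit 8205970261) (nat_lit 1672) (nat_lit 10334488785) (nat_lit 1748) (nat_lit 8192575551) (nat_lit 343) (nat_lit 5) (nat_lit 365) (nat_lit 5) (nat_lit 366) (nat_lit 5) (nat_lit 479) (nat_lit 470) (nat_lit 191)) (XT.lf (nat_lit 76) (nat_lit 1779436466) (nat_lit 0) (nat_lit 7236873566) (nat_lit 1748) (nat_lit 17993302483) (nat_lit 344) (nat_lit 5) (nat_lit 343) (nat_lit 5) (nat_lit 366) (nat_lit 5) (nat_lit 480) (nat_lit 470) (nat_lit 190))) (XT.nd (nat_lit 78) (nat_lit 0) (nat_lit 0) (XT.lf (nat_lit 0) (nat_lit 9938237353) (nat_lit 1672) (nat_lit 13044467528) (nat_lit 1748) (nat_lit 4307111841) (nat_lit 344) (nat_lit 5) (nat_lit 366)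 (nat_lit 5) (nat_lit 367) (nat_lit 5) (nat_lit 481) (nat_lit 470) (nat_lit 189)) (XT.lf (nat_lit 0) (nat_lit 10924274658) (nat_lit 1672) (nat_lit 664469782) (nat_lit 1748) (nat_lit 15985969447) (nat_lit 344) (nat_lit 5) (nat_lit 366) (nat_lit 5) (nat_lit 367) (nat_lit 5) (nat_lit 482) (nat_lit 470) (nat_lit 188))))) (XT.nd (nat_lit 234) (nat_lit 0) (nat_lit 76) (XT.nd (nat_lit 78) (nat_lit 0) (nat_lit 0) (XT.lf (nat_lit 0) (nat_lit 12007258017) (nat_lit 1672) (nat_lit 15743899587) (nat_lit 1748) (nat_lit 112609138) (nat_lit 345) (nat_lit 5) (nat_lit 367) (nat_lit 5) (nat_lit 368) (nat_lit 5) (nat_lit 483) (nat_lit 470) (nat_lit 187)) (XT.nd (nat_lit 78) (nat_lit 0) (nat_lit 0) (XT.lf (nat_lit 0) (nat_lit 13190964029) (nat_lit 1672) (nat_lit 3067899745) (nat_lit 1748) (nat_lit 11898157832) (nat_lit 345) (nat_lit 5) (nat_lit 367) (nat_lit 5) (nat_lit 368) (nat_lit 5) (nat_lit 484) (nat_lit 470) (nat_lit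 186)) (XT.lf (nat_lit 76) (nat_lit 9991175785) (nat_lit 0) (nat_lit 4469908168) (nat_lit 1748) (nat_lit 13993804984) (nat_lit 346) (nat_lit 5) (nat_lit 345) (nat_lit 5) (nat_lit 368) (nat_lit 5) (nat_lit 485) (nat_lit 470) (nat_lit 185)))) (XT.nd (nat_lit 156) (nat_lit 0) (nat_lit 76) (XT.nd (nat_lit 78) (nat_lit 0) (nat_lit 0) (XT.lf (nat_lit 0) (nat_lit 15824287514) (nat_lit 1672) (nat_lit 5455988918) (nat_lit 1748) (nat_lit 7477085686) (nat_lit 346) (nat_lit 5) (nat_lit 368) (nat_lit 5) (nat_lit 369) (nat_lit 5) (nat_lit 486) (nat_lit 470) (nat_lit 184)) (XT.lf (nat_lit 76) (nat_lit 7884201485) (nat_lit 0) (nat_lit 9409292940) (nat_lit 1748) (nat_lit 11770817632) (nat_lit 347) (nat_lit 5) (nat_lit 346) (nat_lit 5) (nat_lit 369) (nat_lit 5) (nat_lit 487) (nat_lit 470) (nat_lit 183))) (XT.nd (nat_lit 78) (nat_lit 0) (nat_lit 0) (XT.lf (nat_lit 0) (nat_lit 18844446846) (nat_lit 1672) (nat_lit 7830807761)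 (nat_lit 1748) (nat_lit 2701101205) (nat_lit 347) (nat_lit 5) (nat_lit 369) (nat_lit 5) (nat_lit 370) (nat_lit 5) (nat_lit 488) (nat_lit 470) (nat_lit 182)) (XT.lf (nat_lit 76) (nat_lit 5797710635) (nat_lit 0) (nat_lit 14726684962) (nat_lit 1748) (nat_lit 9168287302) (nat_lit 348) (nat_lit 5) (nat_lit 347) (nat_lit 5) (nat_lit 370) (nat_lit 5) (nat_lit 489) (nat_lit 470) (nat_lit 181))))))))
noncomputable def xc253 : XT := (XT.nd (nat_lit 59592) (nat_lit 0) (nat_lit 0) (XT.nd (nat_lit 58500) (nat_lit 0) (nat_lit 228) (XT.nd (nat_lit 57954) (nat_lit 0) (nat_lit 0) (XT.nd (nat_lit 234) (nat_lit 608) (nat_lit 0) (XT.nd (nat_lit 78) (nat_lit 0) (nat_lit 76) (XT.lf (nat_lit 76) (nat_lit 19803462608) (nat_lit 0) (nat_lit 2485080208) (nat_lit 1748) (nat_lit 7725783684) (nat_lit 348) (nat_lit 5) (nat_lit 347) (nat_lit 5) (nat_lit 370) (nat_lit 5) (nat_lit 490) (nat_lit 470) (nat_lit 180)) (XT.nd (nat_lit 78)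 (nat_lit 0) (nat_lit 0) (XT.lf (nat_lit 76) (nat_lit 3729403576) (nat_lit 0) (nat_lit 20445810432) (nat_lit 1748) (nat_lit 6165446069) (nat_lit 349) (nat_lit 5) (nat_lit 348) (nat_lit 5) (nat_lit 371) (nat_lit 5) (nat_lit 491) (nat_lit 470) (nat_lit 179)) (XT.lf (nat_lit 76) (nat_lit 18068721585) (nat_lit 0) (nat_lit 8113886093) (nat_lit 1748) (nat_lit 4489254754) (nat_lit 349) (nat_lit 5) (nat_lit 348) (nat_lit 5) (nat_lit 371) (nat_lit 5) (nat_lit 492) (nat_lit 470) (nat_lit 178)))) (XT.nd (nat_lit 78) (nat_lit 760) (nat_lit 0) (XT.lf (nat_lit 76) (nat_lit 1676637313) (nat_lit 0) (nat_lit 26591544322) (nat_lit 1748) (nat_lit 2740748400) (nat_lit 350) (nat_lit 5) (nat_lit 349) (nat_lit 5) (nat_lit 372) (nat_lit 5) (nat_lit 493) (nat_lit 470) (nat_lit 177)) (XT.nd (nat_lit 57564) (nat_lit 760) (nat_lit 0) (XT.lf (nat_lit 76) (nat_lit 16356909797) (nat_lit 0) (nat_lit 14174697156) (nat_lit 1748) (nat_lit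 818411053) (nat_lit 350) (nat_lit 5) (nat_lit 349) (nat_lit 5) (nat_lit 372) (nat_lit 5) (nat_lit 494) (nat_lit 470) (nat_lit 176)) (XT.lf (nat_lit 0) (nat_lit 2216053894) (nat_lit 1748) (nat_lit 5119167259) (nat_lit 1748) (nat_lit 5119167259) (nat_lit 339) (nat_lit 3) (nat_lit 362) (nat_lit 3) (nat_lit 362) (nat_lit 5) (nat_lit 471) (nat_lit 471) (nat_lit 198))))) (XT.nd (nat_lit 234) (nat_lit 0) (nat_lit 152) (XT.nd (nat_lit 78) (nat_lit 0) (nat_lit 76) (XT.lf (nat_lit 76) (nat_lit 767654480) (nat_lit 0) (nat_lit 3813971034) (nat_lit 1748) (nat_lit 20574032405) (nat_lit 340) (nat_lit 5) (nat_lit 339) (nat_lit 3) (nat_lit 362) (nat_lit 5) (nat_lit 472) (nat_lit 471) (nat_lit 197)) (XT.nd (nat_lit 78) (nat_lit 0) (nat_lit 0) (XT.lf (nat_lit 0) (nat_lit 4847798394) (nat_lit 1672) (nat_lit 13322568806) (nat_lit 1748) (nat_lit 7234838835) (nat_lit 340) (nat_lit 5) (nat_lit 362) (nat_lit 5) (nat_lit 363)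 (nat_lit 5) (nat_lit 473) (nat_lit 471) (nat_lit 196)) (XT.lf (nat_lit 0) (nat_lit 5141975225) (nat_lit 1672) (nat_lit 2062479165) (nat_lit 1748) (nat_lit 18454839755) (nat_lit 340) (nat_lit 5) (nat_lit 362) (nat_lit 5) (nat_lit 363) (nat_lit 5) (nat_lit 474) (nat_lit 471) (nat_lit 195)))) (XT.nd (nat_lit 156) (nat_lit 0) (nat_lit 76) (XT.nd (nat_lit 78) (nat_lit 0) (nat_lit 0) (XT.lf (nat_lit 0) (nat_lit 5527755577) (nat_lit 1672) (nat_lit 16396891270) (nat_lit 1748) (nat_lit 3992105360) (nat_lit 341) (nat_lit 5) (nat_lit 363) (nat_lit 5) (nat_lit 364) (nat_lit 5) (nat_lit 475) (nat_lit 471) (nat_lit 194)) (XT.lf (nat_lit 0) (nat_lit 5980416125) (nat_lit 1672) (nat_lit 4866499427) (nat_lit 1748) (nat_lit 15331263126) (nat_lit 341) (nat_lit 5) (nat_lit 363) (nat_lit 5) (nat_lit 364) (nat_lit 5) (nat_lit 476) (nat_lit 471) (nat_lit 193))) (XT.nd (nat_lit 78) (nat_lit 0) (nat_lit 0) (XT.lf (nat_lit 0) (nat_lit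 6488293051) (nat_lit 1672) (nat_lit 19462506906) (nat_lit 1748) (nat_lit 493112948) (nat_lit 342) (nat_lit 5) (nat_lit 364) (nat_lit 5) (nat_lit 365) (nat_lit 5) (nat_lit 477) (nat_lit 471) (nat_lit 192)) (XT.lf (nat_lit 0) (nat_lit 7108649276) (nat_lit 1672) (nat_lit 7655561290) (nat_lit 1748) (nat_lit 11948707256) (nat_lit 342) (nat_lit 5) (nat_lit 364) (nat_lit 5) (nat_lit 365) (nat_lit 5) (nat_lit 478) (nat_lit 471) (nat_lit 191)))))) (XT.nd (nat_lit 546) (nat_lit 0) (nat_lit 228) (XT.nd (nat_lit 234) (nat_lit 0) (nat_lit 152) (XT.nd (nat_lit 78) (nat_lit 0) (nat_lit 76) (XT.lf (nat_lit 76) (nat_lit 4444401898) (nat_lit 0) (nat_lit 3323528339) (nat_lit 1748) (nat_lit 19218844642) (nat_lit 343) (nat_lit 5) (nat_lit 342) (nat_lit 5) (nat_lit 365) (nat_lit 5) (nat_lit 479) (nat_lit 471) (nat_lit 190)) (XT.nd (nat_lit 78) (nat_lit 0) (nat_lit 0) (XT.lf (nat_lit 0) (nat_lit 8544001646) (nat_lit 1672) (nat_lit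 10430927310) (nat_lit 1748) (nat_lit 8289110369) (nat_lit 343) (nat_lit 5) (nat_lit 365) (nat_lit 5) (nat_lit 366) (nat_lit 5) (nat_lit 480) (nat_lit 471) (nat_lit 189)) (XT.lf (nat_lit 76) (nat_lit 1924551109) (nat_lit 0) (nat_lit 7443298180) (nat_lit 1748) (nat_lit 18178356977) (nat_lit 344) (nat_lit 5) (nat_lit 343) (nat_lit 5) (nat_lit 366) (nat_lit 5) (nat_lit 481) (nat_lit 471) (nat_lit 188)))) (XT.nd (nat_lit 156) (nat_lit 0) (nat_lit 76) (XT.nd (nat_lit 78) (nat_lit 0) (nat_lit 0) (XT.lf (nat_lit 0) (nat_lit 10304465377) (nat_lit 1672) (nat_lit 13194057932) (nat_lit 1748) (nat_lit 4333569662) (nat_lit 344) (nat_lit 5) (nat_lit 366) (nat_lit 5) (nat_lit 367) (nat_lit 5) (nat_lit 482) (nat_lit 471) (nat_lit 187)) (XT.lf (nat_lit 0) (nat_lit 11306939834) (nat_lit 1672) (nat_lit 568642563) (nat_lit 1748) (nat_lit 16247174702) (nat_lit 344) (nat_lit 5) (nat_lit 366) (nat_lit 5) (nat_lit 367) (nat_lit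 5) (nat_lit 483) (nat_lit 471) (nat_lit 186))) (XT.nd (nat_lit 78) (nat_lit 0) (nat_lit 0) (XT.lf (nat_lit 0) (nat_lit 12408721612) (nat_lit 1672) (nat_lit 15946635527) (nat_lit 1748) (nat_lit 62294380) (nat_lit 345) (nat_lit 5) (nat_lit 367) (nat_lit 5) (nat_lit 368) (nat_lit 5) (nat_lit 484) (nat_lit 471) (nat_lit 185)) (XT.lf (nat_lit 0) (nat_lit 13612938637) (nat_lit 1672) (nat_lit 3019314552) (nat_lit 1748) (nat_lit 12084584772) (nat_lit 345) (nat_lit 5) (nat_lit 367) (nat_lit 5) (nat_lit 368) (nat_lit 5) (nat_lit 485) (nat_lit 471) (nat_lit 184))))) (XT.nd (nat_lit 234) (nat_lit 0) (nat_lit 152) (XT.nd (nat_lit 78) (nat_lit 0) (nat_lit 76) (XT.lf (nat_lit 76) (nat_lit 10300219179) (nat_lit 0) (nat_lit 4605849825) (nat_lit 1748) (nat_lit 14114644632) (nat_lit 346) (nat_lit 5) (nat_lit 345) (nat_lit 5) (nat_lit 368) (nat_lit 5) (nat_lit 486) (nat_lit 471) (nat_lit 183)) (XT.nd (nat_lit 78) (nat_lit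 0) (nat_lit 0) (XT.lf (nat_lit 0) (nat_lit 16293186186) (nat_lit 1672) (nat_lit 5454525216) (nat_lit 1748) (nat_lit 7581594980) (nat_lit 346) (nat_lit 5) (nat_lit 368) (nat_lit 5) (nat_lit 369) (nat_lit 5) (nat_lit 487) (nat_lit 471) (nat_lit 182)) (XT.lf (nat_lit 76) (nat_lit 8151741472) (nat_lit 0) (nat_lit 9637760533) (nat_lit 1748) (nat_lit 11852941856) (nat_lit 347) (nat_lit 5) (nat_lit 346) (nat_lit 5) (nat_lit 369) (nat_lit 5) (nat_lit 488) (nat_lit 471) (nat_lit 181)))) (XT.nd (nat_lit 156) (nat_lit 0) (nat_lit 0) (XT.nd (nat_lit 78) (nat_lit 0) (nat_lit 0) (XT.lf (nat_lit 0) (nat_lit 19368273190) (nat_lit 1672) (nat_lit 7876373003) (nat_lit 1748) (nat_lit 2716149277) (nat_lit 347) (nat_lit 5) (nat_lit 369) (nat_lit 5) (nat_lit 370) (nat_lit 5) (nat_lit 489) (nat_lit 471) (nat_lit 180)) (XT.lf (nat_lit 76) (nat_lit 6023985163) (nat_lit 0) (nat_lit 15055670900) (nat_lit 1748) (nat_lit 9203839248)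 (nat_lit 348) (nat_lit 5) (nat_lit 347) (nat_lit 5) (nat_lit 370) (nat_lit 5) (nat_lit 490) (nat_lit 471) (nat_lit 179))) (XT.nd (nat_lit 78) (nat_lit 0) (nat_lit 76) (XT.lf (nat_lit 76) (nat_lit 20307689031) (nat_lit 0) (nat_lit 2568558517) (nat_lit 1748) (nat_lit 7735383868) (nat_lit 348) (nat_lit 5) (nat_lit 347) (nat_lit 5) (nat_lit 370) (nat_lit 5) (nat_lit 491) (nat_lit 471) (nat_lit 178)) (XT.lf (nat_lit 76) (nat_lit 3914617115) (nat_lit 0) (nat_lit 20883755286) (nat_lit 1748) (nat_lit 6146167662) (nat_lit 349) (nat_lit 5) (nat_lit 348) (nat_lit 5) (nat_lit 371) (nat_lit 5) (nat_lit 492) (nat_lit 471) (nat_lit 177))))))) (XT.nd (nat_lit 58734) (nat_lit 0) (nat_lit 0) (XT.nd (nat_lit 58188) (nat_lit 0) (nat_lit 228) (XT.nd (nat_lit 57876) (nat_lit 0) (nat_lit 76) (XT.nd (nat_lit 57720) (nat_lit 684) (nat_lit 0) (XT.lf (nat_lit 76) (nat_lit 18538552357) (nat_lit 0) (nat_lit 8304623271) (nat_lit 1748)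 (nat_lit 4439248351) (nat_lit 349) (nat_lit 5) (nat_lit 348) (nat_lit 5) (nat_lit 371) (nat_lit 5) (nat_lit 493) (nat_lit 471) (nat_lit 176)) (XT.nd (nat_lit 78) (nat_lit 0) (nat_lit 0) (XT.lf (nat_lit 0) (nat_lit 2359936852) (nat_lit 1748) (nat_lit 5170723008) (nat_lit 1748) (nat_lit 5170723008) (nat_lit 339) (nat_lit 3) (nat_lit 362) (nat_lit 3) (nat_lit 362) (nat_lit 5) (nat_lit 472) (nat_lit 472) (nat_lit 196)) (XT.lf (nat_lit 76) (nat_lit 883993978) (nat_lit 0) (nat_lit 3985139091) (nat_lit 1748) (nat_lit 20785520364) (nat_lit 340) (nat_lit 5) (nat_lit 339) (nat_lit 3) (nat_lit 362) (nat_lit 5) (nat_lit 473) (nat_lit 472) (nat_lit 195)))) (XT.nd (nat_lit 156) (nat_lit 0) (nat_lit 76) (XT.nd (nat_lit 78) (nat_lit 0) (nat_lit 0) (XT.lf (nat_lit 0) (nat_lit 5136184718) (nat_lit 1672) (nat_lit 13485372992) (nat_lit 1748) (nat_lit 7287727617) (nat_lit 340) (nat_lit 5) (nat_lit 362) (nat_lit 5) (nat_lit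 363) (nat_lit 5) (nat_lit 474) (nat_lit 472) (nat_lit 194)) (XT.lf (nat_lit 0) (nat_lit 5432491549) (nat_lit 1672) (nat_lit 2002113856) (nat_lit 1748) (nat_lit 18733928712) (nat_lit 340) (nat_lit 5) (nat_lit 362) (nat_lit 5) (nat_lit 363) (nat_lit 5) (nat_lit 475) (nat_lit 472) (nat_lit 193))) (XT.nd (nat_lit 78) (nat_lit 0) (nat_lit 0) (XT.lf (nat_lit 0) (nat_lit 5822419507) (nat_lit 1672) (nat_lit 16619457601) (nat_lit 1748) (nat_lit 3989339365) (nat_lit 341) (nat_lit 5) (nat_lit 363) (nat_lit 5) (nat_lit 364) (nat_lit 5) (nat_lit 476) (nat_lit 472) (nat_lit 192)) (XT.lf (nat_lit 0) (nat_lit 6280523290) (nat_lit 1672) (nat_lit 4860524029) (nat_lit 1748) (nat_lit 15556900053) (nat_lit 341) (nat_lit 5) (nat_lit 363) (nat_lit 5) (nat_lit 364) (nat_lit 5) (nat_lit 477) (nat_lit 472) (nat_lit 191))))) (XT.nd (nat_lit 234) (nat_lit 0) (nat_lit 76) (XT.nd (nat_lit 78) (nat_lit 0) (nat_lit 0) (XT.lf (nat_lit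 0) (nat_lit 6795197924) (nat_lit 1672) (nat_lit 19744910550) (nat_lit 1748) (nat_lit 428958631) (nat_lit 342) (nat_lit 5) (nat_lit 364) (nat_lit 5) (nat_lit 365) (nat_lit 5) (nat_lit 478) (nat_lit 472) (nat_lit 190)) (XT.nd (nat_lit 78) (nat_lit 0) (nat_lit 0) (XT.lf (nat_lit 0) (nat_lit 7424487960) (nat_lit 1672) (nat_lit 7703921051) (nat_lit 1748) (nat_lit 12115116131) (nat_lit 342) (nat_lit 5) (nat_lit 364) (nat_lit 5) (nat_lit 365) (nat_lit 5) (nat_lit 479) (nat_lit 472) (nat_lit 189)) (XT.lf (nat_lit 76) (nat_lit 4637352246) (nat_lit 0) (nat_lit 3456872726) (nat_lit 1748) (nat_lit 19428692443) (nat_lit 343) (nat_lit 5) (nat_lit 342) (nat_lit 5) (nat_lit 365) (nat_lit 5) (nat_lit 480) (nat_lit 472) (nat_lit 188)))) (XT.nd (nat_lit 156) (nat_lit 0) (nat_lit 76) (XT.nd (nat_lit 78) (nat_lit 0) (nat_lit 0) (XT.lf (nat_lit 0) (nat_lit 8882040445) (nat_lit 1672) (nat_lit 10533575797) (nat_lit 1748) (nat_lit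 8390189873) (nat_lit 343) (nat_lit 5) (nat_lit 365) (nat_lit 5) (nat_lit 366) (nat_lit 5) (nat_lit 481) (nat_lit 472) (nat_lit 187)) (XT.lf (nat_lit 76) (nat_lit 2068315019) (nat_lit 0) (nat_lit 7651455900) (nat_lit 1748) (nat_lit 18373900707) (nat_lit 344) (nat_lit 5) (nat_lit 343) (nat_lit 5) (nat_lit 366) (nat_lit 5) (nat_lit 482) (nat_lit 472) (nat_lit 186))) (XT.nd (nat_lit 78) (nat_lit 0) (nat_lit 0) (XT.lf (nat_lit 0) (nat_lit 10671515158) (nat_lit 1672) (nat_lit 13350962017) (nat_lit 1748) (nat_lit 4362874257) (nat_lit 344) (nat_lit 5) (nat_lit 366) (nat_lit 5) (nat_lit 367) (nat_lit 5) (nat_lit 483) (nat_lit 472) (nat_lit 185)) (XT.lf (nat_lit 0) (nat_lit 11690883016) (nat_lit 1672) (nat_lit 475135930) (nat_lit 1748) (nat_lit 16515876237) (nat_lit 344) (nat_lit 5) (nat_lit 366) (nat_lit 5) (nat_lit 367) (nat_lit 5) (nat_lit 484) (nat_lit 472) (nat_lit 184)))))) (XT.nd (nat_lit 546) (nat_lit 456)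 (nat_lit 0) (XT.nd (nat_lit 234) (nat_lit 0) (nat_lit 76) (XT.nd (nat_lit 78) (nat_lit 0) (nat_lit 0) (XT.lf (nat_lit 0) (nat_lit 12811950287) (nat_lit 1672) (nat_lit 16157780799) (nat_lit 1748) (nat_lit 13014566) (nat_lit 345) (nat_lit 5) (nat_lit 367) (nat_lit 5) (nat_lit 368) (nat_lit 5) (nat_lit 485) (nat_lit 472) (nat_lit 183)) (XT.nd (nat_lit 78) (nat_lit 0) (nat_lit 0) (XT.lf (nat_lit 0) (nat_lit 14037211374) (nat_lit 1672) (nat_lit 2974026883) (nat_lit 1748) (nat_lit 12276741466) (nat_lit 345) (nat_lit 5) (nat_lit 367) (nat_lit 5) (nat_lit 368) (nat_lit 5) (nat_lit 486) (nat_lit 472) (nat_lit 182)) (XT.lf (nat_lit 76) (nat_lit 10611202299) (nat_lit 0) (nat_lit 4742702975) (nat_lit 1748) (nat_lit 14244076652) (nat_lit 346) (nat_lit 5) (nat_lit 345) (nat_lit 5) (nat_lit 368) (nat_lit 5) (nat_lit 487) (nat_lit 472) (nat_lit 181)))) (XT.nd (nat_lit 156) (nat_lit 0) (nat_lit 76) (XT.nd (nat_lit 78)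 (nat_lit 0) (nat_lit 0) (XT.lf (nat_lit 0) (nat_lit 16765544452) (nat_lit 1672) (nat_lit 5457326332) (nat_lit 1748) (nat_lit 7689943125) (nat_lit 346) (nat_lit 5) (nat_lit 368) (nat_lit 5) (nat_lit 369) (nat_lit 5) (nat_lit 488) (nat_lit 472) (nat_lit 180)) (XT.lf (nat_lit 76) (nat_lit 8420366417) (nat_lit 0) (nat_lit 9869233289) (nat_lit 1748) (nat_lit 11942661083) (nat_lit 347) (nat_lit 5) (nat_lit 346) (nat_lit 5) (nat_lit 369) (nat_lit 5) (nat_lit 489) (nat_lit 472) (nat_lit 179))) (XT.nd (nat_lit 78) (nat_lit 0) (nat_lit 0) (XT.lf (nat_lit 0) (nat_lit 19896870302) (nat_lit 1672) (nat_lit 7927161793) (nat_lit 1748) (nat_lit 2733011716) (nat_lit 347) (nat_lit 5) (nat_lit 369) (nat_lit 5) (nat_lit 370) (nat_lit 5) (nat_lit 490) (nat_lit 472) (nat_lit 178)) (XT.lf (nat_lit 76) (nat_lit 6250501309) (nat_lit 0) (nat_lit 15389898734) (nat_lit 1748) (nat_lit 9245842023) (nat_lit 348) (nat_lit 5) (nat_lit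 347) (nat_lit 5) (nat_lit 370) (nat_lit 5) (nat_lit 491) (nat_lit 472) (nat_lit 177))))) (XT.nd (nat_lit 57954) (nat_lit 0) (nat_lit 0) (XT.nd (nat_lit 78) (nat_lit 608) (nat_lit 0) (XT.lf (nat_lit 76) (nat_lit 20817800109) (nat_lit 0) (nat_lit 2652394801) (nat_lit 1748) (nat_lit 7750803300) (nat_lit 348) (nat_lit 5) (nat_lit 347) (nat_lit 5) (nat_lit 370) (nat_lit 5) (nat_lit 492) (nat_lit 472) (nat_lit 176)) (XT.nd (nat_lit 57798) (nat_lit 684) (nat_lit 0) (XT.lf (nat_lit 76) (nat_lit 4099239203) (nat_lit 0) (nat_lit 21329331819) (nat_lit 1748) (nat_lit 6132040527) (nat_lit 349) (nat_lit 5) (nat_lit 348) (nat_lit 5) (nat_lit 371) (nat_lit 5) (nat_lit 493) (nat_lit 472) (nat_lit 175)) (XT.lf (nat_lit 0) (nat_lit 2502831360) (nat_lit 1748) (nat_lit 5225283570) (nat_lit 1748) (nat_lit 5225283570) (nat_lit 339) (nat_lit 3) (nat_lit 362) (nat_lit 3) (nat_lit 362) (nat_lit 5) (nat_lit 473) (nat_lit 473) (nat_lit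 194)))) (XT.nd (nat_lit 156) (nat_lit 0) (nat_lit 76) (XT.nd (nat_lit 78) (nat_lit 0) (nat_lit 76) (XT.lf (nat_lit 76) (nat_lit 998738839) (nat_lit 0) (nat_lit 4156045867) (nat_lit 1748) (nat_lit 21009004041) (nat_lit 340) (nat_lit 5) (nat_lit 339) (nat_lit 3) (nat_lit 362) (nat_lit 5) (nat_lit 474) (nat_lit 473) (nat_lit 193)) (XT.lf (nat_lit 0) (nat_lit 5422905295) (nat_lit 1672) (nat_lit 13655458009) (nat_lit 1748) (nat_lit 7345239191) (nat_lit 340) (nat_lit 5) (nat_lit 362) (nat_lit 5) (nat_lit 363) (nat_lit 5) (nat_lit 475) (nat_lit 473) (nat_lit 192))) (XT.nd (nat_lit 78) (nat_lit 0) (nat_lit 76) (XT.lf (nat_lit 0) (nat_lit 5721530481) (nat_lit 1672) (nat_lit 1944487071) (nat_lit 1748) (nat_lit 19022094563) (nat_lit 340) (nat_lit 5) (nat_lit 362) (nat_lit 5) (nat_lit 363) (nat_lit 5) (nat_lit 476) (nat_lit 473) (nat_lit 191)) (XT.lf (nat_lit 0) (nat_lit 6115827547) (nat_lit 1672) (nat_lit 16850566962)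 (nat_lit 1748) (nat_lit 3989725824) (nat_lit 341) (nat_lit 5) (nat_lit 363) (nat_lit 5) (nat_lit 364) (nat_lit 5) (nat_lit 477) (nat_lit 473) (nat_lit 190))))))))
noncomputable def xc254 : XT := (XT.nd (nat_lit 59982) (nat_lit 0) (nat_lit 0) (XT.nd (nat_lit 1014) (nat_lit 152) (nat_lit 0) (XT.nd (nat_lit 468) (nat_lit 0) (nat_lit 228) (XT.nd (nat_lit 234) (nat_lit 0) (nat_lit 76) (XT.nd (nat_lit 78) (nat_lit 0) (nat_lit 76) (XT.lf (nat_lit 0) (nat_lit 6579623607) (nat_lit 1672) (nat_lit 4858440597) (nat_lit 1748) (nat_lit 15790194594) (nat_lit 341) (nat_lit 5) (nat_lit 363) (nat_lit 5) (nat_lit 364) (nat_lit 5) (nat_lit 478) (nat_lit 473) (nat_lit 189)) (XT.nd (nat_lit 78) (nat_lit 0) (nat_lit 0) (XT.lf (nat_lit 0) (nat_lit 7101362372) (nat_lit 1672) (nat_lit 20037111246) (nat_lit 1748) (nat_lit 366395382) (nat_lit 342) (nat_lit 5) (nat_lit 364) (nat_lit 5) (nat_lit 365) (nat_lit 5) (nat_lit 479) (nat_lit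 473) (nat_lit 188)) (XT.lf (nat_lit 0) (nat_lit 7739899767) (nat_lit 1672) (nat_lit 7757315634) (nat_lit 1748) (nat_lit 12287670981) (nat_lit 342) (nat_lit 5) (nat_lit 364) (nat_lit 5) (nat_lit 365) (nat_lit 5) (nat_lit 480) (nat_lit 473) (nat_lit 187)))) (XT.nd (nat_lit 78) (nat_lit 0) (nat_lit 76) (XT.lf (nat_lit 76) (nat_lit 4830120735) (nat_lit 0) (nat_lit 3590287208) (nat_lit 1748) (nat_lit 19649514378) (nat_lit 343) (nat_lit 5) (nat_lit 342) (nat_lit 5) (nat_lit 365) (nat_lit 5) (nat_lit 481) (nat_lit 473) (nat_lit 186)) (XT.nd (nat_lit 78) (nat_lit 0) (nat_lit 0) (XT.lf (nat_lit 0) (nat_lit 9220349041) (nat_lit 1672) (nat_lit 10642392200) (nat_lit 1748) (nat_lit 8495803452) (nat_lit 343) (nat_lit 5) (nat_lit 365) (nat_lit 5) (nat_lit 366) (nat_lit 5) (nat_lit 482) (nat_lit 473) (nat_lit 185)) (XT.lf (nat_lit 76) (nat_lit 2210866333) (nat_lit 0) (nat_lit 7861474403) (nat_lit 1748) (nat_lit 18579879865)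 (nat_lit 344) (nat_lit 5) (nat_lit 343) (nat_lit 5) (nat_lit 366) (nat_lit 5) (nat_lit 483) (nat_lit 473) (nat_lit 184))))) (XT.nd (nat_lit 234) (nat_lit 0) (nat_lit 76) (XT.nd (nat_lit 78) (nat_lit 0) (nat_lit 0) (XT.lf (nat_lit 0) (nat_lit 11039655643) (nat_lit 1672) (nat_lit 13515158234) (nat_lit 1748) (nat_lit 4394992567) (nat_lit 344) (nat_lit 5) (nat_lit 366) (nat_lit 5) (nat_lit 367) (nat_lit 5) (nat_lit 484) (nat_lit 473) (nat_lit 183)) (XT.nd (nat_lit 78) (nat_lit 0) (nat_lit 0) (XT.lf (nat_lit 0) (nat_lit 12076377325) (nat_lit 1672) (nat_lit 383831763) (nat_lit 1748) (nat_lit 16792135747) (nat_lit 344) (nat_lit 5) (nat_lit 366) (nat_lit 5) (nat_lit 367) (nat_lit 5) (nat_lit 485) (nat_lit 473) (nat_lit 182)) (XT.lf (nat_lit 76) (nat_lit 13181696914) (nat_lit 0) (nat_lit 35757840) (nat_lit 1748) (nat_lit 16341808816) (nat_lit 345) (nat_lit 5) (nat_lit 344) (nat_lit 5) (nat_lit 367) (nat_lit 5)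 (nat_lit 486) (nat_lit 473) (nat_lit 181)))) (XT.nd (nat_lit 156) (nat_lit 0) (nat_lit 76) (XT.nd (nat_lit 78) (nat_lit 0) (nat_lit 0) (XT.lf (nat_lit 0) (nat_lit 14464066678) (nat_lit 1672) (nat_lit 2931936909) (nat_lit 1748) (nat_lit 12474664798) (nat_lit 345) (nat_lit 5) (nat_lit 367) (nat_lit 5) (nat_lit 368) (nat_lit 5) (nat_lit 487) (nat_lit 473) (nat_lit 180)) (XT.lf (nat_lit 76) (nat_lit 10924328629) (nat_lit 0) (nat_lit 4880556028) (nat_lit 1748) (nat_lit 14382033087) (nat_lit 346) (nat_lit 5) (nat_lit 345) (nat_lit 5) (nat_lit 368) (nat_lit 5) (nat_lit 488) (nat_lit 473) (nat_lit 179))) (XT.nd (nat_lit 78) (nat_lit 0) (nat_lit 0) (XT.lf (nat_lit 0) (nat_lit 17241661321) (nat_lit 1672) (nat_lit 5464310817) (nat_lit 1748) (nat_lit 7802138993) (nat_lit 346) (nat_lit 5) (nat_lit 368) (nat_lit 5) (nat_lit 369) (nat_lit 5) (nat_lit 489) (nat_lit 473) (nat_lit 178)) (XT.lf (nat_lit 76) (nat_lit 8690263669)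 (nat_lit 0) (nat_lit 10103832050) (nat_lit 1748) (nat_lit 12039896072) (nat_lit 347) (nat_lit 5) (nat_lit 346) (nat_lit 5) (nat_lit 369) (nat_lit 5) (nat_lit 490) (nat_lit 473) (nat_lit 177)))))) (XT.nd (nat_lit 58422) (nat_lit 0) (nat_lit 152) (XT.nd (nat_lit 58110) (nat_lit 0) (nat_lit 0) (XT.nd (nat_lit 78) (nat_lit 608) (nat_lit 0) (XT.lf (nat_lit 0) (nat_lit 20430555159) (nat_lit 1672) (nat_lit 7983111150) (nat_lit 1748) (nat_lit 2751666042) (nat_lit 347) (nat_lit 5) (nat_lit 369) (nat_lit 5) (nat_lit 370) (nat_lit 5) (nat_lit 491) (nat_lit 473) (nat_lit 176)) (XT.nd (nat_lit 57954) (nat_lit 608) (nat_lit 0) (XT.lf (nat_lit 76) (nat_lit 6477430254) (nat_lit 0) (nat_lit 15729525252) (nat_lit 1748) (nat_lit 9294201761) (nat_lit 348) (nat_lit 5) (nat_lit 347) (nat_lit 5) (nat_lit 370) (nat_lit 5) (nat_lit 492) (nat_lit 473) (nat_lit 175)) (XT.lf (nat_lit 0) (nat_lit 2644867775) (nat_lit 1748) (nat_lit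 5282832399) (nat_lit 1748) (nat_lit 5282832399) (nat_lit 339) (nat_lit 3) (nat_lit 362) (nat_lit 3) (nat_lit 362) (nat_lit 5) (nat_lit 474) (nat_lit 474) (nat_lit 192)))) (XT.nd (nat_lit 156) (nat_lit 0) (nat_lit 76) (XT.nd (nat_lit 78) (nat_lit 0) (nat_lit 76) (XT.lf (nat_lit 76) (nat_lit 1112009447) (nat_lit 0) (nat_lit 4326829217) (nat_lit 1748) (nat_lit 21244421790) (nat_lit 340) (nat_lit 5) (nat_lit 339) (nat_lit 3) (nat_lit 362) (nat_lit 5) (nat_lit 475) (nat_lit 474) (nat_lit 191)) (XT.lf (nat_lit 0) (nat_lit 5708215460) (nat_lit 1672) (nat_lit 13832813187) (nat_lit 1748) (nat_lit 7407327579) (nat_lit 340) (nat_lit 5) (nat_lit 362) (nat_lit 5) (nat_lit 363) (nat_lit 5) (nat_lit 476) (nat_lit 474) (nat_lit 190))) (XT.nd (nat_lit 78) (nat_lit 0) (nat_lit 76) (XT.lf (nat_lit 0) (nat_lit 6009345462) (nat_lit 1672) (nat_lit 1889500359) (nat_lit 1748) (nat_lit 19319383125) (nat_lit 340) (nat_lit 5) (nat_lit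 362) (nat_lit 5) (nat_lit 363) (nat_lit 5) (nat_lit 477) (nat_lit 474) (nat_lit 189)) (XT.lf (nat_lit 0) (nat_lit 6408232188) (nat_lit 1672) (nat_lit 17090231328) (nat_lit 1748) (nat_lit 3993203223) (nat_lit 341) (nat_lit 5) (nat_lit 363) (nat_lit 5) (nat_lit 364) (nat_lit 5) (nat_lit 478) (nat_lit 474) (nat_lit 188))))) (XT.nd (nat_lit 234) (nat_lit 0) (nat_lit 76) (XT.nd (nat_lit 78) (nat_lit 0) (nat_lit 76) (XT.lf (nat_lit 0) (nat_lit 6877969109) (nat_lit 1672) (nat_lit 4860171200) (nat_lit 1748) (nat_lit 16031177783) (nat_lit 341) (nat_lit 5) (nat_lit 363) (nat_lit 5) (nat_lit 364) (nat_lit 5) (nat_lit 479) (nat_lit 474) (nat_lit 187)) (XT.nd (nat_lit 78) (nat_lit 0) (nat_lit 0) (XT.lf (nat_lit 0) (nat_lit 7407038685) (nat_lit 1672) (nat_lit 20339143826) (nat_lit 1748) (nat_lit 305343414) (nat_lit 342) (nat_lit 5) (nat_lit 364) (nat_lit 5) (nat_lit 365) (nat_lit 5) (nat_lit 480) (nat_lit 474) (nat_lit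 186)) (XT.lf (nat_lit 0) (nat_lit 8055138023) (nat_lit 1672) (nat_lit 7815687785) (nat_lit 1748) (nat_lit 12466385307) (nat_lit 342) (nat_lit 5) (nat_lit 364) (nat_lit 5) (nat_lit 365) (nat_lit 5) (nat_lit 481) (nat_lit 474) (nat_lit 185)))) (XT.nd (nat_lit 156) (nat_lit 0) (nat_lit 76) (XT.nd (nat_lit 78) (nat_lit 0) (nat_lit 76) (XT.lf (nat_lit 76) (nat_lit 5022860640) (nat_lit 0) (nat_lit 3723874025) (nat_lit 1748) (nat_lit 19881266763) (nat_lit 343) (nat_lit 5) (nat_lit 342) (nat_lit 5) (nat_lit 365) (nat_lit 5) (nat_lit 482) (nat_lit 474) (nat_lit 184)) (XT.lf (nat_lit 0) (nat_lit 9559184882) (nat_lit 1672) (nat_lit 10757340089) (nat_lit 1748) (nat_lit 8605944225) (nat_lit 343) (nat_lit 5) (nat_lit 365) (nat_lit 5) (nat_lit 366) (nat_lit 5) (nat_lit 483) (nat_lit 474) (nat_lit 183))) (XT.nd (nat_lit 78) (nat_lit 0) (nat_lit 76) (XT.lf (nat_lit 76) (nat_lit 2352339536) (nat_lit 0) (nat_lit 8073480308)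 (nat_lit 1748) (nat_lit 18796249804) (nat_lit 344) (nat_lit 5) (nat_lit 343) (nat_lit 5) (nat_lit 366) (nat_lit 5) (nat_lit 484) (nat_lit 474) (nat_lit 182)) (XT.lf (nat_lit 0) (nat_lit 11409151353) (nat_lit 1672) (nat_lit 13686631118) (nat_lit 1748) (nat_lit 4429894364) (nat_lit 344) (nat_lit 5) (nat_lit 366) (nat_lit 5) (nat_lit 367) (nat_lit 5) (nat_lit 485) (nat_lit 474) (nat_lit 181))))))) (XT.nd (nat_lit 59124) (nat_lit 0) (nat_lit 0) (XT.nd (nat_lit 58578) (nat_lit 0) (nat_lit 0) (XT.nd (nat_lit 234) (nat_lit 380) (nat_lit 0) (XT.nd (nat_lit 78) (nat_lit 0) (nat_lit 0) (XT.lf (nat_lit 0) (nat_lit 12463691732) (nat_lit 1672) (nat_lit 294615967) (nat_lit 1748) (nat_lit 17076019585) (nat_lit 344) (nat_lit 5) (nat_lit 366) (nat_lit 5) (nat_lit 367) (nat_lit 5) (nat_lit 486) (nat_lit 474) (nat_lit 180)) (XT.nd (nat_lit 78) (nat_lit 0) (nat_lit 76) (XT.lf (nat_lit 76) (nat_lit 13541585834) (nat_lit 0)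 (nat_lit 83771261) (nat_lit 1748) (nat_lit 16522074888) (nat_lit 345) (nat_lit 5) (nat_lit 344) (nat_lit 5) (nat_lit 367) (nat_lit 5) (nat_lit 487) (nat_lit 474) (nat_lit 179)) (XT.lf (nat_lit 0) (nat_lit 14893785417) (nat_lit 1672) (nat_lit 2892949243) (nat_lit 1748) (nat_lit 12678395409) (nat_lit 345) (nat_lit 5) (nat_lit 367) (nat_lit 5) (nat_lit 368) (nat_lit 5) (nat_lit 488) (nat_lit 474) (nat_lit 178)))) (XT.nd (nat_lit 156) (nat_lit 456) (nat_lit 0) (XT.nd (nat_lit 78) (nat_lit 0) (nat_lit 76) (XT.lf (nat_lit 76) (nat_lit 11239799328) (nat_lit 0) (nat_lit 5019496439) (nat_lit 1748) (nat_lit 14528453931) (nat_lit 346) (nat_lit 5) (nat_lit 345) (nat_lit 5) (nat_lit 368) (nat_lit 5) (nat_lit 489) (nat_lit 474) (nat_lit 177)) (XT.lf (nat_lit 0) (nat_lit 17721832860) (nat_lit 1672) (nat_lit 5475402068) (nat_lit 1748) (nat_lit 7918194274) (nat_lit 346) (nat_lit 5) (nat_lit 368) (nat_lit 5) (nat_lit 369)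 (nat_lit 5) (nat_lit 490) (nat_lit 474) (nat_lit 176))) (XT.nd (nat_lit 58110) (nat_lit 532) (nat_lit 0) (XT.lf (nat_lit 76) (nat_lit 8961617888) (nat_lit 0) (nat_lit 10341677717) (nat_lit 1748) (nat_lit 12144574970) (nat_lit 347) (nat_lit 5) (nat_lit 346) (nat_lit 5) (nat_lit 369) (nat_lit 5) (nat_lit 491) (nat_lit 474) (nat_lit 175)) (XT.lf (nat_lit 0) (nat_lit 2786173231) (nat_lit 1748) (nat_lit 5343355597) (nat_lit 1748) (nat_lit 5343355597) (nat_lit 339) (nat_lit 3) (nat_lit 362) (nat_lit 3) (nat_lit 362) (nat_lit 5) (nat_lit 475) (nat_lit 475) (nat_lit 190))))) (XT.nd (nat_lit 234) (nat_lit 0) (nat_lit 152) (XT.nd (nat_lit 78) (nat_lit 0) (nat_lit 76) (XT.lf (nat_lit 76) (nat_lit 1223922676) (nat_lit 0) (nat_lit 4497624195) (nat_lit 1748) (nat_lit 21491722441) (nat_lit 340) (nat_lit 5) (nat_lit 339) (nat_lit 3) (nat_lit 362) (nat_lit 5) (nat_lit 476) (nat_lit 475) (nat_lit 189)) (XT.nd (nat_lit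 78) (nat_lit 0) (nat_lit 0) (XT.lf (nat_lit 0) (nat_lit 5992364448) (nat_lit 1672) (nat_lit 14017433712) (nat_lit 1748) (nat_lit 7473951259) (nat_lit 340) (nat_lit 5) (nat_lit 362) (nat_lit 5) (nat_lit 363) (nat_lit 5) (nat_lit 477) (nat_lit 475) (nat_lit 188)) (XT.lf (nat_lit 0) (nat_lit 6296184017) (nat_lit 1672) (nat_lit 1837059251) (nat_lit 1748) (nat_lit 19625846403) (nat_lit 340) (nat_lit 5) (nat_lit 362) (nat_lit 5) (nat_lit 363) (nat_lit 5) (nat_lit 478) (nat_lit 475) (nat_lit 187)))) (XT.nd (nat_lit 156) (nat_lit 0) (nat_lit 76) (XT.nd (nat_lit 78) (nat_lit 0) (nat_lit 0) (XT.lf (nat_lit 0) (nat_lit 6699880194) (nat_lit 1672) (nat_lit 17338469083) (nat_lit 1748) (nat_lit 3999713657) (nat_lit 341) (nat_lit 5) (nat_lit 363) (nat_lit 5) (nat_lit 364) (nat_lit 5) (nat_lit 479) (nat_lit 475) (nat_lit 186)) (XT.lf (nat_lit 0) (nat_lit 7175806298) (nat_lit 1672) (nat_lit 4865642397) (nat_lit 1748) (nat_lit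 16279886015) (nat_lit 341) (nat_lit 5) (nat_lit 363) (nat_lit 5) (nat_lit 364) (nat_lit 5) (nat_lit 480) (nat_lit 475) (nat_lit 185))) (XT.nd (nat_lit 78) (nat_lit 0) (nat_lit 0) (XT.lf (nat_lit 0) (nat_lit 7712473833) (nat_lit 1672) (nat_lit 20651050073) (nat_lit 1748) (nat_lit 245725681) (nat_lit 342) (nat_lit 5) (nat_lit 364) (nat_lit 5) (nat_lit 365) (nat_lit 5) (nat_lit 481) (nat_lit 475) (nat_lit 184)) (XT.lf (nat_lit 0) (nat_lit 8370450954) (nat_lit 1672) (nat_lit 7878985238) (nat_lit 1748) (nat_lit 12651277129) (nat_lit 342) (nat_lit 5) (nat_lit 364) (nat_lit 5) (nat_lit 365) (nat_lit 5) (nat_lit 482) (nat_lit 475) (nat_lit 183)))))) (XT.nd (nat_lit 546) (nat_lit 228) (nat_lit 0) (XT.nd (nat_lit 234) (nat_lit 0) (nat_lit 152) (XT.nd (nat_lit 78) (nat_lit 0) (nat_lit 76) (XT.lf (nat_lit 76) (nat_lit 5215722206) (nat_lit 0) (nat_lit 3857733543) (nat_lit 1748) (nat_lit 20123915260) (nat_lit 343)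 (nat_lit 5) (nat_lit 342) (nat_lit 5) (nat_lit 365) (nat_lit 5) (nat_lit 483) (nat_lit 475) (nat_lit 182)) (XT.nd (nat_lit 78) (nat_lit 0) (nat_lit 0) (XT.lf (nat_lit 0) (nat_lit 9898800780) (nat_lit 1672) (nat_lit 10878388511) (nat_lit 1748) (nat_lit 8720608961) (nat_lit 343) (nat_lit 5) (nat_lit 365) (nat_lit 5) (nat_lit 366) (nat_lit 5) (nat_lit 484) (nat_lit 475) (nat_lit 181)) (XT.lf (nat_lit 76) (nat_lit 2492865638) (nat_lit 0) (nat_lit 8287599297) (nat_lit 1748) (nat_lit 19022974821) (nat_lit 344) (nat_lit 5) (nat_lit 343) (nat_lit 5) (nat_lit 366) (nat_lit 5) (nat_lit 485) (nat_lit 475) (nat_lit 180)))) (XT.nd (nat_lit 156) (nat_lit 0) (nat_lit 0) (XT.nd (nat_lit 78) (nat_lit 0) (nat_lit 0) (XT.lf (nat_lit 0) (nat_lit 11780262674) (nat_lit 1672) (nat_lit 13865371161) (nat_lit 1748) (nat_lit 4467552176) (nat_lit 344) (nat_lit 5) (nat_lit 366) (nat_lit 5) (nat_lit 367) (nat_lit 5) (nat_lit 486)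 (nat_lit 475) (nat_lit 179)) (XT.lf (nat_lit 0) (nat_lit 12853091345) (nat_lit 1672) (nat_lit 207378306) (nat_lit 1748) (nat_lit 17367598727) (nat_lit 344) (nat_lit 5) (nat_lit 366) (nat_lit 5) (nat_lit 367) (nat_lit 5) (nat_lit 487) (nat_lit 475) (nat_lit 178))) (XT.nd (nat_lit 78) (nat_lit 0) (nat_lit 76) (XT.lf (nat_lit 76) (nat_lit 13904934834) (nat_lit 0) (nat_lit 130908300) (nat_lit 1748) (nat_lit 16711637776) (nat_lit 345) (nat_lit 5) (nat_lit 344) (nat_lit 5) (nat_lit 367) (nat_lit 5) (nat_lit 488) (nat_lit 475) (nat_lit 177)) (XT.lf (nat_lit 0) (nat_lit 15326645175) (nat_lit 1672) (nat_lit 2856972775) (nat_lit 1748) (nat_lit 12887977653) (nat_lit 345) (nat_lit 5) (nat_lit 367) (nat_lit 5) (nat_lit 368) (nat_lit 5) (nat_lit 489) (nat_lit 475) (nat_lit 176))))) (XT.nd (nat_lit 58422) (nat_lit 0) (nat_lit 76) (XT.nd (nat_lit 58266) (nat_lit 456) (nat_lit 0) (XT.lf (nat_lit 76) (nat_lit 11557813428)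 (nat_lit 0) (nat_lit 5159610791) (nat_lit 1748) (nat_lit 14683286929) (nat_lit 346) (nat_lit 5) (nat_lit 345) (nat_lit 5) (nat_lit 368) (nat_lit 5) (nat_lit 490) (nat_lit 475) (nat_lit 175)) (XT.nd (nat_lit 78) (nat_lit 0) (nat_lit 0) (XT.lf (nat_lit 0) (nat_lit 2926871802) (nat_lit 1748) (nat_lit 5406841845) (nat_lit 1748) (nat_lit 5406841845) (nat_lit 339) (nat_lit 3) (nat_lit 362) (nat_lit 3) (nat_lit 362) (nat_lit 5) (nat_lit 476) (nat_lit 476) (nat_lit 188)) (XT.lf (nat_lit 76) (nat_lit 1334592056) (nat_lit 0) (nat_lit 4668563216) (nat_lit 1748) (nat_lit 21750865055) (nat_lit 340) (nat_lit 5) (nat_lit 339) (nat_lit 3) (nat_lit 362) (nat_lit 5) (nat_lit 477) (nat_lit 476) (nat_lit 187)))) (XT.nd (nat_lit 156) (nat_lit 0) (nat_lit 76) (XT.nd (nat_lit 78) (nat_lit 0) (nat_lit 0) (XT.lf (nat_lit 0) (nat_lit 6275595703) (nat_lit 1672) (nat_lit 14209320507) (nat_lit 1748) (nat_lit 7545073045) (nat_lit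 340) (nat_lit 5) (nat_lit 362) (nat_lit 5) (nat_lit 363) (nat_lit 5) (nat_lit 478) (nat_lit 476) (nat_lit 186)) (XT.lf (nat_lit 0) (nat_lit 6582288056) (nat_lit 1672) (nat_lit 1787073104) (nat_lit 1748) (nat_lit 19941542508) (nat_lit 340) (nat_lit 5) (nat_lit 362) (nat_lit 5) (nat_lit 363) (nat_lit 5) (nat_lit 479) (nat_lit 476) (nat_lit 185))) (XT.nd (nat_lit 78) (nat_lit 0) (nat_lit 0) (XT.lf (nat_lit 0) (nat_lit 6991012902) (nat_lit 1672) (nat_lit 17595304908) (nat_lit 1748) (nat_lit 4009202710) (nat_lit 341) (nat_lit 5) (nat_lit 363) (nat_lit 5) (nat_lit 364) (nat_lit 5) (nat_lit 480) (nat_lit 476) (nat_lit 184)) (XT.lf (nat_lit 0) (nat_lit 7473376447) (nat_lit 1672) (nat_lit 4874785092) (nat_lit 1748) (nat_lit 16536360970) (nat_lit 341) (nat_lit 5) (nat_lit 363) (nat_lit 5) (nat_lit 364) (nat_lit 5) (nat_lit 481) (nat_lit 476) (nat_lit 183))))))))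
noncomputable def xc255 : XT := (XT.nd (nat_lit 118872) (nat_lit 0) (nat_lit 0) (XT.nd (nat_lit 59358) (nat_lit 0) (nat_lit 0) (XT.nd (nat_lit 468) (nat_lit 228) (nat_lit 0) (XT.nd (nat_lit 234) (nat_lit 0) (nat_lit 76) (XT.nd (nat_lit 78) (nat_lit 0) (nat_lit 0) (XT.lf (nat_lit 0) (nat_lit 8017909751) (nat_lit 1672) (nat_lit 20972878621) (nat_lit 1748) (nat_lit 187467760) (nat_lit 342) (nat_lit 5) (nat_lit 364) (nat_lit 5) (nat_lit 365) (nat_lit 5) (nat_lit 482) (nat_lit 476) (nat_lit 182)) (XT.nd (nat_lit 78) (nat_lit 0) (nat_lit 0) (XT.lf (nat_lit 0) (nat_lit 8686081974) (nat_lit 1672) (nat_lit 7947160576) (nat_lit 1748) (nat_lit 12842368912) (nat_lit 342) (nat_lit 5) (nat_lit 364) (nat_lit 5) (nat_lit 365) (nat_lit 5) (nat_lit 483) (nat_lit 476) (nat_lit 181)) (XT.lf (nat_lit 76) (nat_lit 5408852830) (nat_lit 0) (nat_lit 3991964375) (nat_lit 1748) (nat_lit 20377434667) (nat_lit 343) (nat_lit 5) (nat_lit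 342) (nat_lit 5) (nat_lit 365) (nat_lit 5) (nat_lit 484) (nat_lit 476) (nat_lit 180)))) (XT.nd (nat_lit 78) (nat_lit 0) (nat_lit 0) (XT.lf (nat_lit 0) (nat_lit 10239445193) (nat_lit 1672) (nat_lit 11005511856) (nat_lit 1748) (nat_lit 8839798005) (nat_lit 343) (nat_lit 5) (nat_lit 365) (nat_lit 5) (nat_lit 366) (nat_lit 5) (nat_lit 485) (nat_lit 476) (nat_lit 179)) (XT.nd (nat_lit 78) (nat_lit 0) (nat_lit 76) (XT.lf (nat_lit 76) (nat_lit 2632572348) (nat_lit 0) (nat_lit 8503956226) (nat_lit 1748) (nat_lit 19260027955) (nat_lit 344) (nat_lit 5) (nat_lit 343) (nat_lit 5) (nat_lit 366) (nat_lit 5) (nat_lit 486) (nat_lit 476) (nat_lit 178)) (XT.lf (nat_lit 0) (nat_lit 12153246141) (nat_lit 1672) (nat_lit 14051374682) (nat_lit 1748) (nat_lit 4507941210) (nat_lit 344) (nat_lit 5) (nat_lit 366) (nat_lit 5) (nat_lit 367) (nat_lit 5) (nat_lit 487) (nat_lit 476) (nat_lit 177))))) (XT.nd (nat_lit 58578) (nat_lit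 0) (nat_lit 0) (XT.nd (nat_lit 78) (nat_lit 380) (nat_lit 0) (XT.lf (nat_lit 0) (nat_lit 13244837695) (nat_lit 1672) (nat_lit 122012243) (nat_lit 1748) (nat_lit 17666948731) (nat_lit 344) (nat_lit 5) (nat_lit 366) (nat_lit 5) (nat_lit 367) (nat_lit 5) (nat_lit 488) (nat_lit 476) (nat_lit 176)) (XT.nd (nat_lit 58422) (nat_lit 380) (nat_lit 0) (XT.lf (nat_lit 76) (nat_lit 14271958254) (nat_lit 0) (nat_lit 177222751) (nat_lit 1748) (nat_lit 16910462411) (nat_lit 345) (nat_lit 5) (nat_lit 344) (nat_lit 5) (nat_lit 367) (nat_lit 5) (nat_lit 489) (nat_lit 476) (nat_lit 175)) (XT.lf (nat_lit 0) (nat_lit 3067084657) (nat_lit 1748) (nat_lit 5473282350) (nat_lit 1748) (nat_lit 5473282350) (nat_lit 339) (nat_lit 3) (nat_lit 362) (nat_lit 3) (nat_lit 362) (nat_lit 5) (nat_lit 477) (nat_lit 477) (nat_lit 186)))) (XT.nd (nat_lit 156) (nat_lit 0) (nat_lit 76) (XT.nd (nat_lit 78) (nat_lit 0) (nat_lit 76) (XT.lf (nat_lit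 76) (nat_lit 1444127925) (nat_lit 0) (nat_lit 4839776211) (nat_lit 1748) (nat_lit 22021818693) (nat_lit 340) (nat_lit 5) (nat_lit 339) (nat_lit 3) (nat_lit 362) (nat_lit 5) (nat_lit 478) (nat_lit 477) (nat_lit 185)) (XT.lf (nat_lit 0) (nat_lit 6558147184) (nat_lit 1672) (nat_lit 14408480122) (nat_lit 1748) (nat_lit 7620659974) (nat_lit 340) (nat_lit 5) (nat_lit 362) (nat_lit 5) (nat_lit 363) (nat_lit 5) (nat_lit 479) (nat_lit 477) (nat_lit 184))) (XT.nd (nat_lit 78) (nat_lit 0) (nat_lit 76) (XT.lf (nat_lit 0) (nat_lit 6867894177) (nat_lit 1672) (nat_lit 1739454962) (nat_lit 1748) (nat_lit 20266535582) (nat_lit 340) (nat_lit 5) (nat_lit 362) (nat_lit 5) (nat_lit 363) (nat_lit 5) (nat_lit 480) (nat_lit 477) (nat_lit 183)) (XT.lf (nat_lit 0) (nat_lit 7281866517) (nat_lit 1672) (nat_lit 17860769680) (nat_lit 1748) (nat_lit 4021619348) (nat_lit 341) (nat_lit 5) (nat_lit 363) (nat_lit 5) (nat_lit 364) (nat_lit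 5) (nat_lit 481) (nat_lit 477) (nat_lit 182)))))) (XT.nd (nat_lit 546) (nat_lit 152) (nat_lit 0) (XT.nd (nat_lit 234) (nat_lit 0) (nat_lit 76) (XT.nd (nat_lit 78) (nat_lit 0) (nat_lit 76) (XT.lf (nat_lit 0) (nat_lit 7770915894) (nat_lit 1672) (nat_lit 4887534395) (nat_lit 1748) (nat_lit 16800649547) (nat_lit 341) (nat_lit 5) (nat_lit 363) (nat_lit 5) (nat_lit 364) (nat_lit 5) (nat_lit 482) (nat_lit 477) (nat_lit 181)) (XT.nd (nat_lit 78) (nat_lit 0) (nat_lit 0) (XT.lf (nat_lit 0) (nat_lit 8323583633) (nat_lit 1672) (nat_lit 21304684853) (nat_lit 1748) (nat_lit 130497743) (nat_lit 342) (nat_lit 5) (nat_lit 364) (nat_lit 5) (nat_lit 365) (nat_lit 5) (nat_lit 483) (nat_lit 477) (nat_lit 180)) (XT.lf (nat_lit 0) (nat_lit 9002269974) (nat_lit 1672) (nat_lit 8020171102) (nat_lit 1748) (nat_lit 13039687494) (nat_lit 342) (nat_lit 5) (nat_lit 364) (nat_lit 5) (nat_lit 365) (nat_lit 5) (nat_lit 484) (nat_lit 477)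 (nat_lit 179)))) (XT.nd (nat_lit 156) (nat_lit 0) (nat_lit 76) (XT.nd (nat_lit 78) (nat_lit 0) (nat_lit 76) (XT.lf (nat_lit 76) (nat_lit 5602397227) (nat_lit 0) (nat_lit 4126663487) (nat_lit 1748) (nat_lit 20641808717) (nat_lit 343) (nat_lit 5) (nat_lit 342) (nat_lit 5) (nat_lit 365) (nat_lit 5) (nat_lit 485) (nat_lit 477) (nat_lit 178)) (XT.lf (nat_lit 0) (nat_lit 10581362506) (nat_lit 1672) (nat_lit 11138689734) (nat_lit 1748) (nat_lit 8963515213) (nat_lit 343) (nat_lit 5) (nat_lit 365) (nat_lit 5) (nat_lit 366) (nat_lit 5) (nat_lit 486) (nat_lit 477) (nat_lit 177))) (XT.nd (nat_lit 78) (nat_lit 0) (nat_lit 76) (XT.lf (nat_lit 76) (nat_lit 2771584229) (nat_lit 0) (nat_lit 8722675242) (nat_lit 1748) (nat_lit 19507390796) (nat_lit 344) (nat_lit 5) (nat_lit 343) (nat_lit 5) (nat_lit 366) (nat_lit 5) (nat_lit 487) (nat_lit 477) (nat_lit 176)) (XT.lf (nat_lit 0) (nat_lit 12528354715) (nat_lit 1672) (nat_lit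 14244643715) (nat_lit 1748) (nat_lit 4551039279) (nat_lit 344) (nat_lit 5) (nat_lit 366) (nat_lit 5) (nat_lit 367) (nat_lit 5) (nat_lit 488) (nat_lit 477) (nat_lit 175))))) (XT.nd (nat_lit 58656) (nat_lit 0) (nat_lit 76) (XT.nd (nat_lit 58500) (nat_lit 380) (nat_lit 0) (XT.lf (nat_lit 0) (nat_lit 13639189009) (nat_lit 1672) (nat_lit 38414781) (nat_lit 1748) (nat_lit 17974149710) (nat_lit 344) (nat_lit 5) (nat_lit 366) (nat_lit 5) (nat_lit 367) (nat_lit 5) (nat_lit 489) (nat_lit 477) (nat_lit 174)) (XT.nd (nat_lit 78) (nat_lit 0) (nat_lit 0) (XT.lf (nat_lit 0) (nat_lit 3206930213) (nat_lit 1748) (nat_lit 5542670785) (nat_lit 1748) (nat_lit 5542670785) (nat_lit 339) (nat_lit 3) (nat_lit 362) (nat_lit 3) (nat_lit 362) (nat_lit 5) (nat_lit 478) (nat_lit 478) (nat_lit 184)) (XT.lf (nat_lit 76) (nat_lit 1552637577) (nat_lit 0) (nat_lit 5011390777) (nat_lit 1748) (nat_lit 22304562196) (nat_lit 340) (nat_lit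 5) (nat_lit 339) (nat_lit 3) (nat_lit 362) (nat_lit 5) (nat_lit 479) (nat_lit 478) (nat_lit 183)))) (XT.nd (nat_lit 156) (nat_lit 0) (nat_lit 76) (XT.nd (nat_lit 78) (nat_lit 0) (nat_lit 0) (XT.lf (nat_lit 0) (nat_lit 6840251658) (nat_lit 1672) (nat_lit 14614924622) (nat_lit 1748) (nat_lit 7700683196) (nat_lit 340) (nat_lit 5) (nat_lit 362) (nat_lit 5) (nat_lit 363) (nat_lit 5) (nat_lit 480) (nat_lit 478) (nat_lit 182)) (XT.lf (nat_lit 0) (nat_lit 7153233953) (nat_lit 1672) (nat_lit 1694121412) (nat_lit 1748) (nat_lit 20600895728) (nat_lit 340) (nat_lit 5) (nat_lit 362) (nat_lit 5) (nat_lit 363) (nat_lit 5) (nat_lit 481) (nat_lit 478) (nat_lit 181))) (XT.nd (nat_lit 78) (nat_lit 0) (nat_lit 0) (XT.lf (nat_lit 0) (nat_lit 7572672394) (nat_lit 1672) (nat_lit 18134900369) (nat_lit 1748) (nat_lit 4036915811) (nat_lit 341) (nat_lit 5) (nat_lit 363) (nat_lit 5) (nat_lit 364) (nat_lit 5) (nat_lit 482) (nat_lit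 478) (nat_lit 180)) (XT.lf (nat_lit 0) (nat_lit 8068656318) (nat_lit 1672) (nat_lit 4903829491) (nat_lit 1748) (nat_lit 17072803788) (nat_lit 341) (nat_lit 5) (nat_lit 363) (nat_lit 5) (nat_lit 364) (nat_lit 5) (nat_lit 483) (nat_lit 478) (nat_lit 179))))))) (XT.nd (nat_lit 118404) (nat_lit 0) (nat_lit 0) (XT.nd (nat_lit 59124) (nat_lit 0) (nat_lit 76) (XT.nd (nat_lit 234) (nat_lit 228) (nat_lit 0) (XT.nd (nat_lit 78) (nat_lit 0) (nat_lit 0) (XT.lf (nat_lit 0) (nat_lit 8629728208) (nat_lit 1672) (nat_lit 21646530819) (nat_lit 1748) (nat_lit 74746132) (nat_lit 342) (nat_lit 5) (nat_lit 364) (nat_lit 5) (nat_lit 365) (nat_lit 5) (nat_lit 484) (nat_lit 478) (nat_lit 178)) (XT.nd (nat_lit 78) (nat_lit 0) (nat_lit 0) (XT.lf (nat_lit 0) (nat_lit 9319249591) (nat_lit 1672) (nat_lit 8097978708) (nat_lit 1748) (nat_lit 13243264023) (nat_lit 342) (nat_lit 5) (nat_lit 364) (nat_lit 5) (nat_lit 365) (nat_lit 5) (nat_lit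 485) (nat_lit 478) (nat_lit 177)) (XT.lf (nat_lit 76) (nat_lit 5796497593) (nat_lit 0) (nat_lit 4261926307) (nat_lit 1748) (nat_lit 20917029894) (nat_lit 343) (nat_lit 5) (nat_lit 342) (nat_lit 5) (nat_lit 365) (nat_lit 5) (nat_lit 486) (nat_lit 478) (nat_lit 176)))) (XT.nd (nat_lit 58734) (nat_lit 304) (nat_lit 0) (XT.nd (nat_lit 78) (nat_lit 0) (nat_lit 0) (XT.lf (nat_lit 0) (nat_lit 10924793302) (nat_lit 1672) (nat_lit 11277906860) (nat_lit 1748) (nat_lit 9091767877) (nat_lit 343) (nat_lit 5) (nat_lit 365) (nat_lit 5) (nat_lit 366) (nat_lit 5) (nat_lit 487) (nat_lit 478) (nat_lit 175)) (XT.lf (nat_lit 76) (nat_lit 2910022868) (nat_lit 0) (nat_lit 8943879892) (nat_lit 1748) (nat_lit 19765053300) (nat_lit 344) (nat_lit 5) (nat_lit 343) (nat_lit 5) (nat_lit 366) (nat_lit 5) (nat_lit 488) (nat_lit 478) (nat_lit 174))) (XT.nd (nat_lit 78) (nat_lit 0) (nat_lit 0) (XT.lf (nat_lit 0) (nat_lit 3346524280) (nat_lit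 1748) (nat_lit 5615003235) (nat_lit 1748) (nat_lit 5615003235) (nat_lit 339) (nat_lit 3) (nat_lit 362) (nat_lit 3) (nat_lit 362) (nat_lit 5) (nat_lit 479) (nat_lit 479) (nat_lit 182)) (XT.lf (nat_lit 76) (nat_lit 1660225404) (nat_lit 0) (nat_lit 5183532320) (nat_lit 1748) (nat_lit 22599083975) (nat_lit 340) (nat_lit 5) (nat_lit 339) (nat_lit 3) (nat_lit 362) (nat_lit 5) (nat_lit 480) (nat_lit 479) (nat_lit 181))))) (XT.nd (nat_lit 234) (nat_lit 0) (nat_lit 76) (XT.nd (nat_lit 78) (nat_lit 0) (nat_lit 0) (XT.lf (nat_lit 0) (nat_lit 7122136977) (nat_lit 1672) (nat_lit 14828671498) (nat_lit 1748) (nat_lit 7785117874) (nat_lit 340) (nat_lit 5) (nat_lit 362) (nat_lit 5) (nat_lit 363) (nat_lit 5) (nat_lit 481) (nat_lit 479) (nat_lit 180)) (XT.nd (nat_lit 78) (nat_lit 0) (nat_lit 76) (XT.lf (nat_lit 0) (nat_lit 7438534207) (nat_lit 1672) (nat_lit 1650992452) (nat_lit 1748) (nat_lit 20944698950) (nat_lit 340)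 (nat_lit 5) (nat_lit 362) (nat_lit 5) (nat_lit 363) (nat_lit 5) (nat_lit 482) (nat_lit 479) (nat_lit 179)) (XT.lf (nat_lit 0) (nat_lit 7863657318) (nat_lit 1672) (nat_lit 18417739953) (nat_lit 1748) (nat_lit 4055047510) (nat_lit 341) (nat_lit 5) (nat_lit 363) (nat_lit 5) (nat_lit 364) (nat_lit 5) (nat_lit 483) (nat_lit 479) (nat_lit 178)))) (XT.nd (nat_lit 156) (nat_lit 0) (nat_lit 76) (XT.nd (nat_lit 78) (nat_lit 0) (nat_lit 76) (XT.lf (nat_lit 0) (nat_lit 8366825008) (nat_lit 1672) (nat_lit 4923613508) (nat_lit 1748) (nat_lit 17352880827) (nat_lit 341) (nat_lit 5) (nat_lit 363) (nat_lit 5) (nat_lit 364) (nat_lit 5) (nat_lit 484) (nat_lit 479) (nat_lit 177)) (XT.lf (nat_lit 0) (nat_lit 8936572006) (nat_lit 1672) (nat_lit 21998485146) (nat_lit 1748) (nat_lit 20145741) (nat_lit 342) (nat_lit 5) (nat_lit 364) (nat_lit 5) (nat_lit 365) (nat_lit 5) (nat_lit 485) (nat_lit 479) (nat_lit 176))) (XT.nd (nat_lit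 78) (nat_lit 0) (nat_lit 0) (XT.lf (nat_lit 0) (nat_lit 9637251479) (nat_lit 1672) (nat_lit 8180549764) (nat_lit 1748) (nat_lit 13453133897) (nat_lit 342) (nat_lit 5) (nat_lit 364) (nat_lit 5) (nat_lit 365) (nat_lit 5) (nat_lit 486) (nat_lit 479) (nat_lit 175)) (XT.lf (nat_lit 76) (nat_lit 5991293771) (nat_lit 0) (nat_lit 4397846831) (nat_lit 1748) (nat_lit 21203099253) (nat_lit 343) (nat_lit 5) (nat_lit 342) (nat_lit 5) (nat_lit 365) (nat_lit 5) (nat_lit 487) (nat_lit 479) (nat_lit 174)))))) (XT.nd (nat_lit 59436) (nat_lit 0) (nat_lit 0) (XT.nd (nat_lit 234) (nat_lit 0) (nat_lit 76) (XT.nd (nat_lit 78) (nat_lit 0) (nat_lit 0) (XT.lf (nat_lit 0) (nat_lit 3485980200) (nat_lit 1748) (nat_lit 5690278150) (nat_lit 1748) (nat_lit 5690278150) (nat_lit 339) (nat_lit 3) (nat_lit 362) (nat_lit 3) (nat_lit 362) (nat_lit 5) (nat_lit 480) (nat_lit 480) (nat_lit 180)) (XT.nd (nat_lit 78) (nat_lit 0) (nat_lit 76) (XT.lf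 (nat_lit 76) (nat_lit 1766993038) (nat_lit 0) (nat_lit 5356324196) (nat_lit 1748) (nat_lit 22905381817) (nat_lit 340) (nat_lit 5) (nat_lit 339) (nat_lit 3) (nat_lit 362) (nat_lit 5) (nat_lit 481) (nat_lit 480) (nat_lit 179)) (XT.lf (nat_lit 0) (nat_lit 7404026358) (nat_lit 1672) (nat_lit 15049743566) (nat_lit 1748) (nat_lit 7873943082) (nat_lit 340) (nat_lit 5) (nat_lit 362) (nat_lit 5) (nat_lit 363) (nat_lit 5) (nat_lit 482) (nat_lit 480) (nat_lit 178)))) (XT.nd (nat_lit 156) (nat_lit 0) (nat_lit 76) (XT.nd (nat_lit 78) (nat_lit 0) (nat_lit 76) (XT.lf (nat_lit 0) (nat_lit 7724017285) (nat_lit 1672) (nat_lit 1609991358) (nat_lit 1748) (nat_lit 21298027096) (nat_lit 340) (nat_lit 5) (nat_lit 362) (nat_lit 5) (nat_lit 363) (nat_lit 5) (nat_lit 483) (nat_lit 480) (nat_lit 177)) (XT.lf (nat_lit 0) (nat_lit 8155043763) (nat_lit 1672) (nat_lit 18709337328) (nat_lit 1748) (nat_lit 4075972934) (nat_lit 341) (nat_lit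 5) (nat_lit 363) (nat_lit 5) (nat_lit 364) (nat_lit 5) (nat_lit 484) (nat_lit 480) (nat_lit 176))) (XT.nd (nat_lit 78) (nat_lit 0) (nat_lit 0) (XT.lf (nat_lit 0) (nat_lit 8665645134) (nat_lit 1672) (nat_lit 4946833402) (nat_lit 1748) (nat_lit 17640942830) (nat_lit 341) (nat_lit 5) (nat_lit 363) (nat_lit 5) (nat_lit 364) (nat_lit 5) (nat_lit 485) (nat_lit 480) (nat_lit 175)) (XT.lf (nat_lit 76) (nat_lit 9210747289) (nat_lit 0) (nat_lit 33811857) (nat_lit 1748) (nat_lit 22327030639) (nat_lit 342) (nat_lit 5) (nat_lit 341) (nat_lit 5) (nat_lit 364) (nat_lit 5) (nat_lit 486) (nat_lit 480) (nat_lit 174))))) (XT.nd (nat_lit 234) (nat_lit 0) (nat_lit 0) (XT.nd (nat_lit 78) (nat_lit 0) (nat_lit 0) (XT.lf (nat_lit 0) (nat_lit 3625408988) (nat_lit 1748) (nat_lit 5768496295) (nat_lit 1748) (nat_lit 5768496295) (nat_lit 339) (nat_lit 3) (nat_lit 362) (nat_lit 3) (nat_lit 362) (nat_lit 5) (nat_lit 481) (nat_lit 481)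 (nat_lit 178)) (XT.nd (nat_lit 78) (nat_lit 0) (nat_lit 76) (XT.lf (nat_lit 76) (nat_lit 1873039479) (nat_lit 0) (nat_lit 5529887848) (nat_lit 1748) (nat_lit 23223462697) (nat_lit 340) (nat_lit 5) (nat_lit 339) (nat_lit 3) (nat_lit 362) (nat_lit 5) (nat_lit 482) (nat_lit 481) (nat_lit 177)) (XT.lf (nat_lit 0) (nat_lit 7686138644) (nat_lit 1672) (nat_lit 15278168886) (nat_lit 1748) (nat_lit 7967141716) (nat_lit 340) (nat_lit 5) (nat_lit 362) (nat_lit 5) (nat_lit 363) (nat_lit 5) (nat_lit 483) (nat_lit 481) (nat_lit 176)))) (XT.nd (nat_lit 59280) (nat_lit 76) (nat_lit 0) (XT.nd (nat_lit 78) (nat_lit 0) (nat_lit 76) (XT.lf (nat_lit 0) (nat_lit 8009901315) (nat_lit 1672) (nat_lit 1571044566) (nat_lit 1748) (nat_lit 21660967807) (nat_lit 340) (nat_lit 5) (nat_lit 362) (nat_lit 5) (nat_lit 363) (nat_lit 5) (nat_lit 484) (nat_lit 481) (nat_lit 175)) (XT.lf (nat_lit 0) (nat_lit 8447050153) (nat_lit 1672) (nat_lit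 19009747235) (nat_lit 1748) (nat_lit 4099653555) (nat_lit 341) (nat_lit 5) (nat_lit 363) (nat_lit 5) (nat_lit 364) (nat_lit 5) (nat_lit 485) (nat_lit 481) (nat_lit 174))) (XT.nd (nat_lit 78) (nat_lit 0) (nat_lit 76) (XT.lf (nat_lit 76) (nat_lit 1978461226) (nat_lit 0) (nat_lit 5704342937) (nat_lit 1748) (nat_lit 23553342604) (nat_lit 340) (nat_lit 5) (nat_lit 339) (nat_lit 3) (nat_lit 362) (nat_lit 5) (nat_lit 483) (nat_lit 482) (nat_lit 175)) (XT.lf (nat_lit 0) (nat_lit 7968688559) (nat_lit 1672) (nat_lit 15513980676) (nat_lit 1748) (nat_lit 8064700402) (nat_lit 340) (nat_lit 5) (nat_lit 362) (nat_lit 5) (nat_lit 363) (nat_lit 5) (nat_lit 484) (nat_lit 482) (nat_lit 174))))))))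

set_option maxRecDepth 10000000 in
noncomputable def Tp : PT := (PT.nd (nat_lit 11649456) (PT.nd (nat_lit 10461984) (PT.nd (nat_lit 9394086) (PT.nd (nat_lit 8445450) (PT.nd (nat_lit 7674420) (PT.nd (nat_lit 7081308) pc0 pc1) (PT.nd (nat_lit 415272) pc2 pc3)) (PT.nd (nat_lit 533676) (PT.nd (nat_lit 296400) pc4 pc5) (PT.nd (nat_lit 178542) pc6 pc7))) (PT.nd (nat_lit 593658) (PT.nd (nat_lit 297492) (PT.nd (nat_lit 177762) pc8 pc9) (PT.nd (nat_lit 177060) pc10 pc11)) (PT.nd (nat_lit 237666) (PT.nd (nat_lit 118950) pc12 pc13) (PT.nd (nat_lit 118404) pc14 pc15)))) (PT.nd (nat_lit 654420) (PT.nd (nat_lit 356616) (PT.nd (nat_lit 178620) (PT.nd (nat_lit 117780) pc16 pc17) (PT.nd (nat_lit 117312) pc18 pc19)) (PT.nd (nat_lit 177216) (PT.nd (nat_lit 116844) pc20 pc21) (PT.nd (nat_lit 60294) pc22 pc23))) (PT.nd (nat_lit 295308) (PT.nd (nat_lit 175812) (PT.nd (nat_lit 115986) pc24 pc25) (PT.nd (nat_lit 59748) pc26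 pc27)) (PT.nd (nat_lit 119106) (PT.nd (nat_lit 59592) pc28 pc29) (PT.nd (nat_lit 59358) pc30 pc31))))) (PT.nd (nat_lit 770952) (PT.nd (nat_lit 415428) (PT.nd (nat_lit 235872) (PT.nd (nat_lit 118170) (PT.nd (nat_lit 59124) pc32 pc33) (PT.nd (nat_lit 58890) pc34 pc35)) (PT.nd (nat_lit 117000) (PT.nd (nat_lit 58578) pc36 pc37) (PT.nd (nat_lit 4134) pc38 pc39))) (PT.nd (nat_lit 178386) (PT.nd (nat_lit 116220) (PT.nd (nat_lit 58188) pc40 pc41) (PT.nd (nat_lit 4134) pc42 pc43)) (PT.nd (nat_lit 115440) (PT.nd (nat_lit 57798) pc44 pc45) (PT.nd (nat_lit 4134) pc46 pc47)))) (PT.nd (nat_lit 357474) (PT.nd (nat_lit 175734) (PT.nd (nat_lit 61464) (PT.nd (nat_lit 57330) pc48 pc49) (PT.nd (nat_lit 57174) pc50 pc51)) (PT.nd (nat_lit 62556) (PT.nd (nat_lit 4134) pc52 pc53) (PT.nd (nat_lit 59280) pc54 pc55))) (PT.nd (nat_lit 350610) (PT.nd (nat_lit 172224) (PT.nd (nat_lit 59982) pc56 pc57) (PT.nd (nat_lit 65754) pc58 pc59))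 (PT.nd (nat_lit 244920) (PT.nd (nat_lit 118560) pc60 pc61) (PT.nd (nat_lit 228306) pc62 pc63))))))

set_option maxRecDepth 10000000 in
noncomputable def Tx : XT := (XT.nd (nat_lit 18145608) (nat_lit 0) (nat_lit 532) XT.nil (XT.nd (nat_lit 10502778) (nat_lit 0) (nat_lit 0) (XT.nd (nat_lit 4984668) (nat_lit 0) (nat_lit 2128) (XT.nd (nat_lit 3493386) (nat_lit 0) (nat_lit 912) (XT.nd (nat_lit 2430246) (nat_lit 0) (nat_lit 380) (XT.nd (nat_lit 1717170) (nat_lit 0) (nat_lit 152) (XT.nd (nat_lit 1185366) (nat_lit 0) (nat_lit 76) (XT.nd (nat_lit 829452) (nat_lit 0) (nat_lit 0) (XT.nd (nat_lit 591942) (nat_lit 0) (nat_lit 0) (XT.nd (nat_lit 356148) (nat_lit 0) (nat_lit 0) xc0 xc1) (XT.nd (nat_lit 119028) (nat_lit 0) (nat_lit 0) xc2 xc3)) (XT.nd (nat_lit 178620) (nat_lit 0) (nat_lit 0) (XT.nd (nat_lit 117780) (nat_lit 0) (nat_lit 0) xc4 xc5) (XT.nd (nat_lit 116922) (nat_lit 0) (nat_lit 76) xc6 xc7))) (XT.nd (nat_lit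 295074) (nat_lit 0) (nat_lit 0) (XT.nd (nat_lit 120198) (nat_lit 0) (nat_lit 0) (XT.nd (nat_lit 60138) (nat_lit 0) (nat_lit 0) xc8 xc9) (XT.nd (nat_lit 115284) (nat_lit 0) (nat_lit 0) xc10 xc11)) (XT.nd (nat_lit 118638) (nat_lit 0) (nat_lit 0) (XT.nd (nat_lit 59358) (nat_lit 0) (nat_lit 0) xc12 xc13) (XT.nd (nat_lit 59124) (nat_lit 0) (nat_lit 0) xc14 xc15)))) (XT.nd (nat_lit 359346) (nat_lit 0) (nat_lit 0) (XT.nd (nat_lit 180336) (nat_lit 0) (nat_lit 0) (XT.nd (nat_lit 63102) (nat_lit 0) (nat_lit 0) (XT.nd (nat_lit 58812) (nat_lit 0) (nat_lit 228) xc16 xc17) (XT.nd (nat_lit 58656) (nat_lit 0) (nat_lit 0) xc18 xc19)) (XT.nd (nat_lit 116610) (nat_lit 0) (nat_lit 0) (XT.nd (nat_lit 58344) (nat_lit 0) (nat_lit 0) xc20 xc21) (XT.nd (nat_lit 58110) (nat_lit 0) (nat_lit 608) xc22 xc23))) (XT.nd (nat_lit 177528) (nat_lit 0) (nat_lit 228) (XT.nd (nat_lit 115674) (nat_lit 0) (nat_lit 228) (XT.nd (nat_lit 57876)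 (nat_lit 0) (nat_lit 76) xc24 xc25) (XT.nd (nat_lit 57564) (nat_lit 0) (nat_lit 836) xc26 xc27)) (XT.nd (nat_lit 114738) (nat_lit 0) (nat_lit 0) (XT.nd (nat_lit 57408) (nat_lit 0) (nat_lit 0) xc28 xc29) (XT.nd (nat_lit 4290) (nat_lit 608) (nat_lit 0) xc30 xc31))))) (XT.nd (nat_lit 588978) (nat_lit 0) (nat_lit 304) (XT.nd (nat_lit 296322) (nat_lit 0) (nat_lit 76) (XT.nd (nat_lit 174720) (nat_lit 0) (nat_lit 76) (XT.nd (nat_lit 61230) (nat_lit 0) (nat_lit 0) (XT.nd (nat_lit 56940) (nat_lit 0) (nat_lit 912) xc32 xc33) (XT.nd (nat_lit 56784) (nat_lit 0) (nat_lit 0) xc34 xc35)) (XT.nd (nat_lit 60840) (nat_lit 0) (nat_lit 0) (XT.nd (nat_lit 4212) (nat_lit 1748) (nat_lit 0) xc36 xc37) (XT.nd (nat_lit 4290) (nat_lit 532) (nat_lit 0) xc38 xc39))) (XT.nd (nat_lit 120900) (nat_lit 0) (nat_lit 0) (XT.nd (nat_lit 60528) (nat_lit 0) (nat_lit 0) (XT.nd (nat_lit 56238) (nat_lit 0) (nat_lit 2204) xc40 xc41) (XT.nd (nat_lit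 56082) (nat_lit 0) (nat_lit 1140) xc42 xc43)) (XT.nd (nat_lit 60216) (nat_lit 0) (nat_lit 152) (XT.nd (nat_lit 55926) (nat_lit 0) (nat_lit 532) xc44 xc45) (XT.nd (nat_lit 55848) (nat_lit 0) (nat_lit 0) xc46 xc47)))) (XT.nd (nat_lit 238134) (nat_lit 0) (nat_lit 76) (XT.nd (nat_lit 119340) (nat_lit 0) (nat_lit 0) (XT.nd (nat_lit 59748) (nat_lit 0) (nat_lit 0) (XT.nd (nat_lit 4212) (nat_lit 3724) (nat_lit 0) xc48 xc49) (XT.nd (nat_lit 4212) (nat_lit 3192) (nat_lit 0) xc50 xc51)) (XT.nd (nat_lit 59436) (nat_lit 0) (nat_lit 0) (XT.nd (nat_lit 4212) (nat_lit 2888) (nat_lit 0) xc52 xc53) (XT.nd (nat_lit 4290) (nat_lit 2660) (nat_lit 0) xc54 xc55))) (XT.nd (nat_lit 118326) (nat_lit 0) (nat_lit 0) (XT.nd (nat_lit 59202) (nat_lit 0) (nat_lit 0) (XT.nd (nat_lit 4212) (nat_lit 2812) (nat_lit 0) xc56 xc57) (XT.nd (nat_lit 4290) (nat_lit 2888) (nat_lit 0) xc58 xc59)) (XT.nd (nat_lit 58890) (nat_lit 0) (nat_lit 152)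 (XT.nd (nat_lit 4212) (nat_lit 3344) (nat_lit 0) xc60 xc61) (XT.nd (nat_lit 4290) (nat_lit 4104) (nat_lit 0) xc62 xc63)))))) (XT.nd (nat_lit 775788) (nat_lit 0) (nat_lit 532) (XT.nd (nat_lit 415584) (nat_lit 0) (nat_lit 304) (XT.nd (nat_lit 183846) (nat_lit 0) (nat_lit 76) (XT.nd (nat_lit 67080) (nat_lit 0) (nat_lit 0) (XT.nd (nat_lit 8502) (nat_lit 0) (nat_lit 0) (XT.nd (nat_lit 4212) (nat_lit 5320) (nat_lit 0) xc64 xc65) (XT.nd (nat_lit 54288) (nat_lit 0) (nat_lit 532) xc66 xc67)) (XT.nd (nat_lit 58422) (nat_lit 0) (nat_lit 0) (XT.nd (nat_lit 54132) (nat_lit 0) (nat_lit 1520) xc68 xc69) (XT.nd (nat_lit 54054) (nat_lit 0) (nat_lit 2660) xc70 xc71))) (XT.nd (nat_lit 116064) (nat_lit 0) (nat_lit 76) (XT.nd (nat_lit 58110) (nat_lit 0) (nat_lit 76) (XT.nd (nat_lit 53820) (nat_lit 0) (nat_lit 4864) xc72 xc73) (XT.nd (nat_lit 53664) (nat_lit 0) (nat_lit 8512) xc74 xc75)) (XT.nd (nat_lit 57876) (nat_lit 0)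 (nat_lit 0) (XT.nd (nat_lit 4212) (nat_lit 912) (nat_lit 0) xc76 xc77) (XT.nd (nat_lit 4290) (nat_lit 2508) (nat_lit 0) xc78 xc79)))) (XT.nd (nat_lit 180804) (nat_lit 0) (nat_lit 0) (XT.nd (nat_lit 66066) (nat_lit 0) (nat_lit 0) (XT.nd (nat_lit 57564) (nat_lit 0) (nat_lit 1444) (XT.nd (nat_lit 4212) (nat_lit 5320) (nat_lit 0) xc80 xc81) (XT.nd (nat_lit 4212) (nat_lit 9500) (nat_lit 0) xc82 xc83)) (XT.nd (nat_lit 57408) (nat_lit 0) (nat_lit 0) (XT.nd (nat_lit 53118) (nat_lit 0) (nat_lit 4560) xc84 xc85) (XT.nd (nat_lit 53040) (nat_lit 0) (nat_lit 9804) xc86 xc87))) (XT.nd (nat_lit 114036) (nat_lit 0) (nat_lit 228) (XT.nd (nat_lit 57096) (nat_lit 0) (nat_lit 152) (XT.nd (nat_lit 4212) (nat_lit 1368) (nat_lit 0) xc88 xc89) (XT.nd (nat_lit 4212) (nat_lit 4788) (nat_lit 0) xc90 xc91)) (XT.nd (nat_lit 8502) (nat_lit 1596) (nat_lit 0) (XT.nd (nat_lit 4212) (nat_lit 10108) (nat_lit 0) xc92 xc93) (XT.nd (nat_lit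 52572) (nat_lit 0) (nat_lit 6156) xc94 xc95))))) (XT.nd (nat_lit 356460) (nat_lit 0) (nat_lit 304) (XT.nd (nat_lit 178230) (nat_lit 0) (nat_lit 152) (XT.nd (nat_lit 113256) (nat_lit 0) (nat_lit 152) (XT.nd (nat_lit 56706) (nat_lit 0) (nat_lit 152) (XT.nd (nat_lit 4212) (nat_lit 152) (nat_lit 0) xc96 xc97) (XT.nd (nat_lit 4212) (nat_lit 3040) (nat_lit 0) xc98 xc99)) (XT.nd (nat_lit 8502) (nat_lit 1216) (nat_lit 0) (XT.nd (nat_lit 4212) (nat_lit 8664) (nat_lit 0) xc100 xc101) (XT.nd (nat_lit 52182) (nat_lit 0) (nat_lit 5928) xc102 xc103))) (XT.nd (nat_lit 113022) (nat_lit 0) (nat_lit 152) (XT.nd (nat_lit 56472) (nat_lit 0) (nat_lit 0) (XT.nd (nat_lit 52182) (nat_lit 0) (nat_lit 17328) xc104 xc105) (XT.nd (nat_lit 4212) (nat_lit 3344) (nat_lit 0) xc106 xc107)) (XT.nd (nat_lit 8502) (nat_lit 1292) (nat_lit 0) (XT.nd (nat_lit 4212) (nat_lit 9500) (nat_lit 0) xc108 xc109) (XT.nd (nat_lit 52416) (nat_lit 0)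 (nat_lit 5776) xc110 xc111)))) (XT.nd (nat_lit 179088) (nat_lit 0) (nat_lit 228) (XT.nd (nat_lit 113568) (nat_lit 0) (nat_lit 228) (XT.nd (nat_lit 56706) (nat_lit 0) (nat_lit 228) (XT.nd (nat_lit 52416) (nat_lit 0) (nat_lit 15124) xc112 xc113) (XT.nd (nat_lit 4212) (nat_lit 2660) (nat_lit 0) xc114 xc115)) (XT.nd (nat_lit 8502) (nat_lit 456) (nat_lit 0) (XT.nd (nat_lit 4212) (nat_lit 8056) (nat_lit 0) xc116 xc117) (XT.nd (nat_lit 52728) (nat_lit 0) (nat_lit 3800) xc118 xc119))) (XT.nd (nat_lit 114192) (nat_lit 0) (nat_lit 152) (XT.nd (nat_lit 57018) (nat_lit 0) (nat_lit 152) (XT.nd (nat_lit 52728) (nat_lit 0) (nat_lit 10032) xc120 xc121) (XT.nd (nat_lit 4290) (nat_lit 912) (nat_lit 0) xc122 xc123)) (XT.nd (nat_lit 57174) (nat_lit 0) (nat_lit 1140) (XT.nd (nat_lit 4212) (nat_lit 4636) (nat_lit 0) xc124 xc125) (XT.nd (nat_lit 4290) (nat_lit 9196) (nat_lit 0) xc126 xc127))))))) (XT.nd (nat_lit 1776606) (nat_lit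 0) (nat_lit 3648) (XT.nd (nat_lit 827658) (nat_lit 0) (nat_lit 1444) (XT.nd (nat_lit 411528) (nat_lit 0) (nat_lit 760) (XT.nd (nat_lit 229788) (nat_lit 0) (nat_lit 456) (XT.nd (nat_lit 114660) (nat_lit 0) (nat_lit 304) (XT.nd (nat_lit 57252) (nat_lit 0) (nat_lit 304) (XT.nd (nat_lit 52962) (nat_lit 0) (nat_lit 4636) xc128 xc129) (XT.nd (nat_lit 53118) (nat_lit 0) (nat_lit 10032) xc130 xc131)) (XT.nd (nat_lit 57486) (nat_lit 0) (nat_lit 0) (XT.nd (nat_lit 4212) (nat_lit 836) (nat_lit 0) xc132 xc133) (XT.nd (nat_lit 4290) (nat_lit 3648) (nat_lit 0) xc134 xc135))) (XT.nd (nat_lit 66144) (nat_lit 0) (nat_lit 0) (XT.nd (nat_lit 8502) (nat_lit 0) (nat_lit 0) (XT.nd (nat_lit 4212) (nat_lit 7904) (nat_lit 0) xc136 xc137) (XT.nd (nat_lit 53352) (nat_lit 0) (nat_lit 2356) xc138 xc139)) (XT.nd (nat_lit 57720) (nat_lit 0) (nat_lit 0) (XT.nd (nat_lit 53430) (nat_lit 0) (nat_lit 5700) xc140 xc141) (XT.nd (nat_lit 53586)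 (nat_lit 0) (nat_lit 10412) xc142 xc143)))) (XT.nd (nat_lit 182676) (nat_lit 0) (nat_lit 152) (XT.nd (nat_lit 115986) (nat_lit 0) (nat_lit 152) (XT.nd (nat_lit 57954) (nat_lit 0) (nat_lit 0) (XT.nd (nat_lit 4212) (nat_lit 684) (nat_lit 0) xc144 xc145) (XT.nd (nat_lit 4212) (nat_lit 2888) (nat_lit 0) xc146 xc147)) (XT.nd (nat_lit 58110) (nat_lit 0) (nat_lit 228) (XT.nd (nat_lit 4212) (nat_lit 5624) (nat_lit 0) xc148 xc149) (XT.nd (nat_lit 4290) (nat_lit 9196) (nat_lit 0) xc150 xc151))) (XT.nd (nat_lit 116454) (nat_lit 0) (nat_lit 228) (XT.nd (nat_lit 58188) (nat_lit 0) (nat_lit 0) (XT.nd (nat_lit 53898) (nat_lit 0) (nat_lit 2128) xc152 xc153) (XT.nd (nat_lit 53976) (nat_lit 0) (nat_lit 4028) xc154 xc155)) (XT.nd (nat_lit 58422) (nat_lit 0) (nat_lit 228) (XT.nd (nat_lit 54132) (nat_lit 0) (nat_lit 6232) xc156 xc157) (XT.nd (nat_lit 54288) (nat_lit 0) (nat_lit 8892) xc158 xc159))))) (XT.nd (nat_lit 471354)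 (nat_lit 0) (nat_lit 988) (XT.nd (nat_lit 234936) (nat_lit 0) (nat_lit 456) (XT.nd (nat_lit 117234) (nat_lit 0) (nat_lit 228) (XT.nd (nat_lit 58578) (nat_lit 0) (nat_lit 0) (XT.nd (nat_lit 54288) (nat_lit 0) (nat_lit 11780) xc160 xc161) (XT.nd (nat_lit 4212) (nat_lit 988) (nat_lit 0) xc162 xc163)) (XT.nd (nat_lit 58734) (nat_lit 0) (nat_lit 0) (XT.nd (nat_lit 4212) (nat_lit 1976) (nat_lit 0) xc164 xc165) (XT.nd (nat_lit 4290) (nat_lit 3268) (nat_lit 0) xc166 xc167))) (XT.nd (nat_lit 118014) (nat_lit 0) (nat_lit 304) (XT.nd (nat_lit 58968) (nat_lit 0) (nat_lit 0) (XT.nd (nat_lit 4212) (nat_lit 4180) (nat_lit 0) xc168 xc169) (XT.nd (nat_lit 4212) (nat_lit 5016) (nat_lit 0) xc170 xc171)) (XT.nd (nat_lit 59124) (nat_lit 0) (nat_lit 0) (XT.nd (nat_lit 4212) (nat_lit 6080) (nat_lit 0) xc172 xc173) (XT.nd (nat_lit 4290) (nat_lit 6536) (nat_lit 0) xc174 xc175)))) (XT.nd (nat_lit 237978) (nat_lit 0) (nat_lit 608)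 (XT.nd (nat_lit 118794) (nat_lit 0) (nat_lit 0) (XT.nd (nat_lit 59358) (nat_lit 0) (nat_lit 0) (XT.nd (nat_lit 4212) (nat_lit 7372) (nat_lit 0) xc176 xc177) (XT.nd (nat_lit 4212) (nat_lit 7372) (nat_lit 0) xc178 xc179)) (XT.nd (nat_lit 59514) (nat_lit 0) (nat_lit 304) (XT.nd (nat_lit 4212) (nat_lit 7372) (nat_lit 0) xc180 xc181) (XT.nd (nat_lit 4290) (nat_lit 6536) (nat_lit 0) xc182 xc183))) (XT.nd (nat_lit 119652) (nat_lit 0) (nat_lit 0) (XT.nd (nat_lit 59748) (nat_lit 0) (nat_lit 0) (XT.nd (nat_lit 4212) (nat_lit 5700) (nat_lit 0) xc184 xc185) (XT.nd (nat_lit 4290) (nat_lit 4712) (nat_lit 0) xc186 xc187)) (XT.nd (nat_lit 59904) (nat_lit 0) (nat_lit 304) (XT.nd (nat_lit 4212) (nat_lit 3496) (nat_lit 0) xc188 xc189) (XT.nd (nat_lit 4290) (nat_lit 1976) (nat_lit 0) xc190 xc191)))))) (XT.nd (nat_lit 1187550) (nat_lit 0) (nat_lit 4104) (XT.nd (nat_lit 536172) (nat_lit 0) (nat_lit 1292) (XT.nd (nat_lit 241098)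 (nat_lit 0) (nat_lit 608) (XT.nd (nat_lit 120354) (nat_lit 0) (nat_lit 304) (XT.nd (nat_lit 60138) (nat_lit 0) (nat_lit 0) (XT.nd (nat_lit 4212) (nat_lit 608) (nat_lit 0) xc192 xc193) (XT.nd (nat_lit 55926) (nat_lit 0) (nat_lit 7752) xc194 xc195)) (XT.nd (nat_lit 60294) (nat_lit 0) (nat_lit 0) (XT.nd (nat_lit 56004) (nat_lit 0) (nat_lit 4788) xc196 xc197) (XT.nd (nat_lit 56160) (nat_lit 0) (nat_lit 2128) xc198 xc199))) (XT.nd (nat_lit 173316) (nat_lit 0) (nat_lit 380) (XT.nd (nat_lit 112632) (nat_lit 0) (nat_lit 380) (XT.nd (nat_lit 56238) (nat_lit 0) (nat_lit 0) xc200 xc201) (XT.nd (nat_lit 4212) (nat_lit 7372) (nat_lit 0) xc202 xc203)) (XT.nd (nat_lit 60762) (nat_lit 0) (nat_lit 304) (XT.nd (nat_lit 4212) (nat_lit 3116) (nat_lit 0) xc204 xc205) (XT.nd (nat_lit 56706) (nat_lit 0) (nat_lit 7068) xc206 xc207)))) (XT.nd (nat_lit 297570) (nat_lit 0) (nat_lit 1140) (XT.nd (nat_lit 174798) (nat_lit 0) (nat_lit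 760) (XT.nd (nat_lit 60996) (nat_lit 0) (nat_lit 380) (XT.nd (nat_lit 56706) (nat_lit 0) (nat_lit 2356) xc208 xc209) (XT.nd (nat_lit 56784) (nat_lit 0) (nat_lit 380) xc210 xc211)) (XT.nd (nat_lit 61308) (nat_lit 0) (nat_lit 380) (XT.nd (nat_lit 4212) (nat_lit 4104) (nat_lit 0) xc212 xc213) (XT.nd (nat_lit 57174) (nat_lit 0) (nat_lit 4712) xc214 xc215))) (XT.nd (nat_lit 176436) (nat_lit 0) (nat_lit 836) (XT.nd (nat_lit 114660) (nat_lit 0) (nat_lit 380) (XT.nd (nat_lit 57252) (nat_lit 0) (nat_lit 380) xc216 xc217) (XT.nd (nat_lit 4290) (nat_lit 3800) (nat_lit 0) xc218 xc219)) (XT.nd (nat_lit 61854) (nat_lit 0) (nat_lit 380) (XT.nd (nat_lit 57564) (nat_lit 0) (nat_lit 1824) xc220 xc221) (XT.nd (nat_lit 57720) (nat_lit 0) (nat_lit 0) xc222 xc223))))) (XT.nd (nat_lit 774228) (nat_lit 0) (nat_lit 4256) (XT.nd (nat_lit 357552) (nat_lit 0) (nat_lit 1976) (XT.nd (nat_lit 178230) (nat_lit 0) (nat_lit 988) (XT.nd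 (nat_lit 62166) (nat_lit 0) (nat_lit 0) (XT.nd (nat_lit 57876) (nat_lit 0) (nat_lit 3040) xc224 xc225) (XT.nd (nat_lit 57954) (nat_lit 0) (nat_lit 532) xc226 xc227)) (XT.nd (nat_lit 62478) (nat_lit 0) (nat_lit 0) (XT.nd (nat_lit 58188) (nat_lit 0) (nat_lit 1520) xc228 xc229) (XT.nd (nat_lit 58344) (nat_lit 0) (nat_lit 456) xc230 xc231))) (XT.nd (nat_lit 234936) (nat_lit 0) (nat_lit 1596) (XT.nd (nat_lit 117234) (nat_lit 0) (nat_lit 532) (XT.nd (nat_lit 58500) (nat_lit 0) (nat_lit 532) xc232 xc233) (XT.nd (nat_lit 58734) (nat_lit 0) (nat_lit 532) xc234 xc235)) (XT.nd (nat_lit 63258) (nat_lit 0) (nat_lit 0) (XT.nd (nat_lit 4212) (nat_lit 684) (nat_lit 0) xc236 xc237) (XT.nd (nat_lit 59124) (nat_lit 0) (nat_lit 684) xc238 xc239)))) (XT.nd (nat_lit 591318) (nat_lit 0) (nat_lit 6004) (XT.nd (nat_lit 293904) (nat_lit 0) (nat_lit 3116) (XT.nd (nat_lit 118872) (nat_lit 0) (nat_lit 1140) (XT.nd (nat_lit 59280)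 (nat_lit 0) (nat_lit 532) xc240 xc241) (XT.nd (nat_lit 59592) (nat_lit 0) (nat_lit 608) xc242 xc243)) (XT.nd (nat_lit 120276) (nat_lit 0) (nat_lit 684) (XT.nd (nat_lit 60060) (nat_lit 0) (nat_lit 0) xc244 xc245) (XT.nd (nat_lit 60372) (nat_lit 684) (nat_lit 0) xc246 xc247))) (XT.nd (nat_lit 357708) (nat_lit 0) (nat_lit 4104) (XT.nd (nat_lit 178230) (nat_lit 0) (nat_lit 1520) (XT.nd (nat_lit 60684) (nat_lit 0) (nat_lit 0) xc248 xc249) (XT.nd (nat_lit 61152) (nat_lit 0) (nat_lit 836) xc250 xc251)) (XT.nd (nat_lit 295932) (nat_lit 0) (nat_lit 988) (XT.nd (nat_lit 118794) (nat_lit 0) (nat_lit 988) xc252 xc253) (XT.nd (nat_lit 178386) (nat_lit 0) (nat_lit 0) xc254 xc255)))))))) XT.nil))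

set_option maxRecDepth 10000000 in
noncomputable def Te : XT := XT.nil

set_option maxRecDepth 10000000 in
noncomputable def Tz : ZL := (ZL.cons (nat_lit 76) (nat_lit 3) (nat_lit 96442060408037726015) (ZL.cons (nat_lit 152) (nat_lit 6) (nat_lit 191164025573111207700) (ZL.cons (nat_lit 380) (nat_lit 6) (nat_lit 178055648440648619266) (ZL.cons (nat_lit 456) (nat_lit 6) (nat_lit 176530894988473888138) (ZL.cons (nat_lit 532) (nat_lit 3) (nat_lit 88248829188064588484) (ZL.cons (nat_lit 608) (nat_lit 6) (nat_lit 174975646467255662390) (ZL.cons (nat_lit 684) (nat_lit 6) (nat_lit 173489015846612831018) (ZL.cons (nat_lit 760) (nat_lit 3) (nat_lit 86728215466274694346) (ZL.cons (nat_lit 912) (nat_lit 6) (nat_lit 171972652613557143018) (ZL.cons (nat_lit 988) (nat_lit 6) (nat_lit 170523729636428340172) (ZL.cons (nat_lit 1064) (nat_lit 3) (nat_lit 85245891821124247377) (ZL.cons (nat_lit 1140) (nat_lit 6) (nat_lit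 169109093796073910036) (ZL.cons (nat_lit 1216) (nat_lit 6) (nat_lit 169045828199756961270) (ZL.cons (nat_lit 1292) (nat_lit 6) (nat_lit 167634219244732545880) (ZL.cons (nat_lit 1368) (nat_lit 3) (nat_lit 83801449821297721266) (ZL.cons (nat_lit 1444) (nat_lit 6) (nat_lit 166256403205036023330) (ZL.cons (nat_lit 1520) (nat_lit 6) (nat_lit 166194378110607642186) (ZL.cons (nat_lit 1596) (nat_lit 6) (nat_lit 164819711242408466978) (ZL.cons (nat_lit 1672) (nat_lit 3) (nat_lit 82394502875058594591) (ZL.cons (nat_lit 1748) (nat_lit 6) (nat_lit 163478359952951564286) (ZL.cons (nat_lit 1824) (nat_lit 6) (nat_lit 163417551036845308262) (ZL.cons (nat_lit 1900) (nat_lit 6) (nat_lit 162169798222123421606) (ZL.cons (nat_lit 1976) (nat_lit 6) (nat_lit 162079476145414245748) (ZL.cons (nat_lit 2052) (nat_lit 3) (nat_lit 81024686360799633760) (ZL.cons (nat_lit 2128) (nat_lit 6) (nat_lit 160774256340572460046) (ZL.cons (nat_lit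 2204) (nat_lit 6) (nat_lit 160714639756154561984) (ZL.cons (nat_lit 2280) (nat_lit 6) (nat_lit 159501379771416091632) (ZL.cons (nat_lit 2356) (nat_lit 6) (nat_lit 159412828715818860402) (ZL.cons (nat_lit 2432) (nat_lit 3) (nat_lit 79691657777607970284) (ZL.cons (nat_lit 2508) (nat_lit 6) (nat_lit 158143429086458697790) (ZL.cons (nat_lit 2584) (nat_lit 6) (nat_lit 158084981454676444788) (ZL.cons (nat_lit 2660) (nat_lit 6) (nat_lit 156905943064297854478) (ZL.cons (nat_lit 2736) (nat_lit 6) (nat_lit 156819128303908412092) (ZL.cons (nat_lit 2812) (nat_lit 3) (nat_lit 78395096916364539462) (ZL.cons (nat_lit 2964) (nat_lit 6) (nat_lit 155585259689911541294) (ZL.cons (nat_lit 3040) (nat_lit 6) (nat_lit 155527958090125018742) (ZL.cons (nat_lit 3116) (nat_lit 6) (nat_lit 154382891742641127738) (ZL.cons (nat_lit 3192) (nat_lit 6) (nat_lit 154297779232455399912) (ZL.cons (nat_lit 3268) (nat_lit 3) (nat_lit 77134706051924105264)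 (ZL.cons (nat_lit 3344) (nat_lit 6) (nat_lit 153211552945255104596) (ZL.cons (nat_lit 3420) (nat_lit 6) (nat_lit 153099174836638783360) (ZL.cons (nat_lit 3496) (nat_lit 6) (nat_lit 153042996797632388702) (ZL.cons (nat_lit 3572) (nat_lit 6) (nat_lit 151931674861735633164) (ZL.cons (nat_lit 3648) (nat_lit 6) (nat_lit 151848231224298645096) (ZL.cons (nat_lit 3724) (nat_lit 3) (nat_lit 75910210156949719911) (ZL.cons (nat_lit 3800) (nat_lit 6) (nat_lit 150794821464618536320) (ZL.cons (nat_lit 3876) (nat_lit 6) (nat_lit 150684646848328025304) (ZL.cons (nat_lit 3952) (nat_lit 6) (nat_lit 150629570339498226620) (ZL.cons (nat_lit 4104) (nat_lit 6) (nat_lit 149551787362122109472) (ZL.cons (nat_lit 4180) (nat_lit 6) (nat_lit 149469979874438787840) (ZL.cons (nat_lit 4256) (nat_lit 3) (nat_lit 74721357138004097215) (ZL.cons (nat_lit 4332) (nat_lit 6) (nat_lit 148449208507058856068) (ZL.cons (nat_lit 4408) (nat_lit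 6) (nat_lit 148341194177362276642) (ZL.cons (nat_lit 4484) (nat_lit 6) (nat_lit 148287197600078160284) (ZL.cons (nat_lit 4560) (nat_lit 6) (nat_lit 147376477899273534400) (ZL.cons (nat_lit 4636) (nat_lit 6) (nat_lit 147242770587211015962) (ZL.cons (nat_lit 4712) (nat_lit 6) (nat_lit 147162567167913641810) (ZL.cons (nat_lit 4788) (nat_lit 3) (nat_lit 73567918094530059431) (ZL.cons (nat_lit 4864) (nat_lit 6) (nat_lit 146174278349635926874) (ZL.cons (nat_lit 4940) (nat_lit 6) (nat_lit 146068381947972613710) (ZL.cons (nat_lit 5016) (nat_lit 6) (nat_lit 146015444127105832968) (ZL.cons (nat_lit 5092) (nat_lit 6) (nat_lit 145135298448073254442) (ZL.cons (nat_lit 5168) (nat_lit 6) (nat_lit 145004212848011961852) (ZL.cons (nat_lit 5244) (nat_lit 6) (nat_lit 144925582044779242098) (ZL.cons (nat_lit 5320) (nat_lit 3) (nat_lit 72449687601382992152) (ZL.cons (nat_lit 5396) (nat_lit 6) (nat_lit 144125423439424346636)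 (ZL.cons (nat_lit 5472) (nat_lit 6) (nat_lit 143969642546816015396) (ZL.cons (nat_lit 5548) (nat_lit 6) (nat_lit 143865822545185316216) (ZL.cons (nat_lit 5624) (nat_lit 6) (nat_lit 143813922720806119410) (ZL.cons (nat_lit 5700) (nat_lit 6) (nat_lit 142964265330541168088) (ZL.cons (nat_lit 5776) (nat_lit 6) (nat_lit 142835750036363430258) (ZL.cons (nat_lit 5852) (nat_lit 6) (nat_lit 142758661013586254026) (ZL.cons (nat_lit 5928) (nat_lit 3) (nat_lit 71366484015610157507) (ZL.cons (nat_lit 6004) (nat_lit 6) (nat_lit 141987686933612410182) (ZL.cons (nat_lit 6080) (nat_lit 6) (nat_lit 141834960568310124652) (ZL.cons (nat_lit 6156) (nat_lit 6) (nat_lit 141733176252985909770) (ZL.cons (nat_lit 6232) (nat_lit 6) (nat_lit 141682294072221991332) (ZL.cons (nat_lit 6308) (nat_lit 6) (nat_lit 140863061674567339288) (ZL.cons (nat_lit 6384) (nat_lit 6) (nat_lit 140737066288118576706) (ZL.cons (nat_lit 6460) (nat_lit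 6) (nat_lit 140661488814807619618) (ZL.cons (nat_lit 6536) (nat_lit 3) (nat_lit 70318149808204820096) (ZL.cons (nat_lit 6612) (nat_lit 6) (nat_lit 139919672218313998556) (ZL.cons (nat_lit 6688) (nat_lit 6) (nat_lit 139769940487625483332) (ZL.cons (nat_lit 6764) (nat_lit 6) (nat_lit 139670151943189978544) (ZL.cons (nat_lit 6840) (nat_lit 6) (nat_lit 139620267452244960468) (ZL.cons (nat_lit 6916) (nat_lit 6) (nat_lit 139004422242900591344) (ZL.cons (nat_lit 6992) (nat_lit 6) (nat_lit 138831419586486828428) (ZL.cons (nat_lit 7068) (nat_lit 6) (nat_lit 138707894697811570998) (ZL.cons (nat_lit 7144) (nat_lit 6) (nat_lit 138633799135742005222) (ZL.cons (nat_lit 7220) (nat_lit 3) (nat_lit 69304551921597483286) (ZL.cons (nat_lit 7296) (nat_lit 6) (nat_lit 137921135537290400764) (ZL.cons (nat_lit 7372) (nat_lit 6) (nat_lit 137774339722889895642) (ZL.cons (nat_lit 7448) (nat_lit 6) (nat_lit 137676507816580577224)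 (ZL.cons (nat_lit 7524) (nat_lit 6) (nat_lit 137627601452908990874) (ZL.cons (nat_lit 7600) (nat_lit 6) (nat_lit 137038731365899260562) (ZL.cons (nat_lit 7676) (nat_lit 6) (nat_lit 136869120918434787116) (ZL.cons (nat_lit 7752) (nat_lit 6) (nat_lit 136748018086400221006) (ZL.cons (nat_lit 7828) (nat_lit 6) (nat_lit 136675375378488882014) (ZL.cons (nat_lit 7904) (nat_lit 3) (nat_lit 68325582153682167157) (ZL.cons (nat_lit 7980) (nat_lit 6) (nat_lit 136183861031461881884) (ZL.cons (nat_lit 8056) (nat_lit 6) (nat_lit 135991883296679792434) (ZL.cons (nat_lit 8132) (nat_lit 6) (nat_lit 135847965831581258000) (ZL.cons (nat_lit 8208) (nat_lit 6) (nat_lit 135752052197944671316) (ZL.cons (nat_lit 8284) (nat_lit 6) (nat_lit 135704104782580370974) (ZL.cons (nat_lit 8360) (nat_lit 6) (nat_lit 135142282842871282186) (ZL.cons (nat_lit 8436) (nat_lit 6) (nat_lit 134975998090455131748) (ZL.cons (nat_lit 8512) (nat_lit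 6) (nat_lit 134857269823754576740) (ZL.cons (nat_lit 8588) (nat_lit 6) (nat_lit 134786051482665028706) (ZL.cons (nat_lit 8664) (nat_lit 3) (nat_lit 67381157569212638032) (ZL.cons (nat_lit 8740) (nat_lit 6) (nat_lit 134319986380360704018) (ZL.cons (nat_lit 8816) (nat_lit 6) (nat_lit 134131772914888067300) (ZL.cons (nat_lit 8892) (nat_lit 6) (nat_lit 133990677360869896288) (ZL.cons (nat_lit 8968) (nat_lit 6) (nat_lit 133896644386716379930) (ZL.cons (nat_lit 9044) (nat_lit 6) (nat_lit 133849637116751379596) (ZL.cons (nat_lit 9120) (nat_lit 6) (nat_lit 133524671439947073388) (ZL.cons (nat_lit 9196) (nat_lit 6) (nat_lit 133314959236183763848) (ZL.cons (nat_lit 9272) (nat_lit 6) (nat_lit 133151934969109106556) (ZL.cons (nat_lit 9348) (nat_lit 6) (nat_lit 133035534707637974194) (ZL.cons (nat_lit 9424) (nat_lit 6) (nat_lit 132965712804609005536) (ZL.cons (nat_lit 9500) (nat_lit 3) (nat_lit 66471220939441878922)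 (ZL.cons (nat_lit 9576) (nat_lit 6) (nat_lit 132525236735252533426) (ZL.cons (nat_lit 9652) (nat_lit 6) (nat_lit 132340713729887203312) (ZL.cons (nat_lit 9728) (nat_lit 6) (nat_lit 132202384755359584670) (ZL.cons (nat_lit 9804) (nat_lit 6) (nat_lit 132110195565013000008) (ZL.cons (nat_lit 9880) (nat_lit 6) (nat_lit 132064110006223783992) (ZL.cons (nat_lit 9956) (nat_lit 6) (nat_lit 131762295716995971630) (ZL.cons (nat_lit 10032) (nat_lit 6) (nat_lit 131556695517228021104) (ZL.cons (nat_lit 10108) (nat_lit 6) (nat_lit 131396867804409729640) (ZL.cons (nat_lit 10184) (nat_lit 6) (nat_lit 131282749901006658698) (ZL.cons (nat_lit 10260) (nat_lit 6) (nat_lit 131214297054899826678) (ZL.cons (nat_lit 10336) (nat_lit 3) (nat_lit 65595741210917929177) (ZL.cons (nat_lit 10412) (nat_lit 6) (nat_lit 131025836988857899422) (ZL.cons (nat_lit 10488) (nat_lit 6) (nat_lit 130799572873008948488) (ZL.cons (nat_lit 10564)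 (nat_lit 6) (nat_lit 130618667965788036612) (ZL.cons (nat_lit 10640) (nat_lit 6) (nat_lit 130483051324094292848) (ZL.cons (nat_lit 10716) (nat_lit 6) (nat_lit 130392669764930974548) (ZL.cons (nat_lit 10792) (nat_lit 6) (nat_lit 130347487844549390220) (ZL.cons (nat_lit 10944) (nat_lit 6) (nat_lit 130069048886389115240) (ZL.cons (nat_lit 11020) (nat_lit 6) (nat_lit 129867480063087202956) (ZL.cons (nat_lit 11096) (nat_lit 6) (nat_lit 129710786226990838780) (ZL.cons (nat_lit 11172) (nat_lit 6) (nat_lit 129598905929536847658) (ZL.cons (nat_lit 11248) (nat_lit 6) (nat_lit 129531795296098777050) (ZL.cons (nat_lit 11324) (nat_lit 3) (nat_lit 64754714004390580523) (ZL.cons (nat_lit 11400) (nat_lit 6) (nat_lit 129364837077373768482) (ZL.cons (nat_lit 11476) (nat_lit 6) (nat_lit 129143009512815973448) (ZL.cons (nat_lit 11552) (nat_lit 6) (nat_lit 128965651760638608864) (ZL.cons (nat_lit 11628) (nat_lit 6) (nat_lit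 128832694268781997330) (ZL.cons (nat_lit 11704) (nat_lit 6) (nat_lit 128744084897053253900) (ZL.cons (nat_lit 11780) (nat_lit 6) (nat_lit 128699788896679151616) (ZL.cons (nat_lit 11856) (nat_lit 6) (nat_lit 128686661284469176710) (ZL.cons (nat_lit 11932) (nat_lit 6) (nat_lit 128444972208876202508) (ZL.cons (nat_lit 12008) (nat_lit 6) (nat_lit 128247355715442955174) (ZL.cons (nat_lit 12084) (nat_lit 6) (nat_lit 128093734307505343232) (ZL.cons (nat_lit 12160) (nat_lit 6) (nat_lit 127984047741373979390) (ZL.cons (nat_lit 12236) (nat_lit 6) (nat_lit 127918253002709204284) (ZL.cons (nat_lit 12312) (nat_lit 3) (nat_lit 63948162144826359002) (ZL.cons (nat_lit 12388) (nat_lit 6) (nat_lit 128034255556384004784) (ZL.cons (nat_lit 12464) (nat_lit 6) (nat_lit 127773094411148698066) (ZL.cons (nat_lit 12540) (nat_lit 6) (nat_lit 127555616406680271564) (ZL.cons (nat_lit 12616) (nat_lit 6) (nat_lit 127381736257486776872)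 (ZL.cons (nat_lit 12692) (nat_lit 6) (nat_lit 127251385775274412622) (ZL.cons (nat_lit 12768) (nat_lit 6) (nat_lit 127164513842207017104) (ZL.cons (nat_lit 12844) (nat_lit 6) (nat_lit 127121086390859858002) (ZL.cons (nat_lit 12920) (nat_lit 6) (nat_lit 127127112638144155220) (ZL.cons (nat_lit 12996) (nat_lit 6) (nat_lit 126890162564033396202) (ZL.cons (nat_lit 13072) (nat_lit 6) (nat_lit 126696420903804722342) (ZL.cons (nat_lit 13148) (nat_lit 6) (nat_lit 126545811680336475342) (ZL.cons (nat_lit 13224) (nat_lit 6) (nat_lit 126438275831188079416) (ZL.cons (nat_lit 13300) (nat_lit 6) (nat_lit 126373771185438299902) (ZL.cons (nat_lit 13376) (nat_lit 3) (nat_lit 63176136223573813540) (ZL.cons (nat_lit 13452) (nat_lit 6) (nat_lit 126506773563677081992) (ZL.cons (nat_lit 13528) (nat_lit 6) (nat_lit 126250733225211095016) (ZL.cons (nat_lit 13604) (nat_lit 6) (nat_lit 126037519495340088640) (ZL.cons (nat_lit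 13680) (nat_lit 6) (nat_lit 125867048760836662472) (ZL.cons (nat_lit 13756) (nat_lit 6) (nat_lit 125739254170432383796) (ZL.cons (nat_lit 13832) (nat_lit 6) (nat_lit 125654085608601603874) (ZL.cons (nat_lit 13908) (nat_lit 6) (nat_lit 125611509675908310640) (ZL.cons (nat_lit 13984) (nat_lit 6) (nat_lit 125911833917522197178) (ZL.cons (nat_lit 14060) (nat_lit 6) (nat_lit 125637077633609908282) (ZL.cons (nat_lit 14136) (nat_lit 6) (nat_lit 125404773639383673948) (ZL.cons (nat_lit 14212) (nat_lit 6) (nat_lit 125214830835237915264) (ZL.cons (nat_lit 14288) (nat_lit 6) (nat_lit 125067174733798457420) (ZL.cons (nat_lit 14364) (nat_lit 6) (nat_lit 124961747430711794748) (ZL.cons (nat_lit 14440) (nat_lit 6) (nat_lit 124898507581937501106) (ZL.cons (nat_lit 14516) (nat_lit 3) (nat_lit 62438715193767440347) (ZL.cons (nat_lit 14592) (nat_lit 6) (nat_lit 125342060390014341998) (ZL.cons (nat_lit 14668) (nat_lit 6)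 (nat_lit 125048955139978227690) (ZL.cons (nat_lit 14744) (nat_lit 6) (nat_lit 124797935200305691436) (ZL.cons (nat_lit 14820) (nat_lit 6) (nat_lit 124588902131804704794) (ZL.cons (nat_lit 14896) (nat_lit 6) (nat_lit 124421773960722914434) (ZL.cons (nat_lit 14972) (nat_lit 6) (nat_lit 124296485146601072594) (ZL.cons (nat_lit 15048) (nat_lit 6) (nat_lit 124212986556570896202) (ZL.cons (nat_lit 15124) (nat_lit 6) (nat_lit 124171245446087275382) (ZL.cons (nat_lit 15200) (nat_lit 6) (nat_lit 124486135108044040818) (ZL.cons (nat_lit 15276) (nat_lit 6) (nat_lit 124216766202247679152) (ZL.cons (nat_lit 15352) (nat_lit 6) (nat_lit 123989017188300390590) (ZL.cons (nat_lit 15428) (nat_lit 6) (nat_lit 123802798752863372272) (ZL.cons (nat_lit 15504) (nat_lit 6) (nat_lit 123658037869099197916) (ZL.cons (nat_lit 15580) (nat_lit 6) (nat_lit 123554677768033842356) (ZL.cons (nat_lit 15656) (nat_lit 6) (nat_lit 123492677916294338786)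 (ZL.cons (nat_lit 15732) (nat_lit 3) (nat_lit 61736007000106669189) (ZL.cons (nat_lit 15808) (nat_lit 6) (nat_lit 123948396824069334258) (ZL.cons (nat_lit 15884) (nat_lit 6) (nat_lit 123661038735798633954) (ZL.cons (nat_lit 15960) (nat_lit 6) (nat_lit 123414940755727519980) (ZL.cons (nat_lit 16036) (nat_lit 6) (nat_lit 123210006374844199742) (ZL.cons (nat_lit 16112) (nat_lit 6) (nat_lit 123046155226724797428) (ZL.cons (nat_lit 16188) (nat_lit 6) (nat_lit 122923323056017109352) (ZL.cons (nat_lit 16264) (nat_lit 6) (nat_lit 122841461693242426614) (ZL.cons (nat_lit 16340) (nat_lit 6) (nat_lit 122800539035905543456) (ZL.cons (nat_lit 16416) (nat_lit 6) (nat_lit 123435529410295686558) (ZL.cons (nat_lit 16492) (nat_lit 6) (nat_lit 123130534868618771902) (ZL.cons (nat_lit 16568) (nat_lit 6) (nat_lit 122866447706073319290) (ZL.cons (nat_lit 16644) (nat_lit 6) (nat_lit 122643164359066173640) (ZL.cons (nat_lit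 16720) (nat_lit 6) (nat_lit 122460597265500469406) (ZL.cons (nat_lit 16796) (nat_lit 6) (nat_lit 122318674830437553372) (ZL.cons (nat_lit 16872) (nat_lit 6) (nat_lit 122217341398020538118) (ZL.cons (nat_lit 16948) (nat_lit 6) (nat_lit 122156557229648475792) (ZL.cons (nat_lit 17024) (nat_lit 3) (nat_lit 61068149244196296521) (ZL.cons (nat_lit 17176) (nat_lit 6) (nat_lit 122625046559975865600) (ZL.cons (nat_lit 17252) (nat_lit 6) (nat_lit 122343322944024198636) (ZL.cons (nat_lit 17328) (nat_lit 6) (nat_lit 122102050414542714348) (ZL.cons (nat_lit 17404) (nat_lit 6) (nat_lit 121901134354853184702) (ZL.cons (nat_lit 17480) (nat_lit 6) (nat_lit 121740495974343966748) (ZL.cons (nat_lit 17556) (nat_lit 6) (nat_lit 121620072277571723536) (ZL.cons (nat_lit 17632) (nat_lit 6) (nat_lit 121539816039557328694) (ZL.cons (nat_lit 17708) (nat_lit 6) (nat_lit 121499695787266266776) (ZL.cons (nat_lit 17784) (nat_lit 6)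 (nat_lit 122144375579160643318) (ZL.cons (nat_lit 17860) (nat_lit 6) (nat_lit 121845361322614648558) (ZL.cons (nat_lit 17936) (nat_lit 6) (nat_lit 121586452339726949918) (ZL.cons (nat_lit 18012) (nat_lit 6) (nat_lit 121367547097563081634) (ZL.cons (nat_lit 18088) (nat_lit 6) (nat_lit 121188559750930038268) (ZL.cons (nat_lit 18164) (nat_lit 6) (nat_lit 121049420108711493136) (ZL.cons (nat_lit 18240) (nat_lit 6) (nat_lit 120950073606341870336) (ZL.cons (nat_lit 18316) (nat_lit 6) (nat_lit 120890481284408475902) (ZL.cons (nat_lit 18392) (nat_lit 3) (nat_lit 60435309886686648367) (ZL.cons (nat_lit 18468) (nat_lit 6) (nat_lit 121688333427749255950) (ZL.cons (nat_lit 18544) (nat_lit 6) (nat_lit 121372367562777449626) (ZL.cons (nat_lit 18620) (nat_lit 6) (nat_lit 121096167939295423190) (ZL.cons (nat_lit 18696) (nat_lit 6) (nat_lit 120859626243725340554) (ZL.cons (nat_lit 18772) (nat_lit 6) (nat_lit 120662649714617958550)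 (ZL.cons (nat_lit 18848) (nat_lit 6) (nat_lit 120505161106275588006) (ZL.cons (nat_lit 18924) (nat_lit 6) (nat_lit 120387098658459663286) (ZL.cons (nat_lit 19000) (nat_lit 6) (nat_lit 120308416072171040894) (ZL.cons (nat_lit 19076) (nat_lit 6) (nat_lit 120269082491493529210) (ZL.cons (nat_lit 19152) (nat_lit 6) (nat_lit 121256741265682326482) (ZL.cons (nat_lit 19228) (nat_lit 6) (nat_lit 120924156176763646076) (ZL.cons (nat_lit 19304) (nat_lit 6) (nat_lit 120631004944855808076) (ZL.cons (nat_lit 19380) (nat_lit 6) (nat_lit 120377172608691397644) (ZL.cons (nat_lit 19456) (nat_lit 6) (nat_lit 120162559626177801288) (ZL.cons (nat_lit 19532) (nat_lit 6) (nat_lit 119987081835361092106) (ZL.cons (nat_lit 19608) (nat_lit 6) (nat_lit 119850670421421341974) (ZL.cons (nat_lit 19684) (nat_lit 6) (nat_lit 119753271889686417662) (ZL.cons (nat_lit 19760) (nat_lit 6) (nat_lit 119694848044653678020) (ZL.cons (nat_lit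 19836) (nat_lit 3) (nat_lit 59837687987505672752) (ZL.cons (nat_lit 19912) (nat_lit 6) (nat_lit 120849429841131593374) (ZL.cons (nat_lit 19988) (nat_lit 6) (nat_lit 120500551395402252102) (ZL.cons (nat_lit 20064) (nat_lit 6) (nat_lit 120190780939547540020) (ZL.cons (nat_lit 20140) (nat_lit 6) (nat_lit 119919996994957318024) (ZL.cons (nat_lit 20216) (nat_lit 6) (nat_lit 119688093371849393872) (ZL.cons (nat_lit 20292) (nat_lit 6) (nat_lit 119494979127626470338) (ZL.cons (nat_lit 20368) (nat_lit 6) (nat_lit 119340578531212381568) (ZL.cons (nat_lit 20444) (nat_lit 6) (nat_lit 119224831033353631844) (ZL.cons (nat_lit 20520) (nat_lit 6) (nat_lit 119147691242874590282) (ZL.cons (nat_lit 20596) (nat_lit 6) (nat_lit 119109128908877029808) (ZL.cons (nat_lit 20672) (nat_lit 6) (nat_lit 120101387099171165196) (ZL.cons (nat_lit 20748) (nat_lit 6) (nat_lit 119775323286505792248) (ZL.cons (nat_lit 20824) (nat_lit 6)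 (nat_lit 119487920117968696170) (ZL.cons (nat_lit 20900) (nat_lit 6) (nat_lit 119239064886434960454) (ZL.cons (nat_lit 20976) (nat_lit 6) (nat_lit 119028660001617709124) (ZL.cons (nat_lit 21052) (nat_lit 6) (nat_lit 118856622951797406002) (ZL.cons (nat_lit 21128) (nat_lit 6) (nat_lit 118722886271464317640) (ZL.cons (nat_lit 21204) (nat_lit 6) (nat_lit 118627397514861450666) (ZL.cons (nat_lit 21280) (nat_lit 6) (nat_lit 118570119235417588272) (ZL.cons (nat_lit 21356) (nat_lit 3) (nat_lit 59275514485531180157) (ZL.cons (nat_lit 21432) (nat_lit 6) (nat_lit 119726506753052255522) (ZL.cons (nat_lit 21508) (nat_lit 6) (nat_lit 119384469061160744470) (ZL.cons (nat_lit 21584) (nat_lit 6) (nat_lit 119080772535812987526) (ZL.cons (nat_lit 21660) (nat_lit 6) (nat_lit 118815298080332377728) (ZL.cons (nat_lit 21736) (nat_lit 6) (nat_lit 118587941587089314834) (ZL.cons (nat_lit 21812) (nat_lit 6) (nat_lit 118398613896674683916)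 (ZL.cons (nat_lit 21888) (nat_lit 6) (nat_lit 118247240762935381202) (ZL.cons (nat_lit 21964) (nat_lit 6) (nat_lit 118133762823858175590) (ZL.cons (nat_lit 22040) (nat_lit 6) (nat_lit 118058135578290487784) (ZL.cons (nat_lit 22116) (nat_lit 6) (nat_lit 118020329368488957906) (ZL.cons (nat_lit 22192) (nat_lit 6) (nat_lit 119375763345145084288) (ZL.cons (nat_lit 22268) (nat_lit 6) (nat_lit 119018064987345594704) (ZL.cons (nat_lit 22344) (nat_lit 6) (nat_lit 118698394582771699656) (ZL.cons (nat_lit 22420) (nat_lit 6) (nat_lit 118416626770480428992) (ZL.cons (nat_lit 22496) (nat_lit 6) (nat_lit 118172651053290492016) (ZL.cons (nat_lit 22572) (nat_lit 6) (nat_lit 117966371754450049534) (ZL.cons (nat_lit 22648) (nat_lit 6) (nat_lit 117797707980116419024) (ZL.cons (nat_lit 22724) (nat_lit 6) (nat_lit 117666593587632999060) (ZL.cons (nat_lit 22800) (nat_lit 6) (nat_lit 117572977159590972616) (ZL.cons (nat_lit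 22876) (nat_lit 6) (nat_lit 117516821983665617326) (ZL.cons (nat_lit 22952) (nat_lit 3) (nat_lit 58749053019109657703) (ZL.cons (nat_lit 23028) (nat_lit 6) (nat_lit 119049019329015178098) (ZL.cons (nat_lit 23104) (nat_lit 6) (nat_lit 118675967377188258580) (ZL.cons (nat_lit 23180) (nat_lit 6) (nat_lit 118340636306706385000) (ZL.cons (nat_lit 23256) (nat_lit 6) (nat_lit 118042894615188976232) (ZL.cons (nat_lit 23332) (nat_lit 6) (nat_lit 117782625541188378390) (ZL.cons (nat_lit 23408) (nat_lit 6) (nat_lit 117559727018401061826) (ZL.cons (nat_lit 23484) (nat_lit 6) (nat_lit 117374111635641619752) (ZL.cons (nat_lit 23560) (nat_lit 6) (nat_lit 117225706602563871992) (ZL.cons (nat_lit 23636) (nat_lit 6) (nat_lit 117114453721115631196) (ZL.cons (nat_lit 23712) (nat_lit 6) (nat_lit 117040309362715937268) (ZL.cons (nat_lit 23788) (nat_lit 6) (nat_lit 117003244451145809936) (ZL.cons (nat_lit 23864) (nat_lit 6)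 (nat_lit 118746146569754250712) (ZL.cons (nat_lit 23940) (nat_lit 6) (nat_lit 118358042074763184200) (ZL.cons (nat_lit 24016) (nat_lit 6) (nat_lit 118007357410253880686) (ZL.cons (nat_lit 24092) (nat_lit 6) (nat_lit 117693955052828493386) (ZL.cons (nat_lit 24168) (nat_lit 6) (nat_lit 117417712099601757440) (ZL.cons (nat_lit 24244) (nat_lit 6) (nat_lit 117178520220003780010) (ZL.cons (nat_lit 24320) (nat_lit 6) (nat_lit 116976285613297463854) (ZL.cons (nat_lit 24396) (nat_lit 6) (nat_lit 116810928971793904530) (ZL.cons (nat_lit 24472) (nat_lit 6) (nat_lit 116682385449751335938) (ZL.cons (nat_lit 24548) (nat_lit 6) (nat_lit 116590604637945427658) (ZL.cons (nat_lit 24624) (nat_lit 6) (nat_lit 116535550543900961688) (ZL.cons (nat_lit 24700) (nat_lit 3) (nat_lit 58258600788888568138) (ZL.cons (nat_lit 24776) (nat_lit 6) (nat_lit 118211549042014310464) (ZL.cons (nat_lit 24852) (nat_lit 6) (nat_lit 118467026293731219414)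 (ZL.cons (nat_lit 24928) (nat_lit 6) (nat_lit 118064164403481185260) (ZL.cons (nat_lit 25004) (nat_lit 6) (nat_lit 117698427195807734752) (ZL.cons (nat_lit 25080) (nat_lit 6) (nat_lit 117369671244354917518) (ZL.cons (nat_lit 25156) (nat_lit 6) (nat_lit 117077767625220203040) (ZL.cons (nat_lit 25232) (nat_lit 6) (nat_lit 116822601866396087506) (ZL.cons (nat_lit 25308) (nat_lit 6) (nat_lit 116604073902879110484) (ZL.cons (nat_lit 25384) (nat_lit 6) (nat_lit 116422098037428677078) (ZL.cons (nat_lit 25460) (nat_lit 6) (nat_lit 116276602906960296922) (ZL.cons (nat_lit 25536) (nat_lit 6) (nat_lit 116167531454560060846) (ZL.cons (nat_lit 25612) (nat_lit 6) (nat_lit 116094840907109380524) (ZL.cons (nat_lit 25688) (nat_lit 6) (nat_lit 116058502758511216474) (ZL.cons (nat_lit 25764) (nat_lit 3) (nat_lit 58190360230155948012) (ZL.cons (nat_lit 25840) (nat_lit 6) (nat_lit 116392356565762953098) (ZL.cons (nat_lit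 25916) (nat_lit 6) (nat_lit 116427269445294732582) (ZL.cons (nat_lit 25992) (nat_lit 6) (nat_lit 116485472790232541054) (ZL.cons (nat_lit 26068) (nat_lit 6) (nat_lit 116566989425417530600) (ZL.cons (nat_lit 26144) (nat_lit 6) (nat_lit 116671851318157616896) (ZL.cons (nat_lit 26220) (nat_lit 6) (nat_lit 116800099590763678410) (ZL.cons (nat_lit 26296) (nat_lit 6) (nat_lit 116951784536675952814) (ZL.cons (nat_lit 26372) (nat_lit 6) (nat_lit 117126965640186954724) (ZL.cons (nat_lit 26448) (nat_lit 6) (nat_lit 117325711599768649240) (ZL.cons (nat_lit 26524) (nat_lit 6) (nat_lit 117548100355013029182) (ZL.cons (nat_lit 26600) (nat_lit 6) (nat_lit 117794219117196660978) (ZL.cons (nat_lit 26676) (nat_lit 6) (nat_lit 117413724514264242828) (ZL.cons (nat_lit 26752) (nat_lit 6) (nat_lit 117069916019647278600) (ZL.cons (nat_lit 26828) (nat_lit 6) (nat_lit 116762658806485134188) (ZL.cons (nat_lit 26904) (nat_lit 6)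 (nat_lit 116491832381753040122) (ZL.cons (nat_lit 26980) (nat_lit 6) (nat_lit 116257330539009924996) (ZL.cons (nat_lit 27056) (nat_lit 6) (nat_lit 116059061316748830724) (ZL.cons (nat_lit 27132) (nat_lit 6) (nat_lit 115896946962333576486) (ZL.cons (nat_lit 27208) (nat_lit 6) (nat_lit 115770923901507528846) (ZL.cons (nat_lit 27284) (nat_lit 6) (nat_lit 115680942713462520728) (ZL.cons (nat_lit 27360) (nat_lit 6) (nat_lit 115626968111458142326) (ZL.cons (nat_lit 27436) (nat_lit 3) (nat_lit 57804489464491901844) (ZL.cons (nat_lit 27512) (nat_lit 6) (nat_lit 115855797472435006660) (ZL.cons (nat_lit 27588) (nat_lit 6) (nat_lit 115879302405446141952) (ZL.cons (nat_lit 27664) (nat_lit 6) (nat_lit 115926321489089201218) (ZL.cons (nat_lit 27740) (nat_lit 6) (nat_lit 115996873162220515068) (ZL.cons (nat_lit 27816) (nat_lit 6) (nat_lit 116090985092162880096) (ZL.cons (nat_lit 27892) (nat_lit 6) (nat_lit 116208694185555489388)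 (ZL.cons (nat_lit 27968) (nat_lit 6) (nat_lit 116350046602827124356) (ZL.cons (nat_lit 28044) (nat_lit 6) (nat_lit 116515097776298283682) (ZL.cons (nat_lit 28120) (nat_lit 6) (nat_lit 116703912431919348214) (ZL.cons (nat_lit 28196) (nat_lit 6) (nat_lit 116916564614653306604) (ZL.cons (nat_lit 28272) (nat_lit 6) (nat_lit 117153137717512995700) (ZL.cons (nat_lit 28348) (nat_lit 6) (nat_lit 116794571827637063830) (ZL.cons (nat_lit 28424) (nat_lit 6) (nat_lit 116472262071310772424) (ZL.cons (nat_lit 28500) (nat_lit 6) (nat_lit 116186082052551248424) (ZL.cons (nat_lit 28576) (nat_lit 6) (nat_lit 115935919543900154766) (ZL.cons (nat_lit 28652) (nat_lit 6) (nat_lit 115721676442412922390) (ZL.cons (nat_lit 28728) (nat_lit 6) (nat_lit 115543268731187007286) (ZL.cons (nat_lit 28804) (nat_lit 6) (nat_lit 115400626446414085564) (ZL.cons (nat_lit 28880) (nat_lit 6) (nat_lit 115293693649943265882) (ZL.cons (nat_lit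 28956) (nat_lit 6) (nat_lit 115222428407344559684) (ZL.cons (nat_lit 29032) (nat_lit 6) (nat_lit 115186802771464006694) (ZL.cons (nat_lit 29108) (nat_lit 3) (nat_lit 57676401598807301788) (ZL.cons (nat_lit 29184) (nat_lit 6) (nat_lit 115364672025174681794) (ZL.cons (nat_lit 29260) (nat_lit 6) (nat_lit 115400283162297096868) (ZL.cons (nat_lit 29336) (nat_lit 6) (nat_lit 115459650574133661512) (ZL.cons (nat_lit 29412) (nat_lit 6) (nat_lit 115542797542022350844) (ZL.cons (nat_lit 29488) (nat_lit 6) (nat_lit 115649756672617238868) (ZL.cons (nat_lit 29564) (nat_lit 6) (nat_lit 115780569910675421614) (ZL.cons (nat_lit 29640) (nat_lit 6) (nat_lit 115935288555505941504) (ZL.cons (nat_lit 29716) (nat_lit 6) (nat_lit 116113973281087163452) (ZL.cons (nat_lit 29792) (nat_lit 6) (nat_lit 116316694159860491858) (ZL.cons (nat_lit 29868) (nat_lit 6) (nat_lit 116543530690209759402) (ZL.cons (nat_lit 29944) (nat_lit 6)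 (nat_lit 116206463538624500354) (ZL.cons (nat_lit 30020) (nat_lit 6) (nat_lit 115905230976700829360) (ZL.cons (nat_lit 30096) (nat_lit 6) (nat_lit 115639714874022305768) (ZL.cons (nat_lit 30172) (nat_lit 6) (nat_lit 115409811106627094860) (ZL.cons (nat_lit 30248) (nat_lit 6) (nat_lit 115215429516175041652) (ZL.cons (nat_lit 30324) (nat_lit 6) (nat_lit 115056493874591459064) (ZL.cons (nat_lit 30400) (nat_lit 6) (nat_lit 114932941854173765300) (ZL.cons (nat_lit 30476) (nat_lit 6) (nat_lit 114844725003149247538) (ZL.cons (nat_lit 30552) (nat_lit 6) (nat_lit 114791808726674366752) (ZL.cons (nat_lit 30628) (nat_lit 3) (nat_lit 57387086136634076200) (ZL.cons (nat_lit 30704) (nat_lit 6) (nat_lit 114883176488644951532) (ZL.cons (nat_lit 30780) (nat_lit 6) (nat_lit 114907151520316309532) (ZL.cons (nat_lit 30856) (nat_lit 6) (nat_lit 114955110985632229984) (ZL.cons (nat_lit 30932) (nat_lit 6) (nat_lit 115027073692226170110)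 (ZL.cons (nat_lit 31008) (nat_lit 6) (nat_lit 115123067860767382438) (ZL.cons (nat_lit 31084) (nat_lit 6) (nat_lit 115243131136027843916) (ZL.cons (nat_lit 31160) (nat_lit 6) (nat_lit 115387310601644911584) (ZL.cons (nat_lit 31236) (nat_lit 6) (nat_lit 115555662798585494096) (ZL.cons (nat_lit 31312) (nat_lit 6) (nat_lit 115748253747318979918) (ZL.cons (nat_lit 31388) (nat_lit 6) (nat_lit 115965158973707617478) (ZL.cons (nat_lit 31464) (nat_lit 6) (nat_lit 115649169016524978842) (ZL.cons (nat_lit 31540) (nat_lit 6) (nat_lit 115368600370682308256) (ZL.cons (nat_lit 31616) (nat_lit 6) (nat_lit 115123343009259667414) (ZL.cons (nat_lit 31692) (nat_lit 6) (nat_lit 114913300752899635674) (ZL.cons (nat_lit 31768) (nat_lit 6) (nat_lit 114738391232089914982) (ZL.cons (nat_lit 31844) (nat_lit 6) (nat_lit 114598545854861560352) (ZL.cons (nat_lit 31920) (nat_lit 6) (nat_lit 114493709779890168508) (ZL.cons (nat_lit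 31996) (nat_lit 6) (nat_lit 114423841894989476158) (ZL.cons (nat_lit 32072) (nat_lit 6) (nat_lit 114388914800988934010) (ZL.cons (nat_lit 32148) (nat_lit 3) (nat_lit 57217313487038959950) (ZL.cons (nat_lit 32224) (nat_lit 6) (nat_lit 114446733178189199682) (ZL.cons (nat_lit 32300) (nat_lit 6) (nat_lit 114483056538054063060) (ZL.cons (nat_lit 32376) (nat_lit 6) (nat_lit 114543611298127358994) (ZL.cons (nat_lit 32452) (nat_lit 6) (nat_lit 114628421205373822116) (ZL.cons (nat_lit 32528) (nat_lit 6) (nat_lit 114737519518580607898) (ZL.cons (nat_lit 32604) (nat_lit 6) (nat_lit 114870949021399954298) (ZL.cons (nat_lit 32680) (nat_lit 6) (nat_lit 115028762039127084588) (ZL.cons (nat_lit 32756) (nat_lit 6) (nat_lit 115211020459219930974) (ZL.cons (nat_lit 32832) (nat_lit 6) (nat_lit 115417795755568725950) (ZL.cons (nat_lit 32908) (nat_lit 6) (nat_lit 115122469714467087722) (ZL.cons (nat_lit 32984) (nat_lit 6)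 (nat_lit 114862159809880299886) (ZL.cons (nat_lit 33060) (nat_lit 6) (nat_lit 114636763959492838212) (ZL.cons (nat_lit 33136) (nat_lit 6) (nat_lit 114446193772775138988) (ZL.cons (nat_lit 33212) (nat_lit 6) (nat_lit 114290374516320646254) (ZL.cons (nat_lit 33288) (nat_lit 6) (nat_lit 114169245084538593544) (ZL.cons (nat_lit 33364) (nat_lit 6) (nat_lit 114082757975691027112) (ZL.cons (nat_lit 33440) (nat_lit 6) (nat_lit 114030879273264673400) (ZL.cons (nat_lit 33516) (nat_lit 3) (nat_lit 57006794316335172802) (ZL.cons (nat_lit 33592) (nat_lit 6) (nat_lit 114018847579703168458) (ZL.cons (nat_lit 33668) (nat_lit 6) (nat_lit 114043302112007953618) (ZL.cons (nat_lit 33744) (nat_lit 6) (nat_lit 114092220766630192478) (ZL.cons (nat_lit 33820) (nat_lit 6) (nat_lit 114165622727356011408) (ZL.cons (nat_lit 33896) (nat_lit 6) (nat_lit 114263536779268047984) (ZL.cons (nat_lit 33972) (nat_lit 6) (nat_lit 114386001320033718688)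 (ZL.cons (nat_lit 34048) (nat_lit 6) (nat_lit 114533064374963127710) (ZL.cons (nat_lit 34124) (nat_lit 6) (nat_lit 114704783615842521874) (ZL.cons (nat_lit 34200) (nat_lit 6) (nat_lit 114901226383550677414) (ZL.cons (nat_lit 34276) (nat_lit 6) (nat_lit 114626159083704921936) (ZL.cons (nat_lit 34352) (nat_lit 6) (nat_lit 114385710690153313268) (ZL.cons (nat_lit 34428) (nat_lit 6) (nat_lit 114179786909408184110) (ZL.cons (nat_lit 34504) (nat_lit 6) (nat_lit 114008306987045712844) (ZL.cons (nat_lit 34580) (nat_lit 6) (nat_lit 113871203676037522030) (ZL.cons (nat_lit 34656) (nat_lit 6) (nat_lit 113768423210379294732) (ZL.cons (nat_lit 34732) (nat_lit 6) (nat_lit 113699925284006066938) (ZL.cons (nat_lit 34808) (nat_lit 6) (nat_lit 113665683034985927578) (ZL.cons (nat_lit 34884) (nat_lit 3) (nat_lit 56811663463292149883) (ZL.cons (nat_lit 34960) (nat_lit 6) (nat_lit 113635675254777805144) (ZL.cons (nat_lit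 35036) (nat_lit 6) (nat_lit 113672725081839965786) (ZL.cons (nat_lit 35112) (nat_lit 6) (nat_lit 113734490937114727642) (ZL.cons (nat_lit 35188) (nat_lit 6) (nat_lit 113820997042506120026) (ZL.cons (nat_lit 35264) (nat_lit 6) (nat_lit 113932277321977041524) (ZL.cons (nat_lit 35340) (nat_lit 6) (nat_lit 114068375414852774850) (ZL.cons (nat_lit 35416) (nat_lit 6) (nat_lit 114229344692934447746) (ZL.cons (nat_lit 35492) (nat_lit 6) (nat_lit 114415248281429151064) (ZL.cons (nat_lit 35568) (nat_lit 6) (nat_lit 114160042492618574754) (ZL.cons (nat_lit 35644) (nat_lit 6) (nat_lit 113939066168709298602) (ZL.cons (nat_lit 35720) (nat_lit 6) (nat_lit 113752232652319397402) (ZL.cons (nat_lit 35796) (nat_lit 6) (nat_lit 113599468675403228056) (ZL.cons (nat_lit 35872) (nat_lit 6) (nat_lit 113480714330518862654) (ZL.cons (nat_lit 35948) (nat_lit 6) (nat_lit 113395923047334973994) (ZL.cons (nat_lit 36024) (nat_lit 6)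 (nat_lit 113345061574367960552) (ZL.cons (nat_lit 36100) (nat_lit 3) (nat_lit 56664054982971074494) (ZL.cons (nat_lit 36176) (nat_lit 6) (nat_lit 113260016112694115620) (ZL.cons (nat_lit 36252) (nat_lit 6) (nat_lit 113284959735644996480) (ZL.cons (nat_lit 36328) (nat_lit 6) (nat_lit 113334856763359680118) (ZL.cons (nat_lit 36404) (nat_lit 6) (nat_lit 113409726763300015428) (ZL.cons (nat_lit 36480) (nat_lit 6) (nat_lit 113509599096250292734) (ZL.cons (nat_lit 36556) (nat_lit 6) (nat_lit 113634512927831276854) (ZL.cons (nat_lit 36632) (nat_lit 6) (nat_lit 113784517243859274054) (ZL.cons (nat_lit 36708) (nat_lit 6) (nat_lit 113959670869556256104) (ZL.cons (nat_lit 36784) (nat_lit 6) (nat_lit 113723937150388012310) (ZL.cons (nat_lit 36860) (nat_lit 6) (nat_lit 113522051090833964116) (ZL.cons (nat_lit 36936) (nat_lit 6) (nat_lit 113353933519890364836) (ZL.cons (nat_lit 37012) (nat_lit 6) (nat_lit 113219518509098020902)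 (ZL.cons (nat_lit 37088) (nat_lit 6) (nat_lit 113118753346687994138) (ZL.cons (nat_lit 37164) (nat_lit 6) (nat_lit 113051598516910319830) (ZL.cons (nat_lit 37240) (nat_lit 6) (nat_lit 113018027684537634184) (ZL.cons (nat_lit 37316) (nat_lit 3) (nat_lit 56458088684223131995) (ZL.cons (nat_lit 37392) (nat_lit 6) (nat_lit 112928772663203639472) (ZL.cons (nat_lit 37468) (nat_lit 6) (nat_lit 112966563486807043328) (ZL.cons (nat_lit 37544) (nat_lit 6) (nat_lit 113029564659187300420) (ZL.cons (nat_lit 37620) (nat_lit 6) (nat_lit 113117800886686520652) (ZL.cons (nat_lit 37696) (nat_lit 6) (nat_lit 113231306771746860580) (ZL.cons (nat_lit 37772) (nat_lit 6) (nat_lit 113370126826480108574) (ZL.cons (nat_lit 37848) (nat_lit 6) (nat_lit 113534315490123414928) (ZL.cons (nat_lit 37924) (nat_lit 6) (nat_lit 113317672035310399092) (ZL.cons (nat_lit 38000) (nat_lit 6) (nat_lit 113134501921202652818) (ZL.cons (nat_lit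 38076) (nat_lit 6) (nat_lit 112984733316382878950) (ZL.cons (nat_lit 38152) (nat_lit 6) (nat_lit 112868307488064873654) (ZL.cons (nat_lit 38228) (nat_lit 6) (nat_lit 112785178779061061242) (ZL.cons (nat_lit 38304) (nat_lit 6) (nat_lit 112735314589877714730) (ZL.cons (nat_lit 38380) (nat_lit 3) (nat_lit 56359347682965420324) (ZL.cons (nat_lit 38456) (nat_lit 6) (nat_lit 112604024183311015800) (ZL.cons (nat_lit 38532) (nat_lit 6) (nat_lit 112629466678720914278) (ZL.cons (nat_lit 38608) (nat_lit 6) (nat_lit 112680361646989891588) (ZL.cons (nat_lit 38684) (nat_lit 6) (nat_lit 112756729046929033602) (ZL.cons (nat_lit 38760) (nat_lit 6) (nat_lit 112858598826538316456) (ZL.cons (nat_lit 38836) (nat_lit 6) (nat_lit 112986010934750920258) (ZL.cons (nat_lit 38912) (nat_lit 6) (nat_lit 113139015337099477406) (ZL.cons (nat_lit 38988) (nat_lit 6) (nat_lit 112941087827732763490) (ZL.cons (nat_lit 39064) (nat_lit 6)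 (nat_lit 112776266679748842628) (ZL.cons (nat_lit 39140) (nat_lit 6) (nat_lit 112644487257403407398) (ZL.cons (nat_lit 39216) (nat_lit 6) (nat_lit 112545697882491616454) (ZL.cons (nat_lit 39292) (nat_lit 6) (nat_lit 112479859814082131838) (ZL.cons (nat_lit 39368) (nat_lit 6) (nat_lit 112446947233324596890) (ZL.cons (nat_lit 39444) (nat_lit 3) (nat_lit 56155293471811034765) (ZL.cons (nat_lit 39520) (nat_lit 6) (nat_lit 112323434144274592526) (ZL.cons (nat_lit 39596) (nat_lit 6) (nat_lit 112361980784350064458) (ZL.cons (nat_lit 39672) (nat_lit 6) (nat_lit 112426241980177926690) (ZL.cons (nat_lit 39748) (nat_lit 6) (nat_lit 112516242932227131326) (ZL.cons (nat_lit 39824) (nat_lit 6) (nat_lit 112632018934988678054) (ZL.cons (nat_lit 39900) (nat_lit 6) (nat_lit 112773615390816591010) (ZL.cons (nat_lit 39976) (nat_lit 6) (nat_lit 112594036847573702506) (ZL.cons (nat_lit 40052) (nat_lit 6) (nat_lit 112447204882064120282)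 (ZL.cons (nat_lit 40128) (nat_lit 6) (nat_lit 112333061913124899404) (ZL.cons (nat_lit 40204) (nat_lit 6) (nat_lit 112251563178807436256) (ZL.cons (nat_lit 40280) (nat_lit 6) (nat_lit 112202676718823763204) (ZL.cons (nat_lit 40356) (nat_lit 3) (nat_lit 56093191681006551169) (ZL.cons (nat_lit 40432) (nat_lit 6) (nat_lit 112048345870709471668) (ZL.cons (nat_lit 40508) (nat_lit 6) (nat_lit 112074297216027568118) (ZL.cons (nat_lit 40584) (nat_lit 6) (nat_lit 112126210083661924972) (ZL.cons (nat_lit 40660) (nat_lit 6) (nat_lit 112204104831599849826) (ZL.cons (nat_lit 40736) (nat_lit 6) (nat_lit 112308012006801318336) (ZL.cons (nat_lit 40812) (nat_lit 6) (nat_lit 112437972357178174218) (ZL.cons (nat_lit 40888) (nat_lit 6) (nat_lit 112276382996409624352) (ZL.cons (nat_lit 40964) (nat_lit 6) (nat_lit 112147187484306256480) (ZL.cons (nat_lit 41040) (nat_lit 6) (nat_lit 112050335155961363398) (ZL.cons (nat_lit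 41116) (nat_lit 6) (nat_lit 111985788030069711814) (ZL.cons (nat_lit 41192) (nat_lit 6) (nat_lit 111953520794032912844) (ZL.cons (nat_lit 41268) (nat_lit 3) (nat_lit 55902046990135606222) (ZL.cons (nat_lit 41344) (nat_lit 6) (nat_lit 111817198124936785898) (ZL.cons (nat_lit 41420) (nat_lit 6) (nat_lit 111856515697813767270) (ZL.cons (nat_lit 41496) (nat_lit 6) (nat_lit 111922062117558186746) (ZL.cons (nat_lit 41572) (nat_lit 6) (nat_lit 112013863088648375474) (ZL.cons (nat_lit 41648) (nat_lit 6) (nat_lit 112131954611465153138) (ZL.cons (nat_lit 41724) (nat_lit 6) (nat_lit 111988001704102817624) (ZL.cons (nat_lit 41800) (nat_lit 6) (nat_lit 111876096832593777548) (ZL.cons (nat_lit 41876) (nat_lit 6) (nat_lit 111796196112674696030) (ZL.cons (nat_lit 41952) (nat_lit 6) (nat_lit 111748268210729918528) (ZL.cons (nat_lit 42028) (nat_lit 3) (nat_lit 55866147165751890212) (ZL.cons (nat_lit 42104) (nat_lit 6)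 (nat_lit 111590582687904741026) (ZL.cons (nat_lit 42180) (nat_lit 6) (nat_lit 111617053060129199402) (ZL.cons (nat_lit 42256) (nat_lit 6) (nat_lit 111670004185116243396) (ZL.cons (nat_lit 42332) (nat_lit 6) (nat_lit 111749456828012926746) (ZL.cons (nat_lit 42408) (nat_lit 6) (nat_lit 111855442146718424628) (ZL.cons (nat_lit 42484) (nat_lit 6) (nat_lit 111728779879950416910) (ZL.cons (nat_lit 42560) (nat_lit 6) (nat_lit 111633826616867188398) (ZL.cons (nat_lit 42636) (nat_lit 6) (nat_lit 111570545120894980962) (ZL.cons (nat_lit 42712) (nat_lit 6) (nat_lit 111538910575760864326) (ZL.cons (nat_lit 42788) (nat_lit 3) (nat_lit 55697181018066298702) (ZL.cons (nat_lit 42864) (nat_lit 6) (nat_lit 111407728263691482326) (ZL.cons (nat_lit 42940) (nat_lit 6) (nat_lit 111447832188026003324) (ZL.cons (nat_lit 43016) (nat_lit 6) (nat_lit 111514689536165311192) (ZL.cons (nat_lit 43092) (nat_lit 6) (nat_lit 111608326526677303696)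 (ZL.cons (nat_lit 43168) (nat_lit 6) (nat_lit 111498615868335107542) (ZL.cons (nat_lit 43244) (nat_lit 6) (nat_lit 111420281829198753112) (ZL.cons (nat_lit 43320) (nat_lit 6) (nat_lit 111373293690037206542) (ZL.cons (nat_lit 43396) (nat_lit 3) (nat_lit 55678816512064614005) (ZL.cons (nat_lit 43472) (nat_lit 6) (nat_lit 111228459220345150268) (ZL.cons (nat_lit 43548) (nat_lit 6) (nat_lit 111255459000014097812) (ZL.cons (nat_lit 43624) (nat_lit 6) (nat_lit 111309469147500882684) (ZL.cons (nat_lit 43700) (nat_lit 6) (nat_lit 111390510843255499706) (ZL.cons (nat_lit 43776) (nat_lit 6) (nat_lit 111297419408860177634) (ZL.cons (nat_lit 43852) (nat_lit 6) (nat_lit 111235378726534484070) (ZL.cons (nat_lit 43928) (nat_lit 6) (nat_lit 111204364466599075604) (ZL.cons (nat_lit 44004) (nat_lit 3) (nat_lit 55539587814252288607) (ZL.cons (nat_lit 44080) (nat_lit 6) (nat_lit 111092809180614639836) (ZL.cons (nat_lit 44156)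 (nat_lit 6) (nat_lit 111133715183435851254) (ZL.cons (nat_lit 44232) (nat_lit 6) (nat_lit 111201909678537945280) (ZL.cons (nat_lit 44308) (nat_lit 6) (nat_lit 111125111600953284074) (ZL.cons (nat_lit 44384) (nat_lit 6) (nat_lit 111079044797853728614) (ZL.cons (nat_lit 44460) (nat_lit 3) (nat_lit 55531845601913149340) (ZL.cons (nat_lit 44536) (nat_lit 6) (nat_lit 110959818945584727648) (ZL.cons (nat_lit 44612) (nat_lit 6) (nat_lit 110987358720847054144) (ZL.cons (nat_lit 44688) (nat_lit 6) (nat_lit 111042449071283574716) (ZL.cons (nat_lit 44764) (nat_lit 6) (nat_lit 110981624872925051614) (ZL.cons (nat_lit 44840) (nat_lit 6) (nat_lit 110951218735733474686) (ZL.cons (nat_lit 44916) (nat_lit 3) (nat_lit 55428218070945508093) (ZL.cons (nat_lit 44992) (nat_lit 6) (nat_lit 110870342365043280060) (ZL.cons (nat_lit 45068) (nat_lit 6) (nat_lit 110912066487920915710) (ZL.cons (nat_lit 45144) (nat_lit 6) (nat_lit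 110866902955470371140) (ZL.cons (nat_lit 45220) (nat_lit 3) (nat_lit 55425925206153112073) (ZL.cons (nat_lit 45296) (nat_lit 6) (nat_lit 110782620227257547130) (ZL.cons (nat_lit 45372) (nat_lit 6) (nat_lit 110810710798025120158) (ZL.cons (nat_lit 45448) (nat_lit 6) (nat_lit 110780900859602005522) (ZL.cons (nat_lit 45524) (nat_lit 3) (nat_lit 55362078953325754004) (ZL.cons (nat_lit 45600) (nat_lit 6) (nat_lit 110738342254266817162) (ZL.cons (nat_lit 45676) (nat_lit 3) (nat_lit 55361792429503924760) (ZL.cons (nat_lit 45752) (nat_lit 6) (nat_lit 110694932476824925034) (ZL.cons (nat_lit 45828) (nat_lit 1) (nat_lit 18446744073709551617) ZL.nil))))))))))))))))))))))))))))))))))))))))))))))))))))))))))))))))))))))))))))))))))))))))))))))))))))))))))))))))))))))))))))))))))))))))))))))))))))))))))))))))))))))))))))))))))))))))))))))))))))))))))))))))))))))))))))))))))))))))))))))))))))))))))))))))))))))))))))))))))))))))))))))))))))))))))))))))))))))))))))))))))))))))))))))))))))))))))))))))))))))))))))))))))))))))))))))))))))))))))))))))))))))))))))))))))))))))))))))))))))))))))))))))))))))))))))))))))))))))))))))))))))))))))))))))))))))))))))))))))))))))))))))))))))))))))))))))))))))))))))))))))))))))))))))))))))))))))))))))))))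

noncomputable def vl : XL := ⟨(nat_lit 0), (nat_lit 76), (nat_lit 426429311), (nat_lit 152), (nat_lit 95705247), (nat_lit 152), (nat_lit 95705247), (nat_lit 1), (nat_lit 4), (nat_lit 2), (nat_lit 5), (nat_lit 2), (nat_lit 4), (nat_lit 0), (nat_lit 0), (nat_lit 0)⟩

noncomputable def cp0 : Nat := (nat_lit 126948385918307619283067314879289054936511059870835408719029883667522062720283758602067780512200124096226958156389381646437836351325601658259804468278275666706230409676033114399791213832347340104540920400105714481868436764330927284757388266166437206973078238887731736480224662701275958097790324972399576572824453935213353262746547128313654616140738127303563525098667973980459450792595963823508232585303601773795122238834790535174432198765081699880544406366358866788071962992851164197062773364194718922196678615863464487961527258703861662913689092053903708604195216576841180687720159166744385420540636223001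40183748813453074001428912494731615463644584905592430170719836199334947851243343280250030541603588450779396207752858046329401444292595573456855423613780279779780715919859210425857778153729644784529951693639084110885805247981917064079539697237300758597154296450295533329965182699945716905435320276585078637128124875451281435334338288842833087613261072417999659462287887514305578230153000799701340663295676951846436348850864359467654868691456342935566989466091706212017935261184063355525363542408484656114065094112358232460837776324339550558381790070399608384158467293667290332940206909865700001211457523257487601657052871394279092444180076920820594760372928569074460021457502477781639980367853350372605806631717513848681696225063373386380253330113458156878014047948511141489850201478903735990364714147077300891126645170818233863177329533350396437818228818109178015453157395002713830865756386216448010275986742278682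17397102513695335326939644067716749852827826416970465701563984586957191408045562747798060093438731188937723251899399268317244493609119466211292398223619445545252795923968698082510678129783211669184045881584599694021520166527064265235307504333029212081198662226263876910352922817001531700472769246074998282089965890052695057783022369434164129449091832949916528888072733678508725482180379757560147732979534547224873616029014151358954291754003306959717060660106746583420297899066385336053727799607663727257732579102236846387862723561333843751239071107133925317121298582262910489213913970926602777195115479469700850442708450225089209194729904482034444674913975136145937135519432579163298819897093315310616162197867187306547776849262775024723329809971127927564481147362770233135302516544773625684890034177525035214485275075170402883243649572658511731902330090218068866240929632481783931348254845232276603021197741596056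71139860499007383370703317975483111633112568450965071142355287101971490875374040873582662208094265072462991804652511327786158355264238855984054733989005205234367736788261996903944946898918194779709338681230523067658656657146835157104799473797351813184884085106080116416373128951070064732389686462903488419274472594025255104347292487988979447843956928029585568928193812848614545001743253549734880803146392784045169458783787007007225306441287715617781299630997790556621056829292072553319882312355263637394098713384320564362993592126256270243357131031986158408408213177234675622751679096596190529678577334656129459251577609013979634419399462216919791953670604160404395697276727372823038160573415821226973629775949709621601793696823500709762807745890534895735353109337784861392930393305084566150677122023951368423739435860825890637119516560403980613794130257192018660037628196569910589203547414245780100343459347195927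28278185112646894318307815225183275545411028819384656069925694817646837463386696905142366716025143041872075166241456577056337076393517477461253909392627675307576931361272083404292532177875811809679215891676450595767035868234025841373369655364481718730482294779792551841123160058191049937145197030627092791044167474006737531671673242115240676713108286621415883480360923775680940438626627069832065812117732705259683258530788202591780033188449490810226664115578525862997779138922392398442022700584854009255493585767567660556680950462272337546734318553510099034459423636742775670981863307425530553654754066071195499382407075480001738314651872000162112229050394223595086235191532437594799647364767694706037425667733061898543811196470506793164950663713878974991851579095601592247398256968539030063947746032243929217278583313903236571754021974102023810512792650857805517586388803524327486199697973494379314228924390309457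42906325097536362600555646663840809522062123004333153159915090772657171773157215303358385305202530915623785243991329939160132332563033593957663850976035598451551904893301668766893421116105470156489802842723221103498042211612999776356789920827149748507166540704986276377803287853014436168323673863592597947444306999893620893922173865539006527417107519208416288126446703900063913396802032122662241890789898889581131316705479329174463212216516185855973480443396829906473820338938929948747499255777484866369610171098158926664418698247003040364858645800583800510705095362419715695802115112830887738847261751716722104640658620526506845215963907343951056873297049702605167212418301870672935966275335124526947198616754260088793588436415567181632866230315035940711942451948419155465364454676452684261415124937868484730583351365101750993885603288430573721156942290072346671080378135537539918408369021143386517430733729346967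35301721375821626503621049384693064465401094549872459193168195385741663575446141106431814741254375599755761352368464354362983938617532177319426307795007528067085340932207352359544374104597447645948451434012852955718889113109192835882682438126996739798772494543735828175819242860382744022160602089648441934897875394096919658103465441357350747980281773589578854237791023469821367386650047399731493463308594577642041408027571599911770313686829301508532856535553633498660050250463818280432564556537085616722380371841889755191075199551699788869795317319615018383876707102572991254908746157666121307842773326459569381879787042451625581938582323650345757825441286920398487183771585853187068990918216250350727815634492612994591603668901460283539247554415800476851073785413468731622259112855363822337034404824025605047847003618767678871215174509612785463469721235005229747795290667209437429647845370073798883107865210046732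20675626718253481581722550164459586456765395923417621333146730299860869760656282495283192634788123668353959398597816617584699694946629436702956716450479744942566190988943573070326326783329164224813502327493258335089342777170512032492355547778517570057285469487030527017267303022446860228766877044510342091898968072929183605980485569525102139773202447984338573518256517805763157875943640376126011730074449804602314880670202526877867343459510282546911144477863943399421159907642065809133621219887946944649213567716993280350645080176328146254441523673863220328649368548448120410075548941322109926807695164094203173039471110399535842783892487082708771221249160840193347200785460870759046982448901443428490320476885283505486766602280702115498409011777602134889023435634327464082386080883197286325884757913915576487570157525828528946229161827471682060283599166599736345799981575141247323063328359343232611425041470767479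72806755867059527289725134574614347464944106254849970197844955042698933077191487245472830133394583161935746125844593284783419420530266238940910004459408248303332649823478385947583517913896348786160343098531139724995084206875386323376377034101593749407842463710148231848740803991716961325310955259413783228713514134247256973747860056297534476617111743561828528523628683871937523407044113505367612172848964905959103300589479033444112040321637998570128714183567752743603116082913116719126348027800018066148830162938285205296069192715808604501149807483235949104987365297618732006622959793045127686957252099783667110768157538811574788134490253858710341166122293341523828817273968572437882734767194422195772883924679399607694167636918130365151922463432304441720860243772051889698083993957374549728747001749411015169739550493768265131967742448933123660337842010571463043162254035023072340527724966868698339273524210172539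10747089754504746402812288904859013134220574875381545940815472826750793116217423603043557527566326449124660297353125934902834669952926706520048744624089117386724863584268948950641388905227893551682713464702849255874940064216458655540070850970014276702712039208691467685232960055288595355972416628192370689038847729338583748066248062544904260943212380176405730982666659635514568936864320814851319370427525441289254253615193018814968821646047277256981251364948190646442958521563711367469683550618923154766084055219184208595248998760068386073882774466016600008582920443764047316918815933730500068279705278895143266863432763503340656262010794624700329935339587811622022828016903726515866143116339699942685773558351684536291147283949005626930952486117468446756314478276842773858416067902528021811934570615513721090467560610348083049536490548962004997578713019381730674252913400363897334664731840415652154810008682386035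22901814895540750378036052332712369639163044325238140182133670785043075201313316299656097276804148641326520610736296746727442593994903427966438457480468498217156500116071578362973323818195532789032163277885108255807924534587256200675921424318320900411889320053235163390448117426960045873406720458505624323614820939538014947848148407847045807127716431586766691686749205320733174957619655316068650368063020142945869501714836981049643769152602609263882434625405085832423209565586221054759168132319328721594197722450152444238906667570760886604888505900076993587509689880342174861228455832593250454671664552180820831275359534012655708096459989904674951600160280251288881243049562198091905680274814162953018479821130206724316363988542404326102836987308912159199805743024882937550168759676492181970859854846298137579457319735551138564349588166494439376259422078531965024014259154271744125290396536775462146601112980989024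21759685169423269900987162945323797197081636220847225646145346251085933811144840851700217293406373480545875554935240350309949044696231434835565210399404075603512509998890803838294462155768696175508531608071648844435816838326650844243379237602030077016761242871832436495246299826760506719474005410314752405278550884309619224277392674954221145364318731134218367317873206406768527630585412167912224351699270554781403289123104976199417517118695463368634440322845594499002407847929425743800037354492721458800159436521210527958839380107761810039570061367644566411877949243473264475547143167067150860605615043672454792372392051641140122609364799822049057555152952942717159075758470756539145000292779821384473364881253300309144088677254890931472885506158147164961529185599111143358242935118361766662676195164508211838791024582562344990960102759310995910675557911640018021253188362119808488269066488334328432744737290460767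69426597458807208790191122129328158149132393919481542507131786891133039752795457080946546427830418441691339047840841129191518219858430982652207488360037294006950034819880534688401158885296593461974173633143929680802457864651648223890437835342337321661339400242888844683394905691595102884813620532161304743737486437673264216995319477352793987731438543987590258999115959868714733390117167495378699386424962721121239891744052198838465875480291736854332486309988468604710330001471020876500980601472216083647866351600272663334975295808967496090799642289655247828425960288031552853730739424879350422191166986276029388587164819446153966525419665231608548341360830001018548525178197165397341896030043766013106086119791371016678751447073839168121913912821529920932261051922081806637744194284397542072565182929715447717012326801708394513615271414493998293075981516618418033990350113109877611554060814845163419785021770336861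27316279900692252095673540490139895283379699323281231246617752525923648977127841785771802781965271864572406052862001778531230797802037073279448209080188899214500568523267949766893887961796664654906468757879085867931701249889697974220644769860235631053215031744047775449469750940096588892259688089985353392864794614817899610251513731658675212124557288553097724149405001221679647342181902572549745109604948862288408088398176359169456104179444858315919968660456170196854572044887283716753195942899504908728436646300030639425710016537824714780734559340736106601810107992342876220580076300165092208961216983304136843308155165501500579958026863720016558048659034384610771875677916572528230667687056198530060472275922014129385960418145890912130046494535129103425745503517468398916962115465838796707041265503336410845028750297170389594824604154851201612870805565181698015486987645378587687493403822691606968716086508905183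6972838790536394941363383365982144366384409022603175717579983687269663027511385991692767944839213677004821520426982368430746157801227634685744388982525284372359863180453196463621765962436631204917918744414992088047466673219011493346294925308790207287594311063632967274291152050091186481350119624466199813670137632073125695757813414710819543973871623714692260104689485143276519899615639481140171123901097242585607737904713125452810056765804083639952849186423164267373765823404508320911520811805777214877270783442509126237442728407307250721662378342737417704512501851146858773992789268421474231537233839110689624464968100043867708625398637750145780950831589992737738418247329762358654890309933311504725615184832116407758637511745145363118450674582536605206292865661603851027941229319968335456267291699105084262071953486795895613136425589972816160039335736466117253712196318242938727138667789835213398200978935257926305699016310346124733539799422273084774600705751748704892572601678617680308557111269509306047684088464320161904669492533512885733109384612967738837163234468490650649733671655917723141867949204868012155344178319066165043154647782581947689415513883545791225840165435356563048197681021168102872180014815305504063421460346986572669926708270618670352719561400200701070537925446380078765478723036910382684599900591620096)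

noncomputable def cp1 : Nat := (nat_lit 13263727048721136411920746659837817665889067725616172729643305309743898555040800204652187528608706393990002253000162104829672638609044704668424950853333917471764471277985524263168605603173462922466646099060400458586854371914021682415536349544322743319837576655629886304031997204887156996977999466925041637157260391618719511871792687921559226081875493567936720988404752554487236362781691110290414129540377282839767729045168763161331450019086488981132075863240922510964924450287521505034792944056674456010755583279386652089931531087222671402542340838221072872347880926852265771880537516280740195461824763559544545276661501398284267826838995654255815837863217672216263178046123832779456267975900231159347804020813622653872349407373610014670650068321146303254834192741878061952218885872989704370855265379322988048583203154369993678169112207509913710569473205764259034800119506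95409464077511166446209617308199004264794758256408901841880316210463921579415608001828467717002857155743582733526179135399623283122167741846891269092965660426222355287037263619378408440634738791623781796682930496100336904614185694837016743590280051535114200109666085862306508561246557404642753199231001151094020357521144817612559219073714126890998388768296435685310882338110942045738385630547019744550527384876118522161974844240930061765124217698953005726066887084435086178048036697151673981114503852799766945423150967882780596499472115625443791518838581955970808637446419445223221816948901059297745142407465799064695596060970350210486002232544847806326573884143130914538034145037605562198256785374734522999374727905517374968321041407020324394130235907233032179472365590031557862447986626735061150353088103832724995006080145526749765126133106327405577345504673206472863156041855277262960850792702053021639274585374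19189008338933551325715409741055501801019837175488374237403137308757965848855757394081230136562119927613597544355060332292797968707720817939691834991976048800061230558302909556006598559384017328377452250252203216883320446974297598163223294975732259218454537136208430012439949339624981809435134563301289349909345147756417074757491518598366748673552422234926773413706074653860219545172653113736057455245646430948370618177558358249974611942667531915465168357054050040720298412673082135969459272111815700794350313151101946033342486585250916982899564597501397546496438504180674867238528884773231934093154041137455203457097559694595888017809777179974443080804835634778648339783173305856458021901680969118415033710653799731970798224409588356418596297427242513152175326568425830667024928030575315158289326987198571914546861524171340970166908690881407904435336572644872927861314020143385920896203830213678970786415610058512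99689912777598647603789567218061096620683025837306786048972207631930755119589645727470494695350673078192717446451746174676659130344440426856254780188850545342192142765665296488027958171844576101685604021674648832572051788296261910190580014504227098056705117691230830599220866191520558005204677957987562863781165810491101424339991390495766088567474900772665841614631813894612667626077705867303835348248889368920978528882825266690015682554242662576795312852767007144397219733240689995293194158049183233298923858537211546444215592955857714056432311771698225905593993865838162419069583547868054005419338131734642127414821479002453775758254584152315584367824927934938059664751613569299424904533967482120404240645355300956406795431945197722491740589167023460694229764785172648026689243216616855174004081666965158525135574822107695113617999620306908300961537122039064105541787345275514591364066084343687716828376904107785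48664605499631463363657027639879764364888457538793094231952488789774820983040299470414128005040684911913743432182229572969111070487944298854701955275945249055874491245711145698390716425778303799697144326863726299743958027392036118439628736261030125655454980887539064818127710057303409175359426238643247754343624720151827568846545672580724587607818659245020519327044027540972709940989845228490795581887418967315824510785385827335862433687858933655303791829164842250404572644708301364193518626269013748771304530648741702383349640410703852638822135000504164137335494878980248319677507312960086256566714716963770808577242785096926534404473517085588190557146823327330967100431142468471226002482520489848513216737658735924003603883702351339511578884642652023969071932092883592411388233581118326289510384923110160157414584537596964855774909975785120704225017709804779101094978972079661614005446760849458364736992756685799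72636812253079922622954259664796361628342768012496257933636766656770097947451505742308666006721534024140071943549722067882797093693682455099321542552420591565610349639445429505094552822356560191109813090728681198250928407868153362943818006427844937578501065615438315068312393093121852044158253839020450627150312602110341009395695258636980930444418552327210401745393489939071055355328054170923814333072430547898132020124980503893140517953288171833334012355384016209968430659274674187198696942390222564665919893611068434604286101844320618272462568126768442833880164030726965907851336796376552543607988646519682284275297026132852455766647033390488059110295678077395714156068777415478859304454702998567436303117237563995275341742604516237672485052484099011042410716173065802115553473437057402936647051736663405759117882283171106748080800213106330389448055474721690854521584731431835435237639692671052494846168693272587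21141449261389488459823299722013314375530564624651166657601398790673191260940956986615602393506927287886758513501344661090247364144177658913849163863444563076855986303670109294784389991230212710518120676012845746415001964946168830737576873924125518061901947189979807990157663235942902123698045909206252457044247619504344674014463023616982486888872464346224906394632232445537314949012027058607116478938417623809009688092593448166257398128634347562807326023918392975903107591953970184046481815287495711064518596097033217380601132260162279566478842648454268385433030349150712342540089499956756721255693340995771241537411031279287088784402750408427124678158214398321332609734975466769777724881274869457057450674499689173087363465706038798634948639021918398935170399885624724334279658647273182839946648823049805535720250391184373499902180306893865244655358337176431006754497809532810575010022180187154398510698927059389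32863381564827002775487338286938154931018133053542966703573760112728249258607742970785515110702442862996115143348751398895708278794428127056314509277472348777038370110359039061673116893169779839808230563426559744213571487773018810754199624746285627437123144156001153132596879034650720189845855186164806671828171276076258090805516028214754752559122306909463434563524284273770659338413023941364572246345655789421076302538620137974665492527424589158262623638016685699348780066078961553021399862667446941023279372006824594083788523866729218600772129114164580775039057135212460522425298112058383726493082369905633550597652952741052801001275741044269405661913148268484348804927230864900431478782840177764924414113874437527239202225133514868021770055186096312598670614539189991005926491801942003226294270074488622825638143556414575905529933006580707536907569144554095412049876271557126119139126729212410253280717025786706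03551854694106048084327937745004100102649045304558334667384717716632901477664859691966635986789309466794181057107091055289097308939336015559910986245366007266178478303241027934505780280058404600422788973269221377432652527651041793234496437828140818817086819962536919997002201924792909001943927363073230348731032413510055948311815715997794789863584975899625541559617412851574640432963650805685626305934201597557526709841630439992593797949300546008316372130059553144122500611954571972051992758944803333598501584476674713643879994777931904984300797617121024898805741243148379300873111571010993084677471876379433399317758312832359555049224843282719850717063086255495612884299726386571614400572841316121820617209088184996228521061147515989416513454159222578358215202896968066768179458173711778029227192588220825597234144524738265910214762627715253113093574952939816825296503102582589596249026079503833077481873528128011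40628433600611514489387282545725249140263392460956711434377119838788877079263422431686727363190591665332617388427423388190105766519201488629660285516071643744565160687323784030491084007983174446737902196489986961765299008185113500851082186188001049761531425918363806460915457614036289326774201054054365972726644704809502917047862282466088213498981624417154135067426446636186681930260253925824623440983501641879944986823867505245695627118666660636542218668307944424597440732380207157890816653837098584466643793540253200040763654206523566160931096628610437087685348393461298888769456009389160666975931859913274666902025344037449861375895742625313296877018250141659045946228102720477967867535990310789566710681458251961457478897488197000725366147655049218627512043017075239482951261093554583843054917502879687625626459707926215120377870539461934236028449651310302415853376182739572347894401977686842994793631387598439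43893536835657249010292804465341861877916575170364788661059660074333198155737591951835466304090082191437199382458061541554681946417431357704271727972336036728741722134091158379754311765862858698052809945315708113983006337551893086623711412087421206574043696164416426756576124463178560362091616205569478683447253324826332073338289869770922272262434551580645745063221253786585271078050547244192485573531548149541607015066561838129154056461411740038422962723314264985456264337229181078948933042378644858663108478854510305906673103222843073779914590421091629893160330506525978281079661860576676397520403139912413179133294497456023833826307446272033932122110215727954703130587543626105895417729236503320044475795025691476546319443676234898800573078635481762085541290826793432330566864851969394325249926505619180122204505768716535163797452714722190491032724804722450064662250887006615222049973945584413491520386285696883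62696283263963699209339049161096337417938797140928979279356214428874100092671309550752026468354228802982903904870623295278640714295018142125579830371588161186083738356332525519697670118841725246989974597634020795612438484373631259748115456135976732187331316205324642305082876107399140842782705065501363510828038005134355162525511579943842682721816121484948742153766972383504077330387978697552542066185864060037996977166693770702501603782541541739556948818256401801076317948985473534849739419851752887416689062846449187696624638209378905499567512350850113216314646840550259112589276745308162386897405047959238645477604247340105671106407584136775128098781784833534086008828316327545431095712130460577839318884574519857121785806878756879547056784028418785335013443103534953580717993210582033247319881429068331609568972330583471321059777262124176543693178172350610771052063637225577685503203066274481474838656264236329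13716451821882002305678524698776753158701683787677336287758246849620201659935159549453225999066384972138132559715486382798125671429733845635684041099658935908018220125252318219848207324160476809737528216924921008060698502646029472155775522078464528550437250771427230540657974604863221885711887866064874493271923541629505757301064318581712183464620076407443261645919133459247792106446555176087039303117012506104775974174880199150249597575789382928279080833479636662778248423941084613678750392402046051004286185982662542067813940711121398864114835445583818922220767380024127650167871474904362756703854372354780022258925113235429744172218427590544526395202919034948712167336027478663015632400655951677772979718504573889880063230453886140108624571751393952403806260912077618992011858771928892246908080291240499910179139516587533007543529871680925646068709412653030707807885778139274080866383238871098642106085311543463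33296670926888097224318189377307587033228980861890448601426213941728537389862822420435204961759538472350675872908151896537241046083435757482897301683049982336165262908239904935585189652709058875919021301798217593839986604134248667368570566525077615201224226716206398261080809167775196390421666529196787242768245942280804864847612204212807361291855387052813799793592269447398532220928747219686726710067230651578474683614642562838751652565043030775685837532061411507873544586775862715092139792998566289004384455961387360876827707305370747838088204883429991465525909059721229432493108633918991426463746548429045604991674476478394041708152484383923311913754813312681026438765850019307545666026892390506027253583509426790488335169732935984927028472074958063273927777259967118265640876207801905841762034990545122607091162123506471800762255060298930751265117643495963460043554441576388340235235311635278726551510865154064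69225591585070341241050903459993980227193891818052546237432407466797623376849241102877410758560282556111135141039043858697184019416043341331652449110754029254173105113566342257464059903127564025614916564315720092545013697463504948409257552164971262913507871679705485497574213641827988066348782666934059016969862649933699718196894748095643315444311284072107697914724033652308517109470459529715167954734273743348197913961337765186101998744814478914456304151442619195949096664978911622711132511620683421527397837993113668973408419669694142543032109781598718848610579757528245057890867363164796830491458907633635290030499108938169929459967647748544533369309560802295292612426925874248666887403253540334956488846155931101500015771851567703422973074995693076864623696798323611210603180222763506865159479706948792503610274559264718324676081092503445656692265738569837386007349156851465399928472660108047330542251619446572672776668709731201792556872733250186668504235185790198129691257483656525915904003185208956056382782747906593187181400602033470259585663482546094080)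

noncomputable def rc0 : Nat := (nat_lit 12217821556459766909611935837616860761721981346425529929467285573270488105897438159817084381621985327593937847415101682252607468783593675892224843218463598702449331738689253467176323104439015953272888564365578507943581747836036234637818890102146688572295806253717056905352151775249340659787676954986825792735858774520382005304161793640907996760362355956609419697617721766211755126522143130925734479281283699779751781785420189400466874988709147214080657437450291506060098218596224034225474992574645439653993005814840121237616973056005576677735904918726063910156921886226853911385390045047525244968265741887646223186079968108213582550415243475495786524226472311616337694280669912295418362213237987235139914965718400927884000717473530571660710519566626317776564147945165908916690030413901165446696193446715439418748560926559265618922252993045029007329985487443929245320841889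35654798973186651681207934147168026508694881466365294602933043361606693003879860556077193704581386048301711338764505549246594793493138551911618400868967105939559589173558123080010294020145781673602150392643436674886524882638547331997670694821141447245154606857912145775563038115858154568583374811612603225712014940788475993635939561829580131698435391069577181452055848715721727277410433215323095010144365093848245222424290042677613174341232398624054729102609468882684343711217360325599428249968736197300312015363445803108303256482600402729792161633296636836574689559602536267343775279540419225356966953010629330724748810472902485812690611821338201567193319619969588346115158786482142634428528751375764331715453883059035779424969233516303363514164635168892977214669475211108559629962875593190558877148695440280486749652105962239222266516911742926588205842935813216543473582431333500200710891674095074067747387604071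06529372504252963478861463784412594434382437165602860512862034514879995963126793818930946888247113952924436682380992351279426697573898869117887831731486139165905087945655774714558148574841666405930562128254371470080329442693839231058648708973613583327033842936792414756390262200759166885226854964703680165283804380866854424235531156559246540757934476070962831102368397043919860134889788167676399743705910423795159711550148219099205271840219007819711952576462301445261840118233994233746354372689533450383670021614613029105429424532643718189183503768699539777772898126158101675156346264719509144357897530054452620558255936072457854508228702733429583487888906919348546522198926208314440989111719310443718008174179390717518304366499644789154164649088158060267778601752483539378518568268058726506188269332991904731547174404056390657336105717293201122313143820481132153537650454652549161189123980462358477220968329612781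03042548894946065894408281852447122157622481558861822036705568565257126245502069019367957707455678828682026775864098200412461398872069987686217356897115931805453551884750306391258954484118436319080992104041255711870075220885027079530872537668015615614215793524470970171562198887964494900744175756803533157776884465680261276105932211854702211350164843022360845289449110836260912690146387955461990748066784356761262265102548889861965773781877543400673300370815835325640538076046375214768364013576523893378132324016287463645208602764796517507987896523297084832665998748357043035483559850739109064525867512593543544253334235051080218796668719029006273290911178464343982347068126545985372093907129015993586929295564545916516433169006718894426467688876450896416648751483698759870722018556253623129144324495876939067673756003606018559593896231645780587719554532476970748797017455943232554659867690956511322350074979483896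26823247710710448562112432555240442327984816022987737778225128235088554195163807024878928319921442413766451308601708313639858532473417314068841549514418086941654619742045356367093787641201295893315712645483732782101205606970600328517314212165816784951259000322308405611736297419581677245035428329320128746630808742028640262206908735927447691412717200430381233999938947636633290392792637596617361478537896158661563861696824082820040885605567759923654504660194129991673204385526840726351176721097442041740641888478541542984120844223060029801823754173296772225655701535366488312534578302776911668661595110083470221771255289090126476885660390717259975762840095619091720938927418706686369570167281211094592037067526232527448341288667294695066313129688466140962435879066506600579281277067618419937466189212132477458801993034342196083038033383347572640786783280900480821359865107871383678463547457815462258832819125679916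13981229672272251009602386382324087650776494280840317452861628093684395276542211962529149099344068776608906487621365558473822460227145940416594661219987333931878250652037992005094459831152231813205719321309172541114704618759975990946759040326187252030460512658642589191355851233612531140070222235105312070985110685420204689643555565781116365308604062632950143269383373069176141704994095837669462361340932174297999541229824542539969731163351920332721179199406772863734183890803184416603263553334151974149691199262890205451897980495476082580696930326243789437438205118559194800519697172509984804471034369438537887569914579228485192909429306440155849595194973905020746923030235451959526158937334251657764536303033312314256227424650877055419367457775465462219401906883651972719811059407332650834430411499980457429141546995942542770797943607735330159303232210130877664234517113581837931231913382377819122358401457562003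27385303678949465780655346910346334267810753409186217160625104441845804002643822108329763994506119358757370054552078774545810544807647130855281442595682148288398701268388659289393543959047308951119638864151328825558559834428496374106836256557295458554198146306854974141598561950161481793458207984191449214737721024945670201259405405023046071913615865747625625584314633369893454412006267767733466612908811301821343383031142550450431198969251192732249309642090790401989882630746990146293270346924259014664268068930556356037799758862064263880796617128101766395305958990913083343156040554076022374472397321365185434732275774484283290556070664587764738380605430798965214156569802609633528702445330075804210372482931912832284586196106760397271727279502054078526769241792392658912667553156001279329757444799825024323790027285953938537370651649758586732589009879964510361452494525700062508950133020357020833773042377732015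73350126245917613178825628022301270356614070164950453770893570335452905087204267484600725830295408395336654631978321971464171066706969347768257416628038774199214463320334655420991547467837388048588483951335474187593110278573247598086978745942659478242367413429702886619756711024147230300543012573600729564890437176940354830564660373600031331236712477023241111896760876864943131151312116339551396746732414589774968862013656679455645698360245612469160762613041335003575710305308282596804280393361678922918773692898129532967570059422338789858862440152733499553445616435664949946900596668085664081961099282921637833085822099220011860890988487473478909778258357903478461283942343678333956658633751121363438291284453329168683879026293941613774637541235906382957658423452106923108236627768582973274722445508114657237988010962312101817661306060303655583354860292085418281523837779344239693959139797338952732725506543948774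85666790018940710535255341685577895699063438360979739567812698049454398929869115074921935397133168285762379074578414643625623739204217044166603015233859622547527990236769872312334919548738655477430518828879518763836519426124066797688592381340922388276268479330373808894426406618503312134901632199833884912315392993281466485030170758343530031228236534837450807492874091930741852604946097288147802558003537319204472781486837364723568835872324633382215418186202159780338120543602984544810684399487813712641170416153360069940727842274984448200845286684784243962872192294767984179819478437054448505782923634532505967895557898806392991734589263623993377288707092513304236946359008118050121953780495822352215434579452901207299026431736263708584056436892513007537885476485565168965212239740186921100758463910586303509230729810003779209034520510403004892565731599453152615214451464415049602346232219790647053788186725416338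58187652233711535267922452443991509040729265731072093531243074417060103923949472333883223675227503510897045206952741038707472628341194523146776073268638195670250784470127768136900909130946582000652736803429663640176713248897699631901009375937553327789804578212946198079105653110199885914159507778055787154546438075724393807658554617137166782048598660380235862449665317783435392720368762058039182116207696116080324094537740120040293329750689577527970634619287385180461229706315746230347332952687018127161370643381725237235816869978722529734393426040982534588325007417365314329354577723908287244363726585689806959532646919950063936788004454660267354574122016414912736964078019497883973952208032550117438266876157534852382122918907615870039633951619698663721236676222180885543201452332672343064632959638134822171328821406672986091907085811148379674952338042919839532271661700019611872903249789892564435083686001875733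30707346098702814486754205589592779403342115145433311582214772069404097401433812958716227033873051865770514322843228127154387076319839716894117530844518186390771798039292111876872033667573683255368191449025274979648145824031190366919589276490509708594603079053914211570814519147280486599998863128193560119381208069846009431055467668355547511871974420340355387041094439583713002718039014209277081821282369417224018298971139342475012571782385245325911971910933486303889311512744977702983561442952195599799947843555760549465601168803374652713672931303644443584342817017718673614757473597768447618972714087007094021490642237432200283776008980030681531502922355094909620193105582821278691245807986862270434275317757773726441563339394848207028142651134499573472024932802976427752547287083267917163813140430235503371323466388095177223807307706601879547315973130785439698162600999742116889635764931562712069347425295187570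78214238133136718467794427719942381763369460297479847276402959366371192450651239565512952687282137258627457096661136232893481014916829014814803639907288865714436448725317363862779461427081209827776957958154501846148915743617651808457884876303520808124829331852544213869479575310940340238091690792652297855569881234507216848455036422282047241309580346850358327035483255938035580700624843537739102965317021767555685457932946350807765137031582846765379794198746213460379272463400203018311198261327258670309071978536822121110473363692364182777578870448455829053986373034202212834749448292670882180848991154295660301537559034297436770169039636994611356488975938974422839248526570777287957633503663048944103426491397550860104313308050882124180895533676363036788914980218822874074103479612903932184897041550595590061952974181549539510757472851581200734693219372306096816546677081185932329866977850943310897340763638533297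64675355746207134966122487231512333952030372695987662925530545854307835477700793362760521827053468289872537180341100211277803725668661780301187238657327131110883218291170836969433186838883873869288325516306831787465831205267043789102888360120213901996656363386107009539659165465405924214360095956500518483253843082283424076453326825999535616069113536952743205306319326236027865561725409211450693992006604587783689170287094504882863924402446605798644719428015140722330992000123277383262339382086601056223202186378742354048588501652612874491348143884905994258655326037571582412570247329696475289671988826281597501787732220327148830211176027270277570616160446978473445770199348413054141959341487725743479089411141887808094632663757956324892811767746852100455727370204496540075917367601514953353339941885159205996528595159508042616882528991561381012746389521671286519854872117225469626366523595165191899215456210218716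32730356947816789383186511900038233534199901922992132884588325476433213138625595923243995829395921677437703837013141945313327396157826868893120866687039269512037835738475834154849593215351235131136506746575070664282844833010102349502713754093689268219690416175677513982246331233738551740990442471739671338526490449373859028332304035551720983315386552100165584764333644775828655099236095201996862072808764566000622215946257731797936800987620538830975533755500357514950994957245327645236480874965050831370868752464617145655240821707334628139958135153997732989551022130513500182923757178756587025055555729649272098297212041869236007436546164424522348523711015735242021289134412412018157131202927784832943475515015478205850235416412946243781546369052269963285656948287874790299738833042622159886782643829879310488052799756095343095900640170808297756045064546562068880978684123456918148349511749875976776809038394254051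11471083326577409043606428678567279070175397738384491142944715221030662293626514744019906565926508329360992984306310284527025481179875055411383017446025023562381136953378444915501941096966236580804647843290221308734569831271827362302800940281255896277092822068448034163545415326902346273337172026108001124345096461493648402506339012008324600865515015939591390147010794796706784953415695516639791331408664410996278739428720789150714975389606294363449533658021464746395653605078022169942501264401679524917369136088328317936705496059450192933554162538680318540109350295045259725815391024263390037566894488600812335923822034605684975845620750311024748883342604741119782531400558587019307926120330043410481328814165397792254466240224169447583198200725134431618299561569998589795776931381059956904213323069269880925677949913226906480602282942650393179357870663648585870725215403270566830848576699540231253246476749267828426876102777658087875579229948932288251387948385637924234767714872552407772599696833875704929303906137659562709244966770592452528241294003134267392)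

noncomputable def rc1 : Nat := (nat_lit 12356250026496777309685222265546953647988805417522386382454042503213233451128540349734666214853738323971704162603026110418666559997725959886833469958425851741558454891556934970987515762583297230854968837856085915588142255551540735910318683094888568601888191935179855567392885326058102009500489053454815109619264841618970795301261973243222479950287192115283770137843096417696271463582830052228477986940538050832563561468111047396624680287249960634075930081049841342355854718653778503016634819935711504007468600574819596665897080623834160553744489262206915229019223314951467831090532085769416482456801076724135848318634643777510469685881775443300036142419506803214469548373055784930914425913114845220441651187554495098442966293095576665562767660329124747972348623467396583566081167498047302283218720700343878327637020785397124084732408177768235285569638008183086153322754116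43781710054485526267276517489225454990863362026447111855173275339135673226503463187670425648121086405111559307435025834465385286919634972650782374383334846971893490103605448238289004636225329420634427746135033168563087130453572863283452442655755882814368948682419353292809456331797490181215224904195092811001601461507341261714040556397985832676495162172903783807010664228188334138137748545864817248923241496164450638463476646824110739909840574430643918508331029415836174652231635295785989153938026120705208547372281387163224450006000484119266798456640545878005200644120377894116732584653973629774663558113068004376974639588714363361309617667045367354697470904460971202340382603549821998108539779478617668593645021442504121311857988555203940510693620003577561445385665206056017123102938225322456343199007178204803012468157659155742869934592195794539752900335868808662293744579441930451810486170817336816238567146258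86888655269403733145469293882561999744859716097790369517129475955005609911056709233415984703159247768440907832250263063665386634996960771131709940460345141011333396266589150945689670719876883838040612153542909613259047265885204145992437146920291994277404285613168881694844155506006494334162131911026689994387298295928085356792979591418600909020437746588747561415972078448370788367866478150116172636548012326837581338097882029616950464932843451366526894933280571538162457799529792088024671914459892342963780951408581159808983482357614492110431224826820825515887659796925892519873509890333621026142020053982419333170919815046504362353091297978241504125017323397586764840389127938653932598771674011056183786932215777839207820971043323284510304068669019430433999189718762072898821958368823571828947256889650004809394524296189567800704217246300966098714951379828176280461915027668937064046547543560977725468339727128138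74920550959492929744755239602281662557038423008004940463106918456748879288557759099804015345096892269442487818752222125304486701871406443284298646247759693499939976464544684397117073202145840965672817078080785134067011381212495737698391756769008224315457949273273081483995510362311297812370236320417269583917332012087861736092577167384045182624712620885992999919013252264194482589226951104058031246764557870586027269745571232586713216842478349303784047630736788225599693021437350585817707226279098355223942993888478577790024163459919154047010973429704867480214232410552214463006093532935875803055305266050356317521349770395013026687446475778917774629800895846313195964537320194027387743252674147339702922769861981138063171487372760165505872583019497919905439276669978692515417292721247093524697365937322999013611076449800856641726635868592176654747894418834291116416134242023282186016395702798738942331129896527708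52220649333319024897304937918701536055644268225218762278066165066798004093393533956249765257928013310484842343771049343609140701927559740459240264597078887226023023709633961080368588490286947154501917899045779511903260742172185294701269403099966510339442832705599669335619753948386881714703231983603323599767245039432552049244005441119394869924152462589116610602189047394603933117062903056136157635542423604719185054060313423922864965256091055590486570496791926140267181367768352957672268000271628525424358789865877158604742895852836072621905773592575605891600011899374546813448635358869901768546493661372460409586805740323949756153952741385028461998030101854286146578499513203010294424398370079342663805217947766920390045314893342000991803209284997680850052234765463889901437486980603544801203512611720405306994613046833304022826313127464186414151414911773190202760680162524623180176433848838980430452592879597172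86984352285829893587934477718187204426197033026600458587187512083483119553112861129505928249408074232502954863640718417630559701276209706304679311811251805751711033783428967182414883446774927278634431112103015458454703047140848792872275535847214044882628076856438613042210483259929283395644320693936230518368002110460231887762578273808034514006203232555752728649030132646680766568441631345723956143694588821218022562951178353647487342435929368483055638473548894580377780928670873985095309752584765912109854037916745831532988155640571273467758362304047575069112098790694195061856316703815715067721337178254031754837794027668681628008267983893528495647863304775018808683378321006005649849463616142728762287140466306510556845510234248429903876445870302187696896574255943618444869841504832495852019764036871503632300580806302490319365463858000078659917993427161421508958097083152493664676442105532006744790323146317225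84919657065759490846479835619790386466495302473071552852226258616023025775583476725512394460070252146746846468122136101889504008954118536455575362123714866427905535450287747219006046353719111818282601273764953515455706101123350739283918964455673449522570394920569531981172421743057069328327862921720339774129951490483483624783812821131529071980665368805745583843559418920679294479856082818273772428775887189197536677288690541468650863793548476036880044128589878242835088970171576288534970695291991139128472912228423331487339623477141978030412047276709709665946658230125268062259382376259802820767400602999172438247567034708533538190777140192613622159044924251405486934137507491647132769799966303919767689794897167976287071656828874698322489990578350950089366797831289487507383213923929541529414631805890447311463942272956604502446650237751111342383556532692047904376428753260817543254004544204092657223239002658495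64534487909105908997796073516224200596868340585005372854460962803386462958156460436208083852890036563585082245866985086089792497920310692021047708128642145037076828149787988833080952352051847111262393650649244049705279932109173394584528977362046877331786317500533055506681572544474232901890196428027393303510953080657120631513309260443573791653957528178589205239594217218688056644478092102475197359806900496197812739489077404673137490770562169828356211684915597606901914423590836282344221644184541464400659142071267127927456139418730655846022387173391700110341815314216352828440900269104821175989997653323169402275516027090408944945937544656649059098291848589019399399753995387371354849382912018513335593713026789243386926470020780458866463207684629906048713350213263723630485814877507647052842074977722173219651702554128655738669132106421376082983471319856747406162559836207437861029183518334321929955204601370780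17875423696622986172698596113355229077361675620195622712979649571112428752256528041146289505230821956939437961005565779289581964579950014265607084697379642394420411390388730302201087889401719521837071590851298590510290325321455638004851699522284062781391578675491454412863602510051263012017277490362592265982794193647942203320159717590540082153710699067961914559639467095587814083023636411195536477329671567385841917731502191478531066605187829068101224279895868651234409247820342319905585073278274151518853603304544897979271619648451167995337403878822644014637887612364974123783847147647625299566662016916522013883716021994065989919828946681023581355295789314343176849882966684817089201972459754819306901483090468729321609526138028011116090449089953434132098537497517721527429921990012564532572599485957818215394463121537749629069617472803272094424678130882895900129432975133939963734413085231967453384481771910469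70771291749756570109216053752739821484860459348535816259633608009376582574211437895387442894475456342906748217468549301560714998896848896897686101378603386176950929425298713739180359343533326403519332316462399609774904410603366332912970984611033751550806306056703245699269973355264196621191210169528122836432266891672530810131922829468298585191442143988847097810096255099853935534161744977410228395732521915686970540147577927534218990133587349329489463152781760405229001048881273911839957292377151590591668543531002861191408929134783429933268602323404359918790296918304731530711555614052526234732308236951131129899803990450839418904683911131185488427380765749223464307909356316770135657873043468673896510620229460583697587677159302348779486105263247360180818392719835242031530958022092170844632908342306220660774435436982577673214377705955620498938731729710888236772678763425203745159377001081565318212391891871289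95509726936174095791400397709936254937926140592015482570889266498049383270300397341529762019212258106309762836312238263487163550311052880743535702377531786200053677478792181528459424606969859973542242787488123980572638661446166232164964949820627647753807400283912299142982953461123306496423761189945229226464968912217726309847633678002808690485441406763764270466210049306909529704358174880767713608169262733556135081989232646421919681493086123604469355754704445750406439075735346875352447250689625270868539659791577615797296785384573092664995346647470244607735469623333360607016104116987468745595783333563031494342119857240647442099738782701650755073348630890784671180603103891905804102941747296890844758564905267500354601538787816984928895991548499054501272649107622835830422499544305975136243232176205469150641590248102290301104807960181573563701303914981657292153957758768222603863184132943334582093279390228430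10213732243500447038658631247147484305030017229465990721389982297954388376212754803453778894523136591628338855826513804268848462826814673710498299169064292695104801986317436497353261607483273730095675026294207605052770751743278105786199277070359811553470221024232144749885787711885186270494473144100348395488363038671325507471633367202898292486015705296980699049927192553871459203745086615411762347189552606157399130870318509712097113917192898803430129376886033809302659080786640735389316674083038536831630542697918117656749869546331164276243303639042494463713625112975815014405458439627715953809329342157573398603948905191098346399389012162566396700503667007231060726690441022323243308374462974545414375436266834792804052828125862363417746864407427256796276709456185530882050051581608497228933438832967000038022842587183262235723158740986135331312944118300390399832826494214482278982179644394980738711344529012805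52709069604177223539723577749353664754619964438301275578583881357735246353387919016925753250168622911074709079097810546813376987292582652530929547748606297989826217702345426201230136656561690041245063516828563256560289718160030557554714568744015903046413880278434326830707908951609233071311776234378861905528000560605822665955838389069306894500904627295470555615966642615231149480440363268908047946565244677714604815578217668223267136412826239749007687323138599829818355200628318446834758636088846516447366198310523147202629798081777254418210062629432094332289544230301221128833886552848679443980077166526414565868070011227539506878970444383200702874780356217704866198668893298803359467833951279221247604626415033401485770290183200417013310650326887116985288145479721246674931975690793201143751585533613078131995981841700091266358480267736753237904709877967419577869107301006800108644538564917089586519463261198418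39428162600333470909328093157726844329502648809836364813521856851971661985677047470230564717265620805546495859314874137943149011623420089838816974574466031108608695706515497741624770833347995981145737941980718297767351323778317632869576989948172231861105956797752416477437860628028073517595364654642477021492200001416743776529199907635202125373582771154859355085661777837455697020167287256742461453558154050725057389908248960853398757854732700653242507610602035901165169077809561471971849509611128583730259249124711289490038686494198761089587859706323827755240455490452393100815660751827005017718502009700331560886011884039874191580609688654459282912585715153779401214526708646195334735075283861277316781626707205920855849552404595966651197212962163990562265472003955823450799019443911890297938963903248894187106806222712696870827617560794797957293459375165469840014497019635348667358336351018719587668461477471686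69394018969254099811752304668566029368694963948142311226638715461408301086086361883162694476353554253015357407301876652893246773837659887730726617419152913688896419507486888877942636567668953483241561046606026147944334378314043628227900034222250533804548632184285542150025397292256212986701536060734652134520460287443989539383528564531766157328710268414533742302637368439232806016649638453984466704581583751331869724899256760864860021923037801965637183951748783273659976383093572022579771817504135640309948750922568412906183674426739711232955073027807153559643218176360898630481222916087514611996493999678163268208126319219225682157581199659254241772934755216700622287819024058935796914440147441844696086952508012848732325272672399518976780446827690822765583123188281369679909601285695833635370474025135271969972834824335805756460560241262750421696146291419073979262479121920320882238824365085074915632953209155798700760556194976290289408385267202726227880190518310377410125361753601065522030438680418453196723875287137433093238200959929356355692131131932540928)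

noncomputable def rc2 : Nat := (nat_lit 12492561234720138983219681367160442550508786662174526631702824519549992760548357621011733205606052905503783444583433467665328451030541786339281698120813940457112108121670541410505107075981633577385426773149763612979787285854633899824312770165262354596121071248296583530085677308709812697708090393794283860672061525493835785703579940993738777705356598618070148684580676792874127472872897746779614560915299407112795826231573023836656901167104129198419087184885265685838903231222581098982036703090112752548446990049508485125977815176597344612791878925632867319181027539205907423668251328568317265801998234526779302031149505337192837784925355222947864614201304951373881230399947607784235261353382237489175781023584701069911911559887774555637435012895799596088843565308895467373053531268742444822717783630971346038008966176577859950880516818852715542009043100966310041801728574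72586580608845874963096707322245215219291479578514349765049291245120993107964942328323119597174114594494796695256637475454481376777669644879915402046428250723743210582636293080621846338413320651509981171389662803406674657503149026849469247977500106484201919636023081807394486570758722096964422914543259637657115062511134596525175281184545893212104138599159382607068308678322564090243323006593650429205552663707981454791507934747688066028915518020926114725263075323766286258126720457903015504761117853432378624451946963946141248688824579771362249631293235877916962960592522230996503669162208228458317802150444674117707733344098034904631354078554391455466912231597147010237729108092990837229848465801365396540639656738703077617628930628540505211121340364173908503779847331972308243995583844513368144875255122846939727236290525405948741622427243601116070009661610773970207767472457785207295932549423479428798667999971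31507751066152676809708816929315073648185769529248047541593655086906853066521965676699912695502248094766729304394861988057211332497655045352452180006036367279438305964099169630741802179023822942165492280120038611843234167436771949966339570263769855322624279986386821355059486741303110827211887718155183588005209790385250373211759789056511225729964557179319819298797968973757939811206643984354575654530749938547431422962778628155824891012913871302510780649422273998258962929789601296691354271470310277504155111520450996161875609090763314209791601643622988929770467663501453809805244230068262361832620668693970293751581469641355331529834043885803095861808758227605074082221036361873532287652380137383069046795243143003689743635169966958143313167073264906066776658673271504662085577397465104609037666636693804970214606640983892730706750433883297720201577526984539690156648706128160413618277491436666353696906602097792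85874243009904379478415901375784148702654808549013163538772122112325963833767183803517161952089002705361538708048511154281928515904863428414634580849034506935234135678015036207884727370383419249488951604399235136417389696486725768087119242260492057406452707737854923652510675638770310718876115508893258614786621171228079797320403262726579657420205775198241336135835453152915005736086470969562114021665950228325159900237160033773969805153349725652547761315306927864115654560987527017508185500006772034779114519828393623164998655476547370903018924466835828212216812102645581241367048322655648381731183692669991377556860110201733130810026873828633694153864753133288218364190492778552349794953844965417274878691031394424136133623158369612662283739158041060543638485268528214968292149637766004688544963926619777507359227140980730482963230876788056621224308910118696192011324924660371923730580729858394063077845593500444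60511503563281439156720212219044077970363764483146165206055006955284980950146281312309540978103032129777658250239263321120406894550865369573357339252976451784079248635974900899315024506779132623023797329533599602763045327020621872273964565378532953298697740033660268475288023754262733287487851686741524102313119034008403564867631227803066719584709236506160231931828006004152046864524011476219553813486911562553191622220251176832514476074632175133803843404562674811880822461528346138943730855114843715313980602905725789704404162552067834781377954702631688763579452145442297767821157994180043439777486583573289297347331165084169870074194384882654139594883851820690562833139756128749579404535208899878343460269029730469973298242959174954637852667132911173235091798940333263583408968302375085714986187268153285298560799082053933890961067338739872668719745700451944438447686468634130634177584839004694349466632431754167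58214234261598509542179081601062651218979817805847489039230264997604766464618869173114791055339011802914430241853395415674899778223744169740707477202237587268034626193921854815309208098899732766994305773460340070723633681647141833509559178336959609449263424200398556111686912807891389312348082708522195015659174385878235211723621584186764171541814419000000065774503733268793150249374267459470475899816834074269037648872671945140465880017850060834663949540266311132982540269510988781581299477327391254556659480604351071732048246352627530186670440939477384253084066553494634930243560109136904151212414465774204269610732007102400180595727919535466060047392255559415808567242519568152720905726546397545427550697451219147417410978909475592137794156379044315761569922036510577302579804990047481529456881560432351602407892713857277851713724516008940567537632822090182581770959031500394095809285212936800007829054597618990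68547543460178627306666378667265645234361940436172548185865294334362039445482235397646968293594248642617393660298519665742714531820198519617058812206605353676664180391797202605455544553209386544128366097639810765460858223775003693075679278959787331358756117709812722368295222472303810699502637755753526675328765685804766756081679914539335982844032305169181466258449117587356452912239829696253878055380475052888674381510858810008736809127962172676465517205430428145461913839121627904038024477152718244049517701593995107648998030402330275792492957262761623686483706151848234666281172899280161573928488609334646216466808253084952613110060693124740659135274171360961222243981583222908562896995981773012115107922382269959379487819164040182489857137023765558516701754464687420285425801105225904796267651397102883924241262487430826036376105780823633917414115978012882168264079149193799937555013188216082253153100835700080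02013220538838296455172711543469962441778746475206761616637953654156090113067365788688805832108946239162894703330833679339462720084211508580999861213845485096034948724457269125681173476993660558130400852236497278326904729923743480385857762978046126345352429776017845193096963319216590911139100073572065946017245113930293531081642583862550972463420015765209034867995447359972539391716927220702843055022673962569530837974285793388183654379644499493146217300758808684215821790660261547531055626152696668455246342943554584259494981423642386922566500975483566046129893213210623658024939675759257004450511490837622213583373083744258390586205067517723006654855524878920126257097896832371868814657852483027829308818632471954888692008067232818259802929862081729450209669170266347580110670420066579321620266751660827213464355088396133452998047005057458720801274054998178843402241735394641664979297886495871908828578812104015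41338767830344544475607973267566729289933557192660742266295827832147067803383686804073936220971961725601866993237432184448139761166462780815436977130886992066279518749600258787837670332886686790138986039900577536239593553226316738537588097229523461109991301977273384815106272345487662714166448323679839835815337282665911400605896910349310589703314552390967684957035365687642892113809160851696947349159853630452921407374125803974131389308725537617594956980794587874883319805749181688054517051083667321396879579882895859474887756882024715441766302476020578487811720314783950423738361567845605548739606220137425179865881330038626608010972168926672049949795013094662264258806422881417263875875111111317682506938890959943489880166745097345443719393488167013027422184561811088926144566586153447508185023369766964778604222342557199045945878763131377283802645549305146410293424427439276925368592105844945373601703214728253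14295581713602623950886049570082352380959200277277490602790769414125610236626183427883138126588329339934405758099637631026097948334631595820601409723410484926399651237145181642792755931184476414415968410926130775872518497054221058347985823854335754165059422763628493757105238335794496743534063338695721224118234482134051634600566570009925516247079716895476291600069980689135495324270614669189652467626240469882218233639161439391372158151891024641987223417310644173580897306611363819201715523775455862203282909456996554135727427018609842392800830143125236780144018782831502840791465880132425316271983798235123753848183360539259317314198325112668792718424868164155387810153611123831256295715074010088778681016032312368610640912419024233615243871639456270171088178483869672537360889398918211434383175677095590277930973825595985623117861950931747463814907824929681692630973381360531701254411294328630585098245783234752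81532614385473924852343414644917208008218294698530729297143400853983647681586158318520419873873959690901080081658424343638377160317729795572645227467454950527081975320149723787383586412079346597755573468101103041788493454686112170625748318450445031815619784883490073059204962248291252129497319013969211151499561108948620445339520101990903399748292341290071050574137120291796341160937886469650104829999189665257092292256072872699628142836263250269297442134733173581450831733169090511352846068284343147323323320957107227457449837265266412379543485988929090246933056107907548688039625727684615720028767483565648090820144522157089458982577363036401391040711592146386264139905714452372650104992129454303033685290780664184870257508540059374080983528596684294624305551834455703084780055167832122168147196820272561419511471465376868502030808544646470972760839018616806238334531977254711147924537090623102101635927611288300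29689956861853962403129467615870918715175313320040225494972596421332900774965976733974398692248668600795294970691873505684819895328430340145011593503087085315701577883088055155212712236649443546900953961896021680197249707055424739137677640570199120976753252779911617236857534267977770695490595116703505522980362410197133606337200880166328385869547917614098995554915537764863083105714447266644434798087157368526515623890352885101279610358225461554015854197459174981755403878976849816801409937872381614131952328872351985437552155040462309179994467204335514374043119999992472768529324774537533839449817662074515621777309241954504326082366516630828964161869636781392131036433715478675806340933001739894791159024275369778341321395859067219805568714228530768510985293527014317827383365786161847110083074380566956590922209115354990092745128772276571376782968884790219280946265068716384449372647421063339755825238407949427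12583930671269047953565669682343786830239121506284158806539414735885793424936124329548589136926245527326031665807251374628039026717845925090026805072998411319691827581669358370234787248687812886273962568599360869489074706019116853802826080826244877029838587898025178099388990490304404996721009074794269912981908598544448244481027493202025339844836889214070718804560375796601452051611139453141727044726031919682644257167465166899229305529399407405371388443272968353630745580869134361124525585119315073179381307590122127888984774618046893836306080021489395494238138081222040921708858710666190233092329087676229009988504456484415513309319356381598810618630925541706705108529230903641269834475292436440251559849306165366653300616036812392791416744099299407974634797778227450135028051323386073464074290078165056472524649621333549543987749484309819953019112270748412834885521646187702030893401745707049112115625576171313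43100114438421255767692147046878406329722844325595646575532389406731761593268981778960469417122879367136554645468782151168924583698945861914946442893002700666179838464942205954687355018733758352018930411083647584789778542621502359438917715021473338980503682792027142826096273448500040154644429704490895571558929990817321191245946647862074179430465230962795935996158127759995278645923665122292008582690104367168803176456838103777593054857216189562071059804883514297705175097103356426371855985152223251225979255959070024230886866589040014964272966009349524852687053571421026433529740948310856392636062788387990522828921010990293565444669755685243430645275360246455469598065022981723065553012650214360875971370624468139268960111398487716513746065068920189014696982725304743875802984815505654331117770187872991272609225069379395564234324368509246572430191801132074173844015191121632190496952563077557316738019773749117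93367821304201448753684918756263445967983231323108386151812960104157678290201152695067880376835051282775865848196975692165735919860414665660167495676381630950176634481981374017813256863584732966749281434361887909375978025692972326390053487467521146393884613942621713167586366354905603268290636089511483562870242687066488408045863376232801110409972071116907609720780342458796602174033684408474237492732331179363188946976021521500113540231482837891973069264902193768658102429501720212081716505050442209998585753852779068424782840426995706931519543677172291482370236262654117956092589349384806766868523362796329058573563364566575692701704395457807103506562436605287635928796965097575313715321428730685021650466913284203699024368812511119186646682555051318394005680854238014556385881011063340767979963544098534350262692845182823696649055480576341088103928848035767080508968966723317542652752224744643123161994241141727698128396802101794935410956563633651869946665643192734497413323236369536763541503230297829457210093613619281491865213394207476243991182015599738880)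

noncomputable def rc3 : Nat := (nat_lit 12626792462059869189056700598890896136170682104633396883516970749846511211294232260949722384868748523371820582343269666413769178048375681477344363999217778901214456024406000940152814294648028666612419097943459508329041816998332965190753680702847836297410685204933208854706815027383426216095613116727397539029985273304110325243157621582752549155113194833564873476359630086868077325647256636196213555123104432723652323876710539538191395654228628047102710845498118018057952966736195265806896187588230439575916514167600016856562528409883518573205251362753895781412108124600656220835340580472479582247740608968393689965683297341212344200406439563498155329532373433367931829030936670323620467806052261661594129964567496992477366181771444220348225641263486538545910556531076899244206497962456996267837678431774748537443349582947218310819317702257922697032984655461580093320104017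29844128016209499655781179117773154378445102883411328702010571941980450838402301801529625644702909195459971998961853560555558475328246548763833749535713772760968215943819508598534534905661536531868645368733357159593567850547782449069645393374031752272534629782203615458510484479531682773320774616621130151437309759790067945522563542331348064935975182285328980499007792486323286028903041078176384970887294049567808489494276533451043382760020404443271670465705016907906244933262283371701334466811943922143450488341612320818600010215664760419191854129635184340905162840593719715610192352994721654441664550815640153703300813095267288398724342311598976988307793093479197831427945588409995148007764660558678765771224768687176847846791524067260143460353121013408918892915652484905432913668401575217794458478232508481734313241518875060618337801630867825451017994554679443574700895719635538277508305789962386024784303919599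72478578560665314907584533987832115498912450172747896539124275089267291677206236800887373605578504155798087615361974525521740774725163517994721308512639541069988407415100480553087620268872921552833792408000187265151661457708986486661075110699715377301574312232924879435287085153835940580247882608746184239669660901326035071530154139573357806041098164007087993525225659571855227296691314804800833481950056130925345451683162161098996669799288718938947094577263966832130777125565785582033151312314847521710666136755253899187704102564109233379286147248424977757143266473230543647774104340981318158506648828979980278630421839070352008678536147174433817925173091973877844961648775909885584471240583687803789334458737687185554236856845733608549194071743375931358368831369981697532201365651465149051065712962813789426004637463563882281501671660418625264918829790298623384005639564337449565878867764701592347393083375286438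89013681128338773454310096917493250041839540917566401961592916602848372449955961760494710054789598744827096097874975156981218137190112957558812917137924437217287743408025470630913238385589003706701476319988492315334870084062108692632891727596277103220305640885997123046816347417204926244103320417277299681944075284599769467202944039487167601727776362896761212196886680828493536765461121428619469692866305122216493364941168058589532224711630421813503274588185877228934470437764623273187913672044989622163884937486341971336420861106657394501002125463023269335784764150931082387023948083047582939328247120960481941010668585739548588071648910975969457145340775421659533552852228569238008118282880704851556452289044475805252950884297999611697378043777866979674442032616888166598759204828903892701706937954720364390931117400073108108515314237803150351769075900308935673992772510603577246440605958515718077877294456548113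58097580252549770621047571762909127549488202453647052188036923721740448609058343740469482337001237930031376160428677329214177062173590860861924608816741433997246818019327383367529220689469871660399802156644407930108675745434484764432481173993714133279398021548441013825632234680125493767393648561432829247089451900734114021834307221976758008189212612711367005049095932682389291409105139653804144109559675500164168068748274766281264833481372437930217345807297197186024816292915859395136141249381623657619289036474177696393355415555245956723751767923213572680235534293556867414417045962136316649007727232606055979100541393746657514950692588375427611659212522527933626332266639413426390739813866655886399318349808507643017249712475831977069182004847360322973739916833141492644945806349106163265872719242741104649861664831374338455024072622945663103654111851238613613201103139142099084607172855411402045481976941473321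29941897277841183473316255065835370545721794410705143071355587888183235589643517331998805022031200206211724383828696633682762757080125097484345150412830590831306088463859657644833019890807048673862567001359905215207204022185364177033321160153329296684382309859803311914432473599412153984662917081415325679757522318336933364494744111073007701828496309829035626516178189403054043261252652735282278113322694432963403887343284365744351957742376850281042946540356764846588371179262348074814793771992541382393307770765853231269440933688765367978141092949218270882889765569724508932346486063007310230268886827862364924495457004456163638822773184765522957825026360665016221722651701063146031932525345589893461738422646695387943713085220992135112855205121792536300991707156576964163442760836233901605719635719353860646185665394448595743155770358102255699856136803909354143272335816492666086985299653553508814261797234017516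65572978847566254215499476530720675006178339759218212897810943655604836720204949977378766429163022762641809332014075550198732460857417690783422970820329051212631127531132398598287718169143735757584093919633521050226195491109559524322726990420327639169995200908952719875381798658036101631875842842393077948173672371271696858840687648182918261301903195324751529682961360914412902601056016584910414583032203577718054882380612595438846773054130958450842375454311257289087175652751103707254058156685366259842360297714933376205048119924022829278565797128195718101342251085856775104970274658088096876409314455117976301791418221855845750335917478103232772924443518439215607102869474351792729887354524938932179719195189929124725200529047970890983056611043449257010496974517222074977166507568062031297674029223585632810909246657957531857216248992414712813329977007071259336363964283692653311548853332478225254372280978294357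04455122568033023090653608318437770510204062681232886860909874103055112628425295423035629219647767040680260180232437899253492401207066051755759894014855126790967827105229569700859089248378519623844866795717397002938722381908699133313029221755680174637416817187640619446841368425513247204404312564205957142770612169996078761433083661319316318447224926028415209672645775268939225996227469793266130879938063490568917725796726024434263805605180915634740521364343424696814623548756208631163302976337258515835928666731599512588715452673506408902856447806821768539614683061479619328044994009405443961332963659920348667415312944812456906741122505322509424589649041845516919474818523517668499685990353724652428957813346061576624492253808365859898486343723638703194426751783317329548684491007991644358094109831665261621248403193215136035476242461305359710960338101931413349404217547006138034874925993052617072744324241270048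46792309717547318796502110479619450985885448941409506107542907373447971291601998307572419947754491111667038545267094117838678184231088065202228183930311188964662405800247313620325964637749069329166449761130997830393577752215441148211791209191453650184021554473558159437026987668206782439841814973682080786878713992632916220665586984350056435543848904204394767184470204572343843748361886959259232580553920365491875181003983323856180204645045181174906300884912612476212755331170437689154546259803397678445350504944162885452019737371351838564516088619175665959581940722332881326588944512805118607313430962816352623857267338595112579730581776595946125161062058962837042399997282508744346561620158651047935832972037180283527829359974269516534223694878655358577589838806333876622994708528124375965068972816457105188762874123590730019400456473334128391521275268891434933734156170282223194931740381785767687819101057519849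14374464740990315137019876721912279254214397928854681017496042555941380530309840545494246613569259053821132979119942633582772781368541801733625896763764062512414153919886135317143351011852260075309378973587728880300651599655767742353840417195687053284472404665617458150575099189255324638486413908609475833290803202091121407103848186335306609478277000590639713607694886728360208290884936422709426388412840562859091380880363500071200087383877634157476723734118082828351206610621476816315667958202631804876090873008518469594937983895800662513181291864173142359360993842793856409327649002269590439809897493444207389431437198000347616516515299193318319550498060165306708790461794459402138863969138451329927624712545232981286508121912111417286259333744279627092894169454956585625527847977443530236025155092388581619857267678009651893254426654069793540066707242075195307132290905958490502123828146830956556840118667152043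27576171165487403240081676759109515805257868812619279203374416116167501909309940237534528968867075475765526784079305802619002479616220656130372664426972843897478240269610814403414480346062453327664623381297944433278851949403517077633690177653092544644524643337077509702826084210847413382407416735345879702332213438418344697630533698224668652369086679510102844140647840977579776828114031148646957416522215444355406819914932031337201877691328238760344558572983912775298730676952248079218689569425386016538071561286297986781584840333084242087204767237871944673100927251558961231849259953315757254133708864347123149037907816342496935298783077253348137815674818599213672550848028323505321548781020381307443352623192657770228295287467134790521630334832936399413330582572053355326415157189865852044754515793784032365310072005280000380601122287420947965684353796196558044948126472966455017581900580701680106112760470293967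92399914312406934497208076147642136610359867840779218341325609214381913973573038989836364801356083308053815240959864077284011947858480573222678295545282495524105174089290718613197607481968583229246084258690713914961616231884162073732842921169423949634909739994446456954456216128679216452315580735513802427129703483525204302279158842848726856132632579427714369024501464130718459647148187103562436297008536472234211173378555004755765690294890136247171913064176832954521115854273860341990222839460438679177794787806249307697827966507679462456104065804448593857962098014790458763464424230005389685687577120253712271222271881746923444706753159437601991188190014828334961711210469368054648052998527328244875570039282757960115360072844312280832659021389307328089208544890544489303201656812231928162501386395353651881337103224322818748318238441751593788241870695655665464994051378060228419176451085937762438044995953164781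20040310820695788262454156729735224910177878206115695428335080263806302075360586223139854894210068606100722076812857864833182930928850147338793864508505524720355589271955091105915806561493685383411034180871273292771752331038242867170307112622777136317220749036753275239408658133199068617428383299903613392077425554626808008506922618265857475211766780627727034663586482044438393957174273413165645880809898654299394507381618629991383267470541672750837606958086195111916855837124922650524184836601617795773799654026249352038058262432937376508955117525641672079722813214277242459513338624806792037411730652169853215744146315493226991170809840393472453656697664428746682203913001856718004060066960875229596104116931619725419480965071188719771927594588549743350547603753993098688625174537699472642818618385250240493116939301848777878441759711697878270093491445918726334899957679327120341013249790810006295933699795962039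09284092991574505372148452690506373498290448934454199171321245140704716032973471184343943196325939166842476091770903407149680402683193605883718083558227444883939774294186539783573337793328870671118829964509763063345929766649483500564990631574822794698465852265298092405773257994671050452881959934894212552321055651537730251710046035864687379742030451796930615988312958918767860164605739081098107225764825138172245894918627497855712955411428149021612227343688408026450625708293183540375576529054281606294931067536776942547810156039674822446203808632435792320382919821926463768375765099079469964945725824226010362338392917620766238045561112630872254478983427799883340531725957099680712157585404118010232353721481599453033348074487350726273311889350540319179373178014414659329754307862058494079332255384155333204665396940497442874265476805479665352165393429013477044020930121203273066814850874487317434828160915186392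74123786219438454130110027790508026685790707361368116923335761115256033520946705350680967487145700996121897333732694127615117175307661732815739729550625129614884718731739242754673611568796125793121350364029057859516656366863035799019737120833050823601734364657555809199360768863113032371443500961901853394659914320513667109544082933555112294022853982274513500960039438490523446789663174420412762397127821264387343897734844808803133532705273622100548754159962126502470939342715013857128272566099398176156432482829782895252024665899651317261149932227165378268875015437362444494077342674644999229323813672303724722933696369954427018275409306564526222752834596951417796976237798023683263144052748409999701936565559706443087426767255673270578945575324019643132462259566433638478520692379928103526800181906984092901807603536332293959164228067113860928512414292845905561631396928372400673073293941002176392047612552146049103620884053181751204883433535619100930523270096988259495089712717783643197558660782002887468577889472106052234021545353754701958867706936943443968)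

noncomputable def rc4 : Nat := (nat_lit 12758865914724625039604022195494469162860169957321649397532674407863641955933785413089696820277482336129474932175241281512572702505456915445201839096685306674399615744254445524374226782596339163322687120861890270525642240756693844429557900118947547756115343870714739836627036466273764200204748995705492408426754776668519873151492923202549723465738151787430183500932361704572447822843977901362647740651340624434225216319681056567173940763157346518527101840268551491220867389904714377741856817434740846105385711963995799578577879089594314276651546947808163588687787494681130123407470306054414810342622074246365129039013079001133040282567844509568868398902970208963325990718562287199167817505570897680834774278480967309162139821611358873104948213729093376103222800183811650437412025921000868786594714898456978591343223545320578591703962803036688204291943963457231992497606438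46896362575044992267335430404919241482706457003021524571373520305308587058695561993896255791407012455810761657364123043528351707715063967367416762211592057361529144046130187433526693797861604495916519869969043116126077841010007296999985217759168838379063351124557803345151959590460821827385794933239846247076551308043802483564932530505049943208811029328591408486147253371110920133220146124076903601417726742526649724276733628988476621687590207586811027957009705237166148221360734836607857217657919460392107437480033340751971445105737626825389502169369312881757219287981512994630524251028472699458483712004319106779485980511169267498764830762692641651696200481243078992114364435535037584157166515406148197096043066889921215759560750510242113571095712775204903237987846692980838080981221221076697242688144442756856913262972068658052035976544116261070650455005768087319361109744120055187291400434789555509908078131917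66387461739029866382793778221049168098595313213809104452497304392869663548280813935785122740646015328616174127814329661587266438433915417925117896504243516896770632441210131896233868371071599851269991032289010831698535270381473915684281891658447129788605036019402535094479924096744378282820404068395720092210874686278016073401555328073991467488565054021972532306216984771932601240200682811084293273570162687474543877064956831853874617532754034979372668904630583572722872521634218432147583262993581429451320684373509752987004031153547230136164735275681336509544116351137548192213423659727518753822947001339020372996281479643875228757666227140617544983532706443954136923634620375362876172618596115794947732200074438126911243558470197859907876181533915283573351586999528246322413035029133096417146115473995493409989487480646327363140615604448365445488139285025576291764983979551847409385651172870328750516295555762301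14618807543375053419386135015705701393901569263877205557432191849803038238956522598321944137539035825037574177387791856576590116192557927170336055783296094300894131909729284086827363603859749328114430174344781120430230283189122070412794130413685505057262294491597093565606223874356768706943322302215067110648248875774482678233625777733044354085294222960550932762572617171606961627938793212715390583302000664647898739614389725874750470782188173272429217034243333358857448293600839508789629555879702444084020266024990691981933392843060011419822036062983085402583113654957401189968733671745397570897809209949686331090787885334189742339695497874144722437735987650058339356632343726107442555523276891845779632121746521177989794164355163754996047504284508271616743394657935945715657624917389244323367119441327911008967035599917822645984496436209840853287747501675926181281823516182852212793471069584631014223112223148399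97720767727197869837789607185682236364733577031357646123298211455701479615117553197551424746238012809888947063404885304419303141669936153716498233405662238613299882726518087669302777765483075705373019459587058075223189793341563990947205176729026335614545178273189548639720199047608074937868081100686214729884260997540130395137498506127346699252645712310013867391837860806479827167495318939740818492963909122332007054820164001305192360230134875329563451272167414417168917858590032271109024903605885143676501591359277511891439573198137337588925916847282399788941466176347716729261802417874617468312863754015426155878334793739128880663385892384486109991440460245739328994314633239612290719642186608062899691407821865049002149886234622228219540303193356288238268325884596017259798967811479196773089689717891138816402114365258693946172319488103228214875606657346774397452980447953405121941435858298857627351513046113902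08570497249294085428689545680197600884954429274832522363960718145365983005013625779060471626517730776595443898262109112960066229659060229081288885618094332253338417631013904531716635133666497484282593228289489962856768112426630534936592993625977847748143311187832028827609916347935398154697303272486513940694022078264513124370886501212579109190089807892872046841305198176971102497511842357524463867385202499819214995140930033076973488297470534934811654308818334174758790384028840663034082397652988497764856517262893250998739464704343094889812727507424555085819080868243776497740681352590370488013086948785655774708924530401686090114318009844754123831242855948681196966242534097489861549625529761600798008773543417828011984282243563953812633617250236880456593715231322769790552666358986823117908530311935069528955369242543457523606531000451481913424260427182600870859157965968227569262786685861751716939032697150864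55241476046197050011077075972124214064445241280871539895118975351281278706679268662441014503169254266709004065209212342887649810847366603370897652863125683797715038227978247232189251831855926482049880692562254119354692004481731566534649063860599358360013658993414953518622326372223388102991095174844359510302817961487310420940041535440694294281207442490018640814900968666478512450643328149006391253918814956723596584577092715221788158018870187904078704073540641947521829000850025331210411280503874362037863598606498702436057158945944176793188837517240931248340153789177054685408018339311666400127350367167895318500341783259937288403448864727366707336246430504615816799053428759406607755627492123796083253470146661965831516309612946416218286852543123012028594557818111506106685512417723928276810307072434414734203013980713152558258117964712367137869672969522278942014438756597902021471356127657460970336857348920954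48520772825881511396238511073783847967483115375047788314047005505950243386036140062176908823331625787030868450904593621513011741545131770371136024998348590635517932973497245427877085565747624303566167147240364914083997829916669861083210143374273908118953628876244889833745752858006680045346545271973127651269175676161774284735598565120298162886119172459664471788258818660209513379652801036214741244266319754385764439834216194153152840098578280923577719814205088547025821221421543550393220958259745367050080017143061973237390754875893377600252902367446422119939618314896399534577583971735328670091667920718899778763008828560160398039906985408685233277556793952899524232793428013332982711087176525697668535327434513869746187615792112569168482730139331896335707696652471092494388879737686441864533767546890610429942475588541899941726996739535516698696147815956649234099716669124869769371783698426798065430019596948456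97388791349345008172438721399390707603617668043404996907923376393414200274792624601131853529967686993187171601219146500403357008996047400360822313057098368221847847359370409447238501380604908261759839144132869834606912313301590624656330538306675369518080291574713229378041513896952705254993100956361609428847429546932576089928058831671031139353580859799122305780677660269586358946406933186563870285996839141172781645866365597578826722993364192988167132999497327813152552968600876750219373569064998572516949427462734682600836074964934764426327812516164521781050782861175268404864865991797731776405886417534478898863348458393187580225363464484899769664883447485893692174768419884399090613721032502721871889167926268439393648354381770797373461819879458801752161323304719281443638449651431727587292118736703230538937727122564561255532407969967118290459561400191880855901370788735927974838432189681079635513750927331035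27641001487743724547649080047066213738177044671513579062062129312464986492880578912523899669120058111758378111265907506606854213688127227585036032679084131289989468264146636497830197989245575779504841360423444075046494398456999616626807455972736730500183025605848308716100888800492512733214310474185345695692662079984947475231604745330582138999937561941589050058647285066260502531378982038472832022230396315158389164302568320376060772546900511214436535877531933140969387512347155074851647372516985774096573292082156589690604905238573202961389338005952243379477383841486692778792681211249389221701992424906056717706487314510518127144848150123521886271010702414354676835112973246038956945044277087985510468552656051891624026781114046334747187723299959643427361574554066528107764528793246785718269700598761599936861191091501317880524936793710419922785570612230502661284380830264339372543035490775855149852528787005328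72646712701469607238712492831510903538540445515336021810756093911409343877713337531084087655194844124854142126618245348584962347732367361983116265750051544057642405867747074235546625042978449854219712476785094962872193162260059863580701442248153833175154629532512727975653820062535399274386469514052479624768893291631883224284841764215138951422191777581788492782259803663378756496378786355687611075738856646927067515170373501515852332404138287354812298418406926949639383768085630199969179128036192619993439857951800712320687154904909392607722014270897176779397577277196943531576120048867571995719520571342826263834590142481032306414866284920367743241651596108029048866681492852617949080565583384280899861836196984896749684440181578183392510432573081699207588768804335900664299419865948960340772997470968866638789622745252621994923816621379557112938804137799469634765016518049396907142237832732499867258931393724375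90422790676727165531435030562209186814574583125740571326867251561382997066254816983780758737237528856039114780086819905342829520715602992685494677762842668635510998701087600756600280311716348834819528648900514367063859913338238881082309646448046138025156550691840503978464599989534640259352630551476779966422070275166525029976183857988385565437897901338759847328832530022780565861774468098141216968609030422532381851632987158771443636086495570682815291477686126782123279201730971825960361546248749373871452970229967387219469645233021164307127663695410312248883084840027921686167008992110647916348322479188375896276223909453372856142200915760546359273575870694046947255927729198744792162999811403963025239424591220707259067522688213451793040945108035799158567755541487162986284520008377964285294605685821446482227311117091744633580341831282648011275990651467325808977241708212716334423694045574296605591862670627322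06254336464371426092074844635251176106438163044762064450159923304155175071764903864866294967427044307686615562042687989555294479929156538348177333162005926049020822965979390497029380905953044317441459883626659062254429602904418381006717806828524986719414117371953770647775032685298335998250429313538834611568269280153109522058306995286295818042201963276089227241864249251574464470874905717015171008097151468594778827403600382326875212054089729956592174148449481468710237516240055966709603337637256261726624713586650788149195274278399279830022664084010308375199985385734646241492371326285193786805486622896932745199480745560694677951062856956364941903375168672832027863846366057994319584925238730687160798223918108907570886540005088835519911097017048247515399971362115446671831057095075069404637262836002774492972807558403249142362716243617289166950753939126098437451120505762834368215451900329487897635782957910946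74655839362865382514236176501179037898373708356113154055187552539753066308544003560862846398862250040644440687505298697250416473071590274100442419859478146438041494171085597255707983549127250486875129460980470555853973521988224990265471069401646915693657073460948911525540851703772946340376647516427871322598577648121873309246075072438037644427109993416889396779309440262222990027967463535129567408463003241690683858496632048447861190346652062830928748860697069715744962025251702716247840384408297315849306514094958414986872611794222789450243705412960115824999860882630545212274556771323929312976514323460608296024462681048280092958684289344149531941762108017418426387576403211733261809549386485139689108919883924680552817813243504248574557306470471754842927231670972313582623725818666207550402875942239039412765577375453832663082064119300917572309675331731045007387332864731309602939214900098536670860232210039847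73256789757925966502166092304927035474906829181307855025606806400357548412053262890369511919500747950470541969217254337556203370710593062187841351549151667025728594650620071000386233732037472936860533789393852995945226894273003425905503719106894399117795969072159231899910245089744167296814942696043529309173433295053558052888609793999450672336428114176235838243682050216254940903462994502302212938522701178884291457251585259895757653295789427370296864268076143568740499428067305977142906330388458665603535573365119589209393668228607357256288472225640475374487897233903869409518264607640475461537954869628196618124276999874994561715318729987221765280143068392054164385101939045184640349394220671608200657538802681626990029918440742202717579233753694371347814648977364258128396882414208164846300482678399321936650526243174659433353066158729257121421956454268744367218896857519761580474069465425265742712731121174351758882944299438936967294749919675877553261033917109821608187653011297041533919531705566174744830988964830179885412316823540219501468930746383073280)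

noncomputable def rc5 : Nat := (nat_lit 12888676165167485327206232557211570749349052763914864118836468389258050886288743394697995944900659411862605904172968594701468122655237808358774583669997305611974393915366419407368952124964458691669363796959023359221158559568680164827752669579967412582013055586380204642571391819548383129726713140109012653885424639637062727404346402733439296110141995718737309101522799913609438053726094967377783449692908381110456863113850666052519905150405390685952990143079573989264596470469833123856260652044289377720696762125817890985964457528754040202010533993183372995613655647389216850086387175742999742949112220692351919254241592995850764499706282702130786850137396883094459012303974401006967136868416233931767015389834141463612677549618731991340268917885334683110506030992360574446816465226922654414882711839215219581758135237433579229988685930810993965509641636632024719201555159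62124539220011964111046072763160608842799374406303289369906965289562460618569043575958795827545785627931408178788776736070468691332076226073068742916733892225145457376295000575047678594059104110667302203193284130650120944527817091964271811257469045459556111384907089004644266019743882318222806900478179121553252619684815093616446561676646877766458211620320069808038779151366200710516976872504143147533692840971350418624394484560898129986235242849624463847910156894915543944320320622752141066437742632355296413682340486755402702213078633420379579550152260840306203770496164489964481352973928262969308574496658915745657654086422540147151230135816490794640119772311590331506333741294726167213237143886987715423717679542392185851423147211846940509086265357862285947366194546221006980382508874214972033813939599639306779567462780291833279826764460952220032843193776530760298085884863979850246397229017261535003826970148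85548843641174326551363893967367751463430331743889458805098597124867060772662845001527906565313766783316532666823605965270240493287775179813160435171288110843020416731791590610300008042517810082491616139288670659079125872092545208385255029523660311335529718392833006622951570905688940425270690565590372412718107781040751211074108319102377398965305064623457012321647034882041826073183820951751167447570744076378229828749829146612223923251559413275742575484862737267818415802763503356403529616250180406113980744030671023866864850971463772731999962916441121632203150909445701667915278161618786448783323714146734942901405415869134783083425046342334148776587104385469742817761034333378043844018021377928014825925179946013608865850877463318725206330002440510051229940617917922296593675753805720139943512466541785555106062312587543455595355151709987362941214895469375688147935875739132497928689858629887331387649920061890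06541772392001234816935666646098632077274651557753631029508075168224299633063338279766986404396320236902510921365058737280484029336037399975743732493578904728855425724564784918018175805883738158447990321882643148648365738983310839045772335074257184774737919753311491265897130267656056560317248230846199689009101117974705473626251352159137467129209443133898900405326287942330012752286279706219214839585522380545652378728597268341354952977803549704552063673542513856739931732136958425044480114421819220361418461864576605097417504614075732993136281811760491165982751632132815101321884438141156456892878746299519048731117198686983816571092777819410482436314413698360534881349824893066892885999771558624595898129341456725741805016647999622361126299354888373474539726719407046396011785244539758473785891337505997883680049749201397167123405652062845295566644418879215847124798789444486843983387523910483088354360141353262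25283197963926225303637387537810542344326564768200970675643003938424265484350411850064628397930746327754133497603060593161493155055774281178378721609197651817823260289020690845124564933070488751004235727605605648123729979035822028330512079268759717904465031762216338240463947140486458611078970980330515042632075644516562322016026519270886679236773910783806147795336313938677485555976465956064268327454012213436742043630919547437576686136984990138695779778465085358102873336673046326094015608716971778885645763376056613757131113109020383168587361295006914259194374283384354997430306647801365168152313784953927876287694847429845300331768742352719254599454964417503989183408377688683928226782146484309602610699702675620119539218752904694684231612922818970744076087968808200095411890357879770822750742789731552052826775751260043461745428659420777650072518667990677713132627865112420969320683735569728998974890687047283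37399574706622297462859063785610635716989467846980424578950601332580075991653318768183146529545040946103481159903594704808276659315708351295630806689730723388045761472707305933668810865031247979926730071557376734644807139361040869587324549184358994124064343940683190331240941571334898562905226639561196888190322657019538792832545485449080335680700890571534070993832184740468070309799345890754816965632953737650681927853331918370209921501592160841182472441174591943148823323478072761053029146020977612297459685058446286968388716424183212257545442109323932478874216104891052397884471261648459160422993090048629990116824302212915384305696314450482800700367164280445270830841274297917620331550335812792498190220097739203635805189453792704739319259699617778703393402723716854881647191106800174926274475572354205924480973960780637574374032539691086881625753709245621569829712308473692116480159887256912477622101699604583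35608678242087326451016323652508811778707173217456775662046264320596253620483071795160448102289179374138189937061150360400269672323962445216203295976211303775960604644269231549723182017751080932093538011819796140981498869464778695719889819707249993719991660575659956370328063645204715679981019324212639258674961553564635472429337538320973779745189268911180499162450772706496172663376061144827102084871191119564236095206474453329046680500039764357631769657972036139789207123895813255006414239737663028138240005071965042578485059109184046022336558267440498449907769355356708118735220188799442986312397110954325533851252787709280042209122224042223111684918464788089920113658069806212647049038473156658041821024228243164846939540861757453716098950937746298502704059828421484318264808761413667162068975534407833499110046993586651571394545014805762648072306993271727527068598421706271953152424271574769012309096615058539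75442347780055471833651526052741118201778835909197778187319521158126274679182381133429305733348538891549460156631232823274326025470126349882396179721310644945227852367275162851473223755675940777196769078504833160848758349605041193820409136036127617288048880649777145299228910784324244865518465340636313662193842280540441086298956997334989448333303594651864881939725320382028364885481927226908121411932440758400942120454445598416432086106648852632559981657060363345119219636365424497382466751752084047255301503057279576594650974203927466223258291767381163600558724883406449832035527208903264985173509462606459610101449307290040505788208605150639646347557434545513436157875949598444378119637798313942314915418718937041643316864515531543133294482692889567126632738274868346520829367369695033484601786573436173216047725336121033217093635518143381185248542413998534595191676599772406717845977761075923900946849881705416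19131979663202606223086655894858808397810930248979918202939992140585560843241815589720509546453953635363866795010152063368665302030779885623895008599940456234827392426266681421635772749628749134984063390970164631143889168481753449076495607178986217412586402221240422699373672898107504168415678517807980985274416490434170563544722549368136845097759996412497073200082866038159005405668315553944898658300404096113133129583679132319818844806654939763210351655741797802106057335966655269524377621328187525683892774421846054611835480673241558214394053433998453193460339238283293788100761937864033710715856561542606865048824363470618596597208404030093798148386629112301619825583762454131658079595791052251714547755286827782358577113149744103697019238591590043093082596834646221587844265858920724614982236822580933139226641723529407649611554651306088013921762293673938855082506268440138122268559335600923726620438366701954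24964434922461413551252478263332037576203191280857797962897084710609557658595553212434913530960795142362941282389964546395420648873578037589297201884393647107948560117251986030456458634277462013213851460122373375166755913353145751843493249408784673034473774826823026078911160383864571073115989465366989292045475037047081173628340872311500644626992455184008071203299635403277702610517499217646786796213076112701248941008221599290214151571364962523566502479706337628306611535225614038724982040363428627893129018976624605216682438489964284543753669044451511869340194689237975422070064043871785346258378438741482504307341952063179235850597947554063739204884384478061453877705688100797718736807915185573591698830618881511497636091630530451305226326411305526517211080682637698577430632721912309959252866095597079896189175756561708124617244939521794852200326660979794001109266747515647525245916015449930202225473385946934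12742836374586987855868353107579596987351734031057361688442307889766150473844889306021761344322083047775054300255588816989918119983947538921131964031940851554950382564402536218006345375939813416108779058777952384390877989954140144467114160510968504434159604230043129926321096001248931508168833488322185732701331262409651556266920249483921671538220446997382621731872871022431685871185630406873007333634868292735762636666256645188605568321219722163981654882231978552956729763752834763060277021714418349528535592425219396963025971513341792369250750944458425010023360632386725095276985908678848542672398340105577758616364153577520294356979642160873492351186692921086528782045876408357015011347128217095400223096481712385285913469879395073895643825287135601318048118938098533482193988050425056837236177128848838659063041234207931092075008028575697437030438254961772522092972454263690096087425103955952271471476171202881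18790456366645852564850422572372453787640066042419408439353446375180747710476205389253111351488339555967308019073600469634833698313193468539021802535461809057794338285471957660917723034767395746444100689832798848154383788375032852936646482704910337162250011243735146529075806706753503658092365543456646502446013310741068007688764519799462292429386428128895099892139173323016776407480594313906985212816267904206227787442102932501549769716685172421785893791632942582989353572779142605232243382486202373117953560406032371321128284920765289707891911257249210861710495631836833003419323036256012502662872886798344235375946563775502457896387581022043060311564483194596571178818333544806893953264321493370241015552904780310818830234969760500189837959390831641406022020977813145338077906795722075113224141133587617304259039979343965889009254878388981437059519140946984430284969977992522586075910503962608264808482252119687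66636266382183952118278059534787447922804794714295059348479577657013472439679825281032949252650691177687920477162376668753373316883100580185784053101829725173131748427108014827295173685793758166097749180137538647427068782397200855785271501504658216752464031904216211547848385977931216278021698757441217217895492833104926857989235000352752459554914171333466831779793348635391809456816517556348872737417934422965249384153460372279845289263799580364011174006267010578707737195016097936323242787597649018399836404538040165405517459714850415197465717350757962944649740851215743685502683050739492207053518440478603018258456507428641164073938246106846212600874610537129045708017536794026904338366924664686957793447755265614337729187113826275878473953295163455493259809063553093307827452784691688246684813949428426837214466891422294327601222269842140334422365547632981660712146751285075558311066876904465824116296351736327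82370630574636130886244766288362530341806570850426195370911444970961866076782943060441423640262723023454378215810921101901539273013411751736742977915081147943994914177855165427591648371224216139464602776968606670805615685521884297564535782107952542701587917991965795945315784200364916182061001623585820352334015646359731229532106488543956142798218922263843942502171147906286997857907524376648859725660546603404418422324130968500777772581045261836218782250634244066982581806339959797141382761798375117975385197611244332527486803734241046474014862636190643820532204159689989266377290276694704556764325146136093150215171692073374236138954689518423914640999583045846089244771537264768096843462707349417827136401014490205347711528050177784189874587980954602319291096042180259151658299331645965691637595466678162335698900140842860168315332017364121355758936685023433034723225623418344238077192447187008374380699209358854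05421639174210479109837801638425202221948221021456308582949716973790460971482085298773073809545395791753984783942959970494259831362045307538302317869336633650721489548772498706766757135249278216223067680523140068178570564048776670129895865067765613472619936899853011934740517989904090562167326117386949363396031224248331978522952926394006668245886268465665182962044583468405068753487344872386798318860104768842389442502749497780018365457485379841977276237372484989593609625925468890267080875616588374758438348327195937321441717708622937100320974564706564223915561149516524320093424325752582507393295429888693815934728169476925685809820440740444518590116966002654360214417766911636257828841093313650498862159519253836604836006893743759161733146591919256575682177001384230041355272112633532668764309258671006103762180774961356939661958090329032058202114671718765668248016778675739528182086727335030345771836374003903183717067246101374853023132080714580271098358534721847655812127223923615441608763024263056194063249973691126179408742148999147036984788046472806400)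

noncomputable def rc6 : Nat := (nat_lit 13016133768869818100067326036617323373095799203162693737440297533701627342717472322661478876791087242438843459558471179733393237172988615770614437619002779818718919247041235834850292307598826076426745031509618892985974845725051454809864367427282318193275193601665217892082269542608603786657452393365450728468432247075780321415829215968811116378613189199739429636801788550678350110053088703066228444327418888721951080241177907396240148385503009444675662431173614733693266158260553711077621467605528927728833760101090286240680659014971458550398674804125072034388390494913180695630620400137151883948155304277130863058742186246272117282604161273260282013843140530761388639653936102330070840233412829575965819233404883917569105388420260355800432715784395741983474799185500910831074114069638393641279584356639341776733809506415273847007132543463278261680448568728573369032660185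33748048738051273229118666433158380066632605807074783096951534316572274889046902689852785235610170309497679105008229249233405495552914012218009949343499792063588726199740925060129116342384816385175219069843118923465866228037927524286580609970654197918666779199362916835150643283997393748125785787110244970315820695156176773986281790306695382481495682537225157102663183986698045422233166066580122039664407578558951553297496906633278025209392760119178997703361145600953920354157824901215962571787743596069223490742738001408864968838721813332557174940832236037989323223498118887253531707043824154640287227398870111205407393275805144662991856577053477660111253053161063529118472334113007592735159495374404796938208642248692664152055855433193675384761784102108213110357694428606088265072491556219496725653012209279892307088208931459382514486271846932753057325470027161392694395427127568148784211220898283941259792446388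35067354690810037023984844251750594530819710771514444604185656065221717606150803922118834778006023361694845800714558835158650719803495478021649163211713692634962933809249253518606223282719555509083392286892170728705860099406678786679455514544760288832856907923754337608200661714616588372079872104295969183755214838898880609308965520160057096883358364082315872807863943229780365174661698539231210281005699204297368855551439356398437936075310371306126295519453455716123209014135060795944950679983764279094641657331883416938863533107725715615975224998303538101502289141599030166408623368938426145481668700417927075046206477442937421630498008462219018533087183419514188373373446817105483375740933173756455136445631674484624727799185143339059074760334746234542512194035455710067713650580424738415162653363191369323326634079085740765199797016440020742096828624183754733081988546037982809783402151666793699337431304655741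01979987733740323280741536135704689168087199824794252047473802348021153917057666440447806692961697534873378659453944624735956489066698252995025179418268923168180743664883447262207082335565837280042372691560753001052083817938685192188183573779363962561194966283332493095046610156291828632979151172023906156093536963151420101864277739862524605784779115076141302790023770340985641320719922857296903955864051705837641320379103501418323523046565885817824246592948872498314671319790145641816096361877061948442164182519812861061603292104268687509237822427487530058789797686442733993310609576041354503491135506456323341362795010308472629456859326668865203409228413694021392018760346430780468302139347916727486754950012598428282775912814257972923950804495080988581231953317421453426406462959820253603298699319356949164376054816571479172499217675538850370110685573426866995798067863858311115258937440718629764690352670354949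14760972115105366621992583709009323956034787795907350444228003711253850658091127331877892758705327909086720847246647862335692569618103128247656545954714044372239020703552741282136246401112048427401291841508249663522515495665666542385885271689397661512098099614277725631380220700690483875935237742923270385398979630181467648291218250667353472999526854037993020262058127058126542111060367118438883361069524738536349405773825663405760696466945893636235488455789790847318446266518217589618801519957636960882481775984040613751243541923668912672823215082544163638051608465389649513581938504043572641467919041759481413497778904680957557817333752002877051159495440843635851498606964734089797739861337106325264935986964175515936445148528030879397615746831184321306287462835967555128035528802658975305237456572190881012645805351784673263212642138352703564735886537801126245096154921813818209648828394140794965474492128761913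24283694897828287571435259371680566932437928689803002168685761253111031896675887681551202478918150874362243746385190805325118244607203502150129510441054947107659535429812285590978004237682670701545900218423280956517377881740791273129781481085487978842764926933813283119196451121087648199497830966712918539742086259867493388099341314507664613033446647690039796307153252308804235792394113435282688949814718863786282316592505162934432461329454228309671278395982169887207101340750367935814942257362553152087400799771963275539998675721762248410892694293513152516023707593066010095267461753149701574264027295948721808879261629517184301583510358134199199092820898342532508618763358116924689976845596469232278449605016871147762046441054799454309915279455049844568447794260137159053755535041342580288974305930812724879499469564528646795481818005207098977653037716431707723695063578327661520267190171793572612222814721546222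60302511023351083067471212825886169672882289667782975424137878441558267686393535323625167293862234772410281652535284930251332016409559069546671790143791900490197920834975311736024529022319290775464061944913546464015179684751750835635585256805411368590413913035568117897107364058346203572918808532837141709727654953752169440949226573200084099595367899421685188554939973528202969168608817285462655802635588532232775067572774434268116793228434400326322381757260688059777020405288896173514870635563801117499598063706862921753388348866277711385424671853800234212132617384180454647345292607309417461357075622275951833397922690340690917740067118578322411401176302011583780826564613349964955930855853431695593996992089409506724497776477172687084374012322369224252007801646144015986424805112899907743734523284650235650247036636663243730075258723586373216063117496755718783401348769394613027508494371992044986813671124926022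53460845339107733398518331417460161284240417721915057000439637473599899415059722720565539502586293411232004851269048212575782841446364291863661167922775993361315420444634676340360670015443080283546379702861943148289002611289018742588276009916162005607332511165127890803336555900763339991550223612601817719304742045948434029116998936603476909015447055679909714757118734346884795869626722384874607427086401184614956239677797400369627355249357821246588343871289535977869237979960422414527864133793895938104273899957242495932790143044600914503952602729811440914783224293732673688150393204418513175513486257719318806957177302843547776703592045299450737195390668132195027348953517291394387377361298638028029490404052708796016940639580380552984045876070143567654148089090271357919865631231491882370896267761335282642439666487737298827531898731731394426891006785491091470518325174019135474749402462213229499671962494379918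99025034165688934109764797359474376958174297270227898277185674015654604218763191188823416381182832331562564771083188408108910263480784722609991720832926227150822784228578307136717124570412679441172281880342201617966804986096742429486841541497237764336795939412497858983597121359739212708297789503252371588410357524054359782822758979096287494716226663859620027135482302304945184597080338662523210934631728562249282188233643311530849971668192916094508865518495036132584792841768479950211103109736251125528126416288341558461653099807703994126789841920123929856152280240385611420737465937121872595151365384850219182406838961465350238382608247842876325166867400092659921670348708872066528340532510527449350212797435436069029825174724766807754197565405639907254643276117990231924001584338604842294296613073930629856572765434875334861517659011913096878745129352978170754396632892530726967301615708463282858267242551659589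28761087926388874168866733751749032276862515785464636467270923441221389556505140051601157221000984465539970535053925741405913705442032728332181097847899132710915631902528264148574273283553529350431132576839410502596450382346574518533312684815854830551768049716443486202183299244406867109227883102041360067747798237513913796068867389511467045608521276559366424214509156835457835858179969431140441100257226039447613491070755050150003510657809952917635761153810899125239785874956447170189028015878907302407397573748480007016796781264669376216018305984573645989326197628694276336099653499251861851931717806896494522231874347324849087851778962935739885092961207645661949344760248935849438433015481076064175420368507514339229229563857880612239211148948701117383797577870805792613720868778865182428225454507783394961479741759144101969296083030330029006330032626894848000444437837363368306029827749540277316245437642329782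32574432831853613786082291681446503482758029165413377121402634557778048345257893879957903593421675264761456563571231980482871604066438782679056617319362863713334127097834691588120337466225896984273460226448277844314660591895203710314164739631126062041296134035397249133517578785067353621565588554052028994900004154660671633794655786346262967230706441492760896553872275780752137704622121678056007836605058232419453196909361004433964030734483964976149838212289810283642168514670821495818752652889080228207337922160454131581106306867123502110815382969492159450231812648263460190911639568110864514621012048462622281818395018523898208682184353110404723291078361821356708958038749123326099384022155235409225384586186534131856002282728457096070511512000334235702911302255022802056470560496849103728846150182399070112915008034992306922803103124251698897590043127679653453054040503787865122646008070374896070586633568835416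34474263568390854831763005137737913385380943661337746536447914858967116175168276762490214132799032969063566798779950820428118914593305158818921470179494226794212359602921104861731460482815317148227404601136013418948788282141492917134345445307315075910884481372562276700908628310252991921820452652662114440892907846087614957491516879608931469765101910489158059000970674746999135236042518464584071253626071861356273542603791986715193201657942194084400237981983623073249205893556297953265358442285783357393517439222903996265455006009562328606385429840535627522866825304339218140506472129995738860537627259689603925177198742667356687280024310927448886650928410863454813473411491269974544562698332732015010655102980040697268573592628697997637995835727353586485068497041383695635682274893064051903287083576204477039920682077245369465392100007768828508703035784553138605442087175874306476030660670236712306894658934476392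01517196287600366359408709754471052127622792695173183677323187353151383986741615602271347540750303198061454256387098449465201680336888223078686305886827653493463819306015720108161616559937878616750440161301494040896232366329730859387815467347747744185761905114753246597860333127581720239052414944771206480307096360918727110850328501551658388725070247303278404513652589411477318265743708202155559566226041638544769734105295406903753830283571222872292193572243180864601696423773523628949881446701315820578616867404511339473033887391019447234656934040782738390034632904906858043599969084312723621918028202458729097657817399837903412567437720446595189752819488952138227383812689973692676579692916769211466445659063239677689911762240039297394301614179016601537602960108406953025445535810752729990480055334953800547380246288059351914962172275360725768447386829968191561300119255028168554112307273816621933404748595674603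20244150007574470752000082596427327467505358178999370735202247413009758416106858525366982914055950129007995399996990079884825143055921194136863014318409809149965303049598607070074356259970298039964403225742186862722359753642643279296147909848915152884072984240183985066619224017120880256041986871890978226097392358909445578331324957494786754563468444479448431994200726989522885352199686552057060840441385471443155464030390060350927382842437002441445727041802406849538520776638710461096777759880164405146706357138321907381733233639923937501154787442020518336545369576893241678239695970493427186707773693715983626961753956464709223027875800937275649983519151918914882006817923429561261867524764286560746778343226002265123142328570310030547906156705732147739883524733201729680720946180761756203948211999146040583021771512407809174706443415648367965940550985249776857918516748073518122651711430844467108727682428135890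33114036658510462722975898571786293428318621242622452013426959883552315953888466570853362534160774909821705044077147315308481079410869274031305570291214686467353490333005627450218294714841066681035094787425608916029693287180612029819495999450196156826343121932912590553487498089065489882828765111684202213015102127739851075075476261973377122344870776065927670842097028553937505918895348194408589319286436704714074770916505065750573228597205403108817359486420429597853578267613215719349370343703659901230973778123051015310101583332785515289542145282690986820462510608795457523618142640696678676087245015158908138430201560299987963913145394400783950371649753107301344503182314049949503903178481724930251041787324479556564048157305946039553112533370129189969456786115139604928057540672407849390359248094027610485158177447455112420108661532330892179418169196810919802782831444601772667555439618282160756598646035036284307551743009526400469485159106834799689267145861553975734544078746493575883190149822406729890892879666763949758849660256707924400684096310428565504)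

noncomputable def rc7 : Nat := (nat_lit 13141169614638132329617685122931679894648238331525950625015403636311672905524498789124963334138362771643634881372084913383209435185561965744044755114907139330380965344874138647388340660172552737613930461493898468056311920648000651829265389551795347783981694357352643888706521186784576807025666503313324390887616178868800777473124094076581340434997787327924184811807291640723511483661638818402717410580866644515090645062731042154889152631166989140120924049174478801010794798132892156025569266572990453140124606631694179245375174564765737435681733147563948437770084726072829741040967685089032231909342259550515487585176471938152296978129206594442824651943388036799931088945738954329008182614777921745365572228219200845176643062356464824211199435466646220160347479443609772143806877396867121321690879581871956376162039288937676497025318917812687283201574417217202618212038082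37645593140902910908817087917824533699081428445327004191249452669027702703925777638143864996622259967052730180775457834185682089258741247097691232939109960712991383277647675224846225689018231555774463977046733311558542719533829417801697439591708755190343974502450562028422892490077325947483424595738485874367846973737497731571909938317380228795634964279359136136182324346320718165428488832054661398039014081700798520716305248857658892059766829844316170793314266613255361969938491821371178731401851532494406993888956586044320731290985335257518641363157348034559732010411957110214949596009803748144125233561816160654864136282559932021638286702168716002346688329160361473064851119679524342733466625814980735488302234609268488366555132853848128840001509237536263612591041813753572962548994415819136453424712801312356087622681043531379976646956514904343908980911344477145988123524646591390022049990772088576474654642271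98285329417568284004713549414390928273120379621049017331369352425377584656794727009104153908923313737796153909927171784814099476962050180800611428237544059694533647973998777621343286383182304224299729369435647023583107971072604733016047011864211184364328570685860542146993009421617592725789575544873247344604434002981094572080833737891962226114978533891128069626113185409203658136004220646954056468834385463185857322120391437683406766183005242041889571203321392435626745168141963893570389353007998573349736372414698395200196376006220956224867452252849221647967118033324907499322472784930200795744422570811518683733662002187568152081827581090726357691865291945623380082319318209119254933897431594302431466177855773399357940054757380482765501495200576879353235203988138947581147204211531590881329882791044106593463458463484391064764893692423373494746104322444937444734315501803034534842974807348878313330124343640622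10175149607867547501566006870850974560947374732221083136303985962926615707118429327139462281732841615671772952152847019796708378565137529573564656301142323094338607325249752501056579549960980863476301757012975803111113641921875158477829746408976405120022567640129612505897969845482276513512039885473535886555174918499458486644948580070411738308488532202076674746082677056333219371089464916219934015786646546774169574465767237878763906872079292358458112334334952376258043072686241175773404223901701789696324511126458177075102105530019663761296490710037428043107185129285529855493125202939074839171121095636912076939434966493651840441864556781921215634656887401018002618643713068416916469012911721105917428500901261052651086409706388369555444903230561026225644800915944550881258529033500449440833793028208310953436313054107552328573296660042554183989502713035775312565552459515392518836543022272050057646624298964886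29467959977521827594213291205629179905921631868696055063682120867725209382007545226197551186170941332412591690301469620117511507298615291261390206182380234272042174819158574579240197066456371872098063135254617931969995650523295682805190733595778818048347823167562612330137318151925119133929817391259564195774428165466984720767581810399440966341573992166512947308658013328730253860544283027088867981010014509146511400478522426785552458540790397133233726376686929818077605262191912424623677939049688974443185736549975971459656196398452189010441420947277883657297578549161225076271211914902611641124961447546457721174514731476461523255536214260272510551017120429000796004061443165568542845903177395447932460367412767503325135346614855291320468419201921177282070001402339591177833829993507551288110910082281235199561638610087404724791246632047622441772561183867986795225235243559614541147826138215373831167710341302423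05290466092829451749475821102796893625807111515380679274809274061177954775343613770897286402443370457078312247754796864612004702328912429021183999322944767044043457294961355997273881225005272806623223985564264916728297771528149449453754817716779159526444087641265818211440274005460817816288441223547744050161345884084150152953196355696045871821475497785429834948883726002518849295296370927720473116832981828642783932955369903686319092308239450013841496134011543269510292966178568536579497161389036478822533320746678938296059269779231235512036733812310377818901281898544719660679674051841952367354309008649174979360810914954828122611707594721086398996455506389649878420155888874641090291426542905921957871284527279878955138331938872491949293105126299113053596886129746879872817819137332299316538197740032248779209010542979769730941012270945739532883410983929079394375292052352070386574125092648704688927970784735357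72462521255293947402244962216351343141003394904215107655808223321944422306887404414231709108957642310493207102864276224437114427005273652067227848722990242074399177438099685152432189374297548033124966163480608025286141249035234489629940147452581405037756114910933848049525996302598145882689465293832175850882324995873974400274672239884580636026692525881434443902308662267596528772024636683958270807492489245113681907834459684180258641171036485037085561299402706142860643096942026066391756640262876817721448211592474725647249134353388263154441699376275044477627546853376917802691826544499670794982377384593012745323678624356794966740008136661028454033769242152172996585422133788973016591913359717304406677319793318782604696679428736441949551341611255612765506041736277982085526750034372824951657336687007385582183581287072613112903673756360517746889477664722256285635775035222551584020480951586127973931998044226175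81697258086069839710292004186829302944284741986930263846919263992010705363100260810045904988824398430781411595766700656720646395344025641145654827082459682397493234213447674918313667579304745351227497933035690435176193287076756812643117418737557342099935207906430768799515022976684345290027009059776026252693089294361081502426428793454992433120662673017123715531403130231084720985458125970943006567434135399860277127137161638107683868412195033767858314447710990673404450956713935194376689854651242125968613333168367879489283006816903962471092976585057574343303610520351866630805358159407841866790877734614387009580189938613055291886908665424069251143253468705057195432384871315403741438956545431158367446248124173010645913782731802417108527948517437369874684019943219421372067218417530834313953850394891702670078069806064285334735117289450479805017656494464670944708470391643904844660793964559543775615805858106208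53885526535824999945162415095878420437322489932666316494883688631728979407801828526972736903838769719448970095439633319947613630396104931385594614140294397110638637764041221127056405524237981156957386094355494208973629898774562669430270047191698719349293948805632211317555914871200341181838259156375188483690979135163490015727555478668879224213869454277796421737172627394692398609634949791787604046939681520774783716951369808168998272250141567010633757832088229067142343534878622014700890379098037111529058149770153381666218796165536751522668254144437939017068087343957803345562987432258707189342665815752444699708837151628333483780044448817368981213859380460489147010713945521327016788109847525844523900521149364559195428703349028387530603009235543013558316192641404476149229130083442787929254542102892737153164456150912555747360067965183280619524797612005113498737761603078725417470252873967531567430754593868464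88139139842752470415000310663828439694786879090142033468101979891172352382621722115381552742627746985516782551857546578968872002287828098244215842899622223506527588140301489426389460131363748731118444091413785368792226380781279496976461354202673924218399602343293385488282431897560728628370329359177576683513889813863141300623385779304228281995013864532663221530990778500776934905619631213338146398195259917879370119256395371451615859873929513548918309552757219635782415097430127276546720321205915344517196274111328609075213096883154936943923502466613238926482818203125696903254777530800986534199591780703620823608336100217885889849348926791956598665235738187195926134589584573071262520067927787070316598281068610564989625417214005497312873589390685359087692357786261049306331905760893418908289668204410118865377586511659813173565710658781278171714027320519825556502667386546598294292657981250245307506891217455168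06786427881322724128848815427815576864932056053917307041754956351011354760808652831992460883053007972418643898439440856096232760183336482032082449941676771977356160346457549476703913925149603946076663405618193528124782945140510424037011410895986909505384055973556055370510580608797011992262012457180469182545447956585902838315548427267603739791424877792316117141669722086721595278350860348643680267590946097003711315615303635006835786871061012894773569800590305055596564267498941063338166505687827283254658860197087215230792096872438221051234466506547279029653709241918303925439150482081504204232648636007163535665058360783422906371465429578259976109086876313308644057042327300889426883073157530919009657479392808184534993947109635798422774330013562508208270801633393202740792608370281870723578701206189106648178424708343270833734049341799759701931093467942228552822034660181336075320509660232673652191671553613532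09422510329687275204284446190753259327285954522593710561281646254637420518132989569191382545540751891141273358585602508403320545866018722929814311236734459379731405610707200865906758932685754483011776106510635489858886860514540878825462473102049979795584464727354518609980045466824606278821357935291583594373003494680059658377272188278683737115363824121282590483466731625333952841810320655196030150907977820587715801337287733608060839361260704319057118593597809757994003463087813976122533501950151789024795878071605422663864941649764993127763674861085646325809123552380630135312372366584735427664510713872385962508031861804799270819930118443024818804771264298754278306097064016093532178104204649722244368098249720762743713276981588070312395356475067806116487335408933683564269850004970479039708893110793345562938453092252872677814507068405930900785251382818798000080303994853967825699390269447841224204956173207040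64524780437971952305048466171703029917260944107938143297028505724338121997214147214907641918732433893085373878896006311900190973311677519406942484442084114233391942486860985312474817448638615998264703915693990994146186788450506835987092992271126527229203866305864136522138517357420649183785620966627072311627921984965681458059986586981237259922519045436057679026207323110734495876360029081293350337927946359228878934754880463058276725488921189870034305751561419333023372205560779110834019094636496772251726040566469929905100764291886517172140166267377925715042371052443414741849437443834131092802069697704124171692648662421818490217175027213526397100463915035404490587145814748764674562774526106265636669531259652434529768179308194058279636788787728150919969555801308828363961116698972503812264410209821307684051914366030872801869651756681334896982272280432133061053625930790920212864067337162723233642424143216042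77226362355100049987682848875068667073942785948614907523017811128753291553882413339468917218534763353235978452515322020836825122847480230781310254001199447626478475090388337308717999393846204567684777788990178218327487798181716720949578298066111623992618642168684267851305160328336325563069267231138303480873788032176365649257118153524431935710412956947701634051022121774448883549210690055550350308634534624989181314947382834250737507142732403962689734053576196331079909775444720739708105325838953761356739337081253180953589377094333709262289382754524650910802699819459983876433596483713172977497004558393953322820900082114947481275261814788296352541905214340834490310309097035086908924114363048215886254902904749894807454211257661442660071984815508733279977760220109936151780191693997300043211105482877194059822362525900171860692529004690071275843637446405281567896314133455056726656754412671744628761268398331200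35492668030188552834474434864117875756648229249313651190639959900241397707083466350350161112481483598945731448010800320744257972830821183200861769854347248723768160031631600643589553203563583978716772109458824321636617608759067124333494879798671854503019046932545705493147822246818972540394033421693214720479125996609550555055184218631746676467673107035373548936947004621217959486106170071463652233387896090296254009033817834693617749345722549073093048933115719803661547395416906237544797369829889202177111453001675966483739472925019262003512328647282984912798500990336757350879616797959607903736565068273006071353698152944406970095056215353200409014908164056352772400683684411913153118769301529212626592436195134841147108206331981282299129183997136815297562260027464572997366815667054872959933829644754746196040055889705600205915487980293458279038802109728462061103837866426754060771889685392638711955582668676863770578210097414666266113225590483909382878082625204253465348174666464668262137502246413489591383182390149391108819449214880879097232571631019229184)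

noncomputable def rc8 : Nat := (nat_lit 13263727048721136411920746659837817665889067725616172729643305309743898555040800204652187528608706393990002253000162104829672638609044704668424950853333917471764471277985524263168605603173462922466646099060400458586854371914021682415536349544322743319837576655629886304031997204887156996977999466925041637157260391618719511871792687921559226081875493567936720988404752554487236362781691110290414129540377282839767729045168763161331450019086488981132075863240922510964924450287521505034792944056674456010755583279386652089931531087222671402542340838221072872347880926852265771880537516280740195461824763559544545276661501398284267826838995654255815837863217672216263178046123832779456267975900231159347804020813622653872349407373610014670650068321146303254834192741878061952218885872989704370855265379322988048583203154369993678169112207509913710569473205764259034800119506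95409464077511166446209617308199004264794758256408901841880316210463921579415608001828467717002857155743582733526179135399623283122167741846891269092965660426222355287037263619378408440634738791623781796682930496100336904614185694837016743590280051535114200109666085862306508561246557404642753199231001151094020357521144817612559219073714126890998388768296435685310882338110942045738385630547019744550527384876118522161974844240930061765124217698953005726066887084435086178048036697151673981114503852799766945423150967882780596499472115625443791518838581955970808637446419445223221816948901059297745142407465799064695596060970350210486002232544847806326573884143130914538034145037605562198256785374734522999374727905517374968321041407020324394130235907233032179472365590031557862447986626735061150353088103832724995006080145526749765126133106327405577345504673206472863156041855277262960850792702053021639274585374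19189008338933551325715409741055501801019837175488374237403137308757965848855757394081230136562119927613597544355060332292797968707720817939691834991976048800061230558302909556006598559384017328377452250252203216883320446974297598163223294975732259218454537136208430012439949339624981809435134563301289349909345147756417074757491518598366748673552422234926773413706074653860219545172653113736057455245646430948370618177558358249974611942667531915465168357054050040720298412673082135969459272111815700794350313151101946033342486585250916982899564597501397546496438504180674867238528884773231934093154041137455203457097559694595888017809777179974443080804835634778648339783173305856458021901680969118415033710653799731970798224409588356418596297427242513152175326568425830667024928030575315158289326987198571914546861524171340970166908690881407904435336572644872927861314020143385920896203830213678970786415610058512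99689912777598647603789567218061096620683025837306786048972207631930755119589645727470494695350673078192717446451746174676659130344440426856254780188850545342192142765665296488027958171844576101685604021674648832572051788296261910190580014504227098056705117691230830599220866191520558005204677957987562863781165810491101424339991390495766088567474900772665841614631813894612667626077705867303835348248889368920978528882825266690015682554242662576795312852767007144397219733240689995293194158049183233298923858537211546444215592955857714056432311771698225905593993865838162419069583547868054005419338131734642127414821479002453775758254584152315584367824927934938059664751613569299424904533967482120404240645355300956406795431945197722491740589167023460694229764785172648026689243216616855174004081666965158525135574822107695113617999620306908300961537122039064105541787345275514591364066084343687716828376904107785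48664605499631463363657027639879764364888457538793094231952488789774820983040299470414128005040684911913743432182229572969111070487944298854701955275945249055874491245711145698390716425778303799697144326863726299743958027392036118439628736261030125655454980887539064818127710057303409175359426238643247754343624720151827568846545672580724587607818659245020519327044027540972709940989845228490795581887418967315824510785385827335862433687858933655303791829164842250404572644708301364193518626269013748771304530648741702383349640410703852638822135000504164137335494878980248319677507312960086256566714716963770808577242785096926534404473517085588190557146823327330967100431142468471226002482520489848513216737658735924003603883702351339511578884642652023969071932092883592411388233581118326289510384923110160157414584537596964855774909975785120704225017709804779101094978972079661614005446760849458364736992756685799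72636812253079922622954259664796361628342768012496257933636766656770097947451505742308666006721534024140071943549722067882797093693682455099321542552420591565610349639445429505094552822356560191109813090728681198250928407868153362943818006427844937578501065615438315068312393093121852044158253839020450627150312602110341009395695258636980930444418552327210401745393489939071055355328054170923814333072430547898132020124980503893140517953288171833334012355384016209968430659274674187198696942390222564665919893611068434604286101844320618272462568126768442833880164030726965907851336796376552543607988646519682284275297026132852455766647033390488059110295678077395714156068777415478859304454702998567436303117237563995275341742604516237672485052484099011042410716173065802115553473437057402936647051736663405759117882283171106748080800213106330389448055474721690854521584731431835435237639692671052494846168693272587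21141449261389488459823299722013314375530564624651166657601398790673191260940956986615602393506927287886758513501344661090247364144177658913849163863444563076855986303670109294784389991230212710518120676012845746415001964946168830737576873924125518061901947189979807990157663235942902123698045909206252457044247619504344674014463023616982486888872464346224906394632232445537314949012027058607116478938417623809009688092593448166257398128634347562807326023918392975903107591953970184046481815287495711064518596097033217380601132260162279566478842648454268385433030349150712342540089499956756721255693340995771241537411031279287088784402750408427124678158214398321332609734975466769777724881274869457057450674499689173087363465706038798634948639021918398935170399885624724334279658647273182839946648823049805535720250391184373499902180306893865244655358337176431006754497809532810575010022180187154398510698927059389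32863381564827002775487338286938154931018133053542966703573760112728249258607742970785515110702442862996115143348751398895708278794428127056314509277472348777038370110359039061673116893169779839808230563426559744213571487773018810754199624746285627437123144156001153132596879034650720189845855186164806671828171276076258090805516028214754752559122306909463434563524284273770659338413023941364572246345655789421076302538620137974665492527424589158262623638016685699348780066078961553021399862667446941023279372006824594083788523866729218600772129114164580775039057135212460522425298112058383726493082369905633550597652952741052801001275741044269405661913148268484348804927230864900431478782840177764924414113874437527239202225133514868021770055186096312598670614539189991005926491801942003226294270074488622825638143556414575905529933006580707536907569144554095412049876271557126119139126729212410253280717025786706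03551854694106048084327937745004100102649045304558334667384717716632901477664859691966635986789309466794181057107091055289097308939336015559910986245366007266178478303241027934505780280058404600422788973269221377432652527651041793234496437828140818817086819962536919997002201924792909001943927363073230348731032413510055948311815715997794789863584975899625541559617412851574640432963650805685626305934201597557526709841630439992593797949300546008316372130059553144122500611954571972051992758944803333598501584476674713643879994777931904984300797617121024898805741243148379300873111571010993084677471876379433399317758312832359555049224843282719850717063086255495612884299726386571614400572841316121820617209088184996228521061147515989416513454159222578358215202896968066768179458173711778029227192588220825597234144524738265910214762627715253113093574952939816825296503102582589596249026079503833077481873528128011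40628433600611514489387282545725249140263392460956711434377119838788877079263422431686727363190591665332617388427423388190105766519201488629660285516071643744565160687323784030491084007983174446737902196489986961765299008185113500851082186188001049761531425918363806460915457614036289326774201054054365972726644704809502917047862282466088213498981624417154135067426446636186681930260253925824623440983501641879944986823867505245695627118666660636542218668307944424597440732380207157890816653837098584466643793540253200040763654206523566160931096628610437087685348393461298888769456009389160666975931859913274666902025344037449861375895742625313296877018250141659045946228102720477967867535990310789566710681458251961457478897488197000725366147655049218627512043017075239482951261093554583843054917502879687625626459707926215120377870539461934236028449651310302415853376182739572347894401977686842994793631387598439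43893536835657249010292804465341861877916575170364788661059660074333198155737591951835466304090082191437199382458061541554681946417431357704271727972336036728741722134091158379754311765862858698052809945315708113983006337551893086623711412087421206574043696164416426756576124463178560362091616205569478683447253324826332073338289869770922272262434551580645745063221253786585271078050547244192485573531548149541607015066561838129154056461411740038422962723314264985456264337229181078948933042378644858663108478854510305906673103222843073779914590421091629893160330506525978281079661860576676397520403139912413179133294497456023833826307446272033932122110215727954703130587543626105895417729236503320044475795025691476546319443676234898800573078635481762085541290826793432330566864851969394325249926505619180122204505768716535163797452714722190491032724804722450064662250887006615222049973945584413491520386285696883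62696283263963699209339049161096337417938797140928979279356214428874100092671309550752026468354228802982903904870623295278640714295018142125579830371588161186083738356332525519697670118841725246989974597634020795612438484373631259748115456135976732187331316205324642305082876107399140842782705065501363510828038005134355162525511579943842682721816121484948742153766972383504077330387978697552542066185864060037996977166693770702501603782541541739556948818256401801076317948985473534849739419851752887416689062846449187696624638209378905499567512350850113216314646840550259112589276745308162386897405047959238645477604247340105671106407584136775128098781784833534086008828316327545431095712130460577839318884574519857121785806878756879547056784028418785335013443103534953580717993210582033247319881429068331609568972330583471321059777262124176543693178172350610771052063637225577685503203066274481474838656264236329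13716451821882002305678524698776753158701683787677336287758246849620201659935159549453225999066384972138132559715486382798125671429733845635684041099658935908018220125252318219848207324160476809737528216924921008060698502646029472155775522078464528550437250771427230540657974604863221885711887866064874493271923541629505757301064318581712183464620076407443261645919133459247792106446555176087039303117012506104775974174880199150249597575789382928279080833479636662778248423941084613678750392402046051004286185982662542067813940711121398864114835445583818922220767380024127650167871474904362756703854372354780022258925113235429744172218427590544526395202919034948712167336027478663015632400655951677772979718504573889880063230453886140108624571751393952403806260912077618992011858771928892246908080291240499910179139516587533007543529871680925646068709412653030707807885778139274080866383238871098642106085311543463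33296670926888097224318189377307587033228980861890448601426213941728537389862822420435204961759538472350675872908151896537241046083435757482897301683049982336165262908239904935585189652709058875919021301798217593839986604134248667368570566525077615201224226716206398261080809167775196390421666529196787242768245942280804864847612204212807361291855387052813799793592269447398532220928747219686726710067230651578474683614642562838751652565043030775685837532061411507873544586775862715092139792998566289004384455961387360876827707305370747838088204883429991465525909059721229432493108633918991426463746548429045604991674476478394041708152484383923311913754813312681026438765850019307545666026892390506027253583509426790488335169732935984927028472074958063273927777259967118265640876207801905841762034990545122607091162123506471800762255060298930751265117643495963460043554441576388340235235311635278726551510865154064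69225591585070341241050903459993980227193891818052546237432407466797623376849241102877410758560282556111135141039043858697184019416043341331652449110754029254173105113566342257464059903127564025614916564315720092545013697463504948409257552164971262913507871679705485497574213641827988066348782666934059016969862649933699718196894748095643315444311284072107697914724033652308517109470459529715167954734273743348197913961337765186101998744814478914456304151442619195949096664978911622711132511620683421527397837993113668973408419669694142543032109781598718848610579757528245057890867363164796830491458907633635290030499108938169929459967647748544533369309560802295292612426925874248666887403253540334956488846155931101500015771851567703422973074995693076864623696798323611210603180222763506865159479706948792503610274559264718324676081092503445656692265738569837386007349156851465399928472660108047330542251619446572672776668709731201792556872733250186668504235185790198129691257483656525915904003185208956056382782747906593187181400602033470259585663482546094080)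

end Vale.Agent.Lib.P154.PChain.BQ.S8
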